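import Crest.Agent.R335.HDefs

/-!
Row 335 (S0521): Sobolev library, more definitions: `H¹₀(U)`, slicing maps, the Yukawa kernel, the
Hilbert space of `H¹` functions.
-/

set_option autoImplicit false
set_option linter.unusedSectionVars false

open MeasureTheory Filter Set
open scoped ENNReal Topology ContDiff

noncomputable section
namespace Crest.Agent.R335

variable {ι κ κ' : Type*} [Fintype ι] [DecidableEq ι] [Fintype κ] [DecidableEq κ]
  [Fintype κ'] [DecidableEq κ']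

/-- convergence in `H¹` -/
def TendstoH1 (fn : ℕ → EuclideanSpace ℝ ι → ℝ) (gn : ℕ → EuclideanSpace ℝ ι → EuclideanSpace ℝ ι)
    (f : EuclideanSpace ℝ ι → ℝ) (g : EuclideanSpace ℝ ι → EuclideanSpace ℝ ι) : Prop :=
  Tendsto (fun n => eLpNorm (fun x => fn n x - f x) 2 volume) atTop (𝓝 0) ∧
  Tendsto (fun n => eLpNorm (fun x => gn n x - g x) 2 volume) atTop (𝓝 0)

/-- `H¹₀(U)` : closure of the test functions of `U` -/
structure H10 (U : Set (EuclideanSpace ℝ ι)) (f : EuclideanSpace ℝ ι → ℝ)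
    (g : EuclideanSpace ℝ ι → EuclideanSpace ℝ ι) : Prop where
  h1 : H1 f g
  approx : ∃ φ : ℕ → EuclideanSpace ℝ ι → ℝ, (∀ n, Test U (φ n)) ∧
    TendstoH1 φ (fun n => gr (φ n)) f g

/-- join coordinates: `ℝ^κ × ℝ^κ' → ℝ^ι` -/
def jn (p : ι ≃ κ ⊕ κ') (x : EuclideanSpace ℝ κ) (y : EuclideanSpace ℝ κ') :
    EuclideanSpace ℝ ι :=
  WithLp.toLp 2 fun i => Sum.elim (fun k => x k) (fun k => y k) (p i)

/-- first group of coordinates -/
def pr1 (p : ι ≃ κ ⊕ κ') (X : EuclideanSpace ℝ ι) : EuclideanSpace ℝ κ :=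
  WithLp.toLp 2 fun k => X (p.symm (Sum.inl k))

/-- second group of coordinates -/
def pr2 (p : ι ≃ κ ⊕ κ') (X : EuclideanSpace ℝ ι) : EuclideanSpace ℝ κ' :=
  WithLp.toLp 2 fun k => X (p.symm (Sum.inr k))

@[simp] theorem jn_apply (p : ι ≃ κ ⊕ κ') (x : EuclideanSpace ℝ κ) (y : EuclideanSpace ℝ κ')
    (i : ι) : jn p x y i = Sum.elim (fun k => x k) (fun k => y k) (p i) := rfl

@[simp] theorem pr1_apply (p : ι ≃ κ ⊕ κ') (X : EuclideanSpace ℝ ι) (k : κ) :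
    pr1 p X k = X (p.symm (Sum.inl k)) := rfl

@[simp] theorem pr2_apply (p : ι ≃ κ ⊕ κ') (X : EuclideanSpace ℝ ι) (k : κ') :
    pr2 p X k = X (p.symm (Sum.inr k)) := rfl

@[simp] theorem pr1_jn (p : ι ≃ κ ⊕ κ') (x : EuclideanSpace ℝ κ) (y : EuclideanSpace ℝ κ') :
    pr1 p (jn p x y) = x := by
  ext k; simp

@[simp] theorem pr2_jn (p : ι ≃ κ ⊕ κ') (x : EuclideanSpace ℝ κ) (y : EuclideanSpace ℝ κ') :
    pr2 p (jn p x y) = y := by
  ext k; simp

@[simp] theorem jn_pr (p : ι ≃ κ ⊕ κ') (X : EuclideanSpace ℝ ι) :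
    jn p (pr1 p X) (pr2 p X) = X := by
  ext i
  rcases h : p i with k | k
  · have h' : p.symm (Sum.inl k) = i := by rw [← h, Equiv.symm_apply_apply]
    rw [jn_apply, h]
    simp [h']
  · have h' : p.symm (Sum.inr k) = i := by rw [← h, Equiv.symm_apply_apply]
    rw [jn_apply, h]
    simp [h']

/-- reflection of the coordinate `i` -/
def rfl' (i : ι) (x : EuclideanSpace ℝ ι) : EuclideanSpace ℝ ι :=
  WithLp.toLp 2 fun j => if j = i then - x j else x j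

@[simp] theorem rfl'_apply (i : ι) (x : EuclideanSpace ℝ ι) (j : ι) :
    rfl' i x j = if j = i then - x j else x j := rfl

/-- Yukawa kernel, `(-Δ + k²) Yuk k = δ₀` in `ℝ³` -/
def Yuk (k : ℝ) (x : EuclideanSpace ℝ (Fin 3)) : ℝ :=
  Real.exp (-(k * ‖x‖)) / (4 * Real.pi * ‖x‖)

/-- `Yuk k * f` -/
def YukC (k : ℝ) (f : EuclideanSpace ℝ (Fin 3) → ℝ) (x : EuclideanSpace ℝ (Fin 3)) : ℝ :=
  ∫ y, Yuk k (x - y) * f y

end Crest.Agent.R335
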