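import Crest.Agent.R335.HCut

/-!
Row 335 (S0521): basic calculus of weak gradients (module HBasic, helper543).
-/

set_option autoImplicit false
set_option linter.unusedSectionVars false
set_option linter.unusedVariables false

open MeasureTheory Filter Set
open scoped ENNReal Topology ContDiff

noncomputable section
namespace Crest.Agent.R335

variable {ι : Type*} [Fintype ι] [DecidableEq ι]

local notation "E" => EuclideanSpace ℝ ι

theorem WG.mono {U V : Set E} {f : E → ℝ} {g : E → E} (h : WG U f g) (hVU : V ⊆ U) :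
    WG V f g :=
  ⟨h.intf.mono_set hVU, h.intg.mono_set hVU, fun φ hφ i => h.ibp φ (hφ.mono hVU) i⟩

/-- a.e. equality on `U` is a.e. equality against a function supported in `U` -/
theorem ae_mul_eq_of_restrict {U : Set E} (hU : MeasurableSet U) {f f' : E → ℝ}
    (hf : f =ᵐ[volume.restrict U] f') {ψ : E → ℝ} (hψ : tsupport ψ ⊆ U) :
    (fun x => f x * ψ x) =ᵐ[volume] fun x => f' x * ψ x := by
  rw [EventuallyEq, ae_restrict_iff' hU] at hf
  filter_upwards [hf] with x hx
  by_cases h : x ∈ U
  · rw [hx h]
  · rw [image_eq_zero_of_notMem_tsupport (fun hx => h (hψ hx)), mul_zero, mul_zero]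

theorem WG.congr {U : Set E} (hU : IsOpen U) {f f' : E → ℝ} {g g' : E → E} (h : WG U f g)
    (hf : f =ᵐ[volume.restrict U] f') (hg : g =ᵐ[volume.restrict U] g') : WG U f' g' := by
  refine ⟨h.intf.congr hf, h.intg.congr hg, fun φ hφ i => ?_⟩
  have h1 := ae_mul_eq_of_restrict hU.measurableSet hf (hφ.pd i).sub
  have hgi : (fun x => g x i) =ᵐ[volume.restrict U] fun x => g' x i := by
    filter_upwards [hg] with x hx
    rw [hx]
  have h2 := ae_mul_eq_of_restrict hU.measurableSet hgi hφ.sub
  rw [← integral_congr_ae h1, ← integral_congr_ae h2]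
  exact h.ibp φ hφ i

theorem WG.add {U : Set E} {f f' : E → ℝ} {g g' : E → E} (h : WG U f g) (h' : WG U f' g')
    (hU : IsOpen U) : WG U (fun x => f x + f' x) (fun x => g x + g' x) := by
  refine ⟨h.intf.add h'.intf, h.intg.add h'.intg, fun φ hφ i => ?_⟩
  simp only [add_mul, PiLp.add_apply]
  rw [integral_add (h.integrable_fpd hφ i) (h'.integrable_fpd hφ i),
    integral_add (h.integrable_g hφ i) (h'.integrable_g hφ i), h.ibp φ hφ i, h'.ibp φ hφ i]
  ring

theorem WG.sub {U : Set E} {f f' : E → ℝ} {g g' : E → E} (h : WG U f g) (h' : WG U f' g')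
    (hU : IsOpen U) : WG U (fun x => f x - f' x) (fun x => g x - g' x) := by
  refine ⟨h.intf.sub h'.intf, h.intg.sub h'.intg, fun φ hφ i => ?_⟩
  simp only [sub_mul, PiLp.sub_apply]
  rw [integral_sub (h.integrable_fpd hφ i) (h'.integrable_fpd hφ i),
    integral_sub (h.integrable_g hφ i) (h'.integrable_g hφ i), h.ibp φ hφ i, h'.ibp φ hφ i]
  ring

theorem WG.const_mul {U : Set E} {f : E → ℝ} {g : E → E} (h : WG U f g) (c : ℝ)
    (hU : IsOpen U) : WG U (fun x => c * f x) (fun x => c • g x) := by
  refine ⟨h.intf.smul c, h.intg.smul c, fun φ hφ i => ?_⟩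
  simp only [PiLp.smul_apply, smul_eq_mul, mul_assoc]
  rw [integral_const_mul, integral_const_mul, h.ibp φ hφ i]
  ring

/-- classical `C¹` functions on an open set -/
theorem WG.of_contDiffOn {U : Set E} (hU : IsOpen U) {f : E → ℝ} (hf : ContDiffOn ℝ 1 f U) :
    WG U f (gr f) := by
  have hfd : ContinuousOn (fderiv ℝ f) U := hf.continuousOn_fderiv_of_isOpen hU (by norm_num)
  have hpd : ∀ i, ContinuousOn (pd i f) U := fun i => hfd.clm_apply continuousOn_const
  have hgr : ContinuousOn (gr f) U :=
    (PiLp.continuous_toLp 2 _).comp_continuousOn (continuousOn_pi.2 hpd)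
  have h1 : LocallyIntegrableOn f U volume :=
    hf.continuousOn.locallyIntegrableOn hU.measurableSet
  have h2 : LocallyIntegrableOn (gr f) U volume := hgr.locallyIntegrableOn hU.measurableSet
  refine ⟨h1, h2, fun φ hφ i => ?_⟩
  have := integral_mul_fderiv_eq_neg_fderiv_mul_of_integrable (μ := (volume : Measure E))
    (f := f) (g := φ) (v := EuclideanSpace.single i (1 : ℝ))
    (integrable_mul_of_loc (locallyIntegrableOn_comp h2 i) hφ.continuous hφ.cpt hφ.sub)
    (integrable_mul_of_loc h1 (hφ.pd i).continuous (hφ.pd i).cpt (hφ.pd i).sub)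
    (integrable_mul_of_loc h1 hφ.continuous hφ.cpt hφ.sub)
    (fun x hx => (hf.differentiableOn (by norm_num)).differentiableAt (hU.mem_nhds (hφ.sub hx)))
    (fun x _ => hφ.differentiableAt x)
  exact this

theorem WG.unique {U : Set E} (hU : IsOpen U) {f : E → ℝ} {g g' : E → E} (h : WG U f g)
    (h' : WG U f g') : g =ᵐ[volume.restrict U] g' := by
  have key : ∀ i, ∀ᵐ x ∂(volume : Measure E), x ∈ U → g x i - g' x i = 0 := by
    intro i
    refine hU.ae_eq_zero_of_integral_contDiff_smul_eq_zero
      ((locallyIntegrableOn_comp h.intg i).sub (locallyIntegrableOn_comp h'.intg i))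
      fun φ h1 h2 h3 => ?_
    have hφ : Test U φ := ⟨h1, h2, h3⟩
    have e1 := h.ibp φ hφ i
    have e2 := h'.ibp φ hφ i
    rw [e1] at e2
    have e3 : ∀ x, φ x • (g x i - g' x i) = g x i * φ x - g' x i * φ x := by
      intro x
      rw [smul_eq_mul]
      ring
    simp_rw [e3]
    rw [integral_sub (h.integrable_g hφ i) (h'.integrable_g hφ i)]
    linarith
  have key2 : ∀ᵐ x ∂(volume : Measure E), ∀ i, x ∈ U → g x i - g' x i = 0 :=
    ae_all_iff.2 key
  rw [EventuallyEq, ae_restrict_iff' hU.measurableSet]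
  filter_upwards [key2] with x hx hxU
  ext i
  exact sub_eq_zero.1 (hx i hxU)

/-- test integrals converge under `L¹_loc` convergence -/
theorem tendsto_integral_mul_of_loc {U : Set E} {u : E → ℝ} {un : ℕ → E → ℝ}
    (hu : LocallyIntegrableOn u U volume) (hun : ∀ n, LocallyIntegrableOn (un n) U volume)
    (h : ∀ K, IsCompact K → K ⊆ U → Tendsto (fun n => ∫ x in K, ‖un n x - u x‖) atTop (𝓝 0))
    {ψ : E → ℝ} (hc : Continuous ψ) (hcs : HasCompactSupport ψ) (hsub : tsupport ψ ⊆ U) :
    Tendsto (fun n => ∫ x, un n x * ψ x) atTop (𝓝 (∫ x, u x * ψ x)) := by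
  obtain ⟨C, hC⟩ := hcs.exists_bound_of_continuous hc
  rw [tendsto_iff_norm_sub_tendsto_zero]
  have h0 : Tendsto (fun n => (∫ x in tsupport ψ, ‖un n x - u x‖) * C) atTop (𝓝 0) := by
    simpa using (h _ hcs hsub).mul_const C
  refine squeeze_zero (fun n => norm_nonneg _) (fun n => ?_) h0
  rw [← integral_sub (integrable_mul_of_loc (hun n) hc hcs hsub)
    (integrable_mul_of_loc hu hc hcs hsub)]
  have hi : IntegrableOn (fun x => ‖un n x - u x‖) (tsupport ψ) volume :=
    (((hun n).integrableOn_compact_subset hsub hcs).sub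
      (hu.integrableOn_compact_subset hsub hcs)).norm
  calc ‖∫ x, un n x * ψ x - u x * ψ x‖ ≤ ∫ x, ‖un n x * ψ x - u x * ψ x‖ :=
        norm_integral_le_integral_norm _
    _ = ∫ x in tsupport ψ, ‖un n x * ψ x - u x * ψ x‖ := by
        rw [setIntegral_eq_integral_of_forall_compl_eq_zero]
        intro x hx
        rw [image_eq_zero_of_notMem_tsupport hx]
        simp
    _ ≤ ∫ x in tsupport ψ, ‖un n x - u x‖ * C := by
        refine integral_mono ?_ (hi.mul_const C) fun x => ?_
        · exact ((integrable_mul_of_loc (hun n) hc hcs hsub).sub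
            (integrable_mul_of_loc hu hc hcs hsub)).norm.integrableOn
        · show ‖un n x * ψ x - u x * ψ x‖ ≤ ‖un n x - u x‖ * C
          rw [← sub_mul, norm_mul]
          exact mul_le_mul_of_nonneg_left (hC x) (norm_nonneg _)
    _ = (∫ x in tsupport ψ, ‖un n x - u x‖) * C := integral_mul_const _ _

/-- `L¹_loc` closedness -/
theorem WG.of_tendsto {U : Set E} (hU : IsOpen U) {f : E → ℝ} {g : E → E} {fn : ℕ → E → ℝ}
    {gn : ℕ → E → E} (h : ∀ n, WG U (fn n) (gn n))
    (hf : LocallyIntegrableOn f U volume) (hg : LocallyIntegrableOn g U volume)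
    (hfn : ∀ K, IsCompact K → K ⊆ U → Tendsto (fun n => ∫ x in K, ‖fn n x - f x‖) atTop (𝓝 0))
    (hgn : ∀ K, IsCompact K → K ⊆ U → Tendsto (fun n => ∫ x in K, ‖gn n x - g x‖) atTop (𝓝 0)) :
    WG U f g := by
  refine ⟨hf, hg, fun φ hφ i => ?_⟩
  have t1 := tendsto_integral_mul_of_loc hf (fun n => (h n).intf) hfn (hφ.pd i).continuous
    (hφ.pd i).cpt (hφ.pd i).sub
  have hgn' : ∀ K, IsCompact K → K ⊆ U →
      Tendsto (fun n => ∫ x in K, ‖gn n x i - g x i‖) atTop (𝓝 0) := by
    intro K hK hKU
    refine squeeze_zero (fun n => integral_nonneg fun x => norm_nonneg _) (fun n => ?_)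
      (hgn K hK hKU)
    have hi : IntegrableOn (fun x => gn n x - g x) K volume :=
      ((h n).intg.integrableOn_compact_subset hKU hK).sub (hg.integrableOn_compact_subset hKU hK)
    have hii : IntegrableOn (fun x => gn n x i - g x i) K volume :=
      ((locallyIntegrableOn_comp (h n).intg i).integrableOn_compact_subset hKU hK).sub
        ((locallyIntegrableOn_comp hg i).integrableOn_compact_subset hKU hK)
    refine integral_mono hii.norm hi.norm fun x => ?_
    exact PiLp.norm_apply_le (gn n x - g x) i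
  have t2 := tendsto_integral_mul_of_loc (locallyIntegrableOn_comp hg i)
    (fun n => locallyIntegrableOn_comp (h n).intg i) hgn' hφ.continuous hφ.cpt hφ.sub
  refine tendsto_nhds_unique t1 ?_
  simp_rw [fun n => (h n).ibp φ hφ i]
  exact t2.neg

/-- product of a locally integrable and a continuous function -/
theorem locallyIntegrableOn_smul_continuous {F : Type*} [NormedAddCommGroup F] [NormedSpace ℝ F]
    {U : Set E} {k : E → ℝ} (hk : Continuous k) {g : E → F}
    (hg : LocallyIntegrableOn g U volume) : LocallyIntegrableOn (fun x => k x • g x) U volume := by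
  intro x hx
  obtain ⟨t, ht, hti⟩ := hg x hx
  refine ⟨t ∩ Metric.closedBall x 1, inter_mem ht
    (mem_nhdsWithin_of_mem_nhds (Metric.closedBall_mem_nhds x one_pos)), ?_⟩
  obtain ⟨C, hC⟩ := (isCompact_closedBall x (1 : ℝ)).exists_bound_of_continuousOn
    (f := k) hk.continuousOn
  have hti2 : IntegrableOn g (t ∩ Metric.closedBall x 1) volume := hti.mono_set inter_subset_left
  refine hti2.bdd_smul C hk.aestronglyMeasurable ?_
  refine ae_mono (Measure.restrict_mono_set volume inter_subset_right) ?_
  filter_upwards [ae_restrict_mem Metric.isClosed_closedBall.measurableSet] with y hy using hC y hy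

theorem locallyIntegrableOn_continuous_smul {F : Type*} [NormedAddCommGroup F] [NormedSpace ℝ F]
    [SecondCountableTopologyEither E F]
    {U : Set E} {k : E → F} (hk : Continuous k) {f : E → ℝ}
    (hf : LocallyIntegrableOn f U volume) : LocallyIntegrableOn (fun x => f x • k x) U volume := by
  intro x hx
  obtain ⟨t, ht, hti⟩ := hf x hx
  refine ⟨t ∩ Metric.closedBall x 1, inter_mem ht
    (mem_nhdsWithin_of_mem_nhds (Metric.closedBall_mem_nhds x one_pos)), ?_⟩
  obtain ⟨C, hC⟩ := (isCompact_closedBall x (1 : ℝ)).exists_bound_of_continuousOn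
    (f := k) hk.continuousOn
  have hti2 : IntegrableOn f (t ∩ Metric.closedBall x 1) volume := hti.mono_set inter_subset_left
  refine hti2.smul_bdd C hk.aestronglyMeasurable ?_
  refine ae_mono (Measure.restrict_mono_set volume inter_subset_right) ?_
  filter_upwards [ae_restrict_mem Metric.isClosed_closedBall.measurableSet] with y hy using hC y hy

/-- product with a smooth function (module HBasic) -/
theorem WG.mul_smooth {U : Set E} (hU : IsOpen U) {f : E → ℝ} {g : E → E} (h : WG U f g)
    {k : E → ℝ} (hk : ContDiff ℝ ∞ k) :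
    WG U (fun x => k x * f x) (fun x => k x • g x + f x • gr k x) := by
  have hk1 : ContDiff ℝ 1 k := hk.of_le (by norm_cast)
  refine ⟨locallyIntegrableOn_smul_continuous hk.continuous h.intf,
    (locallyIntegrableOn_smul_continuous hk.continuous h.intg).add
      (locallyIntegrableOn_continuous_smul (continuous_gr hk1) h.intf), fun φ hφ i => ?_⟩
  have hkφ : Test U fun x => k x * φ x := hφ.mul_left hk
  have e1 := h.ibp _ hkφ i
  have e2 : ∀ x, f x * pd i (fun y => k y * φ y) x
      = k x * f x * pd i φ x + f x * (pd i k x * φ x) := by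
    intro x
    rw [pd_mul' (hk1.differentiable (by norm_num) x) (hφ.differentiableAt x)]
    ring
  have e3 : ∀ x, (k x • g x + f x • gr k x) i * φ x
      = g x i * (k x * φ x) + f x * (pd i k x * φ x) := by
    intro x
    simp only [PiLp.add_apply, PiLp.smul_apply, smul_eq_mul, gr_apply]
    ring
  have hpdk : Test U fun x => pd i k x * φ x := hφ.mul_left (contDiff_pd' hk i)
  have i1 : Integrable (fun x => f x * (pd i k x * φ x)) := h.integrable_f hpdk
  have i2 : Integrable (fun x => k x * f x * pd i φ x) := by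
    have := h.integrable_f ((hφ.pd i).mul_left hk)
    refine this.congr (Eventually.of_forall fun x => ?_)
    show f x * (k x * pd i φ x) = k x * f x * pd i φ x
    ring
  simp_rw [e2] at e1
  rw [integral_add i2 i1] at e1
  simp_rw [e3]
  rw [integral_add (h.integrable_g hkφ i) i1]
  linarith

/-- extension by zero (module HBasic) -/
theorem WG.extend_zero {U : Set E} (hU : IsOpen U) {f : E → ℝ} {g : E → E} (h : WG U f g)
    {K : Set E} (hK : IsCompact K) (hKU : K ⊆ U) (hf : ∀ x, x ∉ K → f x = 0)
    (hg : ∀ x, x ∉ K → g x = 0) : WG univ f g := by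
  refine WG.of_local isOpen_univ fun x _ => ?_
  by_cases hx : x ∈ K
  · exact ⟨U, hU, hKU hx, h⟩
  · have h0 : WG (Kᶜ) (fun _ : E => (0 : ℝ)) (fun _ => (0 : E)) := by
      refine ⟨?_, ?_, fun φ _ i => by simp⟩
      · exact (integrable_zero _ _ _).integrableOn.locallyIntegrableOn
      · exact (integrable_zero _ _ _).integrableOn.locallyIntegrableOn
    refine ⟨Kᶜ, hK.isClosed.isOpen_compl, hx, h0.congr hK.isClosed.isOpen_compl ?_ ?_⟩
    · filter_upwards [ae_restrict_mem hK.isClosed.isOpen_compl.measurableSet] with y hy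
      exact (hf y hy).symm
    · filter_upwards [ae_restrict_mem hK.isClosed.isOpen_compl.measurableSet] with y hy
      exact (hg y hy).symm

end Crest.Agent.R335
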