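import Crest.Agent.R335.HPre

/-!
Row 335: cutoffs and locality of weak gradients (module HCut, helper543).
-/

set_option autoImplicit false
set_option linter.unusedSectionVars false

open MeasureTheory Filter Set
open scoped ENNReal Topology ContDiff Manifold

noncomputable section
namespace Crest.Agent.R335

variable {ι : Type*} [Fintype ι] [DecidableEq ι]

local notation "E" => EuclideanSpace ℝ ι

/-- smooth cutoffs (module HBasic) -/
theorem exists_cutoff {K U : Set E} (hK : IsCompact K) (hU : IsOpen U) (hKU : K ⊆ U) :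
    ∃ χ : E → ℝ, Test U χ ∧ (∀ x, χ x ∈ Icc (0 : ℝ) 1) ∧
      ∃ V, IsOpen V ∧ K ⊆ V ∧ V ⊆ U ∧ (∀ x ∈ V, χ x = 1) := by
  obtain ⟨L, hL, hKL, hLU⟩ := exists_compact_between hK hU hKU
  obtain ⟨f, h1, h0, h01⟩ := exists_contMDiffMap_one_nhds_of_subset_interior (n := ⊤)
    𝓘(ℝ, EuclideanSpace ℝ ι) hK.isClosed hKL
  have hts : tsupport (f : E → ℝ) ⊆ L := by
    refine closure_minimal (fun x hx => ?_) hL.isClosed
    by_contra hcon
    exact hx (h0 x hcon)
  obtain ⟨V, hV, hKV, hV1⟩ := mem_nhdsSet_iff_exists.1 h1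
  refine ⟨f, ⟨?_, hL.of_isClosed_subset (isClosed_tsupport _) hts, hts.trans hLU⟩, h01,
    V ∩ U, hV.inter hU, subset_inter hKV hKU, inter_subset_right, fun x hx => hV1 hx.1⟩
  exact contMDiff_iff_contDiff.1 f.contMDiff

/-- smooth cutoffs at infinity (module HBasic) -/
theorem exists_cutoff_ball : ∃ C : ℝ, 0 ≤ C ∧ ∀ R : ℝ, 1 ≤ R → ∃ χ : E → ℝ, Test univ χ ∧
    (∀ x, χ x ∈ Icc (0 : ℝ) 1) ∧ (∀ x, ‖x‖ ≤ R → χ x = 1) ∧ (∀ x, 2 * R ≤ ‖x‖ → χ x = 0) ∧
    (∀ x, ‖gr χ x‖ ≤ C / R) := by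
  obtain ⟨χ, hχ, h01, V, hV, hKV, hVU, h1⟩ := exists_cutoff (ι := ι)
    (isCompact_closedBall (0 : E) 1) (Metric.isOpen_ball (x := (0 : E)) (ε := 2))
    (Metric.closedBall_subset_ball (by norm_num))
  obtain ⟨C, hC⟩ : ∃ C, ∀ x, ‖gr χ x‖ ≤ C := by
    have hc : Continuous (gr χ) := continuous_gr hχ.contDiff_one
    have hcs : HasCompactSupport (gr χ) := by
      refine hχ.cpt.of_isClosed_subset (isClosed_tsupport _) ?_
      refine closure_minimal (fun x hx => ?_) (isClosed_tsupport _)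
      by_contra hcon
      exact hx (gr_eq_zero_of_notMem' hcon)
    exact hcs.exists_bound_of_continuous hc
  refine ⟨max C 0, le_max_right _ _, fun R hR => ?_⟩
  have hR0 : 0 < R := by linarith
  have hsm : ContDiff ℝ ∞ fun x : E => χ (R⁻¹ • x) := hχ.smooth.comp (contDiff_const_smul _)
  have hzero : ∀ x : E, 2 * R ≤ ‖x‖ → χ (R⁻¹ • x) = 0 := by
    intro x hx
    by_contra hcon
    have h2 : R⁻¹ • x ∈ Metric.ball (0 : E) 2 := hχ.sub (subset_closure hcon)
    rw [mem_ball_zero_iff, norm_smul, norm_inv, Real.norm_eq_abs, abs_of_pos hR0,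
      inv_mul_lt_iff₀ hR0] at h2
    linarith
  refine ⟨fun x => χ (R⁻¹ • x), ⟨hsm, ?_, subset_univ _⟩, fun x => h01 _, fun x hx => ?_,
    hzero, fun x => ?_⟩
  · refine HasCompactSupport.of_support_subset_isCompact (isCompact_closedBall (0 : E) (2 * R))
      fun x hx => ?_
    rw [mem_closedBall_zero_iff]
    by_contra hcon
    exact hx (hzero x (not_le.1 hcon).le)
  · refine h1 _ (hKV ?_)
    rw [mem_closedBall_zero_iff, norm_smul, norm_inv, Real.norm_eq_abs, abs_of_pos hR0,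
      inv_mul_le_iff₀ hR0]
    linarith
  · have h2 : gr (fun x : E => χ (R⁻¹ • x)) x = R⁻¹ • gr χ (R⁻¹ • x) := by
      ext i
      simp only [gr_apply, pd, PiLp.smul_apply, smul_eq_mul]
      have h3 : HasFDerivAt (fun x : E => χ (R⁻¹ • x))
          ((fderiv ℝ χ (R⁻¹ • x)).comp (R⁻¹ • ContinuousLinearMap.id ℝ E)) x := by
        have h4 : HasFDerivAt (fun x : E => R⁻¹ • x) (R⁻¹ • ContinuousLinearMap.id ℝ E) x :=
          (hasFDerivAt_id x).const_smul R⁻¹
        exact (hχ.differentiableAt (R⁻¹ • x)).hasFDerivAt.comp x h4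
      rw [h3.fderiv]
      simp
    rw [h2, norm_smul, norm_inv, Real.norm_eq_abs, abs_of_pos hR0, div_eq_inv_mul]
    exact mul_le_mul_of_nonneg_left ((hC _).trans (le_max_left _ _)) (inv_nonneg.2 hR0.le)

/-- locality -/
theorem WG.of_local {U : Set E} (hU : IsOpen U) {f : E → ℝ} {g : E → E}
    (h : ∀ x ∈ U, ∃ V, IsOpen V ∧ x ∈ V ∧ WG V f g) : WG U f g := by
  refine ⟨fun x hx => ?_, fun x hx => ?_, fun φ hφ i => ?_⟩
  · obtain ⟨V, hV, hxV, hw⟩ := h x hx
    have := hw.intf x hxV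
    rw [hV.nhdsWithin_eq hxV] at this
    exact this.filter_mono nhdsWithin_le_nhds
  · obtain ⟨V, hV, hxV, hw⟩ := h x hx
    have := hw.intg x hxV
    rw [hV.nhdsWithin_eq hxV] at this
    exact this.filter_mono nhdsWithin_le_nhds
  · -- partition of unity
    choose V hV hxV hw using h
    obtain ⟨t, hcover⟩ := hφ.cpt.elim_nhds_subcover' (fun x hx => V x (hφ.sub hx))
      (fun x hx => (hV x (hφ.sub hx)).mem_nhds (hxV x (hφ.sub hx)))
    obtain ⟨ρ, hρ⟩ := SmoothPartitionOfUnity.exists_isSubordinate 𝓘(ℝ, EuclideanSpace ℝ ι)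
      (s := tsupport φ) (isClosed_tsupport φ)
      (fun x : t => V x.1.1 (hφ.sub x.1.2)) (fun x => hV _ _) (fun y hy => by
        obtain ⟨x, hx⟩ := mem_iUnion.1 (hcover hy)
        obtain ⟨hxt, hx2⟩ := mem_iUnion.1 hx
        exact mem_iUnion.2 ⟨⟨x, hxt⟩, hx2⟩)
    have hT : ∀ x : t, Test (V x.1.1 (hφ.sub x.1.2)) fun y => ρ x y * φ y := by
      intro x
      refine ⟨(contMDiff_iff_contDiff.1 (ρ x).contMDiff).mul hφ.smooth, hφ.cpt.mul_left, ?_⟩
      refine (closure_mono fun y hy => ?_).trans (hρ x)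
      simp only [Function.mem_support] at *
      exact left_ne_zero_of_mul hy
    have hsum : φ = fun y => ∑ x : t, ρ x y * φ y := by
      funext y
      rw [← Finset.sum_mul]
      by_cases hy : y ∈ tsupport φ
      · have := ρ.sum_eq_one hy
        rw [finsum_eq_sum_of_fintype] at this
        rw [this, one_mul]
      · rw [image_eq_zero_of_notMem_tsupport hy, mul_zero]
    have hpd : ∀ y, pd i φ y = ∑ x : t, pd i (fun y => ρ x y * φ y) y := by
      intro y
      conv_lhs => rw [hsum]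
      exact pd_sum (fun x _ => (hT x).differentiableAt y) i
    have h1 : ∀ y, f y * pd i φ y = ∑ x : t, f y * pd i (fun y => ρ x y * φ y) y := by
      intro y
      rw [hpd, Finset.mul_sum]
    have h2 : ∀ y, g y i * φ y = ∑ x : t, g y i * (ρ x y * φ y) := by
      intro y
      rw [← Finset.mul_sum]
      congr 1
      exact congrFun hsum y
    simp_rw [h1, h2]
    rw [integral_finsetSum _ (fun x _ => (hw _ _).integrable_fpd (hT x) i),
      integral_finsetSum _ (fun x _ => (hw _ _).integrable_g (hT x) i), ← Finset.sum_neg_distrib]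
    exact Finset.sum_congr rfl fun x _ => (hw _ _).ibp _ (hT x) i

end Crest.Agent.R335
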