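import Crest.Agent.R335.HMollB
import Crest.Agent.R335.HBasic
import Crest.Agent.R335.HCut

/-!
Row 335 (S0521), Sobolev library: mollification of Sobolev functions (module HMoll, helper182).
-/

set_option autoImplicit false
set_option linter.unusedSectionVars false

open MeasureTheory Filter Set
open scoped ENNReal Topology ContDiff

noncomputable section
namespace Crest.Agent.R335
open Crest.Agent.R080 (eta eta_contDiff)

variable {ι : Type*} [Fintype ι] [DecidableEq ι]

local notation "E" => EuclideanSpace ℝ ι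

theorem test_eta_sub {ε : ℝ} (hε : 0 < ε) (x : E) : Test univ (fun y : E => eta ε (x - y)) :=
  ⟨contDiff_eta_sub ε x, compact_eta_sub hε x, subset_univ _⟩

theorem mo_apply {ε : ℝ} (hε : 0 < ε) {g : E → E} (hg : LocallyIntegrable g volume) (x : E)
    (i : ι) : mo ε g x i = ∫ y, eta ε (x - y) * g y i := by
  have h := (EuclideanSpace.proj (𝕜 := ℝ) i).integral_comp_comm (integrable_eta_smul hε hg x)
  have h2 : (EuclideanSpace.proj (𝕜 := ℝ) i) (mo ε g x) = ∫ y, (EuclideanSpace.proj (𝕜 := ℝ) i)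
      ((eta ε (x - y) : ℝ) • g y) := h.symm
  simpa using h2

/-- the gradient of the mollification is the mollification of the weak gradient -/
theorem gr_mo {ε : ℝ} (hε : 0 < ε) {f : E → ℝ} {g : E → E} (h : WG univ f g) (x : E) :
    gr (mo ε f) x = mo ε g x := by
  have hf : LocallyIntegrable f volume := locallyIntegrableOn_univ.mp h.intf
  have hg : LocallyIntegrable g volume := locallyIntegrableOn_univ.mp h.intg
  ext i
  rw [gr_apply, pd, fderiv_mo hε hf, mo_apply hε hg]
  have := h.ibp _ (test_eta_sub hε x) i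
  have e1 : ∀ y : E, f y * pd i (fun y : E => eta ε (x - y)) y
      = -(fderiv ℝ (eta ε : E → ℝ) (x - y) (EuclideanSpace.single i (1 : ℝ)) * f y) := by
    intro y
    rw [pd, fderiv_eta_sub]; ring
  simp_rw [e1] at this
  rw [integral_neg, neg_inj] at this
  rw [this]
  exact integral_congr_ae (Eventually.of_forall fun y => mul_comm _ _)

/-- the standard sequence of scales -/
def sc (δ : ℝ) (n : ℕ) : ℝ := δ / (n + 1)

theorem sc_pos {δ : ℝ} (hδ : 0 < δ) (n : ℕ) : 0 < sc δ n := by
  unfold sc; positivity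

theorem sc_le {δ : ℝ} (hδ : 0 < δ) (n : ℕ) : sc δ n ≤ δ := by
  unfold sc
  rw [div_le_iff₀ (by positivity)]
  nlinarith [(Nat.cast_nonneg n : (0 : ℝ) ≤ n)]

theorem sc_tendsto (δ : ℝ) : Tendsto (sc δ) atTop (𝓝 0) := by
  have := (tendsto_one_div_add_atTop_nhds_zero_nat (𝕜 := ℝ)).const_mul δ
  rw [mul_zero] at this
  refine this.congr fun n => ?_
  unfold sc; ring

theorem integrable_of_loc_supp {F : Type*} [NormedAddCommGroup F] {q : E → F} {S : Set E}
    (hS : IsCompact S) (hq : LocallyIntegrableOn q univ volume) (hq0 : ∀ x, x ∉ S → q x = 0) :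
    Integrable q := by
  have h2 : IntegrableOn q S volume :=
    (locallyIntegrableOn_univ.mp hq).integrableOn_isCompact hS
  exact h2.integrable_of_forall_notMem_eq_zero hq0

theorem tendsto_setIntegral_mo {F : Type*} [NormedAddCommGroup F] [NormedSpace ℝ F]
    [CompleteSpace F] {q : E → F} (hq : Integrable q) (K : Set E) :
    Tendsto (fun n => ∫ x in K, ‖mo (sc 1 n) q x - q x‖) atTop (𝓝 0) := by
  have hp : ∀ n, 0 < sc 1 n := sc_pos one_pos
  have hm : MemLp q 1 volume := memLp_one_iff_integrable.mpr hq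
  have hmo : ∀ n, MemLp (mo (sc 1 n) q) 1 volume := fun n =>
    ⟨(mo_continuous (hp n) hq.locallyIntegrable).aestronglyMeasurable,
      (eLpNorm_mo_le (hp n) hq.aestronglyMeasurable (Or.inl rfl)).trans_lt hm.2⟩
  have h := tendsto_eLpNorm_mo (Or.inl rfl) hm hp (sc_tendsto 1)
  have h1 : Tendsto (fun n => (eLpNorm (fun x => mo (sc 1 n) q x - q x) 1 volume).toReal)
      atTop (𝓝 0) := by
    have := (ENNReal.tendsto_toReal ENNReal.zero_ne_top).comp h
    simpa [Function.comp_def] using this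
  refine squeeze_zero (fun n => integral_nonneg fun x => norm_nonneg _) (fun n => ?_) h1
  have hi : Integrable (fun x => mo (sc 1 n) q x - q x) :=
    (memLp_one_iff_integrable.mp (hmo n)).sub hq
  calc ∫ x in K, ‖mo (sc 1 n) q x - q x‖ ≤ ∫ x, ‖mo (sc 1 n) q x - q x‖ :=
        setIntegral_le_integral hi.norm (Eventually.of_forall fun x => norm_nonneg _)
    _ = (eLpNorm (fun x => mo (sc 1 n) q x - q x) 1 volume).toReal := by
        rw [eLpNorm_one_eq_lintegral_enorm, integral_norm_eq_lintegral_enorm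
          hi.aestronglyMeasurable]

/-- a cut-off weak gradient pair: global, integrable, equal to the original near `K` -/
theorem WG.cut {U : Set E} (hU : IsOpen U) {f : E → ℝ} {g : E → E} (h : WG U f g)
    {K : Set E} (hK : IsCompact K) (hKU : K ⊆ U) :
    ∃ (f1 : E → ℝ) (g1 : E → E), WG univ f1 g1 ∧ Integrable f1 ∧ Integrable g1 ∧
      (∀ x ∈ K, f1 x = f x) ∧ (∀ x ∈ K, g1 x = g x) ∧
      (∀ a b : ℝ, (∀ x, f x ∈ Icc a b) → a ≤ 0 → 0 ≤ b → ∀ x, f1 x ∈ Icc a b) := by
  obtain ⟨χ, hχ, h01, V, hV, hKV, hVU, h1⟩ := exists_cutoff (ι := ι) hK hU hKU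
  set f1 : E → ℝ := fun x => χ x * f x with hf1
  set g1 : E → E := fun x => χ x • g x + f x • gr χ x with hg1
  have hz : ∀ x, x ∉ tsupport χ → f1 x = 0 := fun x hx => by
    simp [hf1, image_eq_zero_of_notMem_tsupport hx]
  have hzg : ∀ x, x ∉ tsupport χ → g1 x = 0 := fun x hx => by
    simp [hg1, image_eq_zero_of_notMem_tsupport hx, gr_eq_zero_of_notMem' hx]
  have hw : WG univ f1 g1 :=
    (h.mul_smooth hU hχ.smooth).extend_zero hU hχ.cpt.isCompact hχ.sub hz hzg
  refine ⟨f1, g1, hw, integrable_of_loc_supp hχ.cpt.isCompact hw.intf hz,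
    integrable_of_loc_supp hχ.cpt.isCompact hw.intg hzg, fun x hx => ?_, fun x hx => ?_,
    fun a b hab ha hb x => ?_⟩
  · simp [hf1, h1 x (hKV hx)]
  · have hgr : gr χ x = 0 := by
      ext i
      rw [gr_apply, pd_congr_of_eventuallyEq (ψ := fun _ => (1 : ℝ))
        (Filter.mem_of_superset (hV.mem_nhds (hKV hx)) fun y hy => h1 y hy)]
      simp [pd]
    simp [hg1, h1 x (hKV hx), hgr]
  · have hc := h01 x
    have hx := hab x
    constructor
    · calc a ≤ χ x * a := by nlinarith [hc.1, hc.2]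
        _ ≤ χ x * f x := mul_le_mul_of_nonneg_left hx.1 hc.1
    · calc χ x * f x ≤ χ x * b := mul_le_mul_of_nonneg_left hx.2 hc.1
        _ ≤ b := by nlinarith [hc.1, hc.2]

/-- `L¹` approximation on compacts by smooth functions; bounds and positivity are kept -/
theorem WG.approx {U : Set E} (hU : IsOpen U) {f : E → ℝ} {g : E → E} (h : WG U f g)
    {K : Set E} (hK : IsCompact K) (hKU : K ⊆ U) :
    ∃ φ : ℕ → E → ℝ, (∀ n, ContDiff ℝ ∞ (φ n)) ∧
      Tendsto (fun n => ∫ x in K, ‖φ n x - f x‖) atTop (𝓝 0) ∧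
      Tendsto (fun n => ∫ x in K, ‖gr (φ n) x - g x‖) atTop (𝓝 0) ∧
      (∀ a b : ℝ, (∀ x, f x ∈ Icc a b) → a ≤ 0 → 0 ≤ b → ∀ n x, φ n x ∈ Icc a b) := by
  obtain ⟨f1, g1, hw, hf1, hg1, hKf, hKg, hab⟩ := h.cut hU hK hKU
  have hlf : LocallyIntegrable f1 volume := hf1.locallyIntegrable
  have hlg : LocallyIntegrable g1 volume := hg1.locallyIntegrable
  have hp : ∀ n, 0 < sc 1 n := sc_pos one_pos
  refine ⟨fun n => mo (sc 1 n) f1, fun n => mo_contDiff (hp n) hlf, ?_, ?_, fun a b h1 h2 h3 n x =>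
    mo_mem_Icc (hp n) hlf (hab a b h1 h2 h3) x⟩
  · refine (tendsto_setIntegral_mo hf1 K).congr fun n => setIntegral_congr_fun hK.measurableSet fun x hx => ?_
    simp only [hKf x hx]
  · refine (tendsto_setIntegral_mo hg1 K).congr fun n => setIntegral_congr_fun hK.measurableSet fun x hx => ?_
    simp only [hKg x hx, gr_mo (hp n) hw]

theorem H1.locint_f {f : E → ℝ} {g : E → E} (h : H1 f g) : LocallyIntegrable f volume :=
  h.memf.locallyIntegrable (by norm_num)

/-- a compactly supported `H¹` function is the `H¹` limit of test functions of `U`; signs and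
bounds are kept -/
theorem H1.approx_of_supp {U : Set E} (hU : IsOpen U) {f : E → ℝ} {g : E → E} (h : H1 f g)
    {K : Set E} (hK : IsCompact K) (hKU : K ⊆ U) (hf : SuppIn K f) :
    ∃ φ : ℕ → E → ℝ, ∃ K', IsCompact K' ∧ K' ⊆ U ∧ (∀ n, Test U (φ n)) ∧
      (∀ n, SuppIn K' (φ n)) ∧
      Tendsto (fun n => eLpNorm (fun x => φ n x - f x) 2 volume) atTop (𝓝 0) ∧
      Tendsto (fun n => eLpNorm (fun x => gr (φ n) x - g x) 2 volume) atTop (𝓝 0) ∧
      (∀ a b : ℝ, (∀ x, f x ∈ Icc a b) → a ≤ 0 → 0 ≤ b → ∀ n x, φ n x ∈ Icc a b) := by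
  obtain ⟨δ, hδ, hδU⟩ := hK.exists_cthickening_subset_open hU hKU
  have hp : ∀ n, 0 < sc δ n := sc_pos hδ
  have hs : ∀ n, SuppIn (Metric.cthickening δ K) (mo (sc δ n) f) := by
    intro n x hx
    refine mo_eq_zero (hp n) (K := K) hf fun y hy => ?_
    by_contra hlt
    apply hx
    refine Metric.mem_cthickening_of_dist_le x y δ _ hy ?_
    rw [dist_eq_norm]
    exact (not_le.mp hlt).le.trans (sc_le hδ n)
  have hKc : IsCompact (Metric.cthickening δ K) := hK.cthickening
  refine ⟨fun n => mo (sc δ n) f, Metric.cthickening δ K, hKc, hδU, fun n => ?_, hs, ?_, ?_,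
    fun a b h1 _ _ n x => mo_mem_Icc (hp n) h.locint_f h1 x⟩
  · have hts : tsupport (mo (sc δ n) f) ⊆ Metric.cthickening δ K := by
      refine closure_minimal (fun x hx => ?_) hKc.isClosed
      by_contra hcon
      exact hx (hs n x hcon)
    exact ⟨mo_contDiff (hp n) h.locint_f, hKc.of_isClosed_subset (isClosed_tsupport _) hts,
      hts.trans hδU⟩
  · exact tendsto_eLpNorm_mo (Or.inr rfl) h.memf hp (sc_tendsto δ)
  · have := tendsto_eLpNorm_mo (Or.inr rfl) h.memg hp (sc_tendsto δ)
    refine this.congr fun n => ?_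
    simp only [gr_mo (hp n) h.wg]

/-- the cut-off of an `H¹` function with a test function -/
theorem H1.mul_test {f : E → ℝ} {g : E → E} (h : H1 f g) {χ : E → ℝ} (hχ : Test univ χ) :
    H1 (fun x => χ x * f x) (fun x => χ x • g x + f x • gr χ x) := by
  have hc1 : Continuous χ := hχ.smooth.continuous
  have hc2 : Continuous (gr χ) := continuous_gr (hχ.smooth.of_le (by norm_cast))
  obtain ⟨C, hC⟩ := hχ.cpt.exists_bound_of_continuous hc1
  have hcs : HasCompactSupport (gr χ) := by
    refine hχ.cpt.of_isClosed_subset (isClosed_tsupport _) ?_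
    refine closure_minimal (fun x hx => ?_) (isClosed_tsupport _)
    by_contra hcon
    exact hx (gr_eq_zero_of_notMem' hcon)
  obtain ⟨C', hC'⟩ := hcs.exists_bound_of_continuous hc2
  refine ⟨?_, ?_, h.wg.mul_smooth isOpen_univ hχ.smooth⟩
  · refine h.memf.of_le_mul (c := C) (hc1.aestronglyMeasurable.mul h.memf.1)
      (Eventually.of_forall fun x => ?_)
    rw [norm_mul]
    exact mul_le_mul_of_nonneg_right (hC x) (norm_nonneg _)
  · refine MemLp.add ?_ ?_
    · refine h.memg.of_le_mul (c := C) (hc1.aestronglyMeasurable.smul h.memg.1)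
        (Eventually.of_forall fun x => ?_)
      rw [norm_smul]
      exact mul_le_mul_of_nonneg_right (hC x) (norm_nonneg _)
    · refine h.memf.of_le_mul (c := C') (h.memf.1.smul hc2.aestronglyMeasurable)
        (Eventually.of_forall fun x => ?_)
      rw [norm_smul, mul_comm]
      exact mul_le_mul_of_nonneg_right (hC' x) (norm_nonneg _)

theorem tendsto_eLpNorm_zero_of_dom {F : Type*} [NormedAddCommGroup F] {u : ℕ → E → F}
    {b : E → ℝ} (hb : MemLp b 2 volume) (hu : ∀ n, AEStronglyMeasurable (u n) volume)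
    (hle : ∀ n, ∀ᵐ x, ‖u n x‖ ≤ b x) (hlim : ∀ᵐ x, Tendsto (fun n => u n x) atTop (𝓝 0)) :
    Tendsto (fun n => eLpNorm (u n) 2 volume) atTop (𝓝 0) := by
  have key : Tendsto (fun n => ∫⁻ x, ‖u n x‖ₑ ^ 2) atTop (𝓝 0) := by
    have := tendsto_lintegral_of_dominated_convergence' (μ := (volume : Measure E))
      (F := fun n x => ‖u n x‖ₑ ^ 2) (f := fun _ => 0) (fun x => ‖b x‖ₑ ^ 2)
      (fun n => (hu n).enorm.pow_const 2) (fun n => ?_) ?_ ?_
    · simpa using this
    · filter_upwards [hle n] with x hx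
      have : ‖u n x‖ₑ ≤ ‖b x‖ₑ := by
        rw [enorm_le_iff_norm_le]
        exact hx.trans (le_abs_self _)
      gcongr
    · have h2 := hb.2
      rw [eLpNorm_lt_top_iff_lintegral_rpow_enorm_lt_top (by norm_num) (by norm_num)] at h2
      simp only [ENNReal.toReal_ofNat, ENNReal.rpow_ofNat] at h2
      exact h2.ne
    · filter_upwards [hlim] with x hx
      have h3 : Tendsto (fun n => ‖u n x‖ₑ) atTop (𝓝 0) := by
        have := hx.enorm
        simpa using this
      have h4 := (ENNReal.continuous_pow 2).tendsto (0 : ℝ≥0∞)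
      have h5 := h4.comp h3
      simpa [Function.comp_def] using h5
  have h6 : ∀ n, eLpNorm (u n) 2 volume = (∫⁻ x, ‖u n x‖ₑ ^ 2) ^ (1 / 2 : ℝ) := fun n => by
    rw [eLpNorm_eq_lintegral_rpow_enorm_toReal (by norm_num) (by norm_num)]
    simp
  simp_rw [h6]
  have h7 := (ENNReal.continuous_rpow_const (y := (1 / 2 : ℝ))).tendsto (0 : ℝ≥0∞)
  have h8 := h7.comp key
  rw [ENNReal.zero_rpow_of_pos (by norm_num)] at h8
  exact h8

/-- density of `C_c^∞` in `H¹` -/
theorem H1.approx {f : E → ℝ} {g : E → E} (h : H1 f g) :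
    ∃ φ : ℕ → E → ℝ, (∀ n, Test univ (φ n)) ∧
      Tendsto (fun n => eLpNorm (fun x => φ n x - f x) 2 volume) atTop (𝓝 0) ∧
      Tendsto (fun n => eLpNorm (fun x => gr (φ n) x - g x) 2 volume) atTop (𝓝 0) ∧
      (∀ a b : ℝ, (∀ x, f x ∈ Icc a b) → a ≤ 0 → 0 ≤ b → ∀ n x, φ n x ∈ Icc a b) := by
  obtain ⟨C, hC0, hC⟩ := exists_cutoff_ball (ι := ι)
  choose χ hχT hχ01 hχ1 hχ0 hχg using fun n : ℕ => hC ((n : ℝ) + 1)
    (by linarith [(Nat.cast_nonneg n : (0 : ℝ) ≤ n)])
  set fn : ℕ → E → ℝ := fun n x => χ n x * f x with hfn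
  set gn : ℕ → E → E := fun n x => χ n x • g x + f x • gr (χ n) x with hgn
  have hH : ∀ n, H1 (fn n) (gn n) := fun n => h.mul_test (hχT n)
  have hev : ∀ x : E, ∀ᶠ n : ℕ in atTop, ‖x‖ < (n : ℝ) + 1 := fun x => by
    obtain ⟨N, hN⟩ := exists_nat_gt ‖x‖
    filter_upwards [eventually_ge_atTop N] with n hn
    have : (N : ℝ) ≤ n := by exact_mod_cast hn
    linarith
  -- convergence of the cut-offs
  have l1 : Tendsto (fun n => eLpNorm (fun x => fn n x - f x) 2 volume) atTop (𝓝 0) := by
    refine tendsto_eLpNorm_zero_of_dom h.memf.norm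
      (fun n => (hH n).memf.1.sub h.memf.1) (fun n => Eventually.of_forall fun x => ?_)
      (Eventually.of_forall fun x => ?_)
    · have e : fn n x - f x = (χ n x - 1) * f x := by simp only [hfn]; ring
      rw [e, norm_mul]
      have : ‖χ n x - 1‖ ≤ 1 := by
        rw [Real.norm_eq_abs, abs_le]
        have := hχ01 n x
        constructor <;> linarith [this.1, this.2]
      nlinarith [norm_nonneg (f x)]
    · refine tendsto_const_nhds.congr' ?_
      filter_upwards [hev x] with n hn
      simp [hfn, hχ1 n x hn.le]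
  have l2 : Tendsto (fun n => eLpNorm (fun x => gn n x - g x) 2 volume) atTop (𝓝 0) := by
    refine tendsto_eLpNorm_zero_of_dom (b := fun x => ‖g x‖ + C * ‖f x‖)
      (h.memg.norm.add (h.memf.norm.const_mul C))
      (fun n => (hH n).memg.1.sub h.memg.1) (fun n => Eventually.of_forall fun x => ?_)
      (Eventually.of_forall fun x => ?_)
    · have e : gn n x - g x = (χ n x - 1) • g x + f x • gr (χ n) x := by
        simp only [hgn, sub_smul, one_smul]; abel
      rw [e]
      refine (norm_add_le _ _).trans ?_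
      rw [norm_smul, norm_smul]
      have h1 : ‖χ n x - 1‖ ≤ 1 := by
        rw [Real.norm_eq_abs, abs_le]
        have := hχ01 n x
        constructor <;> linarith [this.1, this.2]
      have h2 : ‖gr (χ n) x‖ ≤ C := by
        refine (hχg n x).trans ?_
        rw [div_le_iff₀ (by positivity)]
        nlinarith [(Nat.cast_nonneg n : (0 : ℝ) ≤ n)]
      have h3 : ‖χ n x - 1‖ * ‖g x‖ ≤ ‖g x‖ := by nlinarith [norm_nonneg (g x)]
      have h4 : ‖f x‖ * ‖gr (χ n) x‖ ≤ C * ‖f x‖ := by nlinarith [norm_nonneg (f x)]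
      linarith
    · refine tendsto_const_nhds.congr' ?_
      filter_upwards [hev x] with n hn
      have hgr : gr (χ n) x = 0 := by
        ext i
        have hb : Metric.ball (0 : E) ((n : ℝ) + 1) ∈ 𝓝 x :=
          Metric.isOpen_ball.mem_nhds (by simpa using hn)
        rw [gr_apply, pd_congr_of_eventuallyEq (ψ := fun _ => (1 : ℝ))
          (Filter.mem_of_superset hb fun y hy => hχ1 n y (by
            have : ‖y‖ < (n : ℝ) + 1 := by simpa using hy
            exact this.le))]
        simp [pd]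
      simp [hgn, hχ1 n x hn.le, hgr]
  -- mollify each cut-off
  have hsupp : ∀ n, SuppIn (tsupport (χ n)) (fn n) := fun n x hx => by
    simp [hfn, image_eq_zero_of_notMem_tsupport hx]
  choose ψ K' _ _ hψT _ hψ1 hψ2 hψb using fun n =>
    (hH n).approx_of_supp isOpen_univ (hχT n).cpt.isCompact (subset_univ _) (hsupp n)
  have hpos : ∀ n : ℕ, (0 : ℝ≥0∞) < ENNReal.ofReal (1 / ((n : ℝ) + 1)) := fun n => by
    rw [ENNReal.ofReal_pos]; positivity
  have hsel : ∀ n : ℕ, ∃ m, eLpNorm (fun x => ψ n m x - fn n x) 2 volume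
        ≤ ENNReal.ofReal (1 / ((n : ℝ) + 1)) ∧
      eLpNorm (fun x => gr (ψ n m) x - gn n x) 2 volume ≤ ENNReal.ofReal (1 / ((n : ℝ) + 1)) := by
    intro n
    exact (((ENNReal.tendsto_nhds_zero.mp (hψ1 n)) _ (hpos n)).and
      ((ENNReal.tendsto_nhds_zero.mp (hψ2 n)) _ (hpos n))).exists
  choose m hm1 hm2 using hsel
  have hz : Tendsto (fun n : ℕ => ENNReal.ofReal (1 / ((n : ℝ) + 1))) atTop (𝓝 0) := by
    have := (ENNReal.continuous_ofReal.tendsto 0).comp
      (tendsto_one_div_add_atTop_nhds_zero_nat (𝕜 := ℝ))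
    simpa [Function.comp_def] using this
  refine ⟨fun n => ψ n (m n), fun n => hψT n (m n), ?_, ?_, fun a b h1 h2 h3 n x => ?_⟩
  · have hs := hz.add l1
    rw [add_zero] at hs
    refine tendsto_of_tendsto_of_tendsto_of_le_of_le tendsto_const_nhds hs
      (fun n => bot_le) (fun n => ?_)
    have e : (fun x => ψ n (m n) x - f x) =
        (fun x => ψ n (m n) x - fn n x) + fun x => fn n x - f x := by
      funext x; simp
    have a1 : AEStronglyMeasurable (ψ n (m n)) volume :=
      (hψT n (m n)).smooth.continuous.aestronglyMeasurable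
    calc eLpNorm (fun x => ψ n (m n) x - f x) 2 volume
        ≤ eLpNorm (fun x => ψ n (m n) x - fn n x) 2 volume
          + eLpNorm (fun x => fn n x - f x) 2 volume := by
          rw [e]
          exact eLpNorm_add_le (a1.sub (hH n).memf.1) ((hH n).memf.1.sub h.memf.1) (by norm_num)
      _ ≤ _ := by gcongr; exact hm1 n
  · have hs := hz.add l2
    rw [add_zero] at hs
    refine tendsto_of_tendsto_of_tendsto_of_le_of_le tendsto_const_nhds hs
      (fun n => bot_le) (fun n => ?_)
    have e : (fun x => gr (ψ n (m n)) x - g x) =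
        (fun x => gr (ψ n (m n)) x - gn n x) + fun x => gn n x - g x := by
      funext x; simp
    have a1 : AEStronglyMeasurable (gr (ψ n (m n))) volume :=
      (continuous_gr ((hψT n (m n)).smooth.of_le (by norm_cast))).aestronglyMeasurable
    calc eLpNorm (fun x => gr (ψ n (m n)) x - g x) 2 volume
        ≤ eLpNorm (fun x => gr (ψ n (m n)) x - gn n x) 2 volume
          + eLpNorm (fun x => gn n x - g x) 2 volume := by
          rw [e]
          exact eLpNorm_add_le (a1.sub (hH n).memg.1) ((hH n).memg.1.sub h.memg.1) (by norm_num)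
      _ ≤ _ := by gcongr; exact hm2 n
  · refine hψb n a b (fun y => ?_) h2 h3 (m n) x
    have hc := hχ01 n y
    have hy := h1 y
    constructor
    · calc a ≤ χ n y * a := by nlinarith [hc.1, hc.2]
        _ ≤ χ n y * f y := mul_le_mul_of_nonneg_left hy.1 hc.1
    · calc χ n y * f y ≤ χ n y * b := mul_le_mul_of_nonneg_left hy.2 hc.1
        _ ≤ b := by nlinarith [hc.1, hc.2]

end Crest.Agent.R335
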