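import Crest.Agent.R335.HBasic
import Crest.Agent.R335.HChain

/-!
Row 335 (S0521): Sobolev library, module HGlob: global `H¹` calculus.
-/

set_option autoImplicit false
set_option linter.unusedSectionVars false

open MeasureTheory Filter Set
open scoped ENNReal Topology ContDiff

noncomputable section
namespace Crest.Agent.R335

variable {ι : Type*} [Fintype ι] [DecidableEq ι]

local notation "E" => EuclideanSpace ℝ ι

theorem H1.congr {f f' : E → ℝ} {g g' : E → E} (h : H1 f g) (hf : f =ᵐ[volume] f')
    (hg : g =ᵐ[volume] g') : H1 f' g' where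
  memf := h.memf.ae_eq hf
  memg := h.memg.ae_eq hg
  wg := WG.congr isOpen_univ h.wg (by simpa using hf) (by simpa using hg)

theorem H1.unique {f : E → ℝ} {g g' : E → E} (h : H1 f g) (h' : H1 f g') :
    g =ᵐ[volume] g' := by
  simpa using WG.unique isOpen_univ h.wg h'.wg

theorem H1.add {f f' : E → ℝ} {g g' : E → E} (h : H1 f g) (h' : H1 f' g') :
    H1 (fun x => f x + f' x) (fun x => g x + g' x) where
  memf := h.memf.add h'.memf
  memg := h.memg.add h'.memg
  wg := WG.add h.wg h'.wg isOpen_univ

theorem H1.sub {f f' : E → ℝ} {g g' : E → E} (h : H1 f g) (h' : H1 f' g') :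
    H1 (fun x => f x - f' x) (fun x => g x - g' x) where
  memf := h.memf.sub h'.memf
  memg := h.memg.sub h'.memg
  wg := WG.sub h.wg h'.wg isOpen_univ

theorem H1.const_mul {f : E → ℝ} {g : E → E} (h : H1 f g) (c : ℝ) :
    H1 (fun x => c * f x) (fun x => c • g x) where
  memf := h.memf.const_mul c
  memg := h.memg.const_smul c
  wg := WG.const_mul h.wg c isOpen_univ

theorem contDiff_pd {φ : E → ℝ} (h : ContDiff ℝ ∞ φ) (i : ι) : ContDiff ℝ ∞ (pd i φ) :=
  contDiff_pd' h i

theorem contDiff_gr {φ : E → ℝ} (h : ContDiff ℝ ∞ φ) : ContDiff ℝ ∞ (gr φ) := by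
  rw [contDiff_euclidean]
  intro i
  exact contDiff_pd h i

theorem hasCompactSupport_pd {φ : E → ℝ} (h : HasCompactSupport φ) (i : ι) :
    HasCompactSupport (pd i φ) := by
  have h1 : HasCompactSupport (fderiv ℝ φ) := h.fderiv ℝ
  exact h1.comp_left (g := fun L : E →L[ℝ] ℝ => L (EuclideanSpace.single i (1 : ℝ))) (by simp)

theorem hasCompactSupport_gr {φ : E → ℝ} (h : HasCompactSupport φ) :
    HasCompactSupport (gr φ) := by
  have h1 : HasCompactSupport (fderiv ℝ φ) := h.fderiv ℝ
  exact h1.comp_left (g := fun L : E →L[ℝ] ℝ =>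
    (WithLp.toLp 2 fun i => L (EuclideanSpace.single i (1 : ℝ)) : E))
    (by ext i; simp)

theorem H1.of_test {U : Set E} {φ : E → ℝ} (h : Test U φ) : H1 φ (gr φ) where
  memf := h.smooth.continuous.memLp_of_hasCompactSupport h.cpt
  memg := (contDiff_gr h.smooth).continuous.memLp_of_hasCompactSupport (hasCompactSupport_gr h.cpt)
  wg := WG.of_contDiffOn isOpen_univ ((h.smooth.of_le (by simp)).contDiffOn)

/-- `L²` convergence implies `L¹` convergence on compacts -/
theorem tendsto_L1_of_L2 {F : Type*} [NormedAddCommGroup F] [NormedSpace ℝ F]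
    {f : E → F} {fn : ℕ → E → F} (hn : ∀ n, MemLp (fn n) 2 volume) (hf : MemLp f 2 volume)
    (hfn : Tendsto (fun n => eLpNorm (fun x => fn n x - f x) 2 volume) atTop (𝓝 0))
    {K : Set E} (hK : IsCompact K) :
    Tendsto (fun n => ∫ x in K, ‖fn n x - f x‖) atTop (𝓝 0) := by
  have hm : ∀ n, AEStronglyMeasurable (fun x => fn n x - f x) volume := fun n =>
    ((hn n).sub hf).aestronglyMeasurable
  have hKm : volume K < ⊤ := hK.measure_lt_top
  have key : ∀ n, ∫ x in K, ‖fn n x - f x‖ ≤
      ((eLpNorm (fun x => fn n x - f x) 2 volume) * (volume K) ^ ((1 : ℝ) - 1 / 2)).toReal := by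
    intro n
    have h2 : MemLp (fun x => fn n x - f x) 2 volume := (hn n).sub hf
    have h1 : eLpNorm (fun x => fn n x - f x) 1 (volume.restrict K) ≤
        eLpNorm (fun x => fn n x - f x) 2 (volume.restrict K) *
          (volume.restrict K) univ ^ (1 / (1 : ℝ≥0∞).toReal - 1 / (2 : ℝ≥0∞).toReal) :=
      eLpNorm_le_eLpNorm_mul_rpow_measure_univ (by norm_num) (hm n).restrict
    have h3 : eLpNorm (fun x => fn n x - f x) 1 (volume.restrict K) =
        ENNReal.ofReal (∫ x in K, ‖fn n x - f x‖) := by
      rw [eLpNorm_one_eq_lintegral_enorm, ofReal_integral_norm_eq_lintegral_enorm]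
      have : IsFiniteMeasure (volume.restrict K) := ⟨by simpa using hKm⟩
      exact (h2.restrict K).integrable (by norm_num)
    have h4 : eLpNorm (fun x => fn n x - f x) 2 (volume.restrict K) ≤
        eLpNorm (fun x => fn n x - f x) 2 volume := eLpNorm_mono_measure _ Measure.restrict_le_self
    have h5 : ENNReal.ofReal (∫ x in K, ‖fn n x - f x‖) ≤
        (eLpNorm (fun x => fn n x - f x) 2 volume) * (volume K) ^ ((1 : ℝ) - 1 / 2) := by
      rw [← h3]
      refine h1.trans ?_
      have : (1 / (1 : ℝ≥0∞).toReal - 1 / (2 : ℝ≥0∞).toReal) = (1 : ℝ) - 1 / 2 := by simp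
      rw [this, Measure.restrict_apply_univ]
      gcongr
    refine (ENNReal.ofReal_le_iff_le_toReal ?_).1 h5
    exact ENNReal.mul_ne_top h2.eLpNorm_ne_top (ENNReal.rpow_ne_top_of_nonneg (by norm_num) hKm.ne)
  have hlim : Tendsto (fun n => ((eLpNorm (fun x => fn n x - f x) 2 volume) *
      (volume K) ^ ((1 : ℝ) - 1 / 2)).toReal) atTop (𝓝 0) := by
    have h0 : Tendsto (fun n => (eLpNorm (fun x => fn n x - f x) 2 volume) *
      (volume K) ^ ((1 : ℝ) - 1 / 2)) atTop (𝓝 (0 * (volume K) ^ ((1 : ℝ) - 1 / 2))) :=
      ENNReal.Tendsto.mul_const hfn (Or.inr (ENNReal.rpow_ne_top_of_nonneg (by norm_num) hKm.ne))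
    rw [zero_mul] at h0
    exact (ENNReal.tendsto_toReal ENNReal.zero_ne_top).comp h0
  exact squeeze_zero (fun n => integral_nonneg fun x => norm_nonneg _) key hlim

/-- `L²` closedness of `H¹` -/
theorem H1.of_tendsto {f : E → ℝ} {g : E → E} {fn : ℕ → E → ℝ} {gn : ℕ → E → E}
    (h : ∀ n, H1 (fn n) (gn n)) (hf : MemLp f 2 volume) (hg : MemLp g 2 volume)
    (hfn : Tendsto (fun n => eLpNorm (fun x => fn n x - f x) 2 volume) atTop (𝓝 0))
    (hgn : Tendsto (fun n => eLpNorm (fun x => gn n x - g x) 2 volume) atTop (𝓝 0)) :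
    H1 f g where
  memf := hf
  memg := hg
  wg := by
    refine WG.of_tendsto isOpen_univ (fun n => (h n).wg)
      (locallyIntegrableOn_univ.2 (hf.locallyIntegrable (by norm_num)))
      (locallyIntegrableOn_univ.2 (hg.locallyIntegrable (by norm_num))) ?_ ?_
    · intro K hK _
      exact tendsto_L1_of_L2 (fun n => (h n).memf) hf hfn hK
    · intro K hK _
      exact tendsto_L1_of_L2 (fun n => (h n).memg) hg hgn hK

/-- composition with a `C¹` function of bounded derivative with `F 0 = 0` -/
theorem H1.comp {f : E → ℝ} {g : E → E} (h : H1 f g) {F : ℝ → ℝ} (hF : ContDiff ℝ 1 F) {C : ℝ}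
    (hC : ∀ t, |deriv F t| ≤ C) (h0 : F 0 = 0) :
    H1 (fun x => F (f x)) (fun x => deriv F (f x) • g x) where
  memf := by
    have hb : ∀ t, |F t| ≤ C * |t| := by
      intro t
      have := Convex.norm_image_sub_le_of_norm_deriv_le (f := F) (s := univ) (x := 0) (y := t)
        (C := C) (fun x _ => (hF.differentiable (by norm_num)) x) (fun x _ => hC x) convex_univ
        (mem_univ _) (mem_univ _)
      simpa [h0] using this
    refine MemLp.of_le_mul (c := C) h.memf
      (hF.continuous.comp_aestronglyMeasurable h.memf.aestronglyMeasurable) ?_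
    exact Eventually.of_forall fun x => hb (f x)
  memg := by
    have hc : Continuous (deriv F) := hF.continuous_deriv (by norm_num)
    refine MemLp.of_le_mul (c := C) h.memg
      ((hc.comp_aestronglyMeasurable h.memf.aestronglyMeasurable).smul
        h.memg.aestronglyMeasurable) ?_
    refine Eventually.of_forall fun x => ?_
    rw [norm_smul]
    exact mul_le_mul_of_nonneg_right (hC _) (norm_nonneg _)
  wg := WG.comp isOpen_univ h.wg hF hC

theorem aesm_ite {F : Type*} [NormedAddCommGroup F] {p q : E → ℝ} {a b : E → F}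
    (hp : AEStronglyMeasurable p volume) (hq : AEStronglyMeasurable q volume)
    (ha : AEStronglyMeasurable a volume) (hb : AEStronglyMeasurable b volume) :
    AEStronglyMeasurable (fun x => if p x < q x then a x else b x) volume := by
  classical
  have hs : NullMeasurableSet {x | p x < q x} volume :=
    nullMeasurableSet_lt hp.aemeasurable hq.aemeasurable
  obtain ⟨t, ht, hmt, hst⟩ := hs.exists_measurable_superset_ae_eq
  have h1 : AEStronglyMeasurable (fun x => t.piecewise a b x) volume := by
    refine AEStronglyMeasurable.piecewise hmt ha.restrict hb.restrict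
  refine h1.congr ?_
  filter_upwards [hst] with x hx
  have hx' : (x ∈ t) ↔ (x ∈ {x | p x < q x}) := by
    have : t x = ({x | p x < q x} : Set E) x := hx
    exact iff_of_eq this
  by_cases h : p x < q x
  · have : x ∈ t := hx'.2 h
    simp [Set.piecewise, this, h]
  · have : x ∉ t := fun hh => h (hx'.1 hh)
    simp [Set.piecewise, this, h]

theorem H1.abs {f : E → ℝ} {g : E → E} (h : H1 f g) :
    H1 (fun x => |f x|) (fun x => if 0 < f x then g x else -g x) where
  memf := h.memf.abs
  memg := by
    refine MemLp.of_le h.memg (aesm_ite aestronglyMeasurable_const h.memf.aestronglyMeasurable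
      h.memg.aestronglyMeasurable h.memg.aestronglyMeasurable.neg) ?_
    refine Eventually.of_forall fun x => ?_
    split_ifs <;> simp
  wg := WG.abs isOpen_univ h.wg

theorem H1.pos {f : E → ℝ} {g : E → E} (h : H1 f g) :
    H1 (fun x => Max.max (f x) 0) (fun x => if 0 < f x then g x else 0) where
  memf := by
    refine MemLp.of_le h.memf (h.memf.aestronglyMeasurable.sup aestronglyMeasurable_const) ?_
    refine Eventually.of_forall fun x => ?_
    rw [Real.norm_eq_abs, Real.norm_eq_abs, abs_of_nonneg (le_max_right _ _)]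
    exact max_le (le_abs_self _) (abs_nonneg _)
  memg := by
    refine MemLp.of_le h.memg (aesm_ite aestronglyMeasurable_const h.memf.aestronglyMeasurable
      h.memg.aestronglyMeasurable aestronglyMeasurable_const) ?_
    refine Eventually.of_forall fun x => ?_
    split_ifs <;> simp
  wg := WG.pos isOpen_univ h.wg

theorem H1.max {f f' : E → ℝ} {g g' : E → E} (h : H1 f g) (h' : H1 f' g') :
    H1 (fun x => Max.max (f x) (f' x)) (fun x => if f' x < f x then g x else g' x) where
  memf := h.memf.sup h'.memf
  memg := by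
    refine MemLp.of_le (h.memg.norm.add h'.memg.norm)
      (aesm_ite h'.memf.aestronglyMeasurable h.memf.aestronglyMeasurable
      h.memg.aestronglyMeasurable h'.memg.aestronglyMeasurable) ?_
    refine Eventually.of_forall fun x => ?_
    dsimp only [Pi.add_apply]
    rw [Real.norm_eq_abs, abs_of_nonneg (by positivity)]
    split_ifs
    · linarith [norm_nonneg (g' x)]
    · linarith [norm_nonneg (g x)]
  wg := WG.max isOpen_univ h.wg h'.wg

theorem H1.min {f f' : E → ℝ} {g g' : E → E} (h : H1 f g) (h' : H1 f' g') :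
    H1 (fun x => Min.min (f x) (f' x)) (fun x => if f x < f' x then g x else g' x) where
  memf := h.memf.inf h'.memf
  memg := by
    refine MemLp.of_le (h.memg.norm.add h'.memg.norm)
      (aesm_ite h.memf.aestronglyMeasurable h'.memf.aestronglyMeasurable
      h.memg.aestronglyMeasurable h'.memg.aestronglyMeasurable) ?_
    refine Eventually.of_forall fun x => ?_
    dsimp only [Pi.add_apply]
    rw [Real.norm_eq_abs, abs_of_nonneg (by positivity)]
    split_ifs
    · linarith [norm_nonneg (g' x)]
    · linarith [norm_nonneg (g x)]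
  wg := WG.min isOpen_univ h.wg h'.wg

/-- positive part of `f - b`, `b ≥ 0` only locally Sobolev (the standard comparison function) -/
theorem H1.sub_pos {f b : E → ℝ} {g l : E → E} (h : H1 f g) (hb : WG univ b l)
    (hb0 : ∀ x, 0 ≤ b x) (hl : MemLp (fun x => if b x < f x then l x else 0) 2 volume) :
    H1 (fun x => Max.max (f x - b x) 0) (fun x => if b x < f x then g x - l x else 0) := by
  have hbm : AEStronglyMeasurable b volume :=
    (locallyIntegrableOn_univ.1 hb.intf).aestronglyMeasurable
  have hlm : AEStronglyMeasurable l volume :=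
    (locallyIntegrableOn_univ.1 hb.intg).aestronglyMeasurable
  have h1 : WG univ (fun x => f x - b x) (fun x => g x - l x) := WG.sub h.wg hb isOpen_univ
  have h2 := WG.pos isOpen_univ h1
  have he : (fun x => if 0 < f x - b x then g x - l x else 0) =
      fun x => if b x < f x then g x - l x else 0 := by
    funext x
    simp only [_root_.sub_pos]
  refine ⟨?_, ?_, he ▸ h2⟩
  · refine MemLp.of_le h.memf ((h.memf.aestronglyMeasurable.sub hbm).sup
      aestronglyMeasurable_const) ?_
    refine Eventually.of_forall fun x => ?_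
    rw [Real.norm_eq_abs, Real.norm_eq_abs, abs_of_nonneg (le_max_right _ _)]
    exact max_le ((sub_le_self _ (hb0 x)).trans (le_abs_self _)) (abs_nonneg _)
  · have h3 : MemLp (fun x => if b x < f x then g x else 0) 2 volume := by
      refine MemLp.of_le h.memg (aesm_ite hbm h.memf.aestronglyMeasurable
        h.memg.aestronglyMeasurable aestronglyMeasurable_const) ?_
      refine Eventually.of_forall fun x => ?_
      split_ifs <;> simp
    refine (h3.sub hl).ae_eq (Eventually.of_forall fun x => ?_)
    change (if b x < f x then g x else 0) - (if b x < f x then l x else 0) =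
      (if b x < f x then g x - l x else 0)
    by_cases hx : b x < f x
    · rw [if_pos hx, if_pos hx, if_pos hx]
    · rw [if_neg hx, if_neg hx, if_neg hx, sub_zero]

end Crest.Agent.R335
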