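import Crest.Agent.R335.HDefs
import Crest.Agent.R335.H1Fourier

/-!
# Row 335: bridge between the Prelude kinetic energy and the real class `H1` (helper50)
-/

set_option autoImplicit false
set_option linter.unusedSectionVars false

open MeasureTheory Filter Topology Set
open scoped ContDiff ENNReal
open Crest.MathPhysics.ThreeBody

noncomputable section

namespace Crest.Agent.R335.HF

open Crest.Agent.R335

variable {ι : Type*} [Fintype ι] [DecidableEq ι]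

/-- the two notions of `H¹` for real functions agree -/
theorem isH1_iff_H1 {f : EuclideanSpace ℝ ι → ℝ} {g : EuclideanSpace ℝ ι → EuclideanSpace ℝ ι} :
    IsH1 f g ↔ H1 f g := by
  constructor
  · intro h
    refine ⟨h.memf, h.memg, ⟨(h.memf.locallyIntegrable (by norm_num)).locallyIntegrableOn _,
      (h.memg.locallyIntegrable (by norm_num)).locallyIntegrableOn _, fun φ hφ i => ?_⟩⟩
    have := h.ibp φ hφ.smooth hφ.cpt i
    simp only [smul_eq_mul] at this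
    simp only [pd]
    rw [show (∫ x, f x * fderiv ℝ φ x (EuclideanSpace.single i (1 : ℝ))) =
      ∫ x, fderiv ℝ φ x (EuclideanSpace.single i (1 : ℝ)) * f x from by simp only [mul_comm], this]
    simp only [mul_comm]
  · intro h
    refine ⟨h.memf, h.memg, fun φ h1 h2 i => ?_⟩
    have := h.wg.ibp φ ⟨h1, h2, subset_univ _⟩ i
    simp only [pd] at this
    simp only [smul_eq_mul]
    rw [show (∫ x, fderiv ℝ φ x (EuclideanSpace.single i (1 : ℝ)) * f x) =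
      ∫ x, f x * fderiv ℝ φ x (EuclideanSpace.single i (1 : ℝ)) from by simp only [mul_comm], this]
    simp only [mul_comm]

/-- real parts of gradients -/
def gre {F : Type*} (g : F → Gr ι ℂ) (x : F) : EuclideanSpace ℝ ι := WithLp.toLp 2 fun i => (g x i).re

/-- imaginary parts of gradients -/
def gim {F : Type*} (g : F → Gr ι ℂ) (x : F) : EuclideanSpace ℝ ι := WithLp.toLp 2 fun i => (g x i).im

/-- a complex gradient built from two real ones -/
def gcx (g₁ g₂ : EuclideanSpace ℝ ι → EuclideanSpace ℝ ι) (x : EuclideanSpace ℝ ι) : Gr ι ℂ :=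
  WithLp.toLp 2 fun i => (g₁ x i : ℂ) + (g₂ x i : ℂ) * Complex.I

theorem norm_gcx (g₁ g₂ : EuclideanSpace ℝ ι → EuclideanSpace ℝ ι) (x : EuclideanSpace ℝ ι) :
    ‖gcx g₁ g₂ x‖ ^ 2 = ‖g₁ x‖ ^ 2 + ‖g₂ x‖ ^ 2 := by
  rw [EuclideanSpace.norm_sq_eq, EuclideanSpace.norm_sq_eq, EuclideanSpace.norm_sq_eq,
    ← Finset.sum_add_distrib]
  refine Finset.sum_congr rfl fun i _ => ?_
  simp only [gcx, Real.norm_eq_abs, sq_abs]
  rw [← Complex.normSq_eq_norm_sq, Complex.normSq_add_mul_I]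

theorem norm_gre_gim (g : EuclideanSpace ℝ ι → Gr ι ℂ) (x : EuclideanSpace ℝ ι) :
    ‖g x‖ ^ 2 = ‖gre g x‖ ^ 2 + ‖gim g x‖ ^ 2 := by
  rw [EuclideanSpace.norm_sq_eq, EuclideanSpace.norm_sq_eq, EuclideanSpace.norm_sq_eq,
    ← Finset.sum_add_distrib]
  refine Finset.sum_congr rfl fun i _ => ?_
  simp only [gre, gim, Real.norm_eq_abs, sq_abs]
  rw [← Complex.normSq_eq_norm_sq, Complex.normSq_apply]
  ring

theorem IsH1.re_H1 {f : EuclideanSpace ℝ ι → ℂ} {g : EuclideanSpace ℝ ι → Gr ι ℂ} (h : IsH1 f g) :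
    H1 (fun x => (f x).re) (gre g) := isH1_iff_H1.1 h.re

theorem IsH1.im_H1 {f : EuclideanSpace ℝ ι → ℂ} {g : EuclideanSpace ℝ ι → Gr ι ℂ} (h : IsH1 f g) :
    H1 (fun x => (f x).im) (gim g) := isH1_iff_H1.1 h.im

theorem isH1_of_re_im {f : EuclideanSpace ℝ ι → ℂ}
    {g₁ g₂ : EuclideanSpace ℝ ι → EuclideanSpace ℝ ι}
    (h1 : H1 (fun x => (f x).re) g₁) (h2 : H1 (fun x => (f x).im) g₂) : IsH1 f (gcx g₁ g₂) := by
  have a1 := (isH1_iff_H1.2 h1).ofReal
  have a2 := (isH1_iff_H1.2 h2).ofReal.const_smul (𝕜 := ℂ) Complex.I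
  refine (a1.add a2).congr (Eventually.of_forall fun x => ?_) (Eventually.of_forall fun x => ?_)
  · simp only [smul_eq_mul]
    rw [mul_comm]
    exact Complex.re_add_im (f x)
  · ext i
    simp only [gcx, PiLp.add_apply, PiLp.smul_apply, smul_eq_mul]
    rw [mul_comm Complex.I]

theorem kin_eq_H1 {f : EuclideanSpace ℝ ι → ℂ}
    {g₁ g₂ : EuclideanSpace ℝ ι → EuclideanSpace ℝ ι}
    (h1 : H1 (fun x => (f x).re) g₁) (h2 : H1 (fun x => (f x).im) g₂) :
    kin f = ENNReal.ofReal ((1 / 2) * ∫ x, (‖g₁ x‖ ^ 2 + ‖g₂ x‖ ^ 2)) := by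
  have h := isH1_of_re_im h1 h2
  have h3 := h.kin_toReal
  have h4 : kin f ≠ ⊤ := (kin_lt_top_iff.2 ⟨_, h⟩).ne
  rw [← ENNReal.ofReal_toReal h4, h3]
  simp only [norm_gcx]

theorem kin_lt_top_of_H1 {f : EuclideanSpace ℝ ι → ℂ}
    {g₁ g₂ : EuclideanSpace ℝ ι → EuclideanSpace ℝ ι}
    (h1 : H1 (fun x => (f x).re) g₁) (h2 : H1 (fun x => (f x).im) g₂) : kin f < ⊤ :=
  kin_lt_top_iff.2 ⟨_, isH1_of_re_im h1 h2⟩

theorem H1_of_kin {f : EuclideanSpace ℝ ι → ℂ} (hf : kin f < ⊤) :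
    ∃ g₁ g₂ : EuclideanSpace ℝ ι → EuclideanSpace ℝ ι,
      H1 (fun x => (f x).re) g₁ ∧ H1 (fun x => (f x).im) g₂ := by
  obtain ⟨g, hg⟩ := kin_lt_top_iff.1 hf
  exact ⟨gre g, gim g, hg.re_H1, hg.im_H1⟩

end Crest.Agent.R335.HF

namespace Crest.Agent.R335

open HF

/-- `I.H1_of_kineticOne` -/
theorem H1_of_kineticOne {f : Config3 → ℂ} (hf : kineticOne f < ⊤) :
    ∃ g₁ g₂ : Config3 → Config3, H1 (fun x => (f x).re) g₁ ∧ H1 (fun x => (f x).im) g₂ :=
  H1_of_kin (by rwa [kineticOne_eq_kin] at hf)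

/-- `I.kineticOne_eq` -/
theorem kineticOne_eq {f : Config3 → ℂ} {g₁ g₂ : Config3 → Config3}
    (h1 : H1 (fun x => (f x).re) g₁) (h2 : H1 (fun x => (f x).im) g₂) :
    kineticOne f = ENNReal.ofReal ((1 / 2) * ∫ x, (‖g₁ x‖ ^ 2 + ‖g₂ x‖ ^ 2)) := by
  rw [kineticOne_eq_kin]; exact kin_eq_H1 h1 h2

theorem kineticOne_lt_top_of_H1 {f : Config3 → ℂ} {g₁ g₂ : Config3 → Config3}
    (h1 : H1 (fun x => (f x).re) g₁) (h2 : H1 (fun x => (f x).im) g₂) : kineticOne f < ⊤ := by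
  rw [kineticOne_eq_kin]; exact kin_lt_top_of_H1 h1 h2

/-- real version -/
theorem kineticOne_toReal_eq {f : Config3 → ℂ} {g₁ g₂ : Config3 → Config3}
    (h1 : H1 (fun x => (f x).re) g₁) (h2 : H1 (fun x => (f x).im) g₂) :
    (kineticOne f).toReal = (1 / 2) * ((∫ x, ‖g₁ x‖ ^ 2) + ∫ x, ‖g₂ x‖ ^ 2) := by
  rw [kineticOne_eq h1 h2, ENNReal.toReal_ofReal, integral_add]
  · exact h1.memg.integrable_norm_pow (by norm_num)
  · exact h2.memg.integrable_norm_pow (by norm_num)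
  · positivity

end Crest.Agent.R335
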