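import Crest.Agent.R335.HMoll
import Crest.Agent.R335.HGlob

/-!
Row 335 (S0521): Sobolev library, module HProd: product rule.
-/

set_option autoImplicit false
set_option linter.unusedSectionVars false

open MeasureTheory Filter Set
open scoped ENNReal Topology ContDiff

noncomputable section
namespace Crest.Agent.R335

variable {ι : Type*} [Fintype ι] [DecidableEq ι]

local notation "E" => EuclideanSpace ℝ ι

theorem HP.locInt_of_bound {F G : Type*} [NormedAddCommGroup F] [NormedAddCommGroup G]
    {U : Set E} (hU : IsOpen U) {f : E → F} {g : E → G}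
    (hf : LocallyIntegrableOn f U volume) (hg : AEStronglyMeasurable g (volume.restrict U))
    {C : ℝ} (h : ∀ x, ‖g x‖ ≤ C * ‖f x‖) : LocallyIntegrableOn g U volume := by
  rw [locallyIntegrableOn_iff hU.isLocallyClosed]
  intro K hKU hK
  have h1 : IntegrableOn f K volume := hf.integrableOn_compact_subset hKU hK
  exact (h1.norm.const_mul C).mono' (hg.mono_measure (Measure.restrict_mono hKU le_rfl))
    (Eventually.of_forall h)

theorem HP.aesm_of_locInt {F : Type*} [NormedAddCommGroup F]
    {U : Set E} (_hU : IsOpen U) {f : E → F}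
    (hf : LocallyIntegrableOn f U volume) : AEStronglyMeasurable f (volume.restrict U) := by
  exact hf.aestronglyMeasurable

theorem HP.tsupport_pd_subset (φ : E → ℝ) (i : ι) : tsupport (pd i φ) ⊆ tsupport φ := by
  have h1 : tsupport (pd i φ) ⊆ tsupport (fderiv ℝ φ) := by
    apply closure_mono
    intro x hx hx'
    apply hx
    change fderiv ℝ φ x (EuclideanSpace.single i (1 : ℝ)) = 0
    rw [hx']; rfl
  exact h1.trans (tsupport_fderiv_subset ℝ)

theorem HP.setIntegral_tsupport_mul {φ : E → ℝ} (F : E → ℝ) :
    ∫ x, F x * φ x = ∫ x in tsupport φ, F x * φ x := by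
  symm
  apply setIntegral_eq_integral_of_forall_compl_eq_zero
  intro x hx
  rw [image_eq_zero_of_notMem_tsupport hx, mul_zero]

theorem HP.setIntegral_tsupport_pd {φ : E → ℝ} (i : ι) (F : E → ℝ) :
    ∫ x, F x * pd i φ x = ∫ x in tsupport φ, F x * pd i φ x := by
  symm
  apply setIntegral_eq_integral_of_forall_compl_eq_zero
  intro x hx
  rw [image_eq_zero_of_notMem_tsupport (fun h => hx (HP.tsupport_pd_subset φ i h)), mul_zero]

/-- product rule, bounded functions -/
theorem WG.mul_of_bdd {U : Set E} (hU : IsOpen U) {f k : E → ℝ} {g l : E → E} (h : WG U f g)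
    (h' : WG U k l) {M : ℝ} (hf : ∀ x, |f x| ≤ M) (hk : ∀ x, |k x| ≤ M) :
    WG U (fun x => f x * k x) (fun x => f x • l x + k x • g x) := by
  have hM : 0 ≤ M := (abs_nonneg _).trans (hf 0)
  have hfm := HP.aesm_of_locInt hU h.intf
  have hgm := HP.aesm_of_locInt hU h.intg
  have hkm := HP.aesm_of_locInt hU h'.intf
  have hlm := HP.aesm_of_locInt hU h'.intg
  refine ⟨?_, ?_, ?_⟩
  · refine HP.locInt_of_bound (C := M) hU h'.intf (hfm.mul hkm) fun x => ?_
    rw [norm_mul]
    exact mul_le_mul_of_nonneg_right (hf x) (norm_nonneg _)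
  · have h1 : LocallyIntegrableOn (fun x => f x • l x) U volume := by
      refine HP.locInt_of_bound (C := M) hU h'.intg (hfm.smul hlm) fun x => ?_
      rw [norm_smul]
      exact mul_le_mul_of_nonneg_right (hf x) (norm_nonneg _)
    have h2 : LocallyIntegrableOn (fun x => k x • g x) U volume := by
      refine HP.locInt_of_bound (C := M) hU h.intg (hkm.smul hgm) fun x => ?_
      rw [norm_smul]
      exact mul_le_mul_of_nonneg_right (hk x) (norm_nonneg _)
    exact h1.add h2
  · intro φ hφ i
    set K := tsupport φ with hKdef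
    have hK : IsCompact K := hφ.cpt
    have hKU : K ⊆ U := hφ.sub
    have hfK : IntegrableOn f K volume := h.intf.integrableOn_compact_subset hKU hK
    have hkK : IntegrableOn k K volume := h'.intf.integrableOn_compact_subset hKU hK
    have hgK : IntegrableOn g K volume := h.intg.integrableOn_compact_subset hKU hK
    have hlK : IntegrableOn l K volume := h'.intg.integrableOn_compact_subset hKU hK
    obtain ⟨ψ, hψs, hψf, hψg, hψb⟩ := WG.approx hU h hK hKU
    have hψM : ∀ n x, |ψ n x| ≤ M := fun n x => by
      have := hψb (-M) M (fun x => ⟨(abs_le.1 (hf x)).1, (abs_le.1 (hf x)).2⟩) (by linarith) hM n x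
      exact abs_le.2 this
    -- bounds of the test function
    obtain ⟨Cφ, hCφ⟩ := hφ.cpt.exists_bound_of_continuous hφ.smooth.continuous
    obtain ⟨Cp, hCp⟩ := (hasCompactSupport_pd hφ.cpt i).exists_bound_of_continuous
      (contDiff_pd hφ.smooth i).continuous
    have hCφ0 : 0 ≤ Cφ := (norm_nonneg _).trans (hCφ 0)
    have hφm : AEStronglyMeasurable φ (volume.restrict K) :=
      hφ.smooth.continuous.aestronglyMeasurable
    have hpm : AEStronglyMeasurable (pd i φ) (volume.restrict K) :=
      (contDiff_pd hφ.smooth i).continuous.aestronglyMeasurable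
    have hψm : ∀ n, AEStronglyMeasurable (ψ n) (volume.restrict K) := fun n =>
      (hψs n).continuous.aestronglyMeasurable
    have hcoord : ∀ G : E → E, AEStronglyMeasurable G (volume.restrict K) →
        AEStronglyMeasurable (fun x => G x i) (volume.restrict K) := fun G hG =>
      (EuclideanSpace.proj (𝕜 := ℝ) i).continuous.comp_aestronglyMeasurable hG
    have hcle : ∀ v : E, |v i| ≤ ‖v‖ := fun v => by
      simpa using PiLp.norm_apply_le v i
    have hψK : ∀ n, IntegrableOn (ψ n) K volume := fun n =>
      (hψs n).continuous.continuousOn.integrableOn_compact hK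
    have hψgK : ∀ n, IntegrableOn (gr (ψ n)) K volume := fun n =>
      (contDiff_gr (hψs n)).continuous.continuousOn.integrableOn_compact hK
    -- subsequence
    have hmeas : TendstoInMeasure (volume.restrict K) ψ atTop f := by
      refine tendstoInMeasure_of_tendsto_eLpNorm (p := 1) one_ne_zero hψm
        hfK.aestronglyMeasurable ?_
      have : (fun n => eLpNorm (ψ n - f) 1 (volume.restrict K)) =
          fun n => ENNReal.ofReal (∫ x in K, ‖ψ n x - f x‖) := by
        funext n
        rw [eLpNorm_one_eq_lintegral_enorm, ofReal_integral_norm_eq_lintegral_enorm]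
        · rfl
        · exact (hψK n).sub hfK
      rw [this]
      have h0 := (ENNReal.continuous_ofReal.tendsto 0).comp hψf
      rw [ENNReal.ofReal_zero] at h0
      exact h0
    obtain ⟨ns, hns, hae⟩ := hmeas.exists_seq_tendsto_ae
    have hψg' : Tendsto (fun n => ∫ x in K, ‖gr (ψ (ns n)) x - g x‖) atTop (𝓝 0) :=
      hψg.comp hns.tendsto_atTop
    -- the identity along the sequence
    have hid : ∀ n, ∫ x in K, (ψ (ns n) x * k x) * pd i φ x =
        -((∫ x in K, (ψ (ns n) x * l x i) * φ x) +
          ∫ x in K, (k x * gr (ψ (ns n)) x i) * φ x) := by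
      intro n
      have h1 := (WG.mul_smooth hU h' (hψs (ns n))).ibp φ hφ i
      rw [HP.setIntegral_tsupport_pd, HP.setIntegral_tsupport_mul] at h1
      rw [h1, ← integral_add]
      · congr 1
        refine integral_congr_ae (Eventually.of_forall fun x => ?_)
        simp only [PiLp.add_apply, PiLp.smul_apply, smul_eq_mul]
        ring
      · have hb : IntegrableOn (fun x => l x i) K volume :=
          hlK.norm.mono' (hcoord l hlK.aestronglyMeasurable) (Eventually.of_forall fun x => hcle _)
        refine (hb.norm.const_mul (M * Cφ)).mono' (((hψm _).mul hb.aestronglyMeasurable).mul hφm)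
          (Eventually.of_forall fun x => ?_)
        rw [norm_mul, norm_mul]
        calc ‖ψ (ns n) x‖ * ‖l x i‖ * ‖φ x‖ ≤ M * ‖l x i‖ * Cφ := by
              gcongr
              · exact hψM _ _
              · exact hCφ x
          _ = M * Cφ * ‖l x i‖ := by ring
      · have hb : IntegrableOn (fun x => gr (ψ (ns n)) x i) K volume :=
          (hψgK _).norm.mono' (hcoord _ (hψgK _).aestronglyMeasurable)
            (Eventually.of_forall fun x => hcle _)
        refine (hb.norm.const_mul (M * Cφ)).mono'
          ((hkK.aestronglyMeasurable.mul hb.aestronglyMeasurable).mul hφm)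
          (Eventually.of_forall fun x => ?_)
        rw [norm_mul, norm_mul]
        calc ‖k x‖ * ‖gr (ψ (ns n)) x i‖ * ‖φ x‖ ≤ M * ‖gr (ψ (ns n)) x i‖ * Cφ := by
              gcongr
              · exact hk _
              · exact hCφ x
          _ = M * Cφ * ‖gr (ψ (ns n)) x i‖ := by ring
    have hA : Tendsto (fun n => ∫ x in K, (ψ (ns n) x * k x) * pd i φ x) atTop
        (𝓝 (∫ x in K, (f x * k x) * pd i φ x)) := by
      refine tendsto_integral_of_dominated_convergence (fun x => M * Cp * ‖k x‖)
        (fun n => ((hψm _).mul hkK.aestronglyMeasurable).mul hpm) (hkK.norm.const_mul _) ?_ ?_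
      · intro n
        refine Eventually.of_forall fun x => ?_
        rw [norm_mul, norm_mul]
        calc ‖ψ (ns n) x‖ * ‖k x‖ * ‖pd i φ x‖ ≤ M * ‖k x‖ * Cp := by
              gcongr
              · exact hψM _ _
              · exact hCp x
          _ = M * Cp * ‖k x‖ := by ring
      · filter_upwards [hae] with x hx
        exact (hx.mul_const _).mul_const _
    have hB : Tendsto (fun n => ∫ x in K, (ψ (ns n) x * l x i) * φ x) atTop
        (𝓝 (∫ x in K, (f x * l x i) * φ x)) := by
      refine tendsto_integral_of_dominated_convergence (fun x => M * Cφ * ‖l x‖)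
        (fun n => ((hψm _).mul (hcoord l hlK.aestronglyMeasurable)).mul hφm)
        (hlK.norm.const_mul _) ?_ ?_
      · intro n
        refine Eventually.of_forall fun x => ?_
        rw [norm_mul, norm_mul]
        calc ‖ψ (ns n) x‖ * ‖l x i‖ * ‖φ x‖ ≤ M * ‖l x‖ * Cφ := by
              gcongr
              · exact hψM _ _
              · exact hcle _
              · exact hCφ x
          _ = M * Cφ * ‖l x‖ := by ring
      · filter_upwards [hae] with x hx
        exact (hx.mul_const _).mul_const _
    have hkgI : ∀ G : E → E, IntegrableOn G K volume →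
        IntegrableOn (fun x => (k x * G x i) * φ x) K volume := by
      intro G hG
      refine (hG.norm.const_mul (M * Cφ)).mono'
        ((hkK.aestronglyMeasurable.mul (hcoord G hG.aestronglyMeasurable)).mul hφm)
        (Eventually.of_forall fun x => ?_)
      rw [norm_mul, norm_mul]
      calc ‖k x‖ * ‖G x i‖ * ‖φ x‖ ≤ M * ‖G x‖ * Cφ := by
            gcongr
            · exact hk _
            · exact hcle _
            · exact hCφ x
        _ = M * Cφ * ‖G x‖ := by ring
    have hC : Tendsto (fun n => ∫ x in K, (k x * gr (ψ (ns n)) x i) * φ x) atTop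
        (𝓝 (∫ x in K, (k x * g x i) * φ x)) := by
      rw [tendsto_iff_norm_sub_tendsto_zero]
      have h0 : Tendsto (fun n => M * Cφ * ∫ x in K, ‖gr (ψ (ns n)) x - g x‖) atTop (𝓝 0) := by
        simpa using hψg'.const_mul (M * Cφ)
      refine squeeze_zero (fun n => norm_nonneg _) (fun n => ?_) h0
      rw [← integral_sub (hkgI _ (hψgK _)) (hkgI _ hgK), ← integral_const_mul]
      refine norm_integral_le_of_norm_le (((hψgK _).sub hgK).norm.const_mul _)
        (Eventually.of_forall fun x => ?_)
      have : k x * gr (ψ (ns n)) x i * φ x - k x * g x i * φ x =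
          k x * (gr (ψ (ns n)) x - g x) i * φ x := by
        rw [PiLp.sub_apply]; ring
      rw [this, norm_mul, norm_mul]
      calc ‖k x‖ * ‖(gr (ψ (ns n)) x - g x) i‖ * ‖φ x‖
          ≤ M * ‖gr (ψ (ns n)) x - g x‖ * Cφ := by
            gcongr
            · exact hk _
            · exact hcle _
            · exact hCφ x
        _ = M * Cφ * ‖gr (ψ (ns n)) x - g x‖ := by ring
    have hfin : ∫ x in K, (f x * k x) * pd i φ x =
        -((∫ x in K, (f x * l x i) * φ x) + ∫ x in K, (k x * g x i) * φ x) :=
      tendsto_nhds_unique hA (((hB.add hC).neg).congr fun n => (hid n).symm)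
    rw [HP.setIntegral_tsupport_pd, HP.setIntegral_tsupport_mul, hfin, ← integral_add]
    · congr 1
      refine integral_congr_ae (Eventually.of_forall fun x => ?_)
      simp only [PiLp.add_apply, PiLp.smul_apply, smul_eq_mul]
      ring
    · refine (hlK.norm.const_mul (M * Cφ)).mono'
        ((hfK.aestronglyMeasurable.mul (hcoord l hlK.aestronglyMeasurable)).mul hφm)
        (Eventually.of_forall fun x => ?_)
      rw [norm_mul, norm_mul]
      calc ‖f x‖ * ‖l x i‖ * ‖φ x‖ ≤ M * ‖l x‖ * Cφ := by
            gcongr
            · exact hf _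
            · exact hcle _
            · exact hCφ x
        _ = M * Cφ * ‖l x‖ := by ring
    · exact hkgI g hgK

theorem HP.gr_const (c : ℝ) : gr (fun _ : E => c) = fun _ => 0 := by
  funext x
  ext i
  simp [gr, pd]

/-- truncation at level `n` -/
def HP.trunc (n : ℕ) (t : ℝ) : ℝ := Max.max (Min.min t n) (-(n : ℝ))

theorem HP.abs_trunc_le (n : ℕ) (t : ℝ) : |HP.trunc n t| ≤ n := by
  have : (0 : ℝ) ≤ n := Nat.cast_nonneg n
  unfold HP.trunc
  rw [abs_le]
  exact ⟨le_max_right _ _, max_le (min_le_right _ _) (by linarith)⟩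

theorem HP.abs_trunc_le_abs (n : ℕ) (t : ℝ) : |HP.trunc n t| ≤ |t| := by
  have : (0 : ℝ) ≤ n := Nat.cast_nonneg n
  unfold HP.trunc
  rw [abs_le]
  constructor
  · rcases le_total t n with h | h
    · rw [min_eq_left h]
      exact (neg_abs_le t).trans (le_max_left _ _)
    · rw [min_eq_right h]
      exact (by linarith [abs_nonneg t] : -|t| ≤ (n : ℝ)).trans (le_max_left _ _)
  · refine max_le ((min_le_left _ _).trans (le_abs_self t)) (by linarith [abs_nonneg t])

theorem HP.trunc_eq {n : ℕ} {t : ℝ} (h : |t| < n) : HP.trunc n t = t := by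
  unfold HP.trunc
  rw [abs_lt] at h
  rw [min_eq_left h.2.le, max_eq_left h.1.le]

/-- truncation of a Sobolev function -/
theorem WG.trunc {U : Set E} (hU : IsOpen U) {f : E → ℝ} {g : E → E} (h : WG U f g) (n : ℕ) :
    WG U (fun x => HP.trunc n (f x)) (fun x => if |f x| < n then g x else 0) := by
  have hc : ∀ c : ℝ, WG U (fun _ : E => c) (fun _ => 0) := fun c => by
    have := WG.of_contDiffOn hU (contDiffOn_const (c := c) (s := U) (n := 1) (𝕜 := ℝ))
    rwa [HP.gr_const] at this
  have h1 := WG.min hU h (hc n)
  have h2 := WG.max hU h1 (hc (-n))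
  have he : (fun x => if -(n : ℝ) < Min.min (f x) n then (if f x < n then g x else 0) else 0) =
      fun x => if |f x| < n then g x else 0 := by
    funext x
    by_cases hx : |f x| < n
    · have h' := abs_lt.1 hx
      rw [if_pos hx, if_pos h'.2, if_pos]
      exact lt_min h'.1 (by linarith [h'.1, h'.2])
    · rw [if_neg hx]
      by_cases h3 : f x < n
      · rw [if_pos h3, if_neg]
        intro h4
        apply hx
        rw [abs_lt]
        exact ⟨lt_of_lt_of_le h4 (min_le_left _ _), h3⟩
      · rw [if_neg h3, ite_self]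
  rw [← he]
  exact h2

/-- product rule -/
theorem WG.mul {U : Set E} (hU : IsOpen U) {f k : E → ℝ} {g l : E → E} (h : WG U f g)
    (h' : WG U k l) (h1 : LocallyIntegrableOn (fun x => f x * k x) U volume)
    (h2 : LocallyIntegrableOn (fun x => f x • l x) U volume)
    (h3 : LocallyIntegrableOn (fun x => k x • g x) U volume) :
    WG U (fun x => f x * k x) (fun x => f x • l x + k x • g x) := by
  have hn : ∀ n : ℕ, WG U (fun x => HP.trunc n (f x) * HP.trunc n (k x))
      (fun x => HP.trunc n (f x) • (if |k x| < n then l x else 0) +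
        HP.trunc n (k x) • (if |f x| < n then g x else 0)) := fun n =>
    WG.mul_of_bdd hU (WG.trunc hU h n) (WG.trunc hU h' n) (M := n) (fun x => HP.abs_trunc_le n _)
      (fun x => HP.abs_trunc_le n _)
  have hev : ∀ x : E, ∀ᶠ n : ℕ in atTop, |f x| < n ∧ |k x| < n := by
    intro x
    filter_upwards [(tendsto_natCast_atTop_atTop (R := ℝ)).eventually_gt_atTop |f x|,
      (tendsto_natCast_atTop_atTop (R := ℝ)).eventually_gt_atTop |k x|] with n h4 h5
    exact ⟨h4, h5⟩
  refine WG.of_tendsto hU hn h1 (h2.add h3) ?_ ?_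
  · intro K hK hKU
    have hI : IntegrableOn (fun x => f x * k x) K volume := h1.integrableOn_compact_subset hKU hK
    have hIn : ∀ n : ℕ, IntegrableOn (fun x => HP.trunc n (f x) * HP.trunc n (k x)) K volume :=
      fun n => (hn n).intf.integrableOn_compact_subset hKU hK
    rw [show (0 : ℝ) = ∫ x in K, (0 : ℝ) by simp]
    refine tendsto_integral_of_dominated_convergence (fun x => 2 * ‖f x * k x‖)
      (fun n => ((hIn n).sub hI).norm.aestronglyMeasurable) (hI.norm.const_mul 2) ?_ ?_
    · intro n
      refine Eventually.of_forall fun x => ?_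
      rw [norm_norm]
      refine (norm_sub_le _ _).trans ?_
      have : ‖HP.trunc n (f x) * HP.trunc n (k x)‖ ≤ ‖f x * k x‖ := by
        rw [norm_mul, norm_mul]
        exact mul_le_mul (HP.abs_trunc_le_abs _ _) (HP.abs_trunc_le_abs _ _) (norm_nonneg _)
          (norm_nonneg _)
      linarith
    · refine Eventually.of_forall fun x => ?_
      refine tendsto_nhds_of_eventually_eq ?_
      filter_upwards [hev x] with n hx
      rw [HP.trunc_eq hx.1, HP.trunc_eq hx.2, sub_self, norm_zero]
  · intro K hK hKU
    have hI2 : IntegrableOn (fun x => f x • l x) K volume := h2.integrableOn_compact_subset hKU hK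
    have hI3 : IntegrableOn (fun x => k x • g x) K volume := h3.integrableOn_compact_subset hKU hK
    have hIn := fun n : ℕ => (hn n).intg.integrableOn_compact_subset hKU hK
    rw [show (0 : ℝ) = ∫ x in K, (0 : ℝ) by simp]
    refine tendsto_integral_of_dominated_convergence
      (fun x => 2 * (‖f x • l x‖ + ‖k x • g x‖))
      (fun n => ((hIn n).sub (hI2.add hI3)).norm.aestronglyMeasurable)
      ((hI2.norm.add hI3.norm).const_mul 2) ?_ ?_
    · intro n
      refine Eventually.of_forall fun x => ?_
      rw [norm_norm]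
      refine (norm_sub_le _ _).trans ?_
      have e1 : ‖HP.trunc n (f x) • (if |k x| < n then l x else 0)‖ ≤ ‖f x • l x‖ := by
        rw [norm_smul, norm_smul]
        refine mul_le_mul (HP.abs_trunc_le_abs _ _) ?_ (norm_nonneg _) (norm_nonneg _)
        split_ifs <;> simp
      have e2 : ‖HP.trunc n (k x) • (if |f x| < n then g x else 0)‖ ≤ ‖k x • g x‖ := by
        rw [norm_smul, norm_smul]
        refine mul_le_mul (HP.abs_trunc_le_abs _ _) ?_ (norm_nonneg _) (norm_nonneg _)
        split_ifs <;> simp
      have e3 := norm_add_le (HP.trunc n (f x) • (if |k x| < n then l x else 0))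
        (HP.trunc n (k x) • (if |f x| < n then g x else 0))
      have e4 := norm_add_le (f x • l x) (k x • g x)
      linarith
    · refine Eventually.of_forall fun x => ?_
      refine tendsto_nhds_of_eventually_eq ?_
      filter_upwards [hev x] with n hx
      rw [HP.trunc_eq hx.1, HP.trunc_eq hx.2, if_pos hx.1, if_pos hx.2, sub_self, norm_zero]

theorem WG.aesm {f : E → ℝ} {g : E → E} (h : WG univ f g) :
    AEStronglyMeasurable f volume ∧ AEStronglyMeasurable g volume :=
  ⟨(locallyIntegrableOn_univ.1 h.intf).aestronglyMeasurable,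
    (locallyIntegrableOn_univ.1 h.intg).aestronglyMeasurable⟩

/-- product with a bounded function with bounded weak gradient -/
theorem H1.mul_bdd {f k : E → ℝ} {g l : E → E} (h : H1 f g) (h' : WG univ k l)
    {C : ℝ} (hk : ∀ x, |k x| ≤ C) (hl : ∀ x, ‖l x‖ ≤ C) :
    H1 (fun x => k x * f x) (fun x => k x • g x + f x • l x) := by
  have hkm := (WG.aesm h').1
  have hlm := (WG.aesm h').2
  have m1 : MemLp (fun x => k x * f x) 2 volume := by
    refine MemLp.of_le_mul (c := C) h.memf (hkm.mul h.memf.aestronglyMeasurable)
      (Eventually.of_forall fun x => ?_)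
    rw [norm_mul]
    exact mul_le_mul_of_nonneg_right (hk x) (norm_nonneg _)
  have m2 : MemLp (fun x => k x • g x) 2 volume := by
    refine MemLp.of_le_mul (c := C) h.memg (hkm.smul h.memg.aestronglyMeasurable)
      (Eventually.of_forall fun x => ?_)
    rw [norm_smul]
    exact mul_le_mul_of_nonneg_right (hk x) (norm_nonneg _)
  have m3 : MemLp (fun x => f x • l x) 2 volume := by
    refine MemLp.of_le_mul (c := C) h.memf (h.memf.aestronglyMeasurable.smul hlm)
      (Eventually.of_forall fun x => ?_)
    rw [norm_smul, mul_comm]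
    exact mul_le_mul_of_nonneg_right (hl x) (norm_nonneg _)
  refine ⟨m1, m2.add m3, ?_⟩
  have := WG.mul isOpen_univ h' h.wg
    (locallyIntegrableOn_univ.2 (m1.locallyIntegrable (by norm_num)))
    (locallyIntegrableOn_univ.2 (m2.locallyIntegrable (by norm_num)))
    (locallyIntegrableOn_univ.2 (m3.locallyIntegrable (by norm_num)))
  exact this

/-- product of two `H¹ ∩ L^∞` functions -/
theorem H1.mul {f k : E → ℝ} {g l : E → E} (h : H1 f g) (h' : H1 k l)
    {C : ℝ} (hf : ∀ x, |f x| ≤ C) (hk : ∀ x, |k x| ≤ C) :
    H1 (fun x => k x * f x) (fun x => k x • g x + f x • l x) := by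
  have m1 : MemLp (fun x => k x * f x) 2 volume := by
    refine MemLp.of_le_mul (c := C) h.memf (h'.memf.aestronglyMeasurable.mul
      h.memf.aestronglyMeasurable) (Eventually.of_forall fun x => ?_)
    rw [norm_mul]
    exact mul_le_mul_of_nonneg_right (hk x) (norm_nonneg _)
  have m2 : MemLp (fun x => k x • g x) 2 volume := by
    refine MemLp.of_le_mul (c := C) h.memg (h'.memf.aestronglyMeasurable.smul
      h.memg.aestronglyMeasurable) (Eventually.of_forall fun x => ?_)
    rw [norm_smul]
    exact mul_le_mul_of_nonneg_right (hk x) (norm_nonneg _)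
  have m3 : MemLp (fun x => f x • l x) 2 volume := by
    refine MemLp.of_le_mul (c := C) h'.memg (h.memf.aestronglyMeasurable.smul
      h'.memg.aestronglyMeasurable) (Eventually.of_forall fun x => ?_)
    rw [norm_smul]
    exact mul_le_mul_of_nonneg_right (hf x) (norm_nonneg _)
  refine ⟨m1, m2.add m3, ?_⟩
  exact WG.mul isOpen_univ h'.wg h.wg
    (locallyIntegrableOn_univ.2 (m1.locallyIntegrable (by norm_num)))
    (locallyIntegrableOn_univ.2 (m2.locallyIntegrable (by norm_num)))
    (locallyIntegrableOn_univ.2 (m3.locallyIntegrable (by norm_num)))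

/-- IMS localisation identity -/
theorem H1.ims {f k : E → ℝ} {g l : E → E} (h : H1 f g) (h' : WG univ k l)
    {C : ℝ} (hk : ∀ x, |k x| ≤ C) (hl : ∀ x, ‖l x‖ ≤ C) :
    ∫ x, ‖k x • g x + f x • l x‖ ^ 2 =
      (∫ x, inner ℝ (g x) ((k x) ^ 2 • g x + (2 * k x * f x) • l x)) +
        ∫ x, f x ^ 2 * ‖l x‖ ^ 2 := by
  have hkm := (WG.aesm h').1
  have hlm := (WG.aesm h').2
  have hC : 0 ≤ C := (abs_nonneg _).trans (hk 0)
  have m2 : MemLp (fun x => (k x) ^ 2 • g x) 2 volume := by
    refine MemLp.of_le_mul (c := C ^ 2) h.memg ((hkm.pow 2).smul h.memg.aestronglyMeasurable)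
      (Eventually.of_forall fun x => ?_)
    rw [norm_smul, norm_pow]
    exact mul_le_mul_of_nonneg_right (pow_le_pow_left₀ (norm_nonneg _) (hk x) 2) (norm_nonneg _)
  have m3 : MemLp (fun x => (2 * k x * f x) • l x) 2 volume := by
    refine MemLp.of_le_mul (c := 2 * C * C) h.memf
      (((aestronglyMeasurable_const.mul hkm).mul h.memf.aestronglyMeasurable).smul hlm)
      (Eventually.of_forall fun x => ?_)
    rw [norm_smul, norm_mul, norm_mul, Real.norm_eq_abs (2 : ℝ), abs_two]
    calc 2 * ‖k x‖ * ‖f x‖ * ‖l x‖ ≤ 2 * C * ‖f x‖ * C := by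
          gcongr
          · exact hk x
          · exact hl x
      _ = 2 * C * C * ‖f x‖ := by ring
  have m4 : MemLp (fun x => f x • l x) 2 volume := by
    refine MemLp.of_le_mul (c := C) h.memf (h.memf.aestronglyMeasurable.smul hlm)
      (Eventually.of_forall fun x => ?_)
    rw [norm_smul, mul_comm]
    exact mul_le_mul_of_nonneg_right (hl x) (norm_nonneg _)
  have i1 : Integrable (fun x => inner ℝ (g x) ((k x) ^ 2 • g x + (2 * k x * f x) • l x))
      volume := by
    have m5 : MemLp (fun x => (k x) ^ 2 • g x + (2 * k x * f x) • l x) 2 volume := m2.add m3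
    have hm : Integrable (fun x => ‖g x‖ * ‖(k x) ^ 2 • g x + (2 * k x * f x) • l x‖) volume :=
      MemLp.integrable_mul h.memg.norm m5.norm
    refine hm.mono' (h.memg.aestronglyMeasurable.inner m5.aestronglyMeasurable)
      (Eventually.of_forall fun x => ?_)
    exact norm_inner_le_norm _ _
  have i2 : Integrable (fun x => f x ^ 2 * ‖l x‖ ^ 2) volume := by
    have : Integrable (fun x => ‖f x • l x‖ ^ 2) volume := m4.integrable_norm_pow (by norm_num)
    refine this.congr (Eventually.of_forall fun x => ?_)
    simp only [norm_smul, mul_pow, Real.norm_eq_abs, sq_abs]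
  rw [← integral_add i1 i2]
  refine integral_congr_ae (Eventually.of_forall fun x => ?_)
  simp only
  rw [← real_inner_self_eq_norm_sq, inner_add_left, inner_add_right, inner_add_right,
    inner_add_right, inner_smul_left, inner_smul_left, inner_smul_left, inner_smul_left,
    inner_smul_right, inner_smul_right, inner_smul_right, inner_smul_right, inner_smul_right,
    inner_smul_right, real_inner_self_eq_norm_sq, real_inner_self_eq_norm_sq,
    real_inner_comm (g x) (l x)]
  simp only [conj_trivial]
  ring

end Crest.Agent.R335
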