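import Crest.Agent.R335.HDefs

/-!
# Row 335: weak closedness of `H¹` (module HWeak)

`H1.of_bounded` : an `L²` limit of an `H¹`-bounded sequence is in `H¹`. The weak limit of the gradients is
obtained as an ultrafilter limit and the Fréchet-Riesz representation.
-/

set_option autoImplicit false
set_option linter.unusedSectionVars false

open MeasureTheory Filter Set
open scoped ENNReal Topology ContDiff

noncomputable section
namespace Crest.Agent.R335

variable {ι : Type*} [Fintype ι] [DecidableEq ι]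

local notation "E" => EuclideanSpace ℝ ι

/-- inner product of two `toLp` classes -/
theorem inner_toLp {F : Type*} [NormedAddCommGroup F] [InnerProductSpace ℝ F] {α : Type*}
    [MeasurableSpace α] {μ : Measure α} {a b : α → F} (ha : MemLp a 2 μ) (hb : MemLp b 2 μ) :
    inner ℝ (ha.toLp a) (hb.toLp b) = ∫ x, inner ℝ (a x) (b x) ∂μ := by
  rw [L2.inner_def]
  refine integral_congr_ae ?_
  filter_upwards [ha.coeFn_toLp, hb.coeFn_toLp] with x h1 h2
  rw [h1, h2]

theorem norm_toLp_sq {F : Type*} [NormedAddCommGroup F] [InnerProductSpace ℝ F] {α : Type*}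
    [MeasurableSpace α] {μ : Measure α} {a : α → F} (ha : MemLp a 2 μ) :
    ‖ha.toLp a‖ ^ 2 = ∫ x, ‖a x‖ ^ 2 ∂μ := by
  rw [← real_inner_self_eq_norm_sq, inner_toLp ha ha]
  simp only [real_inner_self_eq_norm_sq]

/-- bounded sequences in a Hilbert space have weak cluster points (ultrafilter form) -/
theorem exists_weak_limit {H : Type*} [NormedAddCommGroup H] [InnerProductSpace ℝ H] [CompleteSpace H]
    (G : ℕ → H) {M : ℝ} (hG : ∀ n, ‖G n‖ ≤ M) :
    ∃ g : H, ‖g‖ ≤ M ∧ ∀ Φ : H, Tendsto (fun n => inner ℝ (G n) Φ) (hyperfilter ℕ : Filter ℕ)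
      (𝓝 (inner ℝ g Φ)) := by
  have hM : 0 ≤ M := (norm_nonneg _).trans (hG 0)
  have hex : ∀ Φ : H, ∃ y : ℝ, Tendsto (fun n => inner ℝ (G n) Φ) (hyperfilter ℕ : Filter ℕ) (𝓝 y) ∧
      |y| ≤ M * ‖Φ‖ := by
    intro Φ
    have hb : ∀ n, inner ℝ (G n) Φ ∈ Icc (-(M * ‖Φ‖)) (M * ‖Φ‖) := by
      intro n
      have h1 := abs_real_inner_le_norm (G n) Φ
      have h2 : ‖G n‖ * ‖Φ‖ ≤ M * ‖Φ‖ := mul_le_mul_of_nonneg_right (hG n) (norm_nonneg _)
      exact abs_le.1 (h1.trans h2)
    obtain ⟨y, hy, hy2⟩ := (isCompact_Icc (a := -(M * ‖Φ‖)) (b := M * ‖Φ‖)).ultrafilter_le_nhds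
      ((hyperfilter ℕ).map fun n => inner ℝ (G n) Φ) (by
        rw [le_principal_iff]
        exact Filter.univ_mem' (s := (fun n => inner ℝ (G n) Φ) ⁻¹' Icc (-(M * ‖Φ‖)) (M * ‖Φ‖)) hb)
    exact ⟨y, hy2, abs_le.2 hy⟩
  choose ℓ hℓ hb using hex
  let L : H →ₗ[ℝ] ℝ :=
    { toFun := ℓ
      map_add' := fun a b => by
        refine tendsto_nhds_unique (hℓ (a + b)) ?_
        have := (hℓ a).add (hℓ b)
        refine this.congr fun n => ?_
        rw [inner_add_right]
      map_smul' := fun c a => by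
        refine tendsto_nhds_unique (hℓ (c • a)) ?_
        have := (hℓ a).const_mul c
        refine this.congr fun n => ?_
        rw [real_inner_smul_right] }
  let Lc : H →L[ℝ] ℝ := L.mkContinuous M fun x => by
    rw [Real.norm_eq_abs]; exact hb x
  refine ⟨(InnerProductSpace.toDual ℝ H).symm Lc, ?_, fun Φ => ?_⟩
  · rw [LinearIsometryEquiv.norm_map]
    exact L.mkContinuous_norm_le hM _
  · rw [InnerProductSpace.toDual_symm_apply]
    exact hℓ Φ

/-- weak closedness: an `L²` limit of an `H¹`-bounded sequence is in `H¹` -/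
theorem H1.of_bounded {f : E → ℝ} {fn : ℕ → E → ℝ} {gn : ℕ → E → E}
    (h : ∀ n, H1 (fn n) (gn n)) (hf : MemLp f 2 volume) {C : ℝ}
    (hfn : Tendsto (fun n => eLpNorm (fun x => fn n x - f x) 2 volume) atTop (𝓝 0))
    (hC : ∀ n, ∫ x, ‖gn n x‖ ^ 2 ≤ C) : ∃ g, H1 f g ∧ ∫ x, ‖g x‖ ^ 2 ≤ C := by
  have hC0 : 0 ≤ C := (integral_nonneg fun x => by positivity).trans (hC 0)
  let G : ℕ → Lp E 2 (volume : Measure E) := fun n => (h n).memg.toLp (gn n)
  have hG : ∀ n, ‖G n‖ ≤ Real.sqrt C := by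
    intro n
    refine Real.le_sqrt_of_sq_le ?_
    rw [norm_toLp_sq (h n).memg]
    exact hC n
  obtain ⟨g0, hg0, hlim⟩ := exists_weak_limit G hG
  have hgm : MemLp (g0 : E → E) 2 volume := Lp.memLp g0
  have hg0' : hgm.toLp (g0 : E → E) = g0 := Lp.toLp_coeFn g0 hgm
  refine ⟨g0, ⟨hf, hgm, ⟨?_, ?_, ?_⟩⟩, ?_⟩
  · exact (hf.locallyIntegrable (by norm_num)).locallyIntegrableOn _
  · exact (hgm.locallyIntegrable (by norm_num)).locallyIntegrableOn _
  · intro φ hφ i
    -- the two test objects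
    have hφc : Continuous φ := hφ.smooth.continuous
    have hφm : MemLp φ 2 volume := hφc.memLp_of_hasCompactSupport hφ.cpt
    have hΦc : Continuous fun x => φ x • (EuclideanSpace.single i (1 : ℝ) : E) := hφc.smul continuous_const
    have hΦm : MemLp (fun x => φ x • (EuclideanSpace.single i (1 : ℝ) : E)) 2 volume :=
      hΦc.memLp_of_hasCompactSupport hφ.cpt.smul_right
    have hpc : Continuous (pd i φ) := by
      unfold pd
      exact (hφ.smooth.continuous_fderiv (by simp)).clm_apply continuous_const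
    have hps : HasCompactSupport (pd i φ) := by
      have h1 := hφ.cpt.fderiv (𝕜 := ℝ)
      exact h1.comp_left (g := fun L : E →L[ℝ] ℝ => L (EuclideanSpace.single i (1 : ℝ))) rfl
    have hpm : MemLp (pd i φ) 2 volume := hpc.memLp_of_hasCompactSupport hps
    -- convergence of the left hand sides
    have h1 : Tendsto (fun n => (h n).memf.toLp (fn n)) atTop (𝓝 (hf.toLp f)) :=
      (Lp.tendsto_Lp_iff_tendsto_eLpNorm'' _ (fun n => (h n).memf) f hf).2 hfn
    have h2 : Tendsto (fun n => inner ℝ ((h n).memf.toLp (fn n)) (hpm.toLp (pd i φ))) atTop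
        (𝓝 (inner ℝ (hf.toLp f) (hpm.toLp (pd i φ)))) := h1.inner tendsto_const_nhds
    have h3 : Tendsto (fun n => ∫ x, fn n x * pd i φ x) atTop (𝓝 (∫ x, f x * pd i φ x)) := by
      rw [inner_toLp hf hpm] at h2
      have e1 : (∫ x, inner ℝ (f x) (pd i φ x)) = ∫ x, f x * pd i φ x :=
        integral_congr_ae (Eventually.of_forall fun x => by simp [mul_comm])
      rw [e1] at h2
      refine h2.congr fun n => ?_
      rw [inner_toLp (h n).memf hpm]
      exact integral_congr_ae (Eventually.of_forall fun x => by simp [mul_comm])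
    have hinn : ∀ v : E, ∀ x, inner ℝ v (φ x • (EuclideanSpace.single i (1 : ℝ) : E)) = v i * φ x := by
      intro v x
      rw [real_inner_smul_right, EuclideanSpace.inner_single_right]
      simp [mul_comm]
    have h4 := hlim (hΦm.toLp _)
    have e2 : ∀ n, inner ℝ (G n) (hΦm.toLp _) = -∫ x, fn n x * pd i φ x := by
      intro n
      rw [(h n).wg.ibp φ hφ i, neg_neg]
      refine (inner_toLp (h n).memg hΦm).trans ?_
      exact integral_congr_ae (Eventually.of_forall fun x => hinn _ _)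
    have e3 : inner ℝ g0 (hΦm.toLp _) = ∫ x, g0 x i * φ x := by
      conv_lhs => rw [← hg0']
      refine (inner_toLp hgm hΦm).trans ?_
      exact integral_congr_ae (Eventually.of_forall fun x => hinn _ _)
    rw [e3] at h4
    have h5 : Tendsto (fun n => -∫ x, fn n x * pd i φ x) (hyperfilter ℕ : Filter ℕ)
        (𝓝 (-∫ x, f x * pd i φ x)) := by
      refine (h3.mono_left ?_).neg
      rw [← Nat.cofinite_eq_atTop]
      exact hyperfilter_le_cofinite
    have h6 : Tendsto (fun n => -∫ x, fn n x * pd i φ x) (hyperfilter ℕ : Filter ℕ)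
        (𝓝 (∫ x, g0 x i * φ x)) := h4.congr e2
    rw [← tendsto_nhds_unique h5 h6, neg_neg]
  · rw [← norm_toLp_sq hgm, hg0']
    calc ‖g0‖ ^ 2 ≤ Real.sqrt C ^ 2 := pow_le_pow_left₀ (norm_nonneg _) hg0 2
      _ = C := Real.sq_sqrt hC0

end Crest.Agent.R335
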