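import Crest.Agent.R335.HMoll
import Crest.Agent.R335.HChain
import Crest.Agent.R335.HGlob
import Crest.Agent.R335.HProd
import Crest.Agent.R335.HWeak

/-!
# Row 335: `H¹` and isometries, euclidean norm of two functions, integration by parts (module HGlob2)
-/

set_option autoImplicit false
set_option linter.unusedSectionVars false

open MeasureTheory Filter Set
open scoped ENNReal Topology ContDiff

noncomputable section
namespace Crest.Agent.R335

variable {ι : Type*} [Fintype ι] [DecidableEq ι]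

local notation "E" => EuclideanSpace ℝ ι

/-! ### integration by parts -/

/-- convergence of the integrals of products -/
theorem g2_tendsto_integral_mul_L2 {α : Type*} [MeasurableSpace α] {μ : Measure α} {f k : α → ℝ} {fn : ℕ → α → ℝ}
    (hfn : ∀ n, MemLp (fn n) 2 μ) (hf : MemLp f 2 μ) (hk : MemLp k 2 μ)
    (h : Tendsto (fun n => eLpNorm (fun x => fn n x - f x) 2 μ) atTop (𝓝 0)) :
    Tendsto (fun n => ∫ x, fn n x * k x ∂μ) atTop (𝓝 (∫ x, f x * k x ∂μ)) := by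
  have i1 : ∀ n, Integrable (fun x => fn n x * k x) μ := fun n => (hfn n).integrable_mul hk
  have i2 : Integrable (fun x => f x * k x) μ := hf.integrable_mul hk
  rw [tendsto_iff_edist_tendsto_0]
  have hb : ∀ n, edist (∫ x, fn n x * k x ∂μ) (∫ x, f x * k x ∂μ)
      ≤ eLpNorm (fun x => fn n x - f x) 2 μ * eLpNorm k 2 μ := by
    intro n
    rw [edist_eq_enorm_sub, ← integral_sub (i1 n) i2]
    refine (enorm_integral_le_lintegral_enorm _).trans ?_
    rw [← eLpNorm_one_eq_lintegral_enorm]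
    have e : (fun x => fn n x * k x - f x * k x) = (fun x => fn n x - f x) • k := by
      ext x; simp only [Pi.smul_apply', smul_eq_mul]; ring
    rw [e]
    exact eLpNorm_smul_le_mul_eLpNorm hk.1 ((hfn n).1.sub hf.1)
  have h0 : Tendsto (fun n => eLpNorm (fun x => fn n x - f x) 2 μ * eLpNorm k 2 μ) atTop (𝓝 0) := by
    have := ENNReal.Tendsto.mul_const (b := eLpNorm k 2 μ) h (Or.inr hk.2.ne)
    simpa using this
  exact tendsto_of_tendsto_of_tendsto_of_le_of_le tendsto_const_nhds h0 (fun _ => bot_le) hb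

theorem g2_norm_coord_le (x : E) (i : ι) : ‖x i‖ ≤ ‖x‖ := PiLp.norm_apply_le x i

theorem g2_coord {g : E → E} {p : ℝ≥0∞} {μ : Measure E} (hg : MemLp g p μ) (i : ι) :
    MemLp (fun x => g x i) p μ :=
  (EuclideanSpace.proj (𝕜 := ℝ) i : E →L[ℝ] ℝ).comp_memLp' hg

theorem H1.ibp {f k : E → ℝ} {g l : E → E} (h : H1 f g) (h' : H1 k l) (i : ι) :
    ∫ x, f x * l x i = - ∫ x, g x i * k x := by
  obtain ⟨φ, hφ, h1, h2, -⟩ := H1.approx h
  have hφ1 : ∀ n, H1 (φ n) (gr (φ n)) := fun n => H1.of_test (hφ n)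
  have e : ∀ n, ∫ x, φ n x * l x i = - ∫ x, gr (φ n) x i * k x := by
    intro n
    have := h'.wg.ibp (φ n) (hφ n) i
    have e1 : ∫ x, φ n x * l x i = ∫ x, l x i * φ n x := by
      congr 1; ext x; ring
    have e2 : ∫ x, gr (φ n) x i * k x = ∫ x, k x * pd i (φ n) x := by
      congr 1; ext x; rw [gr_apply]; ring
    rw [e1, e2, this, neg_neg]
  have t1 := g2_tendsto_integral_mul_L2 (fun n => (hφ1 n).memf) h.memf (g2_coord h'.memg i) h1
  have h3 : Tendsto (fun n => eLpNorm (fun x => gr (φ n) x i - g x i) 2 volume) atTop (𝓝 0) := by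
    refine tendsto_of_tendsto_of_tendsto_of_le_of_le tendsto_const_nhds h2 (fun _ => bot_le) ?_
    intro n
    refine eLpNorm_mono fun x => ?_
    have := g2_norm_coord_le (gr (φ n) x - g x) i
    simpa using this
  have t2 := g2_tendsto_integral_mul_L2 (fun n => g2_coord (hφ1 n).memg i) (g2_coord h.memg i)
    h'.memf h3
  refine tendsto_nhds_unique t1 ?_
  simp_rw [e]
  exact t2.neg

/-! ### isometries -/

theorem g2_mp_isom (L : E ≃ₗᵢ[ℝ] E) (a : E) :
    MeasurePreserving (fun x : E => L x + a) volume volume :=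
  (measurePreserving_add_right volume a).comp L.measurePreserving

/-- the affine isometry as a homeomorphism -/
def g2_isomH (L : E ≃ₗᵢ[ℝ] E) (a : E) : E ≃ₜ E := L.toHomeomorph.trans (Homeomorph.addRight a)

theorem g2_isomH_apply (L : E ≃ₗᵢ[ℝ] E) (a x : E) : g2_isomH L a x = L x + a := rfl

theorem g2_integral_isom {F : Type*} [NormedAddCommGroup F] [NormedSpace ℝ F] (L : E ≃ₗᵢ[ℝ] E) (a : E)
    (ψ : E → F) : ∫ x, ψ (L x + a) = ∫ x, ψ x :=
  (g2_mp_isom L a).integral_comp (g2_isomH L a).measurableEmbedding ψ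

theorem g2_fderiv_eq_sum_pd {ψ : E → ℝ} (x v : E) : fderiv ℝ ψ x v = ∑ j, v j * pd j ψ x := by
  have h : v = ∑ j, v j • (EuclideanSpace.single j (1 : ℝ) : E) := by
    have := (EuclideanSpace.basisFun ι ℝ).sum_repr v
    simpa using this.symm
  conv_lhs => rw [h, map_sum]
  refine Finset.sum_congr rfl fun j _ => ?_
  rw [map_smul, smul_eq_mul, pd]

theorem g2_test_isom (L : E ≃ₗᵢ[ℝ] E) (a : E) {φ : E → ℝ} (h : Test univ φ) :
    Test univ (fun y => φ (L.symm (y - a))) := by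
  refine ⟨?_, ?_, subset_univ _⟩
  · exact h.smooth.comp (L.symm.contDiff.comp (contDiff_id.sub contDiff_const))
  · have := h.cpt.comp_homeomorph (g2_isomH L a).symm
    exact this

theorem g2_pd_isom (L : E ≃ₗᵢ[ℝ] E) (a : E) {φ : E → ℝ} (h : Differentiable ℝ φ) (i : ι) (x : E) :
    pd i φ x = ∑ j, (L (EuclideanSpace.single i (1 : ℝ))) j * pd j (fun y => φ (L.symm (y - a))) (L x + a) := by
  rw [← g2_fderiv_eq_sum_pd]
  have h1 : φ = (fun y => φ (L.symm (y - a))) ∘ (fun x => L x + a) := by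
    ext x; simp
  have h2 : DifferentiableAt ℝ (fun y => φ (L.symm (y - a))) (L x + a) :=
    (h _).comp _ (L.symm.differentiableAt.comp _ (differentiableAt_id.sub (differentiableAt_const _)))
  have h3 : HasFDerivAt (fun x : E => L x + a) (L.toContinuousLinearEquiv : E →L[ℝ] E) x := by
    have := (L.toContinuousLinearEquiv.hasFDerivAt (x := x)).add_const a
    exact this
  have h4 := (h2.hasFDerivAt.comp x h3).fderiv
  unfold pd
  conv_lhs => rw [h1]
  rw [h4]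
  rfl

theorem H1.comp_isometry {f : E → ℝ} {g : E → E} (h : H1 f g) (L : E ≃ₗᵢ[ℝ] E) (a : E) :
    H1 (fun x => f (L x + a)) (fun x => L.symm (g (L x + a))) := by
  have m1 : MemLp (fun x => f (L x + a)) 2 volume := h.memf.comp_measurePreserving (g2_mp_isom L a)
  have m2 : MemLp (fun x => L.symm (g (L x + a))) 2 volume :=
    (L.symm.toContinuousLinearEquiv : E →L[ℝ] E).comp_memLp' (h.memg.comp_measurePreserving (g2_mp_isom L a))
  refine ⟨m1, m2, ?_⟩
  refine ⟨(m1.locallyIntegrable (by norm_num)).locallyIntegrableOn _,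
    (m2.locallyIntegrable (by norm_num)).locallyIntegrableOn _, fun φ hφ i => ?_⟩
  set ψ : E → ℝ := fun y => φ (L.symm (y - a)) with hψ
  have hψT := g2_test_isom L a hφ
  have hφψ : ∀ x, φ x = ψ (L x + a) := fun x => by simp [hψ]
  set v : E := L (EuclideanSpace.single i (1 : ℝ)) with hv
  have hmem : ∀ j, MemLp (pd j ψ) 2 volume := fun j => g2_coord (H1.of_test hψT).memg j
  have hmem0 : MemLp ψ 2 volume := (H1.of_test hψT).memf
  calc ∫ x, f (L x + a) * pd i φ x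
      = ∫ x, (fun y => f y * ∑ j, v j * pd j ψ y) (L x + a) := by
        refine integral_congr_ae (Eventually.of_forall fun x => ?_)
        simp only
        rw [g2_pd_isom L a (hφ.smooth.differentiable (by simp)) i x]
    _ = ∫ y, f y * ∑ j, v j * pd j ψ y := g2_integral_isom L a (fun y => f y * ∑ j, v j * pd j ψ y)
    _ = ∑ j, v j * ∫ y, f y * pd j ψ y := by
        rw [← Finset.sum_congr rfl fun j _ => (integral_const_mul (v j) (fun y => f y * pd j ψ y)),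
          ← integral_finsetSum]
        · refine integral_congr_ae (Eventually.of_forall fun y => ?_)
          simp only [Finset.mul_sum]
          refine Finset.sum_congr rfl fun j _ => ?_
          ring
        · intro j _
          exact (h.memf.integrable_mul (hmem j)).const_mul _
    _ = ∑ j, v j * (- ∫ y, g y j * ψ y) := by
        refine Finset.sum_congr rfl fun j _ => ?_
        rw [h.wg.ibp ψ hψT j]
    _ = - ∫ y, inner ℝ v (g y) * ψ y := by
        have e1 : ∀ y, inner ℝ v (g y) * ψ y = ∑ j, v j * (g y j * ψ y) := by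
          intro y
          rw [PiLp.inner_apply, Finset.sum_mul]
          refine Finset.sum_congr rfl fun j _ => ?_
          simp only [RCLike.inner_apply, conj_trivial]
          ring
        simp_rw [e1]
        rw [integral_finsetSum]
        · rw [← Finset.sum_neg_distrib]
          refine Finset.sum_congr rfl fun j _ => ?_
          rw [integral_const_mul]; ring
        · intro j _
          exact ((g2_coord h.memg j).integrable_mul hmem0).const_mul _
    _ = - ∫ x, (fun y => inner ℝ v (g y) * ψ y) (L x + a) := by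
        rw [g2_integral_isom L a (fun y => inner ℝ v (g y) * ψ y)]
    _ = - ∫ x, (L.symm (g (L x + a))) i * φ x := by
        congr 1
        refine integral_congr_ae (Eventually.of_forall fun x => ?_)
        simp only
        rw [hφψ x]
        congr 1
        have : inner ℝ v (g (L x + a)) = inner ℝ (EuclideanSpace.single i (1 : ℝ) : E) (L.symm (g (L x + a))) := by
          rw [hv, ← L.inner_map_map (EuclideanSpace.single i (1 : ℝ)), L.apply_symm_apply]
        rw [this, EuclideanSpace.inner_single_left]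
        simp

/-! ### the euclidean norm of two functions -/

/-- smooth regularisation of the euclidean norm of two smooth functions -/
def hyp (ε : ℝ) (φ ψ : E → ℝ) (x : E) : ℝ := √(φ x ^ 2 + ψ x ^ 2 + ε ^ 2) - ε

theorem hyp_arg_pos {ε : ℝ} (hε : 0 < ε) (a b : ℝ) : 0 < a ^ 2 + b ^ 2 + ε ^ 2 := by positivity

theorem hyp_smooth {ε : ℝ} (hε : 0 < ε) {φ ψ : E → ℝ} (hφ : ContDiff ℝ ∞ φ) (hψ : ContDiff ℝ ∞ ψ) :
    ContDiff ℝ ∞ (hyp ε φ ψ) := by
  unfold hyp
  exact (((hφ.pow 2).add (hψ.pow 2)).add contDiff_const).sqrt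
    (fun x => (hyp_arg_pos hε _ _).ne') |>.sub contDiff_const

theorem hyp_zero {ε : ℝ} (hε : 0 < ε) {φ ψ : E → ℝ} {x : E} (h1 : φ x = 0) (h2 : ψ x = 0) :
    hyp ε φ ψ x = 0 := by
  unfold hyp
  rw [h1, h2]
  simp [Real.sqrt_sq hε.le]

theorem hyp_test {ε : ℝ} (hε : 0 < ε) {φ ψ : E → ℝ} (hφ : Test univ φ) (hψ : Test univ ψ) :
    Test univ (hyp ε φ ψ) := by
  refine ⟨hyp_smooth hε hφ.smooth hψ.smooth, ?_, subset_univ _⟩
  refine HasCompactSupport.intro (hφ.cpt.isCompact.union hψ.cpt.isCompact) fun x hx => ?_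
  rw [mem_union, not_or] at hx
  exact hyp_zero hε (image_eq_zero_of_notMem_tsupport hx.1) (image_eq_zero_of_notMem_tsupport hx.2)

theorem hyp_pd {ε : ℝ} (hε : 0 < ε) {φ ψ : E → ℝ} (hφ : ContDiff ℝ ∞ φ) (hψ : ContDiff ℝ ∞ ψ) (i : ι)
    (x : E) : √(φ x ^ 2 + ψ x ^ 2 + ε ^ 2) * pd i (hyp ε φ ψ) x = φ x * pd i φ x + ψ x * pd i ψ x := by
  have h1 := (hφ.differentiable (by simp) x).hasFDerivAt
  have h2 := (hψ.differentiable (by simp) x).hasFDerivAt
  have h3 := ((h1.pow 2).add (h2.pow 2)).add_const (ε ^ 2)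
  have h4 := (h3.sqrt (hyp_arg_pos hε _ _).ne').sub_const ε
  have h5 : HasFDerivAt (hyp ε φ ψ) _ x := h4
  have hq : √(φ x ^ 2 + ψ x ^ 2 + ε ^ 2) ≠ 0 := (Real.sqrt_pos.2 (hyp_arg_pos hε _ _)).ne'
  unfold pd
  rw [h5.fderiv]
  simp only [Pi.add_apply, smul_apply, add_apply, smul_eq_mul, nsmul_eq_mul, Nat.cast_ofNat,
    Nat.add_one_sub_one, pow_one]
  field_simp

theorem hyp_grad_le {ε : ℝ} (hε : 0 < ε) {φ ψ : E → ℝ} (hφ : ContDiff ℝ ∞ φ) (hψ : ContDiff ℝ ∞ ψ)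
    (x : E) : ‖gr (hyp ε φ ψ) x‖ ^ 2 ≤ ‖gr φ x‖ ^ 2 + ‖gr ψ x‖ ^ 2 := by
  set q : ℝ := √(φ x ^ 2 + ψ x ^ 2 + ε ^ 2) with hq
  have hq2 : q ^ 2 = φ x ^ 2 + ψ x ^ 2 + ε ^ 2 := Real.sq_sqrt (hyp_arg_pos hε _ _).le
  have hqp : 0 < q := Real.sqrt_pos.2 (hyp_arg_pos hε _ _)
  have e : q • gr (hyp ε φ ψ) x = φ x • gr φ x + ψ x • gr ψ x := by
    ext i
    simp only [PiLp.smul_apply, PiLp.add_apply, gr_apply, smul_eq_mul]
    exact hyp_pd hε hφ hψ i x
  have n1 : q * ‖gr (hyp ε φ ψ) x‖ ≤ |φ x| * ‖gr φ x‖ + |ψ x| * ‖gr ψ x‖ := by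
    have := congrArg norm e
    rw [norm_smul, Real.norm_of_nonneg hqp.le] at this
    rw [this]
    refine (norm_add_le _ _).trans ?_
    rw [norm_smul, norm_smul]; rfl
  have n2 : (q * ‖gr (hyp ε φ ψ) x‖) ^ 2 ≤ (|φ x| * ‖gr φ x‖ + |ψ x| * ‖gr ψ x‖) ^ 2 :=
    pow_le_pow_left₀ (by positivity) n1 2
  have n3 : (|φ x| * ‖gr φ x‖ + |ψ x| * ‖gr ψ x‖) ^ 2 ≤
      (φ x ^ 2 + ψ x ^ 2) * (‖gr φ x‖ ^ 2 + ‖gr ψ x‖ ^ 2) := by
    rw [← sq_abs (φ x), ← sq_abs (ψ x)]
    nlinarith [sq_nonneg (|φ x| * ‖gr ψ x‖ - |ψ x| * ‖gr φ x‖)]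
  have n4 : (φ x ^ 2 + ψ x ^ 2) * (‖gr φ x‖ ^ 2 + ‖gr ψ x‖ ^ 2) ≤
      q ^ 2 * (‖gr φ x‖ ^ 2 + ‖gr ψ x‖ ^ 2) := by
    rw [hq2]
    have : 0 ≤ ε ^ 2 * (‖gr φ x‖ ^ 2 + ‖gr ψ x‖ ^ 2) := by positivity
    nlinarith
  have n5 : q ^ 2 * ‖gr (hyp ε φ ψ) x‖ ^ 2 ≤ q ^ 2 * (‖gr φ x‖ ^ 2 + ‖gr ψ x‖ ^ 2) := by
    rw [← mul_pow]; exact n2.trans (n3.trans n4)
  exact le_of_mul_le_mul_left n5 (by positivity)

theorem g2_sqrt_sub_le (a b c e : ℝ) : |√(a ^ 2 + b ^ 2) - √(c ^ 2 + e ^ 2)| ≤ |a - c| + |b - e| := by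
  have key : ∀ a b c e : ℝ, √(a ^ 2 + b ^ 2) ≤ √(c ^ 2 + e ^ 2) + (|a - c| + |b - e|) := by
    intro a b c e
    rw [Real.sqrt_le_left (by positivity)]
    have hs : √(c ^ 2 + e ^ 2) ^ 2 = c ^ 2 + e ^ 2 := Real.sq_sqrt (by positivity)
    have h1 : |c| ≤ √(c ^ 2 + e ^ 2) := Real.abs_le_sqrt (by nlinarith [sq_nonneg e])
    have h2 : |e| ≤ √(c ^ 2 + e ^ 2) := Real.abs_le_sqrt (by nlinarith [sq_nonneg c])
    have h3 : a ^ 2 ≤ (|c| + |a - c|) ^ 2 := by
      rw [← sq_abs a]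
      refine pow_le_pow_left₀ (abs_nonneg _) ?_ 2
      have : a = c + (a - c) := by ring
      calc |a| = |c + (a - c)| := by rw [← this]
        _ ≤ _ := abs_add_le _ _
    have h4 : b ^ 2 ≤ (|e| + |b - e|) ^ 2 := by
      rw [← sq_abs b]
      refine pow_le_pow_left₀ (abs_nonneg _) ?_ 2
      have : b = e + (b - e) := by ring
      calc |b| = |e + (b - e)| := by rw [← this]
        _ ≤ _ := abs_add_le _ _
    have h5 := mul_le_mul_of_nonneg_right h1 (abs_nonneg (a - c))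
    have h6 := mul_le_mul_of_nonneg_right h2 (abs_nonneg (b - e))
    have h7 : 0 ≤ |a - c| * |b - e| := by positivity
    nlinarith [sq_abs c, sq_abs e]
  rw [abs_le]
  constructor
  · have := key c e a b
    rw [abs_sub_comm c a, abs_sub_comm e b] at this
    linarith
  · have := key a b c e
    linarith

theorem hyp_sub_le {ε : ℝ} (hε : 0 < ε) (φ ψ : E → ℝ) (x : E) :
    |hyp ε φ ψ x - √(φ x ^ 2 + ψ x ^ 2)| ≤ ε := by
  unfold hyp
  set r : ℝ := √(φ x ^ 2 + ψ x ^ 2) with hr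
  have hr0 : 0 ≤ r := Real.sqrt_nonneg _
  have hr2 : r ^ 2 = φ x ^ 2 + ψ x ^ 2 := Real.sq_sqrt (by positivity)
  rw [← hr2]
  have h1 : √(r ^ 2 + ε ^ 2) ≤ r + ε := by
    rw [Real.sqrt_le_left (by positivity)]; nlinarith
  have h2 : r ≤ √(r ^ 2 + ε ^ 2) := Real.le_sqrt_of_sq_le (by nlinarith)
  rw [abs_le]; constructor <;> linarith

theorem g2_integral_norm_sq_eq {α F : Type*} [MeasurableSpace α] {μ : Measure α} [NormedAddCommGroup F]
    [InnerProductSpace ℝ F] {a : α → F} (ha : MemLp a 2 μ) :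
    ∫ x, ‖a x‖ ^ 2 ∂μ = (eLpNorm a 2 μ).toReal ^ 2 := by
  rw [← norm_toLp_sq ha, Lp.norm_toLp]

theorem g2_bdd_of_tendsto_L2 {α F : Type*} [MeasurableSpace α] {μ : Measure α} [NormedAddCommGroup F]
    [InnerProductSpace ℝ F] {a : ℕ → α → F} {b : α → F} (ha : ∀ n, MemLp (a n) 2 μ) (hb : MemLp b 2 μ)
    (h : Tendsto (fun n => eLpNorm (fun x => a n x - b x) 2 μ) atTop (𝓝 0)) :
    ∃ C : ℝ, ∀ n, ∫ x, ‖a n x‖ ^ 2 ∂μ ≤ C := by
  have h1 : Tendsto (fun n => (eLpNorm (fun x => a n x - b x) 2 μ).toReal) atTop (𝓝 0) := by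
    have := (ENNReal.tendsto_toReal ENNReal.zero_ne_top).comp h
    simpa [Function.comp_def] using this
  obtain ⟨B, hB⟩ := h1.bddAbove_range
  refine ⟨(B + (eLpNorm b 2 μ).toReal) ^ 2, fun n => ?_⟩
  rw [g2_integral_norm_sq_eq (ha n)]
  refine pow_le_pow_left₀ ENNReal.toReal_nonneg ?_ 2
  have h2 : eLpNorm (a n) 2 μ ≤ eLpNorm (fun x => a n x - b x) 2 μ + eLpNorm b 2 μ := by
    have e : a n = (fun x => a n x - b x) + b := by ext x; simp
    conv_lhs => rw [e]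
    exact eLpNorm_add_le ((ha n).1.sub hb.1) hb.1 (by norm_num)
  have h3 : eLpNorm (fun x => a n x - b x) 2 μ ≠ ⊤ := ((ha n).sub hb).2.ne
  have h4 := ENNReal.toReal_mono (ENNReal.add_ne_top.2 ⟨h3, hb.2.ne⟩) h2
  rw [ENNReal.toReal_add h3 hb.2.ne] at h4
  have h5 : (eLpNorm (fun x => a n x - b x) 2 μ).toReal ≤ B := hB ⟨n, rfl⟩
  linarith

theorem g2_memLp_hypot {f k : E → ℝ} (hf : MemLp f 2 volume) (hk : MemLp k 2 volume) :
    MemLp (fun x => √(f x ^ 2 + k x ^ 2)) 2 volume := by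
  refine (hf.norm.add hk.norm).of_le ?_ (Eventually.of_forall fun x => ?_)
  · have hc : Continuous (fun p : ℝ × ℝ => √(p.1 ^ 2 + p.2 ^ 2)) := by fun_prop
    exact hc.comp_aestronglyMeasurable (hf.1.prodMk hk.1)
  · have := g2_sqrt_sub_le (f x) (k x) 0 0
    simp only [sub_zero, ne_eq, OfNat.ofNat_ne_zero, not_false_eq_true, zero_pow, add_zero,
      Real.sqrt_zero] at this
    simp only [Pi.add_apply, Real.norm_eq_abs]
    rw [abs_of_nonneg (Real.sqrt_nonneg _)] at this ⊢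
    rw [abs_of_nonneg (by positivity : (0 : ℝ) ≤ |f x| + |k x|)]
    exact this

/-- `L²` norm of the error of the regularisation -/
theorem g2_eLpNorm_hyp_sub_le {ε : ℝ} (hε : 0 < ε) {φ ψ : E → ℝ} (hφ : Test univ φ) (hψ : Test univ ψ) :
    eLpNorm (fun x => hyp ε φ ψ x - √(φ x ^ 2 + ψ x ^ 2)) 2 volume ≤
      ENNReal.ofReal ε * volume (tsupport φ ∪ tsupport ψ) ^ (1 / 2 : ℝ) := by
  have hS : MeasurableSet (tsupport φ ∪ tsupport ψ) :=
    (isClosed_tsupport _).measurableSet.union (isClosed_tsupport _).measurableSet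
  have h1 : eLpNorm ((tsupport φ ∪ tsupport ψ).indicator fun _ => ε) 2 (volume : Measure E) =
      ENNReal.ofReal ε * volume (tsupport φ ∪ tsupport ψ) ^ (1 / 2 : ℝ) := by
    rw [eLpNorm_indicator_const hS (by norm_num) (by norm_num)]
    rw [Real.enorm_of_nonneg hε.le]
    norm_num
  rw [← h1]
  refine eLpNorm_mono fun x => ?_
  by_cases hx : x ∈ tsupport φ ∪ tsupport ψ
  · rw [indicator_of_mem hx, Real.norm_eq_abs, Real.norm_of_nonneg hε.le]
    exact hyp_sub_le hε φ ψ x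
  · rw [indicator_of_notMem hx]
    rw [mem_union, not_or] at hx
    have e1 := image_eq_zero_of_notMem_tsupport hx.1
    have e2 := image_eq_zero_of_notMem_tsupport hx.2
    rw [hyp_zero hε e1 e2, e1, e2]
    simp

/-- choice of a small regularisation parameter -/
theorem g2_exists_small {M : ℝ≥0∞} (hM : M ≠ ⊤) {δ : ℝ} (hδ : 0 < δ) :
    ∃ ε : ℝ, 0 < ε ∧ ENNReal.ofReal ε * M ≤ ENNReal.ofReal δ := by
  refine ⟨δ / (M.toReal + 1), by positivity, ?_⟩
  rw [← ENNReal.ofReal_toReal hM, ← ENNReal.ofReal_mul (by positivity), ENNReal.ofReal_toReal hM]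
  refine ENNReal.ofReal_le_ofReal ?_
  have h0 : 0 ≤ M.toReal := ENNReal.toReal_nonneg
  rw [div_mul_eq_mul_div, div_le_iff₀ (by positivity)]
  nlinarith

theorem g2_hypot_H1 {f k : E → ℝ} {g l : E → E} (h : H1 f g) (h' : H1 k l) :
    ∃ m : E → E, H1 (fun x => √(f x ^ 2 + k x ^ 2)) m := by
  obtain ⟨φ, hφ, a1, a2, -⟩ := H1.approx h
  obtain ⟨ψ, hψ, b1, b2, -⟩ := H1.approx h'
  have hM : ∀ n, volume (tsupport (φ n) ∪ tsupport (ψ n)) ^ (1 / 2 : ℝ) ≠ ⊤ := fun n =>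
    ENNReal.rpow_ne_top_of_nonneg (by norm_num)
      ((hφ n).cpt.isCompact.union (hψ n).cpt.isCompact).measure_lt_top.ne
  choose ε hε0 hε using fun n : ℕ => g2_exists_small (hM n) (show (0 : ℝ) < 1 / ((n : ℝ) + 1) by positivity)
  have hF : ∀ n, H1 (hyp (ε n) (φ n) (ψ n)) (gr (hyp (ε n) (φ n) (ψ n))) := fun n =>
    H1.of_test (hyp_test (hε0 n) (hφ n) (hψ n))
  have hu : MemLp (fun x => √(f x ^ 2 + k x ^ 2)) 2 volume := g2_memLp_hypot h.memf h'.memf
  have hφ1 : ∀ n, H1 (φ n) (gr (φ n)) := fun n => H1.of_test (hφ n)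
  have hψ1 : ∀ n, H1 (ψ n) (gr (ψ n)) := fun n => H1.of_test (hψ n)
  obtain ⟨C1, hC1⟩ := g2_bdd_of_tendsto_L2 (fun n => (hφ1 n).memg) h.memg a2
  obtain ⟨C2, hC2⟩ := g2_bdd_of_tendsto_L2 (fun n => (hψ1 n).memg) h'.memg b2
  have hconv : Tendsto (fun n => eLpNorm (fun x => hyp (ε n) (φ n) (ψ n) x - √(f x ^ 2 + k x ^ 2)) 2 volume)
      atTop (𝓝 0) := by
    have hb : ∀ n, eLpNorm (fun x => hyp (ε n) (φ n) (ψ n) x - √(f x ^ 2 + k x ^ 2)) 2 volume ≤
        ENNReal.ofReal (1 / ((n : ℝ) + 1)) +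
          (eLpNorm (fun x => φ n x - f x) 2 volume + eLpNorm (fun x => ψ n x - k x) 2 volume) := by
      intro n
      have hun : MemLp (fun x => √(φ n x ^ 2 + ψ n x ^ 2)) 2 volume :=
        g2_memLp_hypot (hφ1 n).memf (hψ1 n).memf
      have e : (fun x => hyp (ε n) (φ n) (ψ n) x - √(f x ^ 2 + k x ^ 2)) =
          (fun x => hyp (ε n) (φ n) (ψ n) x - √(φ n x ^ 2 + ψ n x ^ 2)) +
            fun x => √(φ n x ^ 2 + ψ n x ^ 2) - √(f x ^ 2 + k x ^ 2) := by
        ext x; simp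
      rw [e]
      refine (eLpNorm_add_le ((hF n).memf.1.sub hun.1) (hun.1.sub hu.1) (by norm_num)).trans ?_
      refine add_le_add ((g2_eLpNorm_hyp_sub_le (hε0 n) (hφ n) (hψ n)).trans (hε n)) ?_
      have n1 : eLpNorm (fun x => √(φ n x ^ 2 + ψ n x ^ 2) - √(f x ^ 2 + k x ^ 2)) 2 volume ≤
          eLpNorm ((fun x => ‖φ n x - f x‖) + fun x => ‖ψ n x - k x‖) 2 volume := by
        refine eLpNorm_mono fun x => ?_
        simp only [Pi.add_apply, Real.norm_eq_abs]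
        rw [abs_of_nonneg (by positivity : (0 : ℝ) ≤ |φ n x - f x| + |ψ n x - k x|)]
        exact g2_sqrt_sub_le _ _ _ _
      refine n1.trans ((eLpNorm_add_le ((hφ1 n).memf.1.sub h.memf.1).norm
        ((hψ1 n).memf.1.sub h'.memf.1).norm (by norm_num)).trans ?_)
      rw [eLpNorm_norm, eLpNorm_norm]
      exact le_rfl
    have t0 : Tendsto (fun n : ℕ => ENNReal.ofReal (1 / ((n : ℝ) + 1))) atTop (𝓝 0) := by
      have := ENNReal.tendsto_ofReal (tendsto_one_div_add_atTop_nhds_zero_nat (𝕜 := ℝ))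
      simpa using this
    have t1 := t0.add (a1.add b1)
    simp only [add_zero] at t1
    exact tendsto_of_tendsto_of_tendsto_of_le_of_le tendsto_const_nhds t1 (fun _ => bot_le) hb
  obtain ⟨m, hm, -⟩ := H1.of_bounded hF hu hconv (C := C1 + C2) fun n => by
    have i1 := (hφ1 n).memg.integrable_norm_pow (by norm_num)
    have i2 := (hψ1 n).memg.integrable_norm_pow (by norm_num)
    have i3 := (hF n).memg.integrable_norm_pow (by norm_num)
    calc ∫ x, ‖gr (hyp (ε n) (φ n) (ψ n)) x‖ ^ 2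
        ≤ ∫ x, (‖gr (φ n) x‖ ^ 2 + ‖gr (ψ n) x‖ ^ 2) :=
          integral_mono i3 (i1.add i2) fun x => hyp_grad_le (hε0 n) (hφ n).smooth (hψ n).smooth x
      _ = (∫ x, ‖gr (φ n) x‖ ^ 2) + ∫ x, ‖gr (ψ n) x‖ ^ 2 := integral_add i1 i2
      _ ≤ C1 + C2 := add_le_add (hC1 n) (hC2 n)
  exact ⟨m, hm⟩

theorem g2_locInt_mul {f k : E → ℝ} (hf : MemLp f 2 volume) (hk : MemLp k 2 volume) :
    LocallyIntegrableOn (fun x => f x * k x) univ volume :=
  (hf.integrable_mul hk).locallyIntegrable.locallyIntegrableOn _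

theorem g2_locInt_smul {f : E → ℝ} {l : E → E} (hf : MemLp f 2 volume) (hl : MemLp l 2 volume) :
    LocallyIntegrableOn (fun x => f x • l x) univ volume := by
  have h : MemLp (f • l) 1 volume := MemLp.smul (p := 2) (q := 2) hl hf
  exact (memLp_one_iff_integrable.1 h).locallyIntegrable.locallyIntegrableOn _

/-- the weak gradient of the square -/
theorem g2_WG_sq {f : E → ℝ} {g : E → E} (h : H1 f g) :
    WG univ (fun x => f x * f x) (fun x => f x • g x + f x • g x) :=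
  WG.mul isOpen_univ h.wg h.wg (g2_locInt_mul h.memf h.memf) (g2_locInt_smul h.memf h.memg)
    (g2_locInt_smul h.memf h.memg)

/-- the regularised and the true euclidean norm of two functions -/
theorem H1.hypot {f k : E → ℝ} {g l : E → E} (h : H1 f g) (h' : H1 k l) :
    ∃ m : E → E, H1 (fun x => √(f x ^ 2 + k x ^ 2)) m ∧
      ∀ᵐ x, √(f x ^ 2 + k x ^ 2) • m x = f x • g x + k x • l x ∧
        ‖m x‖ ^ 2 ≤ ‖g x‖ ^ 2 + ‖l x‖ ^ 2 := by
  obtain ⟨m, hm⟩ := g2_hypot_H1 h h'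
  refine ⟨m, hm, ?_⟩
  have w1 := g2_WG_sq hm
  have w2 := WG.add (g2_WG_sq h) (g2_WG_sq h') isOpen_univ
  have e : (fun x => f x * f x + k x * k x) = fun x => √(f x ^ 2 + k x ^ 2) * √(f x ^ 2 + k x ^ 2) := by
    ext x
    rw [Real.mul_self_sqrt (by positivity)]
    ring
  rw [e] at w2
  have h3 := WG.unique isOpen_univ w1 w2
  have h4 := WG.zero_of_level isOpen_univ hm.wg 0
  rw [Measure.restrict_univ] at h3 h4
  filter_upwards [h3, h4] with x hx1 hx2
  set u : ℝ := √(f x ^ 2 + k x ^ 2) with hu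
  have hu2 : u ^ 2 = f x ^ 2 + k x ^ 2 := Real.sq_sqrt (by positivity)
  have hu0 : 0 ≤ u := Real.sqrt_nonneg _
  have h5 : u • m x = f x • g x + k x • l x := by
    have h6 : (2 : ℝ) • (u • m x) = (2 : ℝ) • (f x • g x + k x • l x) := by
      rw [two_smul, two_smul, hx1]
      abel
    exact smul_right_injective _ (two_ne_zero' ℝ) h6
  refine ⟨h5, ?_⟩
  rcases hu0.eq_or_lt with h0 | h0
  · rw [hx2 h0.symm]
    simp only [norm_zero, ne_eq, OfNat.ofNat_ne_zero, not_false_eq_true, zero_pow]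
    positivity
  · have n1 : u * ‖m x‖ ≤ |f x| * ‖g x‖ + |k x| * ‖l x‖ := by
      have := congrArg norm h5
      rw [norm_smul, Real.norm_of_nonneg hu0] at this
      rw [this]
      refine (norm_add_le _ _).trans ?_
      rw [norm_smul, norm_smul]; rfl
    have n2 : (u * ‖m x‖) ^ 2 ≤ (|f x| * ‖g x‖ + |k x| * ‖l x‖) ^ 2 :=
      pow_le_pow_left₀ (by positivity) n1 2
    have n3 : (|f x| * ‖g x‖ + |k x| * ‖l x‖) ^ 2 ≤
        (f x ^ 2 + k x ^ 2) * (‖g x‖ ^ 2 + ‖l x‖ ^ 2) := by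
      rw [← sq_abs (f x), ← sq_abs (k x)]
      nlinarith [sq_nonneg (|f x| * ‖l x‖ - |k x| * ‖g x‖)]
    rw [← hu2] at n3
    have n5 : u ^ 2 * ‖m x‖ ^ 2 ≤ u ^ 2 * (‖g x‖ ^ 2 + ‖l x‖ ^ 2) := by
      rw [← mul_pow]; exact n2.trans n3
    exact le_of_mul_le_mul_left n5 (by positivity)

end Crest.Agent.R335
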