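import Crest.Agent.R335.KDefs
import Crest.Agent.R335.HFourier
import Crest.Agent.R335.HGlob
import Crest.Agent.R335.HGlob2

/-!
Row 335 (S0521): three-electron wave functions `waveOf F` in the sector `S_z = 1/2`
(two spin-up electrons, one spin-down electron), built from one real function `F` of the three
positions, antisymmetric in the first two (helper50).
-/

set_option autoImplicit false

open MeasureTheory Filter Set Crest.MathPhysics.ThreeBody
open scoped ENNReal Topology ContDiff

noncomputable section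
namespace Crest.Agent.R335

/-- relabelling of the electrons as a linear isometry -/
def permL (σ : Equiv.Perm (Fin 3)) : Config3 ≃ₗᵢ[ℝ] Config3 :=
  LinearIsometryEquiv.piLpCongrLeft 2 ℝ ℝ (Equiv.prodCongr σ.symm (Equiv.refl (Fin 3)))

theorem permL_apply (σ : Equiv.Perm (Fin 3)) (x : Config3) : permL σ x = permConfig σ x := by
  ext ⟨i, c⟩
  simp [permL, permConfig, LinearIsometryEquiv.piLpCongrLeft_apply, Equiv.piCongrLeft']

theorem permConfig_apply (σ : Equiv.Perm (Fin 3)) (x : Config3) (i c : Fin 3) :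
    permConfig σ x (i, c) = x (σ i, c) := rfl

theorem permConfig_permConfig (σ τ : Equiv.Perm (Fin 3)) (x : Config3) :
    permConfig τ (permConfig σ x) = permConfig (σ * τ) x := by
  ext ⟨i, c⟩
  simp [permConfig_apply]

theorem permConfig_one (x : Config3) : permConfig 1 x = x := by
  ext ⟨i, c⟩
  simp [permConfig_apply]

theorem elPos_permConfig (σ : Equiv.Perm (Fin 3)) (i : Fin 3) (x : Config3) :
    elPos i (permConfig σ x) = elPos (σ i) x := by
  ext c
  simp [elPos, permConfig_apply]

theorem permConfig_eq_permL (σ : Equiv.Perm (Fin 3)) : permConfig σ = permL σ :=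
  funext fun x => (permL_apply σ x).symm

theorem mp_perm (σ : Equiv.Perm (Fin 3)) :
    MeasurePreserving (permConfig σ) (volume : Measure Config3) volume := by
  rw [permConfig_eq_permL]
  exact (permL σ).measurePreserving

theorem me_perm (σ : Equiv.Perm (Fin 3)) : MeasurableEmbedding (permConfig σ) := by
  rw [permConfig_eq_permL]
  exact (permL σ).toHomeomorph.measurableEmbedding

theorem lintegral_perm (σ : Equiv.Perm (Fin 3)) (f : Config3 → ℝ≥0∞) :
    ∫⁻ x, f (permConfig σ x) = ∫⁻ x, f x :=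
  (mp_perm σ).lintegral_comp_emb (me_perm σ) f

theorem integral_perm {F : Type*} [NormedAddCommGroup F] [NormedSpace ℝ F]
    (σ : Equiv.Perm (Fin 3)) (f : Config3 → F) :
    ∫ x, f (permConfig σ x) = ∫ x, f x :=
  (mp_perm σ).integral_comp (me_perm σ) f

/-- the spin assignment with electron `j` down and the others up -/
def dnS (j : Fin 3) : Spin3 := fun i => if i = j then 1 else 0

theorem dnS_injective : Function.Injective dnS := by decide

theorem dnS_comp (σ : Equiv.Perm (Fin 3)) (s : Spin3) (j : Fin 3) :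
    (fun i => s (σ i)) = dnS j ↔ s = dnS (σ j) := by
  constructor
  · intro h
    funext i
    have := congrFun h (σ.symm i)
    simp only [Equiv.apply_symm_apply] at this
    rw [this]
    simp only [dnS, Equiv.symm_apply_eq]
  · rintro rfl
    funext i
    simp [dnS]

/-- the cyclic relabelling `0 ↦ j+1, 1 ↦ j+2, 2 ↦ j` -/
def cyc (j : Fin 3) : Equiv.Perm (Fin 3) := Equiv.addRight (j + 1)

theorem cyc_rel (σ : Equiv.Perm (Fin 3)) (j : Fin 3) :
    (Equiv.Perm.sign σ = 1 ∧ σ * cyc j = cyc (σ j)) ∨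
      (Equiv.Perm.sign σ = -1 ∧ σ * cyc j = cyc (σ j) * Equiv.swap 0 1) := by
  revert σ j
  decide

/-- the wave function with `S_z = 1/2` defined by a function `F` of the positions of the two
spin-up electrons and of the spin-down electron -/
def waveOf (F : Config3 → ℝ) : Wave3 := fun s x =>
  ∑ j : Fin 3, if s = dnS j then ((F (permConfig (cyc j) x) / √3 : ℝ) : ℂ) else 0

theorem waveOf_dn (F : Config3 → ℝ) (j : Fin 3) (x : Config3) :
    waveOf F (dnS j) x = ((F (permConfig (cyc j) x) / √3 : ℝ) : ℂ) := by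
  unfold waveOf
  rw [Finset.sum_eq_single j]
  · simp
  · intro k _ hk
    rw [if_neg]
    exact fun h => hk (dnS_injective h).symm
  · simp

theorem waveOf_not {F : Config3 → ℝ} {s : Spin3} (hs : ∀ j, s ≠ dnS j) (x : Config3) :
    waveOf F s x = 0 := by
  unfold waveOf
  exact Finset.sum_eq_zero fun j _ => if_neg (hs j)

theorem sum_spin {M : Type*} [AddCommMonoid M] (G : Spin3 → M)
    (h : ∀ s, (∀ j, s ≠ dnS j) → G s = 0) : ∑ s, G s = ∑ j, G (dnS j) := by
  refine (Fintype.sum_of_injective dnS dnS_injective _ _ ?_ fun i => rfl).symm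
  intro s hs
  exact h s fun j hj => hs ⟨j, hj.symm⟩

theorem memLp_perm {F : Config3 → ℝ} {p : ℝ≥0∞} (hF : MemLp F p volume)
    (σ : Equiv.Perm (Fin 3)) : MemLp (fun x => F (permConfig σ x)) p volume :=
  hF.comp_measurePreserving (mp_perm σ)

theorem waveOf_isFermionic {F : Config3 → ℝ} (hF : MemLp F 2 volume)
    (hanti : ∀ x, F (permConfig (Equiv.swap 0 1) x) = - F x) : IsFermionic (waveOf F) := by
  constructor
  · intro s
    unfold waveOf
    refine memLp_finsetSum _ fun j _ => ?_
    by_cases h : s = dnS j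
    · simp only [h, if_true]
      have h3 : MemLp (fun x => (√3)⁻¹ * F (permConfig (cyc j) x)) 2 volume :=
        (memLp_perm hF (cyc j)).const_mul _
      refine (h3.ofReal (K := ℂ)).congr_norm ?_ (Eventually.of_forall fun x => ?_)
      · refine Complex.continuous_ofReal.comp_aestronglyMeasurable ?_
        simpa only [div_eq_inv_mul] using h3.aestronglyMeasurable
      · simp [div_eq_inv_mul]
    · simp only [h, if_false]
      exact MemLp.zero'
  · intro σ s x
    have key : ∀ j, F (permConfig (cyc j) (permConfig σ x)) =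
        ((Equiv.Perm.sign σ : ℤ) : ℝ) * F (permConfig (cyc (σ j)) x) := by
      intro j
      rw [permConfig_permConfig]
      rcases cyc_rel σ j with ⟨h1, h2⟩ | ⟨h1, h2⟩
      · rw [h1, h2]; simp
      · rw [h1, h2, ← permConfig_permConfig, hanti]; simp
    unfold waveOf
    have e1 : ∀ j, (if (fun i => s (σ i)) = dnS j then
        ((F (permConfig (cyc j) (permConfig σ x)) / √3 : ℝ) : ℂ) else 0) =
        ((Equiv.Perm.sign σ : ℤ) : ℂ) * (if s = dnS (σ j) then
          ((F (permConfig (cyc (σ j)) x) / √3 : ℝ) : ℂ) else 0) := by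
      intro j
      by_cases h : s = dnS (σ j)
      · rw [if_pos ((dnS_comp σ s j).2 h), if_pos h, key]
        push_cast
        ring
      · rw [if_neg (fun h' => h ((dnS_comp σ s j).1 h')), if_neg h, mul_zero]
    simp only [e1]
    rw [← Finset.mul_sum]
    congr 1
    exact Equiv.sum_comp σ (fun j => if s = dnS j then
          ((F (permConfig (cyc j) x) / √3 : ℝ) : ℂ) else 0)

theorem enorm_waveOf_dn (F : Config3 → ℝ) (j : Fin 3) (x : Config3) :
    ‖waveOf F (dnS j) x‖ₑ ^ 2 = ENNReal.ofReal (F (permConfig (cyc j) x) ^ 2 / 3) := by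
  rw [waveOf_dn, HF.enorm_sq_eq_ofReal, Complex.norm_real, Real.norm_eq_abs, sq_abs, div_pow,
    Real.sq_sqrt (by norm_num)]

theorem norm_waveOf_dn (F : Config3 → ℝ) (j : Fin 3) (x : Config3) :
    ‖waveOf F (dnS j) x‖ ^ 2 = F (permConfig (cyc j) x) ^ 2 / 3 := by
  rw [waveOf_dn, Complex.norm_real, Real.norm_eq_abs, sq_abs, div_pow,
    Real.sq_sqrt (by norm_num)]

theorem lintegral_sym (w : Config3 → ℝ≥0∞) (hw : ∀ σ x, w (permConfig σ x) = w x)
    (F : Config3 → ℝ) :
    ∑ j : Fin 3, ∫⁻ x, w x * ENNReal.ofReal (F (permConfig (cyc j) x) ^ 2 / 3) =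
      ∫⁻ x, w x * ENNReal.ofReal (F x ^ 2) := by
  have e : ∀ j : Fin 3, ∫⁻ x, w x * ENNReal.ofReal (F (permConfig (cyc j) x) ^ 2 / 3) =
      ENNReal.ofReal (1 / 3) * ∫⁻ x, w x * ENNReal.ofReal (F x ^ 2) := by
    intro j
    rw [← lintegral_const_mul' _ _ ENNReal.ofReal_ne_top,
      ← lintegral_perm (cyc j) (fun x => ENNReal.ofReal (1 / 3) * (w x * ENNReal.ofReal (F x ^ 2)))]
    refine lintegral_congr fun x => ?_
    rw [hw, div_eq_mul_one_div, ENNReal.ofReal_mul (by positivity)]
    ring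
  simp only [e, Finset.sum_const, Finset.card_univ, Fintype.card_fin]
  rw [nsmul_eq_mul, ← mul_assoc]
  have : ((3 : ℕ) : ℝ≥0∞) * ENNReal.ofReal (1 / 3) = 1 := by
    rw [show ((3 : ℕ) : ℝ≥0∞) = ENNReal.ofReal 3 from by simp, ← ENNReal.ofReal_mul (by norm_num)]
    norm_num
  rw [this, one_mul]

theorem normSq_waveOf (F : Config3 → ℝ) :
    normSq (waveOf F) = ∫⁻ x, ENNReal.ofReal (F x ^ 2) := by
  unfold normSq
  rw [sum_spin]
  · simp only [enorm_waveOf_dn]
    have := lintegral_sym (fun _ => 1) (fun _ _ => rfl) F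
    simpa only [one_mul] using this
  · intro s hs
    simp [waveOf_not hs]

theorem sum_indicator_perm (A : Set Pos3) (σ : Equiv.Perm (Fin 3)) (x : Config3) :
    (∑ i : Fin 3, A.indicator (fun _ => (1 : ℝ≥0∞)) (elPos i (permConfig σ x))) =
      ∑ i : Fin 3, A.indicator (fun _ => (1 : ℝ≥0∞)) (elPos i x) := by
  simp only [elPos_permConfig]
  exact Equiv.sum_comp σ (fun i => A.indicator (fun _ => (1 : ℝ≥0∞)) (elPos i x))

theorem densityOn_waveOf (F : Config3 → ℝ) (A : Set Pos3) :
    densityOn (waveOf F) A = ∫⁻ x, (∑ i : Fin 3, A.indicator (fun _ => (1 : ℝ≥0∞)) (elPos i x)) *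
      ENNReal.ofReal (F x ^ 2) := by
  unfold densityOn
  rw [sum_spin]
  · simp only [enorm_waveOf_dn]
    exact lintegral_sym _ (sum_indicator_perm A) F
  · intro s hs
    simp [waveOf_not hs]

theorem kineticOne_zero : kineticOne (fun _ => (0 : ℂ)) = 0 := by
  have h0 : H1 (fun x : Config3 => ((0 : ℂ)).re) (fun _ => 0) :=
    HF.isH1_iff_H1.1 (by simpa using (HF.IsH1.zero (ι := Fin 3 × Fin 3) (F := ℝ)))
  have h1 : H1 (fun x : Config3 => ((0 : ℂ)).im) (fun _ => 0) :=
    HF.isH1_iff_H1.1 (by simpa using (HF.IsH1.zero (ι := Fin 3 × Fin 3) (F := ℝ)))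
  rw [kineticOne_eq (f := fun _ => (0 : ℂ)) h0 h1]
  simp

theorem H1_perm {F : Config3 → ℝ} {g : Config3 → Config3} (hF : H1 F g)
    (σ : Equiv.Perm (Fin 3)) :
    H1 (fun x => F (permConfig σ x)) (fun x => (permL σ).symm (g (permConfig σ x))) := by
  have := H1.comp_isometry hF (permL σ) 0
  simpa only [add_zero, permL_apply] using this

theorem kineticOne_waveOf_dn {F : Config3 → ℝ} {g : Config3 → Config3} (hF : H1 F g) (j : Fin 3) :
    kineticOne (waveOf F (dnS j)) = ENNReal.ofReal ((1 / 6) * ∫ x, ‖g x‖ ^ 2) := by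
  have e : (waveOf F (dnS j)) = fun x => ((F (permConfig (cyc j) x) / √3 : ℝ) : ℂ) :=
    funext fun x => waveOf_dn F j x
  have h1 : H1 (fun x => (waveOf F (dnS j) x).re)
      (fun x => (√3)⁻¹ • (permL (cyc j)).symm (g (permConfig (cyc j) x))) := by
    have h := (H1_perm hF (cyc j)).const_mul (√3)⁻¹
    have e' : (fun x => (waveOf F (dnS j) x).re) = fun x => (√3)⁻¹ * F (permConfig (cyc j) x) := by
      funext x
      rw [waveOf_dn, Complex.ofReal_re]
      ring
    rw [e']
    exact h
  have h2 : H1 (fun x => (waveOf F (dnS j) x).im) (fun _ => 0) := by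
    have e' : (fun x => (waveOf F (dnS j) x).im) = fun _ => (0 : ℝ) := by
      funext x
      rw [waveOf_dn, Complex.ofReal_im]
    rw [e']
    exact HF.isH1_iff_H1.1 (HF.IsH1.zero (ι := Fin 3 × Fin 3) (F := ℝ))
  rw [kineticOne_eq h1 h2]
  congr 1
  have e3 : ∀ x, ‖(√3)⁻¹ • (permL (cyc j)).symm (g (permConfig (cyc j) x))‖ ^ 2 +
      ‖(0 : Config3)‖ ^ 2 = (1 / 3) * ‖g (permConfig (cyc j) x)‖ ^ 2 := by
    intro x
    rw [norm_smul, LinearIsometryEquiv.norm_map, mul_pow, norm_zero, norm_inv, Real.norm_eq_abs,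
      inv_pow, sq_abs, Real.sq_sqrt (by norm_num)]
    norm_num
  simp only [e3]
  rw [integral_const_mul, integral_perm (cyc j) (fun x => ‖g x‖ ^ 2)]
  ring

theorem kinetic_waveOf {F : Config3 → ℝ} {g : Config3 → Config3} (hF : H1 F g) :
    kinetic (waveOf F) = ENNReal.ofReal ((1 / 2) * ∫ x, ‖g x‖ ^ 2) := by
  unfold kinetic
  rw [sum_spin]
  · simp only [kineticOne_waveOf_dn hF, Finset.sum_const, Finset.card_univ, Fintype.card_fin]
    rw [nsmul_eq_mul, show ((3 : ℕ) : ℝ≥0∞) = ENNReal.ofReal 3 from by simp,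
      ← ENNReal.ofReal_mul (by norm_num)]
    congr 1
    ring
  · intro s hs
    have : waveOf F s = fun _ => 0 := funext fun x => waveOf_not hs x
    rw [this]
    exact kineticOne_zero

theorem potentialEnergy_waveOf {W : Config3 → ℝ} (hW : ∀ σ x, W (permConfig σ x) = W x)
    (F : Config3 → ℝ) : potentialEnergy W (waveOf F) = ∫ x, W x * F x ^ 2 := by
  unfold potentialEnergy
  rw [sum_spin]
  · have e : ∀ j, ∫ x, W x * ‖waveOf F (dnS j) x‖ ^ 2 = (1 / 3) * ∫ x, W x * F x ^ 2 := by
      intro j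
      rw [← integral_const_mul, ← integral_perm (cyc j) (fun x => (1 / 3) * (W x * F x ^ 2))]
      refine integral_congr_ae (Eventually.of_forall fun x => ?_)
      simp only [norm_waveOf_dn, hW]
      ring
    simp only [e, Finset.sum_const, Finset.card_univ, Fintype.card_fin, nsmul_eq_mul]
    push_cast
    ring
  · intro s hs
    simp [waveOf_not hs]

theorem integrable_waveOf {W : Config3 → ℝ} (hW : ∀ σ x, W (permConfig σ x) = W x)
    {F : Config3 → ℝ} (hi : Integrable (fun x => W x * F x ^ 2)) (s : Spin3) :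
    Integrable (fun x => W x * ‖waveOf F s x‖ ^ 2) := by
  by_cases hs : ∀ j, s ≠ dnS j
  · simp only [waveOf_not hs]
    simp
  · push Not at hs
    obtain ⟨j, rfl⟩ := hs
    have h1 : Integrable (fun x => W (permConfig (cyc j) x) * F (permConfig (cyc j) x) ^ 2) :=
      (mp_perm (cyc j)).integrable_comp_of_integrable hi
    refine (h1.const_mul (1 / 3)).congr (Eventually.of_forall fun x => ?_)
    simp only [norm_waveOf_dn, hW]
    ring

theorem admissible_waveOf {W : Config3 → ℝ} (hW : ∀ σ x, W (permConfig σ x) = W x)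
    {F : Config3 → ℝ} {g : Config3 → Config3} (hF : H1 F g)
    (hanti : ∀ x, F (permConfig (Equiv.swap 0 1) x) = - F x)
    (hi : Integrable (fun x => W x * F x ^ 2)) : IsAdmissible W (waveOf F) := by
  refine ⟨waveOf_isFermionic hF.memf hanti, ?_, integrable_waveOf hW hi⟩
  rw [kinetic_waveOf hF]
  exact ENNReal.ofReal_lt_top

theorem energy_waveOf {W : Config3 → ℝ} (hW : ∀ σ x, W (permConfig σ x) = W x)
    {F : Config3 → ℝ} {g : Config3 → Config3} (hF : H1 F g) :
    energy W (waveOf F) = (1 / 2) * (∫ x, ‖g x‖ ^ 2) + ∫ x, W x * F x ^ 2 := by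
  unfold energy
  rw [kinetic_waveOf hF, potentialEnergy_waveOf hW,
    ENNReal.toReal_ofReal (by positivity)]

end Crest.Agent.R335
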