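import Crest.Agent.R335.HDefs2
import Crest.Agent.R335.HGlob

/-!
Row 335 (S0521): Sobolev library, module HSpace: the Hilbert space `H1S ι` of pairs
(function, weak gradient), and continuous bilinear forms on it.
-/

set_option autoImplicit false
set_option linter.unusedSectionVars false

open MeasureTheory Filter Set
open scoped ENNReal Topology ContDiff

noncomputable section
namespace Crest.Agent.R335

variable {ι : Type*} [Fintype ι] [DecidableEq ι]

local notation "E" => EuclideanSpace ℝ ι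

theorem H1.of_fst_snd {P : WithLp 2 (Lp ℝ 2 (volume : Measure E) ×
    Lp (EuclideanSpace ℝ ι) 2 (volume : Measure E))} (h : WG univ (P.fst : E → ℝ) (P.snd : E → E)) :
    H1 (P.fst : E → ℝ) (P.snd : E → E) :=
  ⟨Lp.memLp _, Lp.memLp _, h⟩

theorem isClosed_H1S : IsClosed {P : WithLp 2 (Lp ℝ 2 (volume : Measure E) ×
    Lp (EuclideanSpace ℝ ι) 2 (volume : Measure E)) |
      WG univ (P.fst : E → ℝ) (P.snd : E → E)} := by
  apply IsSeqClosed.isClosed
  intro Pn P hPn hP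
  have h1 : Tendsto (fun n => (Pn n).fst) atTop (𝓝 P.fst) :=
    ((WithLp.continuous_fst (p := 2) (α := Lp ℝ 2 (volume : Measure E))
      (β := Lp (EuclideanSpace ℝ ι) 2 (volume : Measure E))).tendsto P).comp hP
  have h2 : Tendsto (fun n => (Pn n).snd) atTop (𝓝 P.snd) :=
    ((WithLp.continuous_snd (p := 2) (α := Lp ℝ 2 (volume : Measure E))
      (β := Lp (EuclideanSpace ℝ ι) 2 (volume : Measure E))).tendsto P).comp hP
  have h1' := (Lp.tendsto_Lp_iff_tendsto_eLpNorm' _ _).1 h1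
  have h2' := (Lp.tendsto_Lp_iff_tendsto_eLpNorm' _ _).1 h2
  exact (H1.of_tendsto (fn := fun n => ((Pn n).fst : E → ℝ)) (gn := fun n => ((Pn n).snd : E → E))
    (fun n => H1.of_fst_snd (hPn n)) (Lp.memLp _) (Lp.memLp _) h1' h2').wg

/-- the Hilbert space `H¹(ℝ^ι)` -/
def H1S (ι : Type*) [Fintype ι] [DecidableEq ι] :
    Submodule ℝ (WithLp 2 (Lp ℝ 2 (volume : Measure (EuclideanSpace ℝ ι)) ×
      Lp (EuclideanSpace ℝ ι) 2 (volume : Measure (EuclideanSpace ℝ ι)))) where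
  carrier := {P | WG univ (P.fst : EuclideanSpace ℝ ι → ℝ)
    (P.snd : EuclideanSpace ℝ ι → EuclideanSpace ℝ ι)}
  add_mem' := by
    intro P Q hP hQ
    have hP' : H1 (P.fst : EuclideanSpace ℝ ι → ℝ) (P.snd : EuclideanSpace ℝ ι → EuclideanSpace ℝ ι) :=
      H1.of_fst_snd hP
    have hQ' : H1 (Q.fst : EuclideanSpace ℝ ι → ℝ) (Q.snd : EuclideanSpace ℝ ι → EuclideanSpace ℝ ι) :=
      H1.of_fst_snd hQ
    refine ((hP'.add hQ').congr ?_ ?_).wg
    · simp only [WithLp.add_fst]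
      filter_upwards [Lp.coeFn_add P.fst Q.fst] with x hx
      rw [hx]; rfl
    · simp only [WithLp.add_snd]
      filter_upwards [Lp.coeFn_add P.snd Q.snd] with x hx
      rw [hx]; rfl
  zero_mem' := by
    have h := (H1.of_test (ι := ι) (U := univ) (φ := fun _ => 0)
      ⟨contDiff_const, HasCompactSupport.zero, subset_univ _⟩)
    refine (h.congr ?_ ?_).wg
    · simp only [WithLp.zero_fst]
      filter_upwards [Lp.coeFn_zero ℝ 2 (volume : Measure (EuclideanSpace ℝ ι))] with x hx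
      rw [hx]; rfl
    · simp only [WithLp.zero_snd]
      filter_upwards [Lp.coeFn_zero (EuclideanSpace ℝ ι) 2 (volume : Measure (EuclideanSpace ℝ ι))]
        with x hx
      rw [hx]
      ext i
      simp [gr, pd]
  smul_mem' := by
    intro c P hP
    have hP' : H1 (P.fst : EuclideanSpace ℝ ι → ℝ) (P.snd : EuclideanSpace ℝ ι → EuclideanSpace ℝ ι) :=
      H1.of_fst_snd hP
    refine ((hP'.const_mul c).congr ?_ ?_).wg
    · simp only [WithLp.smul_fst]
      filter_upwards [Lp.coeFn_smul c P.fst] with x hx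
      rw [hx]; rfl
    · simp only [WithLp.smul_snd]
      filter_upwards [Lp.coeFn_smul c P.snd] with x hx
      rw [hx]; rfl

instance : CompleteSpace (H1S ι) := (isClosed_H1S (ι := ι)).completeSpace_coe

namespace H1S

/-- the function -/
def fn (P : H1S ι) : E → ℝ := (P.1.fst : E → ℝ)

/-- its weak gradient -/
def gd (P : H1S ι) : E → E := (P.1.snd : E → E)

theorem h1 (P : H1S ι) : H1 (fn P) (gd P) := H1.of_fst_snd P.2

/-- an `H1` function as an element of the Hilbert space -/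
def of {f : E → ℝ} {g : E → E} (h : H1 f g) : H1S ι :=
  ⟨WithLp.toLp 2 (h.memf.toLp f, h.memg.toLp g), by
    have := h.congr (h.memf.coeFn_toLp).symm (h.memg.coeFn_toLp).symm
    exact this.wg⟩

theorem of_fn {f : E → ℝ} {g : E → E} (h : H1 f g) : fn (of h) =ᵐ[volume] f :=
  h.memf.coeFn_toLp

theorem of_gd {f : E → ℝ} {g : E → E} (h : H1 f g) : gd (of h) =ᵐ[volume] g :=
  h.memg.coeFn_toLp

theorem add_fn (P Q : H1S ι) : fn (P + Q) =ᵐ[volume] fun x => (fn P) x + (fn Q) x :=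
  Lp.coeFn_add P.1.fst Q.1.fst

theorem add_gd (P Q : H1S ι) : gd (P + Q) =ᵐ[volume] fun x => (gd P) x + (gd Q) x :=
  Lp.coeFn_add P.1.snd Q.1.snd

theorem sub_fn (P Q : H1S ι) : fn (P - Q) =ᵐ[volume] fun x => (fn P) x - (fn Q) x :=
  Lp.coeFn_sub P.1.fst Q.1.fst

theorem sub_gd (P Q : H1S ι) : gd (P - Q) =ᵐ[volume] fun x => (gd P) x - (gd Q) x :=
  Lp.coeFn_sub P.1.snd Q.1.snd

theorem smul_fn (c : ℝ) (P : H1S ι) : fn (c • P) =ᵐ[volume] fun x => c * (fn P) x :=
  Lp.coeFn_smul c P.1.fst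

theorem smul_gd (c : ℝ) (P : H1S ι) : gd (c • P) =ᵐ[volume] fun x => c • (gd P) x :=
  Lp.coeFn_smul c P.1.snd

theorem zero_fn : fn (0 : H1S ι) =ᵐ[volume] fun _ => 0 :=
  Lp.coeFn_zero ℝ 2 (volume : Measure E)

theorem zero_gd : gd (0 : H1S ι) =ᵐ[volume] fun _ => 0 :=
  Lp.coeFn_zero E 2 (volume : Measure E)

theorem ext' {P Q : H1S ι} (h : (fn P) =ᵐ[volume] (fn Q)) : P = Q := by
  have h2 : (gd P) =ᵐ[volume] (gd Q) := H1.unique (h1 P) ((h1 Q).congr h.symm (Filter.EventuallyEq.refl _ _))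
  apply Subtype.ext
  have e1 : P.1.fst = Q.1.fst := Lp.ext h
  have e2 : P.1.snd = Q.1.snd := Lp.ext h2
  exact WithLp.ofLp_injective 2 (Prod.ext e1 e2)

theorem of_h1 (P : H1S ι) : of (h1 P) = P := ext' (of_fn (h1 P))

/-- `∫ f k`, inner product of `L²` -/
theorem inner_fst (P Q : H1S ι) : inner ℝ P.1.fst Q.1.fst = ∫ x, (fn P) x * (fn Q) x := by
  rw [L2.inner_def]
  refine integral_congr_ae (Eventually.of_forall fun x => ?_)
  simp [fn, mul_comm]

theorem inner_snd (P Q : H1S ι) : inner ℝ P.1.snd Q.1.snd = ∫ x, inner ℝ ((gd P) x) ((gd Q) x) := by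
  rw [L2.inner_def]
  rfl

theorem inner_eq (P Q : H1S ι) : inner ℝ P Q =
    (∫ x, (fn P) x * (fn Q) x) + ∫ x, inner ℝ ((gd P) x) ((gd Q) x) := by
  rw [← inner_fst, ← inner_snd, Submodule.coe_inner, WithLp.prod_inner_apply]
  rfl

theorem norm_sq_eq (P : H1S ι) : ‖P‖ ^ 2 = (∫ x, (fn P) x ^ 2) + ∫ x, ‖(gd P) x‖ ^ 2 := by
  rw [← real_inner_self_eq_norm_sq, inner_eq]
  congr 1
  · exact integral_congr_ae (Eventually.of_forall fun x => by simp [sq])
  · exact integral_congr_ae (Eventually.of_forall fun x => by simp)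

theorem norm_of_sq {f : E → ℝ} {g : E → E} (h : H1 f g) :
    ‖of h‖ ^ 2 = (∫ x, f x ^ 2) + ∫ x, ‖g x‖ ^ 2 := by
  rw [norm_sq_eq]
  congr 1
  · exact integral_congr_ae ((of_fn h).mono fun x hx => by simp only [hx])
  · exact integral_congr_ae ((of_gd h).mono fun x hx => by simp only [hx])

theorem integral_fn_sq_le (P : H1S ι) : ∫ x, (fn P) x ^ 2 ≤ ‖P‖ ^ 2 := by
  rw [norm_sq_eq]
  have : 0 ≤ ∫ x, ‖(gd P) x‖ ^ 2 := integral_nonneg fun x => by positivity
  linarith

theorem integral_gd_sq_le (P : H1S ι) : ∫ x, ‖(gd P) x‖ ^ 2 ≤ ‖P‖ ^ 2 := by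
  rw [norm_sq_eq]
  have : 0 ≤ ∫ x, (fn P) x ^ 2 := integral_nonneg fun x => by positivity
  linarith

/-! ### the `L²` form and the Dirichlet form -/

/-- first component, as a continuous linear map -/
def fstL (ι : Type*) [Fintype ι] [DecidableEq ι] :
    H1S ι →L[ℝ] Lp ℝ 2 (volume : Measure (EuclideanSpace ℝ ι)) :=
  (WithLp.fstL 2 ℝ _ _).comp (Submodule.subtypeL (H1S ι))

/-- second component, as a continuous linear map -/
def sndL (ι : Type*) [Fintype ι] [DecidableEq ι] :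
    H1S ι →L[ℝ] Lp (EuclideanSpace ℝ ι) 2 (volume : Measure (EuclideanSpace ℝ ι)) :=
  (WithLp.sndL 2 ℝ _ _).comp (Submodule.subtypeL (H1S ι))

theorem fstL_apply (P : H1S ι) : fstL ι P = P.1.fst := rfl
theorem sndL_apply (P : H1S ι) : sndL ι P = P.1.snd := rfl

/-- `∫ f k` -/
def nF (ι : Type*) [Fintype ι] [DecidableEq ι] : H1S ι →L[ℝ] H1S ι →L[ℝ] ℝ :=
  (innerSL ℝ).bilinearComp (fstL ι) (fstL ι)

/-- `∫ ∇f·∇k` -/
def dF (ι : Type*) [Fintype ι] [DecidableEq ι] : H1S ι →L[ℝ] H1S ι →L[ℝ] ℝ :=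
  (innerSL ℝ).bilinearComp (sndL ι) (sndL ι)

theorem nF_apply (P Q : H1S ι) : nF ι P Q = ∫ x, (fn P) x * (fn Q) x := by
  rw [← inner_fst]; rfl

theorem dF_apply (P Q : H1S ι) : dF ι P Q = ∫ x, inner ℝ ((gd P) x) ((gd Q) x) := by
  rw [← inner_snd]; rfl

theorem nF_self (P : H1S ι) : nF ι P P = ∫ x, (fn P) x ^ 2 := by
  rw [nF_apply]
  exact integral_congr_ae (Eventually.of_forall fun x => by simp [sq])

theorem dF_self (P : H1S ι) : dF ι P P = ∫ x, ‖(gd P) x‖ ^ 2 := by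
  rw [dF_apply]
  exact integral_congr_ae (Eventually.of_forall fun x => by simp)

theorem nF_symm (P Q : H1S ι) : nF ι P Q = nF ι Q P := by
  rw [nF_apply, nF_apply]; simp only [mul_comm]

theorem dF_symm (P Q : H1S ι) : dF ι P Q = dF ι Q P := by
  rw [dF_apply, dF_apply]; simp only [real_inner_comm]

theorem nF_of {f k : E → ℝ} {g l : E → E} (h : H1 f g) (h' : H1 k l) :
    nF ι (of h) (of h') = ∫ x, f x * k x := by
  rw [nF_apply]
  refine integral_congr_ae ?_
  filter_upwards [of_fn h, of_fn h'] with x h1 h2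
  rw [h1, h2]

theorem dF_of {f k : E → ℝ} {g l : E → E} (h : H1 f g) (h' : H1 k l) :
    dF ι (of h) (of h') = ∫ x, inner ℝ (g x) (l x) := by
  rw [dF_apply]
  refine integral_congr_ae ?_
  filter_upwards [of_gd h, of_gd h'] with x h1 h2
  rw [h1, h2]

theorem nF_left_of {k : E → ℝ} {l : E → E} (P : H1S ι) (h' : H1 k l) :
    nF ι P (of h') = ∫ x, (fn P) x * k x := by
  rw [nF_apply]
  refine integral_congr_ae ?_
  filter_upwards [of_fn h'] with x h2
  rw [h2]

theorem dF_left_of {k : E → ℝ} {l : E → E} (P : H1S ι) (h' : H1 k l) :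
    dF ι P (of h') = ∫ x, inner ℝ ((gd P) x) (l x) := by
  rw [dF_apply]
  refine integral_congr_ae ?_
  filter_upwards [of_gd h'] with x h2
  rw [h2]

/-- the functional `∫ φ f`, `φ ∈ L²` -/
def ell {φ : E → ℝ} (hφ : MemLp φ 2 volume) : H1S ι →L[ℝ] ℝ :=
  (innerSL ℝ (hφ.toLp φ)).comp (fstL ι)

theorem ell_apply {φ : E → ℝ} (hφ : MemLp φ 2 volume) (P : H1S ι) :
    ell hφ P = ∫ x, φ x * (fn P) x := by
  have : ell hφ P = inner ℝ (hφ.toLp φ) P.1.fst := rfl
  rw [this, L2.inner_def]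
  refine integral_congr_ae ?_
  filter_upwards [hφ.coeFn_toLp] with x hx
  rw [hx]
  simp [fn, mul_comm]

theorem ell_of {φ : E → ℝ} (hφ : MemLp φ 2 volume) {f : E → ℝ} {g : E → E} (h : H1 f g) :
    ell hφ (of h) = ∫ x, φ x * f x := by
  rw [ell_apply]
  refine integral_congr_ae ?_
  filter_upwards [of_fn h] with x hx
  rw [hx]

/-! ### form-bounded potentials -/

/-- `V` is form bounded: `V f²` integrable and `|∫ V f²| ≤ C ‖f‖²_{H¹}` -/
structure FB (V : E → ℝ) (C : ℝ) : Prop where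
  int : ∀ (f : E → ℝ) (g : E → E), H1 f g → Integrable (fun x => V x * f x ^ 2)
  le : ∀ (f : E → ℝ) (g : E → E), H1 f g →
    |∫ x, V x * f x ^ 2| ≤ C * ((∫ x, f x ^ 2) + ∫ x, ‖g x‖ ^ 2)

theorem FB.int2 {V : E → ℝ} {C : ℝ} (hV : FB V C) {f k : E → ℝ} {g l : E → E} (h : H1 f g)
    (h' : H1 k l) : Integrable (fun x => V x * (f x * k x)) := by
  have h1 := hV.int _ _ (h.add h')
  have h2 := hV.int _ _ h
  have h3 := hV.int _ _ h'
  have h4 := ((h1.sub h2).sub h3).const_mul (1 / 2)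
  refine h4.congr (Eventually.of_forall fun x => ?_)
  simp only [Pi.sub_apply]
  ring

/-- the bilinear form `∫ V f k` -/
def VFlin {V : E → ℝ} {C : ℝ} (hV : FB V C) : H1S ι →ₗ[ℝ] H1S ι →ₗ[ℝ] ℝ :=
  LinearMap.mk₂ ℝ (fun P Q => ∫ x, V x * ((fn P) x * (fn Q) x))
    (by
      intro P P' Q
      rw [← integral_add (hV.int2 (h1 P) (h1 Q)) (hV.int2 (h1 P') (h1 Q))]
      refine integral_congr_ae ?_
      filter_upwards [add_fn P P'] with x hx
      rw [hx]; ring)
    (by
      intro c P Q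
      rw [smul_eq_mul, ← integral_const_mul]
      refine integral_congr_ae ?_
      filter_upwards [smul_fn c P] with x hx
      rw [hx]; ring)
    (by
      intro P Q Q'
      rw [← integral_add (hV.int2 (h1 P) (h1 Q)) (hV.int2 (h1 P) (h1 Q'))]
      refine integral_congr_ae ?_
      filter_upwards [add_fn Q Q'] with x hx
      rw [hx]; ring)
    (by
      intro c P Q
      rw [smul_eq_mul, ← integral_const_mul]
      refine integral_congr_ae ?_
      filter_upwards [smul_fn c Q] with x hx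
      rw [hx]; ring)

theorem VFlin_apply {V : E → ℝ} {C : ℝ} (hV : FB V C) (P Q : H1S ι) :
    VFlin hV P Q = ∫ x, V x * ((fn P) x * (fn Q) x) := rfl

theorem VFlin_self_le {V : E → ℝ} {C : ℝ} (hV : FB V C) (P : H1S ι) :
    |VFlin hV P P| ≤ C * ‖P‖ ^ 2 := by
  rw [norm_sq_eq, VFlin_apply]
  have := hV.le _ _ (h1 P)
  refine le_trans (le_of_eq ?_) this
  congr 1
  exact integral_congr_ae (Eventually.of_forall fun x => by simp [sq])

theorem VFlin_symm {V : E → ℝ} {C : ℝ} (hV : FB V C) (P Q : H1S ι) :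
    VFlin hV P Q = VFlin hV Q P := by
  rw [VFlin_apply, VFlin_apply]
  simp only [mul_comm]

/-- a symmetric bilinear form bounded on the diagonal is bounded -/
theorem bound_of_diag {H : Type*} [NormedAddCommGroup H] [InnerProductSpace ℝ H]
    (B : H →ₗ[ℝ] H →ₗ[ℝ] ℝ) (hs : ∀ u v, B u v = B v u) {C : ℝ}
    (hB : ∀ u, |B u u| ≤ C * ‖u‖ ^ 2) (u v : H) : |B u v| ≤ C * ‖u‖ * ‖v‖ := by
  have key : ∀ a b : H, |B a b| ≤ C / 2 * (‖a‖ ^ 2 + ‖b‖ ^ 2) := by
    intro a b
    have e : B a b = (1 / 4) * (B (a + b) (a + b) - B (a - b) (a - b)) := by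
      simp only [map_add, map_sub, LinearMap.add_apply, LinearMap.sub_apply]
      rw [hs b a]; ring
    have h1 := hB (a + b)
    have h2 := hB (a - b)
    have hp : ‖a + b‖ ^ 2 + ‖a - b‖ ^ 2 = 2 * (‖a‖ ^ 2 + ‖b‖ ^ 2) := by
      have := parallelogram_law_with_norm ℝ a b
      nlinarith [this]
    rw [e, abs_mul, abs_of_pos (by norm_num : (0 : ℝ) < 1 / 4)]
    have h3 : |B (a + b) (a + b) - B (a - b) (a - b)| ≤
        |B (a + b) (a + b)| + |B (a - b) (a - b)| := abs_sub _ _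
    calc (1 / 4) * |B (a + b) (a + b) - B (a - b) (a - b)|
        ≤ (1 / 4) * (C * ‖a + b‖ ^ 2 + C * ‖a - b‖ ^ 2) := by linarith
      _ = (1 / 4) * (C * (‖a + b‖ ^ 2 + ‖a - b‖ ^ 2)) := by ring
      _ = C / 2 * (‖a‖ ^ 2 + ‖b‖ ^ 2) := by rw [hp]; ring
  by_cases hu : u = 0
  · subst hu; simp
  by_cases hv : v = 0
  · subst hv; simp
  have hu' : 0 < ‖u‖ := norm_pos_iff.2 hu
  have hv' : 0 < ‖v‖ := norm_pos_iff.2 hv
  have h := key (‖u‖⁻¹ • u) (‖v‖⁻¹ • v)
  rw [norm_smul, norm_smul] at h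
  simp only [norm_inv, norm_norm] at h
  rw [inv_mul_cancel₀ hu'.ne', inv_mul_cancel₀ hv'.ne'] at h
  simp only [map_smul, LinearMap.smul_apply, smul_eq_mul] at h
  rw [abs_mul, abs_mul, abs_of_pos (inv_pos.2 hu'), abs_of_pos (inv_pos.2 hv')] at h
  have h' : ‖u‖⁻¹ * (‖v‖⁻¹ * |B u v|) ≤ C := by nlinarith [h]
  have h'' : |B u v| = ‖u‖ * ‖v‖ * (‖u‖⁻¹ * (‖v‖⁻¹ * |B u v|)) := by
    field_simp
  rw [h'']
  calc ‖u‖ * ‖v‖ * (‖u‖⁻¹ * (‖v‖⁻¹ * |B u v|)) ≤ ‖u‖ * ‖v‖ * C := by gcongr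
    _ = C * ‖u‖ * ‖v‖ := by ring

/-- the continuous bilinear form `∫ V f k` -/
def VF {V : E → ℝ} {C : ℝ} (hV : FB V C) : H1S ι →L[ℝ] H1S ι →L[ℝ] ℝ :=
  LinearMap.mkContinuous₂ (VFlin hV) C fun P Q => by
    rw [Real.norm_eq_abs]
    exact bound_of_diag (VFlin hV) (VFlin_symm hV) (VFlin_self_le hV) P Q

theorem VF_apply {V : E → ℝ} {C : ℝ} (hV : FB V C) (P Q : H1S ι) :
    VF hV P Q = ∫ x, V x * ((fn P) x * (fn Q) x) := rfl

theorem VF_self {V : E → ℝ} {C : ℝ} (hV : FB V C) (P : H1S ι) :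
    VF hV P P = ∫ x, V x * (fn P) x ^ 2 := by
  rw [VF_apply]
  exact integral_congr_ae (Eventually.of_forall fun x => by simp [sq])

theorem VF_symm {V : E → ℝ} {C : ℝ} (hV : FB V C) (P Q : H1S ι) :
    VF hV P Q = VF hV Q P := VFlin_symm hV P Q

theorem VF_of {V : E → ℝ} {C : ℝ} (hV : FB V C) {f k : E → ℝ} {g l : E → E} (h : H1 f g)
    (h' : H1 k l) : VF hV (of h) (of h') = ∫ x, V x * (f x * k x) := by
  rw [VF_apply]
  refine integral_congr_ae ?_
  filter_upwards [of_fn h, of_fn h'] with x h1 h2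
  rw [h1, h2]

theorem VF_left_of {V : E → ℝ} {C : ℝ} (hV : FB V C) {k : E → ℝ} {l : E → E} (P : H1S ι)
    (h' : H1 k l) : VF hV P (of h') = ∫ x, V x * ((fn P) x * k x) := by
  rw [VF_apply]
  refine integral_congr_ae ?_
  filter_upwards [of_fn h'] with x h2
  rw [h2]

theorem FB.add {V W : E → ℝ} {C C' : ℝ} (hV : FB V C) (hW : FB W C') :
    FB (fun x => V x + W x) (C + C') where
  int f g h := ((hV.int f g h).add (hW.int f g h)).congr
    (Eventually.of_forall fun x => by simp [add_mul])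
  le f g h := by
    have e : ∫ x, (V x + W x) * f x ^ 2 = (∫ x, V x * f x ^ 2) + ∫ x, W x * f x ^ 2 := by
      rw [← integral_add (hV.int f g h) (hW.int f g h)]
      exact integral_congr_ae (Eventually.of_forall fun x => by simp [add_mul])
    rw [e]
    have h1 := hV.le f g h
    have h2 := hW.le f g h
    have h3 := abs_add_le (∫ x, V x * f x ^ 2) (∫ x, W x * f x ^ 2)
    linarith [add_mul C C' ((∫ x, f x ^ 2) + ∫ x, ‖g x‖ ^ 2)]

theorem FB.const_mul {V : E → ℝ} {C : ℝ} (hV : FB V C) (c : ℝ) :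
    FB (fun x => c * V x) (|c| * C) where
  int f g h := ((hV.int f g h).const_mul c).congr
    (Eventually.of_forall fun x => by simp [mul_assoc])
  le f g h := by
    have e : ∫ x, (c * V x) * f x ^ 2 = c * ∫ x, V x * f x ^ 2 := by
      rw [← integral_const_mul]
      exact integral_congr_ae (Eventually.of_forall fun x => by simp [mul_assoc])
    rw [e, abs_mul, mul_assoc]
    exact mul_le_mul_of_nonneg_left (hV.le f g h) (abs_nonneg c)

theorem FB.mono {V : E → ℝ} {C C' : ℝ} (hV : FB V C) (h : C ≤ C') : FB V C' where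
  int := hV.int
  le f g hf := (hV.le f g hf).trans (mul_le_mul_of_nonneg_right h
    (add_nonneg (integral_nonneg fun x => by positivity) (integral_nonneg fun x => by positivity)))

theorem FB.sum {S : Type*} (s : Finset S) {V : S → E → ℝ} {C : S → ℝ}
    (hV : ∀ i ∈ s, FB (V i) (C i)) : FB (fun x => ∑ i ∈ s, V i x) (∑ i ∈ s, C i) := by
  classical
  induction s using Finset.induction_on with
  | empty =>
    refine ⟨fun f g h => by simp, fun f g h => by simp⟩
  | insert a s ha ih =>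
    have h1 := hV a (Finset.mem_insert_self a s)
    have h2 := ih fun i hi => hV i (Finset.mem_insert_of_mem hi)
    have h3 := h1.add h2
    have e : (fun x => ∑ i ∈ insert a s, V i x) = fun x => V a x + ∑ i ∈ s, V i x := by
      funext x; rw [Finset.sum_insert ha]
    rw [e, Finset.sum_insert ha]
    exact h3

/-- bounded potentials -/
theorem FB.of_bdd {V : E → ℝ} (hm : AEStronglyMeasurable V volume) {M : ℝ}
    (hb : ∀ᵐ x, |V x| ≤ M) : FB V M where
  int f g h := by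
    have h2 : Integrable (fun x => f x ^ 2) := h.memf.integrable_sq
    exact (h2.bdd_mul (c := M) hm (by simpa [Real.norm_eq_abs] using hb)).congr
      (Eventually.of_forall fun x => by simp)
  le f g h := by
    have h2 : Integrable (fun x => f x ^ 2) := h.memf.integrable_sq
    have hM : 0 ≤ M := by
      obtain ⟨x, hx⟩ := hb.exists
      exact (abs_nonneg _).trans hx
    calc |∫ x, V x * f x ^ 2| ≤ ∫ x, |V x * f x ^ 2| := abs_integral_le_integral_abs
      _ ≤ ∫ x, M * f x ^ 2 := by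
          apply integral_mono_of_nonneg (Eventually.of_forall fun x => abs_nonneg _)
            (h2.const_mul M)
          filter_upwards [hb] with x hx
          rw [abs_mul, abs_of_nonneg (sq_nonneg (f x))]
          exact mul_le_mul_of_nonneg_right hx (sq_nonneg _)
      _ = M * ∫ x, f x ^ 2 := integral_const_mul _ _
      _ ≤ M * ((∫ x, f x ^ 2) + ∫ x, ‖g x‖ ^ 2) := by
          have : 0 ≤ ∫ x, ‖g x‖ ^ 2 := integral_nonneg fun x => by positivity
          nlinarith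

end H1S

end Crest.Agent.R335
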