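import Crest.Agent.R335.OBRad
import Crest.Agent.R335.HHardy
import Crest.Agent.R335.HSpace

/-!
Row 335 (S0521), ONE-BODY block: the two-centre potential as a form perturbation (helper733).
-/

set_option autoImplicit false

open MeasureTheory Filter Set Crest.MathPhysics.ThreeBody
open scoped ENNReal Topology ContDiff

noncomputable section
namespace Crest.Agent.R335

theorem V2_nonpos (D : ℝ) (x : Pos3) : V2 D x ≤ 0 := by
  unfold V2
  have h1 : 0 ≤ 1 / ‖x - nuc D‖ := by positivity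
  have h2 : 0 ≤ 1 / ‖x - nuc (-D)‖ := by positivity
  linarith

theorem rz_nuc (D : ℝ) : rz (nuc D) = nuc (-D) := by
  ext i
  rw [rz_apply]
  unfold nuc
  by_cases h : i = 2
  · simp [h]
  · simp [h]

theorem ob_rz_rz (x : Pos3) : rz (rz x) = x := by
  ext i
  rw [rz_apply, rz_apply]
  split_ifs <;> simp

theorem norm_rz_sub (x : Pos3) (D : ℝ) : ‖rz x - nuc D‖ = ‖x - nuc (-D)‖ := by
  have h : rz x - nuc D = rz (x - nuc (-D)) := by
    rw [map_sub, rz_nuc, neg_neg]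
  rw [h, LinearIsometryEquiv.norm_map]

theorem V2_rz (D : ℝ) (x : Pos3) : V2 D (rz x) = V2 D x := by
  unfold V2
  rw [norm_rz_sub, norm_rz_sub, neg_neg]
  ring

theorem nuc_eq_smul (D : ℝ) : nuc D = D • nuc 1 := by
  ext i
  unfold nuc
  by_cases h : i = 2
  · simp [h]
  · simp [h]

theorem V2_rot (D : ℝ) {L : Pos3 ≃ₗᵢ[ℝ] Pos3} (hL : L (nuc 1) = nuc 1) (x : Pos3) :
    V2 D (L x) = V2 D x := by
  have hn : ∀ D : ℝ, L (nuc D) = nuc D := fun D => by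
    rw [nuc_eq_smul, map_smul, hL]
  have h : ∀ D : ℝ, ‖L x - nuc D‖ = ‖x - nuc D‖ := fun D => by
    rw [← hn D, ← map_sub, LinearIsometryEquiv.norm_map, hn D]
  unfold V2
  rw [h, h]

theorem measurable_V2 (D : ℝ) : Measurable (V2 D) := by
  unfold V2
  have h : ∀ a : Pos3, Measurable fun x : Pos3 => 1 / ‖x - a‖ := fun a => by
    have h1 : Measurable fun x : Pos3 => ‖x - a‖ := by fun_prop
    exact measurable_const.div h1
  exact ((h _).neg).sub (h _)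

/-! ### Hardy and Coulomb -/

lemma ob_basis_he : ∀ c : Fin 3, (ContinuousLinearMap.id ℝ Pos3) (EuclideanSpace.single c (1 : ℝ)) =
    EuclideanSpace.single c (1 : ℝ) := fun _ => rfl

lemma ob_sum_inner (v : Pos3) :
    ∑ c : Fin 3, (inner ℝ v (EuclideanSpace.single c (1 : ℝ))) ^ 2 = ‖v‖ ^ 2 := by
  rw [EuclideanSpace.real_norm_sq_eq]
  refine Finset.sum_congr rfl fun c _ => ?_
  rw [EuclideanSpace.inner_single_right]
  simp

theorem ob_hardy {f : Pos3 → ℝ} {g : Pos3 → Pos3} (h : H1 f g) (a : Pos3) :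
    Integrable (fun x => f x ^ 2 / ‖x - a‖ ^ 2) ∧
      ∫ x, f x ^ 2 / ‖x - a‖ ^ 2 ≤ 4 * ∫ x, ‖g x‖ ^ 2 := by
  have h1 := hardy h (ContinuousLinearMap.id ℝ Pos3) _ ob_basis_he a
  simp only [ob_sum_inner] at h1
  exact h1

theorem ob_coulomb {f : Pos3 → ℝ} {g : Pos3 → Pos3} (h : H1 f g) (a : Pos3) {ε : ℝ} (hε : 0 < ε) :
    Integrable (fun x => f x ^ 2 / ‖x - a‖) ∧
      ∫ x, f x ^ 2 / ‖x - a‖ ≤ ε * (∫ x, ‖g x‖ ^ 2) + ε⁻¹ * ∫ x, f x ^ 2 := by
  have h1 := coulomb_le h (ContinuousLinearMap.id ℝ Pos3) _ ob_basis_he a hε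
  simp only [ob_sum_inner] at h1
  exact h1

/-- `V f ∈ L²` and `‖V f‖₂ ≤ 4 ‖∇f‖₂` -/
theorem V2_memLp (D : ℝ) {f : Pos3 → ℝ} {g : Pos3 → Pos3} (h : H1 f g) :
    MemLp (fun x => V2 D x * f x) 2 volume ∧
      ∫ x, (V2 D x * f x) ^ 2 ≤ 16 * ∫ x, ‖g x‖ ^ 2 := by
  have h1 := ob_hardy h (nuc D)
  have h2 := ob_hardy h (nuc (-D))
  have hle : ∀ x, (V2 D x * f x) ^ 2 ≤
      2 * (f x ^ 2 / ‖x - nuc D‖ ^ 2) + 2 * (f x ^ 2 / ‖x - nuc (-D)‖ ^ 2) := by
    intro x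
    unfold V2
    set p := 1 / ‖x - nuc D‖ with hp
    set q := 1 / ‖x - nuc (-D)‖ with hq
    have e1 : f x ^ 2 / ‖x - nuc D‖ ^ 2 = p ^ 2 * f x ^ 2 := by rw [hp]; ring
    have e2 : f x ^ 2 / ‖x - nuc (-D)‖ ^ 2 = q ^ 2 * f x ^ 2 := by rw [hq]; ring
    rw [e1, e2]
    nlinarith [mul_nonneg (sq_nonneg (p - q)) (sq_nonneg (f x))]
  have hi : Integrable (fun x => 2 * (f x ^ 2 / ‖x - nuc D‖ ^ 2) +
      2 * (f x ^ 2 / ‖x - nuc (-D)‖ ^ 2)) := (h1.1.const_mul 2).add (h2.1.const_mul 2)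
  have hm : AEStronglyMeasurable (fun x => V2 D x * f x) volume :=
    (measurable_V2 D).aestronglyMeasurable.mul h.memf.1
  have hint : Integrable (fun x => (V2 D x * f x) ^ 2) := by
    refine hi.mono' (hm.pow 2) (ae_of_all _ fun x => ?_)
    rw [Real.norm_eq_abs, abs_of_nonneg (sq_nonneg _)]
    exact hle x
  refine ⟨(memLp_two_iff_integrable_sq hm).2 hint, ?_⟩
  calc ∫ x, (V2 D x * f x) ^ 2 ≤ ∫ x, (2 * (f x ^ 2 / ‖x - nuc D‖ ^ 2) +
      2 * (f x ^ 2 / ‖x - nuc (-D)‖ ^ 2)) := integral_mono hint hi hle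
    _ = 2 * (∫ x, f x ^ 2 / ‖x - nuc D‖ ^ 2) + 2 * ∫ x, f x ^ 2 / ‖x - nuc (-D)‖ ^ 2 := by
        rw [integral_add (h1.1.const_mul 2) (h2.1.const_mul 2), integral_const_mul,
          integral_const_mul]
    _ ≤ 16 * ∫ x, ‖g x‖ ^ 2 := by linarith [h1.2, h2.2]

theorem V2_integrable (D : ℝ) {f k : Pos3 → ℝ} {g : Pos3 → Pos3} (h : H1 f g)
    (hk : MemLp k 2 volume) : Integrable (fun x => V2 D x * (f x * k x)) := by
  have h1 := (V2_memLp D h).1.integrable_mul hk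
  refine h1.congr (ae_of_all _ fun x => ?_)
  simp only [Pi.mul_apply]
  ring

theorem V2_integrable_sq (D : ℝ) {f : Pos3 → ℝ} {g : Pos3 → Pos3} (h : H1 f g) :
    Integrable (fun x => V2 D x * f x ^ 2) := by
  refine (V2_integrable D h h.memf).congr (ae_of_all _ fun x => ?_)
  simp only
  ring

theorem ob_integral_V2 (D : ℝ) {f : Pos3 → ℝ} {g : Pos3 → Pos3} (h : H1 f g) :
    ∫ x, V2 D x * f x ^ 2 = -(∫ x, f x ^ 2 / ‖x - nuc D‖) - ∫ x, f x ^ 2 / ‖x - nuc (-D)‖ := by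
  have h1 := (ob_coulomb h (nuc D) one_pos).1
  have h2 := (ob_coulomb h (nuc (-D)) one_pos).1
  have e : ∀ x, V2 D x * f x ^ 2 = -(f x ^ 2 / ‖x - nuc D‖ + f x ^ 2 / ‖x - nuc (-D)‖) := by
    intro x
    unfold V2
    ring
  simp_rw [e]
  rw [integral_neg, integral_add h1 h2]
  ring

/-- `∫‖∇f‖² ≤ 4 Q(f) + 64 ∫ f²` -/
theorem Q2_coercive (D : ℝ) {f : Pos3 → ℝ} {g : Pos3 → Pos3} (h : H1 f g) :
    ∫ x, ‖g x‖ ^ 2 ≤ 4 * Q2 D f g + 64 * ∫ x, f x ^ 2 := by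
  have h1 := (ob_coulomb h (nuc D) (show (0 : ℝ) < 1 / 8 by norm_num)).2
  have h2 := (ob_coulomb h (nuc (-D)) (show (0 : ℝ) < 1 / 8 by norm_num)).2
  unfold Q2
  rw [ob_integral_V2 D h]
  norm_num at h1 h2
  linarith

theorem V2_FB (D : ℝ) : H1S.FB (V2 D) 2 where
  int := fun f g h => V2_integrable_sq D h
  le := fun f g h => by
    have h1 := (ob_coulomb h (nuc D) one_pos)
    have h2 := (ob_coulomb h (nuc (-D)) one_pos)
    have h3 : 0 ≤ ∫ x, f x ^ 2 / ‖x - nuc D‖ := integral_nonneg fun x => by positivity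
    have h4 : 0 ≤ ∫ x, f x ^ 2 / ‖x - nuc (-D)‖ := integral_nonneg fun x => by positivity
    rw [ob_integral_V2 D h, abs_le]
    have := h1.2
    have := h2.2
    norm_num at *
    constructor <;> linarith

/-! ### bilinear form -/

theorem B2_self (D : ℝ) (f : Pos3 → ℝ) (g : Pos3 → Pos3) : B2 D f g f g = Q2 D f g := by
  unfold B2 Q2
  congr 1
  · congr 1
    exact integral_congr_ae (ae_of_all _ fun x => real_inner_self_eq_norm_sq _)
  · exact integral_congr_ae (ae_of_all _ fun x => by simp only; ring)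

theorem B2_symm (D : ℝ) (f : Pos3 → ℝ) (g : Pos3 → Pos3) (k : Pos3 → ℝ) (l : Pos3 → Pos3) :
    B2 D f g k l = B2 D k l f g := by
  unfold B2
  congr 1
  · congr 1
    exact integral_congr_ae (ae_of_all _ fun x => real_inner_comm _ _)
  · exact integral_congr_ae (ae_of_all _ fun x => by simp only; ring)

end Crest.Agent.R335
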