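import Crest.Agent.R335.BDefs
import Crest.Agent.R335.KWave
import Crest.Agent.R335.OBPot
import Crest.Agent.R335.HHardy

/-!
Row 335 (S0521), INTERACTING SIDE: symmetries of the configuration spaces, and the total potential
`V9` as a multiplication operator (`V9 f ∈ L²` for `f ∈ H¹`) (helper690).
-/

set_option autoImplicit false
set_option linter.unusedVariables false

open MeasureTheory Filter Set Crest.MathPhysics.ThreeBody
open scoped ENNReal Topology ContDiff

noncomputable section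
namespace Crest.Agent.R335

/-! ### coordinates -/

@[simp] theorem jn9_zero (X : Pos3) (ξ : Y2) (c : Fin 3) : jn p9 X ξ (0, c) = X c := rfl

@[simp] theorem jn9_succ (X : Pos3) (ξ : Y2) (j : Fin 2) (c : Fin 3) :
    jn p9 X ξ (j.succ, c) = ξ (j, c) := rfl

@[simp] theorem jn9_one (X : Pos3) (ξ : Y2) (c : Fin 3) : jn p9 X ξ (1, c) = ξ (0, c) := rfl

@[simp] theorem jn9_two (X : Pos3) (ξ : Y2) (c : Fin 3) : jn p9 X ξ (2, c) = ξ (1, c) := rfl

@[simp] theorem elPos_jn_zero (X : Pos3) (ξ : Y2) : elPos 0 (jn p9 X ξ) = X := by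
  ext c; rfl

@[simp] theorem elPos_jn_one (X : Pos3) (ξ : Y2) : elPos 1 (jn p9 X ξ) = el 0 ξ := by
  ext c; rfl

@[simp] theorem elPos_jn_two (X : Pos3) (ξ : Y2) : elPos 2 (jn p9 X ξ) = el 1 ξ := by
  ext c; rfl

/-- ion parity -/
theorem jn_rxi (X : Pos3) (ξ : Y2) : jn p9 X (rxi ξ) = r12 (jn p9 X ξ) := by
  ext ⟨i, c⟩
  rw [r12_apply]
  refine Fin.cases ?_ (fun j => ?_) i
  · rw [jn9_zero, jn9_zero]
    simp
  · rw [jn9_succ, jn9_succ, rxi_apply]
    simp [Fin.succ_ne_zero]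

/-- total parity -/
theorem jn_rz_rxi (X : Pos3) (ξ : Y2) : jn p9 (rz X) (rxi ξ) = r9 (jn p9 X ξ) := by
  ext ⟨i, c⟩
  rw [r9_apply]
  refine Fin.cases ?_ (fun j => ?_) i
  · rw [jn9_zero, jn9_zero, rz_apply]
  · rw [jn9_succ, jn9_succ, rxi_apply]

/-- exchange of the ion electrons -/
theorem jn_sxi (X : Pos3) (ξ : Y2) :
    jn p9 X (sxi ξ) = permConfig (Equiv.swap 1 2) (jn p9 X ξ) := by
  ext ⟨i, c⟩
  rw [permConfig_apply]
  fin_cases i
  · rfl
  · show sxi ξ (0, c) = _
    rw [sxi_apply]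
    rfl
  · show sxi ξ (1, c) = _
    rw [sxi_apply]
    rfl

theorem r9_r9 (x : Config3) : r9 (r9 x) = x := by
  ext ⟨i, c⟩
  rw [r9_apply, r9_apply]
  split_ifs <;> simp

theorem r12_r12 (x : Config3) : r12 (r12 x) = x := by
  ext ⟨i, c⟩
  rw [r12_apply, r12_apply]
  split_ifs <;> simp

theorem rxi_rxi (ξ : Y2) : rxi (rxi ξ) = ξ := by
  ext ⟨i, c⟩
  rw [rxi_apply, rxi_apply]
  split_ifs <;> simp

theorem sxi_sxi (ξ : Y2) : sxi (sxi ξ) = ξ := by
  ext ⟨i, c⟩
  rw [sxi_apply, sxi_apply]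
  simp

theorem r9_r12 (x : Config3) : r9 (r12 x) = r12 (r9 x) := by
  ext ⟨i, c⟩
  rw [r9_apply, r12_apply, r12_apply, r9_apply]
  split_ifs <;> simp

theorem sxi_rxi (ξ : Y2) : sxi (rxi ξ) = rxi (sxi ξ) := by
  ext ⟨i, c⟩
  rw [sxi_apply, rxi_apply, rxi_apply, sxi_apply]

/-- reflection of the electron `0` alone -/
theorem jn_rz (X : Pos3) (ξ : Y2) : jn p9 (rz X) ξ = r9 (r12 (jn p9 X ξ)) := by
  rw [← jn_rxi, ← jn_rz_rxi, rxi_rxi]

theorem r9_perm (σ : Equiv.Perm (Fin 3)) (x : Config3) :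
    r9 (permConfig σ x) = permConfig σ (r9 x) := by
  ext ⟨i, c⟩
  rw [r9_apply, permConfig_apply, permConfig_apply, r9_apply]

theorem r12_perm12 (x : Config3) :
    r12 (permConfig (Equiv.swap 1 2) x) = permConfig (Equiv.swap 1 2) (r12 x) := by
  ext ⟨i, c⟩
  rw [r12_apply, permConfig_apply, permConfig_apply, r12_apply]
  fin_cases i
  · simp [Equiv.swap_apply_def]
  · simp [Equiv.swap_apply_def]
  · simp [Equiv.swap_apply_def]

theorem elPos_r9 (i : Fin 3) (x : Config3) : elPos i (r9 x) = rz (elPos i x) := by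
  ext c
  rw [rz_apply]
  simp only [elPos]
  rw [r9_apply]

theorem el_rxi (j : Fin 2) (ξ : Y2) : el j (rxi ξ) = rz (el j ξ) := by
  ext c
  rw [rz_apply]
  simp only [el]
  rw [rxi_apply]

theorem el_sxi (j : Fin 2) (ξ : Y2) : el j (sxi ξ) = el (Equiv.swap 0 1 j) ξ := by
  ext c
  simp only [el]
  rw [sxi_apply]

theorem r9_symm : r9.symm = r9 := by
  ext1 x
  rw [LinearIsometryEquiv.symm_apply_eq, r9_r9]

theorem r12_symm : r12.symm = r12 := by
  ext1 x
  rw [LinearIsometryEquiv.symm_apply_eq, r12_r12]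

theorem rxi_symm : rxi.symm = rxi := by
  ext1 x
  rw [LinearIsometryEquiv.symm_apply_eq, rxi_rxi]

theorem sxi_symm : sxi.symm = sxi := by
  ext1 x
  rw [LinearIsometryEquiv.symm_apply_eq, sxi_sxi]

/-! ### invariance of the potentials -/

theorem V9_eq_sum (D lam : ℝ) (x : Config3) : V9 D lam x = (∑ i : Fin 3, V2 D (elPos i x)) +
    lam * ((1 / 2) * ∑ i : Fin 3, ∑ j : Fin 3, 1 / ‖elPos i x - elPos j x‖) := by
  unfold V9
  simp only [Fin.sum_univ_three, sub_self, norm_zero, div_zero]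
  rw [norm_sub_rev (elPos 1 x) (elPos 0 x), norm_sub_rev (elPos 2 x) (elPos 0 x),
    norm_sub_rev (elPos 2 x) (elPos 1 x)]
  ring

theorem V9_perm (D lam : ℝ) (σ : Equiv.Perm (Fin 3)) (x : Config3) :
    V9 D lam (permConfig σ x) = V9 D lam x := by
  rw [V9_eq_sum, V9_eq_sum]
  simp only [elPos_permConfig]
  rw [Equiv.sum_comp σ (fun i => V2 D (elPos i x))]
  have h : ∑ i : Fin 3, ∑ j : Fin 3, 1 / ‖elPos (σ i) x - elPos (σ j) x‖ =
      ∑ i : Fin 3, ∑ j : Fin 3, 1 / ‖elPos i x - elPos j x‖ := by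
    rw [← Equiv.sum_comp σ (fun i => ∑ j : Fin 3, 1 / ‖elPos i x - elPos j x‖)]
    refine Finset.sum_congr rfl fun i _ => ?_
    exact Equiv.sum_comp σ (fun j => 1 / ‖elPos (σ i) x - elPos j x‖)
  rw [h]

theorem V9_r9 (D lam : ℝ) (x : Config3) : V9 D lam (r9 x) = V9 D lam x := by
  unfold V9
  simp only [elPos_r9, V2_rz, ← map_sub, LinearIsometryEquiv.norm_map]

theorem V9_jn (D lam : ℝ) (X : Pos3) (ξ : Y2) :
    V9 D lam (jn p9 X ξ) = V2 D X + Vion D lam ξ + lam * WX X ξ := by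
  unfold V9 Vion WX
  simp only [elPos_jn_zero, elPos_jn_one, elPos_jn_two]
  ring

theorem Vion_rxi (D lam : ℝ) (ξ : Y2) : Vion D lam (rxi ξ) = Vion D lam ξ := by
  unfold Vion
  simp only [el_rxi, V2_rz, ← map_sub, LinearIsometryEquiv.norm_map]

theorem Vion_sxi (D lam : ℝ) (ξ : Y2) : Vion D lam (sxi ξ) = Vion D lam ξ := by
  unfold Vion
  simp only [el_sxi, Equiv.swap_apply_left, Equiv.swap_apply_right]
  rw [norm_sub_rev (el 1 ξ) (el 0 ξ)]
  ring

theorem WX_sxi (X : Pos3) (ξ : Y2) : WX X (sxi ξ) = WX X ξ := by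
  unfold WX
  simp only [el_sxi, Equiv.swap_apply_left, Equiv.swap_apply_right]
  ring

theorem WX_rxi (X : Pos3) (ξ : Y2) : WX X (rxi ξ) = WX (rz X) ξ := by
  have h : ∀ j, ‖X - rz (el j ξ)‖ = ‖rz X - el j ξ‖ := fun j => by
    have : rz X - el j ξ = rz (X - rz (el j ξ)) := by rw [map_sub, ob_rz_rz]
    rw [this, LinearIsometryEquiv.norm_map]
  unfold WX
  simp only [el_rxi, h]

theorem wi_rxi (ξ : Y2) : wi (rxi ξ) = wi ξ := by
  unfold wi jb
  simp only [el_rxi, LinearIsometryEquiv.norm_map]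

theorem wi_sxi (ξ : Y2) : wi (sxi ξ) = wi ξ := by
  unfold wi
  simp only [el_sxi, Equiv.swap_apply_left, Equiv.swap_apply_right]
  ring

/-! ### the potential as an operator -/

/-- `elPos i` as a continuous linear map -/
def elC (i : Fin 3) : Config3 →L[ℝ] Pos3 :=
  LinearMap.toContinuousLinearMap
    { toFun := elPos i
      map_add' := fun x y => by ext c; simp [elPos]
      map_smul' := fun r x => by ext c; simp [elPos] }

@[simp] theorem elC_apply (i : Fin 3) (x : Config3) : elC i x = elPos i x := rfl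

theorem continuous_elPos (i : Fin 3) : Continuous (elPos i) := (elC i).continuous

theorem elC_single (i j c : Fin 3) : elC i (EuclideanSpace.single (j, c) (1 : ℝ)) =
    if i = j then EuclideanSpace.single c (1 : ℝ) else 0 := by
  ext c'
  rw [elC_apply]
  by_cases h : i = j
  · subst h
    simp [elPos]
  · simp [elPos, h]

theorem elC_single_self (i c : Fin 3) : elC i (EuclideanSpace.single (i, c) (1 : ℝ)) =
    EuclideanSpace.single c (1 : ℝ) := by
  rw [elC_single]; simp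

theorem elC_sub_single {i j : Fin 3} (hij : i ≠ j) (c : Fin 3) :
    (elC i - elC j) ((1 / 2 : ℝ) • (EuclideanSpace.single (i, c) (1 : ℝ) -
      EuclideanSpace.single (j, c) (1 : ℝ))) = EuclideanSpace.single c (1 : ℝ) := by
  rw [_root_.sub_apply]
  simp only [map_smul, map_sub, elC_single]
  simp only [if_true, if_neg hij, if_neg (Ne.symm hij)]
  ext c'
  by_cases h : c' = c
  · subst h; simp; norm_num
  · simp [h]

/-- Hardy: `f / |L x - a| ∈ L²` -/
theorem memLp_div_norm {f : Config3 → ℝ} {g : Config3 → Config3} (h : H1 f g)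
    (L : Config3 →L[ℝ] Pos3) (e : Fin 3 → Config3)
    (he : ∀ c, L (e c) = EuclideanSpace.single c (1 : ℝ)) (a : Pos3) :
    MemLp (fun x => 1 / ‖L x - a‖ * f x) 2 volume := by
  have hm : AEStronglyMeasurable (fun x => 1 / ‖L x - a‖ * f x) volume := by
    refine AEStronglyMeasurable.mul ?_ h.memf.1
    have h1 : Measurable fun x : Config3 => ‖L x - a‖ := by fun_prop
    exact (measurable_const.div h1).aestronglyMeasurable
  refine (memLp_two_iff_integrable_sq hm).2 ?_
  refine (hardy h L e he a).1.congr (ae_of_all _ fun x => ?_)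
  simp only
  ring

theorem V9_memLp (D lam : ℝ) {f : Config3 → ℝ} {g : Config3 → Config3} (h : H1 f g) :
    MemLp (fun x => V9 D lam x * f x) 2 volume := by
  have h1 : ∀ (i : Fin 3) (a : Pos3), MemLp (fun x => 1 / ‖elPos i x - a‖ * f x) 2 volume :=
    fun i a => memLp_div_norm h (elC i) _ (elC_single_self i) a
  have h2 : ∀ i j : Fin 3, i ≠ j →
      MemLp (fun x => 1 / ‖elPos i x - elPos j x‖ * f x) 2 volume := fun i j hij => by
    have := memLp_div_norm h (elC i - elC j) _ (elC_sub_single hij) 0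
    simpa using this
  have hV : ∀ i : Fin 3, MemLp (fun x => V2 D (elPos i x) * f x) 2 volume := fun i => by
    have := ((h1 i (nuc D)).neg).sub (h1 i (nuc (-D)))
    refine this.ae_eq (ae_of_all _ fun x => ?_)
    simp only [Pi.sub_apply, Pi.neg_apply]
    unfold V2
    ring
  have := (((hV 0).add (hV 1)).add (hV 2)).add
    ((((h2 0 1 (by decide)).add (h2 0 2 (by decide))).add (h2 1 2 (by decide))).const_mul lam)
  refine this.ae_eq (ae_of_all _ fun x => ?_)
  simp only [Pi.add_apply]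
  unfold V9
  ring

/-- integrability of the potential energy density -/
theorem V9_integrable (D lam : ℝ) {f k : Config3 → ℝ} {g : Config3 → Config3} (h : H1 f g)
    (hk : MemLp k 2 volume) : Integrable (fun x => V9 D lam x * f x * k x) :=
  (V9_memLp D lam h).integrable_mul hk

end Crest.Agent.R335
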