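import Crest.Agent.R335.HSliceB

/-!
Row 335 (S0521): Sobolev library, partial pairings and tensor products (module HSlice, part C).
-/

set_option autoImplicit false
set_option linter.unusedSectionVars false

open MeasureTheory Filter Set
open scoped ENNReal Topology ContDiff

noncomputable section
namespace Crest.Agent.R335

variable {ι κ κ' : Type*} [Fintype ι] [DecidableEq ι] [Fintype κ] [DecidableEq κ]
  [Fintype κ'] [DecidableEq κ']

local notation "E" => EuclideanSpace ℝ ι

/-! ### Cauchy–Schwarz -/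

theorem HS.cs_real {α : Type*} [MeasurableSpace α] {μ : Measure α} {a b : α → ℝ}
    (ha : MemLp a 2 μ) (hb : MemLp b 2 μ) (ha0 : 0 ≤ᵐ[μ] a) (hb0 : 0 ≤ᵐ[μ] b) :
    (∫ x, a x * b x ∂μ) ^ 2 ≤ (∫ x, a x ^ 2 ∂μ) * ∫ x, b x ^ 2 ∂μ := by
  have h := integral_mul_le_Lp_mul_Lq_of_nonneg (μ := μ) (p := 2) (q := 2)
    (Real.HolderConjugate.two_two) ha0 hb0 (by simpa using ha) (by simpa using hb)
  have h0 : 0 ≤ ∫ x, a x * b x ∂μ := integral_nonneg_of_ae (by
    filter_upwards [ha0, hb0] with x h1 h2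
    exact mul_nonneg h1 h2)
  have hA : 0 ≤ ∫ x, a x ^ 2 ∂μ := integral_nonneg fun x => sq_nonneg _
  have hB : 0 ≤ ∫ x, b x ^ 2 ∂μ := integral_nonneg fun x => sq_nonneg _
  have e1 : (∫ x, a x ^ (2 : ℝ) ∂μ) = ∫ x, a x ^ 2 ∂μ := by
    congr 1; funext x; exact Real.rpow_ofNat _ _
  have e2 : (∫ x, b x ^ (2 : ℝ) ∂μ) = ∫ x, b x ^ 2 ∂μ := by
    congr 1; funext x; exact Real.rpow_ofNat _ _
  rw [e1, e2, ← Real.sqrt_eq_rpow, ← Real.sqrt_eq_rpow] at h
  calc (∫ x, a x * b x ∂μ) ^ 2 ≤ (√(∫ x, a x ^ 2 ∂μ) * √(∫ x, b x ^ 2 ∂μ)) ^ 2 := by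
        gcongr
    _ = _ := by rw [mul_pow, Real.sq_sqrt hA, Real.sq_sqrt hB]

theorem HS.cs {α F : Type*} [MeasurableSpace α] {μ : Measure α} [NormedAddCommGroup F]
    [NormedSpace ℝ F] {a : α → ℝ} {u : α → F} (ha : MemLp a 2 μ) (hu : MemLp u 2 μ) :
    ‖∫ x, a x • u x ∂μ‖ ^ 2 ≤ (∫ x, a x ^ 2 ∂μ) * ∫ x, ‖u x‖ ^ 2 ∂μ := by
  have h1 : ‖∫ x, a x • u x ∂μ‖ ≤ ∫ x, |a x| * ‖u x‖ ∂μ := by
    refine (norm_integral_le_integral_norm _).trans (le_of_eq ?_)
    congr 1; funext x; rw [norm_smul, Real.norm_eq_abs]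
  have h2 := HS.cs_real (μ := μ) (a := fun x => |a x|) (b := fun x => ‖u x‖) ha.norm hu.norm
    (Eventually.of_forall fun x => abs_nonneg _) (Eventually.of_forall fun x => norm_nonneg _)
  simp only [sq_abs] at h2
  calc ‖∫ x, a x • u x ∂μ‖ ^ 2 ≤ (∫ x, |a x| * ‖u x‖ ∂μ) ^ 2 := by gcongr
    _ ≤ _ := h2

/-! ### `MemLp` on products -/

theorem HS.memLp_mul_prod {α β : Type*} [MeasurableSpace α] [MeasurableSpace β] {μ : Measure α}
    {ν : Measure β} [SFinite μ] [SFinite ν] {a : α → ℝ} {b : β → ℝ} (ha : MemLp a 2 μ)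
    (hb : MemLp b 2 ν) : MemLp (fun z : α × β => a z.1 * b z.2) 2 (μ.prod ν) := by
  have hm : AEStronglyMeasurable (fun z : α × β => a z.1 * b z.2) (μ.prod ν) :=
    ha.1.comp_fst.mul hb.1.comp_snd
  rw [memLp_two_iff_integrable_sq hm]
  have := ha.integrable_sq.mul_prod hb.integrable_sq
  refine this.congr (Eventually.of_forall fun z => ?_)
  simp [mul_pow]

theorem memLp_jn_iff (p : ι ≃ κ ⊕ κ') {F : Type*} [NormedAddCommGroup F] {f : E → F}
    {q : ℝ≥0∞} :
    MemLp (fun z : EuclideanSpace ℝ κ × EuclideanSpace ℝ κ' => f (jn p z.1 z.2)) q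
      (volume.prod volume) ↔ MemLp f q volume := by
  have h := (measurableEmbedding_jn p).memLp_map_measure_iff (f := fun q :
    EuclideanSpace ℝ κ × EuclideanSpace ℝ κ' => jn p q.1 q.2) (g := f) (p := q)
      (μ := volume.prod volume)
  rw [(measurePreserving_jn p).map_eq] at h
  exact h.symm

theorem HS.integrable_norm_sq {α F : Type*} [MeasurableSpace α] {μ : Measure α}
    [NormedAddCommGroup F] {u : α → F} (hu : MemLp u 2 μ) : Integrable (fun x => ‖u x‖ ^ 2) μ :=
  (memLp_two_iff_integrable_sq_norm hu.1).1 hu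

/-- the partial energy is integrable -/
theorem HS.integrable_slice (p : ι ≃ κ ⊕ κ') {F : Type*} [NormedAddCommGroup F] [NormedSpace ℝ F]
    {f : E → F} (hf : Integrable f) :
    Integrable (fun x : EuclideanSpace ℝ κ => ∫ y, f (jn p x y)) :=
  ((integrable_jn p).2 hf).integral_prod_left

theorem HS.ae_integrable_slice (p : ι ≃ κ ⊕ κ') {F : Type*} [NormedAddCommGroup F]
    {f : E → F} (hf : Integrable f) :
    ∀ᵐ x : EuclideanSpace ℝ κ, Integrable (fun y => f (jn p x y)) :=
  ((integrable_jn p).2 hf).prod_right_ae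

theorem HS.ae_integrable_slice' (p : ι ≃ κ ⊕ κ') {F : Type*} [NormedAddCommGroup F]
    {f : E → F} (hf : Integrable f) :
    ∀ᵐ y : EuclideanSpace ℝ κ', Integrable (fun x => f (jn p x y)) :=
  ((integrable_jn p).2 hf).prod_left_ae

theorem HS.integrable_smul {α F : Type*} [MeasurableSpace α] {μ : Measure α}
    [NormedAddCommGroup F] [NormedSpace ℝ F] {a : α → ℝ} {u : α → F} (ha : MemLp a 2 μ)
    (hu : MemLp u 2 μ) : Integrable (fun x => a x • u x) μ := by
  refine (MemLp.integrable_mul ha.norm hu.norm).mono' (ha.1.smul hu.1)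
    (Eventually.of_forall fun x => ?_)
  simp [norm_smul]

/-! ### pairing with an `L²` function of the second group -/

theorem HS.pair_ae (p : ι ≃ κ ⊕ κ') {F : Type*} [NormedAddCommGroup F] [NormedSpace ℝ F]
    {G : E → F} (hG : MemLp G 2 volume) {Φ : EuclideanSpace ℝ κ' → ℝ} (hΦ : MemLp Φ 2 volume) :
    ∀ᵐ x : EuclideanSpace ℝ κ, Integrable (fun y => Φ y • G (jn p x y)) ∧
      ‖∫ y, Φ y • G (jn p x y)‖ ^ 2 ≤ (∫ y, Φ y ^ 2) * ∫ y, ‖G (jn p x y)‖ ^ 2 := by
  filter_upwards [MemLp.slice_right p hG] with x hx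
  exact ⟨HS.integrable_smul hΦ hx, HS.cs hΦ hx⟩

theorem HS.pair_memLp (p : ι ≃ κ ⊕ κ') {F : Type*} [NormedAddCommGroup F] [NormedSpace ℝ F]
    {G : E → F} (hG : MemLp G 2 volume) {Φ : EuclideanSpace ℝ κ' → ℝ} (hΦ : MemLp Φ 2 volume) :
    MemLp (fun x : EuclideanSpace ℝ κ => ∫ y, Φ y • G (jn p x y)) 2 volume := by
  have hm : AEStronglyMeasurable (fun x : EuclideanSpace ℝ κ => ∫ y, Φ y • G (jn p x y)) volume := by
    have h1 : AEStronglyMeasurable (fun z : EuclideanSpace ℝ κ × EuclideanSpace ℝ κ' =>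
        Φ z.2 • G (jn p z.1 z.2)) (volume.prod volume) :=
      hΦ.1.comp_snd.smul (aestronglyMeasurable_jn p hG.1)
    exact h1.integral_prod_right'
  rw [memLp_two_iff_integrable_sq_norm hm]
  have hi := (HS.integrable_slice p (HS.integrable_norm_sq hG)).const_mul (∫ y, Φ y ^ 2)
  refine hi.mono' (hm.norm.pow 2) ?_
  filter_upwards [HS.pair_ae p hG hΦ] with x hx
  rw [Real.norm_eq_abs, abs_of_nonneg (sq_nonneg _)]
  exact hx.2

theorem HS.test_memLp {φ : EuclideanSpace ℝ κ → ℝ} (hφ : Test univ φ) : MemLp φ 2 volume :=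
  (H1.of_test hφ).memf

theorem HS.test_pd_memLp {φ : EuclideanSpace ℝ κ → ℝ} (hφ : Test univ φ) (k : κ) :
    MemLp (pd k φ) 2 volume :=
  ((contDiff_pd hφ.smooth k).continuous).memLp_of_hasCompactSupport (hasCompactSupport_pd hφ.cpt k)

/-- partial inner product with a fixed `L²` function of the second group -/
theorem H1.proj (p : ι ≃ κ ⊕ κ') {f : E → ℝ} {g : E → E} (h : H1 f g)
    {Φ : EuclideanSpace ℝ κ' → ℝ} (hΦ : MemLp Φ 2 volume) :
    H1 (fun x => ∫ y, Φ y * f (jn p x y)) (fun x => ∫ y, Φ y • pr1 p (g (jn p x y))) ∧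
    ∀ᵐ x, (∫ y, Φ y * f (jn p x y)) ^ 2 ≤ (∫ y, Φ y ^ 2) * ∫ y, f (jn p x y) ^ 2 ∧
      ‖∫ y, Φ y • pr1 p (g (jn p x y))‖ ^ 2 ≤
        (∫ y, Φ y ^ 2) * ∫ y, ‖pr1 p (g (jn p x y))‖ ^ 2 := by
  have hg : MemLp (fun X => pr1 p (g X)) 2 volume := memLp_pr1 p h.memg
  have hF := HS.pair_memLp p h.memf hΦ
  have hG := HS.pair_memLp p hg hΦ
  simp only [smul_eq_mul] at hF
  refine ⟨⟨hF, hG, ⟨(hF.locallyIntegrable (by norm_num)).locallyIntegrableOn _,
    (hG.locallyIntegrable (by norm_num)).locallyIntegrableOn _, ?_⟩⟩, ?_⟩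
  · intro φ hφ k
    have hφ2 := HS.test_memLp hφ
    have hpφ := HS.test_pd_memLp hφ k
    -- left side
    have hI1 : Integrable (fun z : EuclideanSpace ℝ κ × EuclideanSpace ℝ κ' =>
        (pd k φ z.1 * Φ z.2) * f (jn p z.1 z.2)) (volume.prod volume) :=
      MemLp.integrable_mul (HS.memLp_mul_prod hpφ hΦ) ((memLp_jn_iff p).2 h.memf)
    have hgk : MemLp (fun X => pr1 p (g X) k) 2 volume := by
      refine hg.of_le ((EuclideanSpace.proj (𝕜 := ℝ) k).continuous.comp_aestronglyMeasurable hg.1)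
        (Eventually.of_forall fun X => ?_)
      exact PiLp.norm_apply_le (pr1 p (g X)) k
    have hI2 : Integrable (fun z : EuclideanSpace ℝ κ × EuclideanSpace ℝ κ' =>
        (φ z.1 * Φ z.2) * (pr1 p (g (jn p z.1 z.2)) k)) (volume.prod volume) :=
      MemLp.integrable_mul (HS.memLp_mul_prod hφ2 hΦ) ((memLp_jn_iff p).2 hgk)
    calc ∫ x, (∫ y, Φ y * f (jn p x y)) * pd k φ x
        = ∫ x, ∫ y, (pd k φ x * Φ y) * f (jn p x y) := by
          congr 1; funext x
          rw [← integral_mul_const]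
          congr 1; funext y; ring
      _ = ∫ y, ∫ x, (pd k φ x * Φ y) * f (jn p x y) := integral_integral_swap hI1
      _ = ∫ y, - ∫ x, (φ x * Φ y) * (pr1 p (g (jn p x y)) k) := by
          refine integral_congr_ae ?_
          filter_upwards [H1.slice_left p h] with y hy
          have := hy.wg.ibp φ hφ k
          calc ∫ x, (pd k φ x * Φ y) * f (jn p x y)
              = Φ y * ∫ x, f (jn p x y) * pd k φ x := by
                rw [← integral_const_mul]; congr 1; funext x; ring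
            _ = Φ y * (- ∫ x, pr1 p (g (jn p x y)) k * φ x) := by rw [this]
            _ = - ∫ x, (φ x * Φ y) * (pr1 p (g (jn p x y)) k) := by
                rw [mul_neg, ← integral_const_mul]; congr 2; funext x; ring
      _ = - ∫ y, ∫ x, (φ x * Φ y) * (pr1 p (g (jn p x y)) k) := integral_neg _
      _ = - ∫ x, ∫ y, (φ x * Φ y) * (pr1 p (g (jn p x y)) k) :=
          congrArg Neg.neg (integral_integral_swap hI2).symm
      _ = - ∫ x, (∫ y, Φ y • pr1 p (g (jn p x y))) k * φ x := by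
          congr 1
          refine integral_congr_ae ?_
          filter_upwards [HS.pair_ae p hg hΦ] with x hx
          have e1 : (∫ y, Φ y • pr1 p (g (jn p x y))) k =
              ∫ y, Φ y * (pr1 p (g (jn p x y)) k) := by
            have := (EuclideanSpace.proj (𝕜 := ℝ) k).integral_comp_comm hx.1
            simp only [EuclideanSpace.coe_proj, PiLp.smul_apply, smul_eq_mul] at this
            rw [← this]
          rw [e1, ← integral_mul_const]
          congr 1; funext y; ring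
  · filter_upwards [HS.pair_ae p h.memf hΦ, HS.pair_ae p hg hΦ] with x hx1 hx2
    refine ⟨?_, hx2.2⟩
    have := hx1.2
    simpa [smul_eq_mul, Real.norm_eq_abs, sq_abs] using this

/-! ### tensor products -/

theorem HS.memLp_tensor (p : ι ≃ κ ⊕ κ') {f : EuclideanSpace ℝ κ → ℝ}
    {k : EuclideanSpace ℝ κ' → ℝ} (hf : MemLp f 2 volume) (hk : MemLp k 2 volume) :
    MemLp (fun X : E => f (pr1 p X) * k (pr2 p X)) 2 volume := by
  rw [← memLp_jn_iff p]
  simpa using HS.memLp_mul_prod hf hk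

theorem HS.memLp_tensor_smul (p : ι ≃ κ ⊕ κ') {F : Type*} [NormedAddCommGroup F] [NormedSpace ℝ F]
    {f : EuclideanSpace ℝ κ → ℝ}
    {k : EuclideanSpace ℝ κ' → F} (hf : MemLp f 2 volume) (hk : MemLp k 2 volume) :
    MemLp (fun X : E => f (pr1 p X) • k (pr2 p X)) 2 volume := by
  rw [← memLp_jn_iff p]
  simp only [pr1_jn, pr2_jn]
  refine (HS.memLp_mul_prod hf hk.norm).of_le (hf.1.comp_fst.smul hk.1.comp_snd)
    (Eventually.of_forall fun z => ?_)
  simp [norm_smul]

theorem HS.memLp_tensor_smul' (p : ι ≃ κ ⊕ κ') {F : Type*} [NormedAddCommGroup F]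
    [NormedSpace ℝ F] {f : EuclideanSpace ℝ κ → F}
    {k : EuclideanSpace ℝ κ' → ℝ} (hf : MemLp f 2 volume) (hk : MemLp k 2 volume) :
    MemLp (fun X : E => k (pr2 p X) • f (pr1 p X)) 2 volume := by
  rw [← memLp_jn_iff p]
  simp only [pr1_jn, pr2_jn]
  refine (HS.memLp_mul_prod hf.norm hk).of_le (hk.1.comp_snd.smul hf.1.comp_fst)
    (Eventually.of_forall fun z => ?_)
  simp [norm_smul, mul_comm]

theorem norm_jn_le (p : ι ≃ κ ⊕ κ') (x : EuclideanSpace ℝ κ) (y : EuclideanSpace ℝ κ') :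
    ‖jn p x y‖ ≤ ‖x‖ + ‖y‖ := by
  refine (sq_le_sq₀ (norm_nonneg _) (by positivity)).1 ?_
  rw [norm_sq_jn' p]
  nlinarith [mul_nonneg (norm_nonneg x) (norm_nonneg y)]

theorem HS.memLp_jn (p : ι ≃ κ ⊕ κ') {α : Type*} [MeasurableSpace α] {μ : Measure α}
    {a : α → EuclideanSpace ℝ κ} {b : α → EuclideanSpace ℝ κ'} {q : ℝ≥0∞} (ha : MemLp a q μ)
    (hb : MemLp b q μ) : MemLp (fun x => jn p (a x) (b x)) q μ := by
  refine (ha.norm.add hb.norm).of_le
    ((continuous_jn p).comp_aestronglyMeasurable (ha.1.prodMk hb.1))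
    (Eventually.of_forall fun x => ?_)
  refine (norm_jn_le p _ _).trans (le_abs_self _)

theorem jn_apply_symm_inl (p : ι ≃ κ ⊕ κ') (x : EuclideanSpace ℝ κ) (y : EuclideanSpace ℝ κ')
    (k : κ) : jn p x y (p.symm (Sum.inl k)) = x k := by simp

theorem jn_apply_symm_inr (p : ι ≃ κ ⊕ κ') (x : EuclideanSpace ℝ κ) (y : EuclideanSpace ℝ κ')
    (k : κ') : jn p x y (p.symm (Sum.inr k)) = y k := by simp

/-- tensor products -/
theorem H1.tensor (p : ι ≃ κ ⊕ κ') {f : EuclideanSpace ℝ κ → ℝ}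
    {g : EuclideanSpace ℝ κ → EuclideanSpace ℝ κ} (h : H1 f g)
    {k : EuclideanSpace ℝ κ' → ℝ} {l : EuclideanSpace ℝ κ' → EuclideanSpace ℝ κ'} (h' : H1 k l) :
    H1 (fun X : E => f (pr1 p X) * k (pr2 p X))
      (fun X => jn p (k (pr2 p X) • g (pr1 p X)) (f (pr1 p X) • l (pr2 p X))) := by
  have hF := HS.memLp_tensor p h.memf h'.memf
  have hG : MemLp (fun X : E => jn p (k (pr2 p X) • g (pr1 p X)) (f (pr1 p X) • l (pr2 p X)))
      2 volume :=
    HS.memLp_jn p (HS.memLp_tensor_smul' p h.memg h'.memf) (HS.memLp_tensor_smul p h.memf h'.memg)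
  refine ⟨hF, hG, ⟨(hF.locallyIntegrable (by norm_num)).locallyIntegrableOn _,
    (hG.locallyIntegrable (by norm_num)).locallyIntegrableOn _, ?_⟩⟩
  intro φ hφ i
  have hd : Differentiable ℝ φ := hφ.smooth.differentiable (by simp)
  have hI1 : Integrable (fun X : E => f (pr1 p X) * k (pr2 p X) * pd i φ X) :=
    MemLp.integrable_mul hF (HS.test_pd_memLp hφ i)
  have hGi : MemLp (fun X : E => (jn p (k (pr2 p X) • g (pr1 p X)) (f (pr1 p X) • l (pr2 p X))) i)
      2 volume := by
    refine hG.of_le ((EuclideanSpace.proj (𝕜 := ℝ) i).continuous.comp_aestronglyMeasurable hG.1)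
        (Eventually.of_forall fun X => ?_)
    exact PiLp.norm_apply_le _ i
  have hI2 : Integrable (fun X : E => (jn p (k (pr2 p X) • g (pr1 p X))
      (f (pr1 p X) • l (pr2 p X))) i * φ X) :=
    MemLp.integrable_mul hGi (HS.test_memLp hφ)
  rcases hpi : p i with a | a
  · have hi : i = p.symm (Sum.inl a) := by rw [← hpi]; simp
    subst hi
    rw [integral_jn' p hI1, integral_jn' p hI2, ← integral_neg]
    congr 1; funext y
    simp only [pr1_jn, pr2_jn, jn_apply_symm_inl, PiLp.smul_apply, smul_eq_mul]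
    have := h.wg.ibp _ (hφ.slice_left p y) a
    calc ∫ x, f x * k y * pd (p.symm (Sum.inl a)) φ (jn p x y)
        = k y * ∫ x, f x * pd a (fun x => φ (jn p x y)) x := by
          rw [← integral_const_mul]; congr 1; funext x
          rw [pd_jn_left p hd]; ring
      _ = k y * (- ∫ x, g x a * φ (jn p x y)) := by rw [this]
      _ = - ∫ x, k y * g x a * φ (jn p x y) := by
          rw [mul_neg, ← integral_const_mul]; congr 2; funext x; ring
  · have hi : i = p.symm (Sum.inr a) := by rw [← hpi]; simp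
    subst hi
    rw [integral_jn p hI1, integral_jn p hI2, ← integral_neg]
    congr 1; funext x
    simp only [pr1_jn, pr2_jn, jn_apply_symm_inr, PiLp.smul_apply, smul_eq_mul]
    have := h'.wg.ibp _ (hφ.slice_right p x) a
    calc ∫ y, f x * k y * pd (p.symm (Sum.inr a)) φ (jn p x y)
        = f x * ∫ y, k y * pd a (fun y => φ (jn p x y)) y := by
          rw [← integral_const_mul]; congr 1; funext y
          rw [pd_jn_right p hd]; ring
      _ = f x * (- ∫ y, l y a * φ (jn p x y)) := by rw [this]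
      _ = - ∫ y, f x * l y a * φ (jn p x y) := by
          rw [mul_neg, ← integral_const_mul]; congr 2; funext y; ring

/-! ### functions of the first group only -/

theorem HS.locallyIntegrable_comp_pr1 (p : ι ≃ κ ⊕ κ') {F : Type*} [NormedAddCommGroup F]
    {f : EuclideanSpace ℝ κ → F} (hf : LocallyIntegrable f volume) :
    LocallyIntegrable (fun X : E => f (pr1 p X)) volume := by
  rw [locallyIntegrable_iff]
  intro K hK
  set A : Set (EuclideanSpace ℝ κ) := pr1 p '' K
  set B : Set (EuclideanSpace ℝ κ') := pr2 p '' K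
  have hA : IsCompact A := hK.image (continuous_pr1 p)
  have hB : IsCompact B := hK.image (continuous_pr2 p)
  have hKs : K ⊆ {X : E | pr1 p X ∈ A ∧ pr2 p X ∈ B} := fun X hX =>
    ⟨mem_image_of_mem _ hX, mem_image_of_mem _ hX⟩
  have hms : MeasurableSet {X : E | pr1 p X ∈ A ∧ pr2 p X ∈ B} :=
    ((hA.isClosed.preimage (continuous_pr1 p)).inter
      (hB.isClosed.preimage (continuous_pr2 p))).measurableSet
  refine IntegrableOn.mono_set ?_ hKs
  rw [← integrable_indicator_iff hms, ← integrable_jn p]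
  have hfA : IntegrableOn f A volume := hf.integrableOn_isCompact hA
  have : IsFiniteMeasure ((volume : Measure (EuclideanSpace ℝ κ')).restrict B) :=
    ⟨by rw [Measure.restrict_apply_univ]; exact hB.measure_lt_top⟩
  have h1 : Integrable (fun z : EuclideanSpace ℝ κ × EuclideanSpace ℝ κ' => f z.1)
      ((volume.restrict A).prod (volume.restrict B)) := hfA.comp_fst _
  rw [Measure.prod_restrict] at h1
  have h2 := (integrable_indicator_iff (hA.isClosed.measurableSet.prod hB.isClosed.measurableSet)).2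
    (show IntegrableOn (fun z : EuclideanSpace ℝ κ × EuclideanSpace ℝ κ' => f z.1) (A ×ˢ B)
      (volume.prod volume) from h1)
  refine h2.congr (Eventually.of_forall fun z => ?_)
  have hiff : z ∈ A ×ˢ B ↔ jn p z.1 z.2 ∈ {X : E | pr1 p X ∈ A ∧ pr2 p X ∈ B} := by
    simp [Set.mem_prod]
  show (A ×ˢ B).indicator (fun z => f z.1) z =
    {X : E | pr1 p X ∈ A ∧ pr2 p X ∈ B}.indicator (fun X => f (pr1 p X)) (jn p z.1 z.2)
  by_cases hz : z ∈ A ×ˢ B
  · rw [indicator_of_mem hz, indicator_of_mem (hiff.1 hz)]; simp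
  · rw [indicator_of_notMem hz, indicator_of_notMem (fun hc => hz (hiff.2 hc))]

/-- functions of the first group only -/
theorem WG.comp_pr1 (p : ι ≃ κ ⊕ κ') {f : EuclideanSpace ℝ κ → ℝ}
    {g : EuclideanSpace ℝ κ → EuclideanSpace ℝ κ} (h : WG univ f g) :
    WG univ (fun X : E => f (pr1 p X)) (fun X => jn p (g (pr1 p X)) 0) := by
  have hf : LocallyIntegrable f volume := locallyIntegrableOn_univ.1 h.intf
  have hg : LocallyIntegrable g volume := locallyIntegrableOn_univ.1 h.intg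
  have hF := HS.locallyIntegrable_comp_pr1 p hf
  have hG0 := HS.locallyIntegrable_comp_pr1 p hg
  have hG : LocallyIntegrable (fun X : E => jn p (g (pr1 p X)) 0) volume := by
    intro X
    obtain ⟨U, hU, hUi⟩ := hG0 X
    exact ⟨U, hU, (in1L p).integrable_comp hUi⟩
  refine ⟨hF.locallyIntegrableOn _, hG.locallyIntegrableOn _, ?_⟩
  intro φ hφ i
  have hd : Differentiable ℝ φ := hφ.smooth.differentiable (by simp)
  have hI1 : Integrable (fun X : E => f (pr1 p X) * pd i φ X) := by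
    have := hF.integrable_smul_right_of_hasCompactSupport
      (contDiff_pd hφ.smooth i).continuous (hasCompactSupport_pd hφ.cpt i)
    simpa [smul_eq_mul, mul_comm] using this
  have hGi : LocallyIntegrable (fun X : E => (jn p (g (pr1 p X)) 0) i) volume := by
    intro X
    obtain ⟨U, hU, hUi⟩ := hG X
    exact ⟨U, hU, (EuclideanSpace.proj (𝕜 := ℝ) i).integrable_comp hUi⟩
  have hI2 : Integrable (fun X : E => (jn p (g (pr1 p X)) 0) i * φ X) := by
    have := hGi.integrable_smul_right_of_hasCompactSupport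
      hφ.smooth.continuous hφ.cpt
    simpa [smul_eq_mul, mul_comm] using this
  rcases hpi : p i with a | a
  · have hi : i = p.symm (Sum.inl a) := by rw [← hpi]; simp
    subst hi
    rw [integral_jn' p hI1, integral_jn' p hI2, ← integral_neg]
    congr 1; funext y
    simp only [pr1_jn, jn_apply_symm_inl]
    have := h.ibp _ (hφ.slice_left p y) a
    rw [← this]
    congr 1; funext x
    rw [pd_jn_left p hd]
  · have hi : i = p.symm (Sum.inr a) := by rw [← hpi]; simp
    subst hi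
    rw [integral_jn p hI1, integral_jn p hI2, ← integral_neg]
    congr 1; funext x
    simp only [pr1_jn, jn_apply_symm_inr, PiLp.zero_apply, zero_mul, integral_zero, neg_zero]
    rw [integral_const_mul]
    have hc : ∫ y, pd (p.symm (Sum.inr a)) φ (jn p x y) = 0 := by
      have h1 : WG univ (fun _ : EuclideanSpace ℝ κ' => (1 : ℝ)) (gr (fun _ => (1 : ℝ))) :=
        WG.of_contDiffOn isOpen_univ contDiffOn_const
      have := h1.ibp _ (hφ.slice_right p x) a
      simp only [one_mul] at this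
      calc ∫ y, pd (p.symm (Sum.inr a)) φ (jn p x y)
          = ∫ y, pd a (fun y => φ (jn p x y)) y := by
            congr 1; funext y; rw [pd_jn_right p hd]
        _ = _ := this
        _ = 0 := by
            simp [gr, pd]
    rw [hc, mul_zero]

end Crest.Agent.R335
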