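import Crest.Agent.R335.BSys
import Crest.Agent.R335.BPar
import Crest.Agent.R335.HSlice

/-!
Row 335 (S0521), INTERACTING SIDE, module BChan: channel functions of the three-body ground state
(helper690).
-/

set_option autoImplicit false
set_option linter.unusedVariables false

open MeasureTheory Filter Set Crest.MathPhysics.ThreeBody
open scoped ENNReal Topology ContDiff

noncomputable section
namespace Crest.Agent.R335

/-! ### solutions of the three-body equation -/

/-- `q3`-solution with eigenvalue `E` -/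
structure Sol9 (D lam E : ℝ) (Y : Config3 → ℝ) (dY : Config3 → Config3) : Prop where
  h1 : H1 Y dY
  eq : ∀ k dk, H1 k dk → q3 D lam Y dY k dk = E * ∫ x, Y x * k x

theorem integral_isom {ι : Type*} [Fintype ι] {F : Type*} [NormedAddCommGroup F] [NormedSpace ℝ F]
    (L : EuclideanSpace ℝ ι ≃ₗᵢ[ℝ] EuclideanSpace ℝ ι) (f : EuclideanSpace ℝ ι → F) :
    ∫ x, f (L x) = ∫ x, f x :=
  L.measurePreserving.integral_comp L.toHomeomorph.measurableEmbedding f

theorem integrable_inner_L2 {α G : Type*} [MeasurableSpace α] {μ : Measure α}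
    [NormedAddCommGroup G] [InnerProductSpace ℝ G] {a b : α → G} (ha : MemLp a 2 μ)
    (hb : MemLp b 2 μ) : Integrable (fun x => inner ℝ (a x) (b x)) μ :=
  (ha.norm.integrable_mul hb.norm).mono' (ha.1.inner hb.1)
    (ae_of_all _ fun x => by
      have h := norm_inner_le_norm (𝕜 := ℝ) (a x) (b x)
      simpa using h)

theorem Sol9.comp {D lam E : ℝ} {Y : Config3 → ℝ} {dY : Config3 → Config3}
    (h : Sol9 D lam E Y dY) (L : Config3 ≃ₗᵢ[ℝ] Config3)
    (hV : ∀ x, V9 D lam (L x) = V9 D lam x) :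
    Sol9 D lam E (fun x => Y (L x)) (fun x => L.symm (dY (L x))) := by
  have h1 := h.h1.comp_isometry L 0
  simp only [add_zero] at h1
  refine ⟨h1, fun k dk hk => ?_⟩
  have hk' := hk.comp_isometry L.symm 0
  simp only [add_zero, LinearIsometryEquiv.symm_symm] at hk'
  have e1 := h.eq _ _ hk'
  unfold q3 at e1 ⊢
  have a1 : ∫ x, inner ℝ (L.symm (dY (L x))) (dk x) =
      ∫ x, inner ℝ (dY x) (L (dk (L.symm x))) := by
    rw [← integral_isom L (fun x => inner ℝ (dY x) (L (dk (L.symm x))))]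
    refine integral_congr_ae (ae_of_all _ fun x => ?_)
    simp only [LinearIsometryEquiv.symm_apply_apply]
    rw [← LinearIsometryEquiv.inner_map_map L, LinearIsometryEquiv.apply_symm_apply]
  have a2 : ∫ x, V9 D lam x * Y (L x) * k x = ∫ x, V9 D lam x * Y x * k (L.symm x) := by
    rw [← integral_isom L (fun x => V9 D lam x * Y x * k (L.symm x))]
    refine integral_congr_ae (ae_of_all _ fun x => ?_)
    simp only [LinearIsometryEquiv.symm_apply_apply, hV]
  have a3 : ∫ x, Y (L x) * k x = ∫ x, Y x * k (L.symm x) := by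
    rw [← integral_isom L (fun x => Y x * k (L.symm x))]
    refine integral_congr_ae (ae_of_all _ fun x => ?_)
    simp only [LinearIsometryEquiv.symm_apply_apply]
  rw [a1, a2, a3, e1]

theorem Sol9.lin {D lam E : ℝ} {Y Y' : Config3 → ℝ} {dY dY' : Config3 → Config3}
    (h : Sol9 D lam E Y dY) (h' : Sol9 D lam E Y' dY') (a b : ℝ) :
    Sol9 D lam E (fun x => a * Y x + b * Y' x) (fun x => a • dY x + b • dY' x) := by
  have hs : H1 (fun x => a * Y x + b * Y' x) (fun x => a • dY x + b • dY' x) :=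
    (h.h1.const_mul a).add (h'.h1.const_mul b)
  refine ⟨hs, fun k dk hk => ?_⟩
  have e1 := h.eq k dk hk
  have e2 := h'.eq k dk hk
  have i1 : Integrable (fun x => inner ℝ (dY x) (dk x)) := integrable_inner_L2 h.h1.memg hk.memg
  have i2 : Integrable (fun x => inner ℝ (dY' x) (dk x)) := integrable_inner_L2 h'.h1.memg hk.memg
  have j1 := V9_integrable D lam h.h1 hk.memf
  have j2 := V9_integrable D lam h'.h1 hk.memf
  have l1 : Integrable (fun x => Y x * k x) := h.h1.memf.integrable_mul hk.memf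
  have l2 : Integrable (fun x => Y' x * k x) := h'.h1.memf.integrable_mul hk.memf
  unfold q3 at e1 e2 ⊢
  have a1 : ∫ x, inner ℝ (a • dY x + b • dY' x) (dk x) =
      a * (∫ x, inner ℝ (dY x) (dk x)) + b * ∫ x, inner ℝ (dY' x) (dk x) := by
    rw [← integral_const_mul, ← integral_const_mul, ← integral_add (i1.const_mul a)
      (i2.const_mul b)]
    refine integral_congr_ae (ae_of_all _ fun x => ?_)
    simp only [inner_add_left, real_inner_smul_left]
  have a2 : ∫ x, V9 D lam x * (a * Y x + b * Y' x) * k x =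
      a * (∫ x, V9 D lam x * Y x * k x) + b * ∫ x, V9 D lam x * Y' x * k x := by
    rw [← integral_const_mul, ← integral_const_mul, ← integral_add (j1.const_mul a)
      (j2.const_mul b)]
    refine integral_congr_ae (ae_of_all _ fun x => ?_)
    simp only
    ring
  have a3 : ∫ x, (a * Y x + b * Y' x) * k x =
      a * (∫ x, Y x * k x) + b * ∫ x, Y' x * k x := by
    rw [← integral_const_mul, ← integral_const_mul, ← integral_add (l1.const_mul a)
      (l2.const_mul b)]
    refine integral_congr_ae (ae_of_all _ fun x => ?_)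
    simp only
    ring
  rw [a1, a2, a3]
  linear_combination a * e1 + b * e2

theorem ThreeBody.sol {D lam E : ℝ} {ψ : Config3 → ℝ} {dψ : Config3 → Config3}
    (h : ThreeBody D lam E ψ dψ) : Sol9 D lam E ψ dψ := ⟨h.h1, h.eq⟩

theorem Sol9.perm {D lam E : ℝ} {Y : Config3 → ℝ} {dY : Config3 → Config3}
    (h : Sol9 D lam E Y dY) (σ : Equiv.Perm (Fin 3)) :
    ∃ d, Sol9 D lam E (fun x => Y (permConfig σ x)) d := by
  have h1 := h.comp (permL σ) (fun x => by rw [permL_apply, V9_perm])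
  simp only [permL_apply] at h1
  exact ⟨_, h1⟩

theorem perm12_perm12 (x : Config3) :
    permConfig (Equiv.swap 1 2) (permConfig (Equiv.swap 1 2) x) = x := by
  rw [permConfig_permConfig]
  have : (Equiv.swap 1 2 : Equiv.Perm (Fin 3)) * Equiv.swap 1 2 = 1 := by decide
  rw [this, permConfig_one]

theorem chan_S {D lam E : ℝ} {ψ : Config3 → ℝ} {dψ : Config3 → Config3}
    (h : ThreeBody D lam E ψ dψ) : ∃ d, Chan D lam E 1 (GS ψ) d := by
  obtain ⟨d, hd⟩ := h.sol.perm (Equiv.swap 1 2)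
  have hs := h.sol.lin hd (1 / 2) (1 / 2)
  have he : (fun x => 1 / 2 * ψ x + 1 / 2 * ψ (permConfig (Equiv.swap 1 2) x)) = GS ψ := by
    funext x
    unfold GS
    ring
  rw [he] at hs
  refine ⟨_, hs.h1, fun x => ?_, fun x => ?_, hs.eq⟩
  · unfold GS
    rw [perm12_perm12]
    ring
  · unfold GS
    rw [← r9_perm, h.odd, h.odd]
    ring

theorem chan_T {D lam E : ℝ} {ψ : Config3 → ℝ} {dψ : Config3 → Config3}
    (h : ThreeBody D lam E ψ dψ) : ∃ d, Chan D lam E (-1) (fun x => -√2 * GT ψ x) d := by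
  obtain ⟨d, hd⟩ := h.sol.perm (Equiv.swap 1 2)
  have hs := h.sol.lin hd (-√2 / 2) (√2 / 2)
  have he : (fun x => -√2 / 2 * ψ x + √2 / 2 * ψ (permConfig (Equiv.swap 1 2) x)) =
      fun x => -√2 * GT ψ x := by
    funext x
    unfold GT
    ring
  rw [he] at hs
  refine ⟨_, hs.h1, fun x => ?_, fun x => ?_, hs.eq⟩
  · unfold GT
    rw [perm12_perm12]
    ring
  · unfold GT
    rw [← r9_perm, h.odd, h.odd]
    ring

theorem chan_B {D lam E : ℝ} {ψ : Config3 → ℝ} {dψ : Config3 → Config3}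
    (h : ThreeBody D lam E ψ dψ) : ∃ d, Chan D lam E (-1) (GB ψ) d := by
  obtain ⟨d, hd⟩ := h.sol.perm (finRotate 3)
  have he : (fun x => ψ (permConfig (finRotate 3) x)) = GB ψ := rfl
  rw [he] at hd
  refine ⟨_, hd.h1, fun x => ?_, fun x => ?_, hd.eq⟩
  · unfold GB
    rw [permConfig_permConfig]
    have h1 : (Equiv.swap 1 2 : Equiv.Perm (Fin 3)) * finRotate 3 =
        finRotate 3 * Equiv.swap 0 1 := by decide
    rw [h1, ← permConfig_permConfig, h.anti]
    ring
  · unfold GB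
    rw [← r9_perm, h.odd]

/-- parity parts: `Y_π` is in `H¹`, of exchange sign `σ`, ion parity `π`, and `X`-parity `-π` -/
theorem Chan.part {D lam E σ : ℝ} {Y : Config3 → ℝ} {dY : Config3 → Config3}
    (h : Chan D lam E σ Y dY) {π : ℝ} (hπ : π = 1 ∨ π = -1) :
    (∃ d, H1 (Yp π Y) d) ∧ (∀ x, Yp π Y (permConfig (Equiv.swap 1 2) x) = σ * Yp π Y x) ∧
      (∀ X ξ, Yp π Y (jn p9 X (rxi ξ)) = π * Yp π Y (jn p9 X ξ)) ∧
      (∀ X ξ, Yp π Y (jn p9 (rz X) ξ) = -π * Yp π Y (jn p9 X ξ)) := by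
  have hπ2 : π * π = 1 := by rcases hπ with rfl | rfl <;> norm_num
  refine ⟨?_, fun x => ?_, fun X ξ => ?_, fun X ξ => ?_⟩
  · have h1 := h.h1.comp_isometry r12 0
    simp only [add_zero] at h1
    have h2 := (h.h1.const_mul (1 / 2)).add (h1.const_mul (π / 2))
    have he : (fun x => 1 / 2 * Y x + π / 2 * Y (r12 x)) = Yp π Y := by
      funext x
      unfold Yp
      ring
    rw [he] at h2
    exact ⟨_, h2⟩
  · unfold Yp
    rw [r12_perm12, h.ex, h.ex]
    ring
  · rw [jn_rxi]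
    unfold Yp
    rw [r12_r12]
    linear_combination (-(1 / 2) * Y (r12 (jn p9 X ξ))) * hπ2
  · rw [jn_rz]
    unfold Yp
    rw [← r9_r12, r12_r12, h.odd, h.odd]
    linear_combination ((1 / 2) * Y (r12 (jn p9 X ξ))) * hπ2

/-! ### splitting of squares -/

/-- if `a` is even and `b` odd under the isometry `L`, then `∫ (a+b)² = ∫ a² + ∫ b²` -/
theorem integral_sq_split {ι : Type*} [Fintype ι]
    (L : EuclideanSpace ℝ ι ≃ₗᵢ[ℝ] EuclideanSpace ℝ ι) {a b : EuclideanSpace ℝ ι → ℝ}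
    (ha : MemLp a 2 volume) (hb : MemLp b 2 volume) (hea : ∀ x, a (L x) = a x)
    (hob : ∀ x, b (L x) = - b x) :
    ∫ x, (a x + b x) ^ 2 = (∫ x, a x ^ 2) + ∫ x, b x ^ 2 := by
  have h0 : ∫ x, a x * b x = 0 := by
    have h1 := integral_isom L (fun x => a x * b x)
    simp only [hea, hob, mul_neg, integral_neg] at h1
    linarith
  have ia : Integrable (fun x => a x ^ 2) := ha.integrable_sq
  have ib : Integrable (fun x => b x ^ 2) := hb.integrable_sq
  have iab : Integrable (fun x => a x * b x) := ha.integrable_mul hb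
  have e : ∀ x, (a x + b x) ^ 2 = (a x ^ 2 + b x ^ 2) + 2 * (a x * b x) := fun x => by ring
  simp_rw [e]
  have iaa : Integrable (fun x => a x ^ 2 + b x ^ 2) := ia.add ib
  rw [integral_add iaa (iab.const_mul 2), integral_add ia ib, integral_const_mul, h0]
  ring

theorem Yp_add (Y : Config3 → ℝ) (x : Config3) : Yp 1 Y x + Yp (-1) Y x = Y x := by
  unfold Yp
  ring

theorem Yp_jn_rxi (π : ℝ) (hπ : π * π = 1) (Y : Config3 → ℝ) (X : Pos3) (ξ : Y2) :
    Yp π Y (jn p9 X (rxi ξ)) = π * Yp π Y (jn p9 X ξ) := by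
  rw [jn_rxi]
  unfold Yp
  rw [r12_r12]
  linear_combination (-(1 / 2) * Y (r12 (jn p9 X ξ))) * hπ

/-- a.e. slice of `Yp` -/
theorem Yp_memLp {Y : Config3 → ℝ} (hY : MemLp Y 2 volume) (π : ℝ) : MemLp (Yp π Y) 2 volume := by
  have h1 : MemLp (fun x => Y (r12 x)) 2 volume :=
    hY.comp_measurePreserving r12.measurePreserving
  refine ((hY.const_mul (1 / 2)).add (h1.const_mul (π / 2))).ae_eq (ae_of_all _ fun x => ?_)
  simp only [Pi.add_apply]
  unfold Yp
  ring

theorem slice_parity {Y : Config3 → ℝ} (hY : MemLp Y 2 volume) : ∀ᵐ X : Pos3,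
    ∫ ξ, Y (jn p9 X ξ) ^ 2 =
      (∫ ξ, Yp 1 Y (jn p9 X ξ) ^ 2) + ∫ ξ, Yp (-1) Y (jn p9 X ξ) ^ 2 := by
  filter_upwards [MemLp.slice_right p9 (Yp_memLp hY 1), MemLp.slice_right p9 (Yp_memLp hY (-1))]
    with X h1 h2
  rw [← integral_sq_split rxi h1 h2 (fun ξ => by rw [Yp_jn_rxi 1 (by norm_num)]; ring)
    (fun ξ => by rw [Yp_jn_rxi (-1) (by norm_num)]; ring)]
  simp_rw [Yp_add]

theorem slice_exchange {ψ : Config3 → ℝ} (hψ : MemLp ψ 2 volume) : ∀ᵐ X : Pos3,
    2 * ∫ ξ, ψ (jn p9 X ξ) ^ 2 =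
      2 * (∫ ξ, GS ψ (jn p9 X ξ) ^ 2) + ∫ ξ, (-√2 * GT ψ (jn p9 X ξ)) ^ 2 := by
  have hp : MemLp (fun x => ψ (permConfig (Equiv.swap 1 2) x)) 2 volume :=
    hψ.comp_measurePreserving (mp_perm _)
  have hS : MemLp (GS ψ) 2 volume := by
    refine ((hψ.const_mul (1 / 2)).add (hp.const_mul (1 / 2))).ae_eq (ae_of_all _ fun x => ?_)
    simp only [Pi.add_apply]
    unfold GS
    ring
  have hT : MemLp (GT ψ) 2 volume := by
    refine ((hψ.const_mul (1 / 2)).sub (hp.const_mul (1 / 2))).ae_eq (ae_of_all _ fun x => ?_)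
    simp only [Pi.sub_apply]
    unfold GT
    ring
  filter_upwards [MemLp.slice_right p9 hS, MemLp.slice_right p9 hT] with X h1 h2
  have h3 := integral_sq_split sxi h1 h2
    (fun ξ => by
      rw [jn_sxi]
      unfold GS
      rw [perm12_perm12]
      ring)
    (fun ξ => by
      rw [jn_sxi]
      unfold GT
      rw [perm12_perm12]
      ring)
  have h4 : ∀ x, GS ψ x + GT ψ x = ψ x := fun x => by unfold GS GT; ring
  simp_rw [h4] at h3
  rw [h3]
  have h5 : ∀ ξ, (-√2 * GT ψ (jn p9 X ξ)) ^ 2 = 2 * GT ψ (jn p9 X ξ) ^ 2 := fun ξ => by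
    rw [mul_pow, neg_sq, Real.sq_sqrt (by norm_num)]
  simp_rw [h5]
  rw [integral_const_mul]
  ring

/-- `ρ = s₁² + s₂²` a.e. -/
theorem Sys.rho_eq {cg C0 D : ℝ} {B : OBD cg C0 D} {K lam : ℝ} (S : Sys B K lam) :
    ∀ᵐ X : Pos3, S.rho X = S.s1sq X + S.s2sq X := by
  obtain ⟨dS, hS⟩ := chan_S S.tb
  obtain ⟨dT, hT⟩ := chan_T S.tb
  obtain ⟨dB, hB⟩ := chan_B S.tb
  filter_upwards [slice_exchange S.tb.h1.memf, slice_parity hS.h1.memf, slice_parity hT.h1.memf,
    slice_parity hB.h1.memf] with X h1 h2 h3 h4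
  unfold Sys.rho Sys.s1sq Sys.s2sq Sys.YS Sys.YT Sys.YB
  rw [h1, h2, h3, h4]
  ring

/-! ### the ion form -/

/-- `el j` as a continuous linear map -/
def el2C (i : Fin 2) : Y2 →L[ℝ] Pos3 :=
  LinearMap.toContinuousLinearMap
    { toFun := el i
      map_add' := fun x y => by ext c; simp [el]
      map_smul' := fun r x => by ext c; simp [el] }

@[simp] theorem el2C_apply (i : Fin 2) (x : Y2) : el2C i x = el i x := rfl

theorem el2C_single (i j : Fin 2) (c : Fin 3) : el2C i (EuclideanSpace.single (j, c) (1 : ℝ)) =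
    if i = j then EuclideanSpace.single c (1 : ℝ) else 0 := by
  ext c'
  rw [el2C_apply]
  by_cases h : i = j
  · subst h
    simp [el]
  · simp [el, h]

theorem el2C_single_self (i : Fin 2) (c : Fin 3) :
    el2C i (EuclideanSpace.single (i, c) (1 : ℝ)) = EuclideanSpace.single c (1 : ℝ) := by
  rw [el2C_single]; simp

theorem el2C_sub_single {i j : Fin 2} (hij : i ≠ j) (c : Fin 3) :
    (el2C i - el2C j) ((1 / 2 : ℝ) • (EuclideanSpace.single (i, c) (1 : ℝ) -
      EuclideanSpace.single (j, c) (1 : ℝ))) = EuclideanSpace.single c (1 : ℝ) := by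
  rw [_root_.sub_apply]
  simp only [map_smul, map_sub, el2C_single]
  simp only [if_true, if_neg hij, if_neg (Ne.symm hij)]
  ext c'
  by_cases h : c' = c
  · subst h; simp; norm_num
  · simp [h]

theorem memLp_div_norm2 {f : Y2 → ℝ} {g : Y2 → Y2} (h : H1 f g)
    (L : Y2 →L[ℝ] Pos3) (e : Fin 3 → Y2)
    (he : ∀ c, L (e c) = EuclideanSpace.single c (1 : ℝ)) (a : Pos3) :
    MemLp (fun x => 1 / ‖L x - a‖ * f x) 2 volume := by
  have hm : AEStronglyMeasurable (fun x => 1 / ‖L x - a‖ * f x) volume := by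
    refine AEStronglyMeasurable.mul ?_ h.memf.1
    have h1 : Measurable fun x : Y2 => ‖L x - a‖ := by fun_prop
    exact (measurable_const.div h1).aestronglyMeasurable
  refine (memLp_two_iff_integrable_sq hm).2 ?_
  refine (hardy h L e he a).1.congr (ae_of_all _ fun x => ?_)
  simp only
  ring

theorem Vion_memLp (D lam : ℝ) {f : Y2 → ℝ} {g : Y2 → Y2} (h : H1 f g) :
    MemLp (fun x => Vion D lam x * f x) 2 volume := by
  have h1 : ∀ (i : Fin 2) (a : Pos3), MemLp (fun x => 1 / ‖el i x - a‖ * f x) 2 volume :=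
    fun i a => memLp_div_norm2 h (el2C i) _ (el2C_single_self i) a
  have h2 : MemLp (fun x => 1 / ‖el 0 x - el 1 x‖ * f x) 2 volume := by
    have := memLp_div_norm2 h (el2C 0 - el2C 1) _ (el2C_sub_single (by decide)) 0
    simpa using this
  have hV : ∀ i : Fin 2, MemLp (fun x => V2 D (el i x) * f x) 2 volume := fun i => by
    have := ((h1 i (nuc D)).neg).sub (h1 i (nuc (-D)))
    refine this.ae_eq (ae_of_all _ fun x => ?_)
    simp only [Pi.sub_apply, Pi.neg_apply]
    unfold V2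
    ring
  have := ((hV 0).add (hV 1)).add (h2.const_mul lam)
  refine this.ae_eq (ae_of_all _ fun x => ?_)
  simp only [Pi.add_apply]
  unfold Vion
  ring

theorem Vion_integrable (D lam : ℝ) {f k : Y2 → ℝ} {g : Y2 → Y2} (h : H1 f g)
    (hk : MemLp k 2 volume) : Integrable (fun x => Vion D lam x * f x * k x) :=
  (Vion_memLp D lam h).integrable_mul hk

theorem k2_symm (D lam : ℝ) (f k : Y2 → ℝ) (df dk : Y2 → Y2) :
    k2 D lam f df k dk = k2 D lam k dk f df := by
  unfold k2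
  congr 2
  · refine integral_congr_ae (ae_of_all _ fun x => ?_)
    exact real_inner_comm _ _
  · refine funext fun x => ?_
    ring

theorem k2_lin_left (D lam : ℝ) {f f' k : Y2 → ℝ} {df df' dk : Y2 → Y2} (h : H1 f df)
    (h' : H1 f' df') (hk : H1 k dk) (a b : ℝ) :
    k2 D lam (fun x => a * f x + b * f' x) (fun x => a • df x + b • df' x) k dk =
      a * k2 D lam f df k dk + b * k2 D lam f' df' k dk := by
  have i1 : Integrable (fun x => inner ℝ (df x) (dk x)) := integrable_inner_L2 h.memg hk.memg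
  have i2 : Integrable (fun x => inner ℝ (df' x) (dk x)) := integrable_inner_L2 h'.memg hk.memg
  have j1 := Vion_integrable D lam h hk.memf
  have j2 := Vion_integrable D lam h' hk.memf
  unfold k2
  have a1 : ∫ x, inner ℝ (a • df x + b • df' x) (dk x) =
      a * (∫ x, inner ℝ (df x) (dk x)) + b * ∫ x, inner ℝ (df' x) (dk x) := by
    rw [← integral_const_mul, ← integral_const_mul, ← integral_add (i1.const_mul a)
      (i2.const_mul b)]
    refine integral_congr_ae (ae_of_all _ fun x => ?_)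
    simp only [inner_add_left, real_inner_smul_left]
  have a2 : ∫ x, Vion D lam x * (a * f x + b * f' x) * k x =
      a * (∫ x, Vion D lam x * f x * k x) + b * ∫ x, Vion D lam x * f' x * k x := by
    rw [← integral_const_mul, ← integral_const_mul, ← integral_add (j1.const_mul a)
      (j2.const_mul b)]
    refine integral_congr_ae (ae_of_all _ fun x => ?_)
    simp only
    ring
  rw [a1, a2]
  ring

/-- invariance of the ion form under an isometry leaving the potential invariant -/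
theorem k2_comp (D lam : ℝ) (f k : Y2 → ℝ) (df dk : Y2 → Y2) (L : Y2 ≃ₗᵢ[ℝ] Y2)
    (hV : ∀ x, Vion D lam (L x) = Vion D lam x) :
    k2 D lam (fun x => f (L x)) (fun x => L.symm (df (L x))) (fun x => k (L x))
      (fun x => L.symm (dk (L x))) = k2 D lam f df k dk := by
  unfold k2
  have a1 : ∫ x, inner ℝ (L.symm (df (L x))) (L.symm (dk (L x))) =
      ∫ x, inner ℝ (df x) (dk x) := by
    rw [← integral_isom L (fun x => inner ℝ (df x) (dk x))]
    refine integral_congr_ae (ae_of_all _ fun x => ?_)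
    simp only [LinearIsometryEquiv.inner_map_map]
  have a2 : ∫ x, Vion D lam x * f (L x) * k (L x) = ∫ x, Vion D lam x * f x * k x := by
    rw [← integral_isom L (fun x => Vion D lam x * f x * k x)]
    refine integral_congr_ae (ae_of_all _ fun x => ?_)
    simp only [hV]
  rw [a1, a2]

theorem k2_quad (D lam : ℝ) {f f' : Y2 → ℝ} {df df' : Y2 → Y2} (h : H1 f df)
    (h' : H1 f' df') (a b : ℝ) :
    k2 D lam (fun x => a * f x + b * f' x) (fun x => a • df x + b • df' x)
      (fun x => a * f x + b * f' x) (fun x => a • df x + b • df' x) =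
      a ^ 2 * k2 D lam f df f df + 2 * a * b * k2 D lam f df f' df' +
        b ^ 2 * k2 D lam f' df' f' df' := by
  have hs : H1 (fun x => a * f x + b * f' x) (fun x => a • df x + b • df' x) :=
    (h.const_mul a).add (h'.const_mul b)
  rw [k2_lin_left D lam h h' hs a b, k2_symm D lam f _ df _, k2_symm D lam f' _ df' _,
    k2_lin_left D lam h h' h a b, k2_lin_left D lam h h' h' a b, k2_symm D lam f' f df' df]
  ring

/-- the two parity parts of an `H¹` function of the ion -/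
theorem k2_parity (D lam : ℝ) {k : Y2 → ℝ} {dk : Y2 → Y2} (hk : H1 k dk) :
    ∃ a b : Y2 → ℝ, ∃ da db : Y2 → Y2, H1 a da ∧ H1 b db ∧ (∀ ξ, a ξ = (k ξ + k (rxi ξ)) / 2) ∧
      (∀ ξ, b ξ = (k ξ - k (rxi ξ)) / 2) ∧
      k2 D lam k dk k dk = k2 D lam a da a da + k2 D lam b db b db ∧
      ∫ ξ, k ξ ^ 2 = (∫ ξ, a ξ ^ 2) + ∫ ξ, b ξ ^ 2 := by
  have h1 := hk.comp_isometry rxi 0
  simp only [add_zero] at h1
  set k' : Y2 → ℝ := fun x => k (rxi x) with hk'
  set dk' : Y2 → Y2 := fun x => rxi.symm (dk (rxi x)) with hdk'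
  have ha : H1 (fun x => 1 / 2 * k x + 1 / 2 * k' x)
      (fun x => (1 / 2 : ℝ) • dk x + (1 / 2 : ℝ) • dk' x) :=
    (hk.const_mul (1 / 2)).add (h1.const_mul (1 / 2))
  have hb : H1 (fun x => 1 / 2 * k x + (-(1 / 2)) * k' x)
      (fun x => (1 / 2 : ℝ) • dk x + (-(1 / 2) : ℝ) • dk' x) :=
    (hk.const_mul (1 / 2)).add (h1.const_mul (-(1 / 2)))
  refine ⟨_, _, _, _, ha, hb, fun ξ => ?_, fun ξ => ?_, ?_, ?_⟩
  · simp only [hk']; ring
  · simp only [hk']; ring
  · have e1 := k2_comp D lam k k dk dk rxi (Vion_rxi D lam)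
    have e2 : k2 D lam k' dk' k' dk' = k2 D lam k dk k dk := e1
    rw [k2_quad D lam hk h1, k2_quad D lam hk h1, e2]
    ring
  · have hka : MemLp (fun x => 1 / 2 * k x + 1 / 2 * k' x) 2 volume := ha.memf
    have hkb : MemLp (fun x => 1 / 2 * k x + (-(1 / 2)) * k' x) 2 volume := hb.memf
    rw [← integral_sq_split rxi hka hkb (fun x => by simp only [hk', rxi_rxi]; ring)
      (fun x => by simp only [hk', rxi_rxi]; ring)]
    refine integral_congr_ae (ae_of_all _ fun x => ?_)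
    simp only
    ring

theorem mul_self_inner_le {f k : Y2 → ℝ} (hf : MemLp f 2 volume) (hk : MemLp k 2 volume)
    (hn : ∫ ξ, f ξ ^ 2 = 1) : (∫ ξ, f ξ * k ξ) ^ 2 ≤ ∫ ξ, k ξ ^ 2 := by
  have h := HS.cs hf hk
  simp only [smul_eq_mul, Real.norm_eq_abs, sq_abs, hn, one_mul] at h
  exact h

/-- lower bounds of the ion form in the triplet sector -/
theorem Sys.lowT {cg C0 D : ℝ} {B : OBD cg C0 D} {K lam : ℝ} (S : Sys B K lam) {k : Y2 → ℝ}
    {dk : Y2 → Y2} (hk : H1 k dk) (hex : ∀ᵐ ξ, k (sxi ξ) = - k ξ) :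
    S.eT * (∫ ξ, k ξ ^ 2) ≤ k2 D lam k dk k dk := by
  obtain ⟨a, b, da, db, ha, hb, hae, hbe, hq, hn⟩ := k2_parity D lam hk
  have hex' : ∀ᵐ ξ, k (sxi (rxi ξ)) = - k (rxi ξ) :=
    (rxi.measurePreserving.quasiMeasurePreserving).ae hex
  have hA := S.chZ.spec a da ha (by
      filter_upwards [hex, hex'] with ξ h1 h2
      rw [hae, hae, ← sxi_rxi, h1, h2]; ring)
    (by
      refine ae_of_all _ fun ξ => ?_
      rw [hae, hae, rxi_rxi]; ring)
  have hB := S.chT.spec b db hb (by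
      filter_upwards [hex, hex'] with ξ h1 h2
      rw [hbe, hbe, ← sxi_rxi, h1, h2]; ring)
    (by
      refine ae_of_all _ fun ξ => ?_
      rw [hbe, hbe, rxi_rxi]; ring)
  have h1 := mul_self_inner_le S.chT.h1.memf hb.memf S.nT
  have h2 : 0 ≤ ∫ ξ, a ξ ^ 2 := integral_nonneg fun x => sq_nonneg _
  have hcg := B.cg0
  have h3 : (∫ ξ, (0 : ℝ) * a ξ) = 0 := by simp
  rw [h3] at hA
  rw [hq, hn]
  have h4 : 0 ≤ cg / 4 * ((∫ ξ, a ξ ^ 2) - 0 ^ 2) := by
    have : 0 ≤ (∫ ξ, a ξ ^ 2) - 0 ^ 2 := by simpa using h2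
    positivity
  have h5 : 0 ≤ cg / 4 * ((∫ ξ, b ξ ^ 2) - (∫ ξ, S.ΦT ξ * b ξ) ^ 2) :=
    mul_nonneg (by positivity) (by linarith)
  linarith

end Crest.Agent.R335
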