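import Crest.Agent.R335.BCloseB

/-!
Row 335 (S0521), module BClose (helper246): closeness of the slices of the three-body function.
-/

set_option autoImplicit false
set_option linter.unusedSectionVars false
set_option linter.unusedVariables false

open MeasureTheory Filter Set Crest.MathPhysics.ThreeBody
open scoped ENNReal Topology ContDiff

noncomputable section
namespace Crest.Agent.R335
namespace Clo

/-! ### Hardy bounds for the potential -/

theorem hardy_sq {f : Config3 → ℝ} {g : Config3 → Config3} (h : H1 f g)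
    (L : Config3 →L[ℝ] Pos3) (e : Fin 3 → Config3)
    (he : ∀ c, L (e c) = EuclideanSpace.single c (1 : ℝ)) (a : Pos3)
    (hn : ∀ v : Config3, ∑ c, (inner ℝ v (e c)) ^ 2 ≤ ‖v‖ ^ 2) :
    Integrable (fun x => (1 / ‖L x - a‖ * f x) ^ 2) ∧
      ∫ x, (1 / ‖L x - a‖ * f x) ^ 2 ≤ 4 * ∫ x, ‖g x‖ ^ 2 := by
  obtain ⟨h1, h2⟩ := I.hardy h L e he a
  have e1 : (fun x => (1 / ‖L x - a‖ * f x) ^ 2) = fun x => f x ^ 2 / ‖L x - a‖ ^ 2 := by
    funext x
    ring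
  rw [e1]
  refine ⟨h1, h2.trans ?_⟩
  refine mul_le_mul_of_nonneg_left ?_ (by norm_num)
  refine integral_mono_of_nonneg (ae_of_all _ fun x => Finset.sum_nonneg fun _ _ => sq_nonneg _)
    ((memLp_two_iff_integrable_sq_norm h.memg.1).1 h.memg) (ae_of_all _ fun x => hn (g x))

theorem norm_sq9 (v : Config3) : ‖v‖ ^ 2 = (∑ c, v (0, c) ^ 2) + (∑ c, v (1, c) ^ 2) +
    ∑ c, v (2, c) ^ 2 := by
  rw [EuclideanSpace.real_norm_sq_eq, Fintype.sum_prod_type, Fin.sum_univ_three]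

theorem sum_row (v : Config3) (i : Fin 3) : ∑ c, v (i, c) ^ 2 ≤ ‖v‖ ^ 2 := by
  have h0 : 0 ≤ ∑ c, v (0, c) ^ 2 := Finset.sum_nonneg fun _ _ => sq_nonneg _
  have h1 : 0 ≤ ∑ c, v (1, c) ^ 2 := Finset.sum_nonneg fun _ _ => sq_nonneg _
  have h2 : 0 ≤ ∑ c, v (2, c) ^ 2 := Finset.sum_nonneg fun _ _ => sq_nonneg _
  rw [norm_sq9]
  fin_cases i <;> simp only [Fin.zero_eta, Fin.mk_one, Fin.reduceFinMk] <;> linarith

theorem hardy1 {f : Config3 → ℝ} {g : Config3 → Config3} (h : H1 f g) (i : Fin 3) (a : Pos3) :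
    Integrable (fun x => (1 / ‖elPos i x - a‖ * f x) ^ 2) ∧
      ∫ x, (1 / ‖elPos i x - a‖ * f x) ^ 2 ≤ 4 * ∫ x, ‖g x‖ ^ 2 := by
  refine hardy_sq h (elC i) _ (elC_single_self i) a fun v => ?_
  have : ∀ c, inner ℝ v (EuclideanSpace.single (i, c) (1 : ℝ)) = v (i, c) := fun c => by
    rw [EuclideanSpace.inner_single_right]; simp
  simp only [this]
  exact sum_row v i

theorem hardy2 {f : Config3 → ℝ} {g : Config3 → Config3} (h : H1 f g) {i j : Fin 3}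
    (hij : i ≠ j) :
    Integrable (fun x => (1 / ‖elPos i x - elPos j x‖ * f x) ^ 2) ∧
      ∫ x, (1 / ‖elPos i x - elPos j x‖ * f x) ^ 2 ≤ 4 * ∫ x, ‖g x‖ ^ 2 := by
  have := hardy_sq h (elC i - elC j) _ (elC_sub_single hij) 0 fun v => by
    have e : ∀ c, inner ℝ v ((1 / 2 : ℝ) • (EuclideanSpace.single (i, c) (1 : ℝ) -
        EuclideanSpace.single (j, c) (1 : ℝ))) = (v (i, c) - v (j, c)) / 2 := fun c => by
      rw [inner_smul_right, inner_sub_right, EuclideanSpace.inner_single_right,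
        EuclideanSpace.inner_single_right]
      simp
      ring
    simp only [e]
    have h1 := sum_row v i
    have h2 := sum_row v j
    have h3 : ∑ c, ((v (i, c) - v (j, c)) / 2) ^ 2 ≤
        ∑ c, ((1 / 2) * v (i, c) ^ 2 + (1 / 2) * v (j, c) ^ 2) := by
      refine Finset.sum_le_sum fun c _ => ?_
      nlinarith [sq_nonneg (v (i, c) + v (j, c))]
    rw [Finset.sum_add_distrib, ← Finset.mul_sum, ← Finset.mul_sum] at h3
    linarith
  simpa using this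

/-- repulsion -/
def Rep (x : Config3) : ℝ := 1 / ‖elPos 0 x - elPos 1 x‖ + 1 / ‖elPos 0 x - elPos 2 x‖ +
  1 / ‖elPos 1 x - elPos 2 x‖

theorem V9_eq (D lam : ℝ) (x : Config3) : V9 D lam x = V9 D 0 x + lam * Rep x := by
  unfold V9 Rep
  ring

theorem Rep_memLp {f : Config3 → ℝ} {g : Config3 → Config3} (h : H1 f g) :
    MemLp (fun x => Rep x * f x) 2 volume := by
  have h1 := (V9_memLp 1 1 h).sub (V9_memLp 1 0 h)
  refine h1.ae_eq (ae_of_all _ fun x => ?_)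
  simp only [Pi.sub_apply]
  rw [V9_eq 1 1]
  ring

theorem Rep_bound {f : Config3 → ℝ} {g : Config3 → Config3} (h : H1 f g) :
    ∫ x, (Rep x * f x) ^ 2 ≤ 36 * ∫ x, ‖g x‖ ^ 2 := by
  obtain ⟨i1, b1⟩ := hardy2 h (show (0 : Fin 3) ≠ 1 by decide)
  obtain ⟨i2, b2⟩ := hardy2 h (show (0 : Fin 3) ≠ 2 by decide)
  obtain ⟨i3, b3⟩ := hardy2 h (show (1 : Fin 3) ≠ 2 by decide)
  have hle : ∀ x, (Rep x * f x) ^ 2 ≤ 3 * (1 / ‖elPos 0 x - elPos 1 x‖ * f x) ^ 2 +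
      3 * (1 / ‖elPos 0 x - elPos 2 x‖ * f x) ^ 2 + 3 * (1 / ‖elPos 1 x - elPos 2 x‖ * f x) ^ 2 := by
    intro x
    unfold Rep
    set a := 1 / ‖elPos 0 x - elPos 1 x‖ * f x with ha
    set b := 1 / ‖elPos 0 x - elPos 2 x‖ * f x with hb
    set c := 1 / ‖elPos 1 x - elPos 2 x‖ * f x with hc
    rw [add_mul, add_mul, ← ha, ← hb, ← hc]
    nlinarith [sq_nonneg (a - b), sq_nonneg (b - c), sq_nonneg (a - c)]
  have j1 : Integrable (fun x => 3 * (1 / ‖elPos 0 x - elPos 1 x‖ * f x) ^ 2) := i1.const_mul 3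
  have j2 : Integrable (fun x => 3 * (1 / ‖elPos 0 x - elPos 2 x‖ * f x) ^ 2) := i2.const_mul 3
  have j3 : Integrable (fun x => 3 * (1 / ‖elPos 1 x - elPos 2 x‖ * f x) ^ 2) := i3.const_mul 3
  have j12 : Integrable (fun x => 3 * (1 / ‖elPos 0 x - elPos 1 x‖ * f x) ^ 2 +
      3 * (1 / ‖elPos 0 x - elPos 2 x‖ * f x) ^ 2) := j1.add j2
  have := integral_mono ((Rep_memLp h).integrable_sq) (j12.add j3) hle
  simp only [Pi.add_apply] at this
  rw [integral_add j12 j3, integral_add j1 j2, integral_const_mul, integral_const_mul,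
    integral_const_mul] at this
  linarith

theorem V2_bound {f : Config3 → ℝ} {g : Config3 → Config3} (h : H1 f g) (D : ℝ) (i : Fin 3) :
    MemLp (fun x => V2 D (elPos i x) * f x) 2 volume ∧
    ∫ x, (V2 D (elPos i x) * f x) ^ 2 ≤ 16 * ∫ x, ‖g x‖ ^ 2 := by
  obtain ⟨i1, b1⟩ := hardy1 h i (nuc D)
  obtain ⟨i2, b2⟩ := hardy1 h i (nuc (-D))
  have hm : MemLp (fun x => V2 D (elPos i x) * f x) 2 volume := by
    have a1 := memLp_div_norm h (elC i) _ (elC_single_self i) (nuc D)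
    have a2 := memLp_div_norm h (elC i) _ (elC_single_self i) (nuc (-D))
    refine ((a1.neg).sub a2).ae_eq (ae_of_all _ fun x => ?_)
    simp only [Pi.sub_apply, Pi.neg_apply, elC_apply]
    unfold V2
    ring
  refine ⟨hm, ?_⟩
  have hle : ∀ x, (V2 D (elPos i x) * f x) ^ 2 ≤ 2 * (1 / ‖elPos i x - nuc D‖ * f x) ^ 2 +
      2 * (1 / ‖elPos i x - nuc (-D)‖ * f x) ^ 2 := by
    intro x
    unfold V2
    nlinarith [sq_nonneg (1 / ‖elPos i x - nuc D‖ * f x - 1 / ‖elPos i x - nuc (-D)‖ * f x)]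
  have j1 : Integrable (fun x => 2 * (1 / ‖elPos i x - nuc D‖ * f x) ^ 2) := i1.const_mul 2
  have j2 : Integrable (fun x => 2 * (1 / ‖elPos i x - nuc (-D)‖ * f x) ^ 2) := i2.const_mul 2
  have := integral_mono hm.integrable_sq (j1.add j2) hle
  simp only [Pi.add_apply] at this
  rw [integral_add j1 j2, integral_const_mul, integral_const_mul] at this
  linarith

theorem V9_bound {f : Config3 → ℝ} {g : Config3 → Config3} (h : H1 f g) (D : ℝ) {lam : ℝ}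
    (h0 : 0 ≤ lam) (h1 : lam ≤ 1) : ∫ x, (V9 D lam x * f x) ^ 2 ≤ 336 * ∫ x, ‖g x‖ ^ 2 := by
  obtain ⟨m0, b0⟩ := V2_bound h D 0
  obtain ⟨m1, b1⟩ := V2_bound h D 1
  obtain ⟨m2, b2⟩ := V2_bound h D 2
  have b3 := Rep_bound h
  have hle : ∀ x, (V9 D lam x * f x) ^ 2 ≤ 4 * (V2 D (elPos 0 x) * f x) ^ 2 +
      4 * (V2 D (elPos 1 x) * f x) ^ 2 + 4 * (V2 D (elPos 2 x) * f x) ^ 2 +
      4 * (Rep x * f x) ^ 2 := by
    intro x
    have e : V9 D lam x * f x = V2 D (elPos 0 x) * f x + V2 D (elPos 1 x) * f x +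
        V2 D (elPos 2 x) * f x + lam * (Rep x * f x) := by
      unfold V9 Rep
      ring
    rw [e]
    set a := V2 D (elPos 0 x) * f x
    set b := V2 D (elPos 1 x) * f x
    set c := V2 D (elPos 2 x) * f x
    set r := Rep x * f x
    have h3 : (lam * r) ^ 2 ≤ r ^ 2 := by
      rw [mul_pow]
      have : lam ^ 2 ≤ 1 := by nlinarith
      nlinarith [sq_nonneg r]
    nlinarith [sq_nonneg (a - b), sq_nonneg (a - c), sq_nonneg (b - c),
      sq_nonneg (a - lam * r), sq_nonneg (b - lam * r), sq_nonneg (c - lam * r)]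
  have j0 : Integrable (fun x => 4 * (V2 D (elPos 0 x) * f x) ^ 2) := m0.integrable_sq.const_mul 4
  have j1 : Integrable (fun x => 4 * (V2 D (elPos 1 x) * f x) ^ 2) := m1.integrable_sq.const_mul 4
  have j2 : Integrable (fun x => 4 * (V2 D (elPos 2 x) * f x) ^ 2) := m2.integrable_sq.const_mul 4
  have j3 : Integrable (fun x => 4 * (Rep x * f x) ^ 2) :=
    (Rep_memLp h).integrable_sq.const_mul 4
  have j01 : Integrable (fun x => 4 * (V2 D (elPos 0 x) * f x) ^ 2 +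
      4 * (V2 D (elPos 1 x) * f x) ^ 2) := j0.add j1
  have j012 : Integrable (fun x => 4 * (V2 D (elPos 0 x) * f x) ^ 2 +
      4 * (V2 D (elPos 1 x) * f x) ^ 2 + 4 * (V2 D (elPos 2 x) * f x) ^ 2) := j01.add j2
  have := integral_mono (V9_memLp D lam h).integrable_sq (j012.add j3) hle
  simp only [Pi.add_apply] at this
  rw [integral_add j012 j3, integral_add j01 j2, integral_add j0 j1, integral_const_mul,
    integral_const_mul, integral_const_mul, integral_const_mul] at this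
  linarith

theorem four_sq (a b c r : ℝ) :
    (a + b - c - r) ^ 2 ≤ 4 * a ^ 2 + 4 * b ^ 2 + 4 * c ^ 2 + 4 * r ^ 2 := by
  have : 4 * a ^ 2 + 4 * b ^ 2 + 4 * c ^ 2 + 4 * r ^ 2 - (a + b - c - r) ^ 2 =
      (a - b) ^ 2 + (a + c) ^ 2 + (a + r) ^ 2 + (b + c) ^ 2 + (b + r) ^ 2 + (c - r) ^ 2 := by ring
  have h : 0 ≤ (a - b) ^ 2 + (a + c) ^ 2 + (a + r) ^ 2 + (b + c) ^ 2 + (b + r) ^ 2 + (c - r) ^ 2 := by
    positivity
  linarith

/-- splitting with the electron `σ⁻¹ 0` in the first group -/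
def pB : Fin 3 × Fin 3 ≃ Fin 3 ⊕ (Fin 2 × Fin 3) :=
  (Equiv.prodCongr (finRotate 3) (Equiv.refl _)).trans p9

theorem GB_jn (F : Config3 → ℝ) (X : Pos3) (ξ : Y2) : GB F (jn p9 X ξ) = F (jn pB X ξ) := by
  unfold GB
  congr 1

end Clo

set_option maxHeartbeats 1000000 in
/-- closeness of the slices, uniformly in the position of one electron (module BClose) -/
theorem three_close {cg C0 D : ℝ} (hD : 4 ≤ D) (B : OBD cg C0 D) (K : ℝ) :
    ∃ K' l' : ℝ, 1 ≤ K' ∧ 0 < l' ∧ ∀ lam, 0 ≤ lam → lam ≤ l' →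
      ∀ (E : ℝ) (ψ : Config3 → ℝ) (dψ d0 : Config3 → Config3), ThreeBody D lam E ψ dψ →
        |E - (2 * B.eg + B.eu)| ≤ K * lam → H1 (psi0 B.g B.u) d0 →
        ∫ x, (ψ x - psi0 B.g B.u x) ^ 2 ≤ (K * lam) ^ 2 →
        ∫ x, ‖dψ x - d0 x‖ ^ 2 ≤ (K * lam) ^ 2 →
        (∀ᵐ X : Pos3, ∫ ξ, (ψ (jn p9 X ξ) - psi0 B.g B.u (jn p9 X ξ)) ^ 2 ≤ (K' * lam) ^ 2) ∧
        (∀ᵐ X : Pos3, ∫ ξ, (GB ψ (jn p9 X ξ) - GB (psi0 B.g B.u) (jn p9 X ξ)) ^ 2 ≤
          (K' * lam) ^ 2) := by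
  obtain ⟨e0, hE⟩ := Clo.eig_psi0 B
  set E0 : ℝ := 2 * B.eg + B.eu with hE0
  set ψ0 : Config3 → ℝ := psi0 B.g B.u with hψ0
  set n0 : ℝ := ∫ x, ψ0 x ^ 2 with hn0
  set G0 : ℝ := ∫ x, ‖e0 x‖ ^ 2 with hG0
  set Y : ℝ := ∫ y : Pos3, Yuk 1 y ^ 2 with hY
  have hn0' : 0 ≤ n0 := integral_nonneg fun _ => sq_nonneg _
  have hG0' : 0 ≤ G0 := integral_nonneg fun _ => sq_nonneg _
  have hY' : 0 ≤ Y := integral_nonneg fun _ => sq_nonneg _
  set M : ℝ := 4 * ((|E0| + |K|) ^ 2 * K ^ 2 + K ^ 2 * n0 + 336 * K ^ 2 + 36 * G0) with hM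
  have hM' : 0 ≤ M := by positivity
  set A : ℝ := Y * (8 * M + 2 * K ^ 2) with hA
  have hA' : 0 ≤ A := by positivity
  refine ⟨max 1 (√A), 1, le_max_left _ _, one_pos, ?_⟩
  intro lam hl0 hl1 E ψ dψ d0 tb hEn hd0 hcl hclg
  have hde : d0 =ᵐ[volume] e0 := I.H1.unique hd0 hE.h1
  have hf1 : H1 (fun x => ψ x - ψ0 x) (fun x => dψ x - e0 x) := I.H1.sub tb.h1 hE.h1
  have hg2 : ∫ x, ‖dψ x - e0 x‖ ^ 2 ≤ (K * lam) ^ 2 := by
    have : ∫ x, ‖dψ x - e0 x‖ ^ 2 = ∫ x, ‖dψ x - d0 x‖ ^ 2 := by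
      refine integral_congr_ae ?_
      filter_upwards [hde] with x hx
      rw [hx]
    rw [this]
    exact hclg
  -- the source
  set q : Config3 → ℝ := fun x => (E * ψ x - V9 D lam x * ψ x) - (E0 * ψ0 x - V9 D 0 x * ψ0 x)
    with hq
  have hqm : MemLp q 2 volume :=
    ((tb.h1.memf.const_mul E).sub (V9_memLp D lam tb.h1)).sub
      ((hE.h1.memf.const_mul E0).sub (V9_memLp D 0 hE.h1))
  have heq : ∀ (k : Config3 → ℝ) (l : Config3 → Config3), H1 k l →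
      (1 / 2) * (∫ X, inner ℝ (dψ X - e0 X) (l X)) = ∫ X, q X * k X := by
    intro k l hk
    have a1 := tb.eq k l hk
    unfold q3 at a1
    have a2 := hE.eq k l hk
    have e1 : ∫ x, inner ℝ (dψ x - e0 x) (l x) =
        (∫ x, inner ℝ (dψ x) (l x)) - ∫ x, inner ℝ (e0 x) (l x) := by
      rw [← integral_sub (Clo.integrable_inner' tb.h1.memg hk.memg)
        (Clo.integrable_inner' hE.h1.memg hk.memg)]
      exact integral_congr_ae (ae_of_all _ fun x => by simp only [inner_sub_left])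
    have j1 : Integrable (fun x => ψ x * k x) := tb.h1.memf.integrable_mul hk.memf
    have j2 : Integrable (fun x => ψ0 x * k x) := hE.h1.memf.integrable_mul hk.memf
    have j3 : Integrable (fun x => V9 D lam x * ψ x * k x) := V9_integrable D lam tb.h1 hk.memf
    have j4 : Integrable (fun x => V9 D 0 x * ψ0 x * k x) := V9_integrable D 0 hE.h1 hk.memf
    have j5 : Integrable (fun x => E * (ψ x * k x) - V9 D lam x * ψ x * k x) :=
      (j1.const_mul E).sub j3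
    have j6 : Integrable (fun x => E0 * (ψ0 x * k x) - V9 D 0 x * ψ0 x * k x) :=
      (j2.const_mul E0).sub j4
    have e2 : ∫ x, q x * k x = (E * (∫ x, ψ x * k x) - ∫ x, V9 D lam x * ψ x * k x) -
        (E0 * (∫ x, ψ0 x * k x) - ∫ x, V9 D 0 x * ψ0 x * k x) := by
      rw [← integral_const_mul, ← integral_const_mul, ← integral_sub (j1.const_mul E) j3,
        ← integral_sub (j2.const_mul E0) j4, ← integral_sub j5 j6]
      refine integral_congr_ae (ae_of_all _ fun x => ?_)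
      simp only [hq]
      ring
    rw [e1, e2]
    linear_combination a1 - a2
  -- size of the source
  have hK2 : (K * lam) ^ 2 = K ^ 2 * lam ^ 2 := by ring
  have hEb : E ^ 2 ≤ (|E0| + |K|) ^ 2 := by
    rw [← sq_abs E]
    refine pow_le_pow_left₀ (abs_nonneg _) ?_ 2
    have h1 : |E| ≤ |E0| + |E - E0| := by
      calc |E| = |E0 + (E - E0)| := by congr 1; ring
        _ ≤ _ := abs_add_le _ _
    have h2 : K * lam ≤ |K| := by
      calc K * lam ≤ |K| * lam := mul_le_mul_of_nonneg_right (le_abs_self K) hl0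
        _ ≤ |K| * 1 := mul_le_mul_of_nonneg_left hl1 (abs_nonneg _)
        _ = |K| := mul_one _
    linarith
  have hEd : (E - E0) ^ 2 ≤ K ^ 2 * lam ^ 2 := by
    rw [← hK2, ← sq_abs (E - E0)]
    exact pow_le_pow_left₀ (abs_nonneg _) hEn 2
  have hqs : ∀ x, q x ^ 2 ≤ 4 * (E ^ 2 * (ψ x - ψ0 x) ^ 2) + 4 * ((E - E0) ^ 2 * ψ0 x ^ 2) +
      4 * (V9 D lam x * (ψ x - ψ0 x)) ^ 2 + 4 * (lam ^ 2 * (Clo.Rep x * ψ0 x) ^ 2) := by
    intro x
    have e : q x = E * (ψ x - ψ0 x) + (E - E0) * ψ0 x - V9 D lam x * (ψ x - ψ0 x) -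
        lam * (Clo.Rep x * ψ0 x) := by
      simp only [hq]
      rw [Clo.V9_eq D lam x]
      ring
    rw [e]
    have h4 := Clo.four_sq (E * (ψ x - ψ0 x)) ((E - E0) * ψ0 x) (V9 D lam x * (ψ x - ψ0 x))
      (lam * (Clo.Rep x * ψ0 x))
    rw [← mul_pow, ← mul_pow, ← mul_pow lam]
    exact h4
  have hqi : ∫ x, q x ^ 2 ≤ M * lam ^ 2 := by
    have t1 : Integrable (fun x => 4 * (E ^ 2 * (ψ x - ψ0 x) ^ 2)) :=
      (hf1.memf.integrable_sq.const_mul _).const_mul 4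
    have t2 : Integrable (fun x => 4 * ((E - E0) ^ 2 * ψ0 x ^ 2)) :=
      (hE.h1.memf.integrable_sq.const_mul _).const_mul 4
    have t3 : Integrable (fun x => 4 * (V9 D lam x * (ψ x - ψ0 x)) ^ 2) :=
      (V9_memLp D lam hf1).integrable_sq.const_mul 4
    have t4 : Integrable (fun x => 4 * (lam ^ 2 * (Clo.Rep x * ψ0 x) ^ 2)) :=
      ((Clo.Rep_memLp hE.h1).integrable_sq.const_mul _).const_mul 4
    have t12 : Integrable (fun x => 4 * (E ^ 2 * (ψ x - ψ0 x) ^ 2) +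
        4 * ((E - E0) ^ 2 * ψ0 x ^ 2)) := t1.add t2
    have t123 : Integrable (fun x => 4 * (E ^ 2 * (ψ x - ψ0 x) ^ 2) +
        4 * ((E - E0) ^ 2 * ψ0 x ^ 2) + 4 * (V9 D lam x * (ψ x - ψ0 x)) ^ 2) := t12.add t3
    have := integral_mono hqm.integrable_sq (t123.add t4) hqs
    simp only [Pi.add_apply] at this
    rw [integral_add t123 t4, integral_add t12 t3, integral_add t1 t2, integral_const_mul,
      integral_const_mul, integral_const_mul, integral_const_mul, integral_const_mul,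
      integral_const_mul, integral_const_mul] at this
    have b3 := Clo.V9_bound hf1 D hl0 hl1
    have b4 := Clo.Rep_bound hE.h1
    have c1 : E ^ 2 * (∫ x, (ψ x - ψ0 x) ^ 2) ≤ (|E0| + |K|) ^ 2 * (K ^ 2 * lam ^ 2) := by
      rw [hK2] at hcl
      exact mul_le_mul hEb hcl (integral_nonneg fun _ => sq_nonneg _) (by positivity)
    have c2 : (E - E0) ^ 2 * n0 ≤ K ^ 2 * lam ^ 2 * n0 := mul_le_mul_of_nonneg_right hEd hn0'
    have c3 : ∫ x, (V9 D lam x * (ψ x - ψ0 x)) ^ 2 ≤ 336 * (K ^ 2 * lam ^ 2) := by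
      rw [hK2] at hg2
      linarith
    have c4 : lam ^ 2 * (∫ x, (Clo.Rep x * ψ0 x) ^ 2) ≤ lam ^ 2 * (36 * G0) :=
      mul_le_mul_of_nonneg_left b4 (sq_nonneg _)
    calc ∫ x, q x ^ 2 ≤ _ := this
      _ ≤ 4 * ((|E0| + |K|) ^ 2 * (K ^ 2 * lam ^ 2)) + 4 * (K ^ 2 * lam ^ 2 * n0) +
          4 * (336 * (K ^ 2 * lam ^ 2)) + 4 * (lam ^ 2 * (36 * G0)) := by
        linarith
      _ = M * lam ^ 2 := by rw [hM]; ring
  have hfin : Y * (8 * (∫ X, q X ^ 2) + 2 * ∫ X, (ψ X - ψ0 X) ^ 2) ≤ (max 1 (√A) * lam) ^ 2 := by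
    have h1 : 8 * (∫ X, q X ^ 2) + 2 * (∫ X, (ψ X - ψ0 X) ^ 2) ≤ (8 * M + 2 * K ^ 2) * lam ^ 2 := by
      rw [hK2] at hcl
      linarith
    have h2 : A ≤ (max 1 (√A)) ^ 2 := by
      calc A = √A ^ 2 := (Real.sq_sqrt hA').symm
        _ ≤ _ := pow_le_pow_left₀ (Real.sqrt_nonneg _) (le_max_right _ _) 2
    calc Y * (8 * (∫ X, q X ^ 2) + 2 * ∫ X, (ψ X - ψ0 X) ^ 2)
        ≤ Y * ((8 * M + 2 * K ^ 2) * lam ^ 2) := mul_le_mul_of_nonneg_left h1 hY'
      _ = A * lam ^ 2 := by rw [hA]; ring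
      _ ≤ (max 1 (√A)) ^ 2 * lam ^ 2 := mul_le_mul_of_nonneg_right h2 (sq_nonneg _)
      _ = _ := by ring
  constructor
  · filter_upwards [Clo.slice_sup p9 hf1 hqm heq] with X hX
    exact hX.trans hfin
  · filter_upwards [Clo.slice_sup Clo.pB hf1 hqm heq] with X hX
    simp only [Clo.GB_jn]
    exact hX.trans hfin

end Crest.Agent.R335
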