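import Crest.Agent.R335.HDefs2
import Crest.Agent.R335.HBasic
import Crest.Agent.R335.HMoll
import Crest.Agent.R335.HChain
import Crest.Agent.R335.HProd
import Crest.Agent.R335.HGlob
import Crest.Agent.R335.HGlob2

/-!
Row 335 (S0521): Sobolev library, INTERFACE (re-export of the proved theorems; sorry-free, imports the whole H layer).  Proof files:
each theorem `I.xxx` is to be proved as `Crest.Agent.R335.xxx` in the module named in its docstring.
-/

set_option autoImplicit false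
set_option linter.unusedSectionVars false

open MeasureTheory Filter Set
open scoped ENNReal Topology ContDiff

noncomputable section
namespace Crest.Agent.R335.I
open Crest.Agent.R335

variable {ι : Type*} [Fintype ι] [DecidableEq ι]

local notation "E" => EuclideanSpace ℝ ι

/-! ### HA: basic calculus (module HBasic) -/

theorem WG.mono {U V : Set E} {f : E → ℝ} {g : E → E} (h : WG U f g) (hVU : V ⊆ U) :
    WG V f g := by
  apply Crest.Agent.R335.WG.mono <;> assumption

theorem WG.congr {U : Set E} (hU : IsOpen U) {f f' : E → ℝ} {g g' : E → E} (h : WG U f g)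
    (hf : f =ᵐ[volume.restrict U] f') (hg : g =ᵐ[volume.restrict U] g') : WG U f' g' := by
  apply Crest.Agent.R335.WG.congr <;> assumption

theorem WG.add {U : Set E} {f f' : E → ℝ} {g g' : E → E} (h : WG U f g) (h' : WG U f' g')
    (hU : IsOpen U) : WG U (fun x => f x + f' x) (fun x => g x + g' x) := by
  apply Crest.Agent.R335.WG.add <;> assumption

theorem WG.sub {U : Set E} {f f' : E → ℝ} {g g' : E → E} (h : WG U f g) (h' : WG U f' g')
    (hU : IsOpen U) : WG U (fun x => f x - f' x) (fun x => g x - g' x) := by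
  apply Crest.Agent.R335.WG.sub <;> assumption

theorem WG.const_mul {U : Set E} {f : E → ℝ} {g : E → E} (h : WG U f g) (c : ℝ)
    (hU : IsOpen U) : WG U (fun x => c * f x) (fun x => c • g x) := by
  apply Crest.Agent.R335.WG.const_mul <;> assumption

/-- classical `C¹` functions on an open set -/
theorem WG.of_contDiffOn {U : Set E} (hU : IsOpen U) {f : E → ℝ} (hf : ContDiffOn ℝ 1 f U) :
    WG U f (gr f) := by
  apply Crest.Agent.R335.WG.of_contDiffOn <;> assumption

theorem WG.unique {U : Set E} (hU : IsOpen U) {f : E → ℝ} {g g' : E → E} (h : WG U f g)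
    (h' : WG U f g') : g =ᵐ[volume.restrict U] g' := by
  apply Crest.Agent.R335.WG.unique <;> assumption

/-- `L¹_loc` closedness -/
theorem WG.of_tendsto {U : Set E} (hU : IsOpen U) {f : E → ℝ} {g : E → E} {fn : ℕ → E → ℝ}
    {gn : ℕ → E → E} (h : ∀ n, WG U (fn n) (gn n))
    (hf : LocallyIntegrableOn f U volume) (hg : LocallyIntegrableOn g U volume)
    (hfn : ∀ K, IsCompact K → K ⊆ U → Tendsto (fun n => ∫ x in K, ‖fn n x - f x‖) atTop (𝓝 0))
    (hgn : ∀ K, IsCompact K → K ⊆ U → Tendsto (fun n => ∫ x in K, ‖gn n x - g x‖) atTop (𝓝 0)) :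
    WG U f g := by
  apply Crest.Agent.R335.WG.of_tendsto <;> assumption

/-- locality -/
theorem WG.of_local {U : Set E} (hU : IsOpen U) {f : E → ℝ} {g : E → E}
    (h : ∀ x ∈ U, ∃ V, IsOpen V ∧ x ∈ V ∧ WG V f g) : WG U f g := by
  apply Crest.Agent.R335.WG.of_local <;> assumption

/-- product with a smooth function (module HBasic) -/
theorem WG.mul_smooth {U : Set E} (hU : IsOpen U) {f : E → ℝ} {g : E → E} (h : WG U f g)
    {k : E → ℝ} (hk : ContDiff ℝ ∞ k) :
    WG U (fun x => k x * f x) (fun x => k x • g x + f x • gr k x) := by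
  apply Crest.Agent.R335.WG.mul_smooth <;> assumption

/-- extension by zero (module HBasic) -/
theorem WG.extend_zero {U : Set E} (hU : IsOpen U) {f : E → ℝ} {g : E → E} (h : WG U f g)
    {K : Set E} (hK : IsCompact K) (hKU : K ⊆ U) (hf : ∀ x, x ∉ K → f x = 0)
    (hg : ∀ x, x ∉ K → g x = 0) : WG univ f g := by
  apply Crest.Agent.R335.WG.extend_zero <;> assumption

/-- smooth cutoffs (module HBasic) -/
theorem exists_cutoff {K U : Set E} (hK : IsCompact K) (hU : IsOpen U) (hKU : K ⊆ U) :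
    ∃ χ : E → ℝ, Test U χ ∧ (∀ x, χ x ∈ Icc (0 : ℝ) 1) ∧
      ∃ V, IsOpen V ∧ K ⊆ V ∧ V ⊆ U ∧ (∀ x ∈ V, χ x = 1) := by
  apply Crest.Agent.R335.exists_cutoff <;> assumption

/-- smooth cutoffs at infinity (module HBasic) -/
theorem exists_cutoff_ball : ∃ C : ℝ, 0 ≤ C ∧ ∀ R : ℝ, 1 ≤ R → ∃ χ : E → ℝ, Test univ χ ∧
    (∀ x, χ x ∈ Icc (0 : ℝ) 1) ∧ (∀ x, ‖x‖ ≤ R → χ x = 1) ∧ (∀ x, 2 * R ≤ ‖x‖ → χ x = 0) ∧
    (∀ x, ‖gr χ x‖ ≤ C / R) := by
  apply Crest.Agent.R335.exists_cutoff_ball <;> assumption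

/-! ### HM: mollification (module HMoll) -/

/-- `L¹` approximation on compacts by smooth functions; bounds and positivity are kept -/
theorem WG.approx {U : Set E} (hU : IsOpen U) {f : E → ℝ} {g : E → E} (h : WG U f g)
    {K : Set E} (hK : IsCompact K) (hKU : K ⊆ U) :
    ∃ φ : ℕ → E → ℝ, (∀ n, ContDiff ℝ ∞ (φ n)) ∧
      Tendsto (fun n => ∫ x in K, ‖φ n x - f x‖) atTop (𝓝 0) ∧
      Tendsto (fun n => ∫ x in K, ‖gr (φ n) x - g x‖) atTop (𝓝 0) ∧
      (∀ a b : ℝ, (∀ x, f x ∈ Icc a b) → a ≤ 0 → 0 ≤ b → ∀ n x, φ n x ∈ Icc a b) := by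
  apply Crest.Agent.R335.WG.approx <;> assumption

/-- a compactly supported `H¹` function is the `H¹` limit of test functions of `U`; signs and
bounds are kept -/
theorem H1.approx_of_supp {U : Set E} (hU : IsOpen U) {f : E → ℝ} {g : E → E} (h : H1 f g)
    {K : Set E} (hK : IsCompact K) (hKU : K ⊆ U) (hf : SuppIn K f) :
    ∃ φ : ℕ → E → ℝ, ∃ K', IsCompact K' ∧ K' ⊆ U ∧ (∀ n, Test U (φ n)) ∧
      (∀ n, SuppIn K' (φ n)) ∧
      Tendsto (fun n => eLpNorm (fun x => φ n x - f x) 2 volume) atTop (𝓝 0) ∧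
      Tendsto (fun n => eLpNorm (fun x => gr (φ n) x - g x) 2 volume) atTop (𝓝 0) ∧
      (∀ a b : ℝ, (∀ x, f x ∈ Icc a b) → a ≤ 0 → 0 ≤ b → ∀ n x, φ n x ∈ Icc a b) := by
  apply Crest.Agent.R335.H1.approx_of_supp <;> assumption

/-- density of `C_c^∞` in `H¹` -/
theorem H1.approx {f : E → ℝ} {g : E → E} (h : H1 f g) :
    ∃ φ : ℕ → E → ℝ, (∀ n, Test univ (φ n)) ∧
      Tendsto (fun n => eLpNorm (fun x => φ n x - f x) 2 volume) atTop (𝓝 0) ∧
      Tendsto (fun n => eLpNorm (fun x => gr (φ n) x - g x) 2 volume) atTop (𝓝 0) ∧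
      (∀ a b : ℝ, (∀ x, f x ∈ Icc a b) → a ≤ 0 → 0 ≤ b → ∀ n x, φ n x ∈ Icc a b) := by
  apply Crest.Agent.R335.H1.approx <;> assumption

/-! ### HC: chain rule (module HChain) -/

theorem WG.comp {U : Set E} (hU : IsOpen U) {f : E → ℝ} {g : E → E} (h : WG U f g)
    {F : ℝ → ℝ} (hF : ContDiff ℝ 1 F) {C : ℝ} (hC : ∀ t, |deriv F t| ≤ C) :
    WG U (fun x => F (f x)) (fun x => deriv F (f x) • g x) := by
  apply Crest.Agent.R335.WG.comp <;> assumption

theorem WG.abs {U : Set E} (hU : IsOpen U) {f : E → ℝ} {g : E → E} (h : WG U f g) :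
    WG U (fun x => |f x|) (fun x => if 0 < f x then g x else -g x) := by
  apply Crest.Agent.R335.WG.abs <;> assumption

theorem WG.zero_of_level {U : Set E} (hU : IsOpen U) {f : E → ℝ} {g : E → E} (h : WG U f g)
    (c : ℝ) : ∀ᵐ x ∂(volume.restrict U), f x = c → g x = 0 := by
  apply Crest.Agent.R335.WG.zero_of_level <;> assumption

theorem WG.pos {U : Set E} (hU : IsOpen U) {f : E → ℝ} {g : E → E} (h : WG U f g) :
    WG U (fun x => max (f x) 0) (fun x => if 0 < f x then g x else 0) := by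
  apply Crest.Agent.R335.WG.pos <;> assumption

theorem WG.max {U : Set E} (hU : IsOpen U) {f f' : E → ℝ} {g g' : E → E} (h : WG U f g)
    (h' : WG U f' g') :
    WG U (fun x => Max.max (f x) (f' x)) (fun x => if f' x < f x then g x else g' x) := by
  apply Crest.Agent.R335.WG.max <;> assumption

theorem WG.min {U : Set E} (hU : IsOpen U) {f f' : E → ℝ} {g g' : E → E} (h : WG U f g)
    (h' : WG U f' g') :
    WG U (fun x => Min.min (f x) (f' x)) (fun x => if f x < f' x then g x else g' x) := by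
  apply Crest.Agent.R335.WG.min <;> assumption

/-- composition with a function which is `C¹` near the values of `f` -/
theorem WG.comp_on {U : Set E} (hU : IsOpen U) {f : E → ℝ} {g : E → E} (h : WG U f g)
    {F F' : ℝ → ℝ} {a b : EReal} (hab : ∀ᵐ x ∂(volume.restrict U), a ≤ (f x : EReal) ∧ (f x : EReal) ≤ b)
    (hF : ∀ t : ℝ, a ≤ (t : EReal) → (t : EReal) ≤ b → HasDerivAt F (F' t) t)
    (hc : ContinuousOn F' {t : ℝ | a ≤ (t : EReal) ∧ (t : EReal) ≤ b}) {C : ℝ}
    (hC : ∀ t : ℝ, a ≤ (t : EReal) → (t : EReal) ≤ b → |F' t| ≤ C) :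
    WG U (fun x => F (f x)) (fun x => F' (f x) • g x) := by
  apply Crest.Agent.R335.WG.comp_on <;> assumption

/-! ### HP: product rule (module HProd) -/

theorem WG.mul {U : Set E} (hU : IsOpen U) {f k : E → ℝ} {g l : E → E} (h : WG U f g)
    (h' : WG U k l) (h1 : LocallyIntegrableOn (fun x => f x * k x) U volume)
    (h2 : LocallyIntegrableOn (fun x => f x • l x) U volume)
    (h3 : LocallyIntegrableOn (fun x => k x • g x) U volume) :
    WG U (fun x => f x * k x) (fun x => f x • l x + k x • g x) := by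
  apply Crest.Agent.R335.WG.mul <;> assumption

/-! ### HG: global `H¹` (module HGlob) -/

theorem H1.congr {f f' : E → ℝ} {g g' : E → E} (h : H1 f g) (hf : f =ᵐ[volume] f')
    (hg : g =ᵐ[volume] g') : H1 f' g' := by
  apply Crest.Agent.R335.H1.congr <;> assumption

theorem H1.unique {f : E → ℝ} {g g' : E → E} (h : H1 f g) (h' : H1 f g') :
    g =ᵐ[volume] g' := by
  apply Crest.Agent.R335.H1.unique <;> assumption

/-- composition with a `C¹` function of bounded derivative with `F 0 = 0` -/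
theorem H1.comp {f : E → ℝ} {g : E → E} (h : H1 f g) {F : ℝ → ℝ} (hF : ContDiff ℝ 1 F) {C : ℝ}
    (hC : ∀ t, |deriv F t| ≤ C) (h0 : F 0 = 0) :
    H1 (fun x => F (f x)) (fun x => deriv F (f x) • g x) := by
  apply Crest.Agent.R335.H1.comp <;> assumption

theorem H1.abs {f : E → ℝ} {g : E → E} (h : H1 f g) :
    H1 (fun x => |f x|) (fun x => if 0 < f x then g x else -g x) := by
  apply Crest.Agent.R335.H1.abs <;> assumption

theorem H1.pos {f : E → ℝ} {g : E → E} (h : H1 f g) :
    H1 (fun x => Max.max (f x) 0) (fun x => if 0 < f x then g x else 0) := by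
  apply Crest.Agent.R335.H1.pos <;> assumption

theorem H1.max {f f' : E → ℝ} {g g' : E → E} (h : H1 f g) (h' : H1 f' g') :
    H1 (fun x => Max.max (f x) (f' x)) (fun x => if f' x < f x then g x else g' x) := by
  apply Crest.Agent.R335.H1.max <;> assumption

theorem H1.min {f f' : E → ℝ} {g g' : E → E} (h : H1 f g) (h' : H1 f' g') :
    H1 (fun x => Min.min (f x) (f' x)) (fun x => if f x < f' x then g x else g' x) := by
  apply Crest.Agent.R335.H1.min <;> assumption

/-- positive part of `f - b`, `b ≥ 0` only locally Sobolev (the standard comparison function) -/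
theorem H1.sub_pos {f b : E → ℝ} {g l : E → E} (h : H1 f g) (hb : WG univ b l)
    (hb0 : ∀ x, 0 ≤ b x) (hl : MemLp (fun x => if b x < f x then l x else 0) 2 volume) :
    H1 (fun x => Max.max (f x - b x) 0) (fun x => if b x < f x then g x - l x else 0) := by
  apply Crest.Agent.R335.H1.sub_pos <;> assumption

/-- isometries -/
theorem H1.comp_isometry {f : E → ℝ} {g : E → E} (h : H1 f g) (L : E ≃ₗᵢ[ℝ] E) (a : E) :
    H1 (fun x => f (L x + a)) (fun x => L.symm (g (L x + a))) := by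
  apply Crest.Agent.R335.H1.comp_isometry <;> assumption

/-- the regularised and the true euclidean norm of two functions -/
theorem H1.hypot {f k : E → ℝ} {g l : E → E} (h : H1 f g) (h' : H1 k l) :
    ∃ m : E → E, H1 (fun x => √(f x ^ 2 + k x ^ 2)) m ∧
      ∀ᵐ x, √(f x ^ 2 + k x ^ 2) • m x = f x • g x + k x • l x ∧
        ‖m x‖ ^ 2 ≤ ‖g x‖ ^ 2 + ‖l x‖ ^ 2 := by
  apply Crest.Agent.R335.H1.hypot <;> assumption

theorem H1.add {f f' : E → ℝ} {g g' : E → E} (h : H1 f g) (h' : H1 f' g') :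
    H1 (fun x => f x + f' x) (fun x => g x + g' x) := by
  apply Crest.Agent.R335.H1.add <;> assumption

theorem H1.sub {f f' : E → ℝ} {g g' : E → E} (h : H1 f g) (h' : H1 f' g') :
    H1 (fun x => f x - f' x) (fun x => g x - g' x) := by
  apply Crest.Agent.R335.H1.sub <;> assumption

theorem H1.const_mul {f : E → ℝ} {g : E → E} (h : H1 f g) (c : ℝ) :
    H1 (fun x => c * f x) (fun x => c • g x) := by
  apply Crest.Agent.R335.H1.const_mul <;> assumption

theorem H1.of_test {U : Set E} {φ : E → ℝ} (h : Test U φ) : H1 φ (gr φ) := by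
  apply Crest.Agent.R335.H1.of_test <;> assumption

/-- `L²` closedness of `H¹` -/
theorem H1.of_tendsto {f : E → ℝ} {g : E → E} {fn : ℕ → E → ℝ} {gn : ℕ → E → E}
    (h : ∀ n, H1 (fn n) (gn n)) (hf : MemLp f 2 volume) (hg : MemLp g 2 volume)
    (hfn : Tendsto (fun n => eLpNorm (fun x => fn n x - f x) 2 volume) atTop (𝓝 0))
    (hgn : Tendsto (fun n => eLpNorm (fun x => gn n x - g x) 2 volume) atTop (𝓝 0)) :
    H1 f g := by
  apply Crest.Agent.R335.H1.of_tendsto <;> assumption

/-- weak closedness: an `L²` limit of an `H¹`-bounded sequence is in `H¹` -/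
theorem H1.of_bounded {f : E → ℝ} {fn : ℕ → E → ℝ} {gn : ℕ → E → E}
    (h : ∀ n, H1 (fn n) (gn n)) (hf : MemLp f 2 volume) {C : ℝ}
    (hfn : Tendsto (fun n => eLpNorm (fun x => fn n x - f x) 2 volume) atTop (𝓝 0))
    (hC : ∀ n, ∫ x, ‖gn n x‖ ^ 2 ≤ C) : ∃ g, H1 f g ∧ ∫ x, ‖g x‖ ^ 2 ≤ C := by
  apply Crest.Agent.R335.H1.of_bounded <;> assumption

/-- product with a bounded function with bounded weak gradient -/
theorem H1.mul_bdd {f k : E → ℝ} {g l : E → E} (h : H1 f g) (h' : WG univ k l)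
    {C : ℝ} (hk : ∀ x, |k x| ≤ C) (hl : ∀ x, ‖l x‖ ≤ C) :
    H1 (fun x => k x * f x) (fun x => k x • g x + f x • l x) := by
  apply Crest.Agent.R335.H1.mul_bdd <;> assumption

/-- product of two `H¹ ∩ L^∞` functions -/
theorem H1.mul {f k : E → ℝ} {g l : E → E} (h : H1 f g) (h' : H1 k l)
    {C : ℝ} (hf : ∀ x, |f x| ≤ C) (hk : ∀ x, |k x| ≤ C) :
    H1 (fun x => k x * f x) (fun x => k x • g x + f x • l x) := by
  apply Crest.Agent.R335.H1.mul <;> assumption

/-- integration by parts for two `H¹` functions -/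
theorem H1.ibp {f k : E → ℝ} {g l : E → E} (h : H1 f g) (h' : H1 k l) (i : ι) :
    ∫ x, f x * l x i = - ∫ x, g x i * k x := by
  apply Crest.Agent.R335.H1.ibp <;> assumption

/-- IMS localisation identity -/
theorem H1.ims {f k : E → ℝ} {g l : E → E} (h : H1 f g) (h' : WG univ k l)
    {C : ℝ} (hk : ∀ x, |k x| ≤ C) (hl : ∀ x, ‖l x‖ ≤ C) :
    ∫ x, ‖k x • g x + f x • l x‖ ^ 2 =
      (∫ x, inner ℝ (g x) ((k x) ^ 2 • g x + (2 * k x * f x) • l x)) + ∫ x, f x ^ 2 * ‖l x‖ ^ 2 := by
  apply Crest.Agent.R335.H1.ims <;> assumption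

end Crest.Agent.R335.I
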