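import Crest.Agent.R335.HKato

/-!
Row 335 (S0521): Sobolev library.  Allegretto–Piepenbrink (module HAP).
-/

set_option autoImplicit false
set_option linter.unusedSectionVars false

open MeasureTheory Filter Set
open scoped ENNReal Topology ContDiff

noncomputable section
namespace Crest.Agent.R335

variable {ι : Type*} [Fintype ι] [DecidableEq ι]

local notation "E" => EuclideanSpace ℝ ι

/-- the test function `φ² / s` and the Picone identity -/
theorem picone_core {U : Set E} (hU : IsOpen U) {s : E → ℝ} {ds : E → E} (hs : WG U s ds)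
    (hds : L2locV U ds)
    (hb : ∀ K, IsCompact K → K ⊆ U → ∃ c C : ℝ, 0 < c ∧ ∀ᵐ x ∂(volume.restrict K),
      c ≤ s x ∧ s x ≤ C)
    {φ : E → ℝ} (hφ : Test U φ) :
    ∃ (w : E → ℝ) (l : E → E) (b : ℝ), H1 w l ∧ SuppIn (tsupport φ) w ∧
      (∀ x, w x ∈ Icc 0 b) ∧ (∀ᵐ x, s x * w x = φ x ^ 2) ∧
      Integrable (fun x => inner ℝ (ds x) (l x)) volume ∧
      ∀ᵐ x, s x ^ 2 * ‖(s x)⁻¹ • gr φ x - (φ x * (s x)⁻¹ ^ 2) • ds x‖ ^ 2 =
        ‖gr φ x‖ ^ 2 - inner ℝ (ds x) (l x) := by
  have hK : IsCompact (tsupport φ) := hφ.cpt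
  obtain ⟨L, hL, hKL, hLU⟩ := exists_compact_between hK hU hφ.sub
  obtain ⟨c, C, hc, hcC⟩ := hb L hL hLU
  obtain ⟨B, hB0, hB1, hB2⟩ := exists_bound_gr hφ
  have hV : IsOpen (interior L) := isOpen_interior
  have hVL : (volume : Measure E).restrict (interior L) ≤ volume.restrict L :=
    Measure.restrict_mono interior_subset le_rfl
  have hKLr : (volume : Measure E).restrict (tsupport φ) ≤ volume.restrict (interior L) :=
    Measure.restrict_mono hKL le_rfl
  have hsV : WG (interior L) s ds := WG.mono hs (interior_subset.trans hLU)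
  have hcV : ∀ᵐ x ∂(volume.restrict (interior L)), c ≤ s x := by
    filter_upwards [ae_mono hVL hcC] with x hx using hx.1
  have hcK : ∀ᵐ x ∂(volume.restrict (tsupport φ)), c ≤ s x := ae_mono hKLr hcV
  have hinv : WG (interior L) (fun x => (s x)⁻¹) (fun x => (-(s x ^ 2)⁻¹) • ds x) := by
    refine WG.comp_on hV hsV (F := fun t => t⁻¹) (F' := fun t => -(t ^ 2)⁻¹) (a := (c : EReal))
      (b := ⊤) ?_ ?_ ?_ (C := (c ^ 2)⁻¹) ?_
    · filter_upwards [hcV] with x hx
      exact ⟨EReal.coe_le_coe_iff.2 hx, le_top⟩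
    · intro t ht _
      have ht' : c ≤ t := EReal.coe_le_coe_iff.1 ht
      have ht0 : t ≠ 0 := (lt_of_lt_of_le hc ht').ne'
      exact hasDerivAt_inv ht0
    · intro t ht
      have ht' : c ≤ t := EReal.coe_le_coe_iff.1 ht.1
      have ht0 : t ≠ 0 := (lt_of_lt_of_le hc ht').ne'
      have : ContinuousAt (fun t : ℝ => -(t ^ 2)⁻¹) t :=
        ((continuousAt_id.pow 2).inv₀ (pow_ne_zero 2 ht0)).neg
      exact this.continuousWithinAt
    · intro t ht _
      have ht' : c ≤ t := EReal.coe_le_coe_iff.1 ht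
      have ht0 : 0 < t := lt_of_lt_of_le hc ht'
      rw [abs_neg, abs_of_nonneg (by positivity)]
      gcongr
  have h1 := WG.mul_smooth hV hinv hφ.smooth
  have h2 := WG.mul_smooth hV h1 hφ.smooth
  have hfin : IsFiniteMeasure ((volume : Measure E).restrict (tsupport φ)) :=
    ⟨by simpa using hK.measure_lt_top⟩
  set w0 : E → ℝ := fun x => φ x * (φ x * (s x)⁻¹) with hw0
  set l0 : E → E := fun x => φ x • (φ x • (-(s x ^ 2)⁻¹) • ds x + (s x)⁻¹ • gr φ x) +
    (φ x * (s x)⁻¹) • gr φ x with hl0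
  have zw : ∀ x, x ∉ tsupport φ → w0 x = 0 := fun x hx => by
    simp only [hw0, image_eq_zero_of_notMem_tsupport hx, zero_mul]
  have zl : ∀ x, x ∉ tsupport φ → l0 x = 0 := fun x hx => by
    simp only [hl0, image_eq_zero_of_notMem_tsupport hx, gr_eq_zero_of_notMem hx, zero_smul,
      smul_zero, add_zero]
  have hinvb : ∀ᵐ x ∂(volume.restrict (tsupport φ)), |(s x)⁻¹| ≤ c⁻¹ := by
    filter_upwards [hcK] with x hx
    have h0 : 0 < s x := lt_of_lt_of_le hc hx
    rw [abs_of_pos (by positivity)]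
    gcongr
  have hH0 : H1 w0 l0 := by
    refine H1.of_WG_supp hV h2 hK hKL zw zl ?_ ?_
    · refine MemLp.of_bound ((HC.aesm h2).mono_measure hKLr) (B * (B * c⁻¹)) ?_
      filter_upwards [hinvb] with x hx
      rw [norm_mul, norm_mul]
      exact mul_le_mul (hB1 x) (mul_le_mul (hB1 x) hx (abs_nonneg _) hB0) (by positivity) hB0
    · have m1 : MemLp (fun x => φ x • (φ x • (-(s x ^ 2)⁻¹) • ds x)) 2
          (volume.restrict (tsupport φ)) := by
        refine (hds _ hK hφ.sub).of_le_mul (c := B * (B * (c⁻¹ ^ 2))) ?_ ?_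
        · exact hφ.smooth.continuous.aestronglyMeasurable.smul
            (hφ.smooth.continuous.aestronglyMeasurable.smul ((HC.aesmg hinv).mono_measure hKLr))
        · filter_upwards [hinvb] with x hx
          have h3 : ‖-(s x ^ 2)⁻¹‖ ≤ c⁻¹ ^ 2 := by
            rw [norm_neg, norm_inv, norm_pow, ← inv_pow, ← norm_inv]
            exact pow_le_pow_left₀ (norm_nonneg _) hx 2
          rw [norm_smul, norm_smul, norm_smul, ← mul_assoc, ← mul_assoc]
          refine mul_le_mul_of_nonneg_right ?_ (norm_nonneg _)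
          rw [mul_assoc]
          exact mul_le_mul (hB1 x) (mul_le_mul (hB1 x) h3 (norm_nonneg _) hB0) (by positivity) hB0
      have m2 : MemLp (fun x => φ x • ((s x)⁻¹ • gr φ x)) 2 (volume.restrict (tsupport φ)) := by
        refine MemLp.of_bound ?_ (B * (c⁻¹ * B)) ?_
        · exact hφ.smooth.continuous.aestronglyMeasurable.smul
            (((HC.aesm hinv).mono_measure hKLr).smul
              (contDiff_gr hφ.smooth).continuous.aestronglyMeasurable)
        · filter_upwards [hinvb] with x hx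
          rw [norm_smul, norm_smul]
          exact mul_le_mul (hB1 x) (mul_le_mul hx (hB2 x) (norm_nonneg _) (by positivity))
            (by positivity) hB0
      have m3 : MemLp (fun x => (φ x * (s x)⁻¹) • gr φ x) 2 (volume.restrict (tsupport φ)) := by
        refine MemLp.of_bound ?_ (B * c⁻¹ * B) ?_
        · exact (hφ.smooth.continuous.aestronglyMeasurable.mul
            ((HC.aesm hinv).mono_measure hKLr)).smul
              (contDiff_gr hφ.smooth).continuous.aestronglyMeasurable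
        · filter_upwards [hinvb] with x hx
          rw [norm_smul, norm_mul]
          exact mul_le_mul (mul_le_mul (hB1 x) hx (abs_nonneg _) hB0) (hB2 x) (norm_nonneg _)
            (by positivity)
      have m4 := (m1.add m2).add m3
      refine m4.ae_eq (Eventually.of_forall fun x => ?_)
      simp only [hl0, Pi.add_apply, smul_add]
  -- a version bounded everywhere
  have hcK' : ∀ᵐ x, x ∈ tsupport φ → c ≤ s x := (ae_restrict_iff' hK.measurableSet).1 hcK
  set r : E → ℝ := fun x => if c ≤ s x then (s x)⁻¹ else c⁻¹ with hr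
  have hr0 : ∀ x, 0 ≤ r x ∧ r x ≤ c⁻¹ := by
    intro x
    simp only [hr]
    split_ifs with h
    · have h0 : 0 < s x := lt_of_lt_of_le hc h
      refine ⟨by positivity, ?_⟩
      gcongr
    · exact ⟨by positivity, le_rfl⟩
  have hww : w0 =ᵐ[volume] fun x => φ x * (φ x * r x) := by
    filter_upwards [hcK'] with x hx
    by_cases hxK : x ∈ tsupport φ
    · simp only [hw0, hr, if_pos (hx hxK)]
    · simp only [hw0, image_eq_zero_of_notMem_tsupport hxK, zero_mul]
  refine ⟨fun x => φ x * (φ x * r x), l0, B * (B * c⁻¹), H1.congr hH0 hww (ae_eq_refl _), ?_, ?_,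
    ?_, ?_, ?_⟩
  · intro x hx
    simp only [image_eq_zero_of_notMem_tsupport hx, zero_mul]
  · intro x
    obtain ⟨h3, h4⟩ := hr0 x
    have h5 : φ x * (φ x * r x) = |φ x| * (|φ x| * r x) := by
      rw [← mul_assoc, ← mul_assoc, abs_mul_abs_self]
    simp only [h5]
    exact ⟨by positivity, mul_le_mul (hB1 x) (mul_le_mul (hB1 x) h4 h3 hB0) (by positivity) hB0⟩
  · filter_upwards [hcK'] with x hx
    by_cases hxK : x ∈ tsupport φ
    · have h0 : s x ≠ 0 := (lt_of_lt_of_le hc (hx hxK)).ne'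
      simp only [hr, if_pos (hx hxK)]
      field_simp
    · simp only [image_eq_zero_of_notMem_tsupport hxK, zero_mul, mul_zero]
      norm_num
  · exact integrable_inner_supp hds hK hφ.sub hH0.memg zl
  · filter_upwards [hcK'] with x hx
    by_cases hxK : x ∈ tsupport φ
    · have h0 : s x ≠ 0 := (lt_of_lt_of_le hc (hx hxK)).ne'
      simp only [hl0, inner_add_right, real_inner_smul_right, inner_add_right,
        real_inner_self_eq_norm_sq]
      rw [norm_sub_sq_real, norm_smul, norm_smul, real_inner_smul_left, real_inner_smul_right,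
        mul_pow, mul_pow, Real.norm_eq_abs, Real.norm_eq_abs, sq_abs, sq_abs,
        real_inner_comm (gr φ x) (ds x)]
      field_simp
      ring
    · rw [gr_eq_zero_of_notMem hxK, image_eq_zero_of_notMem_tsupport hxK, zl x hxK]
      simp

theorem locallyIntegrableOn_mul_bdd {U : Set E} (hU : IsOpen U) {s V : E → ℝ}
    (hs : AEStronglyMeasurable s (volume.restrict U))
    (hb : ∀ K, IsCompact K → K ⊆ U → ∃ c C : ℝ, 0 < c ∧ ∀ᵐ x ∂(volume.restrict K),
      c ≤ s x ∧ s x ≤ C)
    (hV : LocallyIntegrableOn V U volume) : LocallyIntegrableOn (fun x => V x * s x) U volume := by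
  rw [locallyIntegrableOn_iff hU.isLocallyClosed]
  intro K hKU hK
  obtain ⟨c, C, hc, hcC⟩ := hb K hK hKU
  have h1 : IntegrableOn V K volume := hV.integrableOn_compact_subset hKU hK
  refine (h1.norm.mul_const C).mono' (h1.aestronglyMeasurable.mul
    (hs.mono_measure (Measure.restrict_mono hKU le_rfl))) ?_
  filter_upwards [hcC] with x hx
  rw [norm_mul]
  refine mul_le_mul_of_nonneg_left ?_ (norm_nonneg _)
  rw [Real.norm_eq_abs, abs_of_pos (lt_of_lt_of_le hc hx.1)]
  exact hx.2

theorem integrable_gr_sq {U : Set E} {φ : E → ℝ} (hφ : Test U φ) :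
    Integrable (fun x => ‖gr φ x‖ ^ 2) volume := by
  have h := (H1.of_test hφ).memg
  exact h.norm.integrable_sq

/-- a positive supersolution `s` of `-Δ + V` on `U` gives `-Δ + V ≥ 0`, with remainder -/
theorem allegretto {U : Set E} (hU : IsOpen U) {s V : E → ℝ} {ds : E → E} (hs : WG U s ds)
    (hds : L2locV U ds)
    (hb : ∀ K, IsCompact K → K ⊆ U → ∃ c C : ℝ, 0 < c ∧ ∀ᵐ x ∂(volume.restrict K),
      c ≤ s x ∧ s x ≤ C)
    (hV : LocallyIntegrableOn V U volume)
    (hsup : ∀ φ : E → ℝ, Test U φ → (∀ x, 0 ≤ φ x) →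
      0 ≤ (∫ x, inner ℝ (ds x) (gr φ x)) + ∫ x, V x * s x * φ x)
    {φ : E → ℝ} (hφ : Test U φ) :
    ∫ x, s x ^ 2 * ‖(s x)⁻¹ • gr φ x - (φ x * (s x)⁻¹ ^ 2) • ds x‖ ^ 2 ≤
      (∫ x, ‖gr φ x‖ ^ 2) + ∫ x, V x * φ x ^ 2 := by
  obtain ⟨w, l, b, hw, hsupp, hwb, hsw, hint, hid⟩ := picone_core hU hs hds hb hφ
  have h1 := test_ineq_bdd hU (G := fun x => -ds x) (fun K hK hKU => (hds K hK hKU).neg)
    (q := fun x => -(V x * s x)) (locallyIntegrableOn_mul_bdd hU (HC.aesm hs) hb hV).neg (c := 1)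
    (fun ψ hψ hψ0 => by
      have h2 := hsup ψ hψ hψ0
      simp only [inner_neg_left, integral_neg, neg_mul]
      linarith) hw hφ.cpt hφ.sub hsupp hwb
  simp only [inner_neg_left, integral_neg, neg_mul] at h1
  have e1 : ∫ x, V x * s x * w x = ∫ x, V x * φ x ^ 2 := by
    refine integral_congr_ae ?_
    filter_upwards [hsw] with x hx
    rw [mul_assoc, hx]
  rw [integral_congr_ae hid, integral_sub (integrable_gr_sq hφ) hint]
  rw [e1] at h1
  linarith

/-- for a positive solution there is equality -/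
theorem allegretto_eq {U : Set E} (hU : IsOpen U) {s V : E → ℝ} {ds : E → E} (hs : WG U s ds)
    (hds : L2locV U ds)
    (hb : ∀ K, IsCompact K → K ⊆ U → ∃ c C : ℝ, 0 < c ∧ ∀ᵐ x ∂(volume.restrict K),
      c ≤ s x ∧ s x ≤ C)
    (hV : LocallyIntegrableOn V U volume)
    (hsup : ∀ φ : E → ℝ, Test U φ →
      (∫ x, inner ℝ (ds x) (gr φ x)) + ∫ x, V x * s x * φ x = 0)
    {φ : E → ℝ} (hφ : Test U φ) :
    ∫ x, s x ^ 2 * ‖(s x)⁻¹ • gr φ x - (φ x * (s x)⁻¹ ^ 2) • ds x‖ ^ 2 =
      (∫ x, ‖gr φ x‖ ^ 2) + ∫ x, V x * φ x ^ 2 := by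
  obtain ⟨w, l, b, hw, hsupp, hwb, hsw, hint, hid⟩ := picone_core hU hs hds hb hφ
  have h1 := test_eq_bdd hU (G := ds) hds
    (q := fun x => V x * s x) (locallyIntegrableOn_mul_bdd hU (HC.aesm hs) hb hV) (c := 1)
    (fun ψ hψ => by
      have h2 := hsup ψ hψ
      linarith) hw hφ.cpt hφ.sub hsupp (b := b)
      (fun x => abs_le.2 ⟨by linarith [(hwb x).1, (hwb x).2], (hwb x).2⟩)
  have e1 : ∫ x, V x * s x * w x = ∫ x, V x * φ x ^ 2 := by
    refine integral_congr_ae ?_
    filter_upwards [hsw] with x hx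
    rw [mul_assoc, hx]
  rw [integral_congr_ae hid, integral_sub (integrable_gr_sq hφ) hint]
  rw [e1] at h1
  linarith

end Crest.Agent.R335
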