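import Crest.Agent.R335.HTest

/-!
Row 335 (S0521): Sobolev library.  Scalar Kato inequality (module HKato).
-/

set_option autoImplicit false
set_option linter.unusedSectionVars false

open MeasureTheory Filter Set
open scoped ENNReal Topology ContDiff

noncomputable section
namespace Crest.Agent.R335

variable {ι : Type*} [Fintype ι] [DecidableEq ι]

local notation "E" => EuclideanSpace ℝ ι

/-! ### smooth monotone approximations of the Heaviside function -/

/-- smooth monotone approximations of the indicator of `(0, ∞)` -/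
def stp (n : ℕ) (t : ℝ) : ℝ := Real.smoothTransition (((n : ℝ) + 1) * t)

theorem stp_contDiff (n : ℕ) : ContDiff ℝ 1 (stp n) := by
  unfold stp
  exact (Real.smoothTransition.contDiff (n := 1)).comp (contDiff_const.mul contDiff_id)

theorem stp_nonneg (n : ℕ) (t : ℝ) : 0 ≤ stp n t := Real.smoothTransition.nonneg _

theorem stp_le_one (n : ℕ) (t : ℝ) : stp n t ≤ 1 := Real.smoothTransition.le_one _

theorem stp_mono (n : ℕ) : Monotone (stp n) := by
  intro a b hab
  exact Real.smoothTransition.monotone (mul_le_mul_of_nonneg_left hab (by positivity))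

theorem stp_deriv_nonneg (n : ℕ) (t : ℝ) : 0 ≤ deriv (stp n) t := (stp_mono n).deriv_nonneg

theorem stp_deriv_bound (n : ℕ) : ∃ C, ∀ t, |deriv (stp n) t| ≤ C := by
  have hc : Continuous (deriv (stp n)) := (stp_contDiff n).continuous_deriv le_rfl
  have hcs : HasCompactSupport (deriv (stp n)) := by
    refine HasCompactSupport.of_support_subset_isCompact (isCompact_Icc (a := (0 : ℝ)) (b := 1)) ?_
    intro t ht
    by_contra hcon
    apply ht
    rw [mem_Icc, not_and_or, not_le, not_le] at hcon
    rcases hcon with h | h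
    · have : stp n =ᶠ[𝓝 t] fun _ => (0 : ℝ) := by
        filter_upwards [Iio_mem_nhds h] with y hy
        refine Real.smoothTransition.zero_of_nonpos ?_
        exact mul_nonpos_of_nonneg_of_nonpos (by positivity) (le_of_lt hy)
      rw [this.deriv_eq, deriv_const]
    · have : stp n =ᶠ[𝓝 t] fun _ => (1 : ℝ) := by
        filter_upwards [Ioi_mem_nhds h] with y hy
        refine Real.smoothTransition.one_of_one_le ?_
        have h1 : (1 : ℝ) < y := hy
        have h2 : (0 : ℝ) ≤ n := Nat.cast_nonneg n
        nlinarith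
      rw [this.deriv_eq, deriv_const]
  obtain ⟨C, hC⟩ := hcs.exists_bound_of_continuous hc
  exact ⟨C, hC⟩

theorem stp_tendsto (t : ℝ) :
    Tendsto (fun n => stp n t) atTop (𝓝 (if 0 < t then 1 else 0)) := by
  split_ifs with h
  · refine tendsto_const_nhds.congr' ?_
    obtain ⟨N, hN⟩ := exists_nat_gt (1 / t)
    filter_upwards [eventually_ge_atTop N] with n hn
    refine (Real.smoothTransition.one_of_one_le ?_).symm
    have h1 : (N : ℝ) ≤ n := by exact_mod_cast hn
    rw [div_lt_iff₀ h] at hN
    nlinarith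
  · refine tendsto_const_nhds.congr fun n => ?_
    refine (Real.smoothTransition.zero_of_nonpos ?_).symm
    exact mul_nonpos_of_nonneg_of_nonpos (by positivity) (not_lt.1 h)

/-! ### products of test functions and bounded functions of a Sobolev function -/

theorem exists_bound_gr {U : Set E} {φ : E → ℝ} (h : Test U φ) :
    ∃ M, 0 ≤ M ∧ (∀ x, |φ x| ≤ M) ∧ ∀ x, ‖gr φ x‖ ≤ M := by
  obtain ⟨M1, h1⟩ := h.cpt.exists_bound_of_continuous h.smooth.continuous
  obtain ⟨M2, h2⟩ := (hasCompactSupport_gr h.cpt).exists_bound_of_continuous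
    (contDiff_gr h.smooth).continuous
  exact ⟨max M1 M2, (norm_nonneg _).trans ((h1 0).trans (le_max_left _ _)),
    fun x => (h1 x).trans (le_max_left _ _), fun x => (h2 x).trans (le_max_right _ _)⟩

theorem gr_eq_zero_of_notMem {φ : E → ℝ} {x : E} (hx : x ∉ tsupport φ) : gr φ x = 0 :=
  gr_eq_zero_of_suppIn (isClosed_tsupport φ) (fun _ hy => image_eq_zero_of_notMem_tsupport hy) hx

theorem H1.test_mul_comp {U : Set E} (hU : IsOpen U) {f : E → ℝ} {g : E → E} (h : WG U f g)
    (hg : L2locV U g) {F : ℝ → ℝ} (hF : ContDiff ℝ 1 F) {C : ℝ} (hC : ∀ t, |deriv F t| ≤ C)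
    {M : ℝ} (hM : ∀ t, |F t| ≤ M) {φ : E → ℝ} (hφ : Test U φ) :
    H1 (fun x => φ x * F (f x)) (fun x => φ x • (deriv F (f x) • g x) + F (f x) • gr φ x) := by
  have h1 : WG U (fun x => F (f x)) (fun x => deriv F (f x) • g x) := WG.comp hU h hF hC
  have h2 := WG.mul_smooth hU h1 hφ.smooth
  obtain ⟨B, hB0, hB1, hB2⟩ := exists_bound_gr hφ
  have hK : IsCompact (tsupport φ) := hφ.cpt
  have hM0 : 0 ≤ M := (abs_nonneg _).trans (hM 0)
  have hC0 : 0 ≤ C := (abs_nonneg _).trans (hC 0)
  have hle : (volume : Measure E).restrict (tsupport φ) ≤ volume.restrict U :=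
    Measure.restrict_mono hφ.sub le_rfl
  have : IsFiniteMeasure ((volume : Measure E).restrict (tsupport φ)) :=
    ⟨by simpa using hK.measure_lt_top⟩
  refine H1.of_WG_supp hU h2 hK hφ.sub ?_ ?_ ?_ ?_
  · intro x hx
    rw [image_eq_zero_of_notMem_tsupport hx, zero_mul]
  · intro x hx
    rw [image_eq_zero_of_notMem_tsupport hx, gr_eq_zero_of_notMem hx, zero_smul, smul_zero,
      add_zero]
  · refine MemLp.of_bound ((HC.aesm h2).mono_measure hle) (B * M) (Eventually.of_forall fun x => ?_)
    rw [norm_mul]
    exact mul_le_mul (hB1 x) (hM _) (norm_nonneg _) hB0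
  · refine MemLp.add ?_ ?_
    · refine (hg _ hK hφ.sub).of_le_mul (c := B * C) ?_ (Eventually.of_forall fun x => ?_)
      · exact hφ.smooth.continuous.aestronglyMeasurable.smul ((HC.aesmg h1).mono_measure hle)
      · rw [norm_smul, norm_smul, ← mul_assoc]
        exact mul_le_mul_of_nonneg_right (mul_le_mul (hB1 x) (hC _) (norm_nonneg _) hB0)
          (norm_nonneg _)
    · refine MemLp.of_bound ?_ (M * B) (Eventually.of_forall fun x => ?_)
      · exact ((HC.aesm h1).mono_measure hle).smul
          (contDiff_gr hφ.smooth).continuous.aestronglyMeasurable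
      · rw [norm_smul]
        exact mul_le_mul (hM _) (hB2 x) (norm_nonneg _) hM0

/-- the pairing of an `L²_loc` field with an `L²` field supported in a compact subset -/
theorem integrable_inner_supp {U : Set E} {G : E → E} (hG : L2locV U G) {K : Set E}
    (hK : IsCompact K) (hKU : K ⊆ U) {l : E → E} (hl : MemLp l 2 volume)
    (h0 : ∀ x, x ∉ K → l x = 0) : Integrable (fun x => inner ℝ (G x) (l x)) volume := by
  have hGK : MemLp (K.indicator G) 2 volume :=
    (memLp_indicator_iff_restrict hK.measurableSet).2 (hG K hK hKU)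
  have h1 := L2.integrable_inner (𝕜 := ℝ) (hGK.toLp _) (hl.toLp _)
  refine h1.congr ?_
  filter_upwards [hGK.coeFn_toLp, hl.coeFn_toLp] with x hx1 hx2
  rw [hx1, hx2]
  by_cases hx : x ∈ K
  · rw [indicator_of_mem hx]
  · rw [h0 x hx, inner_zero_right, inner_zero_right]

/-- the maximum of two subsolutions is a subsolution, `-½Δ f + q ≤ 0` -/
theorem kato_max {U : Set E} (hU : IsOpen U) {f f' q q' : E → ℝ} {g g' : E → E} (h : WG U f g)
    (h' : WG U f' g') (hg : L2locV U g) (hg' : L2locV U g')
    (hq : LocallyIntegrableOn q U volume) (hq' : LocallyIntegrableOn q' U volume)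
    (hs : ∀ φ : E → ℝ, Test U φ → (∀ x, 0 ≤ φ x) →
      (1 / 2) * (∫ x, inner ℝ (g x) (gr φ x)) + ∫ x, q x * φ x ≤ 0)
    (hs' : ∀ φ : E → ℝ, Test U φ → (∀ x, 0 ≤ φ x) →
      (1 / 2) * (∫ x, inner ℝ (g' x) (gr φ x)) + ∫ x, q' x * φ x ≤ 0)
    {φ : E → ℝ} (hφ : Test U φ) (hφ0 : ∀ x, 0 ≤ φ x) :
    (1 / 2) * (∫ x, inner ℝ (if f' x < f x then g x else g' x) (gr φ x)) +
      ∫ x, (if f' x < f x then q x else q' x) * φ x ≤ 0 := by
  have hd : WG U (fun x => f x - f' x) (fun x => g x - g' x) := WG.sub h h' hU
  have hdg : L2locV U (fun x => g x - g' x) := fun K hK hKU => (hg K hK hKU).sub (hg' K hK hKU)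
  obtain ⟨B, hB0, hB1, hB2⟩ := exists_bound_gr hφ
  have hK : IsCompact (tsupport φ) := hφ.cpt
  have hKm : MeasurableSet (tsupport φ) := hK.measurableSet
  have hle : (volume : Measure E).restrict (tsupport φ) ≤ volume.restrict U :=
    Measure.restrict_mono hφ.sub le_rfl
  have hfin : IsFiniteMeasure ((volume : Measure E).restrict (tsupport φ)) :=
    ⟨by simpa using hK.measure_lt_top⟩
  have hgK := hg _ hK hφ.sub
  have hgK' := hg' _ hK hφ.sub
  have hgi : Integrable g (volume.restrict (tsupport φ)) := hgK.integrable (by norm_num)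
  have hgi' : Integrable g' (volume.restrict (tsupport φ)) := hgK'.integrable (by norm_num)
  have hqi : IntegrableOn q (tsupport φ) volume := hq.integrableOn_compact_subset hφ.sub hK
  have hqi' : IntegrableOn q' (tsupport φ) volume := hq'.integrableOn_compact_subset hφ.sub hK
  have hdm : AEStronglyMeasurable (fun x => f x - f' x) (volume.restrict (tsupport φ)) :=
    (HC.aesm hd).mono_measure hle
  have hθm : ∀ n, AEStronglyMeasurable (fun x => stp n (f x - f' x))
      (volume.restrict (tsupport φ)) := fun n =>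
    (stp_contDiff n).continuous.comp_aestronglyMeasurable hdm
  have hgrm : AEStronglyMeasurable (gr φ) (volume.restrict (tsupport φ)) :=
    (contDiff_gr hφ.smooth).continuous.aestronglyMeasurable
  have hφm : AEStronglyMeasurable φ (volume.restrict (tsupport φ)) :=
    hφ.smooth.continuous.aestronglyMeasurable
  have hst : ∀ n x, 0 ≤ stp n (f x - f' x) ∧ stp n (f x - f' x) ≤ 1 := fun n x =>
    ⟨stp_nonneg _ _, stp_le_one _ _⟩
  -- the interpolated quantities
  set A : ℕ → E → ℝ := fun n x => inner ℝ (stp n (f x - f' x) • g x +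
    (1 - stp n (f x - f' x)) • g' x) (gr φ x) with hA
  set Q : ℕ → E → ℝ := fun n x => (stp n (f x - f' x) * q x +
    (1 - stp n (f x - f' x)) * q' x) * φ x with hQ
  have hnorm : ∀ n x, ‖stp n (f x - f' x) • g x + (1 - stp n (f x - f' x)) • g' x‖ ≤
      ‖g x‖ + ‖g' x‖ := by
    intro n x
    obtain ⟨h1, h2⟩ := hst n x
    refine (norm_add_le _ _).trans ?_
    rw [norm_smul, norm_smul, Real.norm_of_nonneg h1, Real.norm_of_nonneg (by linarith)]
    have := norm_nonneg (g x)
    have := norm_nonneg (g' x)
    nlinarith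
  have hAb : ∀ n x, ‖A n x‖ ≤ (‖g x‖ + ‖g' x‖) * B := by
    intro n x
    refine (norm_inner_le_norm _ _).trans ?_
    exact mul_le_mul (hnorm n x) (hB2 x) (norm_nonneg _) (by positivity)
  have hQb : ∀ n x, ‖Q n x‖ ≤ (‖q x‖ + ‖q' x‖) * B := by
    intro n x
    obtain ⟨h1, h2⟩ := hst n x
    rw [hQ, norm_mul]
    refine mul_le_mul ?_ (hB1 x) (norm_nonneg _) (by positivity)
    refine (norm_add_le _ _).trans ?_
    have h3 : ‖1 - stp n (f x - f' x)‖ = 1 - stp n (f x - f' x) :=
      Real.norm_of_nonneg (by linarith)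
    have h4 : ‖stp n (f x - f' x)‖ = stp n (f x - f' x) := Real.norm_of_nonneg h1
    rw [norm_mul, norm_mul, h3, h4]
    have := norm_nonneg (q x)
    have := norm_nonneg (q' x)
    nlinarith
  have hAm : ∀ n, AEStronglyMeasurable (A n) (volume.restrict (tsupport φ)) := fun n =>
    (((hθm n).smul hgi.aestronglyMeasurable).add
      ((aestronglyMeasurable_const.sub (hθm n)).smul hgi'.aestronglyMeasurable)).inner hgrm
  have hQm : ∀ n, AEStronglyMeasurable (Q n) (volume.restrict (tsupport φ)) := fun n =>
    (((hθm n).mul hqi.aestronglyMeasurable).add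
      ((aestronglyMeasurable_const.sub (hθm n)).mul hqi'.aestronglyMeasurable)).mul hφm
  have hAi : Integrable (fun x => (‖g x‖ + ‖g' x‖) * B) (volume.restrict (tsupport φ)) :=
    (hgi.norm.add hgi'.norm).mul_const _
  have hQi : Integrable (fun x => (‖q x‖ + ‖q' x‖) * B) (volume.restrict (tsupport φ)) :=
    (hqi.norm.add hqi'.norm).mul_const _
  have hA0 : ∀ n x, x ∉ tsupport φ → A n x = 0 := by
    intro n x hx
    simp only [hA, gr_eq_zero_of_notMem hx, inner_zero_right]
  have hQ0 : ∀ n x, x ∉ tsupport φ → Q n x = 0 := by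
    intro n x hx
    simp only [hQ, image_eq_zero_of_notMem_tsupport hx, mul_zero]
  have hAint : ∀ n, Integrable (A n) volume := by
    intro n
    rw [← integrableOn_iff_integrable_of_support_subset (s := tsupport φ)]
    · exact hAi.mono' (hAm n) (Eventually.of_forall (hAb n))
    · intro x hx
      by_contra hcon
      exact hx (hA0 n x hcon)
  -- limits
  have hlim : ∀ x, Tendsto (fun n => stp n (f x - f' x)) atTop
      (𝓝 (if f' x < f x then 1 else 0)) := by
    intro x
    have := stp_tendsto (f x - f' x)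
    simpa only [sub_pos] using this
  have tA : Tendsto (fun n => ∫ x, A n x) atTop
      (𝓝 (∫ x, inner ℝ (if f' x < f x then g x else g' x) (gr φ x))) := by
    have e1 : ∀ n, ∫ x, A n x = ∫ x in tsupport φ, A n x := fun n =>
      (setIntegral_eq_integral_of_forall_compl_eq_zero (hA0 n)).symm
    have e2 : ∫ x, inner ℝ (if f' x < f x then g x else g' x) (gr φ x) =
        ∫ x in tsupport φ, inner ℝ (if f' x < f x then g x else g' x) (gr φ x) :=
      (setIntegral_eq_integral_of_forall_compl_eq_zero fun x hx => by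
        rw [gr_eq_zero_of_notMem hx, inner_zero_right]).symm
    simp only [e1, e2]
    refine tendsto_integral_of_dominated_convergence _ hAm hAi
      (fun n => Eventually.of_forall (hAb n)) (Eventually.of_forall fun x => ?_)
    have h1 : Tendsto (fun n => stp n (f x - f' x) • g x + (1 - stp n (f x - f' x)) • g' x) atTop
        (𝓝 ((if f' x < f x then (1 : ℝ) else 0) • g x +
          (1 - (if f' x < f x then (1 : ℝ) else 0)) • g' x)) :=
      ((hlim x).smul_const _).add (((hlim x).const_sub 1).smul_const _)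
    have h2 : (if f' x < f x then (1 : ℝ) else 0) • g x +
          (1 - (if f' x < f x then (1 : ℝ) else 0)) • g' x = if f' x < f x then g x else g' x := by
      split_ifs <;> simp
    rw [h2] at h1
    exact h1.inner tendsto_const_nhds
  have tQ : Tendsto (fun n => ∫ x, Q n x) atTop
      (𝓝 (∫ x, (if f' x < f x then q x else q' x) * φ x)) := by
    have e1 : ∀ n, ∫ x, Q n x = ∫ x in tsupport φ, Q n x := fun n =>
      (setIntegral_eq_integral_of_forall_compl_eq_zero (hQ0 n)).symm
    have e2 : ∫ x, (if f' x < f x then q x else q' x) * φ x =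
        ∫ x in tsupport φ, (if f' x < f x then q x else q' x) * φ x :=
      (setIntegral_eq_integral_of_forall_compl_eq_zero fun x hx => by
        rw [image_eq_zero_of_notMem_tsupport hx, mul_zero]).symm
    simp only [e1, e2]
    refine tendsto_integral_of_dominated_convergence _ hQm hQi
      (fun n => Eventually.of_forall (hQb n)) (Eventually.of_forall fun x => ?_)
    have h1 : Tendsto (fun n => stp n (f x - f' x) * q x + (1 - stp n (f x - f' x)) * q' x) atTop
        (𝓝 ((if f' x < f x then (1 : ℝ) else 0) * q x +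
          (1 - (if f' x < f x then (1 : ℝ) else 0)) * q' x)) :=
      ((hlim x).mul_const _).add (((hlim x).const_sub 1).mul_const _)
    have h2 : (if f' x < f x then (1 : ℝ) else 0) * q x +
          (1 - (if f' x < f x then (1 : ℝ) else 0)) * q' x = if f' x < f x then q x else q' x := by
      split_ifs <;> simp
    rw [h2] at h1
    exact h1.mul_const _
  refine le_of_tendsto' ((tA.const_mul (1 / 2)).add tQ) fun n => ?_
  -- the inequality for fixed `n`
  obtain ⟨C, hC⟩ := stp_deriv_bound n
  have w1 := H1.test_mul_comp hU hd hdg (stp_contDiff n) hC (M := 1)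
    (fun t => abs_le.2 ⟨by linarith [stp_nonneg n t], stp_le_one n t⟩) hφ
  have hder : ∀ t, deriv (fun t => 1 - stp n t) t = - deriv (stp n) t := by
    intro t
    rw [deriv_const_sub]
  have w2 := H1.test_mul_comp hU hd hdg (F := fun t => 1 - stp n t)
    (contDiff_const.sub (stp_contDiff n)) (C := C)
    (fun t => by rw [hder, abs_neg]; exact hC t) (M := 1)
    (fun t => abs_le.2 ⟨by linarith [stp_le_one n t], by linarith [stp_nonneg n t]⟩) hφ
  simp only [hder] at w2
  have s1 := test_ineq_bdd hU hg hq (c := 1 / 2) hs w1 hK hφ.sub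
    (fun x hx => by rw [image_eq_zero_of_notMem_tsupport hx, zero_mul]) (b := B) (fun x => by
      obtain ⟨h1, h2⟩ := hst n x
      have h3 := hφ0 x
      have h4 : φ x ≤ B := (le_abs_self _).trans (hB1 x)
      constructor
      · positivity
      · nlinarith)
  have s2 := test_ineq_bdd hU hg' hq' (c := 1 / 2) hs' w2 hK hφ.sub
    (fun x hx => by rw [image_eq_zero_of_notMem_tsupport hx, zero_mul]) (b := B) (fun x => by
      obtain ⟨h1, h2⟩ := hst n x
      have h3 := hφ0 x
      have h4 : φ x ≤ B := (le_abs_self _).trans (hB1 x)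
      constructor
      · exact mul_nonneg h3 (by linarith)
      · nlinarith)
  -- combine
  have z1 : ∀ x, x ∉ tsupport φ → φ x • (deriv (stp n) (f x - f' x) • (g x - g' x)) +
      stp n (f x - f' x) • gr φ x = 0 := fun x hx => by
    rw [image_eq_zero_of_notMem_tsupport hx, gr_eq_zero_of_notMem hx, zero_smul, smul_zero,
      add_zero]
  have z2 : ∀ x, x ∉ tsupport φ → φ x • ((-deriv (stp n) (f x - f' x)) • (g x - g' x)) +
      (1 - stp n (f x - f' x)) • gr φ x = 0 := fun x hx => by
    rw [image_eq_zero_of_notMem_tsupport hx, gr_eq_zero_of_notMem hx, zero_smul, smul_zero,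
      add_zero]
  have i1 := integrable_inner_supp hg hK hφ.sub w1.memg z1
  have i2 := integrable_inner_supp hg' hK hφ.sub w2.memg z2
  have k1 : Integrable (fun x => q x * (φ x * stp n (f x - f' x))) volume := by
    rw [← integrableOn_iff_integrable_of_support_subset (s := tsupport φ)]
    · refine (hqi.norm.mul_const B).mono' (hqi.aestronglyMeasurable.mul (hφm.mul (hθm n)))
        (Eventually.of_forall fun x => ?_)
      obtain ⟨h1, h2⟩ := hst n x
      rw [norm_mul, norm_mul, Real.norm_of_nonneg h1]
      refine mul_le_mul_of_nonneg_left ?_ (norm_nonneg _)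
      have := hB1 x
      have := norm_nonneg (φ x)
      calc ‖φ x‖ * stp n (f x - f' x) ≤ ‖φ x‖ * 1 := mul_le_mul_of_nonneg_left h2 (norm_nonneg _)
        _ ≤ B := by rw [mul_one]; exact hB1 x
    · intro x hx
      by_contra hcon
      apply hx
      simp only [image_eq_zero_of_notMem_tsupport hcon, zero_mul, mul_zero]
  have k2 : Integrable (fun x => q' x * (φ x * (1 - stp n (f x - f' x)))) volume := by
    rw [← integrableOn_iff_integrable_of_support_subset (s := tsupport φ)]
    · refine (hqi'.norm.mul_const B).mono'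
        (hqi'.aestronglyMeasurable.mul (hφm.mul (aestronglyMeasurable_const.sub (hθm n))))
        (Eventually.of_forall fun x => ?_)
      obtain ⟨h1, h2⟩ := hst n x
      rw [norm_mul, norm_mul, Real.norm_of_nonneg (r := 1 - stp n (f x - f' x)) (by linarith)]
      refine mul_le_mul_of_nonneg_left ?_ (norm_nonneg _)
      calc ‖φ x‖ * (1 - stp n (f x - f' x)) ≤ ‖φ x‖ * 1 :=
            mul_le_mul_of_nonneg_left (by linarith) (norm_nonneg _)
        _ ≤ B := by rw [mul_one]; exact hB1 x
    · intro x hx
      by_contra hcon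
      apply hx
      simp only [image_eq_zero_of_notMem_tsupport hcon, zero_mul, mul_zero]
  have e1 : ∫ x, Q n x = (∫ x, q x * (φ x * stp n (f x - f' x))) +
      ∫ x, q' x * (φ x * (1 - stp n (f x - f' x))) := by
    rw [← integral_add k1 k2]
    refine integral_congr_ae (Eventually.of_forall fun x => ?_)
    simp only [hQ]
    ring
  have e2 : ∫ x, A n x ≤ (∫ x, inner ℝ (g x) (φ x • (deriv (stp n) (f x - f' x) • (g x - g' x)) +
      stp n (f x - f' x) • gr φ x)) + ∫ x, inner ℝ (g' x)
        (φ x • ((-deriv (stp n) (f x - f' x)) • (g x - g' x)) +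
      (1 - stp n (f x - f' x)) • gr φ x) := by
    rw [← integral_add i1 i2]
    refine integral_mono (hAint n) (i1.add i2) fun x => ?_
    simp only [hA, inner_add_left, inner_add_right, real_inner_smul_right, real_inner_smul_left]
    have h1 : 0 ≤ φ x * (deriv (stp n) (f x - f' x) * ‖g x - g' x‖ ^ 2) :=
      mul_nonneg (hφ0 x) (mul_nonneg (stp_deriv_nonneg n _) (by positivity))
    rw [← real_inner_self_eq_norm_sq, inner_sub_left] at h1
    linarith
  linarith

/-- if `-½Δ f + V f = 0` weakly on `U` then `-½Δ|f| + V|f| ≤ 0` weakly on `U` -/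
theorem kato_abs {U : Set E} (hU : IsOpen U) {f V : E → ℝ} {g : E → E} (h : WG U f g)
    (hf : L2loc U f) (hg : L2locV U g)
    (hV : LocallyIntegrableOn (fun x => V x * f x) U volume)
    (heq : ∀ φ : E → ℝ, Test U φ →
      (1 / 2) * (∫ x, inner ℝ (g x) (gr φ x)) + ∫ x, V x * f x * φ x = 0)
    {φ : E → ℝ} (hφ : Test U φ) (hφ0 : ∀ x, 0 ≤ φ x) :
    (1 / 2) * (∫ x, inner ℝ (if 0 < f x then g x else -g x) (gr φ x)) +
      ∫ x, V x * |f x| * φ x ≤ 0 := by
  have h' : WG U (fun x => -f x) (fun x => -g x) := by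
    have := WG.const_mul h (-1) hU
    simpa using this
  have key := kato_max hU h h' hg (fun K hK hKU => (hg K hK hKU).neg) hV hV.neg
    (fun ψ hψ _ => (heq ψ hψ).le) (fun ψ hψ _ => by
      have h1 := heq ψ hψ
      have e1 : ∫ x, inner ℝ (-g x) (gr ψ x) = -∫ x, inner ℝ (g x) (gr ψ x) := by
        rw [← integral_neg]
        simp only [inner_neg_left]
      have e2 : ∫ x, (-(fun x => V x * f x)) x * ψ x = -∫ x, V x * f x * ψ x := by
        rw [← integral_neg]
        refine integral_congr_ae (Eventually.of_forall fun x => ?_)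
        simp only [Pi.neg_apply, neg_mul]
      rw [e1, e2]
      linarith) hφ hφ0
  have hcond : ∀ x, (-f x < f x) = (0 < f x) := fun x => by
    rw [eq_iff_iff]
    constructor <;> intro hh <;> linarith
  have e3 : ∫ x, V x * |f x| * φ x = ∫ x, (if -f x < f x then V x * f x else
      (-(fun x => V x * f x)) x) * φ x := by
    refine integral_congr_ae (Eventually.of_forall fun x => ?_)
    simp only [hcond, Pi.neg_apply]
    split_ifs with hh
    · rw [abs_of_pos hh]
    · rw [abs_of_nonpos (not_lt.1 hh)]; ring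
  rw [e3]
  simp only [hcond] at key ⊢
  exact key

end Crest.Agent.R335
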