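import Crest.Agent.R335.HDefs2

/-!
Row 335 (S0521): Sobolev library, Lipschitz functions and removable points (module HLip).
-/

set_option autoImplicit false
set_option linter.unusedSectionVars false

open MeasureTheory Filter Set
open scoped ENNReal Topology ContDiff

noncomputable section
namespace Crest.Agent.R335

variable {ι : Type*} [Fintype ι] [DecidableEq ι]

local notation "E" => EuclideanSpace ℝ ι

/-- the norm of the classical gradient is the norm of the derivative -/
theorem HL.norm_gr_le (f : E → ℝ) (x : E) : ‖gr f x‖ ≤ ‖fderiv ℝ f x‖ := by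
  have h1 : fderiv ℝ f x (gr f x) = ‖gr f x‖ ^ 2 := by
    have h2 : gr f x = ∑ i, (gr f x i) • EuclideanSpace.single i (1 : ℝ) := by
      ext j
      simp [Finset.sum_apply, Pi.single_apply]
    rw [EuclideanSpace.real_norm_sq_eq]
    conv_lhs => rw [h2]
    rw [map_sum]
    refine Finset.sum_congr rfl fun i _ => ?_
    rw [map_smul, smul_eq_mul, gr_apply, pd, sq]
  have h3 : ‖gr f x‖ ^ 2 ≤ ‖fderiv ℝ f x‖ * ‖gr f x‖ := by
    rw [← h1]
    exact (le_abs_self _).trans ((fderiv ℝ f x).le_opNorm _)
  rcases eq_or_lt_of_le (norm_nonneg (gr f x)) with h | h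
  · rw [← h]; exact norm_nonneg _
  · rw [sq] at h3
    exact le_of_mul_le_mul_right h3 h

theorem HL.abs_pd_le (f : E → ℝ) (x : E) (i : ι) : |pd i f x| ≤ ‖fderiv ℝ f x‖ := by
  refine ((fderiv ℝ f x).le_opNorm _).trans ?_
  rw [PiLp.norm_single, norm_one, mul_one]

theorem HL.measurable_pd (f : E → ℝ) (i : ι) : Measurable (pd i f) :=
  measurable_fderiv_apply_const ℝ f _

theorem HL.measurable_gr (f : E → ℝ) : Measurable (gr f) := by
  have h : Measurable fun x : E => fun i : ι => pd i f x :=
    measurable_pi_lambda _ fun i => HL.measurable_pd f i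
  exact (WithLp.measurable_toLp 2 (ι → ℝ)).comp h

theorem WG.of_lipschitz {f : E → ℝ} {K : NNReal} (hf : LipschitzWith K f) :
    WG univ f (gr f) ∧ ∀ x, ‖gr f x‖ ≤ K := by
  have hb : ∀ x, ‖gr f x‖ ≤ K := fun x =>
    (HL.norm_gr_le f x).trans (norm_fderiv_le_of_lipschitz ℝ hf)
  refine ⟨⟨?_, ?_, ?_⟩, hb⟩
  · exact hf.continuous.locallyIntegrable.locallyIntegrableOn _
  · have h1 : MemLp (gr f) ∞ (volume : Measure E) :=
      memLp_top_of_bound (HL.measurable_gr f).aestronglyMeasurable K (ae_of_all _ hb)
    exact (h1.locallyIntegrable (by simp)).locallyIntegrableOn _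
  · intro φ hφ i
    have hcd : ContDiff ℝ 1 φ := hφ.smooth.of_le (by exact_mod_cast le_top)
    obtain ⟨D, hD⟩ := hcd.lipschitzWith_of_hasCompactSupport hφ.cpt (by simp)
    have key := hf.integral_lineDeriv_mul_eq (μ := (volume : Measure E)) hD hφ.cpt
      (EuclideanSpace.single i (1 : ℝ))
    have h1 : ∫ x, lineDeriv ℝ f x (EuclideanSpace.single i (1 : ℝ)) * φ x =
        ∫ x, gr f x i * φ x := by
      refine integral_congr_ae ?_
      filter_upwards [hf.ae_differentiableAt (μ := (volume : Measure E))] with x hx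
      rw [hx.lineDeriv_eq_fderiv]
      rfl
    have h2 : ∫ x, lineDeriv ℝ φ x (-EuclideanSpace.single i (1 : ℝ)) * f x =
        - ∫ x, f x * pd i φ x := by
      rw [← integral_neg]
      refine integral_congr_ae (ae_of_all _ fun x => ?_)
      have hx : DifferentiableAt ℝ φ x := (hcd.differentiable (by simp)) x
      show lineDeriv ℝ φ x (-EuclideanSpace.single i (1 : ℝ)) * f x = -(f x * pd i φ x)
      rw [hx.lineDeriv_eq_fderiv, map_neg, pd]
      ring
    rw [h1, h2] at key
    rw [key, neg_neg]

/-- truncated bump at a point -/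
theorem HL.exists_bump : ∃ χ : E → ℝ, ContDiff ℝ ∞ χ ∧ HasCompactSupport χ ∧
    (∀ x, χ x ∈ Icc (0 : ℝ) 1) ∧ (∀ x, ‖x‖ ≤ 1 → χ x = 1) ∧ (∀ x, 2 ≤ ‖x‖ → χ x = 0) ∧
    ∃ M : ℝ, 0 ≤ M ∧ ∀ x, ‖fderiv ℝ χ x‖ ≤ M := by
  let b : ContDiffBump (0 : E) := ⟨1, 2, one_pos, one_lt_two⟩
  have hbs : ContDiff ℝ ∞ b := b.contDiff
  have hbc : HasCompactSupport b := b.hasCompactSupport
  refine ⟨b, hbs, hbc, fun x => ⟨b.nonneg, b.le_one⟩, ?_, ?_, ?_⟩
  · intro x hx
    exact b.one_of_mem_closedBall (by simpa using hx)
  · intro x hx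
    exact b.zero_of_le_dist (by simpa using hx)
  · have hc : Continuous (fun x => ‖fderiv ℝ b x‖) :=
      (hbs.continuous_fderiv (by simp)).norm
    have hcs : HasCompactSupport (fun x => ‖fderiv ℝ b x‖) := (hbc.fderiv ℝ).norm
    obtain ⟨M, hM⟩ := hc.bounded_above_of_compact_support hcs
    refine ⟨M, (norm_nonneg _).trans (hM 0), fun x => ?_⟩
    have := hM x
    rwa [norm_norm] at this

/-- a point is removable in dimension at least two -/
theorem WG.removable (hι : 2 ≤ Fintype.card ι) {U : Set E} (hU : IsOpen U) (a : E) {f : E → ℝ}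
    {g : E → E} (h : WG (U \ {a}) f g) (hf : LocallyIntegrableOn f U volume)
    (hf' : ∃ C r : ℝ, 0 < r ∧ ∀ x, x ≠ a → ‖x - a‖ < r → |f x| ≤ C)
    (hg : LocallyIntegrableOn g U volume) : WG U f g := by
  refine ⟨hf, hg, ?_⟩
  intro φ hφ i
  obtain ⟨C, r, hr, hC⟩ := hf'
  obtain ⟨χ, hχs, hχc, hχ01, hχ1, hχ2, M, hM0, hM⟩ := HL.exists_bump (ι := ι)
  have hφint : ∀ (F : E → ℝ), LocallyIntegrableOn F U volume → ∀ ψ : E → ℝ, Continuous ψ →
      HasCompactSupport ψ → tsupport ψ ⊆ U → Integrable (fun x => F x * ψ x) := by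
    intro F hF ψ hψ hψc hψU
    have hK : IsCompact (tsupport ψ) := hψc
    have h1 : IntegrableOn F (tsupport ψ) volume := hF.integrableOn_compact_subset hψU hK
    have h2 : IntegrableOn (fun x => F x * ψ x) (tsupport ψ) volume :=
      h1.mul_continuousOn hψ.continuousOn hK
    rw [integrableOn_iff_integrable_of_support_subset] at h2
    · exact h2
    · intro x hx
      apply subset_tsupport ψ
      intro h0
      apply hx
      simp [h0]
  have hpdc : Continuous (pd i φ) :=
    ((hφ.smooth.continuous_fderiv (by simp))).clm_apply continuous_const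
  have hpds : tsupport (pd i φ) ⊆ tsupport φ := by
    refine closure_minimal ?_ (isClosed_tsupport _)
    intro x hx
    by_contra hxn
    apply hx
    have : fderiv ℝ φ x = 0 := by
      have h1 : x ∉ tsupport (fderiv ℝ φ) := fun h => hxn (tsupport_fderiv_subset ℝ h)
      exact image_eq_zero_of_notMem_tsupport h1
    simp [pd, this]
  have hpdcs : HasCompactSupport (pd i φ) := hφ.cpt.of_isClosed_subset (isClosed_tsupport _) hpds
  have hI1 : Integrable (fun x => f x * pd i φ x) :=
    hφint f hf _ hpdc hpdcs (hpds.trans hφ.sub)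
  have hgi : LocallyIntegrableOn (fun x => g x i) U volume := by
    intro x hx
    obtain ⟨t, ht, hgt⟩ := hg x hx
    exact ⟨t, ht, (EuclideanSpace.proj (𝕜 := ℝ) i).integrable_comp hgt⟩
  have hI2 : Integrable (fun x => g x i * φ x) :=
    hφint _ hgi _ hφ.smooth.continuous hφ.cpt hφ.sub
  -- the cutoffs
  let c : ℕ → ℝ := fun n => (n : ℝ) + 1
  have hc : ∀ n, 0 < c n := fun n => by positivity
  let η : ℕ → E → ℝ := fun n x => 1 - χ (c n • (x - a))
  have hηs : ∀ n, ContDiff ℝ ∞ (η n) := fun n =>
    contDiff_const.sub (hχs.comp ((contDiff_id.sub contDiff_const).const_smul (c n)))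
  have hη01 : ∀ n x, |η n x| ≤ 1 := by
    intro n x
    have := hχ01 (c n • (x - a))
    rw [abs_le]
    constructor <;> simp only [η] <;> linarith [this.1, this.2]
  have hη0 : ∀ n x, ‖x - a‖ ≤ 1 / c n → η n x = 0 := by
    intro n x hx
    have : χ (c n • (x - a)) = 1 := by
      apply hχ1
      rw [norm_smul, Real.norm_of_nonneg (hc n).le]
      calc c n * ‖x - a‖ ≤ c n * (1 / c n) := mul_le_mul_of_nonneg_left hx (hc n).le
        _ = 1 := mul_one_div_cancel (hc n).ne'
    simp [η, this]
  have hη1 : ∀ n x, 2 / c n ≤ ‖x - a‖ → χ (c n • (x - a)) = 0 := by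
    intro n x hx
    apply hχ2
    rw [norm_smul, Real.norm_of_nonneg (hc n).le]
    calc (2 : ℝ) = c n * (2 / c n) := (mul_div_cancel₀ 2 (hc n).ne').symm
      _ ≤ c n * ‖x - a‖ := mul_le_mul_of_nonneg_left hx (hc n).le
  have hpdη : ∀ n x, |pd i (η n) x| ≤ c n * M := by
    intro n x
    have h1 : HasFDerivAt (fun y : E => c n • (y - a)) (c n • ContinuousLinearMap.id ℝ E) x :=
      ((hasFDerivAt_id x).sub_const a).const_smul (c n)
    have h2 : HasFDerivAt χ (fderiv ℝ χ (c n • (x - a))) (c n • (x - a)) :=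
      (hχs.differentiable (by simp) _).hasFDerivAt
    have h3 := (h2.comp x h1).const_sub 1
    have h4 : fderiv ℝ (η n) x = -((fderiv ℝ χ (c n • (x - a))).comp
        (c n • ContinuousLinearMap.id ℝ E)) := h3.fderiv
    rw [pd, h4]
    simp only [neg_apply, abs_neg, ContinuousLinearMap.comp_apply,
      smul_apply, ContinuousLinearMap.id_apply, map_smul, smul_eq_mul,
      abs_mul, abs_of_pos (hc n)]
    have h5 := (HL.abs_pd_le χ (c n • (x - a)) i).trans (hM _)
    rw [pd] at h5
    exact mul_le_mul_of_nonneg_left h5 (hc n).le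
  have hpdη0 : ∀ n x, 2 / c n < ‖x - a‖ → pd i (η n) x = 0 := by
    intro n x hx
    have h1 : η n =ᶠ[𝓝 x] fun _ => (1 : ℝ) := by
      have h2 : {y : E | 2 / c n < ‖y - a‖} ∈ 𝓝 x :=
        (isOpen_lt continuous_const (continuous_id.sub continuous_const).norm).mem_nhds hx
      filter_upwards [h2] with y hy
      simp [η, hη1 n y (le_of_lt hy)]
    rw [pd, h1.fderiv_eq]
    simp
  -- test functions
  have hT : ∀ n, Test (U \ {a}) (fun x => η n x * φ x) := by
    intro n
    have hsub : tsupport (fun x => η n x * φ x) ⊆ tsupport φ ∩ {x | 1 / c n ≤ ‖x - a‖} := by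
      have hcl : IsClosed (tsupport φ ∩ {x | 1 / c n ≤ ‖x - a‖}) :=
        (isClosed_tsupport _).inter
          (isClosed_le continuous_const (continuous_id.sub continuous_const).norm)
      refine closure_minimal ?_ hcl
      intro x hx
      have hx' : η n x ≠ 0 ∧ φ x ≠ 0 := by
        constructor <;> intro h0 <;> apply hx <;> simp [h0]
      refine ⟨subset_tsupport _ hx'.2, ?_⟩
      by_contra hlt
      exact hx'.1 (hη0 n x (le_of_lt (not_le.1 hlt)))
    refine ⟨(hηs n).mul hφ.smooth, ?_, ?_⟩
    · exact hφ.cpt.of_isClosed_subset (isClosed_tsupport _) (hsub.trans inter_subset_left)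
    · intro x hx
      refine ⟨hφ.sub (hsub hx).1, ?_⟩
      rintro rfl
      have := (hsub hx).2
      simp only [mem_ofPred_eq, sub_self, norm_zero] at this
      exact absurd this (not_le.2 (by have := hc n; positivity))
  have heq : ∀ n, (∫ x, η n x * (f x * pd i φ x)) + ∫ x, f x * φ x * pd i (η n) x =
      - ∫ x, η n x * (g x i * φ x) := by
    intro n
    have h1 := h.ibp _ (hT n) i
    have hpdm : ∀ x, pd i (fun x => η n x * φ x) x = η n x * pd i φ x + φ x * pd i (η n) x := by
      intro x
      have ha : DifferentiableAt ℝ (η n) x := (hηs n).differentiable (by simp) x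
      have hb : DifferentiableAt ℝ φ x := hφ.smooth.differentiable (by simp) x
      simp only [pd]
      have : fderiv ℝ (fun x => η n x * φ x) x = η n x • fderiv ℝ φ x + φ x • fderiv ℝ (η n) x :=
        fderiv_fun_mul ha hb
      rw [this]
      simp
    have hJ1 : Integrable (fun x => η n x * (f x * pd i φ x)) := by
      refine hI1.bdd_mul (c := 1) (hηs n).continuous.aestronglyMeasurable ?_
      exact ae_of_all _ fun x => hη01 n x
    have hJ2 : Integrable (fun x => f x * φ x * pd i (η n) x) := by
      have hcη : Continuous (pd i (η n)) :=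
        (((hηs n).continuous_fderiv (by simp))).clm_apply continuous_const
      have := hφint f hf (fun x => φ x * pd i (η n) x) (hφ.smooth.continuous.mul hcη)
        (hφ.cpt.mul_right) ((tsupport_mul_subset_left).trans hφ.sub)
      refine this.congr (ae_of_all _ fun x => ?_)
      show f x * (φ x * pd i (η n) x) = f x * φ x * pd i (η n) x
      ring
    rw [← integral_add hJ1 hJ2]
    have e1 : ∫ x, (η n x * (f x * pd i φ x) + f x * φ x * pd i (η n) x) =
        ∫ x, f x * pd i (fun x => η n x * φ x) x := by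
      refine integral_congr_ae (ae_of_all _ fun x => ?_)
      show _ = f x * pd i (fun x => η n x * φ x) x
      rw [hpdm x]; ring
    rw [e1, h1]
    congr 1
    refine integral_congr_ae (ae_of_all _ fun x => ?_)
    show g x i * (η n x * φ x) = η n x * (g x i * φ x)
    ring
  -- convergence of the cutoffs
  have hηlim : ∀ᵐ x : E, Tendsto (fun n => η n x) atTop (𝓝 1) := by
    have hae : ∀ᵐ x : E, x ≠ a := by
      have : Nontrivial E := by
        have : Nonempty ι := Fintype.card_pos_iff.1 (by omega)
        infer_instance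
      exact (measure_eq_zero_iff_ae_notMem.1 (measure_singleton a)).mono fun x hx => hx
    filter_upwards [hae] with x hx
    have hpos : 0 < ‖x - a‖ := norm_pos_iff.2 (sub_ne_zero.2 hx)
    have hev : ∀ᶠ n : ℕ in atTop, η n x = 1 := by
      obtain ⟨N, hN⟩ := exists_nat_gt (2 / ‖x - a‖)
      filter_upwards [eventually_ge_atTop N] with n hn
      have h1 : 2 / ‖x - a‖ < c n := by
        have : (N : ℝ) ≤ n := by exact_mod_cast hn
        simp only [c]; linarith
      have h2 : 2 / c n ≤ ‖x - a‖ := by
        rw [div_le_iff₀ (hc n)]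
        rw [div_lt_iff₀ hpos] at h1
        linarith [mul_comm (c n) ‖x - a‖]
      simp [η, hη1 n x h2]
    exact tendsto_const_nhds.congr' (hev.mono fun n hn => hn.symm)
  have hlim : ∀ F : E → ℝ, Integrable F → Tendsto (fun n => ∫ x, η n x * F x) atTop
      (𝓝 (∫ x, F x)) := by
    intro F hF
    refine tendsto_integral_of_dominated_convergence (fun x => ‖F x‖) (fun n => ?_) hF.norm ?_ ?_
    · exact (hηs n).continuous.aestronglyMeasurable.mul hF.aestronglyMeasurable
    · intro n
      refine ae_of_all _ fun x => ?_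
      rw [norm_mul]
      calc ‖η n x‖ * ‖F x‖ ≤ 1 * ‖F x‖ := by gcongr; exact hη01 n x
        _ = ‖F x‖ := one_mul _
    · filter_upwards [hηlim] with x hx
      have := hx.mul_const (F x)
      rwa [one_mul] at this
  -- the middle term
  obtain ⟨B, hB⟩ : ∃ B, ∀ x, ‖φ x‖ ≤ B :=
    hφ.smooth.continuous.bounded_above_of_compact_support hφ.cpt
  have hB0 : 0 ≤ B := (norm_nonneg _).trans (hB 0)
  have hmid : Tendsto (fun n => ∫ x, f x * φ x * pd i (η n) x) atTop (𝓝 0) := by
    set V : ℝ := volume.real (Metric.closedBall (0 : E) 1) with hV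
    have hV0 : 0 ≤ V := measureReal_nonneg
    have hbound : ∀ᶠ n : ℕ in atTop, ‖∫ x, f x * φ x * pd i (η n) x‖ ≤
        (|C| * B * M * 2 ^ Fintype.card ι * V) * (1 / c n) := by
      obtain ⟨N, hN⟩ := exists_nat_gt (2 / r)
      filter_upwards [eventually_ge_atTop N] with n hn
      have h1 : 2 / c n < r := by
        have : (N : ℝ) ≤ n := by exact_mod_cast hn
        rw [div_lt_iff₀ (hc n)]
        rw [div_lt_iff₀ hr] at hN
        have hcn : (N : ℝ) ≤ c n := by simp only [c]; linarith
        calc (2 : ℝ) < N * r := hN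
          _ ≤ c n * r := by gcongr
          _ = r * c n := mul_comm _ _
      have hsub : ∀ x, x ∉ Metric.closedBall a (2 / c n) → f x * φ x * pd i (η n) x = 0 := by
        intro x hx
        rw [Metric.mem_closedBall, dist_eq_norm, not_le] at hx
        rw [hpdη0 n x hx, mul_zero]
      rw [← setIntegral_eq_integral_of_forall_compl_eq_zero hsub]
      have hfin : volume (Metric.closedBall a (2 / c n)) < ⊤ := measure_closedBall_lt_top
      have h2 : ‖∫ x in Metric.closedBall a (2 / c n), f x * φ x * pd i (η n) x‖ ≤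
          (|C| * B * (c n * M)) * volume.real (Metric.closedBall a (2 / c n)) := by
        refine norm_setIntegral_le_of_norm_le_const_ae' hfin ?_
        have hae : ∀ᵐ x : E, x ≠ a := by
          have : Nontrivial E := by
            have : Nonempty ι := Fintype.card_pos_iff.1 (by omega)
            infer_instance
          exact (measure_eq_zero_iff_ae_notMem.1 (measure_singleton a)).mono fun x hx => hx
        filter_upwards [hae] with x hx hxb
        rw [Metric.mem_closedBall, dist_eq_norm] at hxb
        have h3 : |f x| ≤ |C| := (hC x hx (lt_of_le_of_lt hxb h1)).trans (le_abs_self C)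
        rw [norm_mul, norm_mul]
        have h4 : ‖pd i (η n) x‖ ≤ c n * M := hpdη n x
        calc ‖f x‖ * ‖φ x‖ * ‖pd i (η n) x‖ ≤ |C| * B * (c n * M) := by
              gcongr
              · exact h3
              · exact hB x
          _ = |C| * B * (c n * M) := rfl
      refine h2.trans ?_
      have h5 : volume.real (Metric.closedBall a (2 / c n)) =
          (2 / c n) ^ Fintype.card ι * V := by
        rw [Measure.addHaar_real_closedBall' _ _ (by have := hc n; positivity)]
        simp [hV]
      rw [h5]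
      have h6 : (2 / c n) ^ Fintype.card ι ≤ 2 ^ Fintype.card ι * (1 / c n) ^ 2 := by
        rw [div_eq_mul_one_div, mul_pow]
        gcongr 2 ^ Fintype.card ι * ?_
        refine pow_le_pow_of_le_one (by have := hc n; positivity) ?_ hι
        rw [div_le_one (hc n)]
        simp only [c]; linarith [(Nat.cast_nonneg n : (0:ℝ) ≤ n)]
      have h7 : 0 ≤ |C| * B * (c n * M) := by have := hc n; positivity
      calc |C| * B * (c n * M) * ((2 / c n) ^ Fintype.card ι * V)
          ≤ |C| * B * (c n * M) * ((2 ^ Fintype.card ι * (1 / c n) ^ 2) * V) := by gcongr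
        _ = (|C| * B * M * 2 ^ Fintype.card ι * V) * (1 / c n) := by
            have := (hc n).ne'
            field_simp
    have hlim0 : Tendsto (fun n : ℕ => (|C| * B * M * 2 ^ Fintype.card ι * V) * (1 / c n)) atTop
        (𝓝 0) := by
      have := (tendsto_one_div_add_atTop_nhds_zero_nat (𝕜 := ℝ)).const_mul
        (|C| * B * M * 2 ^ Fintype.card ι * V)
      rwa [mul_zero] at this
    exact squeeze_zero_norm' hbound hlim0
  have hl1 := hlim _ hI1
  have hl2 := (hlim _ hI2).neg
  have hl3 := hl1.add hmid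
  rw [add_zero] at hl3
  have : (fun n => (∫ x, η n x * (f x * pd i φ x)) + ∫ x, f x * φ x * pd i (η n) x) =
      fun n => - ∫ x, η n x * (g x i * φ x) := funext heq
  rw [this] at hl3
  exact tendsto_nhds_unique hl3 hl2

end Crest.Agent.R335
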