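import Crest.Agent.R335.HNormA
import Crest.Agent.R335.HProd

/-!
Row 335 (S0521): Sobolev library, Kato's inequality for partial norms (module HNorm, part 2).
-/

set_option autoImplicit false
set_option linter.unusedSectionVars false

open MeasureTheory Filter Set
open scoped ENNReal Topology ContDiff

noncomputable section
namespace Crest.Agent.R335

variable {ι κ κ' : Type*} [Fintype ι] [DecidableEq ι] [Fintype κ] [DecidableEq κ]
  [Fintype κ'] [DecidableEq κ'] {S : Type*} [Fintype S]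

local notation "E" => EuclideanSpace ℝ ι

theorem HS.integrable_inner {α F : Type*} [MeasurableSpace α] {μ : Measure α}
    [NormedAddCommGroup F] [InnerProductSpace ℝ F] {a b : α → F}
    (ha : MemLp a 2 μ) (hb : MemLp b 2 μ) : Integrable (fun x => (inner ℝ (a x) (b x) : ℝ)) μ :=
  (ha.norm.integrable_mul hb.norm).mono' (ha.1.inner hb.1)
    (Eventually.of_forall fun x => norm_inner_le_norm (a x) (b x))

/-- `f(X) w(x)` is in `L²` when `∫ |w|² ∫ f² < ∞` -/
theorem HN.memLp_smul_slice (p : ι ≃ κ ⊕ κ') {F : Type*} [NormedAddCommGroup F] [NormedSpace ℝ F]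
    {f : E → ℝ} (hf : MemLp f 2 volume) {w : EuclideanSpace ℝ κ → F}
    (hw : AEStronglyMeasurable w volume)
    (hi : Integrable (fun x => ‖w x‖ ^ 2 * ∫ y, f (jn p x y) ^ 2)) :
    MemLp (fun X => f X • w (pr1 p X)) 2 volume := by
  rw [← memLp_jn_iff p]
  simp only [pr1_jn]
  have hm : AEStronglyMeasurable (fun z : EuclideanSpace ℝ κ × EuclideanSpace ℝ κ' =>
      f (jn p z.1 z.2) • w z.1) (volume.prod volume) :=
    (aestronglyMeasurable_jn p hf.1).smul hw.comp_fst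
  have hm2 : AEStronglyMeasurable (fun z : EuclideanSpace ℝ κ × EuclideanSpace ℝ κ' =>
      ‖f (jn p z.1 z.2) • w z.1‖ ^ 2) (volume.prod volume) := hm.norm.pow 2
  rw [memLp_two_iff_integrable_sq_norm hm, integrable_prod_iff hm2]
  constructor
  · filter_upwards [MemLp.slice_right p hf] with x hx
    have := hx.integrable_sq.const_mul (‖w x‖ ^ 2)
    refine this.congr (Eventually.of_forall fun y => ?_)
    simp only [norm_smul, Real.norm_eq_abs, mul_pow, sq_abs]
    ring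
  · refine hi.congr (Eventually.of_forall fun x => ?_)
    simp only [norm_smul, Real.norm_eq_abs, mul_pow, sq_abs, abs_mul]
    rw [← integral_const_mul]
    congr 1; funext y
    rw [abs_of_nonneg (sq_nonneg _), abs_of_nonneg (sq_nonneg _)]
    ring

/-- derivative of `t ↦ (t + ε²)^{-1/2}` -/
theorem HN.hasDerivAt_inv_sqrt {ε t : ℝ} (hε : 0 < ε) (ht : 0 ≤ t) :
    HasDerivAt (fun t : ℝ => (√(t + ε ^ 2))⁻¹) (-(1 / (2 * √(t + ε ^ 2))) / (√(t + ε ^ 2)) ^ 2) t := by
  have h2 : HasDerivAt (fun t : ℝ => t + ε ^ 2) 1 t := (hasDerivAt_id t).add_const _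
  have h3 : HasDerivAt (fun t : ℝ => √(t + ε ^ 2)) (1 / (2 * √(t + ε ^ 2))) t :=
    h2.sqrt (by positivity)
  exact h3.inv (by positivity)

theorem HN.WG_inv (p : ι ≃ κ ⊕ κ') {f : S → E → ℝ} {g : S → E → E} (h : ∀ s, H1 (f s) (g s))
    {ε : ℝ} (hε : 0 < ε) :
    WG univ (fun x => (√(HN.q p f x + ε ^ 2))⁻¹)
      (fun x => (-((√(HN.q p f x + ε ^ 2))⁻¹ ^ 3)) • HN.V p f g x) := by
  have h1 := WG.comp_on isOpen_univ (HN.WG_q p h) (F := fun t => (√(t + ε ^ 2))⁻¹)
    (F' := fun t => -(1 / (2 * √(t + ε ^ 2))) / (√(t + ε ^ 2)) ^ 2) (a := 0) (b := ⊤)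
    (C := 1 / (2 * ε) / ε ^ 2)
    (Eventually.of_forall fun x => ⟨by exact_mod_cast HN.q_nonneg p f x, le_top⟩)
    (by
      intro t ht _
      have ht0 : (0 : ℝ) ≤ t := by exact_mod_cast ht
      exact HN.hasDerivAt_inv_sqrt hε ht0)
    (by
      have : {t : ℝ | (0 : EReal) ≤ (t : EReal) ∧ (t : EReal) ≤ ⊤} = Ici 0 := by
        ext t; simp
      rw [this]
      intro t ht
      have ht0 : (0 : ℝ) ≤ t := ht
      apply ContinuousAt.continuousWithinAt
      have h4 : 2 * √(t + ε ^ 2) ≠ 0 := by positivity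
      have h5 : √(t + ε ^ 2) ^ 2 ≠ 0 := by positivity
      have hc : ContinuousAt (fun t : ℝ => √(t + ε ^ 2)) t := by fun_prop
      exact ((continuousAt_const.div (continuousAt_const.mul hc) h4).neg).div (hc.pow 2) h5)
    (by
      intro t ht _
      have ht0 : (0 : ℝ) ≤ t := by exact_mod_cast ht
      have h3 : ε ≤ √(t + ε ^ 2) := Real.le_sqrt_of_sq_le (by linarith)
      rw [abs_div, abs_neg, abs_of_nonneg (by positivity), abs_of_nonneg (by positivity)]
      gcongr)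
  refine WG.congr isOpen_univ h1 (ae_eq_refl _) (Eventually.of_forall fun x => ?_)
  have h2 : 0 < √(HN.q p f x + ε ^ 2) := by
    have := HN.q_nonneg p f x
    positivity
  simp only [smul_smul]
  congr 1
  field_simp

/-- the test multiplier `k = φ / √(q + ε²)` -/
def HN.k (p : ι ≃ κ ⊕ κ') (f : S → E → ℝ) (ε : ℝ) (φ : EuclideanSpace ℝ κ → ℝ)
    (x : EuclideanSpace ℝ κ) : ℝ := φ x * (√(HN.q p f x + ε ^ 2))⁻¹

/-- its gradient -/
def HN.l (p : ι ≃ κ ⊕ κ') (f : S → E → ℝ) (g : S → E → E) (ε : ℝ) (φ : EuclideanSpace ℝ κ → ℝ)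
    (x : EuclideanSpace ℝ κ) : EuclideanSpace ℝ κ :=
  φ x • ((-((√(HN.q p f x + ε ^ 2))⁻¹ ^ 3)) • HN.V p f g x) + (√(HN.q p f x + ε ^ 2))⁻¹ • gr φ x

theorem HN.WG_k (p : ι ≃ κ ⊕ κ') {f : S → E → ℝ} {g : S → E → E} (h : ∀ s, H1 (f s) (g s))
    {ε : ℝ} (hε : 0 < ε) {φ : EuclideanSpace ℝ κ → ℝ} {U : Set (EuclideanSpace ℝ κ)}
    (hφ : Test U φ) : WG univ (HN.k p f ε φ) (HN.l p f g ε φ) :=
  WG.mul_smooth isOpen_univ (HN.WG_inv p h hε) hφ.smooth

theorem HN.inv_le (p : ι ≃ κ ⊕ κ') (f : S → E → ℝ) {ε : ℝ} (hε : 0 < ε)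
    (x : EuclideanSpace ℝ κ) : (√(HN.q p f x + ε ^ 2))⁻¹ ≤ ε⁻¹ := by
  have h3 : ε ≤ √(HN.q p f x + ε ^ 2) :=
    Real.le_sqrt_of_sq_le (by linarith [HN.q_nonneg p f x])
  gcongr

theorem HN.l_bound (p : ι ≃ κ ⊕ κ') {f : S → E → ℝ} {g : S → E → E}
    (hf : ∀ s, MemLp (f s) 2 volume) (hg : ∀ s, MemLp (g s) 2 volume) {ε : ℝ} (hε : 0 < ε)
    {φ : EuclideanSpace ℝ κ → ℝ} {C : ℝ} (hC : ∀ x, |φ x| ≤ C) (hC' : ∀ x, ‖gr φ x‖ ≤ C) :
    ∀ᵐ x, ‖HN.l p f g ε φ x‖ ^ 2 * HN.q p f x ≤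
      2 * (C * ε⁻¹) ^ 2 * HN.T p g x + 2 * (C * ε⁻¹) ^ 2 * HN.q p f x := by
  filter_upwards [HN.V_norm_le p hf hg] with x hx
  have hq := HN.q_nonneg p f x
  have hT := HN.T_nonneg p g x
  have hC0 : 0 ≤ C := (abs_nonneg _).trans (hC x)
  set N := √(HN.q p f x + ε ^ 2) with hN
  have hN0 : 0 < N := by positivity
  have hNsq : N ^ 2 = HN.q p f x + ε ^ 2 := Real.sq_sqrt (by positivity)
  have hNi : N⁻¹ ≤ ε⁻¹ := HN.inv_le p f hε x
  have hqN : HN.q p f x ≤ N ^ 2 := by rw [hNsq]; nlinarith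
  have h1 : ‖HN.l p f g ε φ x‖ ≤ C * (N⁻¹ ^ 3 * (√(HN.q p f x) * √(HN.T p g x))) + ε⁻¹ * C := by
    refine (norm_add_le _ _).trans (add_le_add ?_ ?_)
    · rw [norm_smul, norm_smul, norm_neg, Real.norm_eq_abs, Real.norm_eq_abs,
        abs_of_nonneg (show (0 : ℝ) ≤ N⁻¹ ^ 3 by positivity)]
      exact mul_le_mul (hC x) (mul_le_mul_of_nonneg_left hx (by positivity)) (by positivity) hC0
    · rw [norm_smul, Real.norm_eq_abs, abs_of_nonneg (show (0 : ℝ) ≤ N⁻¹ by positivity)]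
      exact mul_le_mul hNi (hC' x) (norm_nonneg _) (by positivity)
  have h2 : ‖HN.l p f g ε φ x‖ ^ 2 ≤ 2 * (C * (N⁻¹ ^ 3 * (√(HN.q p f x) * √(HN.T p g x)))) ^ 2 +
      2 * (ε⁻¹ * C) ^ 2 := by
    have := pow_le_pow_left₀ (norm_nonneg _) h1 2
    nlinarith [sq_nonneg (C * (N⁻¹ ^ 3 * (√(HN.q p f x) * √(HN.T p g x))) - ε⁻¹ * C)]
  have h3 : (C * (N⁻¹ ^ 3 * (√(HN.q p f x) * √(HN.T p g x)))) ^ 2 * HN.q p f x ≤
      (C * ε⁻¹) ^ 2 * HN.T p g x := by
    have e : (C * (N⁻¹ ^ 3 * (√(HN.q p f x) * √(HN.T p g x)))) ^ 2 * HN.q p f x =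
        C ^ 2 * HN.T p g x * (N⁻¹ ^ 2 * (N⁻¹ ^ 4 * (HN.q p f x) ^ 2)) := by
      rw [mul_pow, mul_pow, mul_pow, Real.sq_sqrt hq, Real.sq_sqrt hT]; ring
    have h4 : N⁻¹ ^ 4 * (HN.q p f x) ^ 2 ≤ 1 := by
      have : N⁻¹ ^ 4 * (HN.q p f x) ^ 2 ≤ N⁻¹ ^ 4 * (N ^ 2) ^ 2 := by gcongr
      refine this.trans (le_of_eq ?_)
      field_simp
    have h5 : N⁻¹ ^ 2 * (N⁻¹ ^ 4 * (HN.q p f x) ^ 2) ≤ ε⁻¹ ^ 2 * 1 := by gcongr
    rw [e]
    calc C ^ 2 * HN.T p g x * (N⁻¹ ^ 2 * (N⁻¹ ^ 4 * (HN.q p f x) ^ 2))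
        ≤ C ^ 2 * HN.T p g x * (ε⁻¹ ^ 2 * 1) := by gcongr
      _ = _ := by ring
  calc ‖HN.l p f g ε φ x‖ ^ 2 * HN.q p f x ≤
      (2 * (C * (N⁻¹ ^ 3 * (√(HN.q p f x) * √(HN.T p g x)))) ^ 2 +
      2 * (ε⁻¹ * C) ^ 2) * HN.q p f x := by gcongr
    _ = 2 * ((C * (N⁻¹ ^ 3 * (√(HN.q p f x) * √(HN.T p g x)))) ^ 2 * HN.q p f x) +
      2 * (C * ε⁻¹) ^ 2 * HN.q p f x := by ring
    _ ≤ 2 * ((C * ε⁻¹) ^ 2 * HN.T p g x) + 2 * (C * ε⁻¹) ^ 2 * HN.q p f x := by gcongr
    _ = _ := by ring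

theorem HN.exists_bound {φ : EuclideanSpace ℝ κ → ℝ} {U : Set (EuclideanSpace ℝ κ)}
    (hφ : Test U φ) : ∃ C : ℝ, (∀ x, |φ x| ≤ C) ∧ ∀ x, ‖gr φ x‖ ≤ C := by
  obtain ⟨C1, hC1⟩ := hφ.smooth.continuous.bounded_above_of_compact_support hφ.cpt
  obtain ⟨C2, hC2⟩ := (contDiff_gr hφ.smooth).continuous.bounded_above_of_compact_support
    (hasCompactSupport_gr hφ.cpt)
  exact ⟨max C1 C2, fun x => (hC1 x).trans (le_max_left _ _),
    fun x => (hC2 x).trans (le_max_right _ _)⟩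

theorem HN.k_bound (p : ι ≃ κ ⊕ κ') (f : S → E → ℝ) {ε : ℝ} (hε : 0 < ε)
    {φ : EuclideanSpace ℝ κ → ℝ} {C : ℝ} (hC : ∀ x, |φ x| ≤ C) (x : EuclideanSpace ℝ κ) :
    |HN.k p f ε φ x| ≤ C * ε⁻¹ := by
  unfold HN.k
  rw [abs_mul, abs_of_nonneg (show (0 : ℝ) ≤ (√(HN.q p f x + ε ^ 2))⁻¹ by positivity)]
  exact mul_le_mul (hC x) (HN.inv_le p f hε x) (by positivity) ((abs_nonneg _).trans (hC x))

/-- the product `k(x) f_s(X)` is in `H¹` -/
theorem HN.H1_k (p : ι ≃ κ ⊕ κ') {f : S → E → ℝ} {g : S → E → E} (h : ∀ s, H1 (f s) (g s))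
    {ε : ℝ} (hε : 0 < ε) {φ : EuclideanSpace ℝ κ → ℝ} {U : Set (EuclideanSpace ℝ κ)}
    (hφ : Test U φ) (s : S) :
    H1 (fun X => HN.k p f ε φ (pr1 p X) * f s X)
      (fun X => HN.k p f ε φ (pr1 p X) • g s X + f s X • jn p (HN.l p f g ε φ (pr1 p X)) 0) := by
  have hf : ∀ s, MemLp (f s) 2 volume := fun s => (h s).memf
  have hg : ∀ s, MemLp (g s) 2 volume := fun s => (h s).memg
  obtain ⟨C, hC, hC'⟩ := HN.exists_bound hφ
  have hk := HN.WG_k p h hε hφ
  have hkm : AEStronglyMeasurable (HN.k p f ε φ) volume := by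
    have := hk.intf
    rw [locallyIntegrableOn_univ] at this
    exact this.aestronglyMeasurable
  have hlm : AEStronglyMeasurable (HN.l p f g ε φ) volume := by
    have := hk.intg
    rw [locallyIntegrableOn_univ] at this
    exact this.aestronglyMeasurable
  have hkE := WG.comp_pr1 p hk
  have hkEm : AEStronglyMeasurable (fun X => HN.k p f ε φ (pr1 p X)) volume := by
    have := hkE.intf
    rw [locallyIntegrableOn_univ] at this
    exact this.aestronglyMeasurable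
  have h1 : MemLp (fun X => HN.k p f ε φ (pr1 p X) * f s X) 2 volume := by
    refine ((hf s).const_mul (C * ε⁻¹)).of_le (hkEm.mul (hf s).1)
      (Eventually.of_forall fun X => ?_)
    rw [norm_mul, norm_mul]
    refine mul_le_mul_of_nonneg_right ?_ (norm_nonneg _)
    exact (HN.k_bound p f hε hC _).trans (le_abs_self _)
  have h2 : MemLp (fun X => HN.k p f ε φ (pr1 p X) • g s X) 2 volume := by
    refine ((hg s).const_smul (C * ε⁻¹)).of_le (hkEm.smul (hg s).1)
      (Eventually.of_forall fun X => ?_)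
    rw [norm_smul, Pi.smul_apply, norm_smul]
    refine mul_le_mul_of_nonneg_right ?_ (norm_nonneg _)
    exact (HN.k_bound p f hε hC _).trans (le_abs_self _)
  have h3 : MemLp (fun X => f s X • HN.l p f g ε φ (pr1 p X)) 2 volume := by
    refine HN.memLp_smul_slice p (hf s) hlm ?_
    have hb : Integrable (fun x => 2 * (C * ε⁻¹) ^ 2 * HN.T p g x +
        2 * (C * ε⁻¹) ^ 2 * HN.q p f x) :=
      ((HN.T_integrable p hg).const_mul _).add ((HN.q_integrable p hf).const_mul _)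
    refine hb.mono' ((hlm.norm.pow 2).mul (HS.integrable_slice p (hf s).integrable_sq).1) ?_
    filter_upwards [HN.l_bound p hf hg hε hC hC'] with x hx
    have h4 : ∫ y, f s (jn p x y) ^ 2 ≤ HN.q p f x :=
      Finset.single_le_sum (f := fun s => ∫ y, f s (jn p x y) ^ 2)
        (fun s _ => integral_nonneg fun y => sq_nonneg _) (Finset.mem_univ s)
    have h5 : 0 ≤ ∫ y, f s (jn p x y) ^ 2 := integral_nonneg fun y => sq_nonneg _
    rw [Real.norm_eq_abs, abs_of_nonneg (by positivity)]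
    exact (mul_le_mul_of_nonneg_left h4 (by positivity)).trans hx
  have h4 : MemLp (fun X => f s X • jn p (HN.l p f g ε φ (pr1 p X)) 0) 2 volume := by
    have := HS.memLp_jn p h3 (MemLp.zero (ε := EuclideanSpace ℝ κ'))
    refine this.ae_eq (Eventually.of_forall fun X => ?_)
    exact map_smul (in1L p) (f s X) (HN.l p f g ε φ (pr1 p X))
  refine ⟨h1, h2.add h4, ?_⟩
  have h5 := WG.mul isOpen_univ hkE (h s).wg ((h1.locallyIntegrable (by norm_num)).locallyIntegrableOn _)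
    ((h2.locallyIntegrable (by norm_num)).locallyIntegrableOn _)
    ((h4.locallyIntegrable (by norm_num)).locallyIntegrableOn _)
  exact h5

/-- partial gradient energy in the second group -/
def HN.T2 (p : ι ≃ κ ⊕ κ') (g : S → E → E) (x : EuclideanSpace ℝ κ) : ℝ :=
  ∑ s, ∫ y, ‖pr2 p (g s (jn p x y))‖ ^ 2

/-- partial potential energy -/
def HN.P (p : ι ≃ κ ⊕ κ') (W f : S → E → ℝ) (x : EuclideanSpace ℝ κ) : ℝ :=
  ∑ s, ∫ y, W s (jn p x y) * f s (jn p x y) ^ 2

theorem HN.T2_integrable (p : ι ≃ κ ⊕ κ') {g : S → E → E}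
    (hg : ∀ s, MemLp (g s) 2 volume) : Integrable (HN.T2 p g) :=
  integrable_finsetSum _ fun s _ =>
    HS.integrable_slice p (HS.integrable_norm_sq (memLp_pr2 p (hg s)))

theorem HN.P_integrable (p : ι ≃ κ ⊕ κ') {W f : S → E → ℝ}
    (hW : ∀ s, Integrable (fun X => W s X * f s X ^ 2)) : Integrable (HN.P p W f) :=
  integrable_finsetSum _ fun s _ => HS.integrable_slice p (hW s)

theorem HN.inner_jn (p : ι ≃ κ ⊕ κ') (X : E) (l : EuclideanSpace ℝ κ) :
    inner ℝ X (jn p l 0) = inner ℝ (pr1 p X) l := by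
  simp only [PiLp.inner_apply]
  rw [← Equiv.sum_comp p.symm, Fintype.sum_sum_type]
  simp

/-- Fubini for the Euler–Lagrange identity -/
theorem HN.EL_slice (p : ι ≃ κ ⊕ κ') {f : S → E → ℝ} {g : S → E → E} (h : ∀ s, H1 (f s) (g s))
    {W : S → E → ℝ} (hW : ∀ s, Integrable (fun X => W s X * f s X ^ 2))
    {k : EuclideanSpace ℝ κ → ℝ} {l : EuclideanSpace ℝ κ → EuclideanSpace ℝ κ} {C : ℝ}
    (hkm : AEStronglyMeasurable k volume) (hkb : ∀ x, |k x| ≤ C)
    (hH : ∀ s, H1 (fun X => k (pr1 p X) * f s X)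
      (fun X => k (pr1 p X) • g s X + f s X • jn p (l (pr1 p X)) 0)) :
    Integrable (fun x => (1 / 2) * (k x * (HN.T p g x + HN.T2 p g x) +
      inner ℝ (HN.V p f g x) (l x)) + k x * HN.P p W f x) ∧
    ((1 / 2) * (∑ s, ∫ X, inner ℝ (g s X)
          (k (pr1 p X) • g s X + f s X • jn p (l (pr1 p X)) 0)) +
        ∑ s, ∫ X, W s X * k (pr1 p X) * f s X ^ 2) =
    ∫ x, ((1 / 2) * (k x * (HN.T p g x + HN.T2 p g x) +
      inner ℝ (HN.V p f g x) (l x)) + k x * HN.P p W f x) := by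
  have hf : ∀ s, MemLp (f s) 2 volume := fun s => (h s).memf
  have hg : ∀ s, MemLp (g s) 2 volume := fun s => (h s).memg
  have hi1 : ∀ s, Integrable (fun X => inner ℝ (g s X)
      (k (pr1 p X) • g s X + f s X • jn p (l (pr1 p X)) 0)) := fun s =>
    HS.integrable_inner (hg s) (hH s).memg
  have hkmE : AEStronglyMeasurable (fun X : E => k (pr1 p X)) volume := by
    have h1 : AEStronglyMeasurable (fun z : EuclideanSpace ℝ κ × EuclideanSpace ℝ κ' => k z.1)
      (volume.prod volume) := hkm.comp_fst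
    have h2 := (measurableEmbedding_jn p).aestronglyMeasurable_map_iff
      (g := fun X : E => k (pr1 p X)) (μ := (volume : Measure (EuclideanSpace ℝ κ)).prod
        (volume : Measure (EuclideanSpace ℝ κ')))
    rw [(measurePreserving_jn p).map_eq] at h2
    rw [h2]
    simpa [Function.comp_def] using h1
  have hi2 : ∀ s, Integrable (fun X => W s X * k (pr1 p X) * f s X ^ 2) := by
    intro s
    have := (hW s).bdd_mul hkmE (Eventually.of_forall fun X => hkb (pr1 p X))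
    refine this.congr (Eventually.of_forall fun X => ?_)
    simp only; ring
  -- pointwise form of the fibre integrals
  have hA : ∀ s, ∀ᵐ x : EuclideanSpace ℝ κ, (∫ y, inner ℝ (g s (jn p x y))
      (k (pr1 p (jn p x y)) • g s (jn p x y) +
        f s (jn p x y) • jn p (l (pr1 p (jn p x y))) 0)) =
      k x * ((∫ y, ‖pr1 p (g s (jn p x y))‖ ^ 2) + ∫ y, ‖pr2 p (g s (jn p x y))‖ ^ 2) +
        inner ℝ (∫ y, f s (jn p x y) • pr1 p (g s (jn p x y))) (l x) := by
    intro s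
    filter_upwards [MemLp.slice_right p (hf s), MemLp.slice_right p (memLp_pr1 p (hg s)),
      MemLp.slice_right p (memLp_pr2 p (hg s))] with x h1 h2 h3
    have e1 : ∀ y, inner ℝ (g s (jn p x y)) (k (pr1 p (jn p x y)) • g s (jn p x y) +
        f s (jn p x y) • jn p (l (pr1 p (jn p x y))) 0) =
        k x * (‖pr1 p (g s (jn p x y))‖ ^ 2 + ‖pr2 p (g s (jn p x y))‖ ^ 2) +
          inner ℝ (f s (jn p x y) • pr1 p (g s (jn p x y))) (l x) := by
      intro y
      rw [inner_add_right, inner_smul_right, inner_smul_right, HN.inner_jn, pr1_jn,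
        real_inner_self_eq_norm_sq, norm_sq_jn p, inner_smul_left]
      simp
    simp_rw [e1]
    have i1 : Integrable (fun y => ‖pr1 p (g s (jn p x y))‖ ^ 2) := HS.integrable_norm_sq h2
    have i2 : Integrable (fun y => ‖pr2 p (g s (jn p x y))‖ ^ 2) := HS.integrable_norm_sq h3
    have i3 : Integrable (fun y => f s (jn p x y) • pr1 p (g s (jn p x y))) :=
      HS.integrable_smul h1 h2
    have i4 : Integrable (fun y => k x * (‖pr1 p (g s (jn p x y))‖ ^ 2 +
      ‖pr2 p (g s (jn p x y))‖ ^ 2)) := (i1.add i2).const_mul _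
    have i5 : Integrable (fun y => inner ℝ (f s (jn p x y) • pr1 p (g s (jn p x y))) (l x)) :=
      i3.inner_const (l x)
    rw [integral_add i4 i5, integral_const_mul, integral_add i1 i2]
    congr 1
    have := integral_inner (𝕜 := ℝ) i3 (l x)
    simp_rw [real_inner_comm (l x)]
    exact this
  have hB : ∀ s, ∀ x : EuclideanSpace ℝ κ, (∫ y, W s (jn p x y) * k (pr1 p (jn p x y)) *
      f s (jn p x y) ^ 2) = k x * ∫ y, W s (jn p x y) * f s (jn p x y) ^ 2 := by
    intro s x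
    rw [← integral_const_mul]
    congr 1; funext y
    rw [pr1_jn]; ring
  have hAi : ∀ s, Integrable (fun x : EuclideanSpace ℝ κ =>
      k x * ((∫ y, ‖pr1 p (g s (jn p x y))‖ ^ 2) + ∫ y, ‖pr2 p (g s (jn p x y))‖ ^ 2) +
        inner ℝ (∫ y, f s (jn p x y) • pr1 p (g s (jn p x y))) (l x)) := fun s =>
    (HS.integrable_slice p (hi1 s)).congr (hA s)
  have hBi : ∀ s, Integrable (fun x : EuclideanSpace ℝ κ =>
      k x * ∫ y, W s (jn p x y) * f s (jn p x y) ^ 2) := fun s =>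
    (HS.integrable_slice p (hi2 s)).congr (Eventually.of_forall (hB s))
  have e : ∀ x, ((1 / 2) * (k x * (HN.T p g x + HN.T2 p g x) +
      inner ℝ (HN.V p f g x) (l x)) + k x * HN.P p W f x) =
      (1 / 2) * (∑ s, (k x * ((∫ y, ‖pr1 p (g s (jn p x y))‖ ^ 2) +
        ∫ y, ‖pr2 p (g s (jn p x y))‖ ^ 2) +
        inner ℝ (∫ y, f s (jn p x y) • pr1 p (g s (jn p x y))) (l x))) +
      ∑ s, k x * ∫ y, W s (jn p x y) * f s (jn p x y) ^ 2 := by
    intro x
    unfold HN.T HN.T2 HN.V HN.P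
    rw [Finset.sum_add_distrib, ← Finset.mul_sum, Finset.sum_add_distrib, sum_inner,
      ← Finset.mul_sum]
  have hi3 : Integrable (fun x => (1 / 2) * (∑ s, (k x * ((∫ y, ‖pr1 p (g s (jn p x y))‖ ^ 2) +
        ∫ y, ‖pr2 p (g s (jn p x y))‖ ^ 2) +
        inner ℝ (∫ y, f s (jn p x y) • pr1 p (g s (jn p x y))) (l x)))) :=
    (integrable_finsetSum _ fun s _ => hAi s).const_mul _
  have hi4 : Integrable (fun x => ∑ s, k x * ∫ y, W s (jn p x y) * f s (jn p x y) ^ 2) :=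
    integrable_finsetSum _ fun s _ => hBi s
  refine ⟨?_, ?_⟩
  · simp_rw [e]
    exact hi3.add hi4
  · simp_rw [e]
    rw [integral_add hi3 hi4, integral_const_mul, integral_finsetSum _ (fun s _ => hAi s),
      integral_finsetSum _ (fun s _ => hBi s)]
    congr 1
    · congr 1
      refine Finset.sum_congr rfl fun s _ => ?_
      rw [integral_jn p (hi1 s)]
      exact integral_congr_ae (hA s)
    · refine Finset.sum_congr rfl fun s _ => ?_
      rw [integral_jn p (hi2 s)]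
      exact integral_congr_ae (Eventually.of_forall (hB s))

/-- pointwise lower bound -/
theorem HN.lower (p : ι ≃ κ ⊕ κ') {f : S → E → ℝ} {g : S → E → E}
    (hf : ∀ s, MemLp (f s) 2 volume) (hg : ∀ s, MemLp (g s) 2 volume) {W : S → E → ℝ}
    {ε : ℝ} (hε : 0 < ε) {U : Set (EuclideanSpace ℝ κ)} {a : EuclideanSpace ℝ κ → ℝ}
    (ha : ∀ᵐ x ∂(volume.restrict U), a x * HN.q p f x ≤
      (1 / 2) * HN.T2 p g x + HN.P p W f x)
    (hUm : MeasurableSet U)
    {φ : EuclideanSpace ℝ κ → ℝ} (hφ : Test U φ) (hφ0 : ∀ x, 0 ≤ φ x) :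
    ∀ᵐ x, (1 / 2) * inner ℝ ((√(HN.q p f x + ε ^ 2))⁻¹ • HN.V p f g x) (gr φ x) +
        φ x * (a x * ((√(HN.q p f x + ε ^ 2))⁻¹ * HN.q p f x)) ≤
      (1 / 2) * (HN.k p f ε φ x * (HN.T p g x + HN.T2 p g x) +
      inner ℝ (HN.V p f g x) (HN.l p f g ε φ x)) + HN.k p f ε φ x * HN.P p W f x := by
  have ha' : ∀ᵐ x, x ∈ U → a x * HN.q p f x ≤
      (1 / 2) * HN.T2 p g x + HN.P p W f x := (ae_restrict_iff' hUm).1 ha
  filter_upwards [ha', HN.V_norm_le p hf hg] with x hx hV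
  have hq := HN.q_nonneg p f x
  have hT := HN.T_nonneg p g x
  unfold HN.k HN.l
  set N := √(HN.q p f x + ε ^ 2) with hN
  have hN0 : 0 < N := by positivity
  have hNsq : N ^ 2 = HN.q p f x + ε ^ 2 := Real.sq_sqrt (by positivity)
  rw [inner_add_right, inner_smul_right, inner_smul_right, inner_smul_right, inner_smul_left,
    real_inner_self_eq_norm_sq]
  simp only [conj_trivial]
  have h1 : φ x * (a x * HN.q p f x) ≤ φ x * ((1 / 2) * HN.T2 p g x + HN.P p W f x) := by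
    by_cases hxU : x ∈ U
    · exact mul_le_mul_of_nonneg_left (hx hxU) (hφ0 x)
    · have : φ x = 0 := by
        by_contra h0
        exact hxU (hφ.sub (subset_tsupport _ h0))
      rw [this]; simp
  have h2 : ‖HN.V p f g x‖ ^ 2 ≤ N ^ 2 * HN.T p g x := by
    have h3 := pow_le_pow_left₀ (norm_nonneg _) hV 2
    rw [mul_pow, Real.sq_sqrt hq, Real.sq_sqrt hT] at h3
    refine h3.trans (mul_le_mul_of_nonneg_right ?_ hT)
    rw [hNsq]; nlinarith
  have h3 : φ x * (N⁻¹ ^ 3 * ‖HN.V p f g x‖ ^ 2) ≤ φ x * (N⁻¹ * HN.T p g x) := by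
    refine mul_le_mul_of_nonneg_left ?_ (hφ0 x)
    calc N⁻¹ ^ 3 * ‖HN.V p f g x‖ ^ 2 ≤ N⁻¹ ^ 3 * (N ^ 2 * HN.T p g x) := by gcongr
      _ = _ := by field_simp
  have h4 : N⁻¹ * (φ x * (a x * HN.q p f x)) ≤
      N⁻¹ * (φ x * ((1 / 2) * HN.T2 p g x + HN.P p W f x)) :=
    mul_le_mul_of_nonneg_left h1 (by positivity)
  nlinarith

/-- Kato's inequality for the partial norm `N` (module HNorm): if the family `f` solves
`-½Δ f + w = 0` weakly (with `w s ∈ L¹`-type potential terms, tested with `H¹` families of the form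
`k(x) f s` ) and the fibre energies are bounded below by `a(x) N(x)²`, then
`-½Δ N + a N ≤ 0` weakly on `U`. -/
theorem kato_pnorm (p : ι ≃ κ ⊕ κ') {f : S → E → ℝ} {g : S → E → E}
    (h : ∀ s, H1 (f s) (g s)) {N : EuclideanSpace ℝ κ → ℝ}
    {m : EuclideanSpace ℝ κ → EuclideanSpace ℝ κ}
    (hN : ∀ x, N x = √(∑ s, ∫ y, f s (jn p x y) ^ 2)) (hm : H1 N m)
    {W : S → E → ℝ} (hW : ∀ s, Integrable (fun X => W s X * f s X ^ 2))
    {U : Set (EuclideanSpace ℝ κ)} (hU : IsOpen U)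
    (hEL : ∀ (k : EuclideanSpace ℝ κ → ℝ) (l : EuclideanSpace ℝ κ → EuclideanSpace ℝ κ) (C : ℝ),
      WG univ k l → (∀ x, |k x| ≤ C) → (∀ s, H1 (fun X => k (pr1 p X) * f s X)
        (fun X => k (pr1 p X) • g s X + f s X • jn p (l (pr1 p X)) 0)) → (∀ x, x ∉ U → k x = 0) →
      (1 / 2) * (∑ s, ∫ X, inner ℝ (g s X)
          (k (pr1 p X) • g s X + f s X • jn p (l (pr1 p X)) 0)) +
        ∑ s, ∫ X, W s X * k (pr1 p X) * f s X ^ 2 = 0)
    {a : EuclideanSpace ℝ κ → ℝ} (haint : LocallyIntegrableOn (fun x => a x * N x) U volume)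
    (ha : ∀ᵐ x ∂(volume.restrict U), a x * N x ^ 2 ≤
      (1 / 2) * (∑ s, ∫ y, ‖pr2 p (g s (jn p x y))‖ ^ 2) + ∑ s, ∫ y, W s (jn p x y) *
        f s (jn p x y) ^ 2)
    {φ : EuclideanSpace ℝ κ → ℝ} (hφ : Test U φ) (hφ0 : ∀ x, 0 ≤ φ x) :
    (1 / 2) * (∫ x, inner ℝ (m x) (gr φ x)) + ∫ x, a x * N x * φ x ≤ 0 := by
  have hf : ∀ s, MemLp (f s) 2 volume := fun s => (h s).memf
  have hg : ∀ s, MemLp (g s) 2 volume := fun s => (h s).memg
  have hNq : N = fun x => √(HN.q p f x) := by funext x; exact hN x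
  have hNsq : ∀ x, N x ^ 2 = HN.q p f x := fun x => by
    rw [hNq]; exact Real.sq_sqrt (HN.q_nonneg p f x)
  have hN0 : ∀ x, 0 ≤ N x := fun x => by rw [hNq]; exact Real.sqrt_nonneg _
  have hmm : m =ᵐ[volume] HN.m p f g := by
    have h1 := HN.H1_sqrt_q p h
    rw [← hNq] at h1
    exact H1.unique hm h1
  have ha' : ∀ᵐ x ∂(volume.restrict U), a x * HN.q p f x ≤
      (1 / 2) * HN.T2 p g x + HN.P p W f x := by
    filter_upwards [ha] with x hx
    rw [hNsq] at hx
    exact hx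
  obtain ⟨C, hC, hC'⟩ := HN.exists_bound hφ
  -- integrability of `a N φ`
  have haφ : Integrable (fun x => a x * N x * φ x) := by
    have h1 : IntegrableOn (fun x => a x * N x) (tsupport φ) volume :=
      haint.integrableOn_compact_subset hφ.sub hφ.cpt
    have h2 : IntegrableOn (fun x => a x * N x * φ x) (tsupport φ) volume :=
      h1.mul_bdd (c := C) hφ.smooth.continuous.aestronglyMeasurable
        (Eventually.of_forall fun x => hC x)
    rw [integrableOn_iff_integrable_of_support_subset] at h2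
    · exact h2
    · intro x hx
      refine subset_tsupport _ ?_
      intro h0
      exact hx (by simp [h0])
  set ε : ℕ → ℝ := fun n => 1 / ((n : ℝ) + 1) with hεd
  have hε : ∀ n, 0 < ε n := fun n => Nat.one_div_pos_of_nat
  have hεt : Tendsto ε atTop (𝓝 0) := tendsto_one_div_add_atTop_nhds_zero_nat
  -- the regularised inequality
  set L1 : ℕ → EuclideanSpace ℝ κ → ℝ := fun n x =>
    inner ℝ ((√(HN.q p f x + ε n ^ 2))⁻¹ • HN.V p f g x) (gr φ x) with hL1
  set L2 : ℕ → EuclideanSpace ℝ κ → ℝ := fun n x =>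
    φ x * (a x * ((√(HN.q p f x + ε n ^ 2))⁻¹ * HN.q p f x)) with hL2
  have hgrc : Continuous (gr φ) := (contDiff_gr hφ.smooth).continuous
  have hgr2 : MemLp (gr φ) 2 volume :=
    hgrc.memLp_of_hasCompactSupport (hasCompactSupport_gr hφ.cpt)
  have hT := HN.T_integrable p hg
  have hTm : AEStronglyMeasurable (fun x => √(HN.T p g x)) volume :=
    Real.continuous_sqrt.comp_aestronglyMeasurable hT.1
  have hT2 : MemLp (fun x => √(HN.T p g x)) 2 volume := by
    rw [memLp_two_iff_integrable_sq hTm]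
    refine hT.congr (Eventually.of_forall fun x => ?_)
    simp only [Real.sq_sqrt (HN.T_nonneg p g x)]
  have hbd1 : Integrable (fun x => √(HN.T p g x) * ‖gr φ x‖) := hT2.integrable_mul hgr2.norm
  have hinvm : ∀ n, AEStronglyMeasurable (fun x => (√(HN.q p f x + ε n ^ 2))⁻¹) volume := by
    intro n
    have h1 : AEStronglyMeasurable (fun x => √(HN.q p f x + ε n ^ 2)) volume :=
      Real.continuous_sqrt.comp_aestronglyMeasurable
        ((HN.q_integrable p hf).1.add aestronglyMeasurable_const)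
    exact h1.aemeasurable.inv.aestronglyMeasurable
  have hL1m : ∀ n, AEStronglyMeasurable (L1 n) volume := fun n =>
    ((hinvm n).smul (HN.V_integrable p hf hg).1).inner hgrc.aestronglyMeasurable
  have hL2e : ∀ n x, L2 n x = (a x * N x * φ x) * ((√(HN.q p f x + ε n ^ 2))⁻¹ * N x) := by
    intro n x
    simp only [hL2]
    rw [← hNsq]; ring
  have hfrac : ∀ n x, |(√(HN.q p f x + ε n ^ 2))⁻¹ * N x| ≤ 1 := by
    intro n x
    have h1 : N x ≤ √(HN.q p f x + ε n ^ 2) := by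
      rw [hNq]
      exact Real.sqrt_le_sqrt (by nlinarith [sq_nonneg (ε n)])
    have h2 : 0 < √(HN.q p f x + ε n ^ 2) := by
      have := HN.q_nonneg p f x
      have := hε n
      positivity
    rw [abs_of_nonneg (mul_nonneg (by positivity) (hN0 x)), inv_mul_le_iff₀ h2]
    linarith
  have hNm : AEStronglyMeasurable N volume := hm.memf.1
  have hL2i : ∀ n, Integrable (L2 n) := by
    intro n
    have : Integrable (fun x => (a x * N x * φ x) * ((√(HN.q p f x + ε n ^ 2))⁻¹ * N x)) :=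
      haφ.mul_bdd (c := 1) ((hinvm n).mul hNm) (Eventually.of_forall fun x => hfrac n x)
    exact this.congr (Eventually.of_forall fun x => (hL2e n x).symm)
  have hb1 : ∀ n, ∀ᵐ x, ‖L1 n x‖ ≤ √(HN.T p g x) * ‖gr φ x‖ := by
    intro n
    filter_upwards [HN.V_bound p hf hg] with x hx
    exact (norm_inner_le_norm _ _).trans
      (mul_le_mul_of_nonneg_right (hx (ε n)) (norm_nonneg _))
  have hL1i : ∀ n, Integrable (L1 n) := fun n => hbd1.mono' (hL1m n) (hb1 n)
  have hineq : ∀ n, (1 / 2) * (∫ x, L1 n x) + ∫ x, L2 n x ≤ 0 := by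
    intro n
    have hk := HN.WG_k p h (hε n) hφ
    have hkm : AEStronglyMeasurable (HN.k p f (ε n) φ) volume := by
      have := hk.intf
      rw [locallyIntegrableOn_univ] at this
      exact this.aestronglyMeasurable
    have hkU : ∀ x, x ∉ U → HN.k p f (ε n) φ x = 0 := by
      intro x hx
      have : φ x = 0 := by
        by_contra h0
        exact hx (hφ.sub (subset_tsupport _ h0))
      simp [HN.k, this]
    have hH := HN.H1_k p h (hε n) hφ
    have e0 := hEL (HN.k p f (ε n) φ) (HN.l p f g (ε n) φ) (C * (ε n)⁻¹) hk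
      (HN.k_bound p f (hε n) hC) hH hkU
    obtain ⟨hi, e1⟩ := HN.EL_slice p h hW hkm (HN.k_bound p f (hε n) hC) hH
    rw [e1] at e0
    rw [← integral_const_mul, ← integral_add ((hL1i n).const_mul _) (hL2i n), ← e0]
    exact integral_mono_ae (((hL1i n).const_mul _).add (hL2i n)) hi
      (HN.lower p hf hg (hε n) ha' hU.measurableSet hφ hφ0)
  -- passage to the limit
  have hsq : ∀ x, Tendsto (fun n => √(HN.q p f x + ε n ^ 2)) atTop (𝓝 (N x)) := by
    intro x
    have h1 : Tendsto (fun n => HN.q p f x + ε n ^ 2) atTop (𝓝 (HN.q p f x + 0 ^ 2)) :=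
      tendsto_const_nhds.add (hεt.pow 2)
    have := (Real.continuous_sqrt.tendsto _).comp h1
    rw [hNq]
    simpa [Function.comp_def] using this
  have ht1 : Tendsto (fun n => ∫ x, L1 n x) atTop (𝓝 (∫ x, inner ℝ (m x) (gr φ x))) := by
    refine tendsto_integral_of_dominated_convergence (fun x => √(HN.T p g x) * ‖gr φ x‖)
      hL1m hbd1 hb1 ?_
    filter_upwards [hmm, HN.V_norm_le p hf hg] with x hmx hx
    rw [hmx]
    have h2 : Tendsto (fun n => (√(HN.q p f x + ε n ^ 2))⁻¹ • HN.V p f g x) atTop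
        (𝓝 (HN.m p f g x)) := by
      rcases eq_or_ne (√(HN.q p f x)) 0 with h0 | h0
      · rw [h0, zero_mul] at hx
        have hV : HN.V p f g x = 0 := norm_le_zero_iff.1 hx
        simp [HN.m, hV]
      · have h1 := hsq x
        rw [hNq] at h1
        exact (h1.inv₀ h0).smul_const _
    exact h2.inner tendsto_const_nhds
  have ht2 : Tendsto (fun n => ∫ x, L2 n x) atTop (𝓝 (∫ x, a x * N x * φ x)) := by
    refine tendsto_integral_of_dominated_convergence (fun x => ‖a x * N x * φ x‖)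
      (fun n => (hL2i n).1) haφ.norm ?_ ?_
    · intro n
      refine Eventually.of_forall fun x => ?_
      rw [hL2e, norm_mul]
      exact mul_le_of_le_one_right (norm_nonneg _) (hfrac n x)
    · refine Eventually.of_forall fun x => ?_
      simp_rw [hL2e]
      rcases eq_or_ne (N x) 0 with h0 | h0
      · simp [h0]
      · have h1 := ((hsq x).inv₀ h0).mul_const (N x)
        rw [inv_mul_cancel₀ h0] at h1
        simpa using h1.const_mul (a x * N x * φ x)
  exact le_of_tendsto' ((ht1.const_mul _).add ht2) hineq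

end Crest.Agent.R335
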