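import Crest.Agent.R335.HMoll

/-!
Row 335 (S0521), module HPoin: Poincaré inequality on cubes.
-/

set_option autoImplicit false
set_option linter.unusedSectionVars false

open MeasureTheory Filter Set
open scoped ENNReal Topology ContDiff

noncomputable section
namespace Crest.Agent.R335

variable {ι : Type*} [Fintype ι] [DecidableEq ι]

local notation "E" => EuclideanSpace ℝ ι

namespace Poin

/-- exchange of the coordinates in `s` between two points -/
def sw (s : Finset ι) (p : (ι → ℝ) × (ι → ℝ)) : (ι → ℝ) × (ι → ℝ) :=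
  (s.piecewise p.2 p.1, s.piecewise p.1 p.2)

theorem measurePreserving_sw (μ : ι → Measure ℝ) [∀ i, SigmaFinite (μ i)] (s : Finset ι) :
    MeasurePreserving (sw s) ((Measure.pi μ).prod (Measure.pi μ))
      ((Measure.pi μ).prod (Measure.pi μ)) := by
  have h1 := measurePreserving_arrowProdEquivProdArrow ℝ ℝ ι μ μ
  have h2 : MeasurePreserving (fun (w : ι → ℝ × ℝ) i => if i ∈ s then (w i).swap else w i)
      (.pi fun i ↦ (μ i).prod (μ i)) (.pi fun i ↦ (μ i).prod (μ i)) := by
    have := measurePreserving_pi (fun i ↦ (μ i).prod (μ i)) (fun i ↦ (μ i).prod (μ i))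
      (f := fun i (w : ℝ × ℝ) => if i ∈ s then w.swap else w) (fun i => by
        by_cases hi : i ∈ s
        · simp only [hi, if_true]
          exact Measure.measurePreserving_swap
        · simp only [hi, if_false]
          exact MeasurePreserving.id _)
    exact this
  have h3 := (h1.comp h2).comp h1.symm
  convert h3 using 1
  ext p i
  · simp only [sw, Function.comp_apply, MeasurableEquiv.arrowProdEquivProdArrow]
    by_cases hi : i ∈ s <;> simp [hi, Equiv.arrowProdEquivProdArrow, Finset.piecewise]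
  · simp only [sw, Function.comp_apply, MeasurableEquiv.arrowProdEquivProdArrow]
    by_cases hi : i ∈ s <;> simp [hi, Equiv.arrowProdEquivProdArrow, Finset.piecewise]

theorem measurable_upd (k : ι) :
    Measurable (fun p : (ι → ℝ) × (ι → ℝ) => Function.update p.1 k (p.2 k)) := by
  refine measurable_pi_iff.2 fun i => ?_
  by_cases hi : i = k
  · subst hi
    simp only [Function.update_self]
    exact (measurable_pi_apply i).comp measurable_snd
  · simp only [Function.update_of_ne hi]
    exact (measurable_pi_apply i).comp measurable_fst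

theorem measurable_pw (s : Finset ι) :
    Measurable (fun p : (ι → ℝ) × (ι → ℝ) => s.piecewise p.2 p.1) := by
  refine measurable_pi_iff.2 fun i => ?_
  by_cases hi : i ∈ s
  · simp only [Finset.piecewise, hi, if_true]
    exact (measurable_pi_apply i).comp measurable_snd
  · simp only [Finset.piecewise, hi, if_false]
    exact (measurable_pi_apply i).comp measurable_fst

/-- the energy of the `k`-th direction -/
def Dk (μ : ι → Measure ℝ) (F : (ι → ℝ) → ℝ) (k : ι) : ℝ≥0∞ :=
  ∫⁻ p, ENNReal.ofReal ((F p.1 - F (Function.update p.1 k (p.2 k))) ^ 2)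
    ∂((Measure.pi μ).prod (Measure.pi μ))

theorem ofReal_sq_add_le {A B m : ℝ} (hm : 0 < m) :
    ENNReal.ofReal ((A + B) ^ 2) ≤ ENNReal.ofReal (1 + m⁻¹) * ENNReal.ofReal (A ^ 2) +
      ENNReal.ofReal (1 + m) * ENNReal.ofReal (B ^ 2) := by
  have hm' : 0 < m⁻¹ := inv_pos.2 hm
  rw [← ENNReal.ofReal_mul (by positivity), ← ENNReal.ofReal_mul (by positivity),
    ← ENNReal.ofReal_add (by positivity) (by positivity)]
  apply ENNReal.ofReal_le_ofReal
  have h1 : m * m⁻¹ = 1 := mul_inv_cancel₀ hm.ne'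
  have h2 : 0 ≤ m⁻¹ * (A - m * B) ^ 2 := by positivity
  have h3 : m⁻¹ * (A - m * B) ^ 2 = m⁻¹ * A ^ 2 - 2 * A * B + m * B ^ 2 := by
    field_simp
    ring
  nlinarith

theorem hybrid (μ : ι → Measure ℝ) [∀ i, SigmaFinite (μ i)] {F : (ι → ℝ) → ℝ}
    (hF : Measurable F) (s : Finset ι) :
    ∫⁻ p, ENNReal.ofReal ((F p.1 - F (s.piecewise p.2 p.1)) ^ 2)
      ∂((Measure.pi μ).prod (Measure.pi μ)) ≤ (s.card : ℝ≥0∞) * ∑ k ∈ s, Dk μ F k := by
  induction s using Finset.induction_on with
  | empty => simp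
  | insert k s hk ih =>
    have hstep : ∫⁻ p, ENNReal.ofReal ((F (s.piecewise p.2 p.1) -
        F ((insert k s).piecewise p.2 p.1)) ^ 2) ∂((Measure.pi μ).prod (Measure.pi μ)) =
        Dk μ F k := by
      have h := (measurePreserving_sw μ s).lintegral_comp
        (f := fun p => ENNReal.ofReal ((F p.1 - F (Function.update p.1 k (p.2 k))) ^ 2)) (by
          have h1 := hF.comp (measurable_fst : Measurable (Prod.fst : (ι → ℝ) × (ι → ℝ) → (ι → ℝ)))
          have h2 := hF.comp (measurable_upd (ι := ι) k)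
          exact ((h1.sub h2).pow_const 2).ennreal_ofReal)
      rw [Dk, ← h]
      refine lintegral_congr fun p => ?_
      have e1 : (insert k s).piecewise p.2 p.1 =
          Function.update (s.piecewise p.2 p.1) k (p.2 k) := by
        rw [Finset.piecewise_insert]
      have e2 : (s.piecewise p.1 p.2) k = p.2 k := by simp [hk]
      simp only [sw, e1, e2]
    rcases s.eq_empty_or_nonempty with rfl | hs
    · simp only [Finset.piecewise_empty] at hstep
      simpa using hstep.le
    · have hm : (0 : ℝ) < s.card := by exact_mod_cast hs.card_pos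
      have hm0 : (s.card : ℝ≥0∞) ≠ 0 := by
        simpa using hs.card_pos.ne'
      have hA : Measurable fun p : (ι → ℝ) × (ι → ℝ) =>
          ENNReal.ofReal ((F p.1 - F (s.piecewise p.2 p.1)) ^ 2) := by
        have h1 := hF.comp (measurable_fst : Measurable (Prod.fst : (ι → ℝ) × (ι → ℝ) → (ι → ℝ)))
        have h2 := hF.comp (measurable_pw (ι := ι) s)
        exact ((h1.sub h2).pow_const 2).ennreal_ofReal
      have hB : Measurable fun p : (ι → ℝ) × (ι → ℝ) =>
          ENNReal.ofReal ((F (s.piecewise p.2 p.1) -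
            F ((insert k s).piecewise p.2 p.1)) ^ 2) := by
        have h1 := hF.comp (measurable_pw (ι := ι) s)
        have h2 := hF.comp (measurable_pw (ι := ι) (insert k s))
        exact ((h1.sub h2).pow_const 2).ennreal_ofReal
      calc ∫⁻ p, ENNReal.ofReal ((F p.1 - F ((insert k s).piecewise p.2 p.1)) ^ 2)
            ∂((Measure.pi μ).prod (Measure.pi μ))
          ≤ ∫⁻ p, (ENNReal.ofReal (1 + (s.card : ℝ)⁻¹) *
              ENNReal.ofReal ((F p.1 - F (s.piecewise p.2 p.1)) ^ 2) +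
              ENNReal.ofReal (1 + (s.card : ℝ)) * ENNReal.ofReal ((F (s.piecewise p.2 p.1) -
                F ((insert k s).piecewise p.2 p.1)) ^ 2))
              ∂((Measure.pi μ).prod (Measure.pi μ)) := by
            refine lintegral_mono fun p => ?_
            have := ofReal_sq_add_le (A := F p.1 - F (s.piecewise p.2 p.1))
              (B := F (s.piecewise p.2 p.1) - F ((insert k s).piecewise p.2 p.1)) hm
            simpa using this
        _ = ENNReal.ofReal (1 + (s.card : ℝ)⁻¹) *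
              (∫⁻ p, ENNReal.ofReal ((F p.1 - F (s.piecewise p.2 p.1)) ^ 2)
              ∂((Measure.pi μ).prod (Measure.pi μ))) +
              ENNReal.ofReal (1 + (s.card : ℝ)) * Dk μ F k := by
            rw [lintegral_add_left (hA.const_mul _), lintegral_const_mul _ hA,
              lintegral_const_mul _ hB, hstep]
        _ ≤ ENNReal.ofReal (1 + (s.card : ℝ)⁻¹) * ((s.card : ℝ≥0∞) * ∑ k ∈ s, Dk μ F k) +
              ENNReal.ofReal (1 + (s.card : ℝ)) * Dk μ F k := by gcongr
        _ = ((insert k s).card : ℝ≥0∞) * ∑ k ∈ insert k s, Dk μ F k := by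
            rw [Finset.sum_insert hk, Finset.card_insert_of_notMem hk]
            have e1 : ENNReal.ofReal (1 + (s.card : ℝ)⁻¹) * (s.card : ℝ≥0∞) =
                ((s.card + 1 : ℕ) : ℝ≥0∞) := by
              rw [← ENNReal.ofReal_natCast, ← ENNReal.ofReal_mul (by positivity),
                ← ENNReal.ofReal_natCast]
              congr 1
              push_cast
              field_simp
            have e2 : ENNReal.ofReal (1 + (s.card : ℝ)) = ((s.card + 1 : ℕ) : ℝ≥0∞) := by
              rw [← ENNReal.ofReal_natCast]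
              congr 1
              push_cast
              ring
            rw [← mul_assoc, e1, e2]
            ring

/-- one-dimensional Poincaré estimate -/
theorem one_dim {h h' : ℝ → ℝ} (hd : ∀ t, HasDerivAt h (h' t) t) (hc : Continuous h') {b a : ℝ}
    {u v : ℝ} (hu : u ∈ Ioo b (b + a)) (hv : v ∈ Ioo b (b + a)) :
    (h u - h v) ^ 2 ≤ a * ∫ t in Ioo b (b + a), h' t ^ 2 := by
  wlog huv : u ≤ v generalizing u v
  · have := this hv hu (le_of_not_ge huv)
    rw [show (h u - h v) ^ 2 = (h v - h u) ^ 2 by ring]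
    exact this
  have ha : 0 < a := by have := hu.1.trans hu.2; linarith
  rcases huv.eq_or_lt with rfl | huv
  · have : 0 ≤ ∫ t in Ioo b (b + a), h' t ^ 2 := integral_nonneg fun t => sq_nonneg _
    simpa using mul_nonneg ha.le this
  have hI : IntervalIntegrable (fun t => h' t) volume u v := hc.intervalIntegrable _ _
  have hI2 : IntervalIntegrable (fun t => h' t ^ 2) volume u v :=
    (hc.pow 2).intervalIntegrable _ _
  have e : ∫ t in u..v, h' t = h v - h u :=
    intervalIntegral.integral_eq_sub_of_hasDerivAt (fun t _ => hd t) hI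
  set m := (h v - h u) / (v - u) with hm
  have hvu : 0 < v - u := by linarith
  have h0 : 0 ≤ ∫ t in u..v, (h' t - m) ^ 2 :=
    intervalIntegral.integral_nonneg huv.le fun t _ => sq_nonneg _
  have h1 : ∫ t in u..v, (h' t - m) ^ 2 =
      (∫ t in u..v, h' t ^ 2) - 2 * m * (h v - h u) + m ^ 2 * (v - u) := by
    have e3 : ∀ t, (h' t - m) ^ 2 = (h' t ^ 2 - 2 * m * h' t) + m ^ 2 := fun t => by ring
    simp_rw [e3]
    rw [intervalIntegral.integral_add (hI2.sub (hI.const_mul _)) (by simp),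
      intervalIntegral.integral_sub hI2 (hI.const_mul _), intervalIntegral.integral_const_mul, e,
      intervalIntegral.integral_const]
    simp
    ring
  have h2 : (h v - h u) ^ 2 ≤ (v - u) * ∫ t in u..v, h' t ^ 2 := by
    have hmm : m * (v - u) = h v - h u := by rw [hm]; field_simp
    rw [h1] at h0
    have : 0 ≤ (v - u) * ((∫ t in u..v, h' t ^ 2) - 2 * m * (h v - h u) + m ^ 2 * (v - u)) := by
      positivity
    have e4 : (v - u) * ((∫ t in u..v, h' t ^ 2) - 2 * m * (h v - h u) + m ^ 2 * (v - u)) =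
        (v - u) * (∫ t in u..v, h' t ^ 2) - (h v - h u) ^ 2 := by
      have : m ^ 2 * (v - u) * (v - u) = (h v - h u) ^ 2 := by rw [← hmm]; ring
      have : m * (v - u) * (h v - h u) = (h v - h u) ^ 2 := by rw [hmm]; ring
      nlinarith
    linarith
  have h3 : ∫ t in u..v, h' t ^ 2 ≤ ∫ t in Ioo b (b + a), h' t ^ 2 := by
    rw [intervalIntegral.integral_of_le huv.le]
    apply setIntegral_mono_set
    · exact ((hc.pow 2).integrableOn_Icc (a := b) (b := b + a)).mono_set Ioo_subset_Icc_self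
    · exact Eventually.of_forall fun t => sq_nonneg _
    · refine (Ioc_subset_Ioo_right ?_).trans (Ioo_subset_Ioo_left ?_) |>.eventuallyLE
      · exact hv.2
      · exact hu.1.le
  have h4 : 0 ≤ ∫ t in u..v, h' t ^ 2 :=
    intervalIntegral.integral_nonneg huv.le fun t _ => sq_nonneg _
  calc (h u - h v) ^ 2 = (h v - h u) ^ 2 := by ring
    _ ≤ (v - u) * ∫ t in u..v, h' t ^ 2 := h2
    _ ≤ a * ∫ t in u..v, h' t ^ 2 := by
        apply mul_le_mul_of_nonneg_right _ h4
        have := hu.1; have := hv.2; linarith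
    _ ≤ a * ∫ t in Ioo b (b + a), h' t ^ 2 := by gcongr

/-- normalised Lebesgue measure on the interval `(b, b+a)` -/
def nu (b a : ℝ) : Measure ℝ := (ENNReal.ofReal a)⁻¹ • volume.restrict (Ioo b (b + a))

theorem isProb_nu {b a : ℝ} (ha : 0 < a) : IsProbabilityMeasure (nu b a) := by
  constructor
  rw [nu, Measure.smul_apply, Measure.restrict_apply MeasurableSet.univ, univ_inter,
    Real.volume_Ioo, add_sub_cancel_left, smul_eq_mul]
  exact ENNReal.inv_mul_cancel (by simpa using ha) ENNReal.ofReal_ne_top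

theorem Dk_le {b : ι → ℝ} {a : ℝ} (ha : 0 < a) {F : (ι → ℝ) → ℝ} (hF : ContDiff ℝ 1 F) (k : ι) :
    Dk (fun i => nu (b i) a) F k ≤ ENNReal.ofReal (a ^ 2) *
      ∫⁻ x, ENNReal.ofReal ((fderiv ℝ F x (Pi.single k 1)) ^ 2)
        ∂(Measure.pi fun i => nu (b i) a) := by
  have : ∀ i, IsProbabilityMeasure (nu (b i) a) := fun i => isProb_nu ha
  set μ : ι → Measure ℝ := fun i => nu (b i) a with hμ
  set P := Measure.pi μ with hP
  set G : (ι → ℝ) → ℝ := fun x => fderiv ℝ F x (Pi.single k 1) with hG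
  have hGc : Continuous G := (hF.continuous_fderiv one_ne_zero).clm_apply continuous_const
  have hGm : Measurable fun x => ENNReal.ofReal (G x ^ 2) :=
    ((hGc.measurable).pow_const 2).ennreal_ofReal
  -- derivative along the k-th line
  have hd : ∀ (x : ι → ℝ) (t : ℝ), HasDerivAt (fun t => F (Function.update x k t))
      (G (Function.update x k t)) t := by
    intro x t
    have h1 : HasFDerivAt F (fderiv ℝ F (Function.update x k t)) (Function.update x k t) :=
      (hF.differentiable one_ne_zero _).hasFDerivAt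
    have h2 : HasDerivAt (fun t : ℝ => Function.update x k t) (Pi.single k 1) t :=
      hasDerivAt_update x k t
    exact h1.comp_hasDerivAt t h2
  have hsupp : ∀ᵐ x ∂P, ∀ i, x i ∈ Ioo (b i) (b i + a) := by
    have : ∀ i, ∀ᵐ t ∂(μ i), t ∈ Ioo (b i) (b i + a) := by
      intro i
      have h1 : ∀ᵐ t ∂(volume.restrict (Ioo (b i) (b i + a))), t ∈ Ioo (b i) (b i + a) :=
        ae_restrict_mem measurableSet_Ioo
      exact Measure.ae_smul_measure h1 _
    rw [hP, ae_all_iff]
    intro i
    exact (Measure.tendsto_eval_ae_ae (μ := μ) (i := i)).eventually (this i)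
  have hsupp2 : ∀ᵐ p ∂(P.prod P), (∀ i, p.1 i ∈ Ioo (b i) (b i + a)) ∧
      (∀ i, p.2 i ∈ Ioo (b i) (b i + a)) :=
    (Measure.quasiMeasurePreserving_fst.ae hsupp).and (Measure.quasiMeasurePreserving_snd.ae hsupp)
  have hline : ∀ x : ι → ℝ, ∀ u v, u ∈ Ioo (b k) (b k + a) → v ∈ Ioo (b k) (b k + a) →
      ENNReal.ofReal ((F (Function.update x k u) - F (Function.update x k v)) ^ 2) ≤
        ENNReal.ofReal (a ^ 2) * ∫⁻ t, ENNReal.ofReal (G (Function.update x k t) ^ 2) ∂(μ k) := by
    intro x u v hu hv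
    have hcont : Continuous fun t => G (Function.update x k t) :=
      hGc.comp (continuous_const.update k continuous_id)
    have h1 := one_dim (hd x) hcont hu hv
    have h2 : ENNReal.ofReal (∫ t in Ioo (b k) (b k + a), G (Function.update x k t) ^ 2) =
        ∫⁻ t in Ioo (b k) (b k + a), ENNReal.ofReal (G (Function.update x k t) ^ 2) := by
      apply ofReal_integral_eq_lintegral_ofReal
      · exact ((hcont.pow 2).integrableOn_Icc (a := b k) (b := b k + a)).mono_set
          Ioo_subset_Icc_self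
      · exact Eventually.of_forall fun t => sq_nonneg _
    calc ENNReal.ofReal ((F (Function.update x k u) - F (Function.update x k v)) ^ 2)
        ≤ ENNReal.ofReal (a * ∫ t in Ioo (b k) (b k + a), G (Function.update x k t) ^ 2) :=
          ENNReal.ofReal_le_ofReal h1
      _ = ENNReal.ofReal a *
          ∫⁻ t in Ioo (b k) (b k + a), ENNReal.ofReal (G (Function.update x k t) ^ 2) := by
          rw [ENNReal.ofReal_mul ha.le, h2]
      _ = ENNReal.ofReal (a ^ 2) *
          ∫⁻ t, ENNReal.ofReal (G (Function.update x k t) ^ 2) ∂(μ k) := by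
          rw [hμ]
          simp only [nu]
          rw [lintegral_smul_measure, smul_eq_mul, ← mul_assoc, pow_two, ENNReal.ofReal_mul ha.le,
            mul_assoc (ENNReal.ofReal a) (ENNReal.ofReal a),
            ENNReal.mul_inv_cancel (by simpa using ha) ENNReal.ofReal_ne_top, mul_one]
  have hmeas1 : Measurable fun p : (ι → ℝ) × (ι → ℝ) =>
      ENNReal.ofReal (G (Function.update p.1 k (p.2 k)) ^ 2) := hGm.comp (measurable_upd k)
  calc Dk μ F k
      ≤ ∫⁻ p, (ENNReal.ofReal (a ^ 2) *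
          ∫⁻ t, ENNReal.ofReal (G (Function.update p.1 k t) ^ 2) ∂(μ k)) ∂(P.prod P) := by
        refine lintegral_mono_ae ?_
        filter_upwards [hsupp2] with p hp
        have := hline p.1 (p.1 k) (p.2 k) (hp.1 k) (hp.2 k)
        rwa [Function.update_eq_self] at this
    _ = ENNReal.ofReal (a ^ 2) * ∫⁻ x, (∫⁻ t, ENNReal.ofReal (G (Function.update x k t) ^ 2)
          ∂(μ k)) ∂P := by
        have hm2 : Measurable fun x : ι → ℝ =>
            ∫⁻ t, ENNReal.ofReal (G (Function.update x k t) ^ 2) ∂(μ k) := by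
          refine Measurable.lintegral_prod_right'
            (f := fun x : (ι → ℝ) × ℝ => ENNReal.ofReal (G (Function.update x.1 k x.2) ^ 2)) ?_
          refine hGm.comp ?_
          refine measurable_pi_iff.2 fun i => ?_
          by_cases hi : i = k
          · subst hi
            simp only [Function.update_self]
            exact measurable_snd
          · simp only [Function.update_of_ne hi]
            exact (measurable_pi_apply i).comp measurable_fst
        rw [← lintegral_const_mul _ hm2]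
        exact (measurePreserving_fst (μ := P) (ν := P)).lintegral_comp (hm2.const_mul _)
    _ = ENNReal.ofReal (a ^ 2) * ∫⁻ x, (∫⁻ y, ENNReal.ofReal (G (Function.update x k (y k)) ^ 2)
          ∂P) ∂P := by
        congr 1
        refine lintegral_congr fun x => ?_
        have hme : Measurable fun t : ℝ => ENNReal.ofReal (G (Function.update x k t) ^ 2) :=
          hGm.comp (measurable_update x)
        exact ((measurePreserving_eval μ k).lintegral_comp hme).symm
    _ = ENNReal.ofReal (a ^ 2) * ∫⁻ p, ENNReal.ofReal (G (Function.update p.1 k (p.2 k)) ^ 2)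
          ∂(P.prod P) := by
        rw [lintegral_prod _ hmeas1.aemeasurable]
    _ = ENNReal.ofReal (a ^ 2) * ∫⁻ p, ENNReal.ofReal (G p.1 ^ 2) ∂(P.prod P) := by
        congr 1
        have h := (measurePreserving_sw μ {k}).lintegral_comp (hGm.comp measurable_fst)
        rw [← hP] at h
        have h' : ∫⁻ p, ENNReal.ofReal (G (Function.update p.1 k (p.2 k)) ^ 2) ∂(P.prod P) =
            ∫⁻ p, (fun q : (ι → ℝ) × (ι → ℝ) => ENNReal.ofReal (G q.1 ^ 2)) (sw {k} p)
              ∂(P.prod P) := by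
          refine lintegral_congr fun p => ?_
          simp only [sw, Finset.piecewise_singleton]
        rw [h']
        exact h
    _ = ENNReal.ofReal (a ^ 2) * ∫⁻ x, ENNReal.ofReal (G x ^ 2) ∂P := by
        congr 1
        exact (measurePreserving_fst (μ := P) (ν := P)).lintegral_comp hGm

/-- the open cube in `ι → ℝ` -/
def cube (b : ι → ℝ) (a : ℝ) : Set (ι → ℝ) := Set.pi univ fun i => Ioo (b i) (b i + a)

theorem pi_nu (b : ι → ℝ) {a : ℝ} (ha : 0 < a) :
    Measure.pi (fun i => nu (b i) a) =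
      ((ENNReal.ofReal a)⁻¹ ^ Fintype.card ι) • volume.restrict (cube b a) := by
  have h1 : volume.restrict (cube b a) =
      Measure.pi fun i => (volume : Measure ℝ).restrict (Ioo (b i) (b i + a)) := by
    rw [cube, volume_pi, Measure.restrict_pi_pi]
  have : ∀ i, IsProbabilityMeasure (nu (b i) a) := fun i => isProb_nu ha
  refine Measure.pi_eq fun s hs => ?_
  rw [Measure.smul_apply, h1, Measure.pi_pi, smul_eq_mul]
  simp only [nu, Measure.smul_apply, smul_eq_mul]
  rw [Finset.prod_mul_distrib, Finset.prod_const, Finset.card_univ]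

theorem integrable_nu (b : ι → ℝ) {a : ℝ} (ha : 0 < a) {H : (ι → ℝ) → ℝ} (hH : Continuous H) :
    Integrable H (Measure.pi (fun i => nu (b i) a)) := by
  rw [pi_nu b ha]
  refine Integrable.smul_measure ?_ ?_
  · have h1 : IntegrableOn H (Set.pi univ fun i => Icc (b i) (b i + a)) volume :=
      hH.continuousOn.integrableOn_compact (isCompact_univ_pi fun i => isCompact_Icc)
    exact h1.mono_set (Set.pi_mono fun i _ => Ioo_subset_Icc_self)
  · exact ENNReal.pow_ne_top (ENNReal.inv_ne_top.2 (by simpa using ha))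

theorem integral_nu (b : ι → ℝ) {a : ℝ} (ha : 0 < a) (H : (ι → ℝ) → ℝ) :
    ∫ x, H x ∂(Measure.pi (fun i => nu (b i) a)) =
      a⁻¹ ^ Fintype.card ι * ∫ x in cube b a, H x := by
  rw [pi_nu b ha, integral_smul_measure, smul_eq_mul, ENNReal.toReal_pow, ENNReal.toReal_inv,
    ENNReal.toReal_ofReal ha.le]

theorem variance_le (b : ι → ℝ) {a : ℝ} (ha : 0 < a) {F : (ι → ℝ) → ℝ} (hF : ContDiff ℝ 1 F) :
    2 * ((∫ x, F x ^ 2 ∂(Measure.pi (fun i => nu (b i) a))) -
        (∫ x, F x ∂(Measure.pi (fun i => nu (b i) a))) ^ 2) ≤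
      (Fintype.card ι : ℝ) * (a ^ 2 * ∑ k, ∫ x, (fderiv ℝ F x (Pi.single k 1)) ^ 2
        ∂(Measure.pi (fun i => nu (b i) a))) := by
  have : ∀ i, IsProbabilityMeasure (nu (b i) a) := fun i => isProb_nu ha
  set P := Measure.pi (fun i => nu (b i) a) with hP
  have hFc : Continuous F := hF.continuous
  have hI1 : Integrable F P := integrable_nu b ha hFc
  have hI2 : Integrable (fun x => F x ^ 2) P := integrable_nu b ha (hFc.pow 2)
  have hGc : ∀ k : ι, Continuous fun x => fderiv ℝ F x (Pi.single k 1) := fun k =>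
    (hF.continuous_fderiv one_ne_zero).clm_apply continuous_const
  have hIG : ∀ k : ι, Integrable (fun x => (fderiv ℝ F x (Pi.single k 1)) ^ 2) P := fun k =>
    integrable_nu b ha ((hGc k).pow 2)
  have h1 := hybrid (fun i => nu (b i) a) hFc.measurable Finset.univ
  simp only [Finset.piecewise_univ, Finset.card_univ] at h1
  rw [← hP] at h1
  have h2 : (Fintype.card ι : ℝ≥0∞) * ∑ k, Dk (fun i => nu (b i) a) F k ≤
      ENNReal.ofReal ((Fintype.card ι : ℝ) * (a ^ 2 * ∑ k, ∫ x, (fderiv ℝ F x (Pi.single k 1)) ^ 2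
        ∂P)) := by
    rw [ENNReal.ofReal_mul (by positivity), ENNReal.ofReal_natCast,
      ENNReal.ofReal_mul (by positivity), ENNReal.ofReal_sum_of_nonneg
        (fun k _ => integral_nonneg fun x => sq_nonneg _)]
    refine mul_le_mul_right ?_ _
    rw [Finset.mul_sum]
    refine Finset.sum_le_sum fun k _ => ?_
    refine (Dk_le ha hF k).trans_eq ?_
    rw [← hP, ofReal_integral_eq_lintegral_ofReal (hIG k)
      (Eventually.of_forall fun x => sq_nonneg _)]
  have hp1 : Integrable (fun p : (ι → ℝ) × (ι → ℝ) => F p.1 ^ 2) (P.prod P) :=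
    hI2.comp_fst P
  have hp2 : Integrable (fun p : (ι → ℝ) × (ι → ℝ) => F p.2 ^ 2) (P.prod P) :=
    hI2.comp_snd P
  have hp3 : Integrable (fun p : (ι → ℝ) × (ι → ℝ) => F p.1 * F p.2) (P.prod P) :=
    hI1.mul_prod hI1
  have he : ∀ p : (ι → ℝ) × (ι → ℝ), (F p.1 - F p.2) ^ 2 =
      F p.1 ^ 2 + F p.2 ^ 2 - 2 * (F p.1 * F p.2) := fun p => by ring
  have h3 : ∫ p, (F p.1 - F p.2) ^ 2 ∂(P.prod P) =
      2 * ((∫ x, F x ^ 2 ∂P) - (∫ x, F x ∂P) ^ 2) := by
    simp_rw [he]
    have hp12 : Integrable (fun p : (ι → ℝ) × (ι → ℝ) => F p.1 ^ 2 + F p.2 ^ 2) (P.prod P) :=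
      hp1.add hp2
    rw [integral_sub hp12 (hp3.const_mul 2), integral_add hp1 hp2, integral_const_mul,
      integral_prod_mul]
    have e1 : ∫ p : (ι → ℝ) × (ι → ℝ), F p.1 ^ 2 ∂(P.prod P) = ∫ x, F x ^ 2 ∂P := by
      have := integral_fun_fst (μ := P) (ν := P) (fun x => F x ^ 2)
      simpa using this
    have e2 : ∫ p : (ι → ℝ) × (ι → ℝ), F p.2 ^ 2 ∂(P.prod P) = ∫ x, F x ^ 2 ∂P := by
      have := integral_fun_snd (μ := P) (ν := P) (fun x => F x ^ 2)
      simpa using this
    rw [e1, e2]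
    ring
  have h4 : ENNReal.ofReal (∫ p, (F p.1 - F p.2) ^ 2 ∂(P.prod P)) =
      ∫⁻ p, ENNReal.ofReal ((F p.1 - F p.2) ^ 2) ∂(P.prod P) := by
    apply ofReal_integral_eq_lintegral_ofReal
    · simp_rw [he]
      exact (hp1.add hp2).sub (hp3.const_mul 2)
    · exact Eventually.of_forall fun p => sq_nonneg _
  have h5 := h4.le.trans (h1.trans h2)
  rw [h3] at h5
  refine (ENNReal.ofReal_le_ofReal_iff ?_).1 h5
  have : 0 ≤ ∑ k, ∫ x, (fderiv ℝ F x (Pi.single k 1)) ^ 2 ∂P :=
    Finset.sum_nonneg fun k _ => integral_nonneg fun x => sq_nonneg _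
  positivity

theorem poincare_smooth {φ : E → ℝ} (hφ : ContDiff ℝ 1 φ) (b : E) {a : ℝ} (ha : 0 < a) :
    ∫ x in {x : E | ∀ i, b i < x i ∧ x i < b i + a}, φ x ^ 2 ≤
      (Fintype.card ι : ℝ) * a ^ 2 *
        (∫ x in {x : E | ∀ i, b i < x i ∧ x i < b i + a}, ‖gr φ x‖ ^ 2) +
      a⁻¹ ^ (Fintype.card ι) *
        (∫ x in {x : E | ∀ i, b i < x i ∧ x i < b i + a}, φ x) ^ 2 := by
  set n := Fintype.card ι with hn
  set Q : Set E := {x : E | ∀ i, b i < x i ∧ x i < b i + a} with hQ
  set T : (ι → ℝ) → E := WithLp.toLp 2 with hT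
  have hTc : ContDiff ℝ 1 T := by
    rw [contDiff_piLp]
    intro i
    exact contDiff_apply ℝ ℝ i
  have hTmp : MeasurePreserving T volume volume := PiLp.volume_preserving_toLp ι
  have hTemb : MeasurableEmbedding T :=
    (MeasurableEquiv.toLp 2 (ι → ℝ)).measurableEmbedding
  have hpre : T ⁻¹' Q = cube (fun i => b i) a := by
    ext y
    simp [hQ, hT, cube, Set.mem_pi]
  have hint : ∀ H : E → ℝ, ∫ x in Q, H x = ∫ y in cube (fun i => b i) a, H (T y) := by
    intro H
    rw [← hpre, hTmp.setIntegral_preimage_emb hTemb]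
  set F : (ι → ℝ) → ℝ := fun y => φ (T y) with hF
  have hFc : ContDiff ℝ 1 F := hφ.comp hTc
  have hfd : ∀ y k, fderiv ℝ F y (Pi.single k 1) = pd k φ (T y) := by
    intro y k
    have h1 : HasFDerivAt T ((PiLp.continuousLinearEquiv 2 ℝ (fun _ : ι => ℝ)).symm :
        (ι → ℝ) →L[ℝ] E) y := (PiLp.continuousLinearEquiv 2 ℝ (fun _ : ι => ℝ)).symm.hasFDerivAt
    have h2 : HasFDerivAt φ (fderiv ℝ φ (T y)) (T y) :=
      (hφ.differentiable one_ne_zero _).hasFDerivAt
    have h3 := h2.comp y h1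
    rw [pd]
    have h4 : fderiv ℝ F y = (fderiv ℝ φ (T y)).comp
      ((PiLp.continuousLinearEquiv 2 ℝ (fun _ : ι => ℝ)).symm : (ι → ℝ) →L[ℝ] E) := h3.fderiv
    rw [h4]
    simp only [ContinuousLinearMap.comp_apply]
    congr 1
  have hv := variance_le (fun i => b i) ha hFc
  rw [integral_nu _ ha, integral_nu _ ha] at hv
  simp_rw [integral_nu _ ha, hfd] at hv
  rw [← Finset.mul_sum] at hv
  have hs : ∑ k, ∫ y in cube (fun i => b i) a, pd k φ (T y) ^ 2 = ∫ x in Q, ‖gr φ x‖ ^ 2 := by
    rw [← integral_finsetSum]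
    · rw [hint]
      refine integral_congr_ae (Eventually.of_forall fun y => ?_)
      simp only
      rw [EuclideanSpace.real_norm_sq_eq]
      simp
    · intro k _
      have hc : Continuous fun y => pd k φ (T y) ^ 2 :=
        ((((hφ.continuous_fderiv one_ne_zero).clm_apply continuous_const).comp
          hTc.continuous).pow 2)
      have h1 : IntegrableOn (fun y => pd k φ (T y) ^ 2)
          (Set.pi univ fun i => Icc (b i) (b i + a)) volume :=
        hc.continuousOn.integrableOn_compact (isCompact_univ_pi fun i => isCompact_Icc)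
      exact h1.mono_set (Set.pi_mono fun i _ => Ioo_subset_Icc_self)
  rw [hs] at hv
  have e1 : ∫ y in cube (fun i => b i) a, F y ^ 2 = ∫ x in Q, φ x ^ 2 :=
    (hint fun x => φ x ^ 2).symm
  have e2 : ∫ y in cube (fun i => b i) a, F y = ∫ x in Q, φ x := (hint φ).symm
  rw [e1, e2, ← hn] at hv
  set A := ∫ x in Q, φ x ^ 2
  set B := ∫ x in Q, φ x
  set G := ∫ x in Q, ‖gr φ x‖ ^ 2 with hG
  have hG0 : 0 ≤ G := integral_nonneg fun x => sq_nonneg _
  have hpos : 0 < a⁻¹ ^ n := by positivity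
  have hv' : a⁻¹ ^ n * (2 * (A - a⁻¹ ^ n * B ^ 2)) ≤ a⁻¹ ^ n * ((n : ℝ) * a ^ 2 * G) := by
    calc a⁻¹ ^ n * (2 * (A - a⁻¹ ^ n * B ^ 2)) =
        2 * (a⁻¹ ^ n * A - (a⁻¹ ^ n * B) ^ 2) := by ring
      _ ≤ _ := hv
      _ = _ := by ring
  have hv2 := le_of_mul_le_mul_left hv' hpos
  have h0 : 0 ≤ (n : ℝ) * a ^ 2 * G := by positivity
  linarith

theorem norm_sq_toLp {F : Type*} [NormedAddCommGroup F] [InnerProductSpace ℝ F] {α : Type*}
    [MeasurableSpace α] {μ : Measure α} {a : α → F} (ha : MemLp a 2 μ) :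
    ‖ha.toLp a‖ ^ 2 = ∫ x, ‖a x‖ ^ 2 ∂μ := by
  rw [← real_inner_self_eq_norm_sq, L2.inner_def]
  refine integral_congr_ae ?_
  filter_upwards [ha.coeFn_toLp] with x h1
  rw [h1, real_inner_self_eq_norm_sq]

/-- `L²` convergence implies convergence of `∫ ‖f‖²` -/
theorem tendsto_norm_sq {F : Type*} [NormedAddCommGroup F] [InnerProductSpace ℝ F] {α : Type*}
    [MeasurableSpace α] {μ : Measure α} {f : α → F} {fn : ℕ → α → F} (hn : ∀ n, MemLp (fn n) 2 μ)
    (hf : MemLp f 2 μ) (h : Tendsto (fun n => eLpNorm (fun x => fn n x - f x) 2 μ) atTop (𝓝 0)) :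
    Tendsto (fun n => ∫ x, ‖fn n x‖ ^ 2 ∂μ) atTop (𝓝 (∫ x, ‖f x‖ ^ 2 ∂μ)) := by
  have h1 := (Lp.tendsto_Lp_iff_tendsto_eLpNorm'' fn hn f hf).2 h
  have h2 := (h1.norm).pow 2
  rw [norm_sq_toLp hf] at h2
  refine h2.congr fun n => ?_
  rw [norm_sq_toLp (hn n)]

/-- `L²` convergence implies convergence of the integrals on sets of finite measure -/
theorem tendsto_integral {α : Type*} [MeasurableSpace α] {μ : Measure α} [IsFiniteMeasure μ]
    {f : α → ℝ} {fn : ℕ → α → ℝ} (hn : ∀ n, MemLp (fn n) 2 μ)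
    (hf : MemLp f 2 μ) (h : Tendsto (fun n => eLpNorm (fun x => fn n x - f x) 2 μ) atTop (𝓝 0)) :
    Tendsto (fun n => ∫ x, fn n x ∂μ) atTop (𝓝 (∫ x, f x ∂μ)) := by
  have hc : MemLp (fun _ : α => (1 : ℝ)) 2 μ := memLp_const 1
  have h1 := (Lp.tendsto_Lp_iff_tendsto_eLpNorm'' fn hn f hf).2 h
  have h2 := h1.inner (𝕜 := ℝ) (tendsto_const_nhds (x := hc.toLp _) (f := (atTop : Filter ℕ)))
  have h3 : ∀ {k : α → ℝ} (hk : MemLp k 2 μ),
      inner ℝ (hk.toLp k) (hc.toLp _) = ∫ x, k x ∂μ := by
    intro k hk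
    rw [L2.inner_def]
    refine integral_congr_ae ?_
    filter_upwards [hk.coeFn_toLp, hc.coeFn_toLp] with x h1 h2
    rw [h1, h2]
    simp
  rw [h3 hf] at h2
  refine h2.congr fun n => ?_
  rw [h3 (hn n)]

end Poin

/-- localisation: a function with `L²_loc` weak gradient agrees near a compact set with an `H¹`
function -/
theorem WG.exists_H1_local {U : Set E} (hU : IsOpen U) {f : E → ℝ} {g : E → E} (h : WG U f g)
    (hf : L2loc U f) (hg : L2locV U g) {K : Set E} (hKc : IsCompact K) (hKU : K ⊆ U) :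
    ∃ k : E → ℝ, ∃ l : E → E, H1 k l ∧ ∃ V, IsOpen V ∧ K ⊆ V ∧
      (∀ x ∈ V, k x = f x) ∧ (∀ x ∈ V, l x = g x) := by
  obtain ⟨χ, hχ, hχI, V, hVo, hKV, hVU, hχ1⟩ := exists_cutoff hKc hU hKU
  have hTc : IsCompact (tsupport χ) := hχ.cpt
  have hgrχ0 : ∀ x, x ∉ tsupport χ → gr χ x = 0 := by
    intro x hx
    have h1 : fderiv ℝ χ x = 0 := by
      have : x ∉ tsupport (fderiv ℝ χ) := fun h' => hx (tsupport_fderiv_subset ℝ h')
      exact image_eq_zero_of_notMem_tsupport this
    ext i
    simp [gr, pd, h1]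
  have hχ0 : ∀ x, x ∉ tsupport χ → χ x = 0 := fun x hx => image_eq_zero_of_notMem_tsupport hx
  have hχle : ∀ x, ‖χ x‖ ≤ 1 := by
    intro x
    rw [Real.norm_eq_abs, abs_of_nonneg (hχI x).1]; exact (hχI x).2
  have hχc : Continuous χ := hχ.smooth.continuous
  have hgrc : Continuous (gr χ) := by
    have : ∀ i, Continuous fun x => pd i χ x := fun i =>
      (hχ.smooth.continuous_fderiv (by simp)).clm_apply continuous_const
    exact (PiLp.continuous_toLp 2 _).comp (continuous_pi this)
  have hfT := hf _ hTc hχ.sub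
  have hgT := hg _ hTc hχ.sub
  obtain ⟨C, hC⟩ := hTc.exists_bound_of_continuousOn hgrc.continuousOn
  refine ⟨fun x => χ x * f x, fun x => χ x • g x + f x • gr χ x, ⟨?_, ?_, ?_⟩, V, hVo, hKV,
    fun x hx => ?_, fun x hx => ?_⟩
  · have e1 : (fun x => χ x * f x) = (tsupport χ).indicator (fun x => χ x * f x) := by
      ext x
      by_cases hx : x ∈ tsupport χ
      · rw [indicator_of_mem hx]
      · rw [indicator_of_notMem hx, hχ0 x hx, zero_mul]
    rw [e1, memLp_indicator_iff_restrict hTc.measurableSet]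
    refine MemLp.of_le hfT (hχc.aestronglyMeasurable.mul hfT.1) (Eventually.of_forall fun x => ?_)
    rw [norm_mul]
    exact mul_le_of_le_one_left (norm_nonneg _) (hχle x)
  · have e1 : (fun x => χ x • g x + f x • gr χ x) =
        (tsupport χ).indicator (fun x => χ x • g x + f x • gr χ x) := by
      ext1 x
      by_cases hx : x ∈ tsupport χ
      · rw [indicator_of_mem hx]
      · rw [indicator_of_notMem hx, hχ0 x hx, hgrχ0 x hx, zero_smul, smul_zero, add_zero]
    rw [e1, memLp_indicator_iff_restrict hTc.measurableSet]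
    refine MemLp.add ?_ ?_
    · refine MemLp.of_le hgT (hχc.aestronglyMeasurable.smul hgT.1)
        (Eventually.of_forall fun x => ?_)
      rw [norm_smul]
      exact mul_le_of_le_one_left (norm_nonneg _) (hχle x)
    · refine MemLp.of_le_mul (c := C) hfT (hfT.1.smul hgrc.aestronglyMeasurable) ?_
      filter_upwards [ae_restrict_mem hTc.measurableSet] with x hx
      rw [norm_smul, mul_comm]
      exact mul_le_mul_of_nonneg_right (hC x hx) (norm_nonneg _)
  · refine WG.extend_zero hU (WG.mul_smooth hU h hχ.smooth) hTc hχ.sub ?_ ?_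
    · intro x hx
      show χ x * f x = 0
      rw [hχ0 x hx, zero_mul]
    · intro x hx
      show χ x • g x + f x • gr χ x = 0
      rw [hχ0 x hx, hgrχ0 x hx, zero_smul, smul_zero, add_zero]
  · show χ x * f x = f x
    rw [hχ1 x hx, one_mul]
  · have h1 : χ =ᶠ[𝓝 x] fun _ => 1 := by
      filter_upwards [hVo.mem_nhds hx] with y hy using hχ1 y hy
    have h2 : fderiv ℝ χ x = 0 := by
      rw [h1.fderiv_eq]; simp
    have h3 : gr χ x = 0 := by
      ext i; simp [gr, pd, h2]
    show χ x • g x + f x • gr χ x = g x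
    rw [hχ1 x hx, h3, one_smul, smul_zero, add_zero]

theorem Poin.memLp_gr {U : Set E} {φ : E → ℝ} (hφ : Test U φ) : MemLp (gr φ) 2 volume := by
  have hc : Continuous (gr φ) := by
    have : ∀ i, Continuous fun x => pd i φ x := fun i =>
      (hφ.smooth.continuous_fderiv (by simp)).clm_apply continuous_const
    exact (PiLp.continuous_toLp 2 _).comp (continuous_pi this)
  refine hc.memLp_of_hasCompactSupport ?_
  have h1 : HasCompactSupport (fderiv ℝ φ) := hφ.cpt.fderiv ℝ
  exact h1.comp_left (g := fun L : E →L[ℝ] ℝ =>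
    (WithLp.toLp 2 fun i => L (EuclideanSpace.single i (1 : ℝ)) : E)) (by ext i; simp)

theorem Poin.isCompact_cube (b : E) (a : ℝ) :
    IsCompact {x : E | ∀ i, b i ≤ x i ∧ x i ≤ b i + a} := by
  have h1 : {x : E | ∀ i, b i ≤ x i ∧ x i ≤ b i + a} = (WithLp.toLp 2 : (ι → ℝ) → E) ''
      (Set.pi univ fun i => Icc (b i) (b i + a)) := by
    ext x
    constructor
    · intro hx
      exact ⟨x.ofLp, fun i _ => hx i, by simp⟩
    · rintro ⟨y, hy, rfl⟩ i
      exact hy i (mem_univ i)
  rw [h1]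
  exact (isCompact_univ_pi fun i => isCompact_Icc).image (PiLp.continuous_toLp 2 _)

theorem Poin.isOpen_cube (b : E) (a : ℝ) :
    IsOpen {x : E | ∀ i, b i < x i ∧ x i < b i + a} := by
  have h1 : {x : E | ∀ i, b i < x i ∧ x i < b i + a} =
      ⋂ i, {x : E | b i < x i ∧ x i < b i + a} := by
    ext x; simp
  rw [h1]
  refine isOpen_iInter_of_finite fun i => ?_
  have hci : Continuous fun x : E => x i := (continuous_apply i).comp (PiLp.continuous_ofLp 2 _)
  exact (isOpen_lt continuous_const hci).inter (isOpen_lt hci continuous_const)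

/-- Poincaré inequality for a global `H¹` function -/
theorem H1.poincare_cube {k : E → ℝ} {l : E → E} (h : H1 k l) (b : E) {a : ℝ} (ha : 0 < a) :
    ∫ x in {x : E | ∀ i, b i < x i ∧ x i < b i + a}, k x ^ 2 ≤
      (Fintype.card ι : ℝ) * a ^ 2 *
        (∫ x in {x : E | ∀ i, b i < x i ∧ x i < b i + a}, ‖l x‖ ^ 2) +
      a⁻¹ ^ (Fintype.card ι) *
        (∫ x in {x : E | ∀ i, b i < x i ∧ x i < b i + a}, k x) ^ 2 := by
  have hQK : {x : E | ∀ i, b i < x i ∧ x i < b i + a} ⊆
      {x : E | ∀ i, b i ≤ x i ∧ x i ≤ b i + a} := fun x hx i => ⟨(hx i).1.le, (hx i).2.le⟩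
  have hQfin : volume {x : E | ∀ i, b i < x i ∧ x i < b i + a} < ⊤ :=
    (measure_mono hQK).trans_lt (Poin.isCompact_cube b a).measure_lt_top
  generalize hQ : {x : E | ∀ i, b i < x i ∧ x i < b i + a} = Q at hQfin ⊢
  obtain ⟨φ, hφT, hφ1, hφ2, -⟩ := H1.approx h
  have hφm : ∀ n, MemLp (φ n) 2 volume := fun n =>
    (hφT n).smooth.continuous.memLp_of_hasCompactSupport (hφT n).cpt
  have hgφm : ∀ n, MemLp (gr (φ n)) 2 volume := fun n => Poin.memLp_gr (hφT n)
  have hfin : IsFiniteMeasure (volume.restrict Q) := ⟨by simpa using hQfin⟩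
  have hsq1 : Tendsto (fun n => eLpNorm (fun x => φ n x - k x) 2 (volume.restrict Q)) atTop
      (𝓝 0) :=
    tendsto_of_tendsto_of_tendsto_of_le_of_le tendsto_const_nhds hφ1
      (fun n => zero_le) (fun n => eLpNorm_mono_measure _ Measure.restrict_le_self)
  have hsq2 : Tendsto (fun n => eLpNorm (fun x => gr (φ n) x - l x) 2 (volume.restrict Q)) atTop
      (𝓝 0) :=
    tendsto_of_tendsto_of_tendsto_of_le_of_le tendsto_const_nhds hφ2
      (fun n => zero_le) (fun n => eLpNorm_mono_measure _ Measure.restrict_le_self)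
  have t1 := Poin.tendsto_norm_sq (fun n => (hφm n).restrict Q) (h.memf.restrict Q) hsq1
  have t2 := Poin.tendsto_norm_sq (fun n => (hgφm n).restrict Q) (h.memg.restrict Q) hsq2
  have t3 := Poin.tendsto_integral (fun n => (hφm n).restrict Q) (h.memf.restrict Q) hsq1
  have t4 : Tendsto (fun n => (Fintype.card ι : ℝ) * a ^ 2 * (∫ x in Q, ‖gr (φ n) x‖ ^ 2) +
      a⁻¹ ^ (Fintype.card ι) * (∫ x in Q, φ n x) ^ 2) atTop
      (𝓝 ((Fintype.card ι : ℝ) * a ^ 2 * (∫ x in Q, ‖l x‖ ^ 2) +
      a⁻¹ ^ (Fintype.card ι) * (∫ x in Q, k x) ^ 2)) :=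
    (t2.const_mul _).add ((t3.pow 2).const_mul _)
  have t5 : Tendsto (fun n => ∫ x in Q, φ n x ^ 2) atTop (𝓝 (∫ x in Q, k x ^ 2)) := by
    simpa only [Real.norm_eq_abs, sq_abs] using t1
  refine le_of_tendsto_of_tendsto' t5 t4 fun n => ?_
  have := Poin.poincare_smooth ((hφT n).smooth.of_le (by simp)) b ha
  rw [hQ] at this
  exact this

/-- Poincaré on the cube of side `a` with corner `b` (Payne–Weinberger constant not needed) -/
theorem poincare_cube {U : Set E} (hU : IsOpen U) {f : E → ℝ} {g : E → E} (h : WG U f g)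
    (hf : L2loc U f) (hg : L2locV U g) (b : E) {a : ℝ} (ha : 0 < a)
    (hQ : {x : E | ∀ i, b i ≤ x i ∧ x i ≤ b i + a} ⊆ U) :
    ∫ x in {x : E | ∀ i, b i < x i ∧ x i < b i + a}, f x ^ 2 ≤
      (Fintype.card ι : ℝ) * a ^ 2 *
        (∫ x in {x : E | ∀ i, b i < x i ∧ x i < b i + a}, ‖g x‖ ^ 2) +
      a⁻¹ ^ (Fintype.card ι) *
        (∫ x in {x : E | ∀ i, b i < x i ∧ x i < b i + a}, f x) ^ 2 := by
  obtain ⟨k, l, hkl, V, hVo, hKV, hk, hl⟩ :=
    WG.exists_H1_local hU h hf hg (Poin.isCompact_cube b a) hQ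
  have hmeas := (Poin.isOpen_cube b a).measurableSet
  have hQK : ∀ x ∈ {x : E | ∀ i, b i < x i ∧ x i < b i + a}, x ∈ V :=
    fun x hx => hKV fun i => ⟨(hx i).1.le, (hx i).2.le⟩
  have i1 : ∫ x in {x : E | ∀ i, b i < x i ∧ x i < b i + a}, k x ^ 2 =
      ∫ x in {x : E | ∀ i, b i < x i ∧ x i < b i + a}, f x ^ 2 :=
    setIntegral_congr_fun hmeas fun x hx => by simp only [hk x (hQK x hx)]
  have i2 : ∫ x in {x : E | ∀ i, b i < x i ∧ x i < b i + a}, ‖l x‖ ^ 2 =
      ∫ x in {x : E | ∀ i, b i < x i ∧ x i < b i + a}, ‖g x‖ ^ 2 :=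
    setIntegral_congr_fun hmeas fun x hx => by simp only [hl x (hQK x hx)]
  have i3 : ∫ x in {x : E | ∀ i, b i < x i ∧ x i < b i + a}, k x =
      ∫ x in {x : E | ∀ i, b i < x i ∧ x i < b i + a}, f x :=
    setIntegral_congr_fun hmeas fun x hx => by simp only [hk x (hQK x hx)]
  rw [← i1, ← i2, ← i3]
  exact hkl.poincare_cube b ha

end Crest.Agent.R335
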