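import Crest.Agent.R335.HDefs
import Crest.Agent.R335.HMoll
import Crest.Agent.R335.HGlob2
import Crest.Agent.R335.HGlob
import Crest.Agent.R335.HWeak

/-!
# Row 335: `H²` regularity by difference quotients (module HReg)
-/

set_option autoImplicit false
set_option linter.unusedSectionVars false

open MeasureTheory Filter Set
open scoped ENNReal Topology ContDiff

noncomputable section
namespace Crest.Agent.R335

variable {ι : Type*} [Fintype ι] [DecidableEq ι]

local notation "E" => EuclideanSpace ℝ ι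

/-- the coordinate vector -/
def HReg.ev (i : ι) : E := EuclideanSpace.single i (1 : ℝ)

/-- difference quotient in the direction `i` with step `h` -/
def HReg.dq {F : Type*} [AddCommGroup F] [Module ℝ F] (i : ι) (h : ℝ) (u : E → F) (x : E) : F :=
  h⁻¹ • (u (x + h • HReg.ev i) - u x)

theorem HReg.mp_add (a : E) : MeasurePreserving (fun x : E => x + a) volume volume :=
  measurePreserving_add_right volume a

theorem HReg.memLp_add {F : Type*} [NormedAddCommGroup F] {u : E → F} (hu : MemLp u 2 volume)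
    (a : E) : MemLp (fun x => u (x + a)) 2 volume :=
  hu.comp_measurePreserving (HReg.mp_add a)

theorem HReg.eLpNorm_add {F : Type*} [NormedAddCommGroup F] {u : E → F}
    (hu : AEStronglyMeasurable u volume) (a : E) :
    eLpNorm (fun x => u (x + a)) 2 volume = eLpNorm u 2 volume :=
  eLpNorm_comp_measurePreserving hu (HReg.mp_add a)

theorem HReg.memLp_dq {F : Type*} [NormedAddCommGroup F] [NormedSpace ℝ F] {u : E → F}
    (hu : MemLp u 2 volume) (i : ι) (h : ℝ) : MemLp (HReg.dq i h u) 2 volume :=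
  ((HReg.memLp_add hu _).sub hu).const_smul h⁻¹

theorem HReg.H1_dq {f : E → ℝ} {g : E → E} (hf : H1 f g) (i : ι) (h : ℝ) :
    H1 (HReg.dq i h f) (HReg.dq i h g) := by
  have h1 : H1 (fun x => f (x + h • HReg.ev i)) (fun x => g (x + h • HReg.ev i)) := by
    exact H1.comp_isometry hf (LinearIsometryEquiv.refl ℝ E) (h • HReg.ev i)
  exact (h1.sub hf).const_mul h⁻¹

theorem HReg.sq_eLpNorm {F : Type*} [NormedAddCommGroup F] {α : Type*} [MeasurableSpace α]
    {μ : Measure α} (u : α → F) : (eLpNorm u 2 μ) ^ (2 : ℝ) = ∫⁻ x, ‖u x‖ₑ ^ (2 : ℝ) ∂μ := by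
  have := eLpNorm_nnreal_pow_eq_lintegral (μ := μ) (f := u) (p := 2) (by norm_num)
  simpa using this

/-- Minkowski's inequality for averages over `[0,1]` -/
theorem HReg.eLpNorm_avg_le {w : E → ℝ → ℝ} (hw : Continuous (Function.uncurry w)) {C : ℝ≥0∞}
    (hC : ∀ t ∈ Ioc (0 : ℝ) 1, eLpNorm (fun x => w x t) 2 volume ≤ C) :
    eLpNorm (fun x => ∫ t in (0 : ℝ)..1, w x t) 2 volume ≤ C := by
  have hprob : IsProbabilityMeasure (volume.restrict (Ioc (0 : ℝ) 1)) := ⟨by simp⟩
  have hpt : ∀ x : E, ‖∫ t in (0 : ℝ)..1, w x t‖ₑ ^ (2 : ℝ) ≤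
      ∫⁻ t in Ioc (0 : ℝ) 1, ‖w x t‖ₑ ^ (2 : ℝ) := by
    intro x
    have hwx : Continuous (w x) := hw.comp (by fun_prop : Continuous fun t : ℝ => (x, t))
    rw [intervalIntegral.integral_of_le zero_le_one, ← HReg.sq_eLpNorm]
    refine ENNReal.rpow_le_rpow ?_ (by norm_num)
    calc ‖∫ t in Ioc (0 : ℝ) 1, w x t‖ₑ ≤ ∫⁻ t in Ioc (0 : ℝ) 1, ‖w x t‖ₑ :=
          enorm_integral_le_lintegral_enorm _
      _ = eLpNorm (w x) 1 (volume.restrict (Ioc (0 : ℝ) 1)) := by
          rw [eLpNorm_one_eq_lintegral_enorm]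
      _ ≤ eLpNorm (w x) 2 (volume.restrict (Ioc (0 : ℝ) 1)) :=
          eLpNorm_le_eLpNorm_of_exponent_le (by norm_num) hwx.aestronglyMeasurable
  have hmain : (eLpNorm (fun x => ∫ t in (0 : ℝ)..1, w x t) 2 (volume : Measure E)) ^ (2 : ℝ) ≤
      C ^ (2 : ℝ) := by
    rw [HReg.sq_eLpNorm]
    calc ∫⁻ x : E, ‖∫ t in (0 : ℝ)..1, w x t‖ₑ ^ (2 : ℝ)
        ≤ ∫⁻ x : E, ∫⁻ t in Ioc (0 : ℝ) 1, ‖w x t‖ₑ ^ (2 : ℝ) := lintegral_mono hpt
      _ = ∫⁻ t in Ioc (0 : ℝ) 1, ∫⁻ x : E, ‖w x t‖ₑ ^ (2 : ℝ) := by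
          refine lintegral_lintegral_swap ?_
          have : Measurable (Function.uncurry fun (x : E) (t : ℝ) => ‖w x t‖ₑ ^ (2 : ℝ)) :=
            (hw.enorm.measurable).pow_const _
          exact this.aemeasurable
      _ ≤ ∫⁻ t in Ioc (0 : ℝ) 1, C ^ (2 : ℝ) := by
          refine setLIntegral_mono measurable_const fun t ht => ?_
          rw [← HReg.sq_eLpNorm]
          exact ENNReal.rpow_le_rpow (hC t ht) (by norm_num)
      _ = C ^ (2 : ℝ) := by simp
  exact (ENNReal.rpow_le_rpow_iff (by norm_num)).1 hmain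

theorem HReg.dq_eq_avg {φ : E → ℝ} (hφ : ContDiff ℝ ∞ φ) (i : ι) {h : ℝ} (hh : h ≠ 0) (x : E) :
    HReg.dq i h φ x = ∫ t in (0 : ℝ)..1, pd i φ (x + (t * h) • HReg.ev i) := by
  have hd : ∀ t ∈ uIcc (0 : ℝ) 1, HasDerivAt (fun t : ℝ => φ (x + (t * h) • HReg.ev i))
      (h * pd i φ (x + (t * h) • HReg.ev i)) t := by
    intro t _
    have h1 : HasDerivAt (fun t : ℝ => x + (t * h) • (HReg.ev i : E)) (h • HReg.ev i) t := by
      have h2 : HasDerivAt (fun t : ℝ => t * h) h t := by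
        simpa using (hasDerivAt_id t).mul_const h
      exact (h2.smul_const (HReg.ev i : E)).const_add x
    have h3 : HasFDerivAt φ (fderiv ℝ φ (x + (t * h) • HReg.ev i)) (x + (t * h) • HReg.ev i) :=
      ((hφ.differentiable (by simp)) _).hasFDerivAt
    have h4 := h3.comp_hasDerivAt t h1
    have e : (fderiv ℝ φ (x + (t * h) • HReg.ev i)) (h • HReg.ev i) =
        h * pd i φ (x + (t * h) • HReg.ev i) := by
      rw [map_smul, smul_eq_mul]; rfl
    rw [e] at h4
    exact h4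
  have hcont : Continuous fun t : ℝ => h * pd i φ (x + (t * h) • HReg.ev i) := by
    have := (contDiff_pd hφ i).continuous
    fun_prop
  have h5 := intervalIntegral.integral_eq_sub_of_hasDerivAt hd (hcont.intervalIntegrable 0 1)
  rw [intervalIntegral.integral_const_mul] at h5
  unfold HReg.dq
  rw [smul_eq_mul, inv_mul_eq_iff_eq_mul₀ hh, h5]
  simp

theorem HReg.eLpNorm_dq_test {φ : E → ℝ} (hφ : Test univ φ) (i : ι) {h : ℝ} (hh : h ≠ 0) :
    eLpNorm (HReg.dq i h φ) 2 volume ≤ eLpNorm (pd i φ) 2 volume := by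
  have hc : Continuous (pd i φ) := (contDiff_pd hφ.smooth i).continuous
  have e : HReg.dq i h φ = fun x => ∫ t in (0 : ℝ)..1, pd i φ (x + (t * h) • HReg.ev i) :=
    funext fun x => HReg.dq_eq_avg hφ.smooth i hh x
  rw [e]
  refine HReg.eLpNorm_avg_le (w := fun x t => pd i φ (x + (t * h) • HReg.ev i)) ?_ ?_
  · show Continuous fun p : E × ℝ => pd i φ (p.1 + (p.2 * h) • HReg.ev i)
    fun_prop
  · intro t _
    rw [HReg.eLpNorm_add hc.aestronglyMeasurable]

theorem HReg.test_pd {φ : E → ℝ} (hφ : Test univ φ) (i : ι) : Test univ (pd i φ) :=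
  ⟨contDiff_pd hφ.smooth i, hasCompactSupport_pd hφ.cpt i, subset_univ _⟩

theorem HReg.eLpNorm_dq_sub_test {φ : E → ℝ} (hφ : Test univ φ) (i : ι) {h : ℝ} (hh : h ≠ 0) :
    eLpNorm (fun x => HReg.dq i h φ x - pd i φ x) 2 volume ≤
      ENNReal.ofReal |h| * eLpNorm (pd i (pd i φ)) 2 volume := by
  have hc : Continuous (pd i φ) := (contDiff_pd hφ.smooth i).continuous
  have e : (fun x => HReg.dq i h φ x - pd i φ x) =
      fun x => ∫ t in (0 : ℝ)..1, (pd i φ (x + (t * h) • HReg.ev i) - pd i φ x) := by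
    funext x
    rw [HReg.dq_eq_avg hφ.smooth i hh x, intervalIntegral.integral_sub]
    · simp
    · refine Continuous.intervalIntegrable ?_ 0 1
      fun_prop
    · simp
  rw [e]
  refine HReg.eLpNorm_avg_le (w := fun x t => pd i φ (x + (t * h) • HReg.ev i) - pd i φ x) ?_ ?_
  · show Continuous fun p : E × ℝ => pd i φ (p.1 + (p.2 * h) • HReg.ev i) - pd i φ p.1
    fun_prop
  · intro t ht
    have hth : t * h ≠ 0 := mul_ne_zero ht.1.ne' hh
    have e2 : (fun x => pd i φ (x + (t * h) • HReg.ev i) - pd i φ x) =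
        (t * h) • HReg.dq i (t * h) (pd i φ) := by
      funext x
      simp only [Pi.smul_apply, HReg.dq, smul_eq_mul]
      rw [mul_inv_cancel_left₀ hth]
    rw [e2, eLpNorm_const_smul]
    refine mul_le_mul' ?_ (HReg.eLpNorm_dq_test (HReg.test_pd hφ i) i hth)
    rw [Real.enorm_eq_ofReal_abs]
    refine ENNReal.ofReal_le_ofReal ?_
    rw [abs_mul, abs_of_pos ht.1]
    exact mul_le_of_le_one_left (abs_nonneg _) ht.2

theorem HReg.eLpNorm_comp_le {u : E → E} (i : ι) :
    eLpNorm (fun x => u x i) 2 (volume : Measure E) ≤ eLpNorm u 2 volume := by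
  refine eLpNorm_mono fun x => ?_
  exact PiLp.norm_apply_le (u x) i

theorem HReg.memLp_comp {u : E → E} (hu : MemLp u 2 (volume : Measure E)) (i : ι) :
    MemLp (fun x => u x i) 2 (volume : Measure E) := by
  refine hu.mono ?_ (Eventually.of_forall fun x => PiLp.norm_apply_le (u x) i)
  exact (EuclideanSpace.proj (𝕜 := ℝ) i).continuous.comp_aestronglyMeasurable
    hu.aestronglyMeasurable

/-- difference quotients are bounded by the weak derivative -/
theorem HReg.eLpNorm_dq_le {f : E → ℝ} {g : E → E} (hf : H1 f g) (i : ι) {h : ℝ} (hh : h ≠ 0) :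
    eLpNorm (HReg.dq i h f) 2 volume ≤ eLpNorm (fun x => g x i) 2 volume := by
  obtain ⟨φ, hφ, h1, h2, -⟩ := H1.approx hf
  have hφ1 : ∀ n, MemLp (φ n) 2 volume := fun n => (H1.of_test (hφ n)).memf
  have hφ2 : ∀ n, MemLp (gr (φ n)) 2 volume := fun n => (H1.of_test (hφ n)).memg
  have hb : ∀ n, eLpNorm (HReg.dq i h f) 2 volume ≤
      (ENNReal.ofReal (|h⁻¹|) * 2) * eLpNorm (fun x => φ n x - f x) 2 volume +
      (eLpNorm (fun x => gr (φ n) x - g x) 2 volume + eLpNorm (fun x => g x i) 2 volume) := by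
    intro n
    have e1 : HReg.dq i h f = fun x => (-(HReg.dq i h (fun x => φ n x - f x) x)) +
        HReg.dq i h (φ n) x := by
      funext x
      simp only [HReg.dq, smul_eq_mul]
      ring
    have hsub : MemLp (fun x => φ n x - f x) 2 volume := (hφ1 n).sub hf.memf
    rw [e1]
    refine (eLpNorm_add_le (HReg.memLp_dq hsub i h).aestronglyMeasurable.neg
      (HReg.memLp_dq (hφ1 n) i h).aestronglyMeasurable (by norm_num)).trans ?_
    refine add_le_add ?_ ?_
    · rw [eLpNorm_neg]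
      have e3 : HReg.dq i h (fun x => φ n x - f x) = h⁻¹ • ((fun x => (fun y => φ n y - f y)
          (x + h • HReg.ev i)) - (fun y => φ n y - f y)) := rfl
      rw [e3, eLpNorm_const_smul, Real.enorm_eq_ofReal_abs, mul_assoc]
      refine mul_le_mul_right ?_ _
      refine (eLpNorm_sub_le (HReg.memLp_add hsub _).aestronglyMeasurable
        hsub.aestronglyMeasurable (by norm_num)).trans ?_
      rw [HReg.eLpNorm_add hsub.aestronglyMeasurable, two_mul]
    · refine (HReg.eLpNorm_dq_test (hφ n) i hh).trans ?_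
      have e4 : pd i (φ n) = fun x => (gr (φ n) x - g x) i + g x i := by
        funext x; simp
      rw [e4]
      refine (eLpNorm_add_le ?_ ?_ (by norm_num)).trans ?_
      · exact (HReg.memLp_comp ((hφ2 n).sub hf.memg) i).aestronglyMeasurable
      · exact (HReg.memLp_comp hf.memg i).aestronglyMeasurable
      · exact add_le_add_left (HReg.eLpNorm_comp_le (u := fun x => gr (φ n) x - g x) i) _
  have hlim : Tendsto (fun n => (ENNReal.ofReal (|h⁻¹|) * 2) *
      eLpNorm (fun x => φ n x - f x) 2 volume +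
      (eLpNorm (fun x => gr (φ n) x - g x) 2 volume + eLpNorm (fun x => g x i) 2 volume))
      atTop (𝓝 ((ENNReal.ofReal (|h⁻¹|) * 2) * 0 +
        (0 + eLpNorm (fun x => g x i) 2 volume))) := by
    refine Tendsto.add (ENNReal.Tendsto.const_mul h1 (Or.inr ?_)) (h2.add tendsto_const_nhds)
    exact ENNReal.mul_ne_top ENNReal.ofReal_ne_top (by norm_num)
  simp only [mul_zero, zero_add] at hlim
  exact ge_of_tendsto' hlim hb

/-- difference quotients converge to the weak derivative -/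
theorem HReg.tendsto_dq {f : E → ℝ} {g : E → E} (hf : H1 f g) (i : ι) {h : ℕ → ℝ}
    (hh : ∀ n, h n ≠ 0) (hh0 : Tendsto h atTop (𝓝 0)) :
    Tendsto (fun n => eLpNorm (fun x => HReg.dq i (h n) f x - g x i) 2 volume) atTop (𝓝 0) := by
  obtain ⟨φ, hφ, h1, h2, -⟩ := H1.approx hf
  rw [ENNReal.tendsto_nhds_zero]
  intro ε hε
  have hε3 : (0 : ℝ≥0∞) < ε / 3 := ENNReal.div_pos hε.ne' (by norm_num)
  obtain ⟨m, hm⟩ := ((ENNReal.tendsto_nhds_zero.1 h2) (ε / 3) hε3).exists
  have hψ := H1.of_test (hφ m)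
  have hdiff : H1 (fun x => f x - φ m x) (fun x => g x - gr (φ m) x) := hf.sub hψ
  have hm' : eLpNorm (fun x => g x - gr (φ m) x) 2 volume ≤ ε / 3 := by
    have e : (fun x => g x - gr (φ m) x) = -(fun x => gr (φ m) x - g x) := by
      funext x; simp
    rw [e, eLpNorm_neg]; exact hm
  have hfin : eLpNorm (pd i (pd i (φ m))) 2 volume ≠ ⊤ :=
    ((H1.of_test (HReg.test_pd (HReg.test_pd (hφ m) i) i)).memf).eLpNorm_ne_top
  have hlim : Tendsto (fun n => ENNReal.ofReal |h n| * eLpNorm (pd i (pd i (φ m))) 2 volume) atTop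
      (𝓝 0) := by
    have h3 : Tendsto (fun n => ENNReal.ofReal |h n|) atTop (𝓝 0) := by
      have := ENNReal.tendsto_ofReal hh0.abs
      simpa using this
    have := ENNReal.Tendsto.mul_const h3 (Or.inr hfin)
    simpa using this
  filter_upwards [(ENNReal.tendsto_nhds_zero.1 hlim) (ε / 3) hε3] with n hn
  have e1 : (fun x => HReg.dq i (h n) f x - g x i) =
      fun x => HReg.dq i (h n) (fun x => f x - φ m x) x +
        ((HReg.dq i (h n) (φ m) x - pd i (φ m) x) + (-((g x - gr (φ m) x) i))) := by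
    funext x
    simp only [HReg.dq, smul_eq_mul, PiLp.sub_apply, gr_apply]
    ring
  rw [e1]
  have m1 : MemLp (HReg.dq i (h n) (fun x => f x - φ m x)) 2 volume :=
    HReg.memLp_dq hdiff.memf i _
  have m2 : MemLp (fun x => HReg.dq i (h n) (φ m) x - pd i (φ m) x) 2 volume :=
    (HReg.memLp_dq hψ.memf i _).sub (H1.of_test (HReg.test_pd (hφ m) i)).memf
  have m3 : MemLp (fun x => -((g x - gr (φ m) x) i)) 2 volume :=
    (HReg.memLp_comp hdiff.memg i).neg
  refine (eLpNorm_add_le m1.aestronglyMeasurable (m2.add m3).aestronglyMeasurable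
    (by norm_num)).trans ?_
  have h4 : eLpNorm (HReg.dq i (h n) (fun x => f x - φ m x)) 2 volume ≤ ε / 3 :=
    (HReg.eLpNorm_dq_le hdiff i (hh n)).trans
      ((HReg.eLpNorm_comp_le (u := fun x => g x - gr (φ m) x) i).trans hm')
  have h5 : eLpNorm (fun x => (HReg.dq i (h n) (φ m) x - pd i (φ m) x) +
      (-((g x - gr (φ m) x) i))) 2 volume ≤ ε / 3 + ε / 3 := by
    refine (eLpNorm_add_le m2.aestronglyMeasurable m3.aestronglyMeasurable
      (by norm_num)).trans ?_
    refine add_le_add ((HReg.eLpNorm_dq_sub_test (hφ m) i (hh n)).trans hn) ?_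
    have e5 : (fun x => -((g x - gr (φ m) x) i)) = -(fun x => (g x - gr (φ m) x) i) := rfl
    rw [e5, eLpNorm_neg]
    exact (HReg.eLpNorm_comp_le (u := fun x => g x - gr (φ m) x) i).trans hm'
  calc eLpNorm (fun x => HReg.dq i (h n) (fun x => f x - φ m x) x) 2 volume +
      eLpNorm (fun x => (HReg.dq i (h n) (φ m) x - pd i (φ m) x) +
      (-((g x - gr (φ m) x) i))) 2 volume ≤ ε / 3 + (ε / 3 + ε / 3) := add_le_add h4 h5
    _ = ε := by rw [← add_assoc]; exact ENNReal.add_thirds ε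

/-- convergence of integrals of inner products -/
theorem HReg.tendsto_integral_inner {F : Type*} [NormedAddCommGroup F] [InnerProductSpace ℝ F]
    {a b : E → F} {bn : ℕ → E → F} (ha : MemLp a 2 volume) (hb : MemLp b 2 volume)
    (hbn : ∀ n, MemLp (bn n) 2 volume)
    (h : Tendsto (fun n => eLpNorm (fun x => bn n x - b x) 2 volume) atTop (𝓝 0)) :
    Tendsto (fun n => ∫ x, inner ℝ (a x) (bn n x)) atTop (𝓝 (∫ x, inner ℝ (a x) (b x))) := by
  have h1 : Tendsto (fun n => (hbn n).toLp (bn n)) atTop (𝓝 (hb.toLp b)) :=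
    (Lp.tendsto_Lp_iff_tendsto_eLpNorm'' _ hbn b hb).2 h
  have h2 : Tendsto (fun n => inner ℝ (ha.toLp a) ((hbn n).toLp (bn n))) atTop
      (𝓝 (inner ℝ (ha.toLp a) (hb.toLp b))) := tendsto_const_nhds.inner h1
  rw [inner_toLp ha hb] at h2
  refine h2.congr fun n => ?_
  rw [inner_toLp ha (hbn n)]

/-- the weak equation may be tested with `H¹` functions -/
theorem HReg.test_H1 {q : E → ℝ} {g : E → E} (hg : MemLp g 2 volume) (hq : MemLp q 2 volume)
    (heq : ∀ φ : E → ℝ, Test univ φ → ∫ x, inner ℝ (g x) (gr φ x) = ∫ x, q x * φ x)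
    {w : E → ℝ} {l : E → E} (hw : H1 w l) :
    ∫ x, inner ℝ (g x) (l x) = ∫ x, q x * w x := by
  obtain ⟨φ, hφ, h1, h2, -⟩ := H1.approx hw
  have hφ1 : ∀ n, MemLp (φ n) 2 volume := fun n => (H1.of_test (hφ n)).memf
  have hφ2 : ∀ n, MemLp (gr (φ n)) 2 volume := fun n => (H1.of_test (hφ n)).memg
  have h3 := HReg.tendsto_integral_inner hg hw.memg hφ2 h2
  have h4 := HReg.tendsto_integral_inner hq hw.memf hφ1 h1
  have e : ∀ u : E → ℝ, (∫ x, inner ℝ (q x) (u x)) = ∫ x, q x * u x := fun u =>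
    integral_congr_ae (Eventually.of_forall fun x => by simp [mul_comm])
  rw [e] at h4
  refine tendsto_nhds_unique h3 (h4.congr fun n => ?_)
  rw [e, heq (φ n) (hφ n)]

theorem HReg.integrable_inner {F : Type*} [NormedAddCommGroup F] [InnerProductSpace ℝ F]
    {u v : E → F} (hu : MemLp u 2 volume) (hv : MemLp v 2 volume) :
    Integrable (fun x => inner ℝ (u x) (v x)) := by
  refine (L2.integrable_inner (𝕜 := ℝ) (hu.toLp u) (hv.toLp v)).congr ?_
  filter_upwards [hu.coeFn_toLp, hv.coeFn_toLp] with x h1 h2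
  rw [h1, h2]

/-- discrete integration by parts -/
theorem HReg.dq_ibp {F : Type*} [NormedAddCommGroup F] [InnerProductSpace ℝ F] {u v : E → F}
    (hu : MemLp u 2 volume) (hv : MemLp v 2 volume) (i : ι) (h : ℝ) :
    ∫ x, inner ℝ (u x) (HReg.dq i (-h) v x) = - ∫ x, inner ℝ (HReg.dq i h u x) (v x) := by
  have i1 : Integrable (fun x => inner ℝ (u x) (v (x + (-h) • HReg.ev i))) :=
    HReg.integrable_inner hu (HReg.memLp_add hv _)
  have i2 : Integrable (fun x => inner ℝ (u x) (v x)) :=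
    HReg.integrable_inner hu hv
  have i3 : Integrable (fun x => inner ℝ (u (x + h • HReg.ev i)) (v x)) :=
    HReg.integrable_inner (HReg.memLp_add hu _) hv
  have e1 : ∫ x, inner ℝ (u x) (HReg.dq i (-h) v x) =
      (-h)⁻¹ * ((∫ x, inner ℝ (u x) (v (x + (-h) • HReg.ev i))) - ∫ x, inner ℝ (u x) (v x)) := by
    rw [← integral_sub i1 i2, ← integral_const_mul]
    refine integral_congr_ae (Eventually.of_forall fun x => ?_)
    simp only [HReg.dq, inner_smul_right, inner_sub_right]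
  have e2 : ∫ x, inner ℝ (HReg.dq i h u x) (v x) =
      h⁻¹ * ((∫ x, inner ℝ (u (x + h • HReg.ev i)) (v x)) - ∫ x, inner ℝ (u x) (v x)) := by
    rw [← integral_sub i3 i2, ← integral_const_mul]
    refine integral_congr_ae (Eventually.of_forall fun x => ?_)
    simp only [HReg.dq, real_inner_smul_left, inner_sub_left]
  have e3 : ∫ x, inner ℝ (u x) (v (x + (-h) • HReg.ev i)) =
      ∫ x, inner ℝ (u (x + h • HReg.ev i)) (v x) := by
    have := integral_add_right_eq_self (μ := (volume : Measure E))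
      (fun x => inner ℝ (u x) (v (x + (-h) • HReg.ev i))) (h • HReg.ev i)
    rw [← this]
    refine integral_congr_ae (Eventually.of_forall fun x => ?_)
    simp [add_assoc]
  rw [e1, e2, e3, inv_neg]
  ring

/-- the uniform bound for the difference quotients of the gradient -/
theorem HReg.bound {f q : E → ℝ} {g : E → E} (h : H1 f g) (hq : MemLp q 2 volume)
    (heq : ∀ φ : E → ℝ, Test univ φ → ∫ x, inner ℝ (g x) (gr φ x) = ∫ x, q x * φ x)
    (i : ι) {t : ℝ} (ht : t ≠ 0) :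
    ∫ x, ‖HReg.dq i t g x‖ ^ 2 ≤ ∫ x, q x ^ 2 := by
  have hF : H1 (HReg.dq i t f) (HReg.dq i t g) := HReg.H1_dq h i t
  have hW : H1 (HReg.dq i (-t) (HReg.dq i t f)) (HReg.dq i (-t) (HReg.dq i t g)) :=
    HReg.H1_dq hF i (-t)
  have h1 := HReg.test_H1 h.memg hq heq hW
  rw [HReg.dq_ibp h.memg hF.memg i t] at h1
  simp only [real_inner_self_eq_norm_sq] at h1
  -- `A = ∫ ‖D g‖²`
  set A : ℝ := ∫ x, ‖HReg.dq i t g x‖ ^ 2 with hA
  set B : ℝ := ∫ x, q x ^ 2 with hB
  have hA0 : 0 ≤ A := integral_nonneg fun x => by positivity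
  have hB0 : 0 ≤ B := integral_nonneg fun x => by positivity
  have nA : ‖hF.memg.toLp (HReg.dq i t g)‖ ^ 2 = A := norm_toLp_sq hF.memg
  have nB : ‖hq.toLp q‖ ^ 2 = B := by
    rw [norm_toLp_sq hq]
    simp only [Real.norm_eq_abs, sq_abs, hB]
  have nW : ‖hW.memf.toLp (HReg.dq i (-t) (HReg.dq i t f))‖ ≤
      ‖hF.memg.toLp (HReg.dq i t g)‖ := by
    rw [Lp.norm_toLp, Lp.norm_toLp]
    refine ENNReal.toReal_mono hF.memg.eLpNorm_ne_top ?_
    exact (HReg.eLpNorm_dq_le hF i (neg_ne_zero.2 ht)).trans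
      (HReg.eLpNorm_comp_le (u := HReg.dq i t g) i)
  have h2 : (∫ x, q x * HReg.dq i (-t) (HReg.dq i t f) x) =
      inner ℝ (hq.toLp q) (hW.memf.toLp (HReg.dq i (-t) (HReg.dq i t f))) := by
    rw [inner_toLp hq hW.memf]
    exact integral_congr_ae (Eventually.of_forall fun x => by simp [mul_comm])
  have h3 : A ≤ ‖hq.toLp q‖ * ‖hF.memg.toLp (HReg.dq i t g)‖ := by
    have h4 : A = - ∫ x, q x * HReg.dq i (-t) (HReg.dq i t f) x := by
      rw [← h1]; ring
    rw [h4, h2]
    refine (neg_le_abs _).trans ((abs_real_inner_le_norm _ _).trans ?_)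
    exact mul_le_mul_of_nonneg_left nW (norm_nonneg _)
  rw [← nA] at h3 ⊢
  rw [← nB]
  by_cases h0 : ‖hF.memg.toLp (HReg.dq i t g)‖ = 0
  · rw [h0, zero_pow two_ne_zero]; positivity
  · have hpos : 0 < ‖hF.memg.toLp (HReg.dq i t g)‖ := lt_of_le_of_ne (norm_nonneg _) (Ne.symm h0)
    have h5 : ‖hF.memg.toLp (HReg.dq i t g)‖ ≤ ‖hq.toLp q‖ := by
      rw [pow_two] at h3
      exact le_of_mul_le_mul_right h3 hpos
    exact pow_le_pow_left₀ (norm_nonneg _) h5 2

/-- if `-Δ f = q ∈ L²` weakly and `f ∈ H¹` then `∇f ∈ H¹` -/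
theorem H2_of_weak {f q : E → ℝ} {g : E → E} (h : H1 f g) (hq : MemLp q 2 volume)
    (heq : ∀ φ : E → ℝ, Test univ φ → ∫ x, inner ℝ (g x) (gr φ x) = ∫ x, q x * φ x) :
    ∃ H : ι → E → E, (∀ i, H1 (fun x => g x i) (H i)) ∧
      ∀ i, ∫ x, ‖H i x‖ ^ 2 ≤ ∫ x, q x ^ 2 := by
  have key : ∀ i, ∃ G : E → E, H1 (fun x => g x i) G ∧ ∫ x, ‖G x‖ ^ 2 ≤ ∫ x, q x ^ 2 := by
    intro i
    have hn : ∀ n : ℕ, (1 / ((n : ℝ) + 1)) ≠ 0 := fun n => Nat.one_div_pos_of_nat.ne'
    exact H1.of_bounded (fn := fun n => HReg.dq i (1 / ((n : ℝ) + 1)) f)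
      (gn := fun n => HReg.dq i (1 / ((n : ℝ) + 1)) g) (fun n => HReg.H1_dq h i _)
      (HReg.memLp_comp h.memg i)
      (HReg.tendsto_dq h i hn tendsto_one_div_add_atTop_nhds_zero_nat)
      (fun n => HReg.bound h hq heq i (hn n))
  choose H hH using key
  exact ⟨H, fun i => (hH i).1, fun i => (hH i).2⟩

end Crest.Agent.R335
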