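import Crest.Agent.R335.HDefs2
import Crest.Agent.R335.HWeak

/-!
Row 335 (S0521): Sobolev library, tools on `L²` convergence (used by HZero, HKato, ...).
-/

set_option autoImplicit false
set_option linter.unusedSectionVars false

open MeasureTheory Filter Set
open scoped ENNReal Topology ContDiff

noncomputable section
namespace Crest.Agent.R335.HZ
open Crest.Agent.R335

section general
variable {α F : Type*} [MeasurableSpace α] {μ : Measure α} [NormedAddCommGroup F]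

/-- dominated convergence in `L²` -/
theorem tendsto_two_of_dominated {fn : ℕ → α → F} {b : α → ℝ}
    (hm : ∀ n, AEStronglyMeasurable (fn n) μ) (hb : MemLp b 2 μ)
    (h : ∀ n, ∀ᵐ x ∂μ, ‖fn n x‖ ≤ b x)
    (hlim : ∀ᵐ x ∂μ, Tendsto (fun n => fn n x) atTop (𝓝 0)) :
    Tendsto (fun n => eLpNorm (fn n) 2 μ) atTop (𝓝 0) := by
  have h2 : ∀ n, eLpNorm (fn n) 2 μ = (∫⁻ x, ‖fn n x‖ₑ ^ (2 : ℝ) ∂μ) ^ (1 / (2 : ℝ)) := by
    intro n
    rw [eLpNorm_eq_lintegral_rpow_enorm_toReal (by norm_num) (by norm_num)]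
    norm_num
  simp_rw [h2]
  have hbf : ∫⁻ x, ‖b x‖ₑ ^ (2 : ℝ) ∂μ ≠ ⊤ := by
    have := hb.2
    rw [eLpNorm_eq_lintegral_rpow_enorm_toReal (by norm_num) (by norm_num)] at this
    have h3 : (∫⁻ x, ‖b x‖ₑ ^ ((2 : ℝ≥0∞).toReal) ∂μ) < ⊤ := by
      by_contra hcon
      rw [not_lt, top_le_iff] at hcon
      rw [hcon] at this
      simp at this
    simpa using h3.ne
  have key : Tendsto (fun n => ∫⁻ x, ‖fn n x‖ₑ ^ (2 : ℝ) ∂μ) atTop (𝓝 (∫⁻ _, 0 ∂μ)) := by
    refine tendsto_lintegral_of_dominated_convergence' (fun x => ‖b x‖ₑ ^ (2 : ℝ))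
      (fun n => (hm n).enorm.pow_const _) ?_ hbf ?_
    · intro n
      filter_upwards [h n] with x hx
      refine ENNReal.rpow_le_rpow ?_ (by norm_num)
      rw [← ofReal_norm, ← ofReal_norm]
      refine ENNReal.ofReal_le_ofReal (hx.trans (le_abs_self _))
    · filter_upwards [hlim] with x hx
      have h4 : Tendsto (fun n => ‖fn n x‖ₑ) atTop (𝓝 0) := by
        have := hx.enorm
        simpa using this
      have h5 := ((ENNReal.continuous_rpow_const (y := (2 : ℝ))).tendsto 0).comp h4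
      rw [ENNReal.zero_rpow_of_pos (by norm_num)] at h5
      exact h5
  rw [lintegral_zero] at key
  have h6 := ((ENNReal.continuous_rpow_const (y := (1 / 2 : ℝ))).tendsto 0).comp key
  rw [ENNReal.zero_rpow_of_pos (by norm_num)] at h6
  exact h6

/-- pairing with a fixed `L²` field is continuous -/
theorem tendsto_integral_inner {G' : Type*} [NormedAddCommGroup G'] [InnerProductSpace ℝ G']
    {G h : α → G'} {hn : ℕ → α → G'} (hG : MemLp G 2 μ) (hh : MemLp h 2 μ)
    (hhn : ∀ n, MemLp (hn n) 2 μ)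
    (ht : Tendsto (fun n => eLpNorm (fun x => hn n x - h x) 2 μ) atTop (𝓝 0)) :
    Tendsto (fun n => ∫ x, inner ℝ (G x) (hn n x) ∂μ) atTop
      (𝓝 (∫ x, inner ℝ (G x) (h x) ∂μ)) := by
  have h1 : Tendsto (fun n => (hhn n).toLp (hn n)) atTop (𝓝 (hh.toLp h)) := by
    rw [Lp.tendsto_Lp_iff_tendsto_eLpNorm'']
    exact ht
  have h2 : Tendsto (fun n => inner ℝ (hG.toLp G) ((hhn n).toLp (hn n))) atTop
      (𝓝 (inner ℝ (hG.toLp G) (hh.toLp h))) := tendsto_const_nhds.inner h1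
  rw [inner_toLp hG hh] at h2
  refine h2.congr fun n => ?_
  rw [inner_toLp hG (hhn n)]

/-- an `L²`-convergent sequence has an a.e. convergent subsequence -/
theorem exists_subseq_ae {fn : ℕ → α → F} {f : α → F}
    (hfn : ∀ n, AEStronglyMeasurable (fn n) μ) (hf : AEStronglyMeasurable f μ)
    (h : Tendsto (fun n => eLpNorm (fun x => fn n x - f x) 2 μ) atTop (𝓝 0)) :
    ∃ ns : ℕ → ℕ, StrictMono ns ∧ ∀ᵐ x ∂μ, Tendsto (fun k => fn (ns k) x) atTop (𝓝 (f x)) :=
  (tendstoInMeasure_of_tendsto_eLpNorm two_ne_zero hfn hf h).exists_seq_tendsto_ae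

/-- sum of two sequences tending to zero in `L²` -/
theorem tendsto_add {u v : ℕ → α → F} (hu : ∀ n, AEStronglyMeasurable (u n) μ)
    (hv : ∀ n, AEStronglyMeasurable (v n) μ)
    (h1 : Tendsto (fun n => eLpNorm (u n) 2 μ) atTop (𝓝 0))
    (h2 : Tendsto (fun n => eLpNorm (v n) 2 μ) atTop (𝓝 0)) :
    Tendsto (fun n => eLpNorm (fun x => u n x + v n x) 2 μ) atTop (𝓝 0) := by
  have h3 := h1.add h2
  rw [add_zero] at h3
  exact tendsto_of_tendsto_of_tendsto_of_le_of_le tendsto_const_nhds h3 (fun _ => zero_le)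
    (fun n => eLpNorm_add_le (hu n) (hv n) (by norm_num))

/-- domination in `L²` -/
theorem tendsto_mono {F' : Type*} [NormedAddCommGroup F'] {u : ℕ → α → F} {v : ℕ → α → F'}
    (C : ℝ) (h : ∀ n, ∀ᵐ x ∂μ, ‖v n x‖ ≤ C * ‖u n x‖)
    (h1 : Tendsto (fun n => eLpNorm (u n) 2 μ) atTop (𝓝 0)) :
    Tendsto (fun n => eLpNorm (v n) 2 μ) atTop (𝓝 0) := by
  have h2 : Tendsto (fun n => ENNReal.ofReal C * eLpNorm (u n) 2 μ) atTop (𝓝 0) := by
    have := ENNReal.Tendsto.const_mul h1 (Or.inr (ENNReal.ofReal_ne_top (r := C)))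
    simpa using this
  exact tendsto_of_tendsto_of_tendsto_of_le_of_le tendsto_const_nhds h2 (fun _ => zero_le)
    (fun n => eLpNorm_le_mul_eLpNorm_of_ae_le_mul (h n) 2)

end general

end Crest.Agent.R335.HZ
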