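import Crest.Agent.R335.HGlob
import Crest.Agent.R335.HChain
import Crest.Agent.R335.HProd
import Crest.Agent.R335.HLip
import Crest.Agent.R335.HMoll
import Crest.Agent.R335.HL2

/-!
Row 335 (S0521): Sobolev library, `H¹` convergence and `H¹₀(U)` (module HZero).
-/

set_option autoImplicit false
set_option linter.unusedSectionVars false

open MeasureTheory Filter Set
open scoped ENNReal Topology ContDiff

noncomputable section
namespace Crest.Agent.R335

variable {ι : Type*} [Fintype ι] [DecidableEq ι]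

local notation "E" => EuclideanSpace ℝ ι

/-! ### convergence in `H¹` -/

theorem TendstoH1.congr {fn fn' : ℕ → E → ℝ} {gn gn' : ℕ → E → E} {f f' : E → ℝ} {g g' : E → E}
    (ht : TendstoH1 fn gn f g) (h1 : ∀ n, fn n =ᵐ[volume] fn' n)
    (h2 : ∀ n, gn n =ᵐ[volume] gn' n) (h3 : f =ᵐ[volume] f') (h4 : g =ᵐ[volume] g') :
    TendstoH1 fn' gn' f' g' := by
  refine ⟨ht.1.congr fun n => ?_, ht.2.congr fun n => ?_⟩
  · refine eLpNorm_congr_ae ?_
    filter_upwards [h1 n, h3] with x hx hx'
    rw [hx, hx']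
  · refine eLpNorm_congr_ae ?_
    filter_upwards [h2 n, h4] with x hx hx'
    rw [hx, hx']

theorem TendstoH1.add {fn fn' : ℕ → E → ℝ} {gn gn' : ℕ → E → E} {f f' : E → ℝ} {g g' : E → E}
    (hn : ∀ n, H1 (fn n) (gn n)) (h : H1 f g) (ht : TendstoH1 fn gn f g)
    (hn' : ∀ n, H1 (fn' n) (gn' n)) (h' : H1 f' g') (ht' : TendstoH1 fn' gn' f' g') :
    TendstoH1 (fun n x => fn n x + fn' n x) (fun n x => gn n x + gn' n x)
      (fun x => f x + f' x) (fun x => g x + g' x) := by
  constructor
  · have := HZ.tendsto_add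
      (fun n => (hn n).memf.aestronglyMeasurable.sub h.memf.aestronglyMeasurable)
      (fun n => (hn' n).memf.aestronglyMeasurable.sub h'.memf.aestronglyMeasurable) ht.1 ht'.1
    refine this.congr fun n => ?_
    congr 1
    funext x
    simp only [Pi.sub_apply]
    ring
  · have := HZ.tendsto_add
      (fun n => (hn n).memg.aestronglyMeasurable.sub h.memg.aestronglyMeasurable)
      (fun n => (hn' n).memg.aestronglyMeasurable.sub h'.memg.aestronglyMeasurable) ht.2 ht'.2
    refine this.congr fun n => ?_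
    congr 1
    funext x
    simp only [Pi.sub_apply]
    abel

theorem TendstoH1.const_mul {fn : ℕ → E → ℝ} {gn : ℕ → E → E} {f : E → ℝ} {g : E → E}
    (ht : TendstoH1 fn gn f g) (c : ℝ) :
    TendstoH1 (fun n x => c * fn n x) (fun n x => c • gn n x) (fun x => c * f x)
      (fun x => c • g x) := by
  constructor
  · refine HZ.tendsto_mono |c| (fun n => Eventually.of_forall fun x => ?_) ht.1
    rw [← mul_sub, norm_mul, Real.norm_eq_abs c]
  · refine HZ.tendsto_mono |c| (fun n => Eventually.of_forall fun x => ?_) ht.2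
    rw [← smul_sub, norm_smul, Real.norm_eq_abs c]

theorem TendstoH1.sub {fn fn' : ℕ → E → ℝ} {gn gn' : ℕ → E → E} {f f' : E → ℝ} {g g' : E → E}
    (hn : ∀ n, H1 (fn n) (gn n)) (h : H1 f g) (ht : TendstoH1 fn gn f g)
    (hn' : ∀ n, H1 (fn' n) (gn' n)) (h' : H1 f' g') (ht' : TendstoH1 fn' gn' f' g') :
    TendstoH1 (fun n x => fn n x - fn' n x) (fun n x => gn n x - gn' n x)
      (fun x => f x - f' x) (fun x => g x - g' x) := by
  have h1 := TendstoH1.add hn h ht (fun n => (hn' n).const_mul (-1)) (h'.const_mul (-1))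
    (ht'.const_mul (-1))
  refine h1.congr (fun n => Eventually.of_forall fun x => ?_)
    (fun n => Eventually.of_forall fun x => ?_) (Eventually.of_forall fun x => ?_)
    (Eventually.of_forall fun x => ?_)
  · simp only; ring
  · simp only [neg_smul, one_smul]; abel
  · simp only; ring
  · simp only [neg_smul, one_smul]; abel

theorem TendstoH1.const {f : E → ℝ} {g : E → E} :
    TendstoH1 (fun _ => f) (fun _ => g) f g := by
  constructor
  · simp
  · simp

/-- subsequence principle for `L²` convergence to zero of the jump terms -/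
theorem TendstoH1.pos {fn : ℕ → E → ℝ} {gn : ℕ → E → E} {f : E → ℝ} {g : E → E}
    (hn : ∀ n, H1 (fn n) (gn n)) (h : H1 f g) (ht : TendstoH1 fn gn f g) :
    TendstoH1 (fun n x => Max.max (fn n x) 0) (fun n x => if 0 < fn n x then gn n x else 0)
      (fun x => Max.max (f x) 0) (fun x => if 0 < f x then g x else 0) := by
  constructor
  · refine HZ.tendsto_mono 1 (fun n => Eventually.of_forall fun x => ?_) ht.1
    rw [one_mul, Real.norm_eq_abs, Real.norm_eq_abs]
    exact abs_max_sub_max_le_abs _ _ _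
  · -- split the difference
    have hA : Tendsto (fun n => eLpNorm (fun x => (if 0 < fn n x then gn n x else 0) -
        (if 0 < fn n x then g x else 0)) 2 (volume : Measure E)) atTop (𝓝 0) := by
      refine HZ.tendsto_mono 1 (fun n => Eventually.of_forall fun x => ?_) ht.2
      rw [one_mul]
      split_ifs
      · exact le_rfl
      · simp
    have hm : ∀ n, AEStronglyMeasurable (fun x => if 0 < fn n x then g x else 0)
        (volume : Measure E) := fun n =>
      aesm_ite aestronglyMeasurable_const (hn n).memf.aestronglyMeasurable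
        h.memg.aestronglyMeasurable aestronglyMeasurable_const
    have hm' : AEStronglyMeasurable (fun x => if 0 < f x then g x else 0)
        (volume : Measure E) :=
      aesm_ite aestronglyMeasurable_const h.memf.aestronglyMeasurable
        h.memg.aestronglyMeasurable aestronglyMeasurable_const
    have hmn : ∀ n, AEStronglyMeasurable (fun x => if 0 < fn n x then gn n x else 0)
        (volume : Measure E) := fun n =>
      aesm_ite aestronglyMeasurable_const (hn n).memf.aestronglyMeasurable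
        (hn n).memg.aestronglyMeasurable aestronglyMeasurable_const
    have hB : Tendsto (fun n => eLpNorm (fun x => (if 0 < fn n x then g x else 0) -
        (if 0 < f x then g x else 0)) 2 (volume : Measure E)) atTop (𝓝 0) := by
      refine tendsto_of_subseq_tendsto fun ns hns => ?_
      obtain ⟨ms, -, hae⟩ := HZ.exists_subseq_ae (μ := (volume : Measure E))
        (fn := fun k => fn (ns k)) (f := f)
        (fun k => (hn (ns k)).memf.aestronglyMeasurable) h.memf.aestronglyMeasurable
        (ht.1.comp hns)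
      refine ⟨ms, ?_⟩
      refine HZ.tendsto_two_of_dominated (b := fun x => ‖g x‖)
        (fun n => (hm _).sub hm') h.memg.norm ?_ ?_
      · intro n
        refine Eventually.of_forall fun x => ?_
        split_ifs <;> simp
      · have hz := h.wg.zero_of_level isOpen_univ 0
        rw [Measure.restrict_univ] at hz
        filter_upwards [hae, hz] with x hx hx0
        rcases lt_trichotomy (f x) 0 with h1 | h1 | h1
        · have h2 : ∀ᶠ k in atTop, fn (ns (ms k)) x < 0 := hx.eventually_lt_const h1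
          refine Tendsto.congr' ?_ tendsto_const_nhds
          filter_upwards [h2] with k hk
          rw [if_neg (not_lt.2 hk.le), if_neg (not_lt.2 h1.le), sub_zero]
        · simp [hx0 h1]
        · have h2 : ∀ᶠ k in atTop, 0 < fn (ns (ms k)) x := hx.eventually_const_lt h1
          refine Tendsto.congr' ?_ tendsto_const_nhds
          filter_upwards [h2] with k hk
          rw [if_pos hk, if_pos h1, sub_self]
    have := HZ.tendsto_add (fun n => (hmn n).sub (hm n)) (fun n => (hm n).sub hm') hA hB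
    refine this.congr fun n => ?_
    congr 1
    funext x
    simp only [Pi.sub_apply]
    abel

theorem TendstoH1.min {fn fn' : ℕ → E → ℝ} {gn gn' : ℕ → E → E} {f f' : E → ℝ} {g g' : E → E}
    (hn : ∀ n, H1 (fn n) (gn n)) (h : H1 f g) (ht : TendstoH1 fn gn f g)
    (hn' : ∀ n, H1 (fn' n) (gn' n)) (h' : H1 f' g') (ht' : TendstoH1 fn' gn' f' g') :
    TendstoH1 (fun n x => Min.min (fn n x) (fn' n x))
      (fun n x => if fn n x < fn' n x then gn n x else gn' n x)
      (fun x => Min.min (f x) (f' x)) (fun x => if f x < f' x then g x else g' x) := by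
  have e1 : ∀ a b : ℝ, b - Max.max (b - a) 0 = Min.min a b := by
    intro a b
    rcases le_or_gt b a with h2 | h2
    · rw [min_eq_right h2, max_eq_right (by linarith), sub_zero]
    · rw [min_eq_left h2.le, max_eq_left (by linarith)]
      ring
  have e2 : ∀ (a b : ℝ) (u v : E), v - (if 0 < b - a then v - u else 0) =
      if a < b then u else v := by
    intro a b u v
    by_cases h2 : a < b
    · rw [if_pos h2, if_pos (by linarith)]
      abel
    · rw [if_neg h2, if_neg (by linarith), sub_zero]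
  have h1 := TendstoH1.sub hn' h' ht' (fun n => ((hn' n).sub (hn n)).pos) ((h'.sub h).pos)
    (TendstoH1.pos (fun n => (hn' n).sub (hn n)) (h'.sub h) (TendstoH1.sub hn' h' ht' hn h ht))
  refine h1.congr (fun n => Eventually.of_forall fun x => ?_)
    (fun n => Eventually.of_forall fun x => ?_) (Eventually.of_forall fun x => ?_)
    (Eventually.of_forall fun x => ?_)
  · exact e1 _ _
  · exact e2 _ _ _ _
  · exact e1 _ _
  · exact e2 _ _ _ _

/-- multiplication by a bounded function with bounded gradient -/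
theorem TendstoH1.mul_bdd {fn : ℕ → E → ℝ} {gn : ℕ → E → E} {f k : E → ℝ} {g l : E → E}
    (hn : ∀ n, H1 (fn n) (gn n)) (h : H1 f g) (ht : TendstoH1 fn gn f g)
    (h' : WG univ k l) {C : ℝ} (hk : ∀ x, |k x| ≤ C) (hl : ∀ x, ‖l x‖ ≤ C) :
    TendstoH1 (fun n x => k x * fn n x) (fun n x => k x • gn n x + fn n x • l x)
      (fun x => k x * f x) (fun x => k x • g x + f x • l x) := by
  have hkm : AEStronglyMeasurable k volume :=
    (locallyIntegrableOn_univ.1 h'.intf).aestronglyMeasurable
  have hlm : AEStronglyMeasurable l volume :=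
    (locallyIntegrableOn_univ.1 h'.intg).aestronglyMeasurable
  constructor
  · refine HZ.tendsto_mono C (fun n => Eventually.of_forall fun x => ?_) ht.1
    rw [← mul_sub, norm_mul]
    exact mul_le_mul_of_nonneg_right (hk x) (norm_nonneg _)
  · have hA : Tendsto (fun n => eLpNorm (fun x => k x • (gn n x - g x)) 2 volume) atTop
        (𝓝 0) := by
      refine HZ.tendsto_mono C (fun n => Eventually.of_forall fun x => ?_) ht.2
      rw [norm_smul]
      exact mul_le_mul_of_nonneg_right (hk x) (norm_nonneg _)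
    have hB : Tendsto (fun n => eLpNorm (fun x => (fn n x - f x) • l x) 2 volume) atTop
        (𝓝 0) := by
      refine HZ.tendsto_mono C (fun n => Eventually.of_forall fun x => ?_) ht.1
      rw [norm_smul, mul_comm]
      exact mul_le_mul_of_nonneg_right (hl x) (norm_nonneg _)
    have := HZ.tendsto_add
      (fun n => hkm.smul ((hn n).memg.aestronglyMeasurable.sub h.memg.aestronglyMeasurable))
      (fun n => ((hn n).memf.aestronglyMeasurable.sub h.memf.aestronglyMeasurable).smul hlm)
      hA hB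
    refine this.congr fun n => ?_
    congr 1
    funext x
    show k x • (gn n x - g x) + (fn n x - f x) • l x =
      (k x • gn n x + fn n x • l x) - (k x • g x + f x • l x)
    rw [smul_sub, sub_smul]
    abel

/-! ### `H¹₀(U)` -/

theorem H10.congr {U : Set E} {f f' : E → ℝ} {g g' : E → E} (h : H10 U f g)
    (hf : f =ᵐ[volume] f') (hg : g =ᵐ[volume] g') : H10 U f' g' := by
  obtain ⟨φ, h1, h2⟩ := h.approx
  exact ⟨h.h1.congr hf hg, φ, h1, h2.congr (fun _ => ae_eq_rfl) (fun _ => ae_eq_rfl) hf hg⟩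

/-- replace the gradient -/
theorem H10.of_ae_eq {U : Set E} {f f' : E → ℝ} {g g' : E → E} (h : H10 U f g)
    (hf : f =ᵐ[volume] f') (h' : H1 f' g') : H10 U f' g' :=
  h.congr hf ((h.h1.congr hf ae_eq_rfl).unique h')

theorem H10.of_univ {f : E → ℝ} {g : E → E} (h : H1 f g) : H10 univ f g := by
  obtain ⟨φ, h1, h2, h3, -⟩ := H1.approx h
  exact ⟨h, φ, h1, h2, h3⟩

theorem H10.of_supp {U : Set E} (hU : IsOpen U) {f : E → ℝ} {g : E → E} (h : H1 f g)
    {K : Set E} (hK : IsCompact K) (hKU : K ⊆ U) (hf : SuppIn K f) : H10 U f g := by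
  obtain ⟨φ, K', -, -, h1, -, h2, h3, -⟩ := H1.approx_of_supp hU h hK hKU hf
  exact ⟨h, φ, h1, h2, h3⟩

theorem HZ.exists_test_close {U : Set E} {f : E → ℝ} {g : E → E} (h : H10 U f g) {ε : ℝ≥0∞}
    (hε : 0 < ε) : ∃ φ : E → ℝ, Test U φ ∧ eLpNorm (fun x => φ x - f x) 2 volume < ε ∧
      eLpNorm (fun x => gr φ x - g x) 2 volume < ε := by
  obtain ⟨φ, h1, h2, h3⟩ := h.approx
  obtain ⟨n, hn1, hn2⟩ := ((h2.eventually_lt_const hε).and (h3.eventually_lt_const hε)).exists
  exact ⟨φ n, h1 n, hn1, hn2⟩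

theorem HZ.tendstoH1_of_close {fn un : ℕ → E → ℝ} {gn vn : ℕ → E → E} {f : E → ℝ} {g : E → E}
    (hn : ∀ n, H1 (fn n) (gn n)) (h : H1 f g) (ht : TendstoH1 fn gn f g)
    (hu : ∀ n, H1 (un n) (vn n)) {ε : ℕ → ℝ≥0∞} (hε : Tendsto ε atTop (𝓝 0))
    (h1 : ∀ n, eLpNorm (fun x => un n x - fn n x) 2 volume < ε n)
    (h2 : ∀ n, eLpNorm (fun x => vn n x - gn n x) 2 volume < ε n) :
    TendstoH1 un vn f g := by
  constructor
  · have hA : Tendsto (fun n => eLpNorm (fun x => un n x - fn n x) 2 volume) atTop (𝓝 0) :=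
      tendsto_of_tendsto_of_tendsto_of_le_of_le tendsto_const_nhds hε (fun _ => zero_le)
        (fun n => (h1 n).le)
    have := HZ.tendsto_add
      (fun n => (hu n).memf.aestronglyMeasurable.sub (hn n).memf.aestronglyMeasurable)
      (fun n => (hn n).memf.aestronglyMeasurable.sub h.memf.aestronglyMeasurable) hA ht.1
    refine this.congr fun n => ?_
    congr 1
    funext x
    simp only [Pi.sub_apply]
    ring
  · have hA : Tendsto (fun n => eLpNorm (fun x => vn n x - gn n x) 2 volume) atTop (𝓝 0) :=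
      tendsto_of_tendsto_of_tendsto_of_le_of_le tendsto_const_nhds hε (fun _ => zero_le)
        (fun n => (h2 n).le)
    have := HZ.tendsto_add
      (fun n => (hu n).memg.aestronglyMeasurable.sub (hn n).memg.aestronglyMeasurable)
      (fun n => (hn n).memg.aestronglyMeasurable.sub h.memg.aestronglyMeasurable) hA ht.2
    refine this.congr fun n => ?_
    congr 1
    funext x
    simp only [Pi.sub_apply]
    abel

theorem HZ.tendsto_inv_nat : Tendsto (fun n : ℕ => ((n : ℝ≥0∞) + 1)⁻¹) atTop (𝓝 0) := by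
  have h1 : Tendsto (fun n : ℕ => ((n : ℝ≥0∞))⁻¹) atTop (𝓝 0) :=
    ENNReal.tendsto_inv_nat_nhds_zero
  have h2 := h1.comp (tendsto_add_atTop_nat 1)
  refine h2.congr fun n => ?_
  simp

theorem HZ.inv_nat_pos (n : ℕ) : (0 : ℝ≥0∞) < ((n : ℝ≥0∞) + 1)⁻¹ := by
  rw [ENNReal.inv_pos]
  exact ENNReal.add_ne_top.2 ⟨ENNReal.natCast_ne_top n, ENNReal.one_ne_top⟩

theorem H10.of_tendsto {U : Set E} {fn : ℕ → E → ℝ} {gn : ℕ → E → E} {f : E → ℝ} {g : E → E}
    (hn : ∀ n, H10 U (fn n) (gn n)) (h : H1 f g) (ht : TendstoH1 fn gn f g) : H10 U f g := by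
  choose φ h1 h2 h3 using fun n => HZ.exists_test_close (hn n) (HZ.inv_nat_pos n)
  exact ⟨h, φ, h1, HZ.tendstoH1_of_close (fun n => (hn n).h1) h ht (fun n => H1.of_test (h1 n))
    HZ.tendsto_inv_nat h2 h3⟩

theorem HZ.Test_add {U : Set E} {φ ψ : E → ℝ} (h : Test U φ) (h' : Test U ψ) :
    Test U (fun x => φ x + ψ x) where
  smooth := h.smooth.add h'.smooth
  cpt := h.cpt.add h'.cpt
  sub := (tsupport_add φ ψ).trans (union_subset h.sub h'.sub)

theorem HZ.gr_add {φ ψ : E → ℝ} (h : ContDiff ℝ ∞ φ) (h' : ContDiff ℝ ∞ ψ) :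
    gr (fun x => φ x + ψ x) = fun x => gr φ x + gr ψ x := by
  funext x
  ext i
  simp only [gr_apply, PiLp.add_apply, pd]
  rw [fderiv_fun_add (h.differentiable (by simp)).differentiableAt
    (h'.differentiable (by simp)).differentiableAt]
  simp

theorem HZ.Test_const_mul {U : Set E} {φ : E → ℝ} (h : Test U φ) (c : ℝ) :
    Test U (fun x => c * φ x) where
  smooth := contDiff_const.mul h.smooth
  cpt := h.cpt.mul_left
  sub := (closure_mono (Function.support_mul_subset_right (fun _ => c) φ)).trans h.sub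

theorem HZ.gr_const_mul {φ : E → ℝ} (h : ContDiff ℝ ∞ φ) (c : ℝ) :
    gr (fun x => c * φ x) = fun x => c • gr φ x := by
  funext x
  ext i
  simp only [gr_apply, PiLp.smul_apply, pd]
  rw [fderiv_const_mul (h.differentiable (by simp)).differentiableAt]
  simp

theorem H10.add {U : Set E} {f f' : E → ℝ} {g g' : E → E} (h : H10 U f g) (h' : H10 U f' g') :
    H10 U (fun x => f x + f' x) (fun x => g x + g' x) := by
  obtain ⟨φ, h1, h2⟩ := h.approx
  obtain ⟨ψ, h3, h4⟩ := h'.approx
  refine ⟨h.h1.add h'.h1, fun n x => φ n x + ψ n x, fun n => HZ.Test_add (h1 n) (h3 n), ?_⟩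
  have := TendstoH1.add (fun n => H1.of_test (h1 n)) h.h1 h2 (fun n => H1.of_test (h3 n)) h'.h1 h4
  refine this.congr (fun n => ae_eq_rfl) (fun n => ?_) ae_eq_rfl ae_eq_rfl
  rw [HZ.gr_add (h1 n).smooth (h3 n).smooth]

theorem H10.const_mul {U : Set E} {f : E → ℝ} {g : E → E} (h : H10 U f g) (c : ℝ) :
    H10 U (fun x => c * f x) (fun x => c • g x) := by
  obtain ⟨φ, h1, h2⟩ := h.approx
  refine ⟨h.h1.const_mul c, fun n x => c * φ n x, fun n => HZ.Test_const_mul (h1 n) c, ?_⟩
  refine (h2.const_mul c).congr (fun n => ae_eq_rfl) (fun n => ?_) ae_eq_rfl ae_eq_rfl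
  rw [HZ.gr_const_mul (h1 n).smooth]

theorem HZ.suppIn_tsupport {U : Set E} {φ : E → ℝ} (_h : Test U φ) : SuppIn (tsupport φ) φ :=
  fun _ hx => image_eq_zero_of_notMem_tsupport hx

theorem H10.pos {U : Set E} (hU : IsOpen U) {f : E → ℝ} {g : E → E} (h : H10 U f g) :
    H10 U (fun x => Max.max (f x) 0) (fun x => if 0 < f x then g x else 0) := by
  obtain ⟨φ, h1, h2⟩ := h.approx
  refine H10.of_tendsto (fn := fun n x => Max.max (φ n x) 0)
    (gn := fun n x => if 0 < φ n x then gr (φ n) x else 0) (fun n => ?_) h.h1.pos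
    (TendstoH1.pos (fun n => H1.of_test (h1 n)) h.h1 h2)
  refine H10.of_supp hU (H1.of_test (h1 n)).pos (h1 n).cpt (h1 n).sub ?_
  intro x hx
  simp only
  rw [image_eq_zero_of_notMem_tsupport hx, max_self]

/-- the gradient of a nonnegative function vanishes off `{0 < f}` -/
theorem HZ.pos_eq {f : E → ℝ} {g : E → E} (h : H1 f g) (h0 : ∀ᵐ x, 0 ≤ f x) :
    (fun x => Max.max (f x) 0) =ᵐ[volume] f ∧
      (fun x => if 0 < f x then g x else 0) =ᵐ[volume] g := by
  have hz := h.wg.zero_of_level isOpen_univ 0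
  rw [Measure.restrict_univ] at hz
  constructor
  · filter_upwards [h0] with x hx
    exact max_eq_left hx
  · filter_upwards [h0, hz] with x hx hx0
    rcases hx.eq_or_lt with h1 | h1
    · rw [if_neg (by rw [← h1]; exact lt_irrefl _), hx0 h1.symm]
    · rw [if_pos h1]

/-- nonnegative functions have nonnegative approximations -/
theorem H10.approx_nonneg {U : Set E} (hU : IsOpen U) {f : E → ℝ} {g : E → E} (h : H10 U f g)
    (h0 : ∀ᵐ x, 0 ≤ f x) :
    ∃ φ : ℕ → E → ℝ, (∀ n, Test U (φ n)) ∧ (∀ n x, 0 ≤ φ n x) ∧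
      TendstoH1 φ (fun n => gr (φ n)) f g := by
  obtain ⟨φ, h1, h2⟩ := h.approx
  have h3 := TendstoH1.pos (fun n => H1.of_test (h1 n)) h.h1 h2
  obtain ⟨e1, e2⟩ := HZ.pos_eq h.h1 h0
  have h4 : TendstoH1 (fun n x => Max.max (φ n x) 0)
      (fun n x => if 0 < φ n x then gr (φ n) x else 0) f g :=
    h3.congr (fun _ => ae_eq_rfl) (fun _ => ae_eq_rfl) e1 e2
  have h5 : ∀ n, ∃ ψ : E → ℝ, Test U ψ ∧ (∀ x, 0 ≤ ψ x) ∧
      eLpNorm (fun x => ψ x - Max.max (φ n x) 0) 2 volume < ((n : ℝ≥0∞) + 1)⁻¹ ∧
      eLpNorm (fun x => gr ψ x - (if 0 < φ n x then gr (φ n) x else 0)) 2 volume <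
        ((n : ℝ≥0∞) + 1)⁻¹ := by
    intro n
    obtain ⟨M, hM⟩ := (h1 n).cpt.exists_bound_of_continuous (h1 n).smooth.continuous
    have hM0 : 0 ≤ M := (norm_nonneg _).trans (hM 0)
    obtain ⟨ψ, K', -, -, g1, -, g2, g3, g4⟩ := H1.approx_of_supp hU
      (H1.of_test (h1 n)).pos (h1 n).cpt (h1 n).sub (by
        intro x hx
        simp only
        rw [image_eq_zero_of_notMem_tsupport hx, max_self])
    obtain ⟨k, hk1, hk2⟩ := ((g2.eventually_lt_const (HZ.inv_nat_pos n)).and
      (g3.eventually_lt_const (HZ.inv_nat_pos n))).exists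
    refine ⟨ψ k, g1 k, fun x => ?_, hk1, hk2⟩
    refine (g4 0 M (fun x => ⟨le_max_right _ _, max_le ?_ hM0⟩) le_rfl hM0 k x).1
    exact (le_abs_self _).trans (hM x)
  choose ψ g1 g2 g3 g4 using h5
  refine ⟨ψ, g1, g2, ?_⟩
  exact HZ.tendstoH1_of_close (fun n => (H1.of_test (h1 n)).pos) h.h1 h4
    (fun n => H1.of_test (g1 n)) HZ.tendsto_inv_nat g3 g4

/-- lattice property -/
theorem H10.of_le {U : Set E} (hU : IsOpen U) {f w : E → ℝ} {g l : E → E} (h : H10 U f g)
    (hw : H1 w l) (h0 : ∀ᵐ x, 0 ≤ w x) (hle : ∀ᵐ x, w x ≤ f x) : H10 U w l := by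
  obtain ⟨φ, h1, h2⟩ := h.approx
  have ht1 := TendstoH1.pos (fun n => H1.of_test (h1 n)) h.h1 h2
  have hwp := hw.pos
  have ht := TendstoH1.min (fun _ => hwp) hwp TendstoH1.const
    (fun n => (H1.of_test (h1 n)).pos) h.h1.pos ht1
  have hlim := hwp.min h.h1.pos
  have key : H10 U _ _ := H10.of_tendsto (U := U) (fun n => ?_) hlim ht
  · refine key.of_ae_eq ?_ hw
    filter_upwards [h0, hle] with x hx hx'
    rw [max_eq_left hx, max_eq_left (hx.trans hx'), min_eq_left hx']
  · refine H10.of_supp hU (hwp.min (H1.of_test (h1 n)).pos) (h1 n).cpt (h1 n).sub ?_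
    intro x hx
    simp only
    rw [image_eq_zero_of_notMem_tsupport hx, max_self, min_eq_right (le_max_right _ _)]

/-- multiplication by a bounded function with bounded gradient -/
theorem H10.mul_bdd {U : Set E} (hU : IsOpen U) {f k : E → ℝ} {g l : E → E} (h : H10 U f g)
    (h' : WG univ k l) {C : ℝ} (hk : ∀ x, |k x| ≤ C) (hl : ∀ x, ‖l x‖ ≤ C) :
    H10 U (fun x => k x * f x) (fun x => k x • g x + f x • l x) := by
  obtain ⟨φ, h1, h2⟩ := h.approx
  refine H10.of_tendsto (fun n => ?_) (H1.mul_bdd h.h1 h' hk hl)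
    (TendstoH1.mul_bdd (fun n => H1.of_test (h1 n)) h.h1 h2 h' hk hl)
  refine H10.of_supp hU (H1.mul_bdd (H1.of_test (h1 n)) h' hk hl) (h1 n).cpt (h1 n).sub ?_
  intro x hx
  simp only
  rw [image_eq_zero_of_notMem_tsupport hx, mul_zero]

/-- an `H¹₀(U)` function vanishes a.e. outside `U` -/
theorem H10.ae_eq_zero {U : Set E} {f : E → ℝ} {g : E → E} (h : H10 U f g) :
    ∀ᵐ x, x ∉ U → f x = 0 := by
  obtain ⟨φ, h1, h2⟩ := h.approx
  obtain ⟨ns, -, hae⟩ := HZ.exists_subseq_ae
    (fun n => (H1.of_test (h1 n)).memf.aestronglyMeasurable) h.h1.memf.aestronglyMeasurable h2.1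
  filter_upwards [hae] with x hx hxU
  refine tendsto_nhds_unique hx ?_
  refine tendsto_const_nhds.congr fun n => ?_
  exact (image_eq_zero_of_notMem_tsupport fun hh => hxU ((h1 (ns n)).sub hh)).symm

/-- restriction to a smaller open set, when the function vanishes outside a closed subset whose
distance to the complement is positive -/
theorem H10.of_vanish {U V : Set E} (hU : IsOpen U) (hV : IsOpen V) (hVU : V ⊆ U) {f : E → ℝ}
    {g : E → E} (h : H10 U f g) {δ : ℝ} (hδ : 0 < δ)
    (hf : ∀ᵐ x, x ∈ U → x ∉ V ∨ Metric.infDist x (U \ V) < δ → f x = 0) : H10 V f g := by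
  -- the cutoff
  set η : E → ℝ := fun x => Min.min 1 (Max.max 0 (2 / δ * Metric.infDist x (U \ V) - 1)) with hη
  have hη0 : ∀ x, 0 ≤ η x := fun x => le_min zero_le_one (le_max_left _ _)
  have hη1 : ∀ x, η x ≤ 1 := fun x => min_le_left _ _
  have hlip : LipschitzWith (Real.toNNReal (2 / δ)) η := by
    have h1 : LipschitzWith (Real.toNNReal (2 / δ))
        (fun x : E => 2 / δ * Metric.infDist x (U \ V) - 1) := by
      refine LipschitzWith.of_dist_le_mul fun x y => ?_
      rw [Real.dist_eq, Real.coe_toNNReal _ (by positivity)]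
      have h2 : (2 / δ * Metric.infDist x (U \ V) - 1) - (2 / δ * Metric.infDist y (U \ V) - 1) =
          2 / δ * (Metric.infDist x (U \ V) - Metric.infDist y (U \ V)) := by ring
      rw [h2, abs_mul, abs_of_pos (by positivity : (0 : ℝ) < 2 / δ)]
      refine mul_le_mul_of_nonneg_left ?_ (by positivity)
      have h3 := (Metric.lipschitz_infDist_pt (U \ V)).dist_le_mul x y
      rw [Real.dist_eq] at h3
      simpa using h3
    exact (h1.const_max 0).const_min 1
  obtain ⟨hW, hWb⟩ := WG.of_lipschitz hlip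
  obtain ⟨C, hC1, hC2⟩ : ∃ C : ℝ, (∀ x, |η x| ≤ C) ∧ ∀ x, ‖gr η x‖ ≤ C := by
    refine ⟨Max.max 1 (Real.toNNReal (2 / δ)), fun x => ?_, fun x => ?_⟩
    · rw [abs_of_nonneg (hη0 x)]
      exact (hη1 x).trans (le_max_left _ _)
    · exact (hWb x).trans (le_max_right _ _)
  -- the product is `f` a.e.
  have hfe : (fun x => η x * f x) =ᵐ[volume] f := by
    filter_upwards [hf, h.ae_eq_zero] with x hx1 hx2
    by_cases hxU : x ∈ U
    · by_cases hd : Metric.infDist x (U \ V) < δ
      · rw [hx1 hxU (Or.inr hd), mul_zero]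
      · have h1 : η x = 1 := by
          rw [hη]
          simp only
          have h2 : (1 : ℝ) ≤ 2 / δ * Metric.infDist x (U \ V) - 1 := by
            have h3 : 2 / δ * δ ≤ 2 / δ * Metric.infDist x (U \ V) :=
              mul_le_mul_of_nonneg_left (not_lt.1 hd) (by positivity)
            rw [div_mul_cancel₀ _ hδ.ne'] at h3
            linarith
          rw [max_eq_right (by linarith), min_eq_left h2]
        rw [h1, one_mul]
    · rw [hx2 hxU, mul_zero]
  obtain ⟨φ, h1, h2⟩ := h.approx
  have key : H10 V (fun x => η x * f x) (fun x => η x • g x + f x • gr η x) := by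
    refine H10.of_tendsto (fun n => ?_) (H1.mul_bdd h.h1 hW hC1 hC2)
      (TendstoH1.mul_bdd (fun n => H1.of_test (h1 n)) h.h1 h2 hW hC1 hC2)
    have hKc : IsCompact (tsupport (φ n) ∩ {x | δ / 2 ≤ Metric.infDist x (U \ V)}) :=
      (h1 n).cpt.isCompact.inter_right
        (isClosed_le continuous_const (Metric.continuous_infDist_pt _))
    refine H10.of_supp hV (H1.mul_bdd (H1.of_test (h1 n)) hW hC1 hC2) hKc ?_ ?_
    · intro x hx
      by_contra hxV
      have h3 : Metric.infDist x (U \ V) = 0 :=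
        Metric.infDist_zero_of_mem ⟨(h1 n).sub hx.1, hxV⟩
      have h4 := hx.2
      simp only [mem_ofPred_eq, h3] at h4
      linarith
    · intro x hx
      by_cases hxt : x ∈ tsupport (φ n)
      · have h3 : Metric.infDist x (U \ V) < δ / 2 := by
          by_contra hcon
          exact hx ⟨hxt, not_lt.1 hcon⟩
        have h4 : η x = 0 := by
          rw [hη]
          simp only
          have h5 : 2 / δ * Metric.infDist x (U \ V) - 1 ≤ 0 := by
            have h6 : 2 / δ * Metric.infDist x (U \ V) ≤ 2 / δ * (δ / 2) :=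
              mul_le_mul_of_nonneg_left h3.le (by positivity)
            have h7 : 2 / δ * (δ / 2) = 1 := by field_simp
            linarith
          rw [max_eq_left h5, min_eq_right zero_le_one]
        simp only
        rw [h4, zero_mul]
      · simp only
        rw [image_eq_zero_of_notMem_tsupport hxt, mul_zero]
  exact key.of_ae_eq hfe h.h1

/-- weak inequalities tested with test functions extend to nonnegative `H¹₀` functions -/
theorem test_extend {U : Set E} (hU : IsOpen U) {q : E → ℝ} {G : E → E}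
    (hq : MemLp q 2 (volume.restrict U)) (hG : MemLp G 2 (volume.restrict U))
    (h : ∀ φ : E → ℝ, Test U φ → (∀ x, 0 ≤ φ x) →
      (∫ x in U, inner ℝ (G x) (gr φ x)) + ∫ x in U, q x * φ x ≤ 0)
    {w : E → ℝ} {l : E → E} (hw : H10 U w l) (h0 : ∀ᵐ x, 0 ≤ w x) :
    (∫ x in U, inner ℝ (G x) (l x)) + ∫ x in U, q x * w x ≤ 0 := by
  obtain ⟨φ, h1, h2, h3⟩ := hw.approx_nonneg hU h0
  have hr1 : Tendsto (fun n => eLpNorm (fun x => φ n x - w x) 2 (volume.restrict U)) atTop
      (𝓝 0) :=
    tendsto_of_tendsto_of_tendsto_of_le_of_le tendsto_const_nhds h3.1 (fun _ => zero_le)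
      (fun n => eLpNorm_mono_measure _ Measure.restrict_le_self)
  have hr2 : Tendsto (fun n => eLpNorm (fun x => gr (φ n) x - l x) 2 (volume.restrict U)) atTop
      (𝓝 0) :=
    tendsto_of_tendsto_of_tendsto_of_le_of_le tendsto_const_nhds h3.2 (fun _ => zero_le)
      (fun n => eLpNorm_mono_measure _ Measure.restrict_le_self)
  have t1 := HZ.tendsto_integral_inner hG (hw.h1.memg.restrict U)
    (fun n => (H1.of_test (h1 n)).memg.restrict U) hr2
  have t2 := HZ.tendsto_integral_inner hq (hw.h1.memf.restrict U)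
    (fun n => (H1.of_test (h1 n)).memf.restrict U) hr1
  have t3 := t1.add t2
  have e : ∀ a b : ℝ, inner ℝ a b = a * b := fun a b => by
    simp [mul_comm]
  simp only [e] at t3
  exact le_of_tendsto t3 (Eventually.of_forall fun n => h (φ n) (h1 n) (h2 n))

end Crest.Agent.R335
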