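import Crest.Agent.R335.HYukF
import Crest.Agent.R335.HZero

/-!
Row 335 (S0521): Yukawa kernel in `ℝ³` (module HYuk).
-/

set_option autoImplicit false
set_option linter.unusedSectionVars false

open MeasureTheory Filter Set
open scoped ENNReal Topology ContDiff Convolution

noncomputable section
namespace Crest.Agent.R335
open Yk

local notation "E3" => EuclideanSpace ℝ (Fin 3)

theorem Yuk_nonneg (k : ℝ) (x : E3) : 0 ≤ Yuk k x := Yk.Yuk_nonneg k x

theorem Yuk_integrable {k : ℝ} (hk : 0 < k) :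
    Integrable (Yuk k) ∧ ∫ x, Yuk k x = 1 / k ^ 2 := Yk.Yuk_integrable hk

theorem Yuk_memLp {k : ℝ} (hk : 0 < k) : MemLp (Yuk k) 2 volume := Yk.Yuk_memLp hk

/-- `v = Yuk k * f` is a continuous bounded `H¹` solution of `-Δ v + k² v = f` -/
theorem YukC_solves {k : ℝ} (hk : 0 < k) {f : E3 → ℝ} (hf : MemLp f 2 volume) :
    Continuous (YukC k f) ∧ (∀ x, |YukC k f x| ≤ (∫ y, Yuk k y ^ 2) ^ (1 / 2 : ℝ) *
        (∫ y, f y ^ 2) ^ (1 / 2 : ℝ)) ∧ Tendsto (YukC k f) (cocompact E3) (𝓝 0) ∧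
      ∃ g : E3 → E3, H1 (YukC k f) g ∧ ∀ (w : E3 → ℝ) (l : E3 → E3), H1 w l →
        (∫ x, inner ℝ (g x) (l x)) + k ^ 2 * ∫ x, YukC k f x * w x = ∫ x, f x * w x := by
  obtain ⟨φ, hφ, hlim⟩ := exists_tests hf
  have hφm : ∀ n, MemLp (φ n) 2 volume := fun n => (H1.of_test (hφ n)).memf
  have hu : ∀ n, H1 (YukC k (φ n)) (gr (YukC k (φ n))) := fun n => H1_YukC_test hk (hφ n)
  -- L² limits
  have hP : Tendsto (fun n => (hφm n).toLp (φ n)) atTop (𝓝 (hf.toLp f)) :=
    (Lp.tendsto_Lp_iff_tendsto_eLpNorm'' φ hφm f hf).2 hlim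
  have hPc : CauchySeq (fun n => (hφm n).toLp (φ n)) := hP.cauchySeq
  have hsub : ∀ m n, YukC k (fun y => φ m y - φ n y) = fun x => YukC k (φ m) x - YukC k (φ n) x := by
    intro m n; funext x; exact (YukC_sub hk (hφm m) (hφm n) x).symm
  have hgsub : ∀ m n, gr (YukC k (fun y => φ m y - φ n y)) =
      fun x => gr (YukC k (φ m)) x - gr (YukC k (φ n)) x := by
    intro m n
    funext x
    rw [hsub m n]
    ext i
    simp only [gr_apply, PiLp.sub_apply]
    exact pd_sub ((contDiff_YukC hk (hφ m)).differentiable (by simp) x)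
      ((contDiff_YukC hk (hφ n)).differentiable (by simp) x) i
  have hUc : CauchySeq (fun n => (hu n).memf.toLp (YukC k (φ n))) := by
    refine cauchySeq_of_le (c := (k ^ 2)⁻¹) (by positivity) (fun m n => ?_) hPc
    rw [dist_eq_norm, dist_eq_norm, ← MemLp.toLp_sub, ← MemLp.toLp_sub]
    refine norm_toLp_le _ _ (by positivity) ?_
    have := (energy_test hk (test_sub (hφ m) (hφ n))).2
    rw [hsub m n] at this
    simp only [Pi.sub_apply, Real.norm_eq_abs, sq_abs]
    convert this using 2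
    ring
  have hGc : CauchySeq (fun n => (hu n).memg.toLp (gr (YukC k (φ n)))) := by
    refine cauchySeq_of_le (c := k⁻¹) (by positivity) (fun m n => ?_) hPc
    rw [dist_eq_norm, dist_eq_norm, ← MemLp.toLp_sub, ← MemLp.toLp_sub]
    refine norm_toLp_le _ _ hk ?_
    have := (energy_test hk (test_sub (hφ m) (hφ n))).1
    rw [hgsub m n] at this
    simp only [Pi.sub_apply, Real.norm_eq_abs, sq_abs]
    exact this
  obtain ⟨U, hU⟩ := cauchySeq_tendsto_of_complete hUc
  obtain ⟨G, hG⟩ := cauchySeq_tendsto_of_complete hGc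
  have hUm : MemLp (U : E3 → ℝ) 2 volume := Lp.memLp U
  have hGm : MemLp (G : E3 → E3) 2 volume := Lp.memLp G
  have hU' : Tendsto (fun n => eLpNorm (fun x => YukC k (φ n) x - (U : E3 → ℝ) x) 2 volume)
      atTop (𝓝 0) := by
    refine (Lp.tendsto_Lp_iff_tendsto_eLpNorm'' _ (fun n => (hu n).memf) _ hUm).1 ?_
    rw [Lp.toLp_coeFn]; exact hU
  have hG' : Tendsto (fun n => eLpNorm (fun x => gr (YukC k (φ n)) x - (G : E3 → E3) x) 2 volume)
      atTop (𝓝 0) := by
    refine (Lp.tendsto_Lp_iff_tendsto_eLpNorm'' _ (fun n => (hu n).memg) _ hGm).1 ?_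
    rw [Lp.toLp_coeFn]; exact hG
  -- uniform convergence
  have hN : Tendsto (fun n => (∫ y, (φ n y - f y) ^ 2) ^ (1 / 2 : ℝ)) atTop (𝓝 0) := by
    have h1 : Tendsto (fun n => ‖(hφm n).toLp (φ n) - hf.toLp f‖) atTop (𝓝 0) := by
      have := tendsto_iff_norm_sub_tendsto_zero.1 hP
      exact this
    refine h1.congr fun n => ?_
    have h2 : ‖(hφm n).toLp (φ n) - hf.toLp f‖ ^ 2 = ∫ y, (φ n y - f y) ^ 2 := by
      rw [← MemLp.toLp_sub, norm_toLp_sq]
      simp
    rw [← h2, ← Real.sqrt_eq_rpow, Real.sqrt_sq (norm_nonneg _)]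
  have hbd : ∀ n x, |YukC k (φ n) x - YukC k f x| ≤
      (∫ y, Yuk k y ^ 2) ^ (1 / 2 : ℝ) * (∫ y, (φ n y - f y) ^ 2) ^ (1 / 2 : ℝ) := by
    intro n x
    rw [YukC_sub hk (hφm n) hf]
    exact YukC_bound hk ((hφm n).sub hf) x
  have hNN := hN.const_mul ((∫ y, Yuk k y ^ 2) ^ (1 / 2 : ℝ))
  rw [mul_zero] at hNN
  have hunif : TendstoUniformly (fun n => YukC k (φ n)) (YukC k f) atTop := by
    rw [Metric.tendstoUniformly_iff]
    intro ε hε
    filter_upwards [hNN.eventually (gt_mem_nhds hε)] with n hn x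
    rw [dist_comm, Real.dist_eq]
    exact (hbd n x).trans_lt hn
  have hae : (U : E3 → ℝ) =ᵐ[volume] YukC k f := by
    obtain ⟨ns, hns, h1⟩ := HZ.exists_subseq_ae (fun n => (hu n).memf.aestronglyMeasurable)
      hUm.aestronglyMeasurable hU'
    filter_upwards [h1] with x hx
    refine tendsto_nhds_unique hx ?_
    exact (hunif.tendsto_at x).comp hns.tendsto_atTop
  have hVm : MemLp (YukC k f) 2 volume := hUm.ae_eq hae
  have hU'' : Tendsto (fun n => eLpNorm (fun x => YukC k (φ n) x - YukC k f x) 2 volume)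
      atTop (𝓝 0) := by
    refine hU'.congr fun n => ?_
    refine eLpNorm_congr_ae ?_
    filter_upwards [hae] with x hx
    rw [hx]
  refine ⟨?_, fun x => YukC_bound hk hf x, ?_, (G : E3 → E3), ?_, ?_⟩
  · exact hunif.continuous (Frequently.of_forall fun n => (contDiff_YukC hk (hφ n)).continuous)
  · rw [Metric.tendsto_nhds]
    intro ε hε
    obtain ⟨n, hn⟩ := (hNN.eventually (gt_mem_nhds (half_pos hε))).exists
    have h1 := (Metric.tendsto_nhds.1 (tendsto_YukC_test hk (hφ n))) (ε / 2) (half_pos hε)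
    filter_upwards [h1] with x hx
    have h2 := (hbd n x).trans_lt hn
    rw [Real.dist_eq, sub_zero] at hx ⊢
    have h3 : |YukC k f x| ≤ |YukC k (φ n) x - YukC k f x| + |YukC k (φ n) x| := by
      have := abs_sub_abs_le_abs_sub (YukC k f x) (YukC k (φ n) x)
      rw [abs_sub_comm (YukC k f x)] at this
      linarith
    linarith
  · exact H1.of_tendsto hu hVm hGm hU'' hG'
  · intro w l hw
    have h1 : ∀ n, (∫ x, inner ℝ (gr (YukC k (φ n)) x) (l x)) + k ^ 2 * ∫ x, YukC k (φ n) x * w x =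
        ∫ x, φ n x * w x := fun n => weak_test hk (hφ n) hw
    have a1 := HZ.tendsto_integral_inner hw.memg hGm (fun n => (hu n).memg) hG'
    have a2 := HZ.tendsto_integral_inner hw.memf hVm (fun n => (hu n).memf) hU''
    have a3 := HZ.tendsto_integral_inner hw.memf hf hφm hlim
    have b1 : ∀ (a b : E3 → E3), ∫ x, inner ℝ (b x) (a x) = ∫ x, inner ℝ (a x) (b x) := by
      intro a b
      exact integral_congr_ae (Eventually.of_forall fun x => real_inner_comm _ _)
    have b2 : ∀ (a b : E3 → ℝ), ∫ x, inner ℝ (b x) (a x) = ∫ x, a x * b x := by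
      intro a b
      exact integral_congr_ae (Eventually.of_forall fun x => by simp)
    simp only [b2] at a2 a3
    simp only [fun n => b1 (gr (YukC k (φ n))) l, b1 (G : E3 → E3) l] at a1
    refine tendsto_nhds_unique (a1.add (a2.const_mul (k ^ 2))) ?_
    simp only [h1]
    exact a3

/-- weak comparison with the Yukawa potential -/
theorem Yuk_comparison {k : ℝ} (hk : 0 < k) {f s : E3 → ℝ} {ds : E3 → E3}
    (hf : MemLp f 2 volume) (hs : H1 s ds)
    (h : ∀ φ : E3 → ℝ, Test univ φ → (∀ x, 0 ≤ φ x) →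
      (∫ x, inner ℝ (ds x) (gr φ x)) + k ^ 2 * ∫ x, s x * φ x ≤ ∫ x, f x * φ x) :
    ∀ᵐ x, s x ≤ YukC k f x := by
  obtain ⟨-, -, -, g, hg, heq⟩ := YukC_solves hk hf
  set v := YukC k f with hv
  have hd : H1 (fun x => s x - v x) (fun x => ds x - g x) := H1.sub hs hg
  have hp := H1.pos hd
  obtain ⟨φ, hφ, hφ0, ht1, ht2⟩ := H10.approx_nonneg isOpen_univ (H10.of_univ hp)
    (ae_of_all _ fun x => le_max_right _ _)
  have hφH : ∀ n, H1 (φ n) (gr (φ n)) := fun n => H1.of_test (hφ n)
  have b2 : ∀ (a b : E3 → ℝ), ∫ x, inner ℝ (b x) (a x) = ∫ x, b x * a x := by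
    intro a b
    exact integral_congr_ae (Eventually.of_forall fun x => by simp [mul_comm])
  have a1 := HZ.tendsto_integral_inner hs.memg hp.memg (fun n => (hφH n).memg) ht2
  have a2 := HZ.tendsto_integral_inner hs.memf hp.memf (fun n => (hφH n).memf) ht1
  have a3 := HZ.tendsto_integral_inner hf hp.memf (fun n => (hφH n).memf) ht1
  simp only [b2] at a2 a3
  have hlim := le_of_tendsto_of_tendsto' (a1.add (a2.const_mul (k ^ 2))) a3
    (fun n => h (φ n) (hφ n) (hφ0 n))
  have heq' := heq _ _ hp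
  set p : E3 → ℝ := fun x => max (s x - v x) 0 with hpdef
  set dp : E3 → E3 := fun x => if 0 < s x - v x then ds x - g x else 0 with hdpdef
  have i1 : Integrable (fun x => inner ℝ (ds x) (dp x)) := Yk.integrable_inner hs.memg hp.memg
  have i2 : Integrable (fun x => inner ℝ (g x) (dp x)) := Yk.integrable_inner hg.memg hp.memg
  have i3 : Integrable (fun x => s x * p x) := integrable_mul_L2 hs.memf hp.memf
  have i4 : Integrable (fun x => v x * p x) := integrable_mul_L2 hg.memf hp.memf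
  have e1 : (∫ x, inner ℝ (ds x) (dp x)) - ∫ x, inner ℝ (g x) (dp x) = ∫ x, ‖dp x‖ ^ 2 := by
    rw [← integral_sub i1 i2]
    refine integral_congr_ae (Eventually.of_forall fun x => ?_)
    show inner ℝ (ds x) (dp x) - inner ℝ (g x) (dp x) = ‖dp x‖ ^ 2
    rw [← inner_sub_left, hdpdef]
    by_cases hx : 0 < s x - v x
    · simp only [if_pos hx]; exact real_inner_self_eq_norm_sq _
    · simp only [if_neg hx]; simp
  have e2 : (∫ x, s x * p x) - ∫ x, v x * p x = ∫ x, p x ^ 2 := by
    rw [← integral_sub i3 i4]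
    refine integral_congr_ae (Eventually.of_forall fun x => ?_)
    show s x * p x - v x * p x = p x ^ 2
    rw [hpdef]
    by_cases hx : 0 < s x - v x
    · simp only [max_eq_left hx.le]; ring
    · simp only [max_eq_right (not_lt.1 hx)]; ring
  have h0 : 0 ≤ ∫ x, ‖dp x‖ ^ 2 := integral_nonneg fun x => by positivity
  have h1 : 0 ≤ ∫ x, p x ^ 2 := integral_nonneg fun x => by positivity
  have h2 : (∫ x, ‖dp x‖ ^ 2) + k ^ 2 * ∫ x, p x ^ 2 ≤ 0 := by
    rw [← e1, ← e2]
    rw [← heq'] at hlim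
    linarith
  have hk2 : 0 < k ^ 2 := by positivity
  have h3 : ∫ x, p x ^ 2 = 0 := by
    refine le_antisymm ?_ h1
    by_contra hcon
    have : 0 < k ^ 2 * ∫ x, p x ^ 2 := mul_pos hk2 (not_le.1 hcon)
    linarith
  have i5 : Integrable (fun x => p x ^ 2) := hp.memf.integrable_sq
  have h4 := (integral_eq_zero_iff_of_nonneg (fun x => sq_nonneg (p x)) i5).1 h3
  filter_upwards [h4] with x hx
  have h5 : p x = 0 := by simpa using hx
  have h6 : s x - v x ≤ p x := le_max_left _ _
  linarith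

/-- uniqueness: a weak solution is the Yukawa potential -/
theorem Yuk_unique {k : ℝ} (hk : 0 < k) {f s : E3 → ℝ} {ds : E3 → E3}
    (hf : MemLp f 2 volume) (hs : H1 s ds)
    (h : ∀ φ : E3 → ℝ, Test univ φ →
      (∫ x, inner ℝ (ds x) (gr φ x)) + k ^ 2 * ∫ x, s x * φ x = ∫ x, f x * φ x) :
    ∀ᵐ x, s x = YukC k f x := by
  have h1 := Yuk_comparison hk hf hs (fun φ hφ _ => (h φ hφ).le)
  have hs' := H1.const_mul hs (-1)
  have hf' : MemLp (fun x => -1 * f x) 2 volume := hf.const_mul (-1)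
  have h2 := Yuk_comparison hk hf' hs' (fun φ hφ _ => by
    have e1 : ∫ x, inner ℝ ((-1 : ℝ) • ds x) (gr φ x) = -∫ x, inner ℝ (ds x) (gr φ x) := by
      rw [← integral_neg]
      refine integral_congr_ae (Eventually.of_forall fun x => ?_)
      simp [inner_neg_left]
    have e2 : ∫ x, -1 * s x * φ x = -∫ x, s x * φ x := by
      rw [← integral_neg]
      refine integral_congr_ae (Eventually.of_forall fun x => ?_)
      show -1 * s x * φ x = -(s x * φ x)
      ring
    have e3 : ∫ x, -1 * f x * φ x = -∫ x, f x * φ x := by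
      rw [← integral_neg]
      refine integral_congr_ae (Eventually.of_forall fun x => ?_)
      show -1 * f x * φ x = -(f x * φ x)
      ring
    rw [e1, e2, e3, ← h φ hφ]
    linarith)
  have e4 : ∀ x, YukC k (fun x => -1 * f x) x = -YukC k f x := by
    intro x
    unfold YukC
    rw [← integral_neg]
    refine integral_congr_ae (Eventually.of_forall fun y => ?_)
    show Yuk k (x - y) * (-1 * f y) = -(Yuk k (x - y) * f y)
    ring
  filter_upwards [h1, h2] with x hx1 hx2
  rw [e4] at hx2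
  linarith

end Crest.Agent.R335
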