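import Crest.Agent.R335.HDefs2
import Crest.Agent.R335.HFourier
import Crest.Agent.R335.HHardy
import Crest.Agent.R335.HSob
import Crest.Agent.R335.HSlice
import Crest.Agent.R335.HNorm
import Crest.Agent.R335.HZero
import Crest.Agent.R335.HHalf
import Crest.Agent.R335.HAP
import Crest.Agent.R335.HSpace
import Crest.Agent.R335.HYuk
import Crest.Agent.R335.HReg
import Crest.Agent.R335.HPoin
import Crest.Agent.R335.HLip
import Crest.Agent.R335.HKato
import Crest.Prelude.Def_ThreeElectron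

/-!
Row 335 (S0521): Sobolev library, second INTERFACE (re-export of the proved theorems; sorry-free, imports the whole H layer).  Proof files:
each theorem `I.xxx` is to be proved as `Crest.Agent.R335.xxx` in the module named in its section.
-/

set_option autoImplicit false
set_option linter.unusedSectionVars false

open MeasureTheory Filter Set
open scoped ENNReal Topology ContDiff

noncomputable section
namespace Crest.Agent.R335.I
open Crest.Agent.R335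

variable {ι κ κ' : Type*} [Fintype ι] [DecidableEq ι] [Fintype κ] [DecidableEq κ]
  [Fintype κ'] [DecidableEq κ']

local notation "E" => EuclideanSpace ℝ ι
local notation "E3" => EuclideanSpace ℝ (Fin 3)

/-! ### HFourier: bridge to the Prelude kinetic energy (module HFourier) -/

section Fourier
open Crest.MathPhysics.ThreeBody

theorem H1_of_kineticOne {f : Config3 → ℂ} (hf : kineticOne f < ⊤) :
    ∃ g₁ g₂ : Config3 → Config3, H1 (fun x => (f x).re) g₁ ∧ H1 (fun x => (f x).im) g₂ := by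
  apply Crest.Agent.R335.H1_of_kineticOne <;> assumption

theorem kineticOne_eq {f : Config3 → ℂ} {g₁ g₂ : Config3 → Config3}
    (h1 : H1 (fun x => (f x).re) g₁) (h2 : H1 (fun x => (f x).im) g₂) :
    kineticOne f = ENNReal.ofReal ((1 / 2) * ∫ x, (‖g₁ x‖ ^ 2 + ‖g₂ x‖ ^ 2)) := by
  apply Crest.Agent.R335.kineticOne_eq <;> assumption

end Fourier

/-! ### HHardy (module HHardy) -/

/-- Hardy's inequality in three directions: `L` a linear map onto `ℝ³`, `e c` vectors with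
`L (e c)` the standard basis.  (`L = elPos i`, `e c = single (i,c)`; or `L = elPos i - elPos j`,
`e c = (single (i,c) - single (j,c)) / 2`; or `L = id`.) -/
theorem hardy {f : E → ℝ} {g : E → E} (h : H1 f g) (L : E →L[ℝ] E3) (e : Fin 3 → E)
    (he : ∀ c, L (e c) = EuclideanSpace.single c (1 : ℝ)) (a : E3) :
    Integrable (fun x => f x ^ 2 / ‖L x - a‖ ^ 2) ∧
      ∫ x, f x ^ 2 / ‖L x - a‖ ^ 2 ≤ 4 * ∫ x, ∑ c, (inner ℝ (g x) (e c)) ^ 2 := by
  apply Crest.Agent.R335.hardy <;> assumption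

/-- Coulomb bound -/
theorem coulomb_le {f : E → ℝ} {g : E → E} (h : H1 f g) (L : E →L[ℝ] E3) (e : Fin 3 → E)
    (he : ∀ c, L (e c) = EuclideanSpace.single c (1 : ℝ)) (a : E3) {ε : ℝ} (hε : 0 < ε) :
    Integrable (fun x => f x ^ 2 / ‖L x - a‖) ∧
      ∫ x, f x ^ 2 / ‖L x - a‖ ≤ ε * (∫ x, ∑ c, (inner ℝ (g x) (e c)) ^ 2) +
        ε⁻¹ * ∫ x, f x ^ 2 := by
  apply Crest.Agent.R335.coulomb_le <;> assumption

/-! ### HSob: Sobolev inequality in `ℝ³` and the potentials of class `L^{3/2} + L^∞`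
(module HSob) -/

theorem sobolev6 : ∃ C : ℝ, 0 < C ∧ ∀ (f : E3 → ℝ) (g : E3 → E3), H1 f g →
    MemLp f 6 volume ∧ (eLpNorm f 6 volume).toReal ^ 2 ≤ C * ∫ x, ‖g x‖ ^ 2 := by
  apply Crest.Agent.R335.sobolev6 <;> assumption

theorem formBound_sumClass {v : E3 → ℝ} (hv : Crest.MathPhysics.ThreeBody.IsSumClassPotential v)
    {ε : ℝ} (hε : 0 < ε) : ∃ C : ℝ, 0 ≤ C ∧ ∀ (f : E3 → ℝ) (g : E3 → E3), H1 f g →
      Integrable (fun x => v x * f x ^ 2) ∧
      ∫ x, |v x| * f x ^ 2 ≤ ε * (∫ x, ‖g x‖ ^ 2) + C * ∫ x, f x ^ 2 := by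
  apply Crest.Agent.R335.formBound_sumClass <;> assumption

/-- the same for one group of coordinates -/
theorem formBound_sumClass_pr {v : E3 → ℝ}
    (hv : Crest.MathPhysics.ThreeBody.IsSumClassPotential v) {ε : ℝ} (hε : 0 < ε) :
    ∃ C : ℝ, 0 ≤ C ∧ ∀ (p : ι ≃ Fin 3 ⊕ κ') (f : E → ℝ) (g : E → E), H1 f g →
      Integrable (fun x => v (pr1 p x) * f x ^ 2) ∧
      ∫ x, |v (pr1 p x)| * f x ^ 2 ≤ ε * (∫ x, ‖pr1 p (g x)‖ ^ 2) + C * ∫ x, f x ^ 2 := by
  apply Crest.Agent.R335.formBound_sumClass_pr <;> assumption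

/-! ### HSlice (module HSlice) -/

theorem measurePreserving_jn (p : ι ≃ κ ⊕ κ') :
    MeasurePreserving (fun q : EuclideanSpace ℝ κ × EuclideanSpace ℝ κ' => jn p q.1 q.2)
      (volume.prod volume) volume := by
  apply Crest.Agent.R335.measurePreserving_jn <;> assumption

theorem measurableEmbedding_jn (p : ι ≃ κ ⊕ κ') :
    MeasurableEmbedding (fun q : EuclideanSpace ℝ κ × EuclideanSpace ℝ κ' => jn p q.1 q.2) := by
  apply Crest.Agent.R335.measurableEmbedding_jn <;> assumption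

theorem integral_jn (p : ι ≃ κ ⊕ κ') {F : Type*} [NormedAddCommGroup F] [NormedSpace ℝ F]
    {f : E → F} (hf : Integrable f) : ∫ X, f X = ∫ x, ∫ y, f (jn p x y) := by
  apply Crest.Agent.R335.integral_jn <;> assumption

theorem integral_jn' (p : ι ≃ κ ⊕ κ') {F : Type*} [NormedAddCommGroup F] [NormedSpace ℝ F]
    {f : E → F} (hf : Integrable f) : ∫ X, f X = ∫ y, ∫ x, f (jn p x y) := by
  apply Crest.Agent.R335.integral_jn' <;> assumption

theorem norm_sq_jn (p : ι ≃ κ ⊕ κ') (X : E) : ‖X‖ ^ 2 = ‖pr1 p X‖ ^ 2 + ‖pr2 p X‖ ^ 2 := by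
  apply Crest.Agent.R335.norm_sq_jn <;> assumption

/-- slices in the first group -/
theorem H1.slice_left (p : ι ≃ κ ⊕ κ') {f : E → ℝ} {g : E → E} (h : H1 f g) :
    ∀ᵐ y : EuclideanSpace ℝ κ', H1 (fun x => f (jn p x y)) (fun x => pr1 p (g (jn p x y))) := by
  apply Crest.Agent.R335.H1.slice_left <;> assumption

/-- slices in the second group -/
theorem H1.slice_right (p : ι ≃ κ ⊕ κ') {f : E → ℝ} {g : E → E} (h : H1 f g) :
    ∀ᵐ x : EuclideanSpace ℝ κ, H1 (fun y => f (jn p x y)) (fun y => pr2 p (g (jn p x y))) := by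
  apply Crest.Agent.R335.H1.slice_right <;> assumption

/-- partial inner product with a fixed `L²` function of the second group -/
theorem H1.proj (p : ι ≃ κ ⊕ κ') {f : E → ℝ} {g : E → E} (h : H1 f g)
    {Φ : EuclideanSpace ℝ κ' → ℝ} (hΦ : MemLp Φ 2 volume) :
    H1 (fun x => ∫ y, Φ y * f (jn p x y)) (fun x => ∫ y, Φ y • pr1 p (g (jn p x y))) ∧
    ∀ᵐ x, (∫ y, Φ y * f (jn p x y)) ^ 2 ≤ (∫ y, Φ y ^ 2) * ∫ y, f (jn p x y) ^ 2 ∧
      ‖∫ y, Φ y • pr1 p (g (jn p x y))‖ ^ 2 ≤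
        (∫ y, Φ y ^ 2) * ∫ y, ‖pr1 p (g (jn p x y))‖ ^ 2 := by
  apply Crest.Agent.R335.H1.proj <;> assumption

/-- tensor products -/
theorem H1.tensor (p : ι ≃ κ ⊕ κ') {f : EuclideanSpace ℝ κ → ℝ}
    {g : EuclideanSpace ℝ κ → EuclideanSpace ℝ κ} (h : H1 f g)
    {k : EuclideanSpace ℝ κ' → ℝ} {l : EuclideanSpace ℝ κ' → EuclideanSpace ℝ κ'} (h' : H1 k l) :
    H1 (fun X : E => f (pr1 p X) * k (pr2 p X))
      (fun X => jn p (k (pr2 p X) • g (pr1 p X)) (f (pr1 p X) • l (pr2 p X))) := by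
  apply Crest.Agent.R335.H1.tensor <;> assumption

/-- functions of the first group only -/
theorem WG.comp_pr1 (p : ι ≃ κ ⊕ κ') {f : EuclideanSpace ℝ κ → ℝ}
    {g : EuclideanSpace ℝ κ → EuclideanSpace ℝ κ} (h : WG univ f g) :
    WG univ (fun X : E => f (pr1 p X)) (fun X => jn p (g (pr1 p X)) 0) := by
  apply Crest.Agent.R335.WG.comp_pr1 <;> assumption

/-- partial norm of a finite family (module HNorm) -/
theorem H1.pnorm {S : Type*} [Fintype S] (p : ι ≃ κ ⊕ κ') {f : S → E → ℝ} {g : S → E → E}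
    (h : ∀ s, H1 (f s) (g s)) :
    ∃ m : EuclideanSpace ℝ κ → EuclideanSpace ℝ κ,
      H1 (fun x => √(∑ s, ∫ y, f s (jn p x y) ^ 2)) m ∧
      ∀ᵐ x, √(∑ s, ∫ y, f s (jn p x y) ^ 2) • m x =
          ∑ s, ∫ y, f s (jn p x y) • pr1 p (g s (jn p x y)) ∧
        ‖m x‖ ^ 2 ≤ ∑ s, ∫ y, ‖pr1 p (g s (jn p x y))‖ ^ 2 := by
  apply Crest.Agent.R335.H1.pnorm <;> assumption

/-- Kato's inequality for the partial norm `N` (module HNorm): if the family `f` solves
`-½Δ f + w = 0` weakly (with `w s ∈ L¹`-type potential terms, tested with `H¹` families of the form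
`k(x) f s` ) and the fibre energies are bounded below by `a(x) N(x)²`, then
`-½Δ N + a N ≤ 0` weakly on `U`. -/
theorem kato_pnorm {S : Type*} [Fintype S] (p : ι ≃ κ ⊕ κ') {f : S → E → ℝ} {g : S → E → E}
    (h : ∀ s, H1 (f s) (g s)) {N : EuclideanSpace ℝ κ → ℝ}
    {m : EuclideanSpace ℝ κ → EuclideanSpace ℝ κ}
    (hN : ∀ x, N x = √(∑ s, ∫ y, f s (jn p x y) ^ 2)) (hm : H1 N m)
    {W : S → E → ℝ} (hW : ∀ s, Integrable (fun X => W s X * f s X ^ 2))
    {U : Set (EuclideanSpace ℝ κ)} (hU : IsOpen U)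
    (hEL : ∀ (k : EuclideanSpace ℝ κ → ℝ) (l : EuclideanSpace ℝ κ → EuclideanSpace ℝ κ) (C : ℝ),
      WG univ k l → (∀ x, |k x| ≤ C) → (∀ s, H1 (fun X => k (pr1 p X) * f s X)
        (fun X => k (pr1 p X) • g s X + f s X • jn p (l (pr1 p X)) 0)) → (∀ x, x ∉ U → k x = 0) →
      (1 / 2) * (∑ s, ∫ X, inner ℝ (g s X)
          (k (pr1 p X) • g s X + f s X • jn p (l (pr1 p X)) 0)) +
        ∑ s, ∫ X, W s X * k (pr1 p X) * f s X ^ 2 = 0)
    {a : EuclideanSpace ℝ κ → ℝ} (haint : LocallyIntegrableOn (fun x => a x * N x) U volume)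
    (ha : ∀ᵐ x ∂(volume.restrict U), a x * N x ^ 2 ≤
      (1 / 2) * (∑ s, ∫ y, ‖pr2 p (g s (jn p x y))‖ ^ 2) + ∑ s, ∫ y, W s (jn p x y) *
        f s (jn p x y) ^ 2)
    {φ : EuclideanSpace ℝ κ → ℝ} (hφ : Test U φ) (hφ0 : ∀ x, 0 ≤ φ x) :
    (1 / 2) * (∫ x, inner ℝ (m x) (gr φ x)) + ∫ x, a x * N x * φ x ≤ 0 := by
  exact Crest.Agent.R335.kato_pnorm p h hN hm hW hU hEL haint ha hφ hφ0

/-! ### HZero: `H¹₀` (module HZero) -/

theorem TendstoH1.pos {fn : ℕ → E → ℝ} {gn : ℕ → E → E} {f : E → ℝ} {g : E → E}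
    (hn : ∀ n, H1 (fn n) (gn n)) (h : H1 f g) (ht : TendstoH1 fn gn f g) :
    TendstoH1 (fun n x => Max.max (fn n x) 0) (fun n x => if 0 < fn n x then gn n x else 0)
      (fun x => Max.max (f x) 0) (fun x => if 0 < f x then g x else 0) := by
  apply Crest.Agent.R335.TendstoH1.pos <;> assumption

theorem TendstoH1.min {fn fn' : ℕ → E → ℝ} {gn gn' : ℕ → E → E} {f f' : E → ℝ} {g g' : E → E}
    (hn : ∀ n, H1 (fn n) (gn n)) (h : H1 f g) (ht : TendstoH1 fn gn f g)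
    (hn' : ∀ n, H1 (fn' n) (gn' n)) (h' : H1 f' g') (ht' : TendstoH1 fn' gn' f' g') :
    TendstoH1 (fun n x => Min.min (fn n x) (fn' n x))
      (fun n x => if fn n x < fn' n x then gn n x else gn' n x)
      (fun x => Min.min (f x) (f' x)) (fun x => if f x < f' x then g x else g' x) := by
  apply Crest.Agent.R335.TendstoH1.min <;> assumption

theorem H10.of_univ {f : E → ℝ} {g : E → E} (h : H1 f g) : H10 univ f g := by
  apply Crest.Agent.R335.H10.of_univ <;> assumption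

theorem H10.of_supp {U : Set E} (hU : IsOpen U) {f : E → ℝ} {g : E → E} (h : H1 f g)
    {K : Set E} (hK : IsCompact K) (hKU : K ⊆ U) (hf : SuppIn K f) : H10 U f g := by
  apply Crest.Agent.R335.H10.of_supp <;> assumption

theorem H10.of_tendsto {U : Set E} {fn : ℕ → E → ℝ} {gn : ℕ → E → E} {f : E → ℝ} {g : E → E}
    (hn : ∀ n, H10 U (fn n) (gn n)) (h : H1 f g) (ht : TendstoH1 fn gn f g) : H10 U f g := by
  apply Crest.Agent.R335.H10.of_tendsto <;> assumption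

theorem H10.add {U : Set E} {f f' : E → ℝ} {g g' : E → E} (h : H10 U f g) (h' : H10 U f' g') :
    H10 U (fun x => f x + f' x) (fun x => g x + g' x) := by
  apply Crest.Agent.R335.H10.add <;> assumption

theorem H10.const_mul {U : Set E} {f : E → ℝ} {g : E → E} (h : H10 U f g) (c : ℝ) :
    H10 U (fun x => c * f x) (fun x => c • g x) := by
  apply Crest.Agent.R335.H10.const_mul <;> assumption

theorem H10.pos {U : Set E} (hU : IsOpen U) {f : E → ℝ} {g : E → E} (h : H10 U f g) :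
    H10 U (fun x => Max.max (f x) 0) (fun x => if 0 < f x then g x else 0) := by
  apply Crest.Agent.R335.H10.pos <;> assumption

/-- nonnegative functions have nonnegative approximations -/
theorem H10.approx_nonneg {U : Set E} (hU : IsOpen U) {f : E → ℝ} {g : E → E} (h : H10 U f g)
    (h0 : ∀ᵐ x, 0 ≤ f x) :
    ∃ φ : ℕ → E → ℝ, (∀ n, Test U (φ n)) ∧ (∀ n x, 0 ≤ φ n x) ∧
      TendstoH1 φ (fun n => gr (φ n)) f g := by
  apply Crest.Agent.R335.H10.approx_nonneg <;> assumption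

/-- lattice property -/
theorem H10.of_le {U : Set E} (hU : IsOpen U) {f w : E → ℝ} {g l : E → E} (h : H10 U f g)
    (hw : H1 w l) (h0 : ∀ᵐ x, 0 ≤ w x) (hle : ∀ᵐ x, w x ≤ f x) : H10 U w l := by
  apply Crest.Agent.R335.H10.of_le <;> assumption

/-- multiplication by a bounded function with bounded gradient -/
theorem H10.mul_bdd {U : Set E} (hU : IsOpen U) {f k : E → ℝ} {g l : E → E} (h : H10 U f g)
    (h' : WG univ k l) {C : ℝ} (hk : ∀ x, |k x| ≤ C) (hl : ∀ x, ‖l x‖ ≤ C) :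
    H10 U (fun x => k x * f x) (fun x => k x • g x + f x • l x) := by
  apply Crest.Agent.R335.H10.mul_bdd <;> assumption

/-- restriction to a smaller open set, when the function vanishes outside a closed subset whose
distance to the complement is positive -/
theorem H10.of_vanish {U V : Set E} (hU : IsOpen U) (hV : IsOpen V) (hVU : V ⊆ U) {f : E → ℝ}
    {g : E → E} (h : H10 U f g) {δ : ℝ} (hδ : 0 < δ)
    (hf : ∀ᵐ x, x ∈ U → x ∉ V ∨ Metric.infDist x (U \ V) < δ → f x = 0) : H10 V f g := by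
  exact Crest.Agent.R335.H10.of_vanish hU hV hVU h hδ hf

/-- an odd function cut at the plane (module HHalf) -/
theorem H10.half_of_odd (i : ι) {f : E → ℝ} {g : E → E} (h : H1 f g)
    (hodd : ∀ᵐ x, f (rfl' i x) = - f x) :
    H10 {x : E | 0 < x i} (fun x => if 0 < x i then f x else 0)
      (fun x => if 0 < x i then g x else 0) := by
  apply Crest.Agent.R335.H10.half_of_odd <;> assumption

/-- odd extension (module HHalf) -/
theorem H1.odd_ext (i : ι) {f : E → ℝ} {g : E → E} (h : H10 {x : E | 0 < x i} f g) :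
    H1 (fun x => f x - f (rfl' i x)) (fun x => g x - rfl' i (g (rfl' i x))) := by
  apply Crest.Agent.R335.H1.odd_ext <;> assumption

/-- even extension across the plane (module HHalf) -/
theorem H1.even_ext (i : ι) {f : E → ℝ} {g : E → E} (hf : MemLp f 2 volume)
    (hg : MemLp g 2 volume) (h : WG {x : E | 0 < x i} f g) :
    H1 (fun x => if 0 < x i then f x else f (rfl' i x))
      (fun x => if 0 < x i then g x else rfl' i (g (rfl' i x))) := by
  apply Crest.Agent.R335.H1.even_ext <;> assumption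

/-- weak inequalities tested with test functions extend to nonnegative `H¹₀` functions -/
theorem test_extend {U : Set E} (hU : IsOpen U) {q : E → ℝ} {G : E → E}
    (hq : MemLp q 2 (volume.restrict U)) (hG : MemLp G 2 (volume.restrict U))
    (h : ∀ φ : E → ℝ, Test U φ → (∀ x, 0 ≤ φ x) →
      (∫ x in U, inner ℝ (G x) (gr φ x)) + ∫ x in U, q x * φ x ≤ 0)
    {w : E → ℝ} {l : E → E} (hw : H10 U w l) (h0 : ∀ᵐ x, 0 ≤ w x) :
    (∫ x in U, inner ℝ (G x) (l x)) + ∫ x in U, q x * w x ≤ 0 := by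
  apply Crest.Agent.R335.test_extend <;> assumption

/-! ### HAP: Allegretto–Piepenbrink (module HAP) -/

/-- a positive supersolution `s` of `-Δ + V` on `U` gives `-Δ + V ≥ 0`, with remainder -/
theorem allegretto {U : Set E} (hU : IsOpen U) {s V : E → ℝ} {ds : E → E} (hs : WG U s ds)
    (hds : L2locV U ds)
    (hb : ∀ K, IsCompact K → K ⊆ U → ∃ c C : ℝ, 0 < c ∧ ∀ᵐ x ∂(volume.restrict K),
      c ≤ s x ∧ s x ≤ C)
    (hV : LocallyIntegrableOn V U volume)
    (hsup : ∀ φ : E → ℝ, Test U φ → (∀ x, 0 ≤ φ x) →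
      0 ≤ (∫ x, inner ℝ (ds x) (gr φ x)) + ∫ x, V x * s x * φ x)
    {φ : E → ℝ} (hφ : Test U φ) :
    ∫ x, s x ^ 2 * ‖(s x)⁻¹ • gr φ x - (φ x * (s x)⁻¹ ^ 2) • ds x‖ ^ 2 ≤
      (∫ x, ‖gr φ x‖ ^ 2) + ∫ x, V x * φ x ^ 2 := by
  apply Crest.Agent.R335.allegretto <;> assumption

/-- for a positive solution there is equality -/
theorem allegretto_eq {U : Set E} (hU : IsOpen U) {s V : E → ℝ} {ds : E → E} (hs : WG U s ds)
    (hds : L2locV U ds)
    (hb : ∀ K, IsCompact K → K ⊆ U → ∃ c C : ℝ, 0 < c ∧ ∀ᵐ x ∂(volume.restrict K),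
      c ≤ s x ∧ s x ≤ C)
    (hV : LocallyIntegrableOn V U volume)
    (hsup : ∀ φ : E → ℝ, Test U φ →
      (∫ x, inner ℝ (ds x) (gr φ x)) + ∫ x, V x * s x * φ x = 0)
    {φ : E → ℝ} (hφ : Test U φ) :
    ∫ x, s x ^ 2 * ‖(s x)⁻¹ • gr φ x - (φ x * (s x)⁻¹ ^ 2) • ds x‖ ^ 2 =
      (∫ x, ‖gr φ x‖ ^ 2) + ∫ x, V x * φ x ^ 2 := by
  apply Crest.Agent.R335.allegretto_eq <;> assumption

/-! ### HGap: abstract existence of minimisers (module HGap) -/

/-- `q` bounded symmetric form, `n ≥ 0` bounded symmetric form, `q + C n` coercive; `q ≥ E₀ n`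
sharp; `q ≥ E₁ n - K ∑ ℓ_j²` with `E₁ > E₀`, `ℓ_j` continuous.  Then `E₀` is attained. -/
theorem gap_exists {H : Type*} [NormedAddCommGroup H] [InnerProductSpace ℝ H] [CompleteSpace H]
    {q n : H →L[ℝ] H →L[ℝ] ℝ} (hq : ∀ u v, q u v = q v u) (hn : ∀ u v, n u v = n v u)
    (hn0 : ∀ u, 0 ≤ n u u) {C c : ℝ} (hc : 0 < c)
    (hco : ∀ u, c * ‖u‖ ^ 2 ≤ q u u + C * n u u) {E₀ E₁ : ℝ} (hE : E₀ < E₁)
    (hlow : ∀ u, E₀ * n u u ≤ q u u)
    (hsharp : ∀ ε > 0, ∃ u, n u u = 1 ∧ q u u < E₀ + ε)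
    {J : Type*} [Fintype J] {ℓ : J → H →L[ℝ] ℝ} {K : ℝ}
    (hgap : ∀ u, E₁ * n u u - K * ∑ j, (ℓ j u) ^ 2 ≤ q u u) :
    ∃ u, n u u = 1 ∧ q u u = E₀ ∧ ∀ v, q u v = E₀ * n u v := sorry

/-- one functional: simplicity and spectral gap -/
theorem gap_simple {H : Type*} [NormedAddCommGroup H] [InnerProductSpace ℝ H] [CompleteSpace H]
    {q n : H →L[ℝ] H →L[ℝ] ℝ} (hq : ∀ u v, q u v = q v u) (hn : ∀ u v, n u v = n v u)
    (hn0 : ∀ u, 0 ≤ n u u) (hn1 : ∀ u, n u u = 0 → u = 0) {E₀ E₁ : ℝ} (hE : E₀ < E₁)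
    {u : H} (hu1 : n u u = 1) (huE : ∀ v, q u v = E₀ * n u v) {ℓ : H →L[ℝ] ℝ} {K : ℝ}
    (hgap : ∀ u, E₁ * n u u - K * (ℓ u) ^ 2 ≤ q u u) :
    ℓ u ≠ 0 ∧ ∀ v, n u v = 0 → E₁ * n v v ≤ q v v := sorry

/-! ### HSpace: the Hilbert space `H¹` (module HSpace) -/

/-- the Hilbert space of pairs (function, weak gradient) -/
theorem isClosed_H1S : IsClosed {P : WithLp 2 (Lp ℝ 2 (volume : Measure E) ×
    Lp (EuclideanSpace ℝ ι) 2 (volume : Measure E)) | WG univ (P.fst : E → ℝ) (P.snd : E → E)} := by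
  apply Crest.Agent.R335.isClosed_H1S <;> assumption

/-! ### HYuk: Yukawa kernel in `ℝ³` (module HYuk) -/

theorem Yuk_nonneg (k : ℝ) (x : E3) : 0 ≤ Yuk k x := by
  apply Crest.Agent.R335.Yuk_nonneg <;> assumption

theorem Yuk_integrable {k : ℝ} (hk : 0 < k) :
    Integrable (Yuk k) ∧ ∫ x, Yuk k x = 1 / k ^ 2 := by
  apply Crest.Agent.R335.Yuk_integrable <;> assumption

theorem Yuk_memLp {k : ℝ} (hk : 0 < k) : MemLp (Yuk k) 2 volume := by
  apply Crest.Agent.R335.Yuk_memLp <;> assumption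

/-- `v = Yuk k * f` is a continuous bounded `H¹` solution of `-Δ v + k² v = f` -/
theorem YukC_solves {k : ℝ} (hk : 0 < k) {f : E3 → ℝ} (hf : MemLp f 2 volume) :
    Continuous (YukC k f) ∧ (∀ x, |YukC k f x| ≤ (∫ y, Yuk k y ^ 2) ^ (1 / 2 : ℝ) *
        (∫ y, f y ^ 2) ^ (1 / 2 : ℝ)) ∧ Tendsto (YukC k f) (cocompact E3) (𝓝 0) ∧
      ∃ g : E3 → E3, H1 (YukC k f) g ∧ ∀ (w : E3 → ℝ) (l : E3 → E3), H1 w l →
        (∫ x, inner ℝ (g x) (l x)) + k ^ 2 * ∫ x, YukC k f x * w x = ∫ x, f x * w x := by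
  apply Crest.Agent.R335.YukC_solves <;> assumption

/-- weak comparison with the Yukawa potential -/
theorem Yuk_comparison {k : ℝ} (hk : 0 < k) {f s : E3 → ℝ} {ds : E3 → E3}
    (hf : MemLp f 2 volume) (hs : H1 s ds)
    (h : ∀ φ : E3 → ℝ, Test univ φ → (∀ x, 0 ≤ φ x) →
      (∫ x, inner ℝ (ds x) (gr φ x)) + k ^ 2 * ∫ x, s x * φ x ≤ ∫ x, f x * φ x) :
    ∀ᵐ x, s x ≤ YukC k f x := by
  apply Crest.Agent.R335.Yuk_comparison <;> assumption

/-- uniqueness: a weak solution is the Yukawa potential -/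
theorem Yuk_unique {k : ℝ} (hk : 0 < k) {f s : E3 → ℝ} {ds : E3 → E3}
    (hf : MemLp f 2 volume) (hs : H1 s ds)
    (h : ∀ φ : E3 → ℝ, Test univ φ →
      (∫ x, inner ℝ (ds x) (gr φ x)) + k ^ 2 * ∫ x, s x * φ x = ∫ x, f x * φ x) :
    ∀ᵐ x, s x = YukC k f x := by
  apply Crest.Agent.R335.Yuk_unique <;> assumption

/-! ### HReg: `H²` regularity (module HReg) -/

/-- if `-Δ f = q ∈ L²` weakly and `f ∈ H¹` then `∇f ∈ H¹` -/
theorem H2_of_weak {f q : E → ℝ} {g : E → E} (h : H1 f g) (hq : MemLp q 2 volume)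
    (heq : ∀ φ : E → ℝ, Test univ φ → ∫ x, inner ℝ (g x) (gr φ x) = ∫ x, q x * φ x) :
    ∃ H : ι → E → E, (∀ i, H1 (fun x => g x i) (H i)) ∧
      ∀ i, ∫ x, ‖H i x‖ ^ 2 ≤ ∫ x, q x ^ 2 := by
  apply Crest.Agent.R335.H2_of_weak <;> assumption

/-! ### HPoin: Poincaré inequality on cubes (module HPoin) -/

/-- Poincaré on the cube of side `a` with corner `b` (Payne–Weinberger constant not needed) -/
theorem poincare_cube {U : Set E} (hU : IsOpen U) {f : E → ℝ} {g : E → E} (h : WG U f g)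
    (hf : L2loc U f) (hg : L2locV U g) (b : E) {a : ℝ} (ha : 0 < a)
    (hQ : {x : E | ∀ i, b i ≤ x i ∧ x i ≤ b i + a} ⊆ U) :
    ∫ x in {x : E | ∀ i, b i < x i ∧ x i < b i + a}, f x ^ 2 ≤
      (Fintype.card ι : ℝ) * a ^ 2 *
        (∫ x in {x : E | ∀ i, b i < x i ∧ x i < b i + a}, ‖g x‖ ^ 2) +
      a⁻¹ ^ (Fintype.card ι) *
        (∫ x in {x : E | ∀ i, b i < x i ∧ x i < b i + a}, f x) ^ 2 := by
  apply Crest.Agent.R335.poincare_cube <;> assumption

/-! ### HLip: Lipschitz functions (module HLip) -/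

theorem WG.of_lipschitz {f : E → ℝ} {K : NNReal} (hf : LipschitzWith K f) :
    WG univ f (gr f) ∧ ∀ x, ‖gr f x‖ ≤ K := by
  apply Crest.Agent.R335.WG.of_lipschitz <;> assumption

/-- a point is removable in dimension at least two -/
theorem WG.removable (hι : 2 ≤ Fintype.card ι) {U : Set E} (hU : IsOpen U) (a : E) {f : E → ℝ}
    {g : E → E} (h : WG (U \ {a}) f g) (hf : LocallyIntegrableOn f U volume)
    (hf' : ∃ C r : ℝ, 0 < r ∧ ∀ x, x ≠ a → ‖x - a‖ < r → |f x| ≤ C)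
    (hg : LocallyIntegrableOn g U volume) : WG U f g := by
  apply Crest.Agent.R335.WG.removable <;> assumption

/-! ### HKato: scalar Kato inequality (module HKato) -/

/-- if `-½Δ f + V f = 0` weakly on `U` then `-½Δ|f| + V|f| ≤ 0` weakly on `U` -/
theorem kato_abs {U : Set E} (hU : IsOpen U) {f V : E → ℝ} {g : E → E} (h : WG U f g)
    (hf : L2loc U f) (hg : L2locV U g)
    (hV : LocallyIntegrableOn (fun x => V x * f x) U volume)
    (heq : ∀ φ : E → ℝ, Test U φ →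
      (1 / 2) * (∫ x, inner ℝ (g x) (gr φ x)) + ∫ x, V x * f x * φ x = 0)
    {φ : E → ℝ} (hφ : Test U φ) (hφ0 : ∀ x, 0 ≤ φ x) :
    (1 / 2) * (∫ x, inner ℝ (if 0 < f x then g x else -g x) (gr φ x)) +
      ∫ x, V x * |f x| * φ x ≤ 0 := by
  apply Crest.Agent.R335.kato_abs <;> assumption

/-- the maximum of two subsolutions is a subsolution, `-½Δ f + q ≤ 0` -/
theorem kato_max {U : Set E} (hU : IsOpen U) {f f' q q' : E → ℝ} {g g' : E → E} (h : WG U f g)
    (h' : WG U f' g') (hg : L2locV U g) (hg' : L2locV U g')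
    (hq : LocallyIntegrableOn q U volume) (hq' : LocallyIntegrableOn q' U volume)
    (hs : ∀ φ : E → ℝ, Test U φ → (∀ x, 0 ≤ φ x) →
      (1 / 2) * (∫ x, inner ℝ (g x) (gr φ x)) + ∫ x, q x * φ x ≤ 0)
    (hs' : ∀ φ : E → ℝ, Test U φ → (∀ x, 0 ≤ φ x) →
      (1 / 2) * (∫ x, inner ℝ (g' x) (gr φ x)) + ∫ x, q' x * φ x ≤ 0)
    {φ : E → ℝ} (hφ : Test U φ) (hφ0 : ∀ x, 0 ≤ φ x) :
    (1 / 2) * (∫ x, inner ℝ (if f' x < f x then g x else g' x) (gr φ x)) +
      ∫ x, (if f' x < f x then q x else q' x) * φ x ≤ 0 := by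
  apply Crest.Agent.R335.kato_max <;> assumption

end Crest.Agent.R335.I
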