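import Crest.Agent.R335.HSliceA
import Crest.Agent.R335.HIface
import Crest.Agent.R335.HIface2

/-!
Row 335 (S0521), module BClose, part 1 (helper246): uniform bound of the slices of an `H¹` solution of
`-½Δ f = q`, `q ∈ L²`, with a three-dimensional first group of variables.
-/

set_option autoImplicit false
set_option linter.unusedSectionVars false
set_option linter.unusedVariables false

open MeasureTheory Filter Set
open scoped ENNReal Topology ContDiff

noncomputable section
namespace Crest.Agent.R335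
namespace Clo

variable {ι κ κ' : Type*} [Fintype ι] [DecidableEq ι] [Fintype κ] [DecidableEq κ]
  [Fintype κ'] [DecidableEq κ']

local notation "E" => EuclideanSpace ℝ ι
local notation "E3" => EuclideanSpace ℝ (Fin 3)

/-- partial norm -/
def pn (p : ι ≃ κ ⊕ κ') (q : E → ℝ) (x : EuclideanSpace ℝ κ) : ℝ :=
  √(∫ y, q (jn p x y) ^ 2)

theorem pn_nonneg (p : ι ≃ κ ⊕ κ') (q : E → ℝ) (x : EuclideanSpace ℝ κ) : 0 ≤ pn p q x :=
  Real.sqrt_nonneg _

theorem pn_sq (p : ι ≃ κ ⊕ κ') (q : E → ℝ) (x : EuclideanSpace ℝ κ) :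
    pn p q x ^ 2 = ∫ y, q (jn p x y) ^ 2 :=
  Real.sq_sqrt (integral_nonneg fun _ => sq_nonneg _)

theorem slice_int (p : ι ≃ κ ⊕ κ') {F : Type*} [NormedAddCommGroup F] {f : E → F}
    (hf : Integrable f) : Integrable (fun q : EuclideanSpace ℝ κ × EuclideanSpace ℝ κ' =>
      f (jn p q.1 q.2)) (volume.prod volume) :=
  (measurePreserving_jn p).integrable_comp_of_integrable hf

theorem slice_memLp (p : ι ≃ κ ⊕ κ') {q : E → ℝ} (hq : MemLp q 2 volume) :
    ∀ᵐ x : EuclideanSpace ℝ κ, MemLp (fun y => q (jn p x y)) 2 volume := by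
  have h1 : MemLp (fun z : EuclideanSpace ℝ κ × EuclideanSpace ℝ κ' => q (jn p z.1 z.2)) 2
      (volume.prod volume) := hq.comp_measurePreserving (measurePreserving_jn p)
  have h2 := h1.integrable_sq
  have h3 := h2.prod_right_ae
  have h4 := h1.1.prodMk_left
  filter_upwards [h3, h4] with x h5 h6
  exact (memLp_two_iff_integrable_sq h6).2 h5

theorem pn_memLp (p : ι ≃ κ ⊕ κ') {q : E → ℝ} (hq : MemLp q 2 volume) :
    MemLp (pn p q) 2 volume ∧ ∫ x, pn p q x ^ 2 = ∫ X, q X ^ 2 := by
  have h0 : Integrable (fun X => q X ^ 2) := hq.integrable_sq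
  have h1 := (slice_int p h0).integral_prod_left
  have h2 : AEStronglyMeasurable (pn p q) volume := by
    unfold pn
    exact (Real.continuous_sqrt.comp_aestronglyMeasurable h1.1)
  refine ⟨(memLp_two_iff_integrable_sq h2).2 (h1.congr (ae_of_all _ fun x => (pn_sq p q x).symm)),
    ?_⟩
  simp only [pn_sq]
  exact (I.integral_jn p h0).symm

/-- Cauchy–Schwarz -/
theorem cs {α : Type*} [MeasurableSpace α] {μ : Measure α} {f g : α → ℝ} (hf : MemLp f 2 μ)
    (hg : MemLp g 2 μ) : |∫ x, f x * g x ∂μ| ≤ √(∫ x, f x ^ 2 ∂μ) * √(∫ x, g x ^ 2 ∂μ) := by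
  have h1 : Integrable (fun x => f x * g x) μ := hf.integrable_mul hg
  have hf2 := hf.integrable_sq
  have hg2 := hg.integrable_sq
  set A := ∫ x, f x ^ 2 ∂μ
  set B := ∫ x, g x ^ 2 ∂μ
  set C := ∫ x, f x * g x ∂μ
  have hA : 0 ≤ A := integral_nonneg fun _ => sq_nonneg _
  have hB : 0 ≤ B := integral_nonneg fun _ => sq_nonneg _
  have key : ∀ t : ℝ, 0 ≤ A * (t * t) + (2 * C) * t + B := by
    intro t
    have : 0 ≤ ∫ x, (t * f x + g x) ^ 2 ∂μ := integral_nonneg fun _ => sq_nonneg _
    have e : ∫ x, (t * f x + g x) ^ 2 ∂μ = A * (t * t) + (2 * C) * t + B := by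
      have : ∀ x, (t * f x + g x) ^ 2 = (t * t) * f x ^ 2 + (2 * t) * (f x * g x) + g x ^ 2 := by
        intro x; ring
      simp_rw [this]
      have i1 : Integrable (fun x => (t * t) * f x ^ 2) μ := hf2.const_mul _
      have i2 : Integrable (fun x => (2 * t) * (f x * g x)) μ := h1.const_mul _
      have i3 : Integrable (fun x => (t * t) * f x ^ 2 + (2 * t) * (f x * g x)) μ := i1.add i2
      rw [integral_add i3 hg2, integral_add i1 i2, integral_const_mul, integral_const_mul]
      ring
    linarith
  have hd := discrim_le_zero key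
  unfold discrim at hd
  have h2 : C ^ 2 ≤ A * B := by nlinarith
  rw [← Real.sqrt_mul hA, ← Real.sqrt_sq_eq_abs]
  exact Real.sqrt_le_sqrt h2

/-- UNIFORM BOUND OF SLICES: `-½Δ f = q` -/
theorem slice_sup (p : ι ≃ Fin 3 ⊕ κ') {f q : E → ℝ} {g : E → E} (h : H1 f g)
    (hq : MemLp q 2 volume)
    (heq : ∀ (k : E → ℝ) (l : E → E), H1 k l →
      (1 / 2) * (∫ X, inner ℝ (g X) (l X)) = ∫ X, q X * k X) :
    ∀ᵐ x : E3, ∫ y, f (jn p x y) ^ 2 ≤
      (∫ y : E3, Yuk 1 y ^ 2) * (8 * (∫ X, q X ^ 2) + 2 * ∫ X, f X ^ 2) := by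
  obtain ⟨m, hm, -⟩ := I.H1.pnorm p (fun _ : Unit => h)
  have hNe : ∀ x, √(∑ s : Unit, ∫ y, f (jn p x y) ^ 2) = pn p f x := fun x => by
    simp [pn]
  have hm' : H1 (pn p f) m := by
    have : (fun x => √(∑ s : Unit, ∫ y, f (jn p x y) ^ 2)) = pn p f := funext hNe
    rw [this] at hm
    exact hm
  obtain ⟨hN2, hNi⟩ := pn_memLp p h.memf
  obtain ⟨hQ2, hQi⟩ := pn_memLp p hq
  -- the potentials
  set W : E → ℝ := fun X => -(q X / f X) with hW
  have hWf : ∀ X, W X * f X ^ 2 = -(q X * f X) := by
    intro X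
    rw [hW]
    by_cases hf : f X = 0
    · simp [hf]
    · field_simp
  have hqf : Integrable (fun X => q X * f X) := hq.integrable_mul h.memf
  set a : E3 → ℝ := fun x => -(pn p q x / pn p f x) with ha
  have haN : ∀ x, a x * pn p f x = -(if pn p f x = 0 then 0 else pn p q x) := by
    intro x
    rw [ha]
    by_cases hf : pn p f x = 0
    · simp [hf]
    · simp only [hf, if_false]
      field_simp
  have hset : NullMeasurableSet {x : E3 | pn p f x = 0} volume :=
    (hN2.1.nullMeasurableSet_eq_fun aestronglyMeasurable_const)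
  have hI2 : MemLp (fun x => if pn p f x = 0 then 0 else pn p q x) 2 volume := by
    have : (fun x => if pn p f x = 0 then 0 else pn p q x) =
        Set.indicator {x : E3 | pn p f x = 0}ᶜ (pn p q) := by
      funext x
      by_cases hx : pn p f x = 0
      · simp [hx]
      · simp [hx]
    rw [this]
    exact ⟨hQ2.1.indicator₀ hset.compl, (eLpNorm_indicator_le _).trans_lt hQ2.2⟩
  have haN2 : MemLp (fun x => a x * pn p f x) 2 volume := by
    simp only [haN]
    exact hI2.neg
  have key : ∀ φ : E3 → ℝ, Test univ φ → (∀ x, 0 ≤ φ x) →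
      (∫ x, inner ℝ (m x) (gr φ x)) + (1 : ℝ) ^ 2 * ∫ x, pn p f x * φ x ≤
        ∫ x, (2 * pn p q x + pn p f x) * φ x := by
    intro φ hφ hφ0
    have hφ2 : MemLp φ 2 volume := (I.H1.of_test hφ).memf
    have hk := I.kato_pnorm p (fun _ : Unit => h) (N := pn p f) (m := m)
      (fun x => (hNe x).symm) hm' (W := fun _ => W)
      (fun _ => by
        refine hqf.neg.congr (ae_of_all _ fun X => ?_)
        simp only [Pi.neg_apply]
        exact (hWf X).symm)
      isOpen_univ
      (by
        intro k l C hkl hk hH _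
        have h1 := heq _ _ (hH ())
        simp only [Finset.univ_unique, Finset.sum_singleton]
        rw [h1, ← integral_add]
        · have : ∀ X, q X * (k (pr1 p X) * f X) + W X * k (pr1 p X) * f X ^ 2 = 0 := by
            intro X
            have := hWf X
            linear_combination (k (pr1 p X)) * this
          simp only [this, integral_zero]
        · exact hq.integrable_mul (hH ()).memf
        · refine (hq.integrable_mul (hH ()).memf).neg.congr (ae_of_all _ fun X => ?_)
          simp only [Pi.neg_apply, Pi.mul_apply]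
          have := hWf X
          linear_combination -(k (pr1 p X)) * this)
      (a := a)
      (by
        refine LocallyIntegrable.locallyIntegrableOn ?_ _
        exact haN2.locallyIntegrable (by norm_num))
      (by
        rw [Measure.restrict_univ]
        filter_upwards [slice_memLp p hq, slice_memLp p h.memf] with x h1 h2
        simp only [Finset.univ_unique, Finset.sum_singleton]
        have h3 : a x * pn p f x ^ 2 = -(pn p q x * pn p f x) := by
          by_cases hf : pn p f x = 0
          · simp [hf]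
          · rw [ha]
            field_simp
        have h4 : (∫ y, W (jn p x y) * f (jn p x y) ^ 2) = -∫ y, q (jn p x y) * f (jn p x y) := by
          rw [← integral_neg]
          exact integral_congr_ae (ae_of_all _ fun y => hWf _)
        rw [h3, h4]
        have h5 := cs h1 h2
        have h6 := le_abs_self (∫ y, q (jn p x y) * f (jn p x y))
        have h7 : 0 ≤ ∫ y, ‖pr2 p (g (jn p x y))‖ ^ 2 := integral_nonneg fun _ => sq_nonneg _
        have h8 : √(∫ y, q (jn p x y) ^ 2) * √(∫ y, f (jn p x y) ^ 2) = pn p q x * pn p f x := rfl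
        rw [h8] at h5
        linarith)
      hφ hφ0
    have hi1 : Integrable (fun x => pn p q x * φ x) := hQ2.integrable_mul hφ2
    have hi2 : Integrable (fun x => pn p f x * φ x) := hN2.integrable_mul hφ2
    have hi3 : Integrable (fun x => a x * pn p f x * φ x) := haN2.integrable_mul hφ2
    have h9 : -∫ x, pn p q x * φ x ≤ ∫ x, a x * pn p f x * φ x := by
      rw [← integral_neg]
      refine integral_mono hi1.neg hi3 fun x => ?_
      simp only [haN]
      split_ifs
      · have := mul_nonneg (pn_nonneg p q x) (hφ0 x)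
        linarith
      · linarith
    have h10 : ∫ x, (2 * pn p q x + pn p f x) * φ x =
        2 * (∫ x, pn p q x * φ x) + ∫ x, pn p f x * φ x := by
      rw [← integral_const_mul, ← integral_add (hi1.const_mul 2) hi2]
      exact integral_congr_ae (ae_of_all _ fun x => by simp only; ring)
    rw [h10]
    linarith
  have hF2 : MemLp (fun x => 2 * pn p q x + pn p f x) 2 volume := (hQ2.const_mul 2).add hN2
  have hcomp := I.Yuk_comparison one_pos hF2 hm' key
  obtain ⟨-, hb, -⟩ := I.YukC_solves one_pos hF2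
  have hYn : 0 ≤ ∫ y : E3, Yuk 1 y ^ 2 := integral_nonneg fun _ => sq_nonneg _
  have hFn : 0 ≤ ∫ y, (2 * pn p q y + pn p f y) ^ 2 := integral_nonneg fun _ => sq_nonneg _
  have hFle : ∫ y, (2 * pn p q y + pn p f y) ^ 2 ≤ 8 * (∫ X, q X ^ 2) + 2 * ∫ X, f X ^ 2 := by
    rw [← hQi, ← hNi, ← integral_const_mul, ← integral_const_mul,
      ← integral_add (hQ2.integrable_sq.const_mul 8) (hN2.integrable_sq.const_mul 2)]
    refine integral_mono hF2.integrable_sq
      ((hQ2.integrable_sq.const_mul 8).add (hN2.integrable_sq.const_mul 2)) fun x => ?_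
    simp only
    nlinarith [sq_nonneg (2 * pn p q x - pn p f x)]
  filter_upwards [hcomp] with x hx
  have h1 := (hx.trans (le_abs_self _)).trans (hb x)
  rw [← pn_sq]
  have h2 := pow_le_pow_left₀ (pn_nonneg p f x) h1 2
  refine h2.trans ?_
  rw [mul_pow, ← Real.rpow_natCast, ← Real.rpow_natCast, ← Real.rpow_mul hYn,
    ← Real.rpow_mul hFn]
  norm_num
  exact mul_le_mul_of_nonneg_left hFle hYn

end Clo
end Crest.Agent.R335
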