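import Crest.Agent.R335.BDefs

/-!
Row 335 (S0521): INTERACTING SIDE, the data at fixed `(D, λ)`.

Conventions (notes 10381-10383 of helper783): `cg`, `C0` are universal, `K` depends on `D` only.
Every statement has the form: for all `D ≥ D₀`, `B : OBD cg C0 D`, `K` there are `K' λ'` such that
for all `0 < λ ≤ λ'` and `S : Sys B K λ` ....

Signs: at `λ = 0`, `ψ₀ = (u(x₀) g(x₁) - g(x₀) u(x₁)) g(x₂) / √2`, `Φ0 = g g`,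
`Φ1 = -(u g + g u)/√2`, `ΦT = (u g - g u)/√2`; then `F = u/√2`, `c = g/2`, `t₁ = g/√2`, `t₂ = g`,
`dS < 0`.
-/

set_option autoImplicit false
set_option linter.unusedSectionVars false

open MeasureTheory Filter Set Crest.MathPhysics.ThreeBody
open scoped ENNReal Topology ContDiff

noncomputable section
namespace Crest.Agent.R335

/-- one-body data with their universal bounds -/
structure OBD (cg C0 D : ℝ) where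
  g : Pos3 → ℝ
  u : Pos3 → ℝ
  dg : Pos3 → Pos3
  du : Pos3 → Pos3
  eg : ℝ
  eu : ℝ
  ob : OneBody D g u dg du eg eu (-(1 / 2) + cg)
  cg0 : 0 < cg
  cg1 : cg ≤ 1 / 8
  eg_near : |eg + 1 / 2| ≤ C0 / D
  eu_near : |eu + 1 / 2| ≤ C0 / D
  tun : eu - eg ≤ C0 * Real.exp (-(3 * D / 2))
  gb : ∀ x, g x ≤ C0
  ub : ∀ x, |u x| ≤ C0
  dgb : ∫ x, ‖dg x‖ ^ 2 ≤ C0
  dub : ∫ x, ‖du x‖ ^ 2 ≤ C0
  /-- `D` is large compared with the universal constants -/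
  big : 100 * C0 ≤ D
  omle : eu - eg ≤ cg / 8

namespace OBD
variable {cg C0 D : ℝ} (B : OBD cg C0 D)

/-- tunnelling gap `ω = e_u - e_g` -/
def om : ℝ := B.eu - B.eg

/-- weight exponent -/
def a : ℝ := B.om / 1000

/-- the same data with a larger constant -/
def up {cg C0 D C1 : ℝ} (h : C0 ≤ C1) (hD0 : 0 < D) (hD : 100 * C1 ≤ D) (B : OBD cg C0 D) :
    OBD cg C1 D where
  g := B.g
  u := B.u
  dg := B.dg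
  du := B.du
  eg := B.eg
  eu := B.eu
  ob := B.ob
  cg0 := B.cg0
  cg1 := B.cg1
  eg_near := B.eg_near.trans (div_le_div_of_nonneg_right h hD0.le)
  eu_near := B.eu_near.trans (div_le_div_of_nonneg_right h hD0.le)
  tun := B.tun.trans (mul_le_mul_of_nonneg_right h (Real.exp_pos _).le)
  gb := fun x => (B.gb x).trans h
  ub := fun x => (B.ub x).trans h
  dgb := B.dgb.trans h
  dub := B.dub.trans h
  big := hD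
  omle := B.omle

end OBD

/-- weight bounds of an ion state: `e^{4aw}Φ` in `H¹` with norm `≤ K`, moments `≤ poly(D)` -/
structure IonW (C0 D K a : ℝ) (Φ : Y2 → ℝ) : Prop where
  w4 : ∃ d : Y2 → Y2, H1 (fun ξ => Real.exp (4 * a * wi ξ) * Φ ξ) d ∧
    (∫ ξ, (Real.exp (4 * a * wi ξ) * Φ ξ) ^ 2) + (∫ ξ, ‖d ξ‖ ^ 2) ≤ K
  m0 : Integrable (fun ξ => (Real.exp (2 * a * wi ξ) * Φ ξ) ^ 2) ∧
    ∫ ξ, (Real.exp (2 * a * wi ξ) * Φ ξ) ^ 2 ≤ 4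
  m1 : Integrable (fun ξ => (wi ξ * Real.exp (2 * a * wi ξ) * Φ ξ) ^ 2) ∧
    ∫ ξ, (wi ξ * Real.exp (2 * a * wi ξ) * Φ ξ) ^ 2 ≤ (C0 * D) ^ 2
  m2 : Integrable (fun ξ => (wi ξ ^ 2 * Real.exp (2 * a * wi ξ) * Φ ξ) ^ 2) ∧
    ∫ ξ, (wi ξ ^ 2 * Real.exp (2 * a * wi ξ) * Φ ξ) ^ 2 ≤ (C0 * D) ^ 4

/-- reflection of the coordinate `i` of both electrons of the ion (`cxi 2` is `rxi`) -/
def cxi (i : Fin 3) : Y2 ≃ₗᵢ[ℝ] Y2 :=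
  LinearIsometryEquiv.piLpCongrRight 2 fun jc : Fin 2 × Fin 3 =>
    if jc.2 = i then LinearIsometryEquiv.neg ℝ else LinearIsometryEquiv.refl ℝ ℝ

/-- ion ground states at `λ = 0` -/
def ph0 (g : Pos3 → ℝ) (ξ : Y2) : ℝ := g (el 0 ξ) * g (el 1 ξ)
def ph1 (g u : Pos3 → ℝ) (ξ : Y2) : ℝ := -(u (el 0 ξ) * g (el 1 ξ) + g (el 0 ξ) * u (el 1 ξ)) / √2
def phT (g u : Pos3 → ℝ) (ξ : Y2) : ℝ := (u (el 0 ξ) * g (el 1 ξ) - g (el 0 ξ) * u (el 1 ξ)) / √2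

/-- three-body ground state at `λ = 0` -/
def psi0 (g u : Pos3 → ℝ) (x : Config3) : ℝ :=
  (u (elPos 0 x) * g (elPos 1 x) - g (elPos 0 x) * u (elPos 1 x)) * g (elPos 2 x) / √2

/-- the ion data at `λ` -/
structure IonData {cg C0 D : ℝ} (B : OBD cg C0 D) (K lam : ℝ) where
  e0 : ℝ
  e1 : ℝ
  eT : ℝ
  Φ0 : Y2 → ℝ
  Φ1 : Y2 → ℝ
  ΦT : Y2 → ℝ
  dΦ0 : Y2 → Y2
  dΦ1 : Y2 → Y2
  dΦT : Y2 → Y2
  /-- channel S+ -/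
  ch0 : IonCh D lam 1 1 e0 B.om Φ0 dΦ0
  /-- channel S- -/
  ch1 : IonCh D lam 1 (-1) e1 (cg / 4) Φ1 dΦ1
  /-- channel T- -/
  chT : IonCh D lam (-1) (-1) eT (cg / 4) ΦT dΦT
  /-- channel T+ (no bound state; threshold `eT + cg/4`) -/
  chZ : IonCh D lam (-1) 1 eT (cg / 4) (fun _ => 0) (fun _ => 0)
  n0 : ∫ ξ, Φ0 ξ ^ 2 = 1
  n1 : ∫ ξ, Φ1 ξ ^ 2 = 1
  nT : ∫ ξ, ΦT ξ ^ 2 = 1
  /-- bottom of the ion, all sectors -/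
  low : ∀ k dk, H1 k dk → e0 * (∫ ξ, k ξ ^ 2) ≤ k2 D lam k dk k dk
  e0n : |e0 - 2 * B.eg| ≤ K * lam
  e1n : |e1 - (B.eg + B.eu)| ≤ K * lam
  eTn : |eT - (B.eg + B.eu)| ≤ K * lam
  w0 : IonW C0 D K B.a Φ0
  w1 : IonW C0 D K B.a Φ1
  wT : IonW C0 D K B.a ΦT
  cl0 : ∫ ξ, (Φ0 ξ - ph0 B.g ξ) ^ 2 ≤ (K * lam) ^ 2
  cl1 : ∫ ξ, (Φ1 ξ - ph1 B.g B.u ξ) ^ 2 ≤ (K * lam) ^ 2
  clp : ∫ ξ, (ΦT ξ - phT B.g B.u ξ) ^ 2 ≤ (K * lam) ^ 2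
  /-- `Φ²` is invariant under the reflection of each coordinate -/
  sq0 : ∀ i : Fin 3, ∀ᵐ ξ, Φ0 (cxi i ξ) ^ 2 = Φ0 ξ ^ 2
  sq1 : ∀ i : Fin 3, ∀ᵐ ξ, Φ1 (cxi i ξ) ^ 2 = Φ1 ξ ^ 2
  sqT : ∀ i : Fin 3, ∀ᵐ ξ, ΦT (cxi i ξ) ^ 2 = ΦT ξ ^ 2
  /-- dipole moment -/
  dip_low : 1 / C0 ≤ - ∫ ξ, Φ1 ξ * (el 0 ξ 2 + el 1 ξ 2) * Φ0 ξ
  dip_up : - ∫ ξ, Φ1 ξ * (el 0 ξ 2 + el 1 ξ 2) * Φ0 ξ ≤ 4 * D
  Kpos : 1 ≤ K

/-- the data at `λ` -/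
structure Sys {cg C0 D : ℝ} (B : OBD cg C0 D) (K lam : ℝ) extends IonData B K lam where
  E : ℝ
  ψ : Config3 → ℝ
  dψ : Config3 → Config3
  tb : ThreeBody D lam E ψ dψ
  En : |E - (2 * B.eg + B.eu)| ≤ K * lam
  /-- exponential weights of the three-body function, in all three electrons -/
  w3 : ∃ d : Config3 → Config3,
    H1 (fun x => Real.exp (4 * B.a * (jb (elPos 0 x) + jb (elPos 1 x) + jb (elPos 2 x))) * ψ x) d ∧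
    (∫ x, (Real.exp (4 * B.a * (jb (elPos 0 x) + jb (elPos 1 x) + jb (elPos 2 x))) * ψ x) ^ 2) +
      (∫ x, ‖d x‖ ^ 2) ≤ K
  /-- closeness to `λ = 0`, uniform in the position of one electron -/
  clS : ∀ᵐ X : Pos3, ∫ ξ, (GS ψ (jn p9 X ξ) - (B.u X / √2 * Φ0 ξ + B.g X / 2 * Φ1 ξ)) ^ 2 ≤
    (K * lam) ^ 2
  clT : ∀ᵐ X : Pos3, ∫ ξ, (-√2 * GT ψ (jn p9 X ξ) - B.g X / √2 * ΦT ξ) ^ 2 ≤ (K * lam) ^ 2
  clB : ∀ᵐ X : Pos3, ∫ ξ, (GB ψ (jn p9 X ξ) - B.g X * ΦT ξ) ^ 2 ≤ (K * lam) ^ 2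

namespace Sys
variable {cg C0 D : ℝ} {B : OBD cg C0 D} {K lam : ℝ} (S : Sys B K lam)

/-- decay rates -/
def κ : ℝ := √(2 * (S.e0 - S.E))
def κS : ℝ := √(2 * (S.e1 - S.E))
def κT : ℝ := √(2 * (S.eT - S.E))

/-- `|d_S| = - d_S` -/
def dip : ℝ := - ∫ ξ, S.Φ1 ξ * (el 0 ξ 2 + el 1 ξ 2) * S.Φ0 ξ

/-- singlet channel function -/
def YS : Config3 → ℝ := GS S.ψ
/-- first triplet channel function -/
def YT : Config3 → ℝ := fun x => -√2 * GT S.ψ x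
/-- second triplet channel function -/
def YB : Config3 → ℝ := GB S.ψ

/-- `F = ⟨Φ0, G_S⟩`, odd in `z` -/
def F : Pos3 → ℝ := cF S.Φ0 S.YS
/-- `c = ⟨Φ1, G_S⟩`, even -/
def c : Pos3 → ℝ := cF S.Φ1 S.YS
/-- `P = |e^{aw} Γ|` -/
def P : Pos3 → ℝ := wN B.a (cR 1 S.Φ0 S.YS)
/-- `N = |e^{aw} Γ₁|` -/
def N : Pos3 → ℝ := wN B.a (cR (-1) S.Φ1 S.YS)
/-- triplet projection of a triplet channel function `Y` -/
def t (Y : Config3 → ℝ) : Pos3 → ℝ := cF S.ΦT Y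
/-- triplet remainder, ion odd part -/
def NT (Y : Config3 → ℝ) : Pos3 → ℝ := wN B.a (cR (-1) S.ΦT Y)
/-- triplet, ion even part (threshold higher) -/
def PT (_S : Sys B K lam) (Y : Config3 → ℝ) : Pos3 → ℝ := wN B.a (Yp 1 Y)

/-- the density: `ρ(X) = 2 ∫|ψ(X,·)|² + ∫|ψ(·,·,X)|²` -/
def rho (X : Pos3) : ℝ :=
  2 * (∫ ξ, S.ψ (jn p9 X ξ) ^ 2) + ∫ ξ, GB S.ψ (jn p9 X ξ) ^ 2

/-- square of the part of the wave function odd in `X` (ion even) -/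
def s1sq (X : Pos3) : ℝ :=
  2 * (∫ ξ, Yp 1 S.YS (jn p9 X ξ) ^ 2) + (∫ ξ, Yp 1 S.YT (jn p9 X ξ) ^ 2) +
    ∫ ξ, Yp 1 S.YB (jn p9 X ξ) ^ 2

/-- square of the part of the wave function even in `X` (ion odd) -/
def s2sq (X : Pos3) : ℝ :=
  2 * (∫ ξ, Yp (-1) S.YS (jn p9 X ξ) ^ 2) + (∫ ξ, Yp (-1) S.YT (jn p9 X ξ) ^ 2) +
    ∫ ξ, Yp (-1) S.YB (jn p9 X ξ) ^ 2

end Sys

/-! ### weak inequalities on open sets -/

/-- `-½Δ s + m s ≤ f` weakly on `U` -/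
structure WLe (U : Set Pos3) (s : Pos3 → ℝ) (ds : Pos3 → Pos3) (m f : Pos3 → ℝ) : Prop where
  ims : LocallyIntegrableOn (fun x => m x * s x) U volume
  if' : LocallyIntegrableOn f U volume
  le : ∀ φ : Pos3 → ℝ, Test U φ → (∀ x, 0 ≤ φ x) →
    (1 / 2) * (∫ x, inner ℝ (ds x) (gr φ x)) + ∫ x, m x * s x * φ x ≤ ∫ x, f x * φ x

/-- `-½Δ s + m s = f` weakly on `U` -/
structure WEq (U : Set Pos3) (s : Pos3 → ℝ) (ds : Pos3 → Pos3) (m f : Pos3 → ℝ) : Prop where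
  ims : LocallyIntegrableOn (fun x => m x * s x) U volume
  if' : LocallyIntegrableOn f U volume
  eq : ∀ φ : Pos3 → ℝ, Test U φ →
    (1 / 2) * (∫ x, inner ℝ (ds x) (gr φ x)) + ∫ x, m x * s x * φ x = ∫ x, f x * φ x

/-- potential of `L = -½Δ + κ²/2 - (1-λ)(1/ρ₊ + 1/ρ₋)` -/
def mL (D lam κ : ℝ) (x : Pos3) : ℝ := κ ^ 2 / 2 + (1 - lam) * V2 D x

/-- exterior region -/
def Ext (R : ℝ) : Set Pos3 := {x | R < ‖x‖}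

end Crest.Agent.R335
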