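import Crest.Agent.R335.BCloseA
import Crest.Agent.R335.BSys
import Crest.Agent.R335.BPar

/-!
Row 335 (S0521), module BClose, part 2 (helper246): products of eigenfunctions; the equation of `psi0`.
-/

set_option autoImplicit false
set_option linter.unusedSectionVars false
set_option linter.unusedVariables false

open MeasureTheory Filter Set Crest.MathPhysics.ThreeBody
open scoped ENNReal Topology ContDiff

noncomputable section
namespace Crest.Agent.R335
namespace Clo

variable {ι κ κ' : Type*} [Fintype ι] [DecidableEq ι] [Fintype κ] [DecidableEq κ]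
  [Fintype κ'] [DecidableEq κ']

local notation "E" => EuclideanSpace ℝ ι

/-- weak eigenfunction -/
structure Eig (V : E → ℝ) (e : ℝ) (f : E → ℝ) (g : E → E) : Prop where
  h1 : H1 f g
  mem : MemLp (fun x => V x * f x) 2 volume
  eq : ∀ k l, H1 k l → (1 / 2) * (∫ x, inner ℝ (g x) (l x)) + ∫ x, V x * f x * k x =
    e * ∫ x, f x * k x

theorem integrable_inner' {g l : E → E} (hg : MemLp g 2 volume) (hl : MemLp l 2 volume) :
    Integrable (fun x => inner ℝ (g x) (l x)) := by
  have h := L2.integrable_inner (𝕜 := ℝ) hg.toLp hl.toLp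
  refine h.congr ?_
  filter_upwards [hg.coeFn_toLp, hl.coeFn_toLp] with x h1 h2
  rw [h1, h2]

theorem Eig.congr {V V' : E → ℝ} {e : ℝ} {f f' : E → ℝ} {g : E → E} (h : Eig V e f g)
    (hV : ∀ x, V x = V' x) (hf : ∀ x, f x = f' x) : Eig V' e f' g := by
  have h1 : V = V' := funext hV
  have h2 : f = f' := funext hf
  subst h1 h2
  exact h

theorem Eig.const_mul {V : E → ℝ} {e : ℝ} {f : E → ℝ} {g : E → E} (h : Eig V e f g) (c : ℝ) :
    Eig V e (fun x => c * f x) (fun x => c • g x) where
  h1 := I.H1.const_mul h.h1 c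
  mem := by
    refine (h.mem.const_mul c).ae_eq (ae_of_all _ fun x => ?_)
    simp only
    ring
  eq := fun k l hk => by
    have := h.eq k l hk
    have e1 : ∫ x, inner ℝ (c • g x) (l x) = c * ∫ x, inner ℝ (g x) (l x) := by
      rw [← integral_const_mul]
      exact integral_congr_ae (ae_of_all _ fun x => by simp only [real_inner_smul_left])
    have e2 : ∫ x, V x * (c * f x) * k x = c * ∫ x, V x * f x * k x := by
      rw [← integral_const_mul]
      exact integral_congr_ae (ae_of_all _ fun x => by simp only; ring)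
    have e3 : ∫ x, c * f x * k x = c * ∫ x, f x * k x := by
      rw [← integral_const_mul]
      exact integral_congr_ae (ae_of_all _ fun x => by simp only; ring)
    rw [e1, e2, e3]
    linear_combination c * this

theorem Eig.sub {V : E → ℝ} {e : ℝ} {f f' : E → ℝ} {g g' : E → E} (h : Eig V e f g)
    (h' : Eig V e f' g') : Eig V e (fun x => f x - f' x) (fun x => g x - g' x) where
  h1 := I.H1.sub h.h1 h'.h1
  mem := by
    refine (h.mem.sub h'.mem).ae_eq (ae_of_all _ fun x => ?_)
    simp only [Pi.sub_apply]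
    ring
  eq := fun k l hk => by
    have a1 := h.eq k l hk
    have a2 := h'.eq k l hk
    have e1 : ∫ x, inner ℝ (g x - g' x) (l x) =
        (∫ x, inner ℝ (g x) (l x)) - ∫ x, inner ℝ (g' x) (l x) := by
      rw [← integral_sub (integrable_inner' h.h1.memg hk.memg)
        (integrable_inner' h'.h1.memg hk.memg)]
      exact integral_congr_ae (ae_of_all _ fun x => by simp only [inner_sub_left])
    have e2 : ∫ x, V x * (f x - f' x) * k x =
        (∫ x, V x * f x * k x) - ∫ x, V x * f' x * k x := by
      have j1 : Integrable (fun x => V x * f x * k x) := h.mem.integrable_mul hk.memf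
      have j2 : Integrable (fun x => V x * f' x * k x) := h'.mem.integrable_mul hk.memf
      rw [← integral_sub j1 j2]
      exact integral_congr_ae (ae_of_all _ fun x => by simp only; ring)
    have e3 : ∫ x, (f x - f' x) * k x = (∫ x, f x * k x) - ∫ x, f' x * k x := by
      have j1 : Integrable (fun x => f x * k x) := h.h1.memf.integrable_mul hk.memf
      have j2 : Integrable (fun x => f' x * k x) := h'.h1.memf.integrable_mul hk.memf
      rw [← integral_sub j1 j2]
      exact integral_congr_ae (ae_of_all _ fun x => by simp only; ring)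
    rw [e1, e2, e3]
    linear_combination a1 - a2

theorem memLp_tensor (p : ι ≃ κ ⊕ κ') {a : EuclideanSpace ℝ κ → ℝ} {b : EuclideanSpace ℝ κ' → ℝ}
    (ha : MemLp a 2 volume) (hb : MemLp b 2 volume) :
    MemLp (fun X : E => a (pr1 p X) * b (pr2 p X)) 2 volume := by
  have hme := measurableEmbedding_jn p
  have hmp := measurePreserving_jn p
  have h1 : AEStronglyMeasurable (fun z : EuclideanSpace ℝ κ × EuclideanSpace ℝ κ' =>
      a z.1 * b z.2) (volume.prod volume) := ha.1.comp_fst.mul hb.1.comp_snd
  have h2 : AEStronglyMeasurable (fun X : E => a (pr1 p X) * b (pr2 p X)) volume := by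
    rw [← hmp.aestronglyMeasurable_comp_iff hme]
    refine h1.congr (ae_of_all _ fun z => ?_)
    simp only [Function.comp_apply, pr1_jn, pr2_jn]
  refine (memLp_two_iff_integrable_sq h2).2 ?_
  refine (integrable_jn p).1 ?_
  simp only [pr1_jn, pr2_jn]
  refine ((ha.integrable_sq).mul_prod hb.integrable_sq).congr (ae_of_all _ fun z => ?_)
  simp only
  ring

theorem inner_split (p : ι ≃ κ ⊕ κ') (X Y : E) :
    inner ℝ X Y = inner ℝ (pr1 p X) (pr1 p Y) + inner ℝ (pr2 p X) (pr2 p Y) := by
  simp only [PiLp.inner_apply, RCLike.inner_apply, conj_trivial]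
  rw [← Equiv.sum_comp p.symm, Fintype.sum_sum_type]
  rfl

/-- TENSOR PRODUCTS OF EIGENFUNCTIONS -/
theorem Eig.tensor (p : ι ≃ κ ⊕ κ') {V : EuclideanSpace ℝ κ → ℝ} {e : ℝ}
    {f : EuclideanSpace ℝ κ → ℝ} {g : EuclideanSpace ℝ κ → EuclideanSpace ℝ κ}
    (h : Eig V e f g) {V' : EuclideanSpace ℝ κ' → ℝ} {e' : ℝ}
    {f' : EuclideanSpace ℝ κ' → ℝ} {g' : EuclideanSpace ℝ κ' → EuclideanSpace ℝ κ'}
    (h' : Eig V' e' f' g') :
    Eig (fun X : E => V (pr1 p X) + V' (pr2 p X)) (e + e')
      (fun X : E => f (pr1 p X) * f' (pr2 p X))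
      (fun X => jn p (f' (pr2 p X) • g (pr1 p X)) (f (pr1 p X) • g' (pr2 p X))) where
  h1 := I.H1.tensor p h.h1 h'.h1
  mem := by
    have h1 := (memLp_tensor p h.mem h'.h1.memf).add (memLp_tensor p h.h1.memf h'.mem)
    refine h1.ae_eq (ae_of_all _ fun X => ?_)
    simp only [Pi.add_apply]
    ring
  eq := fun k l hk => by
    set G : E → E := fun X => jn p (f' (pr2 p X) • g (pr1 p X)) (f (pr1 p X) • g' (pr2 p X))
      with hG
    have hGm : MemLp G 2 volume := (I.H1.tensor p h.h1 h'.h1).memg
    have hG1 : ∀ X, pr1 p (G X) = f' (pr2 p X) • g (pr1 p X) := fun X => by rw [hG, pr1_jn]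
    have hG2 : ∀ X, pr2 p (G X) = f (pr1 p X) • g' (pr2 p X) := fun X => by rw [hG, pr2_jn]
    have m1 : MemLp (fun X => pr1 p (G X)) 2 volume := (pr1L p).comp_memLp' hGm
    have m2 : MemLp (fun X => pr2 p (G X)) 2 volume := (pr2L p).comp_memLp' hGm
    have m3 : MemLp (fun X => pr1 p (l X)) 2 volume := (pr1L p).comp_memLp' hk.memg
    have m4 : MemLp (fun X => pr2 p (l X)) 2 volume := (pr2L p).comp_memLp' hk.memg
    have i1 : Integrable (fun X => inner ℝ (pr1 p (G X)) (pr1 p (l X))) := by
      have h := L2.integrable_inner (𝕜 := ℝ) m1.toLp m3.toLp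
      refine h.congr ?_
      filter_upwards [m1.coeFn_toLp, m3.coeFn_toLp] with x h1 h2
      rw [h1, h2]
    have i2 : Integrable (fun X => inner ℝ (pr2 p (G X)) (pr2 p (l X))) := by
      have h := L2.integrable_inner (𝕜 := ℝ) m2.toLp m4.toLp
      refine h.congr ?_
      filter_upwards [m2.coeFn_toLp, m4.coeFn_toLp] with x h1 h2
      rw [h1, h2]
    -- Fubini
    have i3 : Integrable (fun X : E => V (pr1 p X) * f (pr1 p X) * f' (pr2 p X) * k X) :=
      (memLp_tensor p h.mem h'.h1.memf).integrable_mul hk.memf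
    have i4 : Integrable (fun X : E => f (pr1 p X) * (V' (pr2 p X) * f' (pr2 p X)) * k X) :=
      (memLp_tensor p h.h1.memf h'.mem).integrable_mul hk.memf
    have i5 : Integrable (fun X : E => f (pr1 p X) * f' (pr2 p X) * k X) :=
      (memLp_tensor p h.h1.memf h'.h1.memf).integrable_mul hk.memf
    have A1 : (1 / 2) * (∫ X, inner ℝ (pr1 p (G X)) (pr1 p (l X))) +
        ∫ X : E, V (pr1 p X) * f (pr1 p X) * f' (pr2 p X) * k X =
        e * ∫ X : E, f (pr1 p X) * f' (pr2 p X) * k X := by
      rw [I.integral_jn' p i1, I.integral_jn' p i3, I.integral_jn' p i5, ← integral_const_mul,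
        ← integral_const_mul, ← integral_add]
      · refine integral_congr_ae ?_
        filter_upwards [I.H1.slice_left p hk] with y hy
        have := h.eq _ _ hy
        have e1 : ∫ x, inner ℝ (pr1 p (G (jn p x y))) (pr1 p (l (jn p x y))) =
            f' y * ∫ x, inner ℝ (g x) (pr1 p (l (jn p x y))) := by
          rw [← integral_const_mul]
          refine integral_congr_ae (ae_of_all _ fun x => ?_)
          simp only [hG1, pr1_jn, pr2_jn, real_inner_smul_left]
        have e2 : ∫ x, V (pr1 p (jn p x y)) * f (pr1 p (jn p x y)) * f' (pr2 p (jn p x y)) *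
            k (jn p x y) = f' y * ∫ x, V x * f x * k (jn p x y) := by
          rw [← integral_const_mul]
          refine integral_congr_ae (ae_of_all _ fun x => ?_)
          simp only [pr1_jn, pr2_jn]
          ring
        have e3 : ∫ x, f (pr1 p (jn p x y)) * f' (pr2 p (jn p x y)) *
            k (jn p x y) = f' y * ∫ x, f x * k (jn p x y) := by
          rw [← integral_const_mul]
          refine integral_congr_ae (ae_of_all _ fun x => ?_)
          simp only [pr1_jn, pr2_jn]
          ring
        rw [e1, e2, e3]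
        linear_combination (f' y) * this
      · exact (((integrable_jn p).2 i1).integral_prod_right).const_mul _
      · exact ((integrable_jn p).2 i3).integral_prod_right
    have A2 : (1 / 2) * (∫ X, inner ℝ (pr2 p (G X)) (pr2 p (l X))) +
        ∫ X : E, f (pr1 p X) * (V' (pr2 p X) * f' (pr2 p X)) * k X =
        e' * ∫ X : E, f (pr1 p X) * f' (pr2 p X) * k X := by
      rw [I.integral_jn p i2, I.integral_jn p i4, I.integral_jn p i5, ← integral_const_mul,
        ← integral_const_mul, ← integral_add]
      · refine integral_congr_ae ?_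
        filter_upwards [I.H1.slice_right p hk] with x hx
        have := h'.eq _ _ hx
        have e1 : ∫ y, inner ℝ (pr2 p (G (jn p x y))) (pr2 p (l (jn p x y))) =
            f x * ∫ y, inner ℝ (g' y) (pr2 p (l (jn p x y))) := by
          rw [← integral_const_mul]
          refine integral_congr_ae (ae_of_all _ fun y => ?_)
          simp only [hG2, pr1_jn, pr2_jn, real_inner_smul_left]
        have e2 : ∫ y, f (pr1 p (jn p x y)) * (V' (pr2 p (jn p x y)) * f' (pr2 p (jn p x y))) *
            k (jn p x y) = f x * ∫ y, V' y * f' y * k (jn p x y) := by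
          rw [← integral_const_mul]
          refine integral_congr_ae (ae_of_all _ fun y => ?_)
          simp only [pr1_jn, pr2_jn]
          ring
        have e3 : ∫ y, f (pr1 p (jn p x y)) * f' (pr2 p (jn p x y)) *
            k (jn p x y) = f x * ∫ y, f' y * k (jn p x y) := by
          rw [← integral_const_mul]
          refine integral_congr_ae (ae_of_all _ fun y => ?_)
          simp only [pr1_jn, pr2_jn]
          ring
        rw [e1, e2, e3]
        linear_combination (f x) * this
      · exact (((integrable_jn p).2 i2).integral_prod_left).const_mul _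
      · exact ((integrable_jn p).2 i4).integral_prod_left
    have B1 : ∫ X, inner ℝ (G X) (l X) = (∫ X, inner ℝ (pr1 p (G X)) (pr1 p (l X))) +
        ∫ X, inner ℝ (pr2 p (G X)) (pr2 p (l X)) := by
      rw [← integral_add i1 i2]
      exact integral_congr_ae (ae_of_all _ fun X => inner_split p _ _)
    have B2 : ∫ X : E, (V (pr1 p X) + V' (pr2 p X)) * (f (pr1 p X) * f' (pr2 p X)) * k X =
        (∫ X : E, V (pr1 p X) * f (pr1 p X) * f' (pr2 p X) * k X) +
        ∫ X : E, f (pr1 p X) * (V' (pr2 p X) * f' (pr2 p X)) * k X := by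
      rw [← integral_add i3 i4]
      exact integral_congr_ae (ae_of_all _ fun X => by simp only; ring)
    show (1 / 2) * (∫ X, inner ℝ (G X) (l X)) + _ = _
    rw [B1, B2]
    linear_combination A1 + A2

/-! ### `psi0` -/

variable {cg C0 D : ℝ}

theorem eig_g (B : OBD cg C0 D) : Eig (V2 D) B.eg B.g B.dg where
  h1 := B.ob.hg
  mem := (V2_memLp D B.ob.hg).1
  eq := fun k l hk => by
    have := B.ob.g_eq k l hk
    unfold B2 at this
    rw [← this]
    congr 1
    exact integral_congr_ae (ae_of_all _ fun x => by simp only; ring)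

theorem eig_u (B : OBD cg C0 D) : Eig (V2 D) B.eu B.u B.du where
  h1 := B.ob.hu
  mem := (V2_memLp D B.ob.hu).1
  eq := fun k l hk => by
    have := B.ob.u_eq k l hk
    unfold B2 at this
    rw [← this]
    congr 1
    exact integral_congr_ae (ae_of_all _ fun x => by simp only; ring)

theorem eig_psi0 (B : OBD cg C0 D) :
    ∃ d0, Eig (V9 D 0) (2 * B.eg + B.eu) (psi0 B.g B.u) d0 := by
  have hgg := Eig.tensor p6 (eig_g B) (eig_g B)
  have hug := Eig.tensor p6 (eig_u B) (eig_g B)
  have h1 := Eig.tensor p9 (eig_u B) hgg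
  have h2 := Eig.tensor p9 (eig_g B) hug
  have e1 : B.eu + (B.eg + B.eg) = 2 * B.eg + B.eu := by ring
  have e2 : B.eg + (B.eu + B.eg) = 2 * B.eg + B.eu := by ring
  rw [e1] at h1
  rw [e2] at h2
  refine ⟨_, ((h1.sub h2).const_mul (√2)⁻¹).congr (fun x => ?_) (fun x => ?_)⟩
  · unfold V9
    have a0 : pr1 p9 x = elPos 0 x := rfl
    have a1 : pr1 p6 (pr2 p9 x) = elPos 1 x := rfl
    have a2 : pr2 p6 (pr2 p9 x) = elPos 2 x := rfl
    simp only [a0, a1, a2]
    ring
  · unfold psi0
    have a0 : pr1 p9 x = elPos 0 x := rfl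
    have a1 : pr1 p6 (pr2 p9 x) = elPos 1 x := rfl
    have a2 : pr2 p6 (pr2 p9 x) = elPos 2 x := rfl
    simp only [a0, a1, a2]
    rw [div_eq_inv_mul]
    ring

end Clo
end Crest.Agent.R335
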