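import Crest.Agent.R335.BDecayB
import Crest.Agent.R335.BChan

/-!
Row 335 (S0521), part B, (3.3) (helper947): `decay_S`, `decay_T`.
-/

set_option autoImplicit false
set_option linter.unusedSectionVars false

open MeasureTheory Filter Set Crest.MathPhysics.ThreeBody
open scoped ENNReal Topology ContDiff

noncomputable section
namespace Crest.Agent.R335
namespace BD

/-- Fatou for nonnegative real functions with bounded integrals -/
theorem integral_le_of_tendsto {α : Type*} [MeasurableSpace α] {μ : Measure α} {g : α → ℝ}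
    {gn : ℕ → α → ℝ} (hgn : ∀ n, Integrable (gn n) μ) (h0 : ∀ n x, 0 ≤ gn n x)
    (hlim : ∀ x, Tendsto (fun n => gn n x) atTop (𝓝 (g x))) {B : ℝ} (hB0 : 0 ≤ B)
    (hB : ∀ n, ∫ x, gn n x ∂μ ≤ B) : ∫ x, g x ∂μ ≤ B := by
  have hg0 : ∀ x, 0 ≤ g x := fun x => ge_of_tendsto' (hlim x) fun n => h0 n x
  have hgm : AEStronglyMeasurable g μ :=
    aestronglyMeasurable_of_tendsto_ae atTop (fun n => (hgn n).aestronglyMeasurable)
      (Eventually.of_forall hlim)
  rw [integral_eq_lintegral_of_nonneg_ae (Eventually.of_forall hg0) hgm]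
  refine ENNReal.toReal_le_of_le_ofReal hB0 ?_
  have h1 : ∫⁻ x, ENNReal.ofReal (g x) ∂μ ≤
      liminf (fun n => ∫⁻ x, ENNReal.ofReal (gn n x) ∂μ) atTop := by
    have h2 : ∀ x, ENNReal.ofReal (g x) = liminf (fun n => ENNReal.ofReal (gn n x)) atTop :=
      fun x => ((ENNReal.tendsto_ofReal (hlim x)).liminf_eq).symm
    simp only [h2]
    exact lintegral_liminf_le' fun n => (hgn n).aestronglyMeasurable.aemeasurable.ennreal_ofReal
  refine h1.trans ?_
  refine liminf_le_of_frequently_le' (Frequently.of_forall fun n => ?_)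
  rw [← ofReal_integral_eq_lintegral_ofReal (hgn n) (Eventually.of_forall (h0 n))]
  exact ENNReal.ofReal_le_ofReal (hB n)

/-- decay of the weighted slices of a channel function -/
theorem decay_w (D : ℝ) {k₁ k : ℝ} (hk : 0 < k) (hkk : k < k₁) :
    ∃ C : ℝ, 0 ≤ C ∧ ∀ (lam En σ e b M : ℝ) (Y : Config3 → ℝ) (dY : Config3 → Config3),
      0 ≤ lam → 0 ≤ b → Chan D lam En σ Y dY →
      (∀ k dk, H1 k dk → (∀ ξ, k (sxi ξ) = σ * k ξ) →
        e * (∫ ξ, k ξ ^ 2) ≤ k2 D lam k dk k dk) →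
      k₁ ^ 2 / 2 ≤ e - En - 2 * b ^ 2 →
      (∀ n : ℕ, ∫ x, fw b n Y x ^ 2 ≤ M) →
      ∀ᵐ X : Pos3, wN b Y X ≤ C * √M * Real.exp (-(k * ‖X‖)) := by
  obtain ⟨C, hC, hdec⟩ := decay_of_sub D hk hkk
  refine ⟨9 * C, by positivity, ?_⟩
  intro lam En σ e b M Y dY hl hb hY hlow hgap hM
  have hall : ∀ n : ℕ, ∀ᵐ X : Pos3, Nw b n Y X ≤ 9 * C * √M * Real.exp (-(k * ‖X‖)) := by
    intro n
    obtain ⟨m, hm, hsub⟩ := kato_w hb n hl hY hlow
    have hN0 : ∀ᵐ X, 0 ≤ Nw b n Y X := Eventually.of_forall (Nw_nonneg b n Y)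
    have hsub1 : ∀ φ : Pos3 → ℝ, Test univ φ → (∀ x, 0 ≤ φ x) →
        (1 / 2) * (∫ x, inner ℝ (m x) (gr φ x)) +
          ∫ x, (k₁ ^ 2 / 2 + V2 D x) * Nw b n Y x * φ x ≤ 0 := by
      intro φ hφ h0
      have hφ1 := H1.of_test hφ
      have i1 : Integrable (fun x => Nw b n Y x * φ x) := hm.memf.integrable_mul hφ1.memf
      have i2 : Integrable (fun x => V2 D x * (Nw b n Y x * φ x)) := V2_integrable D hm hφ1.memf
      have e1 : ∀ c : ℝ, ∫ x, (c + V2 D x) * Nw b n Y x * φ x =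
          c * (∫ x, Nw b n Y x * φ x) + ∫ x, V2 D x * (Nw b n Y x * φ x) := by
        intro c
        rw [← integral_const_mul, ← integral_add (i1.const_mul c) i2]
        refine integral_congr_ae (Eventually.of_forall fun x => ?_)
        simp only; ring
      have h1 := hsub φ hφ h0
      rw [e1] at h1 ⊢
      have h2 : 0 ≤ ∫ x, Nw b n Y x * φ x :=
        integral_nonneg fun x => mul_nonneg (Nw_nonneg b n Y x) (h0 x)
      nlinarith [mul_le_mul_of_nonneg_right hgap h2]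
    have hgr : √(∫ x, ‖m x‖ ^ 2) ≤ 9 * √M := by
      have h1 := sub_grad (D := D) (c := k₁ ^ 2 / 2) (f := fun _ => 0) (by positivity) hm hN0
        (MemLp.zero' (p := 2)) (by simpa using hsub1)
      have h2 : ∫ x, Nw b n Y x ^ 2 ≤ M := by
        have hf := fw_H1 hb n hY.h1
        have e : ∫ x, Nw b n Y x ^ 2 = ∫ x, fw b n Y x ^ 2 := by
          rw [integral_jn p9 hf.memf.integrable_sq]
          exact integral_congr_ae (Eventually.of_forall fun X => Nw_sq b n Y X)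
        rw [e]; exact hM n
      have h3 : √(∫ x, Nw b n Y x ^ 2) ≤ √M := Real.sqrt_le_sqrt h2
      simp only [ne_eq, OfNat.ofNat_ne_zero, not_false_eq_true, zero_pow, integral_zero,
        Real.sqrt_zero, mul_zero, zero_add] at h1
      linarith
    filter_upwards [hdec _ _ hm hN0 hsub1] with X hX
    calc Nw b n Y X ≤ _ := hX
      _ ≤ C * (9 * √M) * Real.exp (-(k * ‖X‖)) := by
          refine mul_le_mul_of_nonneg_right ?_ (Real.exp_pos _).le
          exact mul_le_mul_of_nonneg_left hgr hC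
      _ = _ := by ring
  have hslice : ∀ n : ℕ, ∀ᵐ X : Pos3, MemLp (fun ξ : Y2 => fw b n Y (jn p9 X ξ)) 2 volume :=
    fun n => Sy.slice_memLp p9 (fw_H1 hb n hY.h1).memf
  filter_upwards [ae_all_iff.2 hall, ae_all_iff.2 hslice] with X hX hXs
  set B : ℝ := 9 * C * √M * Real.exp (-(k * ‖X‖)) with hB
  have hB0 : 0 ≤ B := by positivity
  unfold wN
  refine Real.sqrt_le_iff.2 ⟨hB0, ?_⟩
  refine integral_le_of_tendsto (gn := fun n ξ => fw b n Y (jn p9 X ξ) ^ 2)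
    (fun n => (hXs n).integrable_sq) (fun n ξ => sq_nonneg _) (fun ξ => ?_) (sq_nonneg _)
    (fun n => ?_)
  · refine tendsto_nhds_of_eventually_eq ?_
    filter_upwards [Sy.en_eventually b (jn p9 X ξ)] with n hn
    unfold fw
    rw [hn.1, Sy.ew_jn]
  · rw [← Nw_sq]
    exact pow_le_pow_left₀ (Nw_nonneg _ _ _ _) (hX n) 2

/-! ### the weighted `L²` bounds -/

/-- sum of the three brackets -/
def sg9 (x : Config3) : ℝ := jb (elPos 0 x) + jb (elPos 1 x) + jb (elPos 2 x)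

theorem sg9_eq_sum (x : Config3) : sg9 x = ∑ i : Fin 3, jb (elPos i x) := by
  rw [Fin.sum_univ_three]; rfl

theorem sg9_perm (σ : Equiv.Perm (Fin 3)) (x : Config3) : sg9 (permConfig σ x) = sg9 x := by
  rw [sg9_eq_sum, sg9_eq_sum]
  simp only [elPos_permConfig]
  exact Equiv.sum_comp σ (fun i => jb (elPos i x))

theorem en_le_sg {a : ℝ} (ha : 0 ≤ a) (n : ℕ) (x : Config3) :
    Sy.en (2 * a) n x ≤ Real.exp (4 * a * sg9 x) := by
  refine (Sy.en_le_ew (by positivity) n x).trans (Real.exp_le_exp.2 ?_)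
  have h1 : Sy.w9 x ≤ sg9 x := by
    unfold Sy.w9 wi sg9
    rw [Sy.el0_pr2, Sy.el1_pr2]
    linarith [Sy.jb_pos (elPos 0 x)]
  have h2 := Sy.w9_nonneg x
  nlinarith [mul_nonneg ha h2]

theorem fw_sq_le {a : ℝ} (ha : 0 ≤ a) (n : ℕ) (Y : Config3 → ℝ) (x : Config3) :
    fw (2 * a) n Y x ^ 2 ≤ (Real.exp (4 * a * sg9 x) * Y x) ^ 2 := by
  unfold fw
  rw [mul_pow, mul_pow]
  refine mul_le_mul_of_nonneg_right ?_ (sq_nonneg _)
  exact pow_le_pow_left₀ (Sy.en_pos _ _ _).le (en_le_sg ha n x) 2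

theorem int_perm (σ : Equiv.Perm (Fin 3)) (f : Config3 → ℝ) :
    ∫ x, f (permConfig σ x) = ∫ x, f x := by
  have := integral_isom (permL σ) f
  simpa only [permL_apply] using this

theorem integrable_perm (σ : Equiv.Perm (Fin 3)) {f : Config3 → ℝ} (hf : Integrable f) :
    Integrable (fun x => f (permConfig σ x)) := by
  have := ((permL σ).measurePreserving.integrable_comp_emb
    (permL σ).toHomeomorph.measurableEmbedding (g := f)).2 hf
  refine this.congr (Eventually.of_forall fun x => ?_)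
  simp [permL_apply]

/-- weighted `L²` bound for the three channel functions -/
theorem weight_bound {cg C0 D : ℝ} {B : OBD cg C0 D} {K lam : ℝ} (S : Sys B K lam) {Y : Config3 → ℝ}
    (hY : Y = S.YS ∨ Y = S.YT ∨ Y = S.YB) (n : ℕ) : ∫ x, fw (2 * B.a) n Y x ^ 2 ≤ 4 * K := by
  have ha : 0 ≤ B.a := by
    unfold OBD.a OBD.om
    have := B.ob.eg_lt
    linarith
  obtain ⟨d, hd, hK⟩ := S.w3
  have hZ2 : Integrable (fun x => (Real.exp (4 * B.a * sg9 x) * S.ψ x) ^ 2) :=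
    hd.memf.integrable_sq
  have hd2 : 0 ≤ ∫ x, ‖d x‖ ^ 2 := integral_nonneg fun _ => by positivity
  have hZK : ∫ x, (Real.exp (4 * B.a * sg9 x) * S.ψ x) ^ 2 ≤ K := by
    have : ∫ x, (Real.exp (4 * B.a * sg9 x) * S.ψ x) ^ 2 = ∫ x, (Real.exp (4 * B.a *
      (jb (elPos 0 x) + jb (elPos 1 x) + jb (elPos 2 x))) * S.ψ x) ^ 2 := rfl
    rw [this]; linarith
  have hZ0 : 0 ≤ ∫ x, (Real.exp (4 * B.a * sg9 x) * S.ψ x) ^ 2 :=
    integral_nonneg fun _ => sq_nonneg _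
  have hperm : ∀ σ : Equiv.Perm (Fin 3), Integrable (fun x => (Real.exp (4 * B.a * sg9 x) *
      S.ψ (permConfig σ x)) ^ 2) ∧ ∫ x, (Real.exp (4 * B.a * sg9 x) *
      S.ψ (permConfig σ x)) ^ 2 ≤ K := by
    intro σ
    have e : (fun x => (Real.exp (4 * B.a * sg9 x) * S.ψ (permConfig σ x)) ^ 2) =
        fun x => (fun y => (Real.exp (4 * B.a * sg9 y) * S.ψ y) ^ 2) (permConfig σ x) := by
      funext x
      simp only [sg9_perm]
    refine ⟨?_, ?_⟩
    · rw [e]; exact integrable_perm σ hZ2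
    · rw [e, int_perm σ (fun y => (Real.exp (4 * B.a * sg9 y) * S.ψ y) ^ 2)]; exact hZK
  have hS : ∀ (c : ℝ) (Y : Config3 → ℝ), c ^ 2 ≤ 2 →
      (∀ x, |Y x| ≤ |c| * (|S.ψ x| + |S.ψ (permConfig (Equiv.swap 1 2) x)|) / 2) →
      ∫ x, fw (2 * B.a) n Y x ^ 2 ≤ 4 * K := by
    intro c Y hc hYb
    obtain ⟨i1, h1⟩ := hperm (Equiv.swap 1 2)
    have hpt : ∀ x, fw (2 * B.a) n Y x ^ 2 ≤ (Real.exp (4 * B.a * sg9 x) * S.ψ x) ^ 2 +
        (Real.exp (4 * B.a * sg9 x) * S.ψ (permConfig (Equiv.swap 1 2) x)) ^ 2 := by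
      intro x
      refine (fw_sq_le ha n Y x).trans ?_
      have h2 : Y x ^ 2 ≤ S.ψ x ^ 2 + S.ψ (permConfig (Equiv.swap 1 2) x) ^ 2 := by
        have h3 := hYb x
        have h4 : Y x ^ 2 = |Y x| ^ 2 := (sq_abs _).symm
        have h5 : |Y x| ^ 2 ≤ (|c| * (|S.ψ x| + |S.ψ (permConfig (Equiv.swap 1 2) x)|) / 2) ^ 2 :=
          pow_le_pow_left₀ (abs_nonneg _) h3 2
        have h6 : (|c| * (|S.ψ x| + |S.ψ (permConfig (Equiv.swap 1 2) x)|) / 2) ^ 2 =
            c ^ 2 * (|S.ψ x| + |S.ψ (permConfig (Equiv.swap 1 2) x)|) ^ 2 / 4 := by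
          rw [div_pow, mul_pow, sq_abs]; norm_num
        have h7 : (|S.ψ x| + |S.ψ (permConfig (Equiv.swap 1 2) x)|) ^ 2 ≤
            2 * (S.ψ x ^ 2 + S.ψ (permConfig (Equiv.swap 1 2) x) ^ 2) := by
          rw [← sq_abs (S.ψ x), ← sq_abs (S.ψ (permConfig (Equiv.swap 1 2) x))]
          nlinarith [sq_nonneg (|S.ψ x| - |S.ψ (permConfig (Equiv.swap 1 2) x)|)]
        have h8 : 0 ≤ (|S.ψ x| + |S.ψ (permConfig (Equiv.swap 1 2) x)|) ^ 2 := sq_nonneg _
        nlinarith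
      have h9 : 0 ≤ Real.exp (4 * B.a * sg9 x) ^ 2 := sq_nonneg _
      calc (Real.exp (4 * B.a * sg9 x) * Y x) ^ 2 = Real.exp (4 * B.a * sg9 x) ^ 2 * Y x ^ 2 := by
            rw [mul_pow]
        _ ≤ Real.exp (4 * B.a * sg9 x) ^ 2 *
            (S.ψ x ^ 2 + S.ψ (permConfig (Equiv.swap 1 2) x) ^ 2) :=
            mul_le_mul_of_nonneg_left h2 h9
        _ = _ := by ring
    calc ∫ x, fw (2 * B.a) n Y x ^ 2 ≤ ∫ x, ((Real.exp (4 * B.a * sg9 x) * S.ψ x) ^ 2 +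
        (Real.exp (4 * B.a * sg9 x) * S.ψ (permConfig (Equiv.swap 1 2) x)) ^ 2) :=
          integral_mono_of_nonneg (Eventually.of_forall fun x => sq_nonneg _) (hZ2.add i1)
            (Eventually.of_forall hpt)
      _ ≤ K + K := by rw [integral_add hZ2 i1]; exact add_le_add hZK h1
      _ ≤ 4 * K := by linarith
  rcases hY with rfl | rfl | rfl
  · refine hS 1 _ (by norm_num) fun x => ?_
    unfold Sys.YS GS
    rw [abs_one, one_mul, abs_div, abs_two]
    exact div_le_div_of_nonneg_right (abs_add_le _ _) (by norm_num)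
  · refine hS (√2) _ (by rw [Real.sq_sqrt (by norm_num)]) fun x => ?_
    unfold Sys.YT GT
    rw [abs_mul, abs_neg, abs_div, abs_two, mul_div_assoc]
    refine mul_le_mul_of_nonneg_left (div_le_div_of_nonneg_right ?_ (by norm_num)) (abs_nonneg _)
    exact abs_sub _ _
  · obtain ⟨i1, h1⟩ := hperm (finRotate 3)
    have hpt : ∀ x, fw (2 * B.a) n S.YB x ^ 2 ≤
        (Real.exp (4 * B.a * sg9 x) * S.ψ (permConfig (finRotate 3) x)) ^ 2 := fun x =>
      fw_sq_le ha n S.YB x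
    calc ∫ x, fw (2 * B.a) n S.YB x ^ 2 ≤ _ :=
          integral_mono_of_nonneg (Eventually.of_forall fun x => sq_nonneg _) i1
            (Eventually.of_forall hpt)
      _ ≤ K := h1
      _ ≤ 4 * K := by linarith

/-! ### final statements -/

theorem a_bounds {cg C0 D : ℝ} (hD : 1 ≤ D) (B : OBD cg C0 D) :
    0 < B.a ∧ B.a ≤ 1 / 64000 ∧ |B.eg + 1 / 2| ≤ 1 / 100 ∧ |B.eu + 1 / 2| ≤ 1 / 100 := by
  have h1 := B.ob.eg_lt
  have h2 := B.omle
  have h3 := B.cg1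
  have h4 := B.big
  have h5 : C0 / D ≤ 1 / 100 := by
    rw [div_le_iff₀ (by linarith)]; linarith
  refine ⟨?_, ?_, B.eg_near.trans h5, B.eu_near.trans h5⟩
  · unfold OBD.a OBD.om; linarith
  · unfold OBD.a OBD.om; linarith

/-- numerical lemma on the rates -/
theorem rates {a t q : ℝ} (ha : 0 < a) (ha1 : a ≤ 1 / 64000) (hq : |q - 1| ≤ 1 / 50)
    (ht : |t - q| ≤ a / 100) :
    0 < √q - a / 20 ∧ √q - a / 20 < √q - a / 40 ∧
      (√q - a / 40) ^ 2 / 2 ≤ t / 2 - 2 * (2 * a) ^ 2 ∧ √t - a / 16 ≤ √q - a / 20 := by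
  obtain ⟨q1, q2⟩ := abs_le.1 hq
  obtain ⟨t1, t2⟩ := abs_le.1 ht
  have hq0 : 0 ≤ q := by linarith
  have hs : √q ^ 2 = q := Real.sq_sqrt hq0
  have hs0 : 0 ≤ √q := Real.sqrt_nonneg _
  have hs1 : 9 / 10 ≤ √q := by
    apply Real.le_sqrt_of_sq_le; norm_num; linarith
  have hs2 : √q ≤ 11 / 10 := by
    rw [Real.sqrt_le_left (by norm_num)]; norm_num; linarith
  refine ⟨by linarith, by linarith, ?_, ?_⟩
  · nlinarith [mul_le_mul_of_nonneg_right hs1 ha.le, mul_le_mul_of_nonneg_right ha1 ha.le]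
  · have h1 : √t ≤ √q + a / 80 := by
      rw [Real.sqrt_le_left (by positivity)]
      nlinarith [mul_le_mul_of_nonneg_right hs1 ha.le]
    linarith

end BD

/-- (3.3) for the singlet channel -/
theorem decay_S {cg C0 D : ℝ} (hD : 1 ≤ D) (B : OBD cg C0 D) (K : ℝ) : ∃ K' l' : ℝ, 0 < K' ∧
    0 < l' ∧ ∀ lam, 0 < lam → lam ≤ l' → ∀ S : Sys B K lam, ∀ᵐ X : Pos3,
      wN (2 * B.a) S.YS X ≤ K' * Real.exp (-(S.κ - B.a / 16) * ‖X‖) := by
  obtain ⟨ha, ha1, hg, hu⟩ := BD.a_bounds hD B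
  have hq : |(-2 * B.eu) - 1| ≤ 1 / 50 := by
    obtain ⟨h1, h2⟩ := abs_le.1 hu
    rw [abs_le]; constructor <;> linarith
  obtain ⟨r1, r2, -, -⟩ := BD.rates ha ha1 hq (t := -2 * B.eu) (by simp; positivity)
  obtain ⟨C, hC, hdec⟩ := BD.decay_w D r1 r2
  refine ⟨C * √(4 * K) + 1, B.a / (400 * (|K| + 1)), by positivity, by positivity, ?_⟩
  intro lam hl hl' S
  obtain ⟨dY, hY⟩ := chan_S S.tb
  have ht : |2 * (S.e0 - S.E) - (-2 * B.eu)| ≤ B.a / 100 := by
    have h1 := abs_le.1 S.e0n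
    have h2 := abs_le.1 S.En
    have h3 : K * lam ≤ B.a / 400 := by
      have h4 : lam * (400 * (|K| + 1)) ≤ B.a := (le_div_iff₀ (by positivity)).1 hl'
      have h5 : K * lam ≤ |K| * lam := mul_le_mul_of_nonneg_right (le_abs_self K) hl.le
      nlinarith
    rw [abs_le]; constructor <;> linarith
  obtain ⟨-, -, r3, r4⟩ := BD.rates ha ha1 hq ht
  have h1 := hdec lam S.E 1 S.e0 (2 * B.a) (4 * K) S.YS dY hl.le (by positivity) hY
    (fun k dk hk _ => S.low k dk hk) (by linarith) (BD.weight_bound S (Or.inl rfl))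
  filter_upwards [h1] with X hX
  refine hX.trans ?_
  have hk : Real.exp (-((√(-2 * B.eu) - B.a / 20) * ‖X‖)) ≤
      Real.exp (-(S.κ - B.a / 16) * ‖X‖) := by
    refine Real.exp_le_exp.2 ?_
    have : S.κ - B.a / 16 ≤ √(-2 * B.eu) - B.a / 20 := r4
    nlinarith [mul_le_mul_of_nonneg_right this (norm_nonneg X)]
  refine mul_le_mul (by linarith) hk (Real.exp_pos _).le (by positivity)

/-- (3.3) for the triplet channels -/
theorem decay_T {cg C0 D : ℝ} (hD : 1 ≤ D) (B : OBD cg C0 D) (K : ℝ) : ∃ K' l' : ℝ, 0 < K' ∧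
    0 < l' ∧ ∀ lam, 0 < lam → lam ≤ l' → ∀ S : Sys B K lam, ∀ Y, Y = S.YT ∨ Y = S.YB →
      ∀ᵐ X : Pos3, wN (2 * B.a) Y X ≤ K' * Real.exp (-(S.κT - B.a / 16) * ‖X‖) := by
  obtain ⟨ha, ha1, hg, hu⟩ := BD.a_bounds hD B
  have hq : |(-2 * B.eg) - 1| ≤ 1 / 50 := by
    obtain ⟨h1, h2⟩ := abs_le.1 hg
    rw [abs_le]; constructor <;> linarith
  obtain ⟨r1, r2, -, -⟩ := BD.rates ha ha1 hq (t := -2 * B.eg) (by simp; positivity)
  obtain ⟨C, hC, hdec⟩ := BD.decay_w D r1 r2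
  refine ⟨C * √(4 * K) + 1, B.a / (400 * (|K| + 1)), by positivity, by positivity, ?_⟩
  intro lam hl hl' S Y hYor
  obtain ⟨dY, hY⟩ : ∃ dY, Chan D lam S.E (-1) Y dY := by
    rcases hYor with rfl | rfl
    · exact chan_T S.tb
    · exact chan_B S.tb
  have ht : |2 * (S.eT - S.E) - (-2 * B.eg)| ≤ B.a / 100 := by
    have h1 := abs_le.1 S.eTn
    have h2 := abs_le.1 S.En
    have h3 : K * lam ≤ B.a / 400 := by
      have h4 : lam * (400 * (|K| + 1)) ≤ B.a := (le_div_iff₀ (by positivity)).1 hl'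
      have h5 : K * lam ≤ |K| * lam := mul_le_mul_of_nonneg_right (le_abs_self K) hl.le
      nlinarith
    rw [abs_le]; constructor <;> linarith
  obtain ⟨-, -, r3, r4⟩ := BD.rates ha ha1 hq ht
  have h1 := hdec lam S.E (-1) S.eT (2 * B.a) (4 * K) Y dY hl.le (by positivity) hY
    (fun k dk hk hex => S.lowT hk (Eventually.of_forall fun ξ => by rw [hex]; ring)) (by linarith)
    (BD.weight_bound S (Or.inr hYor))
  filter_upwards [h1] with X hX
  refine hX.trans ?_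
  have hk : Real.exp (-((√(-2 * B.eg) - B.a / 20) * ‖X‖)) ≤
      Real.exp (-(S.κT - B.a / 16) * ‖X‖) := by
    refine Real.exp_le_exp.2 ?_
    have : S.κT - B.a / 16 ≤ √(-2 * B.eg) - B.a / 20 := r4
    nlinarith [mul_le_mul_of_nonneg_right this (norm_nonneg X)]
  refine mul_le_mul (by linarith) hk (Real.exp_pos _).le (by positivity)

end Crest.Agent.R335
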