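import Crest.Agent.R335.SyGam
import Crest.Agent.R335.HNorm
import Crest.Agent.R335.BPar
import Crest.Agent.R335.XLap

/-!
Row 335 (S0521), part B, (3.3) (helper947): weighted Kato inequality for a channel function with
truncated exponential weights of the ion.
-/

set_option autoImplicit false
set_option linter.unusedSectionVars false

open MeasureTheory Filter Set Crest.MathPhysics.ThreeBody
open scoped ENNReal Topology ContDiff

noncomputable section
namespace Crest.Agent.R335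
namespace BD

/-- `⟨∇ e^{b min(w,n)}, (v, 0)⟩ = 0` : the weight depends on the ion only -/
theorem inner_gr_en (b : ℝ) (n : ℕ) (x : Config3) (v : Pos3) :
    inner ℝ (gr (Sy.en b n) x) (jn p9 v (0 : Y2)) = 0 := by
  rw [← XL.fderiv_eq_gr]
  by_cases hd : DifferentiableAt ℝ (Sy.en b n) x
  · have h1 : HasDerivAt (fun t : ℝ => x + t • jn p9 v (0 : Y2)) (jn p9 v (0 : Y2)) 0 := by
      have := ((hasDerivAt_id (0 : ℝ)).smul_const (jn p9 v (0 : Y2))).const_add x
      simpa using this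
    have h2 : HasFDerivAt (Sy.en b n) (fderiv ℝ (Sy.en b n) x) (x + (0 : ℝ) • jn p9 v (0 : Y2)) := by
      simpa using hd.hasFDerivAt
    have h3 := h2.comp_hasDerivAt (0 : ℝ) h1
    have h4 : (Sy.en b n) ∘ (fun t : ℝ => x + t • jn p9 v (0 : Y2)) = fun _ => Sy.en b n x := by
      funext t
      have : pr2 p9 (x + t • jn p9 v (0 : Y2)) = pr2 p9 x := by
        rw [Sy.pr2_add, Sy.pr2_smul, pr2_jn, smul_zero, add_zero]
      simp only [Function.comp, Sy.en, Sy.w9, this]
    rw [h4] at h3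
    exact h3.unique (hasDerivAt_const _ _)
  · rw [fderiv_zero_of_not_differentiableAt hd]; rfl

/-- weighted channel function and its gradient -/
def fw (b : ℝ) (n : ℕ) (Y : Config3 → ℝ) (x : Config3) : ℝ := Sy.en b n x * Y x

def dfw (b : ℝ) (n : ℕ) (Y : Config3 → ℝ) (dY : Config3 → Config3) (x : Config3) : Config3 :=
  Sy.en b n x • dY x + Y x • gr (Sy.en b n) x

/-- bound used for multiplication by the truncated weight -/
def bn (b : ℝ) (n : ℕ) : ℝ := max (Real.exp (b * n)) (2 * b * Real.exp (b * n))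

theorem en_bd {b : ℝ} (hb : 0 ≤ b) (n : ℕ) (x : Config3) : |Sy.en b n x| ≤ bn b n := by
  rw [abs_of_pos (Sy.en_pos b n x)]
  exact (Sy.en_le hb n x).trans (le_max_left _ _)

theorem gr_en_bd {b : ℝ} (hb : 0 ≤ b) (n : ℕ) (x : Config3) : ‖gr (Sy.en b n) x‖ ≤ bn b n := by
  refine (Sy.gr_en_le hb n x).trans (le_trans ?_ (le_max_right _ _))
  exact mul_le_mul_of_nonneg_left (Sy.en_le hb n x) (by positivity)

theorem fw_H1 {b : ℝ} (hb : 0 ≤ b) (n : ℕ) {Y : Config3 → ℝ} {dY : Config3 → Config3}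
    (hY : H1 Y dY) : H1 (fw b n Y) (dfw b n Y dY) :=
  H1.mul_bdd (C := bn b n) hY (Sy.en_WG hb n) (en_bd hb n) (gr_en_bd hb n)

/-- squared logarithmic gradient of the weight -/
def lg (b : ℝ) (n : ℕ) (x : Config3) : ℝ := (‖gr (Sy.en b n) x‖ / Sy.en b n x) ^ 2

theorem lg_nonneg (b : ℝ) (n : ℕ) (x : Config3) : 0 ≤ lg b n x := sq_nonneg _

theorem lg_le {b : ℝ} (hb : 0 ≤ b) (n : ℕ) (x : Config3) : lg b n x ≤ 4 * b ^ 2 := by
  unfold lg
  have h1 : ‖gr (Sy.en b n) x‖ / Sy.en b n x ≤ 2 * b := by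
    rw [div_le_iff₀ (Sy.en_pos b n x)]
    exact Sy.gr_en_le hb n x
  have h2 : 0 ≤ ‖gr (Sy.en b n) x‖ / Sy.en b n x :=
    div_nonneg (norm_nonneg _) (Sy.en_pos b n x).le
  nlinarith

theorem measurable_lg (b : ℝ) (hb : 0 ≤ b) (n : ℕ) : Measurable (lg b n) := by
  unfold lg
  exact (((HL.measurable_gr _).norm).div (Sy.en_lip hb n).continuous.measurable).pow_const 2

/-- potential of the weighted equation -/
def Ww (D lam En b : ℝ) (n : ℕ) (x : Config3) : ℝ :=
  V9 D lam x - En - (1 / 2) * lg b n x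

/-- the weighted equation -/
theorem fw_identity {D lam En σ b : ℝ} (hb : 0 ≤ b) (n : ℕ) {Y : Config3 → ℝ}
    {dY : Config3 → Config3} (hY : Chan D lam En σ Y dY) {k : Pos3 → ℝ} {l : Pos3 → Pos3}
    (hK : H1 (fun x => k (pr1 p9 x) * fw b n Y x)
      (fun x => k (pr1 p9 x) • dfw b n Y dY x + fw b n Y x • jn p9 (l (pr1 p9 x)) 0)) :
    (1 / 2) * (∫ x, inner ℝ (dfw b n Y dY x)
        (k (pr1 p9 x) • dfw b n Y dY x + fw b n Y x • jn p9 (l (pr1 p9 x)) 0)) +
      ∫ x, Ww D lam En b n x * k (pr1 p9 x) * fw b n Y x ^ 2 = 0 := by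
  obtain ⟨C, hC⟩ := Sy.fb_V9 D lam
  have hf := fw_H1 hb n hY.h1
  obtain ⟨K9, hK9⟩ : ∃ K9 : Config3 → ℝ, K9 = fun x => k (pr1 p9 x) * fw b n Y x := ⟨_, rfl⟩
  obtain ⟨dK9, hdK9⟩ : ∃ dK9 : Config3 → Config3, dK9 = fun x =>
    k (pr1 p9 x) • dfw b n Y dY x + fw b n Y x • jn p9 (l (pr1 p9 x)) 0 := ⟨_, rfl⟩
  rw [← hK9, ← hdK9] at hK
  have hT : H1 (fun x => Sy.en b n x * K9 x)
      (fun x => Sy.en b n x • dK9 x + K9 x • gr (Sy.en b n) x) :=
    H1.mul_bdd (C := bn b n) hK (Sy.en_WG hb n) (en_bd hb n) (gr_en_bd hb n)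
  have h1 := hY.eq _ _ hT
  unfold q3 at h1
  -- pointwise algebra of the gradients
  have hpt : ∀ x, inner ℝ (dY x) (Sy.en b n x • dK9 x + K9 x • gr (Sy.en b n) x) =
      inner ℝ (dfw b n Y dY x) (dK9 x) - lg b n x * (K9 x * fw b n Y x) := by
    intro x
    have hv := Sy.en_pos b n x
    have e0 : Sy.en b n x • dY x = dfw b n Y dY x - Y x • gr (Sy.en b n) x := by
      unfold dfw; abel
    have e1 : inner ℝ (dY x) (Sy.en b n x • dK9 x) =
        inner ℝ (dfw b n Y dY x) (dK9 x) - Y x * inner ℝ (gr (Sy.en b n) x) (dK9 x) := by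
      rw [inner_smul_right, ← real_inner_smul_left, e0, inner_sub_left, real_inner_smul_left]
    have e2 : inner ℝ (gr (Sy.en b n) x) (dK9 x) =
        k (pr1 p9 x) * inner ℝ (gr (Sy.en b n) x) (dfw b n Y dY x) := by
      rw [hdK9]
      simp only
      rw [inner_add_right, inner_smul_right, inner_smul_right, inner_gr_en, mul_zero, add_zero]
    have e3 : inner ℝ (dY x) (K9 x • gr (Sy.en b n) x) =
        k (pr1 p9 x) * Y x * (inner ℝ (gr (Sy.en b n) x) (dfw b n Y dY x) -
          Y x * ‖gr (Sy.en b n) x‖ ^ 2) := by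
      have e4 : K9 x = (k (pr1 p9 x) * Y x) * Sy.en b n x := by
        rw [hK9]; simp only [fw]; ring
      rw [inner_smul_right, e4, mul_assoc, ← real_inner_smul_left, e0, inner_sub_left,
        real_inner_smul_left, real_inner_self_eq_norm_sq, real_inner_comm]
    have e5 : lg b n x * (K9 x * fw b n Y x) =
        k (pr1 p9 x) * Y x * (Y x * ‖gr (Sy.en b n) x‖ ^ 2) := by
      rw [hK9]; simp only [fw, lg]
      field_simp
    rw [inner_add_right, e1, e2, e3, e5]
    ring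
  have ii : Integrable (fun x => inner ℝ (dfw b n Y dY x) (dK9 x)) := Sy.int_inner hf.memg hK.memg
  have iE : Integrable (fun x => K9 x * fw b n Y x) := Sy.int_mul2 hK.memf hf.memf
  have iG : Integrable (fun x => lg b n x * (K9 x * fw b n Y x)) := by
    refine iE.bdd_mul (c := 4 * b ^ 2) (measurable_lg b hb n).aestronglyMeasurable
      (Eventually.of_forall fun x => ?_)
    rw [Real.norm_of_nonneg (lg_nonneg b n x)]
    exact lg_le hb n x
  have iV : Integrable (fun x => V9 D lam x * (K9 x * fw b n Y x)) := hC.int2 hK hf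
  have eA : ∫ x, inner ℝ (dY x) (Sy.en b n x • dK9 x + K9 x • gr (Sy.en b n) x) =
      (∫ x, inner ℝ (dfw b n Y dY x) (dK9 x)) - ∫ x, lg b n x * (K9 x * fw b n Y x) := by
    rw [← integral_sub ii iG]
    exact integral_congr_ae (Eventually.of_forall hpt)
  have eB : ∫ x, V9 D lam x * Y x * (Sy.en b n x * K9 x) =
      ∫ x, V9 D lam x * (K9 x * fw b n Y x) :=
    integral_congr_ae (Eventually.of_forall fun x => by simp only [fw]; ring)
  have eE : ∫ x, Y x * (Sy.en b n x * K9 x) = ∫ x, K9 x * fw b n Y x :=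
    integral_congr_ae (Eventually.of_forall fun x => by simp only [fw]; ring)
  have eF : ∫ x, Ww D lam En b n x * k (pr1 p9 x) * fw b n Y x ^ 2 =
      (∫ x, V9 D lam x * (K9 x * fw b n Y x)) - En * (∫ x, K9 x * fw b n Y x) -
        (1 / 2) * ∫ x, lg b n x * (K9 x * fw b n Y x) := by
    have iBE : Integrable (fun x => V9 D lam x * (K9 x * fw b n Y x) -
        En * (K9 x * fw b n Y x)) := iV.sub (iE.const_mul _)
    rw [← integral_const_mul, ← integral_const_mul, ← integral_sub iV (iE.const_mul _),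
      ← integral_sub iBE (iG.const_mul _)]
    refine integral_congr_ae (Eventually.of_forall fun x => ?_)
    simp only [hK9, Ww]; ring
  rw [eA, eB, eE] at h1
  have e6 : ∫ x, inner ℝ (dfw b n Y dY x)
        (k (pr1 p9 x) • dfw b n Y dY x + fw b n Y x • jn p9 (l (pr1 p9 x)) 0) =
      ∫ x, inner ℝ (dfw b n Y dY x) (dK9 x) := by rw [hdK9]
  rw [eF, e6]
  linarith

end BD
end Crest.Agent.R335
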