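import Crest.Agent.R335.SGa

/-!
Row 335 (S0521), part B, scalar lemmas (helper947): energy estimates for subsolutions on `ℝ³`.
-/

set_option autoImplicit false

open MeasureTheory Filter Set Crest.MathPhysics.ThreeBody
open scoped ENNReal Topology ContDiff

noncomputable section
namespace Crest.Agent.R335

local notation "E3" => EuclideanSpace ℝ (Fin 3)

/-- testing a subsolution with a nonnegative `H¹` function -/
theorem sub_test {D c : ℝ} {s f : E3 → ℝ} {ds : E3 → E3} (hs : H1 s ds)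
    (hf : MemLp f 2 volume)
    (h : ∀ φ : E3 → ℝ, Test univ φ → (∀ x, 0 ≤ φ x) →
      (1 / 2) * (∫ x, inner ℝ (ds x) (gr φ x)) + ∫ x, (c + V2 D x) * s x * φ x ≤
        ∫ x, f x * φ x)
    {w : E3 → ℝ} {l : E3 → E3} (hw : H1 w l) (hw0 : ∀ᵐ x, 0 ≤ w x) :
    (1 / 2) * (∫ x, inner ℝ (ds x) (l x)) + c * (∫ x, s x * w x) + ∫ x, V2 D x * (s x * w x) ≤
      ∫ x, f x * w x := by
  obtain ⟨hVs, hVs2⟩ := V2_memLp D hs
  have hq : MemLp (fun x => 2 * (c * s x + V2 D x * s x - f x)) 2 volume :=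
    (((hs.memf.const_mul c).add hVs).sub hf).const_mul 2
  have key : ∀ {φ : E3 → ℝ} {l : E3 → E3}, MemLp φ 2 volume → MemLp l 2 volume →
      (∫ x in univ, inner ℝ (ds x) (l x)) +
        (∫ x in univ, 2 * (c * s x + V2 D x * s x - f x) * φ x) =
      2 * ((1 / 2) * (∫ x, inner ℝ (ds x) (l x)) + c * (∫ x, s x * φ x) +
        (∫ x, V2 D x * (s x * φ x)) - ∫ x, f x * φ x) := by
    intro φ l hφ hl
    have i1 : Integrable (fun x => s x * φ x) := memLp_two_integrable_mul hs.memf hφ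
    have i2 : Integrable (fun x => V2 D x * s x * φ x) := memLp_two_integrable_mul hVs hφ
    have i2' : Integrable (fun x => V2 D x * (s x * φ x)) := by
      refine i2.congr (Eventually.of_forall fun x => ?_); ring
    have i3 : Integrable (fun x => f x * φ x) := memLp_two_integrable_mul hf hφ
    have e : ∫ x, 2 * (c * s x + V2 D x * s x - f x) * φ x =
        2 * (c * (∫ x, s x * φ x) + (∫ x, V2 D x * (s x * φ x)) - ∫ x, f x * φ x) := by
      have i4 : Integrable (fun x => c * (s x * φ x) + V2 D x * (s x * φ x)) :=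
        (i1.const_mul c).add i2'
      rw [← integral_const_mul, ← integral_add (i1.const_mul c) i2',
        ← integral_sub i4 i3, ← integral_const_mul]
      congr 1; funext x; ring
    rw [setIntegral_univ, setIntegral_univ, e]
    ring
  have h2 := test_extend (U := univ) isOpen_univ (q := fun x => 2 * (c * s x + V2 D x * s x - f x))
    (G := ds) (by rw [Measure.restrict_univ]; exact hq)
    (by rw [Measure.restrict_univ]; exact hs.memg) (fun φ hφ h0 => ?_) (H10.of_univ hw) hw0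
  · rw [key hw.memf hw.memg] at h2
    linarith
  · have hφ1 := H1.of_test hφ
    rw [key hφ1.memf hφ1.memg]
    have h3 := h φ hφ h0
    have i1 : Integrable (fun x => s x * φ x) := memLp_two_integrable_mul hs.memf hφ1.memf
    have i2 : Integrable (fun x => V2 D x * s x * φ x) := memLp_two_integrable_mul hVs hφ1.memf
    have i2' : Integrable (fun x => V2 D x * (s x * φ x)) := by
      refine i2.congr (Eventually.of_forall fun x => ?_); ring
    have e1 : ∫ x, (c + V2 D x) * s x * φ x =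
        c * (∫ x, s x * φ x) + ∫ x, V2 D x * (s x * φ x) := by
      rw [← integral_const_mul, ← integral_add (i1.const_mul c) i2']
      congr 1; funext x; ring
    rw [e1] at h3
    linarith

/-- energy inequality of a nonnegative subsolution -/
theorem sub_energy {D c : ℝ} {s f : E3 → ℝ} {ds : E3 → E3} (hs : H1 s ds)
    (hs0 : ∀ᵐ x, 0 ≤ s x) (hf : MemLp f 2 volume)
    (h : ∀ φ : E3 → ℝ, Test univ φ → (∀ x, 0 ≤ φ x) →
      (1 / 2) * (∫ x, inner ℝ (ds x) (gr φ x)) + ∫ x, (c + V2 D x) * s x * φ x ≤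
        ∫ x, f x * φ x) :
    Q2 D s ds + c * (∫ x, s x ^ 2) ≤ ∫ x, f x * s x := by
  have h1 := sub_test hs hf h hs hs0
  have e1 : ∫ x, inner ℝ (ds x) (ds x) = ∫ x, ‖ds x‖ ^ 2 := by
    congr 1; funext x; exact real_inner_self_eq_norm_sq _
  have e2 : ∫ x, s x * s x = ∫ x, s x ^ 2 := by congr 1; funext x; ring
  have e3 : ∫ x, V2 D x * (s x * s x) = ∫ x, V2 D x * s x ^ 2 := by
    congr 1; funext x; ring
  rw [e1, e2, e3] at h1
  unfold Q2
  linarith

/-- gradient bound of a nonnegative subsolution -/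
theorem sub_grad {D c : ℝ} (hc : 0 ≤ c) {s f : E3 → ℝ} {ds : E3 → E3} (hs : H1 s ds)
    (hs0 : ∀ᵐ x, 0 ≤ s x) (hf : MemLp f 2 volume)
    (h : ∀ φ : E3 → ℝ, Test univ φ → (∀ x, 0 ≤ φ x) →
      (1 / 2) * (∫ x, inner ℝ (ds x) (gr φ x)) + ∫ x, (c + V2 D x) * s x * φ x ≤
        ∫ x, f x * φ x) :
    √(∫ x, ‖ds x‖ ^ 2) ≤ 2 * √(∫ x, f x ^ 2) + 9 * √(∫ x, s x ^ 2) := by
  have h1 := sub_energy hs hs0 hf h
  have h2 := Q2_coercive D hs
  have h3 := integral_mul_le hf hs.memf
  have hs2 : 0 ≤ ∫ x, s x ^ 2 := integral_nonneg fun _ => sq_nonneg _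
  have hf2 : 0 ≤ ∫ x, f x ^ 2 := integral_nonneg fun _ => sq_nonneg _
  set A := √(∫ x, f x ^ 2) with hA
  set B := √(∫ x, s x ^ 2) with hB
  have hA0 : 0 ≤ A := Real.sqrt_nonneg _
  have hB0 : 0 ≤ B := Real.sqrt_nonneg _
  have hB2 : B ^ 2 = ∫ x, s x ^ 2 := Real.sq_sqrt hs2
  refine Real.sqrt_le_iff.2 ⟨by positivity, ?_⟩
  have h4 : ∫ x, ‖ds x‖ ^ 2 ≤ 4 * (A * B) + 64 * B ^ 2 := by
    have h5 := mul_nonneg hc hs2
    rw [hB2]
    linarith
  nlinarith [mul_nonneg hA0 hB0]

end Crest.Agent.R335
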