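import Crest.Agent.R335.BDecayA
import Crest.Agent.R335.SGb

/-!
Row 335 (S0521), part B, (3.3) (helper947): Kato inequality and decay of the weighted partial norms.
-/

set_option autoImplicit false
set_option linter.unusedSectionVars false

open MeasureTheory Filter Set Crest.MathPhysics.ThreeBody
open scoped ENNReal Topology ContDiff

noncomputable section
namespace Crest.Agent.R335
namespace BD

/-- partial norm of the weighted channel function -/
def Nw (b : ℝ) (n : ℕ) (Y : Config3 → ℝ) (X : Pos3) : ℝ := √(∫ ξ, fw b n Y (jn p9 X ξ) ^ 2)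

theorem Nw_nonneg (b : ℝ) (n : ℕ) (Y : Config3 → ℝ) (X : Pos3) : 0 ≤ Nw b n Y X :=
  Real.sqrt_nonneg _

theorem Nw_sq (b : ℝ) (n : ℕ) (Y : Config3 → ℝ) (X : Pos3) :
    Nw b n Y X ^ 2 = ∫ ξ, fw b n Y (jn p9 X ξ) ^ 2 :=
  Real.sq_sqrt (integral_nonneg fun _ => sq_nonneg _)

theorem wi_sxi (ξ : Y2) : wi (sxi ξ) = wi ξ := by
  unfold wi
  rw [el_sxi, el_sxi]
  simp only [Equiv.swap_apply_left, Equiv.swap_apply_right]
  ring

theorem fw_sxi {σ b : ℝ} {n : ℕ} {Y : Config3 → ℝ}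
    (hex : ∀ x, Y (permConfig (Equiv.swap 1 2) x) = σ * Y x) (X : Pos3) (ξ : Y2) :
    fw b n Y (jn p9 X (sxi ξ)) = σ * fw b n Y (jn p9 X ξ) := by
  unfold fw Sy.en
  rw [Sy.w9_jn, Sy.w9_jn, wi_sxi, jn_sxi, hex]
  ring

/-- Kato inequality of the weighted partial norm -/
theorem kato_w {D lam En σ b e : ℝ} (hb : 0 ≤ b) (n : ℕ) (hl : 0 ≤ lam) {Y : Config3 → ℝ}
    {dY : Config3 → Config3} (hY : Chan D lam En σ Y dY)
    (hlow : ∀ k dk, H1 k dk → (∀ ξ, k (sxi ξ) = σ * k ξ) →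
      e * (∫ ξ, k ξ ^ 2) ≤ k2 D lam k dk k dk) :
    ∃ m, H1 (Nw b n Y) m ∧ (∀ φ : Pos3 → ℝ, Test univ φ → (∀ x, 0 ≤ φ x) →
      (1 / 2) * (∫ x, inner ℝ (m x) (gr φ x)) +
        ∫ x, (e - En - 2 * b ^ 2 + V2 D x) * Nw b n Y x * φ x ≤ 0) := by
  have hf := fw_H1 hb n hY.h1
  obtain ⟨m, hm, -⟩ := H1.pnorm (S := Unit) p9 (f := fun _ => fw b n Y)
    (g := fun _ => dfw b n Y dY) (fun _ => hf)
  have hN : (fun X => √(∑ _s : Unit, ∫ ξ, fw b n Y (jn p9 X ξ) ^ 2)) = Nw b n Y := by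
    funext X; simp [Nw]
  rw [hN] at hm
  obtain ⟨C, hC⟩ := Sy.fb_V9 D lam
  obtain ⟨Ci, hCi⟩ := Sy.fb_Vion D lam
  have iE : Integrable (fun x => fw b n Y x * fw b n Y x) := Sy.int_mul2 hf.memf hf.memf
  have iV : Integrable (fun x => V9 D lam x * (fw b n Y x * fw b n Y x)) := hC.int2 hf hf
  have iG : Integrable (fun x => lg b n x * (fw b n Y x * fw b n Y x)) := by
    refine iE.bdd_mul (c := 4 * b ^ 2) (measurable_lg b hb n).aestronglyMeasurable
      (Eventually.of_forall fun x => ?_)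
    rw [Real.norm_of_nonneg (lg_nonneg b n x)]
    exact lg_le hb n x
  have iW : Integrable (fun x => Ww D lam En b n x * fw b n Y x ^ 2) := by
    refine ((iV.sub (iE.const_mul En)).sub (iG.const_mul (1 / 2))).congr
      (Eventually.of_forall fun x => ?_)
    simp only [Pi.sub_apply, Ww]; ring
  refine ⟨m, hm, fun φ hφ h0 => ?_⟩
  have hVN : Integrable (fun x => V2 D x * Nw b n Y x * φ x) := by
    have := V2_integrable D hm (H1.of_test hφ).memf
    refine this.congr (Eventually.of_forall fun x => ?_); ring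
  refine kato_pnorm (S := Unit) p9 (f := fun _ => fw b n Y) (g := fun _ => dfw b n Y dY)
    (fun _ => hf) (N := Nw b n Y) (fun X => by simp [Nw]) hm (W := fun _ => Ww D lam En b n)
    (fun _ => iW) isOpen_univ (fun k l C' hkl hkC hK hk0 => ?_)
    (a := fun x => e - En - 2 * b ^ 2 + V2 D x) ?_ ?_ hφ h0
  · have := fw_identity hb n hY (hK ())
    simpa using this
  · -- local integrability
    have h1 : MemLp (fun x => V2 D x * Nw b n Y x) 2 volume := (V2_memLp D hm).1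
    have h2 : MemLp (fun x => (e - En - 2 * b ^ 2) * Nw b n Y x + V2 D x * Nw b n Y x) 2 volume :=
      (hm.memf.const_mul _).add h1
    have h3 := h2.locallyIntegrable (by norm_num)
    refine (locallyIntegrableOn_univ.2 h3).congr (Eventually.of_forall fun x => ?_)
    simp only; ring
  · rw [Measure.restrict_univ]
    filter_upwards [H1.slice_right p9 hf] with X hX
    simp only [Fintype.sum_unique]
    rw [Nw_sq]
    have hl1 := hlow _ _ hX (fun ξ => fw_sxi hY.ex X ξ)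
    unfold k2 at hl1
    have a0 : Integrable (fun ξ => fw b n Y (jn p9 X ξ) * fw b n Y (jn p9 X ξ)) :=
      Sy.int_mul2 hX.memf hX.memf
    have a1 : Integrable (fun ξ => Vion D lam ξ * (fw b n Y (jn p9 X ξ) * fw b n Y (jn p9 X ξ))) :=
      hCi.int2 hX hX
    have a2 : Integrable (fun ξ => WX X ξ * fw b n Y (jn p9 X ξ) * fw b n Y (jn p9 X ξ)) :=
      Sy.int_mul2 (Sy.memLp_WX hX X) hX.memf
    have a3 : Integrable (fun ξ => lg b n (jn p9 X ξ) *
        (fw b n Y (jn p9 X ξ) * fw b n Y (jn p9 X ξ))) := by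
      refine a0.bdd_mul (c := 4 * b ^ 2) ?_ (Eventually.of_forall fun ξ => ?_)
      · refine ((measurable_lg b hb n).comp ?_).aestronglyMeasurable
        exact ((Sy.continuous_jn p9).comp (by fun_prop : Continuous fun ξ : Y2 => (X, ξ))).measurable
      · rw [Real.norm_of_nonneg (lg_nonneg b n _)]
        exact lg_le hb n _
    have e0 : ∫ ξ, fw b n Y (jn p9 X ξ) ^ 2 =
        ∫ ξ, fw b n Y (jn p9 X ξ) * fw b n Y (jn p9 X ξ) := by
      refine integral_congr_ae (Eventually.of_forall fun ξ => ?_); simp only; ring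
    have e1 : ∫ ξ, Ww D lam En b n (jn p9 X ξ) * fw b n Y (jn p9 X ξ) ^ 2 =
        (V2 D X - En) * (∫ ξ, fw b n Y (jn p9 X ξ) * fw b n Y (jn p9 X ξ)) +
        (∫ ξ, Vion D lam ξ * (fw b n Y (jn p9 X ξ) * fw b n Y (jn p9 X ξ))) +
        lam * (∫ ξ, WX X ξ * fw b n Y (jn p9 X ξ) * fw b n Y (jn p9 X ξ)) -
        (1 / 2) * ∫ ξ, lg b n (jn p9 X ξ) * (fw b n Y (jn p9 X ξ) * fw b n Y (jn p9 X ξ)) := by
      have b1 : Integrable (fun ξ => (V2 D X - En) *
          (fw b n Y (jn p9 X ξ) * fw b n Y (jn p9 X ξ)) +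
          Vion D lam ξ * (fw b n Y (jn p9 X ξ) * fw b n Y (jn p9 X ξ))) :=
        (a0.const_mul _).add a1
      have b2 : Integrable (fun ξ => (V2 D X - En) *
          (fw b n Y (jn p9 X ξ) * fw b n Y (jn p9 X ξ)) +
          Vion D lam ξ * (fw b n Y (jn p9 X ξ) * fw b n Y (jn p9 X ξ)) +
          lam * (WX X ξ * fw b n Y (jn p9 X ξ) * fw b n Y (jn p9 X ξ))) :=
        b1.add (a2.const_mul _)
      rw [← integral_const_mul, ← integral_const_mul, ← integral_const_mul,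
        ← integral_add (a0.const_mul _) a1, ← integral_add b1 (a2.const_mul _),
        ← integral_sub b2 (a3.const_mul _)]
      refine integral_congr_ae (Eventually.of_forall fun ξ => ?_)
      simp only [Ww]
      rw [Sy.V9_split, pr1_jn, pr2_jn]
      ring
    have n2 : 0 ≤ lam * ∫ ξ, WX X ξ * fw b n Y (jn p9 X ξ) * fw b n Y (jn p9 X ξ) := by
      refine mul_nonneg hl (integral_nonneg fun ξ => ?_)
      have : 0 ≤ WX X ξ := by unfold WX; positivity
      simp only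
      rw [mul_assoc]
      exact mul_nonneg this (mul_self_nonneg _)
    have n3 : ∫ ξ, lg b n (jn p9 X ξ) * (fw b n Y (jn p9 X ξ) * fw b n Y (jn p9 X ξ)) ≤
        4 * b ^ 2 * ∫ ξ, fw b n Y (jn p9 X ξ) * fw b n Y (jn p9 X ξ) := by
      rw [← integral_const_mul]
      refine integral_mono a3 (a0.const_mul _) fun ξ => ?_
      exact mul_le_mul_of_nonneg_right (lg_le hb n _) (mul_self_nonneg _)
    have e2 : ∫ ξ, inner ℝ (pr2 p9 (dfw b n Y dY (jn p9 X ξ))) (pr2 p9 (dfw b n Y dY (jn p9 X ξ))) =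
        ∫ ξ, ‖pr2 p9 (dfw b n Y dY (jn p9 X ξ))‖ ^ 2 :=
      integral_congr_ae (Eventually.of_forall fun ξ => real_inner_self_eq_norm_sq _)
    have e3 : ∫ ξ, Vion D lam ξ * fw b n Y (jn p9 X ξ) * fw b n Y (jn p9 X ξ) =
        ∫ ξ, Vion D lam ξ * (fw b n Y (jn p9 X ξ) * fw b n Y (jn p9 X ξ)) :=
      integral_congr_ae (Eventually.of_forall fun ξ => by simp only; ring)
    rw [e2, e3, e0] at hl1
    rw [e0, e1]
    linarith

end BD
end Crest.Agent.R335
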