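import Crest.Agent.R335.HDefs
import Crest.Prelude.Def_ThreeElectron

/-!
Row 335 (S0521): definitions for the Kohn-Sham side (scaled or unscaled, everything here is
one-body on `Pos3` except `SlaterPair`).

`s`  = square root of the density,  `u = U/√2`, `w` : the pair, `U² + w² = s²`.
`J U gU w gw = w ∇U - U ∇w = s² ∇η`,  `U = s sin η`, `w = s cos η`.
-/

set_option autoImplicit false

open MeasureTheory Filter Set Crest.MathPhysics.ThreeBody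
open scoped ENNReal Topology ContDiff

noncomputable section
namespace Crest.Agent.R335

/-- reflection `z ↦ -z` of `Pos3` -/
def rz : Pos3 ≃ₗᵢ[ℝ] Pos3 :=
  LinearIsometryEquiv.piLpCongrRight 2 fun i : Fin 3 =>
    if i = 2 then LinearIsometryEquiv.neg ℝ else LinearIsometryEquiv.refl ℝ ℝ

theorem rz_apply (x : Pos3) (i : Fin 3) : rz x i = if i = 2 then - x i else x i := by
  unfold rz
  simp only [LinearIsometryEquiv.piLpCongrRight_apply]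
  split_ifs with h <;> simp

/-- compactly supported bounded `H¹` test functions -/
structure BT (φ : Pos3 → ℝ) (g : Pos3 → Pos3) : Prop where
  h1 : H1 φ g
  bdd : ∃ C : ℝ, ∀ᵐ x, |φ x| ≤ C
  cpt : ∃ R : ℝ, ∀ᵐ x, R ≤ ‖x‖ → φ x = 0

/-- square root of the density -/
structure Amp (s : Pos3 → ℝ) (gs : Pos3 → Pos3) : Prop where
  h1 : H1 s gs
  cont : Continuous s
  pos : ∀ x, 0 < s x
  bdd : ∃ C : ℝ, ∀ x, s x ≤ C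
  even : ∀ x, s (rz x) = s x

/-- `w ∇U - U ∇w` -/
def J (U : Pos3 → ℝ) (gU : Pos3 → Pos3) (w : Pos3 → ℝ) (gw : Pos3 → Pos3) (x : Pos3) : Pos3 :=
  w x • gU x - U x • gw x

/-- admissible pairs of amplitude `s` : `U` even, `w` odd, `U² + w² = s²`, norms `2` and `1` -/
structure PairAdm (s : Pos3 → ℝ) (U : Pos3 → ℝ) (gU : Pos3 → Pos3)
    (w : Pos3 → ℝ) (gw : Pos3 → Pos3) : Prop where
  hU : H1 U gU
  hw : H1 w gw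
  sq : ∀ x, U x ^ 2 + w x ^ 2 = s x ^ 2
  evenU : ∀ x, U (rz x) = U x
  oddw : ∀ x, w (rz x) = - w x
  nU : ∫ x, U x ^ 2 = 2
  nw : ∫ x, w x ^ 2 = 1

/-- the (sign-normalised) energy-minimising pair with its Euler-Lagrange equation
`div (s² ∇η) = 2 ω U w`. -/
structure Pair (s : Pos3 → ℝ) (U : Pos3 → ℝ) (gU : Pos3 → Pos3)
    (w : Pos3 → ℝ) (gw : Pos3 → Pos3) (om : ℝ) : Prop where
  adm : PairAdm s U gU w gw
  U0 : ∀ x, 0 ≤ U x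
  w0 : ∀ x : Pos3, 0 < x 2 → 0 ≤ w x
  om_pos : 0 < om
  nd : ∃ ψ gψ, BT ψ gψ ∧ ∫ x, U x * w x * ψ x ≠ 0
  el : ∀ ψ gψ, BT ψ gψ →
    ∫ x, inner ℝ (J U gU w gw x) (gψ x) = - (2 * om) * ∫ x, U x * w x * ψ x
  min : ∀ U' gU' w' gw', PairAdm s U' gU' w' gw' →
    (∫ x, ‖gU x‖ ^ 2) + (∫ x, ‖gw x‖ ^ 2) ≤ (∫ x, ‖gU' x‖ ^ 2) + ∫ x, ‖gw' x‖ ^ 2

/-- one-body spectral inequality of the pair (`2 ω ≤` second level of `2(h_v* - e₁)`) for the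
function `f`; `∇(f/s)` is written out. The form is
`∫ s²|∇(f/s)|² - ∫ |∇η|² f² + 2ω ∫ cos²η f² ≥ 2ω (∫ f² - ⟨u,f⟩²)`. -/
def SPIneq (s : Pos3 → ℝ) (gs : Pos3 → Pos3) (U : Pos3 → ℝ) (gU : Pos3 → Pos3)
    (w : Pos3 → ℝ) (gw : Pos3 → Pos3) (om : ℝ) (f : Pos3 → ℝ) (g : Pos3 → Pos3) : Prop :=
  (∫⁻ x, ENNReal.ofReal (‖J U gU w gw x‖ ^ 2 / s x ^ 4 * f x ^ 2)) +
      ENNReal.ofReal (2 * om * ∫ x, U x ^ 2 / s x ^ 2 * f x ^ 2)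
    ≤ (∫⁻ x, ENNReal.ofReal (‖g x - (f x / s x) • gs x‖ ^ 2)) +
      ENNReal.ofReal (2 * om * ((1 / 2) * (∫ x, U x * f x) ^ 2))

/-- weak Kato inequality near infinity: `Δs ≥ (κ² - δ) s` for `‖x‖ > R(δ)` -/
def KatoInf (s : Pos3 → ℝ) (gs : Pos3 → Pos3) (κ : ℝ) : Prop :=
  ∀ δ : ℝ, 0 < δ → ∃ R : ℝ, ∀ φ gφ, BT φ gφ → (∀ᵐ x, 0 ≤ φ x) →
    (∀ᵐ x, ‖x‖ ≤ R → φ x = 0) →
    ∫ x, inner ℝ (gs x) (gφ x) ≤ - (κ ^ 2 - δ) * ∫ x, s x * φ x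

/-- lower bound of the density on the plane `z = 0` -/
def PlaneLow (s : Pos3 → ℝ) (κ : ℝ) : Prop :=
  ∀ ε : ℝ, 0 < ε → ∃ R : ℝ, ∀ x : Pos3, x 2 = 0 → R ≤ ‖x‖ →
    Real.exp (-(κ + ε) * ‖x‖) ≤ s x

/-- `U/s → 0` off the plane, at infinity -/
def SmallU (s U : Pos3 → ℝ) : Prop :=
  ∀ h : ℝ, 0 < h → ∀ ε : ℝ, 0 < ε → ∃ R : ℝ, ∀ᵐ x : Pos3, h ≤ |x 2| → R ≤ ‖x‖ →
    U x ≤ ε * s x

/-- weak one-body Schrödinger equation `-½ Δf + (v - e) f = 0` -/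
def WeakEq (v : Pos3 → ℝ) (e : ℝ) (f : Pos3 → ℝ) (g : Pos3 → Pos3) : Prop :=
  ∀ φ : Pos3 → ℝ, Test univ φ →
    (1 / 2) * (∫ x, inner ℝ (g x) (gr φ x)) + ∫ x, (v x - e) * f x * φ x = 0

/-- scaled wave function `c^{9/2} Ψ(c x)` -/
def scaleW (c : ℝ) (Ψ : Wave3) : Wave3 :=
  fun σ x => ((c ^ ((9 : ℝ) / 2) : ℝ) : ℂ) * Ψ σ (c • x)

end Crest.Agent.R335

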