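import Crest.Agent.R335.HDefs2
import Crest.Agent.R335.KDefs

/-!
Row 335 (S0521), ONE-BODY block, definitions (helper733).

Scaled problem: nuclei at `±(0,0,D)`, charge one, `h = -½Δ - 1/|x-d| - 1/|x+d|`.
-/

set_option autoImplicit false

open MeasureTheory Filter Set Crest.MathPhysics.ThreeBody
open scoped ENNReal Topology ContDiff

noncomputable section
namespace Crest.Agent.R335

/-- the point `(0,0,D)` -/
def nuc (D : ℝ) : Pos3 := EuclideanSpace.single 2 D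

/-- two-centre attraction `-1/|x-d| - 1/|x+d|` -/
def V2 (D : ℝ) (x : Pos3) : ℝ := -(1 / ‖x - nuc D‖) - 1 / ‖x - nuc (-D)‖

/-- hydrogen ground state centred at `a` -/
def hyd (a x : Pos3) : ℝ := Real.exp (-‖x - a‖) / √Real.pi

/-- its gradient -/
def dhyd (a x : Pos3) : Pos3 := (-(hyd a x / ‖x - a‖)) • (x - a)

/-- bilinear form of `h = -½Δ + V2` -/
def B2 (D : ℝ) (f : Pos3 → ℝ) (g : Pos3 → Pos3) (k : Pos3 → ℝ) (l : Pos3 → Pos3) : ℝ :=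
  (1 / 2) * (∫ x, inner ℝ (g x) (l x)) + ∫ x, V2 D x * (f x * k x)

/-- quadratic form of `h = -½Δ + V2` -/
def Q2 (D : ℝ) (f : Pos3 → ℝ) (g : Pos3 → Pos3) : ℝ :=
  (1 / 2) * (∫ x, ‖g x‖ ^ 2) + ∫ x, V2 D x * f x ^ 2

/-- The even and odd ground states `g`, `u` of `h`, with the spectral gap above them. -/
structure OneBody (D : ℝ) (g u : Pos3 → ℝ) (dg du : Pos3 → Pos3) (eg eu e3 : ℝ) : Prop where
  hg : H1 g dg
  hu : H1 u du
  cg : Continuous g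
  cu : Continuous u
  ng : ∫ x, g x ^ 2 = 1
  nu : ∫ x, u x ^ 2 = 1
  g_even : ∀ x, g (rz x) = g x
  u_odd : ∀ x, u (rz x) = - u x
  g_pos : ∀ x, 0 < g x
  u_pos : ∀ x : Pos3, 0 < x 2 → 0 < u x
  g_rot : ∀ L : Pos3 ≃ₗᵢ[ℝ] Pos3, L (nuc 1) = nuc 1 → ∀ x, g (L x) = g x
  u_rot : ∀ L : Pos3 ≃ₗᵢ[ℝ] Pos3, L (nuc 1) = nuc 1 → ∀ x, u (L x) = u x
  g_zero : Tendsto g (cocompact Pos3) (𝓝 0)
  u_zero : Tendsto u (cocompact Pos3) (𝓝 0)
  g_eq : ∀ f l, H1 f l → B2 D g dg f l = eg * ∫ x, g x * f x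
  u_eq : ∀ f l, H1 f l → B2 D u du f l = eu * ∫ x, u x * f x
  gap : ∀ f l, H1 f l → eg * (∫ x, g x * f x) ^ 2 + eu * (∫ x, u x * f x) ^ 2 +
    e3 * ((∫ x, f x ^ 2) - (∫ x, g x * f x) ^ 2 - (∫ x, u x * f x) ^ 2) ≤ Q2 D f l
  eg_lt : eg < eu
  eu_lt : eu < e3
  /-- `g = Y * (2|V|g)`, `Y` the Yukawa kernel of `-Δ + k²`, `k² = -2 e_g` -/
  g_rep : ∀ x, g x = YukC √(-2 * eg) (fun y => -2 * V2 D y * g y) x
  u_rep : ∀ x, u x = YukC √(-2 * eu) (fun y => -2 * V2 D y * u y) x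

end Crest.Agent.R335
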