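import Crest.Agent.R335.HDefs2
import Crest.Agent.R335.KDefs
import Crest.Agent.R335.OBDefs

/-!
Row 335 (S0521): definitions for the INTERACTING side (part B, notes 10381-10383 of helper783).

Scaled units: nuclei of charge one at `±nuc D`, `h = -½Δ + V2 D` (OBDefs), three electrons with repulsion
`lam / |x_i - x_j|`.  `ℝ⁹ = ℝ³ × ℝ⁶` is the splitting `x = (X, ξ)`, `X` = electron `0`,
`ξ` = electrons `1, 2` ("the ion"), realised by `jn p9`, `pr1 p9`, `pr2 p9`.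
-/

set_option autoImplicit false
set_option linter.unusedSectionVars false

open MeasureTheory Filter Set Crest.MathPhysics.ThreeBody
open scoped ENNReal Topology ContDiff

noncomputable section
namespace Crest.Agent.R335

/-- two-electron configurations -/
abbrev Y2 := EuclideanSpace ℝ (Fin 2 × Fin 3)

/-- position of the electron `j` of the ion -/
def el (j : Fin 2) (ξ : Y2) : Pos3 := WithLp.toLp 2 fun c => ξ (j, c)

/-- splitting of the nine coordinates: electron `0` / electrons `1,2` -/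
def p9 : Fin 3 × Fin 3 ≃ Fin 3 ⊕ (Fin 2 × Fin 3) where
  toFun ic := Fin.cases (Sum.inl ic.2) (fun j => Sum.inr (j, ic.2)) ic.1
  invFun := Sum.elim (fun c => (0, c)) (fun jc => (jc.1.succ, jc.2))
  left_inv := by
    rintro ⟨i, c⟩
    refine Fin.cases ?_ (fun j => ?_) i <;> simp
  right_inv := by
    rintro (c | ⟨j, c⟩) <;> simp

/-- splitting of the six coordinates: electron `0` / electron `1` of the ion -/
def p6 : Fin 2 × Fin 3 ≃ Fin 3 ⊕ Fin 3 where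
  toFun ic := Fin.cases (Sum.inl ic.2) (fun _ => Sum.inr ic.2) ic.1
  invFun := Sum.elim (fun c => (0, c)) (fun c => (1, c))
  left_inv := by
    rintro ⟨i, c⟩
    fin_cases i <;> rfl
  right_inv := by
    rintro (c | c) <;> rfl

/-! ### symmetries -/

/-- reflection of both electrons of the ion in the plane `z = 0` -/
def rxi : Y2 ≃ₗᵢ[ℝ] Y2 :=
  LinearIsometryEquiv.piLpCongrRight 2 fun jc : Fin 2 × Fin 3 =>
    if jc.2 = 2 then LinearIsometryEquiv.neg ℝ else LinearIsometryEquiv.refl ℝ ℝ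

/-- exchange of the two electrons of the ion -/
def sxi : Y2 ≃ₗᵢ[ℝ] Y2 :=
  LinearIsometryEquiv.piLpCongrLeft 2 ℝ ℝ (Equiv.prodCongr (Equiv.swap 0 1) (Equiv.refl _))

/-- reflection of all three electrons -/
def r9 : Config3 ≃ₗᵢ[ℝ] Config3 :=
  LinearIsometryEquiv.piLpCongrRight 2 fun jc : Fin 3 × Fin 3 =>
    if jc.2 = 2 then LinearIsometryEquiv.neg ℝ else LinearIsometryEquiv.refl ℝ ℝ

/-- reflection of the electrons `1, 2` only -/
def r12 : Config3 ≃ₗᵢ[ℝ] Config3 :=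
  LinearIsometryEquiv.piLpCongrRight 2 fun jc : Fin 3 × Fin 3 =>
    if jc.2 = 2 ∧ jc.1 ≠ 0 then LinearIsometryEquiv.neg ℝ else LinearIsometryEquiv.refl ℝ ℝ

theorem rxi_apply (ξ : Y2) (jc : Fin 2 × Fin 3) :
    rxi ξ jc = if jc.2 = 2 then - ξ jc else ξ jc := by
  unfold rxi
  simp only [LinearIsometryEquiv.piLpCongrRight_apply]
  split_ifs with h <;> simp

theorem r9_apply (x : Config3) (jc : Fin 3 × Fin 3) :
    r9 x jc = if jc.2 = 2 then - x jc else x jc := by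
  unfold r9
  simp only [LinearIsometryEquiv.piLpCongrRight_apply]
  split_ifs with h <;> simp

theorem r12_apply (x : Config3) (jc : Fin 3 × Fin 3) :
    r12 x jc = if jc.2 = 2 ∧ jc.1 ≠ 0 then - x jc else x jc := by
  unfold r12
  simp only [LinearIsometryEquiv.piLpCongrRight_apply]
  split_ifs with h <;> simp

theorem sxi_apply (ξ : Y2) (jc : Fin 2 × Fin 3) :
    sxi ξ jc = ξ (Equiv.swap 0 1 jc.1, jc.2) := by
  unfold sxi
  rw [LinearIsometryEquiv.piLpCongrLeft_apply]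
  simp [Equiv.piCongrLeft'_apply, Equiv.prodCongr]
  rfl

/-! ### potentials -/

/-- repulsion between the electron at `X` and the ion -/
def WX (X : Pos3) (ξ : Y2) : ℝ := 1 / ‖X - el 0 ξ‖ + 1 / ‖X - el 1 ξ‖

/-- part of `WX` even under the ion parity -/
def Wp (X : Pos3) (ξ : Y2) : ℝ := (WX X ξ + WX (rz X) ξ) / 2

/-- part of `WX` odd under the ion parity -/
def Wm (X : Pos3) (ξ : Y2) : ℝ := (WX X ξ - WX (rz X) ξ) / 2

/-- potential of the ion -/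
def Vion (D lam : ℝ) (ξ : Y2) : ℝ :=
  V2 D (el 0 ξ) + V2 D (el 1 ξ) + lam / ‖el 0 ξ - el 1 ξ‖

/-- total scaled potential of the three electrons -/
def V9 (D lam : ℝ) (x : Config3) : ℝ :=
  V2 D (elPos 0 x) + V2 D (elPos 1 x) + V2 D (elPos 2 x) +
    lam * (1 / ‖elPos 0 x - elPos 1 x‖ + 1 / ‖elPos 0 x - elPos 2 x‖ +
      1 / ‖elPos 1 x - elPos 2 x‖)

/-! ### forms -/

/-- bilinear form of the ion -/
def k2 (D lam : ℝ) (f : Y2 → ℝ) (df : Y2 → Y2) (k : Y2 → ℝ) (dk : Y2 → Y2) : ℝ :=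
  (1 / 2) * (∫ x, inner ℝ (df x) (dk x)) + ∫ x, Vion D lam x * f x * k x

/-- bilinear form of the three-electron system -/
def q3 (D lam : ℝ) (f : Config3 → ℝ) (df : Config3 → Config3) (k : Config3 → ℝ)
    (dk : Config3 → Config3) : ℝ :=
  (1 / 2) * (∫ x, inner ℝ (df x) (dk x)) + ∫ x, V9 D lam x * f x * k x

/-! ### ion channels -/

/-- channel of the ion with exchange sign `σ`, parity `π`, level `e`, vector `Φ` (of norm one, or
zero) and gap: `k ≥ e + gap (1 - P_Φ)` on the sector `(σ, π)`. -/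
structure IonCh (D lam σ π e gap : ℝ) (Φ : Y2 → ℝ) (dΦ : Y2 → Y2) : Prop where
  h1 : H1 Φ dΦ
  nrm : (∫ ξ, Φ ξ ^ 2 = 1) ∨ (∀ ξ, Φ ξ = 0)
  ex : ∀ ξ, Φ (sxi ξ) = σ * Φ ξ
  par : ∀ ξ, Φ (rxi ξ) = π * Φ ξ
  eq : ∀ k dk, H1 k dk → k2 D lam Φ dΦ k dk = e * ∫ ξ, Φ ξ * k ξ
  spec : ∀ k dk, H1 k dk → (∀ᵐ ξ, k (sxi ξ) = σ * k ξ) → (∀ᵐ ξ, k (rxi ξ) = π * k ξ) →
    e * (∫ ξ, k ξ ^ 2) + gap * ((∫ ξ, k ξ ^ 2) - (∫ ξ, Φ ξ * k ξ) ^ 2) ≤ k2 D lam k dk k dk

/-! ### three-body data -/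

/-- the ground state of the sector `S_z = 1/2` : `ψ(x₀,x₁,x₂)`, electrons `0,1` up, `2` down -/
structure ThreeBody (D lam E : ℝ) (ψ : Config3 → ℝ) (dψ : Config3 → Config3) : Prop where
  h1 : H1 ψ dψ
  nrm : ∫ x, ψ x ^ 2 = 1
  anti : ∀ x, ψ (permConfig (Equiv.swap 0 1) x) = - ψ x
  odd : ∀ x, ψ (r9 x) = - ψ x
  eq : ∀ k dk, H1 k dk → q3 D lam ψ dψ k dk = E * ∫ x, ψ x * k x

/-! ### channel functions on `ℝ⁹ = (X, ξ)` -/

/-- a solution of the three-body equation, of exchange sign `σ` in the electrons `1,2`, odd under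
the total reflection -/
structure Chan (D lam E σ : ℝ) (Y : Config3 → ℝ) (dY : Config3 → Config3) : Prop where
  h1 : H1 Y dY
  ex : ∀ x, Y (permConfig (Equiv.swap 1 2) x) = σ * Y x
  odd : ∀ x, Y (r9 x) = - Y x
  eq : ∀ k dk, H1 k dk → q3 D lam Y dY k dk = E * ∫ x, Y x * k x

/-- the singlet component of `ψ(X, ·, ·)` -/
def GS (ψ : Config3 → ℝ) (x : Config3) : ℝ := (ψ x + ψ (permConfig (Equiv.swap 1 2) x)) / 2

/-- the triplet component of `ψ(X, ·, ·)` -/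
def GT (ψ : Config3 → ℝ) (x : Config3) : ℝ := (ψ x - ψ (permConfig (Equiv.swap 1 2) x)) / 2

/-- `ψ(·, ·, X)` as function of `(X, ξ)` : `permConfig σ x` with `σ 0 = 1, σ 1 = 2, σ 2 = 0` -/
def GB (ψ : Config3 → ℝ) (x : Config3) : ℝ := ψ (permConfig (finRotate 3) x)

/-- component of ion parity `π` -/
def Yp (π : ℝ) (Y : Config3 → ℝ) (x : Config3) : ℝ := (Y x + π * Y (r12 x)) / 2

/-- projection `⟨Φ, Y(X)⟩` -/
def cF (Φ : Y2 → ℝ) (Y : Config3 → ℝ) (X : Pos3) : ℝ := ∫ ξ, Φ ξ * Y (jn p9 X ξ)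

/-- remainder `Y_π - ⟨Φ, Y(X)⟩ Φ` -/
def cR (π : ℝ) (Φ : Y2 → ℝ) (Y : Config3 → ℝ) (x : Config3) : ℝ :=
  Yp π Y x - cF Φ Y (pr1 p9 x) * Φ (pr2 p9 x)

/-! ### weights -/

/-- japanese bracket -/
def jb (y : Pos3) : ℝ := √(1 + ‖y‖ ^ 2)

/-- weight of the ion -/
def wi (ξ : Y2) : ℝ := jb (el 0 ξ) + jb (el 1 ξ)

/-- weighted norm of the slice, `|e^{b w} Y(X)|` -/
def wN (b : ℝ) (Y : Config3 → ℝ) (X : Pos3) : ℝ :=
  √(∫ ξ, (Real.exp (b * wi ξ) * Y (jn p9 X ξ)) ^ 2)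

end Crest.Agent.R335
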