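import Crest.Agent.R335.BFarC

/-!
# Row 335 (S0521): module BFar

`far_coupling` and `plane_coupling`.
-/

set_option autoImplicit false
set_option linter.unusedVariables false
set_option linter.unusedSectionVars false

open MeasureTheory Filter Set Crest.MathPhysics.ThreeBody
open scoped ENNReal Topology ContDiff NNReal

noncomputable section
namespace Crest.Agent.R335
namespace BF

theorem int_le {α : Type*} [MeasurableSpace α] {μ : Measure α} {f : α → ℝ} (hf : ∀ x, 0 ≤ f x)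
    {c : ℝ} (hc : 0 ≤ c) (h : ∫⁻ x, ENNReal.ofReal (f x) ∂μ ≤ ENNReal.ofReal c) :
    ∫ x, f x ∂μ ≤ c := by
  by_cases hi : Integrable f μ
  · rw [← ofReal_integral_eq_lintegral_ofReal hi (ae_of_all _ hf)] at h
    exact (ENNReal.ofReal_le_ofReal_iff hc).1 h
  · rw [integral_undef hi]
    exact hc

theorem wN_lint {a : ℝ} {Y : Config3 → ℝ} {q : Config3 → ℝ≥0∞}
    (hqY : ∀ᵐ x, q x = ENNReal.ofReal (Y x ^ 2))
    (h : MemLp (fun x => Real.exp (2 * a * (jb (elPos 1 x) + jb (elPos 2 x))) * Y x) 2 volume) :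
    ∀ᵐ X : Pos3, ∫⁻ ξ, ww (2 * a) ξ * q (jn p9 X ξ) = ENNReal.ofReal (wN (2 * a) Y X ^ 2) := by
  filter_upwards [MemLp.slice_right p9 h, ae_jn p9 hqY] with X hX hqX
  unfold wN
  rw [Real.sq_sqrt (integral_nonneg fun _ => sq_nonneg _)]
  have hX' : MemLp (fun ξ => Real.exp (2 * a * wi ξ) * Y (jn p9 X ξ)) 2 volume := by
    refine hX.congr_norm hX.1 (ae_of_all _ fun ξ => rfl) |>.ae_eq (ae_of_all _ fun ξ => ?_)
    simp only [elPos_jn_one, elPos_jn_two]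
    rfl
  rw [ofReal_integral_eq_lintegral_ofReal hX'.integrable_sq (ae_of_all _ fun _ => sq_nonneg _)]
  refine lintegral_congr_ae ?_
  filter_upwards [hqX] with ξ hξ
  rw [hξ, mul_pow, ENNReal.ofReal_mul (by positivity), ← Real.exp_nat_mul]
  unfold ww
  congr 3
  push_cast
  ring

theorem LL_one {b : ℝ} {q : Config3 → ℝ≥0∞} {Z X : Pos3}
    (hsym : ∀ᵐ ξ, q (jn p9 X (sxi ξ)) = q (jn p9 X ξ)) :
    ∫⁻ ξ in el 1 ⁻¹' Metric.ball Z 1,
      ENNReal.ofReal (1 / ‖Z - el 1 ξ‖ ^ 2) * (ww b ξ * q (jn p9 X ξ)) = LL b q Z X := by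
  unfold LL
  have hS0 : MeasurableSet (el 0 ⁻¹' Metric.ball Z 1) :=
    (continuous_el 0).measurable Metric.isOpen_ball.measurableSet
  have hS1 : MeasurableSet (el 1 ⁻¹' Metric.ball Z 1) :=
    (continuous_el 1).measurable Metric.isOpen_ball.measurableSet
  rw [← lintegral_indicator hS1, ← lintegral_indicator hS0,
    ← (sxi.measurePreserving).lintegral_comp_emb sxi.toHomeomorph.measurableEmbedding]
  refine lintegral_congr_ae ?_
  filter_upwards [hsym] with ξ hξ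
  have e1 : el 1 (sxi ξ) = el 0 ξ := by
    rw [el_sxi]
    simp
  by_cases h : ξ ∈ el 0 ⁻¹' Metric.ball Z 1
  · rw [indicator_of_mem h, indicator_of_mem (by rw [mem_preimage, e1]; exact h), e1, hξ]
    unfold ww
    rw [wi_sxi]
  · rw [indicator_of_notMem h, indicator_of_notMem (by rw [mem_preimage, e1]; exact h)]

theorem ww_le {a t : ℝ} (ha : 0 ≤ a) {ξ : Y2} (h : t ≤ wi ξ) :
    ww a ξ ≤ ENNReal.ofReal (Real.exp (-(2 * a * t))) * ww (2 * a) ξ := by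
  unfold ww
  rw [← ENNReal.ofReal_mul (Real.exp_pos _).le, ← Real.exp_add]
  refine ENNReal.ofReal_le_ofReal (Real.exp_le_exp.2 ?_)
  nlinarith [mul_le_mul_of_nonneg_left h ha]

theorem newton_le (Z x : Pos3) : ENNReal.ofReal (1 / ‖Z - x‖ ^ 2) ≤
    1 + (Metric.ball Z 1).indicator (fun y => ENNReal.ofReal (1 / ‖Z - y‖ ^ 2)) x := by
  by_cases h : x ∈ Metric.ball Z 1
  · rw [indicator_of_mem h]
    exact le_add_self
  · rw [indicator_of_notMem h, add_zero, ← ENNReal.ofReal_one]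
    refine ENNReal.ofReal_le_ofReal ?_
    rw [Metric.mem_ball, dist_comm, dist_eq_norm, not_lt] at h
    rw [div_le_one (by positivity)]
    exact one_le_pow₀ h

theorem WX_sq_le (Z : Pos3) (ξ : Y2) : ENNReal.ofReal (WX Z ξ ^ 2) ≤
    2 * ENNReal.ofReal (1 / ‖Z - el 0 ξ‖ ^ 2) + 2 * ENNReal.ofReal (1 / ‖Z - el 1 ξ‖ ^ 2) := by
  have h2 : ∀ x : ℝ≥0∞, 2 * x = ENNReal.ofReal 2 * x := fun x => by simp
  rw [h2 (ENNReal.ofReal (1 / ‖Z - el 0 ξ‖ ^ 2)), h2 (ENNReal.ofReal (1 / ‖Z - el 1 ξ‖ ^ 2)),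
    ← ENNReal.ofReal_mul zero_le_two, ← ENNReal.ofReal_mul zero_le_two,
    ← ENNReal.ofReal_add (by positivity) (by positivity)]
  refine ENNReal.ofReal_le_ofReal ?_
  unfold WX
  rw [← one_div_pow, ← one_div_pow]
  nlinarith [sq_nonneg (1 / ‖Z - el 0 ξ‖ - 1 / ‖Z - el 1 ξ‖)]

theorem coupling_gen : ∃ C : ℝ, 0 ≤ C ∧ ∀ (D lam E σ a : ℝ) (Y : Config3 → ℝ)
    (dY : Config3 → Config3), Chan D lam E σ Y dY → 0 ≤ lam → E ≤ 0 → 0 ≤ a → a ≤ 1 →
    (∃ d, H1 (fun x => Real.exp (2 * a * (jb (elPos 1 x) + jb (elPos 2 x))) * Y x) d) →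
    ∀ᵐ X : Pos3, ∀ (Z : Pos3) (S : Set Y2) (t t' M₀ M₁ : ℝ), MeasurableSet S →
      (∀ x₁ ∈ Metric.ball Z 1, Metric.closedBall (jn p6 X x₁) (1 / 2) ⊆ UU D) →
      (∀ ξ, el 0 ξ ∈ Metric.ball Z (3 / 2) → t ≤ wi ξ) → (∀ ξ ∈ S, t' ≤ wi ξ) →
      (∀ᵐ X' : Pos3, X' ∈ Metric.ball X (1 / 2) → wN (2 * a) Y X' ≤ M₀) →
      wN (2 * a) Y X ≤ M₁ →
      ∫ ξ in S, (Real.exp (a * wi ξ) * WX Z ξ * Y (jn p9 X ξ)) ^ 2 ≤
        4 * (Real.exp (-(2 * a * t')) * M₁ ^ 2) + C * (Real.exp (-(2 * a * t)) * M₀ ^ 2) := by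
  obtain ⟨C, hC, hs⟩ := sing
  have hV : volume (Metric.ball (0 : Pos3) (1 / 2)) ≠ ⊤ := measure_ball_lt_top.ne
  refine ⟨4 * (C * volume (Metric.ball (0 : Pos3) (1 / 2))).toReal, by positivity, ?_⟩
  intro D lam E σ a Y dY hY hlam hE ha ha1 hw
  obtain ⟨d, hw⟩ := hw
  set q : Config3 → ℝ≥0∞ := fun x => ENNReal.ofReal ((hY.h1.memf.1.mk Y x) ^ 2) with hqdef
  have hq : Measurable q :=
    (hY.h1.memf.1.stronglyMeasurable_mk.measurable.pow_const 2).ennreal_ofReal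
  have hqY : ∀ᵐ x, q x = ENNReal.ofReal (Y x ^ 2) := by
    filter_upwards [hY.h1.memf.1.ae_eq_mk] with x hx
    rw [hqdef]
    simp only
    rw [← hx]
  have hYs : ∀ x, Y (permConfig (Equiv.swap 1 2) x) ^ 2 = Y x ^ 2 := by
    intro x
    have h1 := hY.ex x
    have h2 := hY.ex (permConfig (Equiv.swap 1 2) x)
    have e : permConfig (Equiv.swap 1 2) (permConfig (Equiv.swap 1 2) x) = x := by
      ext ⟨i, c⟩
      simp [permConfig]
    rw [e, h1] at h2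
    have h3 : Y x ^ 2 = σ ^ 2 * Y x ^ 2 := by
      have : Y x * Y x = σ * (σ * Y x) * Y x := by rw [← h2]
      nlinarith
    rw [h1, mul_pow]
    exact h3.symm
  filter_upwards [hs D lam E σ a Y dY hY hlam hE ha ha1 q hq hqY, wN_lint hqY hw.memf,
    ae_jn p9 hqY] with X h1 h2 h3 Z S t t' M₀ M₁ hS hgeo ht ht' hM₀ hM₁
  have h3' : ∀ᵐ ξ, q (jn p9 X (sxi ξ)) = ENNReal.ofReal (Y (jn p9 X (sxi ξ)) ^ 2) :=
    sxi.measurePreserving.quasiMeasurePreserving.ae h3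
  have hsym : ∀ᵐ ξ, q (jn p9 X (sxi ξ)) = q (jn p9 X ξ) := by
    filter_upwards [h3, h3'] with ξ h4 h5
    rw [h4, h5, jn_sxi, hYs]
  have hnn : ∀ X' : Pos3, 0 ≤ wN (2 * a) Y X' := fun X' => Real.sqrt_nonneg _
  -- near part
  have hL : LL a q Z X ≤ ENNReal.ofReal ((C * volume (Metric.ball (0 : Pos3) (1 / 2))).toReal *
      (Real.exp (-(2 * a * t)) * M₀ ^ 2)) := by
    refine (h1 Z hgeo).trans ?_
    have h4 : ∀ᵐ X' : Pos3, X' ∈ Metric.ball X (1 / 2) → GG a q Z X' ≤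
        ENNReal.ofReal (Real.exp (-(2 * a * t)) * M₀ ^ 2) := by
      filter_upwards [hM₀, wN_lint hqY hw.memf] with X' h5 h6 hX'
      have h7 : GG a q Z X' ≤ ENNReal.ofReal (Real.exp (-(2 * a * t))) *
          ∫⁻ ξ, ww (2 * a) ξ * q (jn p9 X' ξ) := by
        unfold GG
        rw [← lintegral_const_mul' _ _ ENNReal.ofReal_ne_top]
        refine (setLIntegral_mono' ((continuous_el 0).measurable
          Metric.isOpen_ball.measurableSet) fun ξ hξ => ?_).trans (setLIntegral_le_lintegral _ _)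
        rw [← mul_assoc]
        exact mul_le_mul_left (ww_le ha (ht ξ hξ)) _
      refine h7.trans ?_
      rw [h6, ENNReal.ofReal_mul (Real.exp_pos _).le]
      refine mul_le_mul_right (ENNReal.ofReal_le_ofReal ?_) _
      exact pow_le_pow_left₀ (hnn X') (h5 hX') 2
    have h8 : ∫⁻ X' in Metric.ball X (1 / 2), GG a q Z X' ≤
        ENNReal.ofReal (Real.exp (-(2 * a * t)) * M₀ ^ 2) *
          volume (Metric.ball (0 : Pos3) (1 / 2)) := by
      refine (setLIntegral_mono_ae' Metric.isOpen_ball.measurableSet h4).trans ?_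
      rw [setLIntegral_const, Measure.addHaar_ball_center]
    refine (mul_le_mul_right h8 C).trans ?_
    rw [ENNReal.ofReal_mul ENNReal.toReal_nonneg, ENNReal.ofReal_toReal (ENNReal.mul_ne_top hC hV)]
    exact le_of_eq (by ring)
  -- far part
  have hF : ∫⁻ ξ in S, ww a ξ * q (jn p9 X ξ) ≤
      ENNReal.ofReal (Real.exp (-(2 * a * t')) * M₁ ^ 2) := by
    have h7 : ∫⁻ ξ in S, ww a ξ * q (jn p9 X ξ) ≤ ENNReal.ofReal (Real.exp (-(2 * a * t'))) *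
        ∫⁻ ξ, ww (2 * a) ξ * q (jn p9 X ξ) := by
      rw [← lintegral_const_mul' _ _ ENNReal.ofReal_ne_top]
      refine (setLIntegral_mono' hS fun ξ hξ => ?_).trans (setLIntegral_le_lintegral _ _)
      rw [← mul_assoc]
      exact mul_le_mul_left (ww_le ha (ht' ξ hξ)) _
    refine h7.trans ?_
    rw [h2, ENNReal.ofReal_mul (Real.exp_pos _).le]
    refine mul_le_mul_right (ENNReal.ofReal_le_ofReal ?_) _
    exact pow_le_pow_left₀ (hnn X) hM₁ 2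
  refine int_le (fun _ => sq_nonneg _) (by positivity) ?_
  have hpt : ∀ᵐ ξ, ENNReal.ofReal ((Real.exp (a * wi ξ) * WX Z ξ * Y (jn p9 X ξ)) ^ 2) ≤
      4 * (ww a ξ * q (jn p9 X ξ)) +
      2 * (el 0 ⁻¹' Metric.ball Z 1).indicator
        (fun ξ => ENNReal.ofReal (1 / ‖Z - el 0 ξ‖ ^ 2) * (ww a ξ * q (jn p9 X ξ))) ξ +
      2 * (el 1 ⁻¹' Metric.ball Z 1).indicator
        (fun ξ => ENNReal.ofReal (1 / ‖Z - el 1 ξ‖ ^ 2) * (ww a ξ * q (jn p9 X ξ))) ξ := by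
    filter_upwards [h3] with ξ hξ
    have e1 : ENNReal.ofReal ((Real.exp (a * wi ξ) * WX Z ξ * Y (jn p9 X ξ)) ^ 2) =
        ENNReal.ofReal (WX Z ξ ^ 2) * (ww a ξ * q (jn p9 X ξ)) := by
      unfold ww
      rw [hξ, ← ENNReal.ofReal_mul (Real.exp_pos _).le, ← ENNReal.ofReal_mul (sq_nonneg _)]
      congr 1
      rw [mul_pow, mul_pow, ← Real.exp_nat_mul]
      push_cast
      rw [← mul_assoc 2 a]
      ring
    have e2 : ∀ j : Fin 2, ENNReal.ofReal (1 / ‖Z - el j ξ‖ ^ 2) * (ww a ξ * q (jn p9 X ξ)) ≤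
        (ww a ξ * q (jn p9 X ξ)) + (el j ⁻¹' Metric.ball Z 1).indicator
        (fun ξ => ENNReal.ofReal (1 / ‖Z - el j ξ‖ ^ 2) * (ww a ξ * q (jn p9 X ξ))) ξ := by
      intro j
      refine (mul_le_mul_left (newton_le Z (el j ξ)) _).trans (le_of_eq ?_)
      rw [add_mul, one_mul]
      congr 1
      by_cases h : ξ ∈ el j ⁻¹' Metric.ball Z 1
      · rw [indicator_of_mem h, indicator_of_mem (show el j ξ ∈ Metric.ball Z 1 from h)]
      · rw [indicator_of_notMem h,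
          indicator_of_notMem (show el j ξ ∉ Metric.ball Z 1 from h), zero_mul]
    rw [e1]
    refine (mul_le_mul_left (WX_sq_le Z ξ) _).trans ?_
    rw [add_mul, mul_assoc, mul_assoc]
    refine (add_le_add (mul_le_mul_right (e2 0) 2) (mul_le_mul_right (e2 1) 2)).trans (le_of_eq ?_)
    ring
  have hS0 : MeasurableSet (el 0 ⁻¹' Metric.ball Z 1) :=
    (continuous_el 0).measurable Metric.isOpen_ball.measurableSet
  have hS1 : MeasurableSet (el 1 ⁻¹' Metric.ball Z 1) :=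
    (continuous_el 1).measurable Metric.isOpen_ball.measurableSet
  have m0 := measurable_wq a hq X
  have m1 : Measurable ((el 0 ⁻¹' Metric.ball Z 1).indicator
      (fun ξ => ENNReal.ofReal (1 / ‖Z - el 0 ξ‖ ^ 2) * (ww a ξ * q (jn p9 X ξ)))) :=
    (((measurable_newton Z).comp (continuous_el 0).measurable).mul m0).indicator hS0
  have m2 : Measurable ((el 1 ⁻¹' Metric.ball Z 1).indicator
      (fun ξ => ENNReal.ofReal (1 / ‖Z - el 1 ξ‖ ^ 2) * (ww a ξ * q (jn p9 X ξ)))) :=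
    (((measurable_newton Z).comp (continuous_el 1).measurable).mul m0).indicator hS1
  refine (lintegral_mono_ae (ae_restrict_of_ae hpt)).trans ?_
  have m01 : Measurable fun ξ => 4 * (ww a ξ * q (jn p9 X ξ)) +
      2 * (el 0 ⁻¹' Metric.ball Z 1).indicator
        (fun ξ => ENNReal.ofReal (1 / ‖Z - el 0 ξ‖ ^ 2) * (ww a ξ * q (jn p9 X ξ))) ξ :=
    (m0.const_mul 4).add (m1.const_mul 2)
  rw [lintegral_add_left m01, lintegral_add_left (m0.const_mul 4), lintegral_const_mul _ m0, lintegral_const_mul _ m1,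
    lintegral_const_mul _ m2]
  have i1 : ∫⁻ ξ in S, (el 0 ⁻¹' Metric.ball Z 1).indicator
      (fun ξ => ENNReal.ofReal (1 / ‖Z - el 0 ξ‖ ^ 2) * (ww a ξ * q (jn p9 X ξ))) ξ ≤
      LL a q Z X := by
    refine (setLIntegral_le_lintegral _ _).trans (le_of_eq ?_)
    rw [lintegral_indicator hS0]
    rfl
  have i2 : ∫⁻ ξ in S, (el 1 ⁻¹' Metric.ball Z 1).indicator
      (fun ξ => ENNReal.ofReal (1 / ‖Z - el 1 ξ‖ ^ 2) * (ww a ξ * q (jn p9 X ξ))) ξ ≤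
      LL a q Z X := by
    refine (setLIntegral_le_lintegral _ _).trans (le_of_eq ?_)
    rw [lintegral_indicator hS1]
    exact LL_one hsym
  refine (add_le_add (add_le_add (mul_le_mul_right hF 4) (mul_le_mul_right (i1.trans hL) 2))
    (mul_le_mul_right (i2.trans hL) 2)).trans (le_of_eq ?_)
  rw [add_assoc, ← add_mul, show (2 : ℝ≥0∞) + 2 = 4 by norm_num,
    show (4 : ℝ≥0∞) = ENNReal.ofReal 4 by simp, ← ENNReal.ofReal_mul (by norm_num),
    ← ENNReal.ofReal_mul (by norm_num), ← ENNReal.ofReal_add (by positivity) (by positivity)]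
  congr 1
  ring

theorem nrm_nuc (D : ℝ) : ‖nuc D‖ = |D| := by
  unfold nuc
  simp [EuclideanSpace.single]

theorem closedBall_sub_UU {D : ℝ} {X x₁ : Pos3} (h0 : 1 < ‖X - nuc D‖) (h0' : 1 < ‖X - nuc (-D)‖)
    (h1 : 1 < ‖x₁ - nuc D‖) (h1' : 1 < ‖x₁ - nuc (-D)‖) :
    Metric.closedBall (jn p6 X x₁) (1 / 2) ⊆ UU D := by
  intro η hη
  rw [Metric.mem_closedBall, dist_comm, dist_eq_norm] at hη
  have a0 := el_sub_le 0 (jn p6 X x₁) η
  have a1 := el_sub_le 1 (jn p6 X x₁) η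
  rw [el_jn_zero] at a0
  rw [el_jn_one] at a1
  have key : ∀ (x y c : Pos3), ‖x - c‖ ≤ ‖x - y‖ + ‖y - c‖ := fun x y c => by
    have := norm_add_le (x - y) (y - c)
    simpa using this
  refine ⟨⟨?_, ?_⟩, ⟨?_, ?_⟩⟩
  · linarith [key X (el 0 η) (nuc D)]
  · linarith [key X (el 0 η) (nuc (-D))]
  · linarith [key x₁ (el 1 η) (nuc D)]
  · linarith [key x₁ (el 1 η) (nuc (-D))]

theorem far_dist {D : ℝ} (hD : 1 ≤ D) {x : Pos3} (h : D + 1 < ‖x‖) :
    1 < ‖x - nuc D‖ ∧ 1 < ‖x - nuc (-D)‖ := by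
  have h1 := norm_sub_norm_le x (nuc D)
  have h2 := norm_sub_norm_le x (nuc (-D))
  rw [nrm_nuc, abs_of_nonneg (by linarith)] at h1
  rw [nrm_nuc, abs_neg, abs_of_nonneg (by linarith)] at h2
  constructor <;> linarith

theorem plane_dist {D : ℝ} (hD : 4 ≤ D) {x : Pos3} (h : |x 2| ≤ 2) :
    1 < ‖x - nuc D‖ ∧ 1 < ‖x - nuc (-D)‖ := by
  have h1 := PiLp.norm_apply_le (x - nuc D) 2
  have h2 := PiLp.norm_apply_le (x - nuc (-D)) 2
  have e1 : (x - nuc D) 2 = x 2 - D := by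
    simp [nuc]
  have e2 : (x - nuc (-D)) 2 = x 2 + D := by
    simp [nuc]
  rw [e1, Real.norm_eq_abs] at h1
  rw [e2, Real.norm_eq_abs] at h2
  obtain ⟨h3, h4⟩ := abs_le.1 h
  have h5 := neg_le_abs (x 2 - D)
  have h6 := le_abs_self (x 2 + D)
  constructor <;> linarith

theorem wi_ge (ξ : Y2) : ‖el 0 ξ‖ ≤ wi ξ := by
  unfold wi
  have := norm_le_jb (el 0 ξ)
  have := jb_nonneg (el 1 ξ)
  linarith

theorem wi_nonneg' (ξ : Y2) : 0 ≤ wi ξ := (norm_nonneg _).trans (wi_ge ξ)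

end BF

open BF

/-- generic (3.4)+(3.5) -/
theorem far_coupling {D a K : ℝ} (hD : 1 ≤ D) (ha : 0 < a) (ha1 : a ≤ 1 / 100) :
    ∃ K' : ℝ, 0 < K' ∧ ∀ (lam E σ k : ℝ) (Y : Config3 → ℝ) (dY : Config3 → Config3),
      0 ≤ lam → lam ≤ 1 → -2 ≤ E → E ≤ 0 → 1 / 2 ≤ k → k ≤ 2 → Chan D lam E σ Y dY →
      (∃ d, H1 (fun x => Real.exp (2 * a * (jb (elPos 1 x) + jb (elPos 2 x))) * Y x) d) →
      (∀ᵐ X : Pos3, wN (2 * a) Y X ≤ K * Real.exp (-(k - a / 16) * ‖X‖)) →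
      ∀ᵐ X : Pos3, K' ≤ ‖X‖ →
        √(∫ ξ in {ξ | ‖X‖ / 2 < wi ξ}, (Real.exp (a * wi ξ) * WX X ξ * Y (jn p9 X ξ)) ^ 2) ≤
            K' * Real.exp (-(k + 5 * a / 16) * ‖X‖) ∧
        √(∫ ξ in {ξ | ‖X‖ / 2 < wi ξ},
            (Real.exp (a * wi ξ) * WX (rz X) ξ * Y (jn p9 X ξ)) ^ 2) ≤
            K' * Real.exp (-(k + 5 * a / 16) * ‖X‖) := by
  obtain ⟨C, hC, hg⟩ := coupling_gen
  set Q := 4 * K ^ 2 + C * (Real.exp 3 * K ^ 2) with hQ
  have hQ0 : 0 ≤ Q := by positivity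
  refine ⟨D + 3 + Q, by linarith, ?_⟩
  intro lam E σ k Y dY hlam hlam1 hE2 hE hk1 hk2 hY hw hK
  filter_upwards [hg D lam E σ a Y dY hY hlam hE ha.le (by linarith) hw, hK] with X h1 hKX hX
  have hK0 : 0 ≤ K := by
    have h2 : 0 ≤ K * Real.exp (-(k - a / 16) * ‖X‖) := (Real.sqrt_nonneg _).trans hKX
    exact nonneg_of_mul_nonneg_left h2 (Real.exp_pos _)
  have hka : 0 ≤ k - a / 16 := by linarith
  have hS : MeasurableSet {ξ : Y2 | ‖X‖ / 2 < wi ξ} :=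
    (isOpen_lt continuous_const continuous_wi).measurableSet
  have main : ∀ Z : Pos3, ‖Z‖ = ‖X‖ →
      √(∫ ξ in {ξ | ‖X‖ / 2 < wi ξ}, (Real.exp (a * wi ξ) * WX Z ξ * Y (jn p9 X ξ)) ^ 2) ≤
        (D + 3 + Q) * Real.exp (-(k + 5 * a / 16) * ‖X‖) := by
    intro Z hZ
    have hM₀ : ∀ᵐ X' : Pos3, X' ∈ Metric.ball X (1 / 2) →
        wN (2 * a) Y X' ≤ K * Real.exp (-(k - a / 16) * (‖X‖ - 1 / 2)) := by
      filter_upwards [hK] with X' h2 hX'
      refine h2.trans (mul_le_mul_of_nonneg_left (Real.exp_le_exp.2 ?_) hK0)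
      rw [Metric.mem_ball, dist_comm, dist_eq_norm] at hX'
      have h3 : ‖X‖ - 1 / 2 ≤ ‖X'‖ := by
        have := norm_sub_norm_le X X'
        linarith
      nlinarith
    have hgeo : ∀ x₁ ∈ Metric.ball Z 1, Metric.closedBall (jn p6 X x₁) (1 / 2) ⊆ UU D := by
      intro x₁ hx₁
      rw [Metric.mem_ball, dist_comm, dist_eq_norm] at hx₁
      have h3 : ‖Z‖ - 1 ≤ ‖x₁‖ := by
        have := norm_sub_norm_le Z x₁
        linarith
      obtain ⟨g1, g2⟩ := far_dist hD (x := X) (by linarith)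
      obtain ⟨g3, g4⟩ := far_dist hD (x := x₁) (by linarith)
      exact closedBall_sub_UU g1 g2 g3 g4
    have ht : ∀ ξ, el 0 ξ ∈ Metric.ball Z (3 / 2) → ‖X‖ - 3 / 2 ≤ wi ξ := by
      intro ξ hξ
      rw [Metric.mem_ball, dist_comm, dist_eq_norm] at hξ
      have h3 := norm_sub_norm_le Z (el 0 ξ)
      have h4 := wi_ge ξ
      linarith
    have h2 := h1 Z {ξ | ‖X‖ / 2 < wi ξ} (‖X‖ - 3 / 2) (‖X‖ / 2)
      (K * Real.exp (-(k - a / 16) * (‖X‖ - 1 / 2))) (K * Real.exp (-(k - a / 16) * ‖X‖)) hS hgeo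
      ht (fun ξ h => (le_of_lt h)) hM₀ hKX
    rw [Real.sqrt_le_left (by positivity)]
    refine h2.trans ?_
    have hX0 := norm_nonneg X
    have e1 : Real.exp (-(2 * a * (‖X‖ / 2))) * (K * Real.exp (-(k - a / 16) * ‖X‖)) ^ 2 ≤
        K ^ 2 * Real.exp (-(k + 5 * a / 16) * ‖X‖) ^ 2 := by
      rw [mul_pow, ← Real.exp_nat_mul, ← Real.exp_nat_mul, mul_left_comm, ← Real.exp_add]
      refine mul_le_mul_of_nonneg_left (Real.exp_le_exp.2 ?_) (sq_nonneg _)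
      push_cast
      nlinarith [mul_nonneg ha.le hX0]
    have e2 : Real.exp (-(2 * a * (‖X‖ - 3 / 2))) *
        (K * Real.exp (-(k - a / 16) * (‖X‖ - 1 / 2))) ^ 2 ≤
        Real.exp 3 * K ^ 2 * Real.exp (-(k + 5 * a / 16) * ‖X‖) ^ 2 := by
      rw [mul_pow, ← Real.exp_nat_mul, ← Real.exp_nat_mul, mul_left_comm, ← Real.exp_add,
        mul_comm (Real.exp 3) (K ^ 2), mul_assoc (K ^ 2), ← Real.exp_add]
      refine mul_le_mul_of_nonneg_left (Real.exp_le_exp.2 ?_) (sq_nonneg _)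
      push_cast
      nlinarith [mul_nonneg ha.le hX0]
    calc 4 * (Real.exp (-(2 * a * (‖X‖ / 2))) * (K * Real.exp (-(k - a / 16) * ‖X‖)) ^ 2) +
          C * (Real.exp (-(2 * a * (‖X‖ - 3 / 2))) *
            (K * Real.exp (-(k - a / 16) * (‖X‖ - 1 / 2))) ^ 2)
        ≤ 4 * (K ^ 2 * Real.exp (-(k + 5 * a / 16) * ‖X‖) ^ 2) +
          C * (Real.exp 3 * K ^ 2 * Real.exp (-(k + 5 * a / 16) * ‖X‖) ^ 2) :=
          add_le_add (mul_le_mul_of_nonneg_left e1 (by norm_num)) (mul_le_mul_of_nonneg_left e2 hC)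
      _ = Q * Real.exp (-(k + 5 * a / 16) * ‖X‖) ^ 2 := by rw [hQ]; ring
      _ ≤ (D + 3 + Q) ^ 2 * Real.exp (-(k + 5 * a / 16) * ‖X‖) ^ 2 := by
          refine mul_le_mul_of_nonneg_right ?_ (sq_nonneg _)
          nlinarith
      _ = ((D + 3 + Q) * Real.exp (-(k + 5 * a / 16) * ‖X‖)) ^ 2 := by ring
  exact ⟨main X rfl, main (rz X) (rz.norm_map X)⟩

/-- near the plane -/
theorem plane_coupling {D a K : ℝ} (hD : 4 ≤ D) (ha : 0 < a) (ha1 : a ≤ 1 / 100) :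
    ∃ K' : ℝ, 0 < K' ∧ ∀ (lam E σ : ℝ) (Y : Config3 → ℝ) (dY : Config3 → Config3),
      0 ≤ lam → lam ≤ 1 → -2 ≤ E → E ≤ 0 → Chan D lam E σ Y dY →
      (∃ d, H1 (fun x => Real.exp (2 * a * (jb (elPos 1 x) + jb (elPos 2 x))) * Y x) d) →
      (∀ᵐ X : Pos3, wN (2 * a) Y X ≤ K) →
      ∀ᵐ X : Pos3, |X 2| ≤ 1 →
        √(∫ ξ, (Real.exp (a * wi ξ) * WX X ξ * Y (jn p9 X ξ)) ^ 2) ≤ K' ∧
        √(∫ ξ, (Real.exp (a * wi ξ) * WX (rz X) ξ * Y (jn p9 X ξ)) ^ 2) ≤ K' := by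
  obtain ⟨C, hC, hg⟩ := coupling_gen
  set Q := (4 + C) * K ^ 2 with hQ
  have hQ0 : 0 ≤ Q := by positivity
  refine ⟨1 + Q, by linarith, ?_⟩
  intro lam E σ Y dY hlam hlam1 hE2 hE hY hw hK
  filter_upwards [hg D lam E σ a Y dY hY hlam hE ha.le (by linarith) hw, hK] with X h1 hKX hX
  have main : ∀ Z : Pos3, |Z 2| ≤ 1 →
      √(∫ ξ, (Real.exp (a * wi ξ) * WX Z ξ * Y (jn p9 X ξ)) ^ 2) ≤ 1 + Q := by
    intro Z hZ
    have hgeo : ∀ x₁ ∈ Metric.ball Z 1, Metric.closedBall (jn p6 X x₁) (1 / 2) ⊆ UU D := by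
      intro x₁ hx₁
      rw [Metric.mem_ball, dist_eq_norm] at hx₁
      have h3 : |x₁ 2| ≤ 2 := by
        have h4 := PiLp.norm_apply_le (x₁ - Z) 2
        rw [PiLp.sub_apply, Real.norm_eq_abs] at h4
        have h5 := abs_sub_abs_le_abs_sub (x₁ 2) (Z 2)
        linarith
      obtain ⟨g1, g2⟩ := plane_dist hD (x := X) (by linarith)
      obtain ⟨g3, g4⟩ := plane_dist hD (x := x₁) h3
      exact closedBall_sub_UU g1 g2 g3 g4
    have h2 := h1 Z univ 0 0 K K MeasurableSet.univ hgeo (fun ξ _ => wi_nonneg' ξ)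
      (fun ξ _ => wi_nonneg' ξ) (hK.mono fun _ h _ => h) hKX
    rw [setIntegral_univ] at h2
    rw [Real.sqrt_le_left (by positivity)]
    refine h2.trans ?_
    rw [mul_zero, neg_zero, Real.exp_zero, one_mul, ← add_mul, ← hQ]
    nlinarith
  refine ⟨main X hX, main (rz X) ?_⟩
  rw [rz_apply, if_pos rfl, abs_neg]
  exact hX

end Crest.Agent.R335
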