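import Crest.Agent.R335.HNorm
import Crest.Agent.R335.HLip
import Crest.Agent.R335.HChain
import Crest.Agent.R335.HProd
import Crest.Agent.R335.OBPot
import Crest.Agent.R335.BPar

/-!
# Row 335 (S0521): module BFarA (part of BFar)

Kato's inequality for the pair density `N(X,x₁)² = ∫ e^{2θ(x₂)} Y(X,x₁,x₂)² dx₂`, with a bounded
Lipschitz weight `θ`, away from the nuclei.
-/

set_option autoImplicit false
set_option linter.unusedVariables false
set_option linter.unusedSectionVars false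

open MeasureTheory Filter Set Crest.MathPhysics.ThreeBody
open scoped ENNReal Topology ContDiff NNReal

noncomputable section
namespace Crest.Agent.R335
namespace BF

/-- splitting of the nine coordinates: electrons `0,1` / electron `2` -/
def p63 : Fin 3 × Fin 3 ≃ (Fin 2 × Fin 3) ⊕ Fin 3 where
  toFun ic := if ic.1 = 2 then Sum.inr ic.2 else Sum.inl (if ic.1 = 0 then 0 else 1, ic.2)
  invFun := Sum.elim (fun jc => (jc.1.castSucc, jc.2)) (fun c => (2, c))
  left_inv := by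
    rintro ⟨i, c⟩
    fin_cases i <;> rfl
  right_inv := by
    rintro (⟨j, c⟩ | c)
    · fin_cases j <;> rfl
    · rfl

theorem elPos_jn63_zero (η : Y2) (y : Pos3) : elPos 0 (jn p63 η y) = el 0 η := by
  ext c; rfl

theorem elPos_jn63_one (η : Y2) (y : Pos3) : elPos 1 (jn p63 η y) = el 1 η := by
  ext c; rfl

theorem elPos_jn63_two (η : Y2) (y : Pos3) : elPos 2 (jn p63 η y) = y := by
  ext c; rfl

/-- regrouping `(X, (x₁, x₂)) = ((X, x₁), x₂)` -/
theorem jn_assoc (X x₁ y : Pos3) : jn p9 X (jn p6 x₁ y) = jn p63 (jn p6 X x₁) y := by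
  ext ⟨i, c⟩
  fin_cases i <;> rfl

theorem el_jn_zero (x y : Pos3) : el 0 (jn p6 x y) = x := by ext c; rfl
theorem el_jn_one (x y : Pos3) : el 1 (jn p6 x y) = y := by ext c; rfl

section weight
variable {θ : Pos3 → ℝ} {a : ℝ≥0} {M : ℝ}

/-- the weight on `ℝ⁹` -/
def wt (θ : Pos3 → ℝ) (x : Config3) : ℝ := θ (pr2 p63 x)

theorem wt_lip (hθ : LipschitzWith a θ) : LipschitzWith a (wt θ) := by
  have h1 : LipschitzWith 1 (fun x : Config3 => pr2 p63 x) := by
    refine LipschitzWith.of_dist_le_mul fun x y => ?_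
    rw [dist_eq_norm, dist_eq_norm, NNReal.coe_one, one_mul]
    have : pr2 p63 x - pr2 p63 y = pr2 p63 (x - y) := by ext c; simp
    rw [this]
    exact norm_pr2_le p63 _
  have := hθ.comp h1
  rwa [mul_one] at this

theorem pr1_gr_wt (θ : Pos3 → ℝ) (x : Config3) : pr1 p63 (gr (wt θ) x) = 0 := by
  ext k
  rw [pr1_apply, gr_apply, pd]
  set v : Config3 := EuclideanSpace.single (p63.symm (Sum.inl k)) (1 : ℝ) with hv
  have hpr : pr2 p63 v = 0 := by
    ext c
    rw [pr2_apply, hv, PiLp.single_apply, if_neg]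
    · rfl
    · intro h
      have := p63.symm.injective h
      cases this
  by_cases hd : DifferentiableAt ℝ (wt θ) x
  · have h1 := hd.lineDeriv_eq_fderiv (v := v)
    rw [← h1]
    unfold lineDeriv
    have h2 : (fun t : ℝ => wt θ (x + t • v)) = fun _ => wt θ x := by
      ext t
      unfold wt
      have : pr2 p63 (x + t • v) = pr2 p63 x := by
        have h3 : pr2 p63 (x + t • v) = pr2 p63 x + t • pr2 p63 v := by ext c; simp
        rw [h3, hpr, smul_zero, add_zero]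
      rw [this]
    rw [h2]
    simp
  · rw [fderiv_zero_of_not_differentiableAt hd]
    rfl

theorem inner_gr_wt (θ : Pos3 → ℝ) (x : Config3) (l : Y2) :
    inner ℝ (gr (wt θ) x) (jn p63 l 0) = 0 := by
  rw [HN.inner_jn, pr1_gr_wt, inner_zero_left]

theorem WG_exp_wt (hθ : LipschitzWith a θ) (h0 : ∀ y, 0 ≤ θ y) (hM : ∀ y, θ y ≤ M) :
    WG univ (fun x => Real.exp (wt θ x)) (fun x => Real.exp (wt θ x) • gr (wt θ) x) := by
  refine WG.comp_on isOpen_univ (WG.of_lipschitz (wt_lip hθ)).1 (F := Real.exp) (F' := Real.exp)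
    (a := ((0 : ℝ) : EReal)) (b := ((M : ℝ) : EReal)) (C := Real.exp M) ?_ ?_ ?_ ?_
  · exact ae_of_all _ fun x => ⟨EReal.coe_le_coe_iff.2 (h0 _), EReal.coe_le_coe_iff.2 (hM _)⟩
  · intro t _ _
    exact Real.hasDerivAt_exp t
  · exact Real.continuous_exp.continuousOn
  · intro t _ ht
    rw [abs_of_pos (Real.exp_pos t)]
    exact Real.exp_le_exp.2 (EReal.coe_le_coe_iff.1 ht)

theorem exp_wt_le (hM : ∀ y, θ y ≤ M) (x : Config3) :
    |Real.exp (wt θ x)| ≤ Real.exp M * (1 + a) := by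
  rw [abs_of_pos (Real.exp_pos _)]
  have h1 : Real.exp (wt θ x) ≤ Real.exp M := Real.exp_le_exp.2 (hM _)
  have h2 : (0 : ℝ) ≤ a := a.2
  nlinarith [Real.exp_pos M]

theorem gr_exp_wt_le (hθ : LipschitzWith a θ) (hM : ∀ y, θ y ≤ M) (x : Config3) :
    ‖Real.exp (wt θ x) • gr (wt θ) x‖ ≤ Real.exp M * (1 + a) := by
  rw [norm_smul, Real.norm_eq_abs, abs_of_pos (Real.exp_pos _)]
  have h1 : Real.exp (wt θ x) ≤ Real.exp M := Real.exp_le_exp.2 (hM _)
  have h2 : ‖gr (wt θ) x‖ ≤ 1 + a := by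
    have := (WG.of_lipschitz (wt_lip hθ)).2 x
    linarith
  exact mul_le_mul h1 h2 (norm_nonneg _) (Real.exp_pos _).le

/-- the weighted function -/
def fw (θ : Pos3 → ℝ) (Y : Config3 → ℝ) (x : Config3) : ℝ := Real.exp (wt θ x) * Y x

def gw (θ : Pos3 → ℝ) (Y : Config3 → ℝ) (dY : Config3 → Config3) (x : Config3) : Config3 :=
  Real.exp (wt θ x) • dY x + Y x • (Real.exp (wt θ x) • gr (wt θ) x)

theorem fw_H1 (hθ : LipschitzWith a θ) (h0 : ∀ y, 0 ≤ θ y) (hM : ∀ y, θ y ≤ M)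
    {Y : Config3 → ℝ} {dY : Config3 → Config3} (hY : H1 Y dY) : H1 (fw θ Y) (gw θ Y dY) :=
  H1.mul_bdd hY (WG_exp_wt hθ h0 hM) (exp_wt_le (a := a) hM) (gr_exp_wt_le hθ hM)

/-- effective potential -/
def Wf (D lam E : ℝ) (θ : Pos3 → ℝ) (x : Config3) : ℝ :=
  V9 D lam x - E - (1 / 2) * ‖gr (wt θ) x‖ ^ 2

theorem gr_wt_aesm (hθ : LipschitzWith a θ) : AEStronglyMeasurable (gr (wt θ)) volume := by
  have h := (WG.of_lipschitz (wt_lip hθ)).1.intg
  rw [locallyIntegrableOn_univ] at h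
  exact h.aestronglyMeasurable

/-- integrability of `W f k` -/
theorem Wf_integrable (D lam E : ℝ) (hθ : LipschitzWith a θ) {f k : Config3 → ℝ}
    {g : Config3 → Config3} (h : H1 f g) (hk : MemLp k 2 volume) :
    Integrable (fun x => Wf D lam E θ x * f x * k x) := by
  have h1 := V9_integrable D lam h hk
  have h2 : Integrable (fun x => f x * k x) := h.memf.integrable_mul hk
  have h3 : Integrable (fun x => ‖gr (wt θ) x‖ ^ 2 * (f x * k x)) := by
    refine h2.bdd_mul (c := (a : ℝ) ^ 2) ((gr_wt_aesm hθ).norm.pow 2) (ae_of_all _ fun x => ?_)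
    rw [Real.norm_eq_abs, abs_of_nonneg (sq_nonneg _)]
    exact pow_le_pow_left₀ (norm_nonneg _) ((WG.of_lipschitz (wt_lip hθ)).2 x) 2
  refine ((h1.sub (h2.const_mul E)).sub (h3.const_mul (1 / 2))).congr (ae_of_all _ fun x => ?_)
  simp only [Pi.sub_apply]
  unfold Wf
  ring


/-- the Euler-Lagrange equation of the weighted function, tested with `k(X,x₁) f` -/
theorem EL_fw {D lam E σ : ℝ} {Y : Config3 → ℝ} {dY : Config3 → Config3}
    (hY : Chan D lam E σ Y dY) (hθ : LipschitzWith a θ) (h0 : ∀ y, 0 ≤ θ y) (hM : ∀ y, θ y ≤ M)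
    {k : Y2 → ℝ} {l : Y2 → Y2}
    (h : H1 (fun X => k (pr1 p63 X) * fw θ Y X)
      (fun X => k (pr1 p63 X) • gw θ Y dY X + fw θ Y X • jn p63 (l (pr1 p63 X)) 0)) :
    (1 / 2) * (∫ X, inner ℝ (gw θ Y dY X)
        (k (pr1 p63 X) • gw θ Y dY X + fw θ Y X • jn p63 (l (pr1 p63 X)) 0)) +
      ∫ X, Wf D lam E θ X * k (pr1 p63 X) * fw θ Y X ^ 2 = 0 := by
  have hf := fw_H1 hθ h0 hM hY.h1
  have hφ := H1.mul_bdd h (WG_exp_wt hθ h0 hM) (exp_wt_le (a := a) hM) (gr_exp_wt_le hθ hM)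
  have heq := hY.eq _ _ hφ
  unfold q3 at heq
  -- integrability
  have i1 : Integrable (fun x => V9 D lam x * Y x *
      (Real.exp (wt θ x) * (k (pr1 p63 x) * fw θ Y x))) := V9_integrable D lam hY.h1 hφ.memf
  have i2 : Integrable (fun x => Y x * (Real.exp (wt θ x) * (k (pr1 p63 x) * fw θ Y x))) :=
    hY.h1.memf.integrable_mul hφ.memf
  have i3 : Integrable (fun x => ‖gr (wt θ) x‖ ^ 2 * (fw θ Y x * (k (pr1 p63 x) * fw θ Y x))) := by
    have h2 : Integrable (fun x => fw θ Y x * (k (pr1 p63 x) * fw θ Y x)) :=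
      hf.memf.integrable_mul h.memf
    refine h2.bdd_mul (c := (a : ℝ) ^ 2) ((gr_wt_aesm hθ).norm.pow 2) (ae_of_all _ fun x => ?_)
    rw [Real.norm_eq_abs, abs_of_nonneg (sq_nonneg _)]
    exact pow_le_pow_left₀ (norm_nonneg _) ((WG.of_lipschitz (wt_lip hθ)).2 x) 2
  have i4 : Integrable (fun X => inner ℝ (gw θ Y dY X)
      (k (pr1 p63 X) • gw θ Y dY X + fw θ Y X • jn p63 (l (pr1 p63 X)) 0)) :=
    HS.integrable_inner hf.memg h.memg
  -- the pointwise identity of the gradients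
  have e1 : ∀ x, inner ℝ (dY x) (Real.exp (wt θ x) • (k (pr1 p63 x) • gw θ Y dY x +
      fw θ Y x • jn p63 (l (pr1 p63 x)) 0) +
        (k (pr1 p63 x) * fw θ Y x) • (Real.exp (wt θ x) • gr (wt θ) x)) =
      inner ℝ (gw θ Y dY x) (k (pr1 p63 x) • gw θ Y dY x + fw θ Y x • jn p63 (l (pr1 p63 x)) 0) -
        ‖gr (wt θ) x‖ ^ 2 * (fw θ Y x * (k (pr1 p63 x) * fw θ Y x)) := by
    intro x
    have hd : Real.exp (wt θ x) • dY x = gw θ Y dY x - fw θ Y x • gr (wt θ) x := by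
      unfold gw fw
      rw [smul_smul (Y x), mul_comm (Y x)]
      abel
    have h1 : inner ℝ (dY x) (Real.exp (wt θ x) • (k (pr1 p63 x) • gw θ Y dY x +
      fw θ Y x • jn p63 (l (pr1 p63 x)) 0) +
        (k (pr1 p63 x) * fw θ Y x) • (Real.exp (wt θ x) • gr (wt θ) x)) =
        inner ℝ (Real.exp (wt θ x) • dY x) ((k (pr1 p63 x) • gw θ Y dY x +
      fw θ Y x • jn p63 (l (pr1 p63 x)) 0) + (k (pr1 p63 x) * fw θ Y x) • gr (wt θ) x) := by
      rw [inner_add_right, inner_add_right, real_inner_smul_left, real_inner_smul_left,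
        real_inner_smul_right, real_inner_smul_right, real_inner_smul_right,
        real_inner_smul_right]
      ring
    rw [h1, hd]
    have h2 := inner_gr_wt θ x (l (pr1 p63 x))
    simp only [inner_sub_left, inner_add_right, real_inner_smul_left, real_inner_smul_right, h2]
    rw [real_inner_comm (gw θ Y dY x) (gr (wt θ) x), real_inner_self_eq_norm_sq (gr (wt θ) x)]
    ring
  have e2 : (fun x => inner ℝ (dY x) (Real.exp (wt θ x) • (k (pr1 p63 x) • gw θ Y dY x +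
      fw θ Y x • jn p63 (l (pr1 p63 x)) 0) +
        (k (pr1 p63 x) * fw θ Y x) • (Real.exp (wt θ x) • gr (wt θ) x))) = fun x =>
      inner ℝ (gw θ Y dY x) (k (pr1 p63 x) • gw θ Y dY x + fw θ Y x • jn p63 (l (pr1 p63 x)) 0) -
        ‖gr (wt θ) x‖ ^ 2 * (fw θ Y x * (k (pr1 p63 x) * fw θ Y x)) := funext e1
  rw [e2, integral_sub i4 i3] at heq
  have e3 : (fun X => Wf D lam E θ X * k (pr1 p63 X) * fw θ Y X ^ 2) = fun x =>
      (V9 D lam x * Y x * (Real.exp (wt θ x) * (k (pr1 p63 x) * fw θ Y x)) -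
        E * (Y x * (Real.exp (wt θ x) * (k (pr1 p63 x) * fw θ Y x)))) -
        (1 / 2) * (‖gr (wt θ) x‖ ^ 2 * (fw θ Y x * (k (pr1 p63 x) * fw θ Y x))) := by
    ext x
    have h1 : Y x * (Real.exp (wt θ x) * (k (pr1 p63 x) * fw θ Y x)) =
        k (pr1 p63 x) * fw θ Y x ^ 2 := by
      have : fw θ Y x = Real.exp (wt θ x) * Y x := rfl
      rw [pow_two]
      nth_rewrite 2 [this]
      ring
    rw [mul_assoc (V9 D lam x), h1]
    unfold Wf
    ring
  have i5 : Integrable (fun x => V9 D lam x * Y x * (Real.exp (wt θ x) *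
      (k (pr1 p63 x) * fw θ Y x)) - E * (Y x * (Real.exp (wt θ x) *
        (k (pr1 p63 x) * fw θ Y x)))) := i1.sub (i2.const_mul E)
  rw [e3, integral_sub i5 (i3.const_mul _), integral_const_mul]
  have e4 : ∫ x, (V9 D lam x * Y x * (Real.exp (wt θ x) * (k (pr1 p63 x) * fw θ Y x)) -
        E * (Y x * (Real.exp (wt θ x) * (k (pr1 p63 x) * fw θ Y x)))) =
      (∫ x, V9 D lam x * Y x * (Real.exp (wt θ x) * (k (pr1 p63 x) * fw θ Y x))) -
        E * ∫ x, Y x * (Real.exp (wt θ x) * (k (pr1 p63 x) * fw θ Y x)) := by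
    rw [integral_sub i1 (i2.const_mul E), integral_const_mul]
  rw [e4]
  beta_reduce at heq
  linarith

/-! ### lower bound of the fibre energies -/

/-- both electrons of the pair are at distance `> 1/2` from the nuclei -/
def UU (D : ℝ) : Set Y2 := {η | (1 / 2 < ‖el 0 η - nuc D‖ ∧ 1 / 2 < ‖el 0 η - nuc (-D)‖) ∧
  (1 / 2 < ‖el 1 η - nuc D‖ ∧ 1 / 2 < ‖el 1 η - nuc (-D)‖)}

theorem continuous_el (j : Fin 2) : Continuous (el j) := by
  unfold el
  fun_prop

theorem isOpen_UU (D : ℝ) : IsOpen (UU D) := by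
  have h : ∀ (j : Fin 2) (c : Pos3), IsOpen {η : Y2 | 1 / 2 < ‖el j η - c‖} := fun j c =>
    isOpen_lt continuous_const (((continuous_el j).sub continuous_const).norm)
  exact ((h 0 _).inter (h 0 _)).inter ((h 1 _).inter (h 1 _))

theorem V2_far {D : ℝ} {x : Pos3} (h1 : 1 / 2 < ‖x - nuc D‖) (h2 : 1 / 2 < ‖x - nuc (-D)‖) :
    -4 ≤ V2 D x := by
  unfold V2
  have a1 : 1 / ‖x - nuc D‖ ≤ 2 := by
    rw [div_le_iff₀ (by linarith)]; linarith
  have a2 : 1 / ‖x - nuc (-D)‖ ≤ 2 := by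
    rw [div_le_iff₀ (by linarith)]; linarith
  linarith

theorem fibre_low {D lam E : ℝ} (hlam : 0 ≤ lam) (hE : E ≤ 0) (ha : (a : ℝ) ≤ 1)
    (hθ : LipschitzWith a θ) {f : Config3 → ℝ} {g : Config3 → Config3} (h : H1 f g) :
    ∀ᵐ η : Y2, η ∈ UU D → -17 * (∫ y, f (jn p63 η y) ^ 2) ≤
      (1 / 2) * (∫ y, ‖pr2 p63 (g (jn p63 η y))‖ ^ 2) +
        ∫ y, Wf D lam E θ (jn p63 η y) * f (jn p63 η y) ^ 2 := by
  have hW : Integrable (fun x => Wf D lam E θ x * f x ^ 2) := by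
    refine (Wf_integrable D lam E hθ h h.memf).congr (ae_of_all _ fun x => ?_)
    simp only
    ring
  filter_upwards [H1.slice_right p63 h, HS.ae_integrable_slice p63 hW] with η hη hWη hU
  have c1 := ob_coulomb hη (nuc D) (ε := 1 / 4) (by norm_num)
  have c2 := ob_coulomb hη (nuc (-D)) (ε := 1 / 4) (by norm_num)
  have hsq := hη.memf.integrable_sq
  have hV := V2_integrable_sq D hη
  have e := ob_integral_V2 D hη
  have hle : ∫ y, (V2 D y * f (jn p63 η y) ^ 2 - 9 * f (jn p63 η y) ^ 2) ≤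
      ∫ y, Wf D lam E θ (jn p63 η y) * f (jn p63 η y) ^ 2 := by
    refine integral_mono (hV.sub (hsq.const_mul 9)) hWη ?_
    intro y
    simp only
    have h1 : V2 D y - 9 ≤ Wf D lam E θ (jn p63 η y) := by
      unfold Wf V9
      rw [elPos_jn63_zero, elPos_jn63_one, elPos_jn63_two]
      have b1 := V2_far hU.1.1 hU.1.2
      have b2 := V2_far hU.2.1 hU.2.2
      have b3 : 0 ≤ lam * (1 / ‖el 0 η - el 1 η‖ + 1 / ‖el 0 η - y‖ + 1 / ‖el 1 η - y‖) := by
        positivity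
      have b4 : ‖gr (wt θ) (jn p63 η y)‖ ^ 2 ≤ 1 := by
        have := (WG.of_lipschitz (wt_lip hθ)).2 (jn p63 η y)
        have h5 : ‖gr (wt θ) (jn p63 η y)‖ ≤ 1 := this.trans ha
        calc ‖gr (wt θ) (jn p63 η y)‖ ^ 2 ≤ 1 ^ 2 := pow_le_pow_left₀ (norm_nonneg _) h5 2
          _ = 1 := one_pow 2
      linarith
    have h2 := mul_le_mul_of_nonneg_right h1 (sq_nonneg (f (jn p63 η y)))
    linarith
  rw [integral_sub hV (hsq.const_mul 9), integral_const_mul, e] at hle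
  have n1 : (1 / 4 : ℝ)⁻¹ = 4 := by norm_num
  rw [n1] at c1 c2
  linarith [c1.2, c2.2]


/-- partial norm of the pair -/
def NN (θ : Pos3 → ℝ) (Y : Config3 → ℝ) (η : Y2) : ℝ := √(∫ y, fw θ Y (jn p63 η y) ^ 2)

theorem NN_sq (θ : Pos3 → ℝ) (Y : Config3 → ℝ) (η : Y2) :
    NN θ Y η ^ 2 = ∫ y, fw θ Y (jn p63 η y) ^ 2 :=
  Real.sq_sqrt (integral_nonneg fun y => sq_nonneg _)

/-- Kato's inequality for the pair norm -/
theorem kato_pair {D lam E σ : ℝ} {Y : Config3 → ℝ} {dY : Config3 → Config3}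
    (hY : Chan D lam E σ Y dY) (hlam : 0 ≤ lam) (hE : E ≤ 0) (ha : (a : ℝ) ≤ 1)
    (hθ : LipschitzWith a θ) (h0 : ∀ y, 0 ≤ θ y) (hM : ∀ y, θ y ≤ M) :
    ∃ m, H1 (NN θ Y) m ∧ ∀ φ : Y2 → ℝ, Test (UU D) φ → (∀ x, 0 ≤ φ x) →
      (1 / 2) * (∫ x, inner ℝ (m x) (gr φ x)) ≤ 17 * ∫ x, NN θ Y x * φ x := by
  have hf := fw_H1 hθ h0 hM hY.h1
  obtain ⟨m, hm, -⟩ := H1.pnorm (S := Unit) p63 (f := fun _ => fw θ Y) (g := fun _ => gw θ Y dY)
    fun _ => hf
  have hN : ∀ x, NN θ Y x = √(∑ _s : Unit, ∫ y, fw θ Y (jn p63 x y) ^ 2) := fun x => by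
    simp [NN]
  have hm' : H1 (NN θ Y) m := by
    have e : NN θ Y = fun x => √(∑ _s : Unit, ∫ y, fw θ Y (jn p63 x y) ^ 2) := funext hN
    rw [e]
    exact hm
  refine ⟨m, hm', fun φ hφ hφ0 => ?_⟩
  have hW : Integrable (fun x => Wf D lam E θ x * fw θ Y x ^ 2) := by
    refine (Wf_integrable D lam E hθ hf hf.memf).congr (ae_of_all _ fun x => ?_)
    simp only
    ring
  have key := kato_pnorm (S := Unit) p63 (f := fun _ => fw θ Y) (g := fun _ => gw θ Y dY)
    (fun _ => hf) hN hm' (W := fun _ => Wf D lam E θ) (fun _ => hW) (isOpen_UU D)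
    (fun k l C hk hkC hH hkU => by
      have := EL_fw hY hθ h0 hM (hH ())
      simpa using this) (a := fun _ => -17) (by
      have h1 : LocallyIntegrable (NN θ Y) volume := hm'.memf.locallyIntegrable (by norm_num)
      have h2 : LocallyIntegrable (fun x => -17 * NN θ Y x) volume := by
        have := h1.smul (-17 : ℝ)
        exact this
      exact h2.locallyIntegrableOn _) (by
      rw [ae_restrict_iff' (isOpen_UU D).measurableSet]
      filter_upwards [fibre_low (D := D) (lam := lam) (E := E) hlam hE ha hθ hf] with η hη hU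
      have := hη hU
      rw [NN_sq]
      simpa using this) hφ hφ0
  have e : ∫ x, -17 * NN θ Y x * φ x = -17 * ∫ x, NN θ Y x * φ x := by
    rw [← integral_const_mul]
    refine integral_congr_ae (ae_of_all _ fun x => ?_)
    simp only
    ring
  beta_reduce at key
  rw [e] at key
  linarith

end weight

end BF
end Crest.Agent.R335
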