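import Crest.Agent.R335.HBasic

/-!
Row 335 (S0521): local boundedness of nonnegative subsolutions `-½Δu ≤ C u` (helper543; the kernel
argument is due to helper434).
-/

set_option autoImplicit false
set_option linter.unusedSectionVars false
set_option linter.unusedVariables false

open MeasureTheory Filter Set
open scoped ENNReal Topology ContDiff

noncomputable section
namespace Crest.Agent.R335

variable {ι : Type*} [Fintype ι] [DecidableEq ι]

local notation "E" => EuclideanSpace ℝ ι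

namespace MV

/-- the profile -/
def F (t : ℝ) : ℝ := expNegInvGlue (1 - t)

/-- first derivative of the profile -/
def F1 : ℝ → ℝ := deriv F

/-- second derivative of the profile -/
def F2 : ℝ → ℝ := deriv F1

theorem contDiff_F : ContDiff ℝ ∞ F := by
  unfold F
  exact expNegInvGlue.contDiff.comp (contDiff_const.sub contDiff_id)

theorem contDiff_F1 : ContDiff ℝ ∞ F1 := (contDiff_infty_iff_deriv.1 contDiff_F).2

theorem contDiff_F2 : ContDiff ℝ ∞ F2 := (contDiff_infty_iff_deriv.1 contDiff_F1).2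

theorem hasDerivAt_F (t : ℝ) : HasDerivAt F (F1 t) t :=
  ((contDiff_infty_iff_deriv.1 contDiff_F).1 t).hasDerivAt

theorem hasDerivAt_F1 (t : ℝ) : HasDerivAt F1 (F2 t) t :=
  ((contDiff_infty_iff_deriv.1 contDiff_F1).1 t).hasDerivAt

theorem F_zero {t : ℝ} (h : 1 ≤ t) : F t = 0 := expNegInvGlue.zero_of_nonpos (by linarith)

theorem F_nonneg (t : ℝ) : 0 ≤ F t := expNegInvGlue.nonneg _

theorem deriv_zero_of_zero {G : ℝ → ℝ} (hG : Continuous (deriv G)) (h : ∀ t : ℝ, 1 ≤ t → G t = 0)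
    {t : ℝ} (ht : 1 ≤ t) : deriv G t = 0 := by
  have h1 : ∀ s ∈ Ioi (1 : ℝ), deriv G s = 0 := by
    intro s hs
    have : G =ᶠ[𝓝 s] fun _ => 0 := by
      filter_upwards [Ioi_mem_nhds hs] with x hx using h x (le_of_lt hx)
    rw [this.deriv_eq]
    simp
  have h2 : closure (Ioi (1 : ℝ)) ⊆ {s | deriv G s = 0} :=
    closure_minimal h1 (isClosed_eq hG continuous_const)
  exact h2 (by rw [closure_Ioi]; exact ht)

theorem F1_zero {t : ℝ} (h : 1 ≤ t) : F1 t = 0 :=
  deriv_zero_of_zero contDiff_F1.continuous (fun s hs => F_zero hs) h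

theorem F2_zero {t : ℝ} (h : 1 ≤ t) : F2 t = 0 :=
  deriv_zero_of_zero contDiff_F2.continuous (fun s hs => F1_zero hs) h

theorem F_eq {t : ℝ} (h : t < 1) : F t = Real.exp (-(1 - t)⁻¹) := by
  unfold F expNegInvGlue
  rw [if_neg (by linarith)]

theorem F1_eq {t : ℝ} (h : t < 1) : F1 t = -(((1 - t) ^ 2)⁻¹ * F t) := by
  have h0 : (1 : ℝ) - t ≠ 0 := by linarith
  have h1 : HasDerivAt (fun s : ℝ => Real.exp (-(1 - s)⁻¹))
      (Real.exp (-(1 - t)⁻¹) * (-(-(-1) / (1 - t) ^ 2))) t := by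
    have h2 : HasDerivAt (fun s : ℝ => (1 : ℝ) - s) (-1) t := by
      simpa using (hasDerivAt_id t).const_sub 1
    exact ((h2.inv h0).neg).exp
  have h3 : F =ᶠ[𝓝 t] fun s : ℝ => Real.exp (-(1 - s)⁻¹) := by
    filter_upwards [Iio_mem_nhds h] with s hs using F_eq hs
  have h4 : F1 t = Real.exp (-(1 - t)⁻¹) * (-(-(-1) / (1 - t) ^ 2)) := by
    show deriv F t = _
    rw [h3.deriv_eq, h1.deriv]
  rw [h4, F_eq h]
  ring

theorem F_le {t : ℝ} (h : 0 ≤ t) : F t ≤ - F1 t := by
  rcases lt_or_ge t 1 with h1 | h1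
  · rw [F1_eq h1, neg_neg]
    have h2 : 1 ≤ ((1 - t) ^ 2)⁻¹ := by
      rw [one_le_inv₀ (by nlinarith)]
      nlinarith
    nlinarith [F_nonneg t]
  · rw [F_zero h1, F1_zero h1, neg_zero]

theorem F1_nonpos {t : ℝ} (h : 0 ≤ t) : 0 ≤ - F1 t := (F_nonneg t).trans (F_le h)

theorem F1_low {t : ℝ} (h : 0 ≤ t) (h' : t ≤ 1 / 4) : Real.exp (-(4 / 3)) ≤ - F1 t := by
  refine le_trans ?_ (F_le h)
  rw [F_eq (by linarith)]
  refine Real.exp_le_exp.2 (neg_le_neg ?_)
  rw [inv_le_comm₀ (by linarith) (by norm_num)]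
  norm_num
  linarith

/-- functions continuous and vanishing on `[1, ∞)` are bounded on `[0, ∞)` -/
theorem bdd_of_zero {G : ℝ → ℝ} (hG : Continuous G) (h : ∀ t : ℝ, 1 ≤ t → G t = 0) :
    ∃ B : ℝ, 0 ≤ B ∧ ∀ t : ℝ, 0 ≤ t → |G t| ≤ B := by
  obtain ⟨B, hB⟩ := (isCompact_Icc (a := (0 : ℝ)) (b := 1)).exists_bound_of_continuousOn
    hG.continuousOn
  refine ⟨max B 0, le_max_right _ _, fun t ht => ?_⟩
  rcases le_total t 1 with h1 | h1
  · exact (hB t ⟨ht, h1⟩).trans (le_max_left _ _)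
  · rw [h t h1, abs_zero]
    exact le_max_right _ _

/-! ### the test functions -/

/-- `|y - x₀|² / l²` -/
def q (x₀ : E) (l : ℝ) (y : E) : ℝ := ‖y - x₀‖ ^ 2 / l ^ 2

/-- the test function -/
def Psi (x₀ : E) (l : ℝ) (y : E) : ℝ := F (q x₀ l y)

theorem contDiff_q (x₀ : E) (l : ℝ) : ContDiff ℝ ∞ (q x₀ l) :=
  (((contDiff_id.sub contDiff_const).norm_sq ℝ)).div_const _

theorem q_nonneg (x₀ : E) (l : ℝ) (y : E) : 0 ≤ q x₀ l y := by
  unfold q
  positivity

theorem one_le_q {x₀ : E} {l : ℝ} (hl : 0 < l) {y : E} (h : l ≤ ‖y - x₀‖) : 1 ≤ q x₀ l y := by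
  unfold q
  rw [one_le_div (by positivity)]
  exact pow_le_pow_left₀ hl.le h 2

theorem hasFDerivAt_q (x₀ : E) (l : ℝ) (y : E) :
    HasFDerivAt (q x₀ l) ((2 / l ^ 2) • innerSL ℝ (y - x₀)) y := by
  have h1 : HasFDerivAt (fun z : E => z - x₀) (ContinuousLinearMap.id ℝ E) y :=
    (hasFDerivAt_id y).sub_const x₀
  have h2 := h1.norm_sq
  have h3 : HasFDerivAt (q x₀ l) ((l ^ 2)⁻¹ • (2 • (innerSL ℝ (y - x₀)).comp
      (ContinuousLinearMap.id ℝ E))) y := by
    have h4 := h2.mul_const (l ^ 2)⁻¹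
    exact h4
  refine h3.congr_fderiv ?_
  ext v
  simp [div_eq_mul_inv]
  ring

theorem pd_comp_q {G G' : ℝ → ℝ} (hG : ∀ t, HasDerivAt G (G' t) t) (x₀ : E) (l : ℝ) (i : ι)
    (y : E) : pd i (fun z => G (q x₀ l z)) y = G' (q x₀ l y) * (2 / l ^ 2 * (y i - x₀ i)) := by
  have h := (hG (q x₀ l y)).comp_hasFDerivAt y (hasFDerivAt_q x₀ l y)
  unfold pd
  have e : (fun z => G (q x₀ l z)) = G ∘ q x₀ l := rfl
  rw [e, h.fderiv]
  simp only [smul_apply, smul_eq_mul, innerSL_apply_apply]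
  rw [EuclideanSpace.inner_single_right]
  simp

theorem test_Psi {U : Set E} {x₀ : E} {l : ℝ} (hl : 0 < l) (hU : Metric.closedBall x₀ l ⊆ U) :
    Test U (Psi x₀ l) := by
  have hsub : tsupport (Psi x₀ l) ⊆ Metric.closedBall x₀ l := by
    refine closure_minimal (fun y hy => ?_) Metric.isClosed_closedBall
    by_contra hcon
    rw [Metric.mem_closedBall, dist_eq_norm, not_le] at hcon
    exact hy (F_zero (one_le_q hl hcon.le))
  exact ⟨contDiff_F.comp (contDiff_q x₀ l),
    (isCompact_closedBall x₀ l).of_isClosed_subset (isClosed_tsupport _) hsub, hsub.trans hU⟩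

theorem pd_Psi (x₀ : E) (l : ℝ) (i : ι) :
    pd i (Psi x₀ l) = fun y => F1 (q x₀ l y) * (2 / l ^ 2 * (y i - x₀ i)) :=
  funext fun y => pd_comp_q hasDerivAt_F x₀ l i y

theorem pd_pd_Psi (x₀ : E) (l : ℝ) (i : ι) (y : E) :
    pd i (pd i (Psi x₀ l)) y = F2 (q x₀ l y) * (2 / l ^ 2 * (y i - x₀ i)) ^ 2 +
      F1 (q x₀ l y) * (2 / l ^ 2) := by
  rw [pd_Psi]
  have hd1 : DifferentiableAt ℝ (fun z : E => F1 (q x₀ l z)) y :=
    ((hasDerivAt_F1 _).comp_hasFDerivAt y (hasFDerivAt_q x₀ l y)).differentiableAt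
  have hc : HasFDerivAt (fun z : E => 2 / l ^ 2 * (z i - x₀ i))
      ((2 / l ^ 2) • (EuclideanSpace.proj i : E →L[ℝ] ℝ)) y := by
    have h1 : HasFDerivAt (fun z : E => z i) (EuclideanSpace.proj i : E →L[ℝ] ℝ) y :=
      (EuclideanSpace.proj i : E →L[ℝ] ℝ).hasFDerivAt
    exact (h1.sub_const (x₀ i)).const_mul _
  rw [pd_mul' hd1 hc.differentiableAt i, pd_comp_q hasDerivAt_F1]
  have e : pd i (fun z : E => 2 / l ^ 2 * (z i - x₀ i)) y = 2 / l ^ 2 := by
    unfold pd
    rw [hc.fderiv]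
    simp
  rw [e]
  ring

/-- the Laplacian of the test function -/
theorem lap_Psi (x₀ : E) {l : ℝ} (hl : 0 < l) (y : E) :
    ∑ i, pd i (pd i (Psi x₀ l)) y = 2 / l * (2 * ‖y - x₀‖ ^ 2 / l ^ 3 * F2 (q x₀ l y)) +
      2 * Fintype.card ι / l ^ 2 * F1 (q x₀ l y) := by
  simp_rw [pd_pd_Psi]
  rw [Finset.sum_add_distrib, ← Finset.mul_sum, Finset.sum_const, Finset.card_univ]
  have e : ∑ i, (2 / l ^ 2 * (y i - x₀ i)) ^ 2 = 4 / l ^ 4 * ‖y - x₀‖ ^ 2 := by
    rw [EuclideanSpace.norm_sq_eq, Finset.mul_sum]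
    refine Finset.sum_congr rfl fun i _ => ?_
    rw [Real.norm_eq_abs, sq_abs, PiLp.sub_apply, mul_pow, div_pow]
    ring
  rw [e, nsmul_eq_mul]
  field_simp
  ring

/-! ### the averages -/

/-- `a(l) = ∫ u(y) f(|y - x₀|²/l²) dy` -/
def av (u : E → ℝ) (x₀ : E) (l : ℝ) : ℝ := ∫ y, u y * (- F1 (q x₀ l y))

/-- derivative of `a` -/
def dav (u : E → ℝ) (x₀ : E) (l : ℝ) : ℝ :=
  ∫ y, u y * (2 * ‖y - x₀‖ ^ 2 / l ^ 3 * F2 (q x₀ l y))

theorem hasDerivAt_kernel (x₀ y : E) {l : ℝ} (hl : 0 < l) :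
    HasDerivAt (fun l => - F1 (q x₀ l y)) (2 * ‖y - x₀‖ ^ 2 / l ^ 3 * F2 (q x₀ l y)) l := by
  have h1 : HasDerivAt (fun l : ℝ => ‖y - x₀‖ ^ 2 / l ^ 2) (-(2 * ‖y - x₀‖ ^ 2 / l ^ 3)) l := by
    have h2 : HasDerivAt (fun l : ℝ => l ^ 2) (2 * l) l := by simpa using hasDerivAt_pow 2 l
    have h3 := (h2.inv (by positivity)).const_mul (‖y - x₀‖ ^ 2)
    refine (h3.congr_deriv ?_).congr_of_eventuallyEq (Eventually.of_forall fun s => ?_)
    · field_simp
    · simp [div_eq_mul_inv]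
  have h4 := ((hasDerivAt_F1 (q x₀ l y)).comp l h1).neg
  refine h4.congr_deriv ?_
  ring

theorem locInt_bdd {u : E → ℝ} (hu : LocallyIntegrable u volume) {x₀ : E} {r : ℝ}
    {k : E → ℝ} (hk : Continuous k) (h0 : ∀ y, r ≤ ‖y - x₀‖ → k y = 0) :
    Integrable (fun y => u y * k y) := by
  have hcs : tsupport k ⊆ Metric.closedBall x₀ r := by
    refine closure_minimal (fun y hy => ?_) Metric.isClosed_closedBall
    by_contra hcon
    rw [Metric.mem_closedBall, dist_eq_norm, not_le] at hcon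
    exact hy (h0 y hcon.le)
  exact integrable_mul_of_loc (U := univ) (hu.locallyIntegrableOn univ) hk
    ((isCompact_closedBall x₀ r).of_isClosed_subset (isClosed_tsupport _) hcs) (subset_univ _)

theorem continuous_q (x₀ : E) (l : ℝ) : Continuous (q x₀ l) := (contDiff_q x₀ l).continuous

theorem continuous_ker1 (x₀ : E) (l : ℝ) : Continuous fun y => - F1 (q x₀ l y) :=
  (contDiff_F1.continuous.comp (continuous_q x₀ l)).neg

theorem continuous_ker2 (x₀ : E) (l : ℝ) :
    Continuous fun y => 2 * ‖y - x₀‖ ^ 2 / l ^ 3 * F2 (q x₀ l y) :=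
  ((continuous_const.mul ((continuous_id.sub continuous_const).norm.pow 2)).div_const _).mul
    (contDiff_F2.continuous.comp (continuous_q x₀ l))

theorem integrable_av {u : E → ℝ} (hu : LocallyIntegrable u volume) (x₀ : E) {l : ℝ} (hl : 0 < l) :
    Integrable (fun y => u y * (- F1 (q x₀ l y))) :=
  locInt_bdd hu (continuous_ker1 x₀ l) (r := l) fun y hy => by
    rw [F1_zero (one_le_q hl hy), neg_zero]

theorem integrable_dav {u : E → ℝ} (hu : LocallyIntegrable u volume) (x₀ : E) {l : ℝ} (hl : 0 < l) :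
    Integrable (fun y => u y * (2 * ‖y - x₀‖ ^ 2 / l ^ 3 * F2 (q x₀ l y))) :=
  locInt_bdd hu (continuous_ker2 x₀ l) (r := l) fun y hy => by
    rw [F2_zero (one_le_q hl hy), mul_zero]

theorem hasDerivAt_av {u : E → ℝ} (hu : LocallyIntegrable u volume) (x₀ : E) {l : ℝ} (hl : 0 < l) :
    HasDerivAt (av u x₀) (dav u x₀ l) l := by
  obtain ⟨B, hB0, hB⟩ := bdd_of_zero contDiff_F2.continuous (fun t ht => F2_zero ht)
  -- bound of the derivative of the kernel for `l/2 < s < 2 l`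
  have hbound : ∀ y, ∀ s ∈ Ioo (l / 2) (2 * l),
      ‖u y * (2 * ‖y - x₀‖ ^ 2 / s ^ 3 * F2 (q x₀ s y))‖ ≤
        (Metric.closedBall x₀ (2 * l)).indicator (fun y => |u y| * (4 / l * B)) y := by
    intro y s hs
    have hs0 : 0 < s := by linarith [hs.1]
    rw [norm_mul, Real.norm_eq_abs]
    by_cases hy : ‖y - x₀‖ < s
    · have hy2 : y ∈ Metric.closedBall x₀ (2 * l) := by
        rw [Metric.mem_closedBall, dist_eq_norm]
        linarith [hs.2]
      rw [indicator_of_mem hy2]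
      refine mul_le_mul_of_nonneg_left ?_ (abs_nonneg _)
      rw [norm_mul, Real.norm_of_nonneg (by positivity), Real.norm_eq_abs]
      refine mul_le_mul ?_ (hB _ (q_nonneg _ _ _)) (abs_nonneg _) (by positivity)
      have h1 : ‖y - x₀‖ ^ 2 ≤ s ^ 2 := pow_le_pow_left₀ (norm_nonneg _) hy.le 2
      calc 2 * ‖y - x₀‖ ^ 2 / s ^ 3 ≤ 2 * s ^ 2 / s ^ 3 := by gcongr
        _ = 2 / s := by field_simp
        _ ≤ 2 / (l / 2) := by
            refine div_le_div_of_nonneg_left (by norm_num) (by linarith) hs.1.le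
        _ = 4 / l := by field_simp; norm_num
    · rw [F2_zero (one_le_q hs0 (not_lt.1 hy)), mul_zero, norm_zero, mul_zero]
      exact indicator_nonneg (fun z _ => by positivity) y
  have hint : Integrable ((Metric.closedBall x₀ (2 * l)).indicator
      (fun y => |u y| * (4 / l * B))) := by
    rw [integrable_indicator_iff measurableSet_closedBall]
    exact ((hu.integrableOn_isCompact (isCompact_closedBall x₀ (2 * l))).norm).mul_const _
  have h := hasDerivAt_integral_of_dominated_loc_of_deriv_le (μ := (volume : Measure E))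
    (F := fun s y => u y * (- F1 (q x₀ s y)))
    (F' := fun s y => u y * (2 * ‖y - x₀‖ ^ 2 / s ^ 3 * F2 (q x₀ s y)))
    (x₀ := l) (s := Ioo (l / 2) (2 * l)) (Ioo_mem_nhds (by linarith) (by linarith)) (by
      filter_upwards [Ioi_mem_nhds hl] with s hs
      exact (integrable_av hu x₀ hs).aestronglyMeasurable) (integrable_av hu x₀ hl)
    (integrable_dav hu x₀ hl).aestronglyMeasurable (Eventually.of_forall hbound) hint
    (Eventually.of_forall fun y s hs =>
      (hasDerivAt_kernel x₀ y (by linarith [hs.1] : 0 < s)).const_mul (u y))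
  exact h.2

/-- the differential inequality -/
theorem dav_ge {u : E → ℝ} {g : E → E} (h : WG univ u g) {C : ℝ} (hC : 0 ≤ C)
    (hu0 : ∀ᵐ x, 0 ≤ u x) {U : Set E}
    (hsub : ∀ φ : E → ℝ, Test U φ → (∀ x, 0 ≤ φ x) →
      (1 / 2) * (∫ x, inner ℝ (g x) (gr φ x)) ≤ C * ∫ x, u x * φ x)
    {x₀ : E} {l : ℝ} (hl : 0 < l) (hU : Metric.closedBall x₀ l ⊆ U) :
    0 ≤ dav u x₀ l + (C * l - Fintype.card ι / l) * av u x₀ l := by
  have hloc : LocallyIntegrable u volume := locallyIntegrableOn_univ.1 h.intf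
  have hT : Test U (Psi x₀ l) := test_Psi hl hU
  have hT' : Test univ (Psi x₀ l) := hT.mono (subset_univ _)
  have h1 := hsub _ hT (fun x => F_nonneg _)
  -- the left hand side
  have e1 : ∫ x, inner ℝ (g x) (gr (Psi x₀ l) x) =
      ∑ i, ∫ x, g x i * pd i (Psi x₀ l) x := by
    rw [← integral_finsetSum _ (fun i _ => h.integrable_g (hT'.pd i) i)]
    refine integral_congr_ae (Eventually.of_forall fun x => ?_)
    show inner ℝ (g x) (gr (Psi x₀ l) x) = ∑ i, g x i * pd i (Psi x₀ l) x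
    rw [PiLp.inner_apply]
    refine Finset.sum_congr rfl fun i _ => ?_
    simp [mul_comm]
  have e2 : ∀ i, ∫ x, g x i * pd i (Psi x₀ l) x = - ∫ x, u x * pd i (pd i (Psi x₀ l)) x := by
    intro i
    rw [h.ibp _ (hT'.pd i) i, neg_neg]
  have e3 : ∑ i, ∫ x, u x * pd i (pd i (Psi x₀ l)) x =
      2 / l * dav u x₀ l - 2 * Fintype.card ι / l ^ 2 * av u x₀ l := by
    rw [← integral_finsetSum _ (fun i _ => h.integrable_fpd (hT'.pd i) i)]
    unfold dav av
    rw [← integral_const_mul, ← integral_const_mul, ← integral_sub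
      ((integrable_dav hloc x₀ hl).const_mul _) ((integrable_av hloc x₀ hl).const_mul _)]
    refine integral_congr_ae (Eventually.of_forall fun x => ?_)
    show ∑ i, u x * pd i (pd i (Psi x₀ l)) x = 2 / l * (u x * _) - _ * (u x * _)
    rw [← Finset.mul_sum, lap_Psi x₀ hl]
    ring
  have e4 : ∫ x, u x * Psi x₀ l x ≤ av u x₀ l := by
    unfold av
    refine integral_mono_ae (h.integrable_f hT') (integrable_av hloc x₀ hl) ?_
    filter_upwards [hu0] with x hx
    exact mul_le_mul_of_nonneg_left (F_le (q_nonneg _ _ _)) hx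
  rw [e1, Finset.sum_congr rfl (fun i _ => e2 i), Finset.sum_neg_distrib, e3] at h1
  have h2 : (1 / 2) * -(2 / l * dav u x₀ l - 2 * Fintype.card ι / l ^ 2 * av u x₀ l) ≤
      C * av u x₀ l := h1.trans (mul_le_mul_of_nonneg_left e4 hC)
  have h3 : 0 ≤ l * (C * av u x₀ l + (1 / l * dav u x₀ l - Fintype.card ι / l ^ 2 * av u x₀ l)) := by
    refine mul_nonneg hl.le ?_
    have : (1 / 2) * -(2 / l * dav u x₀ l - 2 * Fintype.card ι / l ^ 2 * av u x₀ l) =
        -(1 / l * dav u x₀ l - Fintype.card ι / l ^ 2 * av u x₀ l) := by ring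
    rw [this] at h2
    linarith
  have e5 : l * (C * av u x₀ l + (1 / l * dav u x₀ l - Fintype.card ι / l ^ 2 * av u x₀ l)) =
      dav u x₀ l + (C * l - Fintype.card ι / l) * av u x₀ l := by
    field_simp
    ring
  rwa [e5] at h3

/-- the weight -/
def wt (ι : Type*) [Fintype ι] (C l : ℝ) : ℝ := Real.exp (C * l ^ 2 / 2 - Fintype.card ι * Real.log l)

theorem hasDerivAt_wt (C : ℝ) {l : ℝ} (hl : 0 < l) :
    HasDerivAt (wt ι C) ((C * l - Fintype.card ι / l) * wt ι C l) l := by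
  have h1 : HasDerivAt (fun l : ℝ => C * l ^ 2 / 2) (C * l) l := by
    have h2 : HasDerivAt (fun l : ℝ => l ^ 2) (2 * l) l := by simpa using hasDerivAt_pow 2 l
    refine ((h2.const_mul C).div_const 2).congr_deriv ?_
    ring
  have h3 := (Real.hasDerivAt_log hl.ne').const_mul (Fintype.card ι : ℝ)
  have h4 := (h1.sub h3).exp
  refine h4.congr_deriv ?_
  unfold wt
  rw [div_eq_mul_inv]
  exact mul_comm _ _

theorem mono {u : E → ℝ} {g : E → E} (h : WG univ u g) {C : ℝ} (hC : 0 ≤ C)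
    (hu0 : ∀ᵐ x, 0 ≤ u x) {U : Set E}
    (hsub : ∀ φ : E → ℝ, Test U φ → (∀ x, 0 ≤ φ x) →
      (1 / 2) * (∫ x, inner ℝ (g x) (gr φ x)) ≤ C * ∫ x, u x * φ x)
    {x₀ : E} {ε ρ : ℝ} (hε : 0 < ε) (hερ : ε ≤ ρ) (hU : Metric.closedBall x₀ ρ ⊆ U) :
    wt ι C ε * av u x₀ ε ≤ wt ι C ρ * av u x₀ ρ := by
  have hloc : LocallyIntegrable u volume := locallyIntegrableOn_univ.1 h.intf
  have hd : ∀ l, 0 < l → HasDerivAt (fun l => wt ι C l * av u x₀ l)
      (wt ι C l * (dav u x₀ l + (C * l - Fintype.card ι / l) * av u x₀ l)) l := by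
    intro l hl
    refine ((hasDerivAt_wt C hl).mul (hasDerivAt_av hloc x₀ hl)).congr_deriv ?_
    ring
  have hm : MonotoneOn (fun l => wt ι C l * av u x₀ l) (Icc ε ρ) := by
    refine monotoneOn_of_deriv_nonneg (convex_Icc ε ρ) (fun l hl => ?_) (fun l hl => ?_)
      (fun l hl => ?_)
    · exact (hd l (by linarith [hl.1])).continuousAt.continuousWithinAt
    · rw [interior_Icc] at hl
      exact (hd l (by linarith [hl.1])).differentiableAt.differentiableWithinAt
    · rw [interior_Icc] at hl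
      have hl0 : 0 < l := by linarith [hl.1]
      rw [(hd l hl0).deriv]
      refine mul_nonneg (Real.exp_pos _).le (dav_ge h hC hu0 hsub hl0
        ((Metric.closedBall_subset_closedBall hl.2.le).trans hU))
  exact hm ⟨le_rfl, hερ⟩ ⟨hερ, le_rfl⟩ hερ

end MV

namespace MV

/-- Cauchy-Schwarz on a set of finite measure -/
theorem sq_setIntegral_le {u : E → ℝ} {S : Set E} (hS : MeasurableSet S)
    (hm0 : 0 < volume.real S) (hfin : volume S ≠ (⊤ : ℝ≥0∞))
    (hu : IntegrableOn u S volume) (hu2 : IntegrableOn (fun x => u x ^ 2) S volume) :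
    (∫ x in S, u x) ^ 2 ≤ volume.real S * ∫ x in S, u x ^ 2 := by
  set m := volume.real S with hm
  set I := ∫ x in S, u x with hI
  have hc : IntegrableOn (fun _ : E => (I / m) ^ 2) S volume := integrableOn_const hfin
  have h1 : 0 ≤ ∫ x in S, (u x - I / m) ^ 2 := integral_nonneg fun x => sq_nonneg _
  have h2 : ∫ x in S, (u x - I / m) ^ 2 =
      (∫ x in S, u x ^ 2) - 2 * (I / m) * I + m * (I / m) ^ 2 := by
    have e : ∀ x, (u x - I / m) ^ 2 = (u x ^ 2 - 2 * (I / m) * u x) + (I / m) ^ 2 := fun x => by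
      ring
    simp_rw [e]
    have q1 := integral_add (hu2.sub (hu.const_mul (2 * (I / m)))) hc
    have q2 := integral_sub hu2 (hu.const_mul (2 * (I / m)))
    simp only [Pi.sub_apply] at q1
    rw [q1, q2, integral_const_mul, setIntegral_const, smul_eq_mul]
  rw [h2] at h1
  have h3 : (∫ x in S, u x ^ 2) - 2 * (I / m) * I + m * (I / m) ^ 2 =
      (∫ x in S, u x ^ 2) - I ^ 2 / m := by
    field_simp
    ring
  rw [h3] at h1
  have h4 : I ^ 2 / m ≤ ∫ x in S, u x ^ 2 := by linarith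
  rw [div_le_iff₀ hm0] at h4
  linarith

end MV

open MV

/-- **mean value inequality** for nonnegative subsolutions `-½Δu ≤ C u` -/
theorem mean_value {C ρ : ℝ} (hC : 0 ≤ C) (hρ : 0 < ρ) : ∃ A : ℝ, 0 < A ∧
    ∀ (u : E → ℝ) (g : E → E), H1 u g → (∀ᵐ x, 0 ≤ u x) → ∀ U : Set E, IsOpen U →
      (∀ φ : E → ℝ, Test U φ → (∀ x, 0 ≤ φ x) →
        (1 / 2) * (∫ x, inner ℝ (g x) (gr φ x)) ≤ C * ∫ x, u x * φ x) →
      ∀ᵐ x, Metric.closedBall x ρ ⊆ U → u x ^ 2 ≤ A * ∫ y in Metric.ball x ρ, u y ^ 2 := by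
  obtain ⟨B, hB0, hB⟩ := bdd_of_zero contDiff_F1.continuous (fun t ht => F1_zero ht)
  set n := Fintype.card ι with hn
  set v := volume.real (Metric.ball (0 : E) 1) with hv
  have hv0 : 0 < v := ENNReal.toReal_pos (Metric.measure_ball_pos volume (0 : E) one_pos).ne'
    measure_ball_lt_top.ne
  set c1 := Real.exp (-(4 / 3)) with hc1
  have hc10 : 0 < c1 := Real.exp_pos _
  set k := c1 * (1 / 2) ^ n * v with hk
  have hk0 : 0 < k := by positivity
  have hfr : Module.finrank ℝ E = n := by rw [finrank_euclideanSpace]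
  refine ⟨(wt ι C ρ * B / k) ^ 2 * (ρ ^ n * v) + 1, by positivity,
    fun u g h hu0 U hU hsub => ?_⟩
  have hloc : LocallyIntegrable u volume := locallyIntegrableOn_univ.1 h.wg.intf
  filter_upwards [IsUnifLocDoublingMeasure.ae_tendsto_average volume hloc 1, hu0]
    with x hx hx0 hxU
  -- upper bound of `G(ρ)`
  have hvol : volume.real (Metric.ball x ρ) = ρ ^ n * v := by
    rw [Measure.real, Measure.addHaar_ball_of_pos volume x hρ, ENNReal.toReal_mul,
      ENNReal.toReal_ofReal (by positivity), hfr]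
    rfl
  have hub : IntegrableOn u (Metric.ball x ρ) volume :=
    (hloc.integrableOn_isCompact (isCompact_closedBall x ρ)).mono_set Metric.ball_subset_closedBall
  have hu2 : IntegrableOn (fun y => u y ^ 2) (Metric.ball x ρ) volume :=
    h.memf.integrable_sq.integrableOn
  have hup : av u x ρ ≤ B * ∫ y in Metric.ball x ρ, u y := by
    unfold av
    have e : ∫ y, u y * (- F1 (q x ρ y)) = ∫ y in Metric.ball x ρ, u y * (- F1 (q x ρ y)) := by
      rw [setIntegral_eq_integral_of_forall_compl_eq_zero]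
      intro y hy
      rw [Metric.mem_ball, dist_eq_norm, not_lt] at hy
      rw [F1_zero (one_le_q hρ hy), neg_zero, mul_zero]
    rw [e, ← integral_const_mul]
    refine integral_mono_ae (integrable_av hloc x hρ).integrableOn (hub.const_mul _) ?_
    filter_upwards [ae_restrict_of_ae hu0] with y hy
    show u y * (- F1 (q x ρ y)) ≤ B * u y
    rw [mul_comm B]
    exact mul_le_mul_of_nonneg_left ((neg_le_abs _).trans (hB _ (q_nonneg _ _ _))) hy
  -- the lower bound
  have hlow : ∀ ε : ℝ, 0 < ε → ε ≤ ρ →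
      k * (⨍ y in Metric.closedBall x (ε / 2), u y) ≤ wt ι C ρ * av u x ρ := by
    intro ε hε hερ
    refine le_trans ?_ (MV.mono h.wg hC hu0 hsub hε hερ hxU)
    have hvol2 : volume.real (Metric.closedBall x (ε / 2)) = (ε / 2) ^ n * v := by
      rw [Measure.real, Measure.addHaar_closedBall volume x (by positivity), ENNReal.toReal_mul,
        ENNReal.toReal_ofReal (by positivity), hfr]
      rfl
    have h1 : c1 * ∫ y in Metric.closedBall x (ε / 2), u y ≤ av u x ε := by
      unfold av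
      rw [← integral_const_mul]
      have h2 : ∫ y in Metric.closedBall x (ε / 2), c1 * u y ≤
          ∫ y in Metric.closedBall x (ε / 2), u y * (- F1 (q x ε y)) := by
        refine setIntegral_mono_ae_restrict
          ((hloc.integrableOn_isCompact (isCompact_closedBall x (ε / 2))).const_mul _)
          (integrable_av hloc x hε).integrableOn ?_
        filter_upwards [ae_restrict_of_ae hu0, ae_restrict_mem measurableSet_closedBall] with y hy
          hyb
        rw [mul_comm c1]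
        refine mul_le_mul_of_nonneg_left (F1_low (q_nonneg _ _ _) ?_) hy
        rw [Metric.mem_closedBall, dist_eq_norm] at hyb
        unfold q
        rw [div_le_iff₀ (by positivity)]
        have := pow_le_pow_left₀ (norm_nonneg _) hyb 2
        nlinarith
      refine h2.trans (setIntegral_le_integral (integrable_av hloc x hε) ?_)
      filter_upwards [hu0] with y hy
      exact mul_nonneg hy (F1_nonpos (q_nonneg _ _ _))
    have h0 : 0 ≤ ∫ y in Metric.closedBall x (ε / 2), u y :=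
      integral_nonneg_of_ae (ae_restrict_of_ae hu0)
    have h3 : ((ε : ℝ) ^ n)⁻¹ ≤ wt ι C ε := by
      unfold wt
      have : ((ε : ℝ) ^ n)⁻¹ = Real.exp (-(n * Real.log ε)) := by
        rw [Real.exp_neg, Real.exp_nat_mul, Real.exp_log hε]
      rw [this]
      refine Real.exp_le_exp.2 ?_
      have : 0 ≤ C * ε ^ 2 / 2 := by positivity
      linarith
    calc k * (⨍ y in Metric.closedBall x (ε / 2), u y)
        = ((ε : ℝ) ^ n)⁻¹ * (c1 * ∫ y in Metric.closedBall x (ε / 2), u y) := by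
          have e0 : (ε / 2) ^ n = ε ^ n * (1 / 2) ^ n := by
            rw [← mul_pow]
            congr 1
            ring
          rw [setAverage_eq, hvol2, smul_eq_mul, hk, e0]
          have p1 : (ε : ℝ) ^ n ≠ 0 := (pow_pos hε n).ne'
          have p2 : ((1 / 2 : ℝ)) ^ n ≠ 0 := (pow_pos (by norm_num) n).ne'
          have p3 : v ≠ 0 := hv0.ne'
          generalize (ε : ℝ) ^ n = X1 at *
          generalize ((1 / 2 : ℝ)) ^ n = X2 at *
          field_simp
      _ ≤ wt ι C ε * av u x ε := by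
          refine mul_le_mul h3 h1 (by positivity) (Real.exp_pos _).le
  -- the limit
  have hlim : k * u x ≤ wt ι C ρ * av u x ρ := by
    have hδ : Tendsto (fun j : ℕ => ρ / (j + 1 : ℝ) / 2) atTop (𝓝[>] 0) := by
      refine tendsto_nhdsWithin_iff.2 ⟨?_, Eventually.of_forall fun j => ?_⟩
      · have h1 : Tendsto (fun j : ℕ => ρ / (j + 1 : ℝ)) atTop (𝓝 0) := by
          have := tendsto_one_div_add_atTop_nhds_zero_nat (𝕜 := ℝ)
          have h2 := this.const_mul ρ
          rw [mul_zero] at h2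
          refine h2.congr fun j => ?_
          rw [mul_one_div]
        simpa using h1.div_const 2
      · show 0 < ρ / (j + 1 : ℝ) / 2
        positivity
    have h1 := hx (fun _ : ℕ => x) _ hδ (Eventually.of_forall fun j => by
      rw [Metric.mem_closedBall, dist_self]
      positivity)
    refine le_of_tendsto (h1.const_mul k) (Eventually.of_forall fun j => ?_)
    refine hlow (ρ / (j + 1 : ℝ)) (by positivity) ?_
    exact div_le_self hρ.le (by linarith [(Nat.cast_nonneg j : (0 : ℝ) ≤ j)])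
  have hI0 : 0 ≤ ∫ y in Metric.ball x ρ, u y := integral_nonneg_of_ae (ae_restrict_of_ae hu0)
  have hfin : u x ≤ wt ι C ρ * B / k * ∫ y in Metric.ball x ρ, u y := by
    rw [div_mul_eq_mul_div, le_div_iff₀ hk0]
    calc u x * k = k * u x := mul_comm _ _
      _ ≤ wt ι C ρ * av u x ρ := hlim
      _ ≤ wt ι C ρ * (B * ∫ y in Metric.ball x ρ, u y) :=
          mul_le_mul_of_nonneg_left hup (Real.exp_pos _).le
      _ = _ := by ring
  have hCS := sq_setIntegral_le measurableSet_ball (by rw [hvol]; positivity)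
    measure_ball_lt_top.ne hub hu2
  rw [hvol] at hCS
  have hJ0 : 0 ≤ ∫ y in Metric.ball x ρ, u y ^ 2 := integral_nonneg fun y => sq_nonneg _
  calc u x ^ 2 ≤ (wt ι C ρ * B / k * ∫ y in Metric.ball x ρ, u y) ^ 2 :=
        pow_le_pow_left₀ hx0 hfin 2
    _ = (wt ι C ρ * B / k) ^ 2 * (∫ y in Metric.ball x ρ, u y) ^ 2 := mul_pow _ _ _
    _ ≤ (wt ι C ρ * B / k) ^ 2 * (ρ ^ n * v * ∫ y in Metric.ball x ρ, u y ^ 2) :=
        mul_le_mul_of_nonneg_left hCS (sq_nonneg _)
    _ ≤ ((wt ι C ρ * B / k) ^ 2 * (ρ ^ n * v) + 1) * ∫ y in Metric.ball x ρ, u y ^ 2 := by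
        rw [add_mul]
        nlinarith

end Crest.Agent.R335
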