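import Crest.Agent.R335.BFarA
import Crest.Agent.R335.MeanVal

/-!
# Row 335 (S0521): module BFarB (part of BFar)

Local sup bound of the pair density, and the singular part of the far coupling.
-/

set_option autoImplicit false
set_option linter.unusedVariables false
set_option linter.unusedSectionVars false

open MeasureTheory Filter Set Crest.MathPhysics.ThreeBody
open scoped ENNReal Topology ContDiff NNReal

noncomputable section
namespace Crest.Agent.R335
namespace BF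

/-! ### measure theory -/

section gen
variable {ι κ κ' : Type*} [Fintype ι] [DecidableEq ι] [Fintype κ] [DecidableEq κ]
  [Fintype κ'] [DecidableEq κ']

theorem ae_jn (p : ι ≃ κ ⊕ κ') {P : EuclideanSpace ℝ ι → Prop} (h : ∀ᵐ x, P x) :
    ∀ᵐ x : EuclideanSpace ℝ κ, ∀ᵐ y : EuclideanSpace ℝ κ', P (jn p x y) := by
  have h1 := (measurePreserving_jn p).quasiMeasurePreserving.ae h
  exact Measure.ae_ae_of_ae_prod h1

theorem measurable_jn (p : ι ≃ κ ⊕ κ') :
    Measurable (fun q : EuclideanSpace ℝ κ × EuclideanSpace ℝ κ' => jn p q.1 q.2) :=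
  (measurePreserving_jn p).measurable

end gen

/-- weighted fibre integral -/
def TT (ϖ : Pos3 → ℝ≥0∞) (q : Config3 → ℝ≥0∞) (η : Y2) : ℝ≥0∞ := ∫⁻ y, ϖ y * q (jn p63 η y)

theorem measurable_TT {ϖ : Pos3 → ℝ≥0∞} {q : Config3 → ℝ≥0∞} (hϖ : Measurable ϖ)
    (hq : Measurable q) : Measurable (TT ϖ q) := by
  have h : Measurable fun z : Y2 × Pos3 => ϖ z.2 * q (jn p63 z.1 z.2) :=
    (hϖ.comp measurable_snd).mul (hq.comp (measurable_jn p63))
  exact h.lintegral_prod_right'

theorem continuous_jb : Continuous jb := by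
  unfold jb
  fun_prop

theorem jb_nonneg (y : Pos3) : 0 ≤ jb y := Real.sqrt_nonneg _

theorem norm_le_jb (y : Pos3) : ‖y‖ ≤ jb y := by
  unfold jb
  exact Real.le_sqrt_of_sq_le (by linarith)

theorem jb_le (y : Pos3) : jb y ≤ 1 + ‖y‖ := by
  unfold jb
  rw [Real.sqrt_le_left (by positivity)]
  nlinarith [norm_nonneg y]

theorem jb_sub_le (x y : Pos3) : jb x - jb y ≤ ‖x - y‖ := by
  have h1 : ‖x‖ ≤ ‖y‖ + ‖x - y‖ := by
    have := norm_add_le y (x - y)
    simpa using this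
  have hy := norm_le_jb y
  have hy0 := jb_nonneg y
  have h2 : jb x ≤ jb y + ‖x - y‖ := by
    unfold jb
    rw [Real.sqrt_le_left (by positivity)]
    have h3 : √(1 + ‖y‖ ^ 2) ^ 2 = 1 + ‖y‖ ^ 2 := Real.sq_sqrt (by positivity)
    have h4 : ‖x‖ ^ 2 ≤ (‖y‖ + ‖x - y‖) ^ 2 := pow_le_pow_left₀ (norm_nonneg _) h1 2
    have h5 : ‖y‖ * ‖x - y‖ ≤ √(1 + ‖y‖ ^ 2) * ‖x - y‖ :=
      mul_le_mul_of_nonneg_right hy (norm_nonneg _)
    nlinarith
  linarith

/-- truncated weight -/
def th (b : ℝ) (n : ℕ) (y : Pos3) : ℝ := b * min (jb y) n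

theorem th_nonneg {b : ℝ} (hb : 0 ≤ b) (n : ℕ) (y : Pos3) : 0 ≤ th b n y :=
  mul_nonneg hb (le_min (jb_nonneg y) n.cast_nonneg)

theorem th_le {b : ℝ} (hb : 0 ≤ b) (n : ℕ) (y : Pos3) : th b n y ≤ b * n :=
  mul_le_mul_of_nonneg_left (min_le_right _ _) hb

theorem th_lip {b : ℝ≥0} (n : ℕ) : LipschitzWith b (th b n) := by
  have h1 : LipschitzWith 1 jb := by
    refine LipschitzWith.of_dist_le_mul fun x y => ?_
    rw [Real.dist_eq, dist_eq_norm, NNReal.coe_one, one_mul, abs_le]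
    have h2 := jb_sub_le y x
    rw [norm_sub_rev] at h2
    exact ⟨by linarith, jb_sub_le x y⟩
  have h2 : LipschitzWith 1 (fun y => min (jb y) (n : ℝ)) := by
    have := h1.min (LipschitzWith.const (n : ℝ))
    simpa using this
  refine LipschitzWith.of_dist_le_mul fun x y => ?_
  have h3 := h2.dist_le_mul x y
  rw [NNReal.coe_one, one_mul] at h3
  unfold th
  rw [Real.dist_eq, ← mul_sub, abs_mul, abs_of_nonneg b.coe_nonneg]
  rw [Real.dist_eq] at h3
  exact mul_le_mul_of_nonneg_left h3 b.coe_nonneg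

/-- weights in `ℝ≥0∞` -/
def vn (b : ℝ) (n : ℕ) (y : Pos3) : ℝ≥0∞ := ENNReal.ofReal (Real.exp (2 * th b n y))
def vv (b : ℝ) (y : Pos3) : ℝ≥0∞ := ENNReal.ofReal (Real.exp (2 * b * jb y))

theorem measurable_vn (b : ℝ) (n : ℕ) : Measurable (vn b n) := by
  unfold vn th
  have := continuous_jb.measurable
  fun_prop

theorem measurable_vv (b : ℝ) : Measurable (vv b) := by
  unfold vv
  have := continuous_jb.measurable
  fun_prop

theorem vn_mono {b : ℝ} (hb : 0 ≤ b) : Monotone (fun n => vn b n) := by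
  intro m n hmn y
  refine ENNReal.ofReal_le_ofReal (Real.exp_le_exp.2 ?_)
  unfold th
  have h1 : min (jb y) (m : ℝ) ≤ min (jb y) n := min_le_min_left _ (by exact_mod_cast hmn)
  have h2 := mul_le_mul_of_nonneg_left h1 hb
  linarith

theorem iSup_vn {b : ℝ} (hb : 0 ≤ b) (y : Pos3) : ⨆ n, vn b n y = vv b y := by
  refine le_antisymm (iSup_le fun n => ENNReal.ofReal_le_ofReal (Real.exp_le_exp.2 ?_)) ?_
  · unfold th
    have := mul_le_mul_of_nonneg_left (min_le_left (jb y) (n : ℝ)) hb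
    linarith
  · obtain ⟨n, hn⟩ := exists_nat_ge (jb y)
    refine le_trans (le_of_eq ?_) (le_iSup _ n)
    unfold vn vv th
    rw [min_eq_left hn]
    ring_nf

theorem TT_iSup {b : ℝ} (hb : 0 ≤ b) {q : Config3 → ℝ≥0∞} (hq : Measurable q) (η : Y2) :
    TT (vv b) q η = ⨆ n, TT (vn b n) q η := by
  unfold TT
  rw [← lintegral_iSup]
  · refine lintegral_congr fun y => ?_
    rw [← iSup_vn hb y, ENNReal.iSup_mul]
  · intro n
    exact (measurable_vn b n).mul (hq.comp ((measurable_jn p63).comp measurable_prodMk_left))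
  · intro m n hmn y
    exact mul_le_mul_left (vn_mono hb hmn y) _

/-- local sup bound of the pair density -/
theorem pd_bound : ∃ A : ℝ≥0∞, A ≠ ⊤ ∧ ∀ (D lam E σ : ℝ) (b : ℝ) (Y : Config3 → ℝ)
    (dY : Config3 → Config3), Chan D lam E σ Y dY → 0 ≤ lam → E ≤ 0 → 0 ≤ b → b ≤ 1 →
    ∀ q : Config3 → ℝ≥0∞, Measurable q → (∀ᵐ x, q x = ENNReal.ofReal (Y x ^ 2)) →
    ∀ᵐ η : Y2, Metric.closedBall η (1 / 2) ⊆ UU D →
      TT (vv b) q η ≤ A * ∫⁻ η' in Metric.ball η (1 / 2), TT (vv b) q η' := by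
  obtain ⟨A, hA, hMV⟩ := mean_value (ι := Fin 2 × Fin 3) (C := 17) (ρ := 1 / 2) (by norm_num)
    (by norm_num)
  refine ⟨ENNReal.ofReal A, ENNReal.ofReal_ne_top, fun D lam E σ b Y dY hY hlam hE hb hb1 q hq hqY =>
    ?_⟩
  obtain ⟨b, rfl⟩ : ∃ b' : ℝ≥0, (b' : ℝ) = b := ⟨⟨b, hb⟩, rfl⟩
  have key : ∀ n : ℕ, ∀ᵐ η : Y2, Metric.closedBall η (1 / 2) ⊆ UU D →
      TT (vn b n) q η ≤ ENNReal.ofReal A * ∫⁻ η' in Metric.ball η (1 / 2), TT (vv b) q η' := by
    intro n
    obtain ⟨m, hm, hle⟩ := kato_pair hY hlam hE hb1 (th_lip (b := b) n) (th_nonneg hb n)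
      (th_le hb n)
    have h1 := hMV (NN (th b n) Y) m hm (ae_of_all _ fun x => Real.sqrt_nonneg _) (UU D)
      (isOpen_UU D) hle
    have hf := fw_H1 (th_lip (b := b) n) (th_nonneg hb n) (th_le hb n) hY.h1
    have h2 : ∀ᵐ η : Y2, ENNReal.ofReal (NN (th b n) Y η ^ 2) = TT (vn b n) q η := by
      filter_upwards [MemLp.slice_right p63 hf.memf, ae_jn p63 hqY] with η hη hqη
      rw [NN_sq, ofReal_integral_eq_lintegral_ofReal hη.integrable_sq
        (ae_of_all _ fun y => sq_nonneg _)]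
      unfold TT
      refine lintegral_congr_ae ?_
      filter_upwards [hqη] with y hy
      rw [hy]
      unfold vn fw wt
      rw [pr2_jn, mul_pow, ENNReal.ofReal_mul (by positivity), ← Real.exp_nat_mul]
      norm_num
    filter_upwards [h1, h2] with η h3 h4 hU
    have h5 := h3 hU
    rw [← h4]
    refine (ENNReal.ofReal_le_ofReal h5).trans ?_
    rw [ENNReal.ofReal_mul hA.le]
    refine mul_le_mul_right ?_ _
    rw [ofReal_integral_eq_lintegral_ofReal hm.memf.integrable_sq.integrableOn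
      (ae_of_all _ fun y => sq_nonneg _)]
    refine (le_of_eq (setLIntegral_congr_fun_ae Metric.isOpen_ball.measurableSet
      (h2.mono fun η' h _ => h))).trans ?_
    refine lintegral_mono fun η' => ?_
    rw [TT_iSup hb hq]
    exact le_iSup (fun n => TT (vn b n) q η') n
  filter_upwards [ae_all_iff.2 key] with η hη hU
  rw [TT_iSup hb hq]
  exact iSup_le fun n => hη n hU

end BF
end Crest.Agent.R335
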