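import Crest.Agent.R335.BFarB
import Crest.Agent.R335.HGlob

/-!
# Row 335 (S0521): module BFarC (part of BFar)

The singular part of the far coupling: Tonelli and the Newton kernel.
-/

set_option autoImplicit false
set_option linter.unusedVariables false
set_option linter.unusedSectionVars false

open MeasureTheory Filter Set Crest.MathPhysics.ThreeBody
open scoped ENNReal Topology ContDiff NNReal

noncomputable section
namespace Crest.Agent.R335
namespace BF

theorem newton_ball : ∃ C : ℝ≥0∞, C ≠ ⊤ ∧ ∀ a : Pos3,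
    ∫⁻ x in Metric.ball a 1, ENNReal.ofReal (1 / ‖a - x‖ ^ 2) = C := by
  refine ⟨∫⁻ x in Metric.ball (0 : Pos3) 1, ENNReal.ofReal (1 / ‖x‖ ^ 2), ?_, fun a => ?_⟩
  · obtain ⟨χ, hχ, h01, V, hV, hKV, hVU, h1⟩ := exists_cutoff (ι := Fin 3)
      (isCompact_closedBall (0 : Pos3) 1) isOpen_univ (subset_univ _)
    have h2 := (ob_hardy (H1.of_test hχ) 0).1
    have h3 := h2.lintegral_lt_top
    refine ne_top_of_le_ne_top h3.ne ?_
    refine (setLIntegral_mono' Metric.isOpen_ball.measurableSet fun x hx => ?_).trans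
      (setLIntegral_le_lintegral (Metric.ball (0 : Pos3) 1) _)
    rw [h1 x (hKV (Metric.ball_subset_closedBall hx)), sub_zero, one_pow]
  · rw [← lintegral_indicator Metric.isOpen_ball.measurableSet,
      ← lintegral_indicator Metric.isOpen_ball.measurableSet,
      ← lintegral_add_right_eq_self _ a]
    refine lintegral_congr fun x => ?_
    by_cases h : x ∈ Metric.ball (0 : Pos3) 1
    · rw [indicator_of_mem h, indicator_of_mem (by simpa using h)]
      have : a - (x + a) = -x := by abel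
      rw [this, norm_neg]
    · rw [indicator_of_notMem h, indicator_of_notMem (by simpa using h)]

theorem el_sub_le (j : Fin 2) (ξ η : Y2) : ‖el j ξ - el j η‖ ≤ ‖ξ - η‖ := by
  refine (sq_le_sq₀ (norm_nonneg _) (norm_nonneg _)).1 ?_
  rw [EuclideanSpace.norm_sq_eq, EuclideanSpace.norm_sq_eq]
  have h : ∑ i : Fin 3, ‖(el j ξ - el j η) i‖ ^ 2 =
      ∑ p ∈ (Finset.univ : Finset (Fin 3)).map ⟨fun c => (j, c), fun a b h => by simpa using h⟩,
        ‖(ξ - η) p‖ ^ 2 := by
    rw [Finset.sum_map]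
    rfl
  rw [h]
  exact Finset.sum_le_sum_of_subset_of_nonneg (Finset.subset_univ _) fun _ _ _ => sq_nonneg _

theorem setLint_p6 {B : Set Pos3} (hB : MeasurableSet B) {H : Y2 → ℝ≥0∞} (hH : AEMeasurable H) :
    ∫⁻ ξ in el 0 ⁻¹' B, H ξ = ∫⁻ x₁ in B, ∫⁻ y, H (jn p6 x₁ y) := by
  have hBm : MeasurableSet (el 0 ⁻¹' B) := (continuous_el 0).measurable hB
  rw [← lintegral_indicator hBm, lintegral_jn p6 (hH.indicator hBm), ← lintegral_indicator hB]
  refine lintegral_congr fun x₁ => ?_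
  by_cases h : x₁ ∈ B
  · rw [indicator_of_mem h]
    refine lintegral_congr fun y => ?_
    rw [indicator_of_mem (by simpa [el_jn_zero] using h)]
  · rw [indicator_of_notMem h]
    refine (lintegral_congr fun y => ?_).trans lintegral_zero
    rw [indicator_of_notMem (by simpa [el_jn_zero] using h)]

theorem lint_ball_le (X x₁ : Pos3) {T : Y2 → ℝ≥0∞} (hT : Measurable T) :
    ∫⁻ η' in Metric.ball (jn p6 X x₁) (1 / 2), T η' ≤
      ∫⁻ X' in Metric.ball X (1 / 2), ∫⁻ x₁' in Metric.ball x₁ (1 / 2), T (jn p6 X' x₁') := by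
  have hS : MeasurableSet (el 1 ⁻¹' Metric.ball x₁ (1 / 2)) :=
    (continuous_el 1).measurable Metric.isOpen_ball.measurableSet
  have h1 : Metric.ball (jn p6 X x₁) (1 / 2) ⊆
      el 0 ⁻¹' Metric.ball X (1 / 2) ∩ el 1 ⁻¹' Metric.ball x₁ (1 / 2) := by
    intro η hη
    rw [Metric.mem_ball, dist_eq_norm] at hη
    have h0 := el_sub_le 0 η (jn p6 X x₁)
    have h1 := el_sub_le 1 η (jn p6 X x₁)
    rw [el_jn_zero] at h0
    rw [el_jn_one] at h1
    simp only [mem_inter_iff, mem_preimage, Metric.mem_ball, dist_eq_norm]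
    exact ⟨h0.trans_lt hη, h1.trans_lt hη⟩
  refine (lintegral_mono_set h1).trans ?_
  have h2 : ∫⁻ η' in el 0 ⁻¹' Metric.ball X (1 / 2) ∩ el 1 ⁻¹' Metric.ball x₁ (1 / 2), T η' =
      ∫⁻ η' in el 0 ⁻¹' Metric.ball X (1 / 2), (el 1 ⁻¹' Metric.ball x₁ (1 / 2)).indicator T η' := by
    rw [lintegral_indicator hS, Measure.restrict_restrict hS, inter_comm]
  rw [h2, setLint_p6 Metric.isOpen_ball.measurableSet (hT.indicator hS).aemeasurable]
  refine le_of_eq (lintegral_congr fun X' => ?_)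
  rw [← lintegral_indicator Metric.isOpen_ball.measurableSet]
  refine lintegral_congr fun y => ?_
  by_cases h : y ∈ Metric.ball x₁ (1 / 2)
  · rw [indicator_of_mem h, indicator_of_mem (by simpa [el_jn_one] using h)]
  · rw [indicator_of_notMem h, indicator_of_notMem (by simpa [el_jn_one] using h)]

theorem vv_le {b : ℝ} (hb : 0 ≤ b) (hb1 : b ≤ 1) {x x' : Pos3} (h : ‖x - x'‖ ≤ 1 / 2) :
    vv b x ≤ ENNReal.ofReal (Real.exp 1) * vv b x' := by
  unfold vv
  rw [← ENNReal.ofReal_mul (Real.exp_pos _).le, ← Real.exp_add]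
  refine ENNReal.ofReal_le_ofReal (Real.exp_le_exp.2 ?_)
  have h1 := jb_sub_le x x'
  nlinarith

theorem wi_jn (x y : Pos3) : wi (jn p6 x y) = jb x + jb y := by
  unfold wi
  rw [el_jn_zero, el_jn_one]

/-- weight of the ion in `ℝ≥0∞` -/
def ww (b : ℝ) (ξ : Y2) : ℝ≥0∞ := ENNReal.ofReal (Real.exp (2 * b * wi ξ))

theorem ww_jn (b : ℝ) (x y : Pos3) : ww b (jn p6 x y) = vv b x * vv b y := by
  unfold ww vv
  rw [wi_jn, ← ENNReal.ofReal_mul (Real.exp_pos _).le, ← Real.exp_add]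
  ring_nf

theorem continuous_wi : Continuous wi := by
  unfold wi
  exact (continuous_jb.comp (continuous_el 0)).add (continuous_jb.comp (continuous_el 1))

theorem measurable_ww (b : ℝ) : Measurable (ww b) := by
  unfold ww
  have := continuous_wi.measurable
  fun_prop

def LL (b : ℝ) (q : Config3 → ℝ≥0∞) (Z X : Pos3) : ℝ≥0∞ :=
  ∫⁻ ξ in el 0 ⁻¹' Metric.ball Z 1,
    ENNReal.ofReal (1 / ‖Z - el 0 ξ‖ ^ 2) * (ww b ξ * q (jn p9 X ξ))

def GG (b : ℝ) (q : Config3 → ℝ≥0∞) (Z X : Pos3) : ℝ≥0∞ :=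
  ∫⁻ ξ in el 0 ⁻¹' Metric.ball Z (3 / 2), ww b ξ * q (jn p9 X ξ)

theorem measurable_newton (Z : Pos3) :
    Measurable fun x : Pos3 => ENNReal.ofReal (1 / ‖Z - x‖ ^ 2) := by
  fun_prop

theorem measurable_wq (b : ℝ) {q : Config3 → ℝ≥0∞} (hq : Measurable q) (X : Pos3) :
    Measurable fun ξ => ww b ξ * q (jn p9 X ξ) :=
  (measurable_ww b).mul (hq.comp ((measurable_jn p9).comp measurable_prodMk_left))

theorem wq_jn (b : ℝ) {q : Config3 → ℝ≥0∞} (hq : Measurable q) (X x₁ : Pos3) :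
    ∫⁻ y, ww b (jn p6 x₁ y) * q (jn p9 X (jn p6 x₁ y)) = vv b x₁ * TT (vv b) q (jn p6 X x₁) := by
  unfold TT
  rw [← lintegral_const_mul]
  · refine lintegral_congr fun y => ?_
    rw [ww_jn, jn_assoc, mul_assoc]
  · exact (measurable_vv b).mul (hq.comp ((measurable_jn p63).comp measurable_prodMk_left))

theorem GG_eq (b : ℝ) {q : Config3 → ℝ≥0∞} (hq : Measurable q) (Z X : Pos3) :
    GG b q Z X = ∫⁻ x₁ in Metric.ball Z (3 / 2), vv b x₁ * TT (vv b) q (jn p6 X x₁) := by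
  unfold GG
  rw [setLint_p6 Metric.isOpen_ball.measurableSet (measurable_wq b hq X).aemeasurable]
  exact lintegral_congr fun x₁ => wq_jn b hq X x₁

theorem LL_eq (b : ℝ) {q : Config3 → ℝ≥0∞} (hq : Measurable q) (Z X : Pos3) :
    LL b q Z X = ∫⁻ x₁ in Metric.ball Z 1,
      ENNReal.ofReal (1 / ‖Z - x₁‖ ^ 2) * (vv b x₁ * TT (vv b) q (jn p6 X x₁)) := by
  unfold LL
  rw [setLint_p6 Metric.isOpen_ball.measurableSet]
  · refine lintegral_congr fun x₁ => ?_
    rw [← wq_jn b hq X x₁, ← lintegral_const_mul]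
    · refine lintegral_congr fun y => ?_
      rw [el_jn_zero]
    · exact (measurable_wq b hq X).comp ((measurable_jn p6).comp measurable_prodMk_left)
  · exact (((measurable_newton Z).comp (continuous_el 0).measurable).mul
      (measurable_wq b hq X)).aemeasurable

theorem sing : ∃ C : ℝ≥0∞, C ≠ ⊤ ∧ ∀ (D lam E σ : ℝ) (b : ℝ) (Y : Config3 → ℝ)
    (dY : Config3 → Config3), Chan D lam E σ Y dY → 0 ≤ lam → E ≤ 0 → 0 ≤ b → b ≤ 1 →
    ∀ q : Config3 → ℝ≥0∞, Measurable q → (∀ᵐ x, q x = ENNReal.ofReal (Y x ^ 2)) →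
    ∀ᵐ X : Pos3, ∀ Z : Pos3,
      (∀ x₁ ∈ Metric.ball Z 1, Metric.closedBall (jn p6 X x₁) (1 / 2) ⊆ UU D) →
      LL b q Z X ≤ C * ∫⁻ X' in Metric.ball X (1 / 2), GG b q Z X' := by
  obtain ⟨A, hA, hpd⟩ := pd_bound
  obtain ⟨C3, hC3, hN⟩ := newton_ball
  refine ⟨C3 * (A * ENNReal.ofReal (Real.exp 1)),
    ENNReal.mul_ne_top hC3 (ENNReal.mul_ne_top hA ENNReal.ofReal_ne_top), ?_⟩
  intro D lam E σ b Y dY hY hlam hE hb hb1 q hq hqY
  have hTT : Measurable (TT (vv b) q) := measurable_TT (measurable_vv b) hq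
  filter_upwards [ae_jn p6 (hpd D lam E σ b Y dY hY hlam hE hb hb1 q hq hqY)] with X hX Z hZ
  set I := ∫⁻ X' in Metric.ball X (1 / 2), GG b q Z X' with hI
  rw [LL_eq b hq]
  have key : ∀ᵐ x₁ : Pos3, x₁ ∈ Metric.ball Z 1 →
      ENNReal.ofReal (1 / ‖Z - x₁‖ ^ 2) * (vv b x₁ * TT (vv b) q (jn p6 X x₁)) ≤
        ENNReal.ofReal (1 / ‖Z - x₁‖ ^ 2) * (A * ENNReal.ofReal (Real.exp 1) * I) := by
    filter_upwards [hX] with x₁ h1 hx₁
    refine mul_le_mul_right ?_ _
    have h2 : vv b x₁ * ∫⁻ η' in Metric.ball (jn p6 X x₁) (1 / 2), TT (vv b) q η' ≤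
        ENNReal.ofReal (Real.exp 1) * I := by
      refine (mul_le_mul_right (lint_ball_le X x₁ hTT) _).trans ?_
      have hm : Measurable fun X' : Pos3 => ∫⁻ x₁' in Metric.ball x₁ (1 / 2),
          TT (vv b) q (jn p6 X' x₁') := by
        have := hTT.comp (measurable_jn p6)
        exact this.lintegral_prod_right'
      rw [← lintegral_const_mul _ hm, hI, ← lintegral_const_mul' _ _ ENNReal.ofReal_ne_top]
      refine lintegral_mono fun X' => ?_
      have hm2 : Measurable fun x₁' : Pos3 => TT (vv b) q (jn p6 X' x₁') :=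
        hTT.comp ((measurable_jn p6).comp measurable_prodMk_left)
      rw [GG_eq b hq, ← lintegral_const_mul' _ _ ENNReal.ofReal_ne_top,
        ← lintegral_const_mul _ hm2]
      refine (setLIntegral_mono' (g := fun x₁' : Pos3 =>
        ENNReal.ofReal (Real.exp 1) * (vv b x₁' * TT (vv b) q (jn p6 X' x₁')))
        Metric.isOpen_ball.measurableSet fun x₁' hx₁' => ?_).trans (lintegral_mono_set ?_)
      · rw [← mul_assoc]
        refine mul_le_mul_left (vv_le hb hb1 ?_) _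
        rw [Metric.mem_ball, dist_comm, dist_eq_norm] at hx₁'
        exact hx₁'.le
      · intro x hx
        rw [Metric.mem_ball] at hx hx₁ ⊢
        have := dist_triangle x x₁ Z
        linarith
    calc vv b x₁ * TT (vv b) q (jn p6 X x₁)
        ≤ vv b x₁ * (A * ∫⁻ η' in Metric.ball (jn p6 X x₁) (1 / 2), TT (vv b) q η') :=
          mul_le_mul_right (h1 (hZ x₁ hx₁)) _
      _ = A * (vv b x₁ * ∫⁻ η' in Metric.ball (jn p6 X x₁) (1 / 2), TT (vv b) q η') := by ring
      _ ≤ A * (ENNReal.ofReal (Real.exp 1) * I) := mul_le_mul_right h2 _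
      _ = A * ENNReal.ofReal (Real.exp 1) * I := by ring
  refine (setLIntegral_mono_ae' Metric.isOpen_ball.measurableSet key).trans ?_
  rw [lintegral_mul_const _ (measurable_newton Z), hN Z]
  exact le_of_eq (by ring)

end BF
end Crest.Agent.R335
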