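import Crest.Agent.R335.HDefs

/-!
Row 335: elementary facts on `pd`, `gr`, `Test` and integrability against test functions
(helper543).
-/

set_option autoImplicit false
set_option linter.unusedSectionVars false

open MeasureTheory Filter Set
open scoped ENNReal Topology ContDiff

noncomputable section
namespace Crest.Agent.R335

variable {ι : Type*} [Fintype ι] [DecidableEq ι]

local notation "E" => EuclideanSpace ℝ ι

/-! ### partial derivatives -/

theorem pd_add' {φ ψ : E → ℝ} {x : E} (hφ : DifferentiableAt ℝ φ x) (hψ : DifferentiableAt ℝ ψ x)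
    (i : ι) : pd i (fun y => φ y + ψ y) x = pd i φ x + pd i ψ x := by
  simp only [pd]
  rw [fderiv_fun_add hφ hψ]
  rfl

theorem pd_sub {φ ψ : E → ℝ} {x : E} (hφ : DifferentiableAt ℝ φ x) (hψ : DifferentiableAt ℝ ψ x)
    (i : ι) : pd i (fun y => φ y - ψ y) x = pd i φ x - pd i ψ x := by
  simp only [pd]
  rw [fderiv_fun_sub hφ hψ]
  rfl

theorem pd_const_mul' {φ : E → ℝ} {x : E} (hφ : DifferentiableAt ℝ φ x) (c : ℝ)
    (i : ι) : pd i (fun y => c * φ y) x = c * pd i φ x := by
  simp only [pd]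
  rw [fderiv_const_mul hφ]
  rfl

theorem pd_mul' {φ ψ : E → ℝ} {x : E} (hφ : DifferentiableAt ℝ φ x) (hψ : DifferentiableAt ℝ ψ x)
    (i : ι) : pd i (fun y => φ y * ψ y) x = φ x * pd i ψ x + pd i φ x * ψ x := by
  simp only [pd]
  rw [fderiv_fun_mul hφ hψ]
  simp [mul_comm]

theorem pd_sum {κ : Type*} {s : Finset κ} {φ : κ → E → ℝ} {x : E}
    (h : ∀ k ∈ s, DifferentiableAt ℝ (φ k) x) (i : ι) :
    pd i (fun y => ∑ k ∈ s, φ k y) x = ∑ k ∈ s, pd i (φ k) x := by
  simp only [pd]
  rw [fderiv_fun_sum h]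
  simp

theorem pd_congr_of_eventuallyEq {φ ψ : E → ℝ} {x : E} (h : φ =ᶠ[𝓝 x] ψ) (i : ι) :
    pd i φ x = pd i ψ x := by
  simp only [pd]
  rw [h.fderiv_eq]

theorem pd_eq_zero_of_notMem {φ : E → ℝ} {x : E} (h : x ∉ tsupport φ) (i : ι) : pd i φ x = 0 := by
  simp only [pd]
  rw [fderiv_of_notMem_tsupport ℝ h]
  rfl

theorem continuous_pd {φ : E → ℝ} (h : ContDiff ℝ 1 φ) (i : ι) : Continuous (pd i φ) :=
  (h.continuous_fderiv (by norm_num)).clm_apply continuous_const

theorem contDiff_pd' {φ : E → ℝ} (h : ContDiff ℝ ∞ φ) (i : ι) : ContDiff ℝ ∞ (pd i φ) := by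
  have h1 : ContDiff ℝ ∞ (fderiv ℝ φ) := h.fderiv_right (by simp)
  exact h1.clm_apply contDiff_const

theorem continuous_gr {φ : E → ℝ} (h : ContDiff ℝ 1 φ) : Continuous (gr φ) := by
  unfold gr
  exact (PiLp.continuous_toLp 2 _).comp (continuous_pi fun i => continuous_pd h i)

theorem gr_add' {φ ψ : E → ℝ} {x : E} (hφ : DifferentiableAt ℝ φ x) (hψ : DifferentiableAt ℝ ψ x) :
    gr (fun y => φ y + ψ y) x = gr φ x + gr ψ x := by
  ext i
  simp [pd_add' hφ hψ]

theorem gr_const_mul' {φ : E → ℝ} {x : E} (hφ : DifferentiableAt ℝ φ x) (c : ℝ) :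
    gr (fun y => c * φ y) x = c • gr φ x := by
  ext i
  simp [pd_const_mul' hφ]

theorem gr_mul {φ ψ : E → ℝ} {x : E} (hφ : DifferentiableAt ℝ φ x) (hψ : DifferentiableAt ℝ ψ x) :
    gr (fun y => φ y * ψ y) x = φ x • gr ψ x + ψ x • gr φ x := by
  ext i
  simp [pd_mul' hφ hψ, mul_comm]

theorem gr_eq_zero_of_notMem' {φ : E → ℝ} {x : E} (h : x ∉ tsupport φ) : gr φ x = 0 := by
  ext i
  simp [pd_eq_zero_of_notMem h]

/-! ### test functions -/

theorem Test.differentiableAt {U : Set E} {φ : E → ℝ} (h : Test U φ) (x : E) :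
    DifferentiableAt ℝ φ x :=
  (h.smooth.differentiable (by simp)).differentiableAt

theorem Test.contDiff_one {U : Set E} {φ : E → ℝ} (h : Test U φ) : ContDiff ℝ 1 φ :=
  h.smooth.of_le (by norm_cast)

theorem Test.continuous {U : Set E} {φ : E → ℝ} (h : Test U φ) : Continuous φ :=
  h.smooth.continuous

theorem Test.mono {U V : Set E} {φ : E → ℝ} (h : Test V φ) (hVU : V ⊆ U) : Test U φ :=
  ⟨h.smooth, h.cpt, h.sub.trans hVU⟩

theorem Test.continuous_pd {U : Set E} {φ : E → ℝ} (h : Test U φ) (i : ι) :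
    Continuous (pd i φ) :=
  Crest.Agent.R335.continuous_pd h.contDiff_one i

theorem Test.tsupport_pd {U : Set E} {φ : E → ℝ} (_h : Test U φ) (i : ι) :
    tsupport (pd i φ) ⊆ tsupport φ := by
  refine closure_minimal (fun x hx => ?_) (isClosed_tsupport _)
  by_contra hcon
  exact hx (pd_eq_zero_of_notMem hcon i)

theorem Test.pd {U : Set E} {φ : E → ℝ} (h : Test U φ) (i : ι) : Test U (pd i φ) :=
  ⟨contDiff_pd' h.smooth i, h.cpt.of_isClosed_subset (isClosed_tsupport _) (h.tsupport_pd i),
    (h.tsupport_pd i).trans h.sub⟩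

theorem Test.add' {U : Set E} {φ ψ : E → ℝ} (h : Test U φ) (h' : Test U ψ) :
    Test U fun x => φ x + ψ x :=
  ⟨h.smooth.add h'.smooth, h.cpt.add h'.cpt,
    (tsupport_add φ ψ).trans (union_subset h.sub h'.sub)⟩

theorem Test.const_mul' {U : Set E} {φ : E → ℝ} (h : Test U φ) (c : ℝ) :
    Test U fun x => c * φ x :=
  ⟨contDiff_const.mul h.smooth, h.cpt.mul_left, (closure_mono (fun x hx => by
    simp only [Function.mem_support] at *
    exact right_ne_zero_of_mul hx)).trans h.sub⟩

/-- smooth times test -/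
theorem Test.mul_left {U : Set E} {φ : E → ℝ} (h : Test U φ) {k : E → ℝ} (hk : ContDiff ℝ ∞ k) :
    Test U fun x => k x * φ x :=
  ⟨hk.mul h.smooth, h.cpt.mul_left, (closure_mono (fun x hx => by
    simp only [Function.mem_support] at *
    exact right_ne_zero_of_mul hx)).trans h.sub⟩

/-- product of a test function of `U` and a test function of `V` -/
theorem Test.mul_inter {U V : Set E} {φ ψ : E → ℝ} (h : Test U φ) (h' : Test V ψ) :
    Test (U ∩ V) fun x => φ x * ψ x :=
  ⟨h.smooth.mul h'.smooth, h'.cpt.mul_left, fun x hx =>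
    ⟨h.sub ((closure_mono (fun y hy => by
      simp only [Function.mem_support] at *
      exact left_ne_zero_of_mul hy)) hx), h'.sub ((closure_mono (fun y hy => by
      simp only [Function.mem_support] at *
      exact right_ne_zero_of_mul hy)) hx)⟩⟩

/-! ### integrability against test functions -/

/-- a locally integrable function times a continuous function with compact support in `U` -/
theorem integrable_mul_of_loc {U : Set E} {f : E → ℝ} (hf : LocallyIntegrableOn f U volume)
    {ψ : E → ℝ} (hc : Continuous ψ) (hcs : HasCompactSupport ψ) (hsub : tsupport ψ ⊆ U) :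
    Integrable (fun x => f x * ψ x) := by
  have h1 : IntegrableOn f (tsupport ψ) volume := hf.integrableOn_compact_subset hsub hcs
  have h2 : IntegrableOn (fun x => f x * ψ x) (tsupport ψ) volume :=
    h1.mul_continuousOn hc.continuousOn hcs
  rw [← integrableOn_iff_integrable_of_support_subset (s := tsupport ψ)]
  · exact h2
  · intro x hx
    simp only [Function.mem_support] at hx
    exact subset_closure (right_ne_zero_of_mul hx)

/-- components of a locally integrable vector field -/
theorem locallyIntegrableOn_comp {U : Set E} {g : E → E} (hg : LocallyIntegrableOn g U volume)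
    (i : ι) : LocallyIntegrableOn (fun x => g x i) U volume := by
  exact (EuclideanSpace.proj (𝕜 := ℝ) i).locallyIntegrableOn_comp hg

theorem WG.integrable_f {U : Set E} {f : E → ℝ} {g : E → E} (h : WG U f g) {φ : E → ℝ}
    (hφ : Test U φ) : Integrable (fun x => f x * φ x) :=
  integrable_mul_of_loc h.intf hφ.continuous hφ.cpt hφ.sub

theorem WG.integrable_fpd {U : Set E} {f : E → ℝ} {g : E → E} (h : WG U f g) {φ : E → ℝ}
    (hφ : Test U φ) (i : ι) : Integrable (fun x => f x * pd i φ x) :=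
  integrable_mul_of_loc h.intf (hφ.pd i).continuous (hφ.pd i).cpt (hφ.pd i).sub

theorem WG.integrable_g {U : Set E} {f : E → ℝ} {g : E → E} (h : WG U f g) {φ : E → ℝ}
    (hφ : Test U φ) (i : ι) : Integrable (fun x => g x i * φ x) :=
  integrable_mul_of_loc (locallyIntegrableOn_comp h.intg i) hφ.continuous hφ.cpt hφ.sub

end Crest.Agent.R335
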