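import Crest.Agent.R335.HProd
import Crest.Agent.R335.HBasic
import Crest.Agent.R335.HPre
import Crest.Agent.R335.HChain
import Crest.Agent.R335.HGlob
import Crest.Agent.R335.HL2
import Crest.Agent.R335.HIface2

/-!
Row 335 (S0521), interacting side, section 3.2 (helper759): general Kato inequality for partial
norms.
-/

set_option autoImplicit false
set_option linter.unusedSectionVars false

open MeasureTheory Filter Set
open scoped ENNReal Topology ContDiff

noncomputable section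
namespace Crest.Agent.R335

variable {ι κ κ' : Type*} [Fintype ι] [DecidableEq ι] [Fintype κ] [DecidableEq κ]
  [Fintype κ'] [DecidableEq κ']

local notation "E" => EuclideanSpace ℝ ι

namespace Sy

/-! ### Fubini along `jn` -/

theorem int_jn (p : ι ≃ κ ⊕ κ') {F : Type*} [NormedAddCommGroup F]
    {f : E → F} (hf : Integrable f) :
    Integrable (fun q : EuclideanSpace ℝ κ × EuclideanSpace ℝ κ' => f (jn p q.1 q.2))
      (volume.prod volume) :=
  ((I.measurePreserving_jn p).integrable_comp_emb (I.measurableEmbedding_jn p)).2 hf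

theorem int_of_jn (p : ι ≃ κ ⊕ κ') {F : Type*} [NormedAddCommGroup F]
    {f : E → F} (hf : Integrable (fun q : EuclideanSpace ℝ κ × EuclideanSpace ℝ κ' =>
      f (jn p q.1 q.2)) (volume.prod volume)) : Integrable f :=
  ((I.measurePreserving_jn p).integrable_comp_emb (I.measurableEmbedding_jn p)).1 hf

theorem int_jn_slice (p : ι ≃ κ ⊕ κ') {F : Type*} [NormedAddCommGroup F]
    {f : E → F} (hf : Integrable f) :
    ∀ᵐ x : EuclideanSpace ℝ κ, Integrable (fun y : EuclideanSpace ℝ κ' => f (jn p x y)) :=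
  (int_jn p hf).prod_right_ae

theorem int_jn_left (p : ι ≃ κ ⊕ κ') {F : Type*} [NormedAddCommGroup F] [NormedSpace ℝ F]
    {f : E → F} (hf : Integrable f) :
    Integrable (fun x : EuclideanSpace ℝ κ => ∫ y : EuclideanSpace ℝ κ', f (jn p x y)) :=
  (int_jn p hf).integral_prod_left

theorem int_inner {α : Type*} [MeasurableSpace α] {μ : Measure α} {F : Type*}
    [NormedAddCommGroup F] [InnerProductSpace ℝ F] {u v : α → F}
    (hu : MemLp u 2 μ) (hv : MemLp v 2 μ) : Integrable (fun x => inner ℝ (u x) (v x)) μ :=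
  (hu.norm.integrable_mul hv.norm).mono' (hu.aestronglyMeasurable.inner hv.aestronglyMeasurable)
    (Eventually.of_forall fun _ => norm_inner_le_norm _ _)

theorem norm_pr1_le (p : ι ≃ κ ⊕ κ') (X : E) : ‖pr1 p X‖ ≤ ‖X‖ := by
  have h := I.norm_sq_jn p X
  have h1 : ‖pr1 p X‖ ^ 2 ≤ ‖X‖ ^ 2 := by nlinarith [sq_nonneg ‖pr2 p X‖]
  exact le_of_sq_le_sq h1 (norm_nonneg _)

theorem norm_pr2_le (p : ι ≃ κ ⊕ κ') (X : E) : ‖pr2 p X‖ ≤ ‖X‖ := by
  have h := I.norm_sq_jn p X
  have h1 : ‖pr2 p X‖ ^ 2 ≤ ‖X‖ ^ 2 := by nlinarith [sq_nonneg ‖pr1 p X‖]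
  exact le_of_sq_le_sq h1 (norm_nonneg _)

theorem continuous_pr1 (p : ι ≃ κ ⊕ κ') : Continuous (pr1 p : E → EuclideanSpace ℝ κ) := by
  unfold pr1
  exact (PiLp.continuous_toLp 2 _).comp (continuous_pi fun k => by fun_prop)

theorem continuous_pr2 (p : ι ≃ κ ⊕ κ') : Continuous (pr2 p : E → EuclideanSpace ℝ κ') := by
  unfold pr2
  exact (PiLp.continuous_toLp 2 _).comp (continuous_pi fun k => by fun_prop)

theorem continuous_jn0 (p : ι ≃ κ ⊕ κ') :
    Continuous (fun x : EuclideanSpace ℝ κ => jn p x (0 : EuclideanSpace ℝ κ')) := by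
  unfold jn
  refine (PiLp.continuous_toLp 2 _).comp (continuous_pi fun i => ?_)
  rcases p i with k | k
  · simp only [Sum.elim_inl]; fun_prop
  · simp only [Sum.elim_inr]; fun_prop

theorem continuous_jn (p : ι ≃ κ ⊕ κ') :
    Continuous (fun q : EuclideanSpace ℝ κ × EuclideanSpace ℝ κ' => jn p q.1 q.2) := by
  unfold jn
  refine (PiLp.continuous_toLp 2 _).comp (continuous_pi fun i => ?_)
  rcases p i with k | k
  · simp only [Sum.elim_inl]; fun_prop
  · simp only [Sum.elim_inr]; fun_prop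

theorem pr1_add (p : ι ≃ κ ⊕ κ') (X Y : E) : pr1 p (X + Y) = pr1 p X + pr1 p Y := by
  ext k; simp

theorem pr1_smul (p : ι ≃ κ ⊕ κ') (c : ℝ) (X : E) : pr1 p (c • X) = c • pr1 p X := by
  ext k; simp

theorem pr2_add (p : ι ≃ κ ⊕ κ') (X Y : E) : pr2 p (X + Y) = pr2 p X + pr2 p Y := by
  ext k; simp

theorem pr2_smul (p : ι ≃ κ ⊕ κ') (c : ℝ) (X : E) : pr2 p (c • X) = c • pr2 p X := by
  ext k; simp

theorem norm_jn0 (p : ι ≃ κ ⊕ κ') (x : EuclideanSpace ℝ κ) :
    ‖jn p x (0 : EuclideanSpace ℝ κ')‖ = ‖x‖ := by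
  have h := I.norm_sq_jn p (jn p x (0 : EuclideanSpace ℝ κ'))
  rw [pr1_jn, pr2_jn, norm_zero] at h
  have h1 : ‖jn p x (0 : EuclideanSpace ℝ κ')‖ ^ 2 = ‖x‖ ^ 2 := by rw [h]; ring
  have := congrArg Real.sqrt h1
  rwa [Real.sqrt_sq (norm_nonneg _), Real.sqrt_sq (norm_nonneg _)] at this

/-- inner products split -/
theorem inner_jn (p : ι ≃ κ ⊕ κ') (X Y : E) :
    inner ℝ X Y = inner ℝ (pr1 p X) (pr1 p Y) + inner ℝ (pr2 p X) (pr2 p Y) := by
  simp only [PiLp.inner_apply, pr1_apply, pr2_apply]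
  rw [← Fintype.sum_sum_type (fun k => inner ℝ (X (p.symm k)) (Y (p.symm k)))]
  exact (Equiv.sum_comp p.symm (fun i => inner ℝ (X i) (Y i))).symm

theorem qmp_pr1 (p : ι ≃ κ ⊕ κ') :
    Measure.QuasiMeasurePreserving (pr1 p : E → EuclideanSpace ℝ κ) volume volume := by
  refine ⟨(continuous_pr1 p).measurable, ?_⟩
  refine Measure.AbsolutelyContinuous.mk fun s hs h0 => ?_
  rw [Measure.map_apply (continuous_pr1 p).measurable hs]
  have hmp := I.measurePreserving_jn p
  rw [← hmp.measure_preimage ((continuous_pr1 p).measurable hs).nullMeasurableSet]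
  have : (fun q : EuclideanSpace ℝ κ × EuclideanSpace ℝ κ' => jn p q.1 q.2) ⁻¹' (pr1 p ⁻¹' s) =
      s ×ˢ univ := by
    ext q; simp
  rw [this, Measure.prod_prod, h0, zero_mul]

/-- `L²` criterion for products with functions of the first group -/
theorem memLp_smul_pr1 (p : ι ≃ κ ⊕ κ') {f : E → ℝ} (hf : MemLp f 2 volume)
    {l : EuclideanSpace ℝ κ → EuclideanSpace ℝ κ} (hl : AEStronglyMeasurable l volume)
    {B : EuclideanSpace ℝ κ → ℝ} (hB : Integrable B)
    (h : ∀ᵐ x : EuclideanSpace ℝ κ, ‖l x‖ ^ 2 * ∫ y : EuclideanSpace ℝ κ', f (jn p x y) ^ 2 ≤ B x) :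
    MemLp (fun X => f X • jn p (l (pr1 p X)) (0 : EuclideanSpace ℝ κ')) 2 volume := by
  have hm : AEStronglyMeasurable (fun X => f X • jn p (l (pr1 p X)) (0 : EuclideanSpace ℝ κ'))
      volume := by
    refine hf.aestronglyMeasurable.smul ?_
    exact (continuous_jn0 p).comp_aestronglyMeasurable
      (hl.comp_quasiMeasurePreserving (qmp_pr1 p))
  rw [memLp_two_iff_integrable_sq_norm hm]
  have e : (fun X => ‖f X • jn p (l (pr1 p X)) (0 : EuclideanSpace ℝ κ')‖ ^ 2) =
      fun X => f X ^ 2 * ‖l (pr1 p X)‖ ^ 2 := by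
    funext X
    rw [norm_smul, norm_jn0, mul_pow, Real.norm_eq_abs, sq_abs]
  have hm2 := hm.norm.pow 2
  rw [e]
  rw [show (fun x => ‖f x • jn p (l (pr1 p x)) (0 : EuclideanSpace ℝ κ')‖) ^ 2 =
    fun X => f X ^ 2 * ‖l (pr1 p X)‖ ^ 2 from e] at hm2
  apply int_of_jn p
  have hm3 : AEStronglyMeasurable (fun q : EuclideanSpace ℝ κ × EuclideanSpace ℝ κ' =>
      f (jn p q.1 q.2) ^ 2 * ‖l (pr1 p (jn p q.1 q.2))‖ ^ 2) (volume.prod volume) :=
    hm2.comp_measurePreserving (I.measurePreserving_jn p)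
  rw [integrable_prod_iff hm3]
  have hf2 : Integrable (fun X => f X ^ 2) := hf.integrable_sq
  constructor
  · filter_upwards [int_jn_slice p hf2] with x hx
    simp only [pr1_jn]
    exact hx.mul_const _
  · refine hB.mono' (hm3.norm.integral_prod_right') ?_
    filter_upwards [h] with x hx
    rw [Real.norm_eq_abs, abs_of_nonneg (integral_nonneg fun y => norm_nonneg _)]
    refine le_trans (le_of_eq ?_) hx
    rw [← integral_const_mul]
    refine integral_congr_ae (Eventually.of_forall fun y => ?_)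
    simp only [pr1_jn]
    rw [Real.norm_eq_abs, abs_of_nonneg (by positivity)]
    ring

/-- `1/√(t²+ε²)` -/
def rN (ε t : ℝ) : ℝ := 1 / √(t ^ 2 + ε ^ 2)

theorem rN_pos {ε : ℝ} (hε : 0 < ε) (t : ℝ) : 0 < rN ε t := by
  unfold rN; positivity

theorem rN_le {ε : ℝ} (hε : 0 < ε) (t : ℝ) : rN ε t ≤ 1 / ε := by
  unfold rN
  apply one_div_le_one_div_of_le hε
  apply Real.le_sqrt_of_sq_le
  nlinarith [sq_nonneg t]

theorem hasDerivAt_rN {ε : ℝ} (hε : 0 < ε) (t : ℝ) :
    HasDerivAt (rN ε) (-(t * rN ε t ^ 3)) t := by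
  have h0 : 0 < t ^ 2 + ε ^ 2 := by positivity
  have h1 : HasDerivAt (fun t : ℝ => t ^ 2 + ε ^ 2) (2 * t) t := by
    have := (hasDerivAt_pow 2 t).add_const (ε ^ 2)
    simpa using this
  have h2 := h1.sqrt h0.ne'
  have h3 := h2.inv (Real.sqrt_pos.2 h0).ne'
  have e : rN ε = fun t => (√(t ^ 2 + ε ^ 2))⁻¹ := by
    funext t; simp [rN]
  rw [e]
  refine h3.congr_deriv ?_
  have hs : 0 < √(t ^ 2 + ε ^ 2) := Real.sqrt_pos.2 h0
  field_simp

theorem contDiff_rN {ε : ℝ} (hε : 0 < ε) : ContDiff ℝ 1 (rN ε) := by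
  unfold rN
  refine contDiff_const.div (ContDiff.sqrt (by fun_prop) fun t => ?_) fun t => ?_
  · positivity
  · positivity

theorem mul_rN_le {ε : ℝ} (hε : 0 < ε) (t : ℝ) : |t| * rN ε t ≤ 1 := by
  unfold rN
  have h0 : 0 < t ^ 2 + ε ^ 2 := by positivity
  have hs : 0 < √(t ^ 2 + ε ^ 2) := Real.sqrt_pos.2 h0
  rw [mul_one_div, div_le_one hs]
  apply Real.le_sqrt_of_sq_le
  rw [sq_abs]
  nlinarith [sq_nonneg ε]

theorem deriv_rN_le {ε : ℝ} (hε : 0 < ε) (t : ℝ) : |deriv (rN ε) t| ≤ 1 / ε ^ 2 := by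
  rw [(hasDerivAt_rN hε t).deriv, abs_neg, abs_mul, abs_of_pos (pow_pos (rN_pos hε t) 3)]
  have h1 := mul_rN_le hε t
  have h2 := rN_le hε t
  have h3 := rN_pos hε t
  calc |t| * rN ε t ^ 3 = (|t| * rN ε t) * (rN ε t * rN ε t) := by ring
    _ ≤ 1 * ((1 / ε) * (1 / ε)) := by gcongr
    _ = 1 / ε ^ 2 := by field_simp

theorem tendsto_mul_rN (t : ℝ) (ht : 0 ≤ t) :
    Tendsto (fun n : ℕ => t * rN (1 / ((n : ℝ) + 1)) t) atTop (𝓝 (if 0 < t then 1 else 0)) := by
  split_ifs with h
  · have h1 : Tendsto (fun n : ℕ => 1 / ((n : ℝ) + 1)) atTop (𝓝 0) :=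
      tendsto_one_div_add_atTop_nhds_zero_nat
    have h2 : Tendsto (fun n : ℕ => t * (1 / √(t ^ 2 + (1 / ((n : ℝ) + 1)) ^ 2))) atTop
        (𝓝 (t * (1 / √(t ^ 2 + 0 ^ 2)))) := by
      refine Tendsto.const_mul _ (Tendsto.div tendsto_const_nhds ?_ ?_)
      · exact (Real.continuous_sqrt.tendsto _).comp ((h1.pow 2).const_add _)
      · rw [zero_pow two_ne_zero, add_zero, Real.sqrt_sq h.le]; exact h.ne'
    have e : t * (1 / √(t ^ 2 + 0 ^ 2)) = 1 := by
      rw [zero_pow two_ne_zero, add_zero, Real.sqrt_sq h.le]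
      field_simp
    rw [e] at h2
    exact h2
  · have : t = 0 := le_antisymm (not_lt.1 h) ht
    subst this
    simp

end Sy

open Sy in
/-- General Kato inequality for the partial norm `N` of a finite family: the weak inequality
`½ ∑ ∫ ⟨∇ₓ f, ∇ₓ (k f)⟩ + ∫ k q ≤ 0` for all `k ≥ 0` with `k f ∈ H¹`, where
`q ≥ a N² - b N`, implies `-½ Δ N + a N ≤ b` weakly. -/
theorem kato_gen {S : Type*} [Fintype S] (p : ι ≃ κ ⊕ κ') {f : S → E → ℝ} {g : S → E → E}
    (h : ∀ s, H1 (f s) (g s)) {N : EuclideanSpace ℝ κ → ℝ}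
    {m : EuclideanSpace ℝ κ → EuclideanSpace ℝ κ}
    (hN : ∀ x, N x = √(∑ s, ∫ y, f s (jn p x y) ^ 2)) (hm : H1 N m)
    {U : Set (EuclideanSpace ℝ κ)} (_hU : IsOpen U)
    {q a b : EuclideanSpace ℝ κ → ℝ}
    (hq : LocallyIntegrableOn q U volume)
    (haN : LocallyIntegrableOn (fun x => a x * N x) U volume)
    (hb : LocallyIntegrableOn b U volume)
    (hb0 : ∀ᵐ x, x ∈ U → 0 ≤ b x)
    (hqa : ∀ᵐ x, x ∈ U → a x * N x ^ 2 - b x * N x ≤ q x)
    (hEL : ∀ (k : EuclideanSpace ℝ κ → ℝ) (l : EuclideanSpace ℝ κ → EuclideanSpace ℝ κ) (C : ℝ),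
      WG univ k l → (∀ x, 0 ≤ k x) → (∀ x, k x ≤ C) →
      (∃ K, IsCompact K ∧ K ⊆ U ∧ ∀ x, x ∉ K → k x = 0) →
      (∀ s, H1 (fun X => k (pr1 p X) * f s X)
        (fun X => k (pr1 p X) • g s X + f s X • jn p (l (pr1 p X)) 0)) →
      (1 / 2) * (∑ s, ∫ X, inner ℝ (pr1 p (g s X))
          (k (pr1 p X) • pr1 p (g s X) + f s X • l (pr1 p X))) +
        ∫ x, k x * q x ≤ 0)
    {φ : EuclideanSpace ℝ κ → ℝ} (hφ : Test U φ) (hφ0 : ∀ x, 0 ≤ φ x) :
    (1 / 2) * (∫ x, inner ℝ (m x) (gr φ x)) + ∫ x, (a x * N x - b x) * φ x ≤ 0 := by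
  -- the gradient of `N`
  have hN0 : ∀ x, 0 ≤ N x := fun x => by rw [hN x]; exact Real.sqrt_nonneg _
  have hNsq : ∀ x, N x ^ 2 = ∑ s, ∫ y, f s (jn p x y) ^ 2 := fun x => by
    rw [hN x, Real.sq_sqrt]
    exact Finset.sum_nonneg fun s _ => integral_nonneg fun y => sq_nonneg _
  obtain ⟨m', hm', hmm⟩ := I.H1.pnorm p h
  have hNe : N = fun x => √(∑ s, ∫ y, f s (jn p x y) ^ 2) := funext hN
  rw [← hNe] at hm'
  have hmeq : m =ᵐ[volume] m' := hm.unique hm'
  have hmm2 : ∀ᵐ x, N x • m x = ∑ s, ∫ y, f s (jn p x y) • pr1 p (g s (jn p x y)) ∧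
      ‖m x‖ ^ 2 ≤ ∑ s, ∫ y, ‖pr1 p (g s (jn p x y))‖ ^ 2 := by
    filter_upwards [hmm, hmeq] with x h1 h2
    rw [h2, hN x]
    exact h1
  -- bounds of `φ`
  obtain ⟨Cφ, hCφ⟩ : ∃ C, ∀ x, ‖φ x‖ ≤ C :=
    hφ.cpt.exists_bound_of_continuous hφ.continuous
  have hgrc : Continuous (gr φ) := continuous_gr hφ.contDiff_one
  have hgrs : HasCompactSupport (gr φ) := hasCompactSupport_gr hφ.cpt
  obtain ⟨Cg, hCg⟩ : ∃ C, ∀ x, ‖gr φ x‖ ≤ C := hgrs.exists_bound_of_continuous hgrc
  have hCφ0 : 0 ≤ Cφ := (norm_nonneg _).trans (hCφ 0)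
  have hCg0 : 0 ≤ Cg := (norm_nonneg _).trans (hCg 0)
  have hNm := hm.memf.aestronglyMeasurable
  have hmm3 := hm.memg.aestronglyMeasurable
  -- the regularised inequality
  have key : ∀ ε : ℝ, 0 < ε →
      (1 / 2) * (∫ x, (N x * rN ε (N x)) * inner ℝ (m x) (gr φ x)) +
        ∫ x, (N x * rN ε (N x)) * ((a x * N x - b x) * φ x) ≤ 0 := by
    intro ε hε
    obtain ⟨k, hk⟩ : ∃ k : EuclideanSpace ℝ κ → ℝ, k = fun x => φ x * rN ε (N x) := ⟨_, rfl⟩
    obtain ⟨l, hl⟩ : ∃ l : EuclideanSpace ℝ κ → EuclideanSpace ℝ κ, l = fun x =>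
      φ x • (deriv (rN ε) (N x) • m x) + rN ε (N x) • gr φ x := ⟨_, rfl⟩
    have hkl : WG univ k l := by
      rw [hk, hl]
      exact WG.mul_smooth isOpen_univ (WG.comp isOpen_univ hm.wg (contDiff_rN hε) (deriv_rN_le hε))
        hφ.smooth
    have hk0 : ∀ x, 0 ≤ k x := fun x => by
      rw [hk]; exact mul_nonneg (hφ0 x) (rN_pos hε _).le
    have hkC : ∀ x, k x ≤ Cφ * (1 / ε) := fun x => by
      have h1 := hCφ x
      rw [Real.norm_eq_abs] at h1
      rw [hk]
      exact mul_le_mul ((le_abs_self _).trans h1) (rN_le hε _) (rN_pos hε _).le hCφ0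
    have hkK : ∃ K, IsCompact K ∧ K ⊆ U ∧ ∀ x, x ∉ K → k x = 0 :=
      ⟨tsupport φ, hφ.cpt, hφ.sub, fun x hx => by
        simp only [hk]
        rw [image_eq_zero_of_notMem_tsupport hx, zero_mul]⟩
    have hlm : AEStronglyMeasurable l volume := (WG.aesm hkl).2
    have hkm : AEStronglyMeasurable k volume := (WG.aesm hkl).1
    -- bound of `l`
    have hlN : ∀ x, N x * ‖l x‖ ≤ (Cφ * (1 / ε)) * ‖m x‖ + Cg := by
      intro x
      have h1 := mul_rN_le hε (N x)
      rw [abs_of_nonneg (hN0 x)] at h1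
      have h2 : ‖l x‖ ≤ Cφ * (N x * rN ε (N x) ^ 3) * ‖m x‖ + rN ε (N x) * Cg := by
        simp only [hl]
        refine (norm_add_le _ _).trans (add_le_add ?_ ?_)
        · rw [norm_smul, norm_smul, (hasDerivAt_rN hε (N x)).deriv, norm_neg, norm_mul,
            norm_pow, Real.norm_of_nonneg (hN0 x), Real.norm_of_nonneg (rN_pos hε _).le,
            ← mul_assoc]
          have := hCφ x
          have h3 : 0 ≤ N x * rN ε (N x) ^ 3 := mul_nonneg (hN0 x) (pow_nonneg (rN_pos hε _).le 3)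
          gcongr
        · rw [norm_smul, Real.norm_of_nonneg (rN_pos hε _).le]
          exact mul_le_mul_of_nonneg_left (hCg x) (rN_pos hε _).le
      have h4 := rN_le hε (N x)
      have h5 := rN_pos hε (N x)
      have h6 : 0 ≤ N x * rN ε (N x) := mul_nonneg (hN0 x) h5.le
      calc N x * ‖l x‖ ≤ N x * (Cφ * (N x * rN ε (N x) ^ 3) * ‖m x‖ + rN ε (N x) * Cg) :=
            mul_le_mul_of_nonneg_left h2 (hN0 x)
        _ = Cφ * ((N x * rN ε (N x)) * (N x * rN ε (N x))) * rN ε (N x) * ‖m x‖ +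
            (N x * rN ε (N x)) * Cg := by ring
        _ ≤ Cφ * (1 * 1) * (1 / ε) * ‖m x‖ + 1 * Cg := by gcongr
        _ = (Cφ * (1 / ε)) * ‖m x‖ + Cg := by ring
    have hl0 : ∀ x, x ∉ tsupport φ → l x = 0 := by
      intro x hx
      simp only [hl]
      rw [image_eq_zero_of_notMem_tsupport hx, gr_eq_zero_of_notMem' hx]
      simp
    -- an integrable majorant of `N² ‖l‖²`
    have hBint : Integrable (fun x : EuclideanSpace ℝ κ => (tsupport φ).indicator
        (fun x => 2 * ((Cφ * (1 / ε)) * ‖m x‖) ^ 2 + 2 * Cg ^ 2) x) := by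
      have h1 : Integrable (fun x => ‖m x‖ ^ 2) := hm.memg.norm.integrable_sq
      have h2 : IntegrableOn (fun x => 2 * ((Cφ * (1 / ε)) * ‖m x‖) ^ 2 + 2 * Cg ^ 2)
          (tsupport φ) volume := by
        refine Integrable.add ?_ ?_
        · have := (h1.const_mul (2 * (Cφ * (1 / ε)) ^ 2)).integrableOn (s := tsupport φ)
          refine this.congr (Eventually.of_forall fun x => ?_)
          simp only; ring
        · exact (integrableOn_const (hs := hφ.cpt.measure_lt_top.ne))
      exact (integrable_indicator_iff (isClosed_tsupport φ).measurableSet).2 h2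
    have hlB : ∀ x, ‖l x‖ ^ 2 * N x ^ 2 ≤ (tsupport φ).indicator
        (fun x => 2 * ((Cφ * (1 / ε)) * ‖m x‖) ^ 2 + 2 * Cg ^ 2) x := by
      intro x
      by_cases hx : x ∈ tsupport φ
      · rw [indicator_of_mem hx]
        have h1 := hlN x
        have h2 : 0 ≤ N x * ‖l x‖ := mul_nonneg (hN0 x) (norm_nonneg _)
        have h3 : (N x * ‖l x‖) ^ 2 ≤ ((Cφ * (1 / ε)) * ‖m x‖ + Cg) ^ 2 :=
          pow_le_pow_left₀ h2 h1 2
        nlinarith [sq_nonneg ((Cφ * (1 / ε)) * ‖m x‖ - Cg)]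
      · rw [indicator_of_notMem hx, hl0 x hx]
        simp
    have hfs : ∀ s, ∀ x, ∫ y, f s (jn p x y) ^ 2 ≤ N x ^ 2 := by
      intro s x
      rw [hNsq x]
      exact Finset.single_le_sum (f := fun s => ∫ y, f s (jn p x y) ^ 2)
        (fun t _ => integral_nonneg fun y => sq_nonneg _) (Finset.mem_univ s)
    have hfl : ∀ s, MemLp (fun X => f s X • jn p (l (pr1 p X)) (0 : EuclideanSpace ℝ κ')) 2
        volume := by
      intro s
      refine memLp_smul_pr1 p (h s).memf hlm hBint (Eventually.of_forall fun x => ?_)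
      exact (mul_le_mul_of_nonneg_left (hfs s x) (sq_nonneg _)).trans (hlB x)
    have hkp : WG univ (fun X : E => k (pr1 p X)) (fun X => jn p (l (pr1 p X)) 0) :=
      I.WG.comp_pr1 p hkl
    have hkabs : ∀ x, |k x| ≤ Cφ * (1 / ε) := fun x => by rw [abs_of_nonneg (hk0 x)]; exact hkC x
    have hkH : ∀ s, H1 (fun X => k (pr1 p X) * f s X)
        (fun X => k (pr1 p X) • g s X + f s X • jn p (l (pr1 p X)) 0) := by
      intro s
      have hkpm := (WG.aesm hkp).1
      have m1 : MemLp (fun X => k (pr1 p X) * f s X) 2 volume := by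
        refine MemLp.of_le_mul (c := Cφ * (1 / ε)) (h s).memf (hkpm.mul (h s).memf.aestronglyMeasurable)
          (Eventually.of_forall fun x => ?_)
        rw [norm_mul]
        exact mul_le_mul_of_nonneg_right (hkabs _) (norm_nonneg _)
      have m2 : MemLp (fun X => k (pr1 p X) • g s X) 2 volume := by
        refine MemLp.of_le_mul (c := Cφ * (1 / ε)) (h s).memg (hkpm.smul (h s).memg.aestronglyMeasurable)
          (Eventually.of_forall fun x => ?_)
        rw [norm_smul]
        exact mul_le_mul_of_nonneg_right (hkabs _) (norm_nonneg _)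
      refine ⟨m1, m2.add (hfl s), ?_⟩
      exact WG.mul isOpen_univ hkp (h s).wg
        (locallyIntegrableOn_univ.2 (m1.locallyIntegrable (by norm_num)))
        (locallyIntegrableOn_univ.2 (m2.locallyIntegrable (by norm_num)))
        (locallyIntegrableOn_univ.2 ((hfl s).locallyIntegrable (by norm_num)))
    have hmain := hEL k l _ hkl hk0 hkC hkK hkH
    -- Fubini
    have hp1 : ∀ s, MemLp (fun X => pr1 p (g s X)) 2 volume := fun s => by
      refine MemLp.of_le (h s).memg ((continuous_pr1 p).comp_aestronglyMeasurable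
        (h s).memg.aestronglyMeasurable) (Eventually.of_forall fun X => norm_pr1_le p _)
    have hi1 : ∀ s, Integrable (fun X => ‖pr1 p (g s X)‖ ^ 2) := fun s =>
      (hp1 s).norm.integrable_sq
    have hi2 : ∀ s, Integrable (fun X => f s X • pr1 p (g s X)) := fun s => by
      have := (h s).memf.integrable_mul (hp1 s).norm
      refine this.mono ((h s).memf.aestronglyMeasurable.smul (hp1 s).aestronglyMeasurable)
        (Eventually.of_forall fun X => ?_)
      rw [norm_smul, Pi.mul_apply, norm_mul, norm_norm]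
    have hkpm := (WG.aesm hkp).1
    have hi3 : ∀ s, Integrable (fun X => inner ℝ (pr1 p (g s X))
          (k (pr1 p X) • pr1 p (g s X) + f s X • l (pr1 p X))) := fun s => by
      have e1 : Integrable (fun X => k (pr1 p X) * ‖pr1 p (g s X)‖ ^ 2) :=
        (hi1 s).bdd_mul hkpm (c := Cφ * (1 / ε)) (Eventually.of_forall fun X => hkabs _)
      have e2 : Integrable (fun X => inner ℝ (g s X) (f s X • jn p (l (pr1 p X))
          (0 : EuclideanSpace ℝ κ'))) :=
        int_inner (h s).memg (hfl s)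
      refine (e1.add e2).congr (Eventually.of_forall fun X => ?_)
      have e3 : inner ℝ (g s X) (f s X • jn p (l (pr1 p X)) (0 : EuclideanSpace ℝ κ')) =
          f s X * inner ℝ (pr1 p (g s X)) (l (pr1 p X)) := by
        rw [inner_smul_right, inner_jn p, pr1_jn, pr2_jn, inner_zero_right, add_zero]
      simp only [Pi.add_apply]
      rw [e3, inner_add_right, inner_smul_right, inner_smul_right, real_inner_self_eq_norm_sq]
    have hfub : ∀ s, ∫ X, inner ℝ (pr1 p (g s X))
          (k (pr1 p X) • pr1 p (g s X) + f s X • l (pr1 p X)) =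
        ∫ x, (k x * (∫ y, ‖pr1 p (g s (jn p x y))‖ ^ 2) +
          inner ℝ (∫ y, f s (jn p x y) • pr1 p (g s (jn p x y))) (l x)) := by
      intro s
      rw [I.integral_jn p (hi3 s)]
      refine integral_congr_ae ?_
      filter_upwards [int_jn_slice p (hi1 s), int_jn_slice p (hi2 s)] with x h1 h2
      rw [← integral_const_mul, real_inner_comm, ← integral_inner h2 (l x), ← integral_add]
      · refine integral_congr_ae (Eventually.of_forall fun y => ?_)
        simp only [pr1_jn]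
        rw [inner_add_right, inner_smul_right, real_inner_self_eq_norm_sq, inner_smul_right,
          inner_smul_right, real_inner_comm]
      · exact h1.const_mul _
      · exact h2.const_inner (l x)
    have hfint : ∀ s, Integrable (fun x : EuclideanSpace ℝ κ =>
        (k x * (∫ y, ‖pr1 p (g s (jn p x y))‖ ^ 2) +
          inner ℝ (∫ y, f s (jn p x y) • pr1 p (g s (jn p x y))) (l x))) := by
      intro s
      refine (int_jn_left p (hi3 s)).congr ?_
      filter_upwards [int_jn_slice p (hi1 s), int_jn_slice p (hi2 s)] with x h1 h2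
      rw [← integral_const_mul, real_inner_comm, ← integral_inner h2 (l x), ← integral_add]
      · refine integral_congr_ae (Eventually.of_forall fun y => ?_)
        simp only [pr1_jn]
        rw [inner_add_right, inner_smul_right, real_inner_self_eq_norm_sq, inner_smul_right,
          inner_smul_right, real_inner_comm]
      · exact h1.const_mul _
      · exact h2.const_inner (l x)
    -- the sum
    set T : EuclideanSpace ℝ κ → ℝ := fun x => ∑ s,
      (k x * (∫ y, ‖pr1 p (g s (jn p x y))‖ ^ 2) +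
          inner ℝ (∫ y, f s (jn p x y) • pr1 p (g s (jn p x y))) (l x)) with hT
    have hTint : Integrable T := integrable_finsetSum _ fun s _ => hfint s
    have hTsum : ∑ s, ∫ X, inner ℝ (pr1 p (g s X))
          (k (pr1 p X) • pr1 p (g s X) + f s X • l (pr1 p X)) = ∫ x, T x := by
      rw [integral_finsetSum _ fun s _ => hfint s]
      exact Finset.sum_congr rfl fun s _ => hfub s
    have hTge : ∀ᵐ x, (N x * rN ε (N x)) * inner ℝ (m x) (gr φ x) ≤ T x := by
      filter_upwards [hmm2] with x hx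
      have e1 : T x = k x * (∑ s, ∫ y, ‖pr1 p (g s (jn p x y))‖ ^ 2) +
          inner ℝ (N x • m x) (l x) := by
        simp only [hT]
        rw [Finset.sum_add_distrib, ← Finset.mul_sum, hx.1, sum_inner]
      have e2 : inner ℝ (N x • m x) (l x) = (N x * rN ε (N x)) * inner ℝ (m x) (gr φ x) -
          φ x * rN ε (N x) * (N x * rN ε (N x)) ^ 2 * ‖m x‖ ^ 2 := by
        simp only [hl]
        rw [(hasDerivAt_rN hε (N x)).deriv, inner_add_right, inner_smul_left, inner_smul_left,
          inner_smul_right, inner_smul_right, inner_smul_right, real_inner_self_eq_norm_sq]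
        simp only [conj_trivial]
        ring
      have h1 := mul_rN_le hε (N x)
      rw [abs_of_nonneg (hN0 x)] at h1
      have h2 : 0 ≤ N x * rN ε (N x) := mul_nonneg (hN0 x) (rN_pos hε _).le
      have h3 : (N x * rN ε (N x)) ^ 2 ≤ 1 := pow_le_one₀ h2 h1
      have h4 : 0 ≤ φ x * rN ε (N x) * ‖m x‖ ^ 2 :=
        mul_nonneg (mul_nonneg (hφ0 x) (rN_pos hε _).le) (sq_nonneg _)
      have h5 : k x * ‖m x‖ ^ 2 ≤ k x * (∑ s, ∫ y, ‖pr1 p (g s (jn p x y))‖ ^ 2) :=
        mul_le_mul_of_nonneg_left hx.2 (hk0 x)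
      have h6 : k x * ‖m x‖ ^ 2 = φ x * rN ε (N x) * ‖m x‖ ^ 2 := by simp only [hk]
      have h7 : φ x * rN ε (N x) * (N x * rN ε (N x)) ^ 2 * ‖m x‖ ^ 2 ≤
          φ x * rN ε (N x) * ‖m x‖ ^ 2 := by
        calc φ x * rN ε (N x) * (N x * rN ε (N x)) ^ 2 * ‖m x‖ ^ 2
            = (φ x * rN ε (N x) * ‖m x‖ ^ 2) * (N x * rN ε (N x)) ^ 2 := by ring
          _ ≤ (φ x * rN ε (N x) * ‖m x‖ ^ 2) * 1 := mul_le_mul_of_nonneg_left h3 h4
          _ = _ := mul_one _
      rw [e1, e2]
      linarith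
    have hrm : AEStronglyMeasurable (fun x => rN ε (N x)) volume :=
      (contDiff_rN hε).continuous.comp_aestronglyMeasurable hNm
    have hNr : AEStronglyMeasurable (fun x => N x * rN ε (N x)) volume := hNm.mul hrm
    have hNr1 : ∀ x, ‖N x * rN ε (N x)‖ ≤ 1 := fun x => by
      have h1 := mul_rN_le hε (N x)
      rw [abs_of_nonneg (hN0 x)] at h1
      rw [Real.norm_eq_abs, abs_of_nonneg (mul_nonneg (hN0 x) (rN_pos hε _).le)]
      exact h1
    have hinn : Integrable (fun x => inner ℝ (m x) (gr φ x)) :=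
      int_inner hm.memg (hgrc.memLp_of_hasCompactSupport hgrs)
    have hI1 : Integrable (fun x => (N x * rN ε (N x)) * inner ℝ (m x) (gr φ x)) :=
      hinn.bdd_mul hNr (Eventually.of_forall hNr1)
    have hIq : Integrable (fun x => k x * q x) := by
      have h1 : Integrable (fun x => q x * φ x) :=
        integrable_mul_of_loc hq hφ.continuous hφ.cpt hφ.sub
      have h2 := h1.bdd_mul hrm (c := 1 / ε) (Eventually.of_forall fun x => by
        rw [Real.norm_eq_abs, abs_of_pos (rN_pos hε _)]; exact rN_le hε _)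
      refine h2.congr (Eventually.of_forall fun x => ?_)
      simp only [hk]; ring
    have hIa : Integrable (fun x => (a x * N x - b x) * φ x) := by
      have h1 := integrable_mul_of_loc haN hφ.continuous hφ.cpt hφ.sub
      have h2 := integrable_mul_of_loc hb hφ.continuous hφ.cpt hφ.sub
      refine (h1.sub h2).congr (Eventually.of_forall fun x => ?_)
      simp only [Pi.sub_apply]; ring
    have hIa2 : Integrable (fun x => (N x * rN ε (N x)) * ((a x * N x - b x) * φ x)) :=
      hIa.bdd_mul hNr (Eventually.of_forall hNr1)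
    have hle1 : ∫ x, (N x * rN ε (N x)) * inner ℝ (m x) (gr φ x) ≤ ∫ x, T x :=
      integral_mono_ae hI1 hTint hTge
    have hle2 : ∫ x, (N x * rN ε (N x)) * ((a x * N x - b x) * φ x) ≤ ∫ x, k x * q x := by
      refine integral_mono_ae hIa2 hIq ?_
      filter_upwards [hqa] with x hx
      by_cases hxU : x ∈ U
      · have h1 := hx hxU
        have h2 : 0 ≤ k x := hk0 x
        calc (N x * rN ε (N x)) * ((a x * N x - b x) * φ x)
            = k x * (a x * N x ^ 2 - b x * N x) := by simp only [hk]; ring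
          _ ≤ k x * q x := mul_le_mul_of_nonneg_left h1 h2
      · have : φ x = 0 := by
          by_contra hne
          exact hxU (hφ.sub (subset_closure hne))
        simp only [hk, this]
        simp
    rw [hTsum] at hmain
    linarith
  -- passage to the limit
  have hinn : Integrable (fun x => inner ℝ (m x) (gr φ x)) :=
    int_inner hm.memg (hgrc.memLp_of_hasCompactSupport hgrs)
  have hIa : Integrable (fun x => (a x * N x - b x) * φ x) := by
    have h1 := integrable_mul_of_loc haN hφ.continuous hφ.cpt hφ.sub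
    have h2 := integrable_mul_of_loc hb hφ.continuous hφ.cpt hφ.sub
    refine (h1.sub h2).congr (Eventually.of_forall fun x => ?_)
    simp only [Pi.sub_apply]; ring
  have hεn : ∀ n : ℕ, 0 < 1 / ((n : ℝ) + 1) := fun n => by positivity
  have hNr : ∀ n : ℕ, AEStronglyMeasurable (fun x => N x * rN (1 / ((n : ℝ) + 1)) (N x)) volume :=
    fun n => hNm.mul ((contDiff_rN (hεn n)).continuous.comp_aestronglyMeasurable hNm)
  have hNr1 : ∀ (n : ℕ) x, ‖N x * rN (1 / ((n : ℝ) + 1)) (N x)‖ ≤ 1 := fun n x => by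
    have h1 := mul_rN_le (hεn n) (N x)
    rw [abs_of_nonneg (hN0 x)] at h1
    rw [Real.norm_eq_abs, abs_of_nonneg (mul_nonneg (hN0 x) (rN_pos (hεn n) _).le)]
    exact h1
  have lim : ∀ (F : EuclideanSpace ℝ κ → ℝ), Integrable F →
      Tendsto (fun n : ℕ => ∫ x, (N x * rN (1 / ((n : ℝ) + 1)) (N x)) * F x) atTop
        (𝓝 (∫ x, (if 0 < N x then 1 else 0) * F x)) := by
    intro F hF
    refine tendsto_integral_of_dominated_convergence (fun x => ‖F x‖)
      (fun n => (hNr n).mul hF.aestronglyMeasurable) hF.norm ?_ ?_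
    · intro n
      refine Eventually.of_forall fun x => ?_
      rw [norm_mul]
      exact mul_le_of_le_one_left (norm_nonneg _) (hNr1 n x)
    · exact Eventually.of_forall fun x => (tendsto_mul_rN (N x) (hN0 x)).mul_const _
  have hlim := ((lim _ hinn).const_mul (1 / 2)).add (lim _ hIa)
  have hle : (1 / 2) * (∫ x, (if 0 < N x then 1 else 0) * inner ℝ (m x) (gr φ x)) +
      ∫ x, (if 0 < N x then 1 else 0) * ((a x * N x - b x) * φ x) ≤ 0 :=
    le_of_tendsto hlim (Eventually.of_forall fun n => key _ (hεn n))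
  have hz := WG.zero_of_level isOpen_univ hm.wg 0
  rw [Measure.restrict_univ] at hz
  have e1 : ∫ x, (if 0 < N x then 1 else 0) * inner ℝ (m x) (gr φ x) =
      ∫ x, inner ℝ (m x) (gr φ x) := by
    refine integral_congr_ae ?_
    filter_upwards [hz] with x hx
    split_ifs with h0
    · rw [one_mul]
    · rw [hx (le_antisymm (not_lt.1 h0) (hN0 x)), inner_zero_left, zero_mul]
  have hmeas : AEStronglyMeasurable (fun x => (if 0 < N x then (1 : ℝ) else 0)) volume := by
    have h1 : Measurable (fun t : ℝ => if 0 < t then (1 : ℝ) else 0) :=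
      Measurable.ite measurableSet_Ioi measurable_const measurable_const
    exact (h1.comp_aemeasurable hNm.aemeasurable).aestronglyMeasurable
  have e2 : ∫ x, (a x * N x - b x) * φ x ≤
      ∫ x, (if 0 < N x then 1 else 0) * ((a x * N x - b x) * φ x) := by
    refine integral_mono_ae hIa (hIa.bdd_mul hmeas (c := 1) (Eventually.of_forall fun x => ?_)) ?_
    · split_ifs <;> simp
    · filter_upwards [hb0] with x hx
      split_ifs with h0
      · rw [one_mul]
      · have h1 : N x = 0 := le_antisymm (not_lt.1 h0) (hN0 x)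
        rw [h1, mul_zero, zero_sub, zero_mul]
        by_cases hxU : x ∈ U
        · nlinarith [hx hxU, hφ0 x, mul_nonneg (hx hxU) (hφ0 x)]
        · have : φ x = 0 := by
            by_contra hne
            exact hxU (hφ.sub (subset_closure hne))
          rw [this, mul_zero]
  rw [e1] at hle
  linarith

end Crest.Agent.R335
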