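import Crest.Agent.R335.BPar
import Crest.Agent.R335.HSlice
import Crest.Agent.R335.SyKato

/-!
Row 335 (S0521), interacting side (helper565): fibre identities of the three-body form along
`Config3 = (X, ξ)`.
-/

set_option autoImplicit false
set_option linter.unusedSectionVars false
set_option linter.unusedVariables false

open MeasureTheory Filter Set Crest.MathPhysics.ThreeBody
open scoped ENNReal Topology ContDiff

noncomputable section
namespace Crest.Agent.R335.Fib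
open Crest.Agent.R335

variable {D lam : ℝ} {f k : Config3 → ℝ} {df dk : Config3 → Config3}

theorem pr1_eq (x : Config3) : pr1 p9 x = elPos 0 x := by
  ext c; simp [elPos, p9]

theorem el_pr2_zero (x : Config3) : el 0 (pr2 p9 x) = elPos 1 x := by
  ext c; simp [elPos, el, p9]

theorem el_pr2_one (x : Config3) : el 1 (pr2 p9 x) = elPos 2 x := by
  ext c; simp [elPos, el, p9]

/-! ### `L²` bounds of the parts of the potential -/

theorem memLp_el (h : H1 f df) (i : Fin 3) (a : Pos3) :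
    MemLp (fun x => 1 / ‖elPos i x - a‖ * f x) 2 volume :=
  memLp_div_norm h (elC i) _ (elC_single_self i) a

theorem memLp_pair (h : H1 f df) {i j : Fin 3} (hij : i ≠ j) :
    MemLp (fun x => 1 / ‖elPos i x - elPos j x‖ * f x) 2 volume := by
  have := memLp_div_norm h (elC i - elC j) _ (elC_sub_single hij) 0
  simpa using this

theorem memLp_V2el (D : ℝ) (h : H1 f df) (i : Fin 3) :
    MemLp (fun x => V2 D (elPos i x) * f x) 2 volume := by
  have := ((memLp_el h i (nuc D)).neg).sub (memLp_el h i (nuc (-D)))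
  refine this.ae_eq (ae_of_all _ fun x => ?_)
  simp only [Pi.sub_apply, Pi.neg_apply]
  unfold V2
  ring

theorem memLp_V2 (D : ℝ) (h : H1 f df) :
    MemLp (fun x => V2 D (pr1 p9 x) * f x) 2 volume := by
  simpa only [pr1_eq] using memLp_V2el D h 0

theorem memLp_Vion (D lam : ℝ) (h : H1 f df) :
    MemLp (fun x => Vion D lam (pr2 p9 x) * f x) 2 volume := by
  have := ((memLp_V2el D h 1).add (memLp_V2el D h 2)).add
    ((memLp_pair h (i := 1) (j := 2) (by decide)).const_mul lam)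
  refine this.ae_eq (ae_of_all _ fun x => ?_)
  simp only [Pi.add_apply]
  unfold Vion
  rw [el_pr2_zero, el_pr2_one]
  ring

theorem memLp_WX (h : H1 f df) :
    MemLp (fun x => WX (pr1 p9 x) (pr2 p9 x) * f x) 2 volume := by
  have := (memLp_pair h (i := 0) (j := 1) (by decide)).add
    (memLp_pair h (i := 0) (j := 2) (by decide))
  refine this.ae_eq (ae_of_all _ fun x => ?_)
  simp only [Pi.add_apply]
  unfold WX
  rw [el_pr2_zero, el_pr2_one, pr1_eq]
  ring

/-- `elPos 0` reflected, as a continuous linear map -/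
def rzC : Pos3 →L[ℝ] Pos3 := (rz.toContinuousLinearEquiv : Pos3 →L[ℝ] Pos3)

theorem rzC_apply (x : Pos3) : rzC x = rz x := rfl

theorem memLp_pairR (h : H1 f df) {j : Fin 3} (hj : (0 : Fin 3) ≠ j) :
    MemLp (fun x => 1 / ‖rz (elPos 0 x) - elPos j x‖ * f x) 2 volume := by
  have := memLp_div_norm h ((rzC.comp (elC 0)) - elC j)
    (fun c => - EuclideanSpace.single (j, c) (1 : ℝ)) (fun c => ?_) 0
  · simpa [rzC_apply] using this
  · rw [_root_.sub_apply, ContinuousLinearMap.comp_apply, map_neg, map_neg, map_neg,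
      elC_single_self, elC_single, if_neg hj]
    simp

theorem memLp_WXr (h : H1 f df) :
    MemLp (fun x => WX (rz (pr1 p9 x)) (pr2 p9 x) * f x) 2 volume := by
  have := (memLp_pairR h (j := 1) (by decide)).add
    (memLp_pairR h (j := 2) (by decide))
  refine this.ae_eq (ae_of_all _ fun x => ?_)
  simp only [Pi.add_apply]
  unfold WX
  rw [el_pr2_zero, el_pr2_one, pr1_eq]
  ring

/-! ### slices -/

/-- facts about the slice of an `H¹` function at `X` -/
structure Sl (D lam : ℝ) (f : Config3 → ℝ) (df : Config3 → Config3) (X : Pos3) : Prop where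
  h1 : H1 (fun ξ => f (jn p9 X ξ)) (fun ξ => pr2 p9 (df (jn p9 X ξ)))
  mg : MemLp (fun ξ => pr1 p9 (df (jn p9 X ξ))) 2 volume
  mV : MemLp (fun ξ => Vion D lam ξ * f (jn p9 X ξ)) 2 volume
  mW : MemLp (fun ξ => WX X ξ * f (jn p9 X ξ)) 2 volume
  mWr : MemLp (fun ξ => WX (rz X) ξ * f (jn p9 X ξ)) 2 volume

theorem memLp_pr1 (h : H1 f df) : MemLp (fun x => pr1 p9 (df x)) 2 volume :=
  h.memg.of_le ((continuous_pr1 p9).comp_aestronglyMeasurable h.memg.1)
    (Eventually.of_forall fun x => Sy.norm_pr1_le p9 (df x))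

theorem memLp_pr2 (h : H1 f df) : MemLp (fun x => pr2 p9 (df x)) 2 volume :=
  h.memg.of_le ((continuous_pr2 p9).comp_aestronglyMeasurable h.memg.1)
    (Eventually.of_forall fun x => Sy.norm_pr2_le p9 (df x))

theorem ae_Sl (D lam : ℝ) (h : H1 f df) : ∀ᵐ X : Pos3, Sl D lam f df X := by
  filter_upwards [h.slice_right p9, MemLp.slice_right p9 (memLp_pr1 h),
    MemLp.slice_right p9 (memLp_Vion D lam h), MemLp.slice_right p9 (memLp_WX h),
    MemLp.slice_right p9 (memLp_WXr h)] with X h1 h2 h3 h4 h5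
  refine ⟨h1, h2, ?_, ?_, ?_⟩
  · simpa only [pr2_jn] using h3
  · simpa only [pr1_jn, pr2_jn] using h4
  · simpa only [pr1_jn, pr2_jn] using h5

/-! ### the fibre identity -/

/-- ion form of the slices at `X` -/
def kX (D lam : ℝ) (f : Config3 → ℝ) (df : Config3 → Config3) (k : Config3 → ℝ)
    (dk : Config3 → Config3) (X : Pos3) : ℝ :=
  k2 D lam (fun ξ => f (jn p9 X ξ)) (fun ξ => pr2 p9 (df (jn p9 X ξ)))
    (fun ξ => k (jn p9 X ξ)) (fun ξ => pr2 p9 (dk (jn p9 X ξ)))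

theorem int_pr1 (hf : H1 f df) (hk : H1 k dk) :
    Integrable (fun x => inner ℝ (pr1 p9 (df x)) (pr1 p9 (dk x))) :=
  Sy.int_inner (memLp_pr1 hf) (memLp_pr1 hk)

theorem int_pr2 (hf : H1 f df) (hk : H1 k dk) :
    Integrable (fun x => inner ℝ (pr2 p9 (df x)) (pr2 p9 (dk x))) :=
  Sy.int_inner (memLp_pr2 hf) (memLp_pr2 hk)

theorem int_V2 (D : ℝ) (hf : H1 f df) (hk : MemLp k 2 volume) :
    Integrable (fun x => V2 D (pr1 p9 x) * f x * k x) :=
  (memLp_V2 D hf).integrable_mul hk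

theorem int_Vion (D lam : ℝ) (hf : H1 f df) (hk : MemLp k 2 volume) :
    Integrable (fun x => Vion D lam (pr2 p9 x) * f x * k x) :=
  (memLp_Vion D lam hf).integrable_mul hk

theorem int_WX (hf : H1 f df) (hk : MemLp k 2 volume) :
    Integrable (fun x => WX (pr1 p9 x) (pr2 p9 x) * f x * k x) :=
  (memLp_WX hf).integrable_mul hk

theorem V9_pr (D lam : ℝ) (x : Config3) : V9 D lam x =
    V2 D (pr1 p9 x) + Vion D lam (pr2 p9 x) + lam * WX (pr1 p9 x) (pr2 p9 x) := by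
  conv_lhs => rw [← jn_pr p9 x]
  exact V9_jn D lam _ _

/-- kinetic part and ion potential of the slices, integrated against `m (X)` -/
theorem int_kX (D lam : ℝ) (hf : H1 f df) (hk : H1 k dk) :
    Integrable (fun X => kX D lam f df k dk X) := by
  have h1 := (HS.integrable_slice p9 (int_pr2 hf hk)).const_mul (1 / 2)
  have h2 := HS.integrable_slice p9 (int_Vion D lam hf hk.memf)
  refine (h1.add h2).congr (ae_of_all _ fun X => ?_)
  simp only [Pi.add_apply, kX, k2, pr2_jn]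

theorem int_V2X (D : ℝ) (hf : H1 f df) (hk : MemLp k 2 volume) :
    Integrable (fun X => V2 D X * ∫ ξ, f (jn p9 X ξ) * k (jn p9 X ξ)) := by
  refine (HS.integrable_slice p9 (int_V2 D hf hk)).congr (ae_of_all _ fun X => ?_)
  simp only [pr1_jn]
  rw [← integral_const_mul]
  refine integral_congr_ae (ae_of_all _ fun ξ => ?_)
  simp only
  ring

theorem int_WXX (hf : H1 f df) (hk : MemLp k 2 volume) :
    Integrable (fun X => ∫ ξ, WX X ξ * f (jn p9 X ξ) * k (jn p9 X ξ)) := by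
  refine (HS.integrable_slice p9 (int_WX hf hk)).congr (ae_of_all _ fun X => ?_)
  simp only [pr1_jn, pr2_jn]

theorem int_fk (hf : MemLp f 2 volume) (hk : MemLp k 2 volume) :
    Integrable (fun X => ∫ ξ, f (jn p9 X ξ) * k (jn p9 X ξ)) :=
  HS.integrable_slice p9 (hf.integrable_mul hk)

/-- The three-body form along the fibres. -/
theorem q3_fib (D lam : ℝ) (hf : H1 f df) (hk : H1 k dk) :
    q3 D lam f df k dk = (1 / 2) * (∫ x, inner ℝ (pr1 p9 (df x)) (pr1 p9 (dk x))) +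
      ∫ X, (kX D lam f df k dk X + V2 D X * (∫ ξ, f (jn p9 X ξ) * k (jn p9 X ξ)) +
        lam * ∫ ξ, WX X ξ * f (jn p9 X ξ) * k (jn p9 X ξ)) := by
  have i1 := int_pr1 hf hk
  have i2 := int_pr2 hf hk
  have i3 := int_V2 D hf hk.memf
  have i4 := int_Vion D lam hf hk.memf
  have i5 := int_WX hf hk.memf
  have e1 : ∫ x, inner ℝ (df x) (dk x) = (∫ x, inner ℝ (pr1 p9 (df x)) (pr1 p9 (dk x))) +
      ∫ x, inner ℝ (pr2 p9 (df x)) (pr2 p9 (dk x)) := by
    rw [← integral_add i1 i2]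
    exact integral_congr_ae (ae_of_all _ fun x => Sy.inner_jn p9 _ _)
  have e2 : ∫ x, V9 D lam x * f x * k x = (∫ x, V2 D (pr1 p9 x) * f x * k x) +
      (∫ x, Vion D lam (pr2 p9 x) * f x * k x) +
      lam * ∫ x, WX (pr1 p9 x) (pr2 p9 x) * f x * k x := by
    rw [← integral_const_mul, ← integral_add i3 i4,
      ← integral_add (f := fun x => V2 D (pr1 p9 x) * f x * k x +
        Vion D lam (pr2 p9 x) * f x * k x) (i3.add i4) (i5.const_mul lam)]
    refine integral_congr_ae (ae_of_all _ fun x => ?_)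
    simp only [V9_pr]
    ring
  have e3 : ∫ x, inner ℝ (pr2 p9 (df x)) (pr2 p9 (dk x)) =
      ∫ X, ∫ ξ, inner ℝ (pr2 p9 (df (jn p9 X ξ))) (pr2 p9 (dk (jn p9 X ξ))) :=
    integral_jn p9 i2
  have e4 : ∫ x, V2 D (pr1 p9 x) * f x * k x =
      ∫ X, V2 D X * ∫ ξ, f (jn p9 X ξ) * k (jn p9 X ξ) := by
    rw [integral_jn p9 i3]
    refine integral_congr_ae (ae_of_all _ fun X => ?_)
    simp only [pr1_jn]
    rw [← integral_const_mul]
    refine integral_congr_ae (ae_of_all _ fun ξ => ?_)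
    simp only
    ring
  have e5 : ∫ x, Vion D lam (pr2 p9 x) * f x * k x =
      ∫ X, ∫ ξ, Vion D lam ξ * f (jn p9 X ξ) * k (jn p9 X ξ) := by
    rw [integral_jn p9 i4]
    simp only [pr2_jn]
  have e6 : ∫ x, WX (pr1 p9 x) (pr2 p9 x) * f x * k x =
      ∫ X, ∫ ξ, WX X ξ * f (jn p9 X ξ) * k (jn p9 X ξ) := by
    rw [integral_jn p9 i5]
    simp only [pr1_jn, pr2_jn]
  have j2 := (HS.integrable_slice p9 i2).const_mul (1 / 2)
  have j4 : Integrable (fun X : Pos3 => ∫ ξ, Vion D lam ξ * f (jn p9 X ξ) * k (jn p9 X ξ)) := by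
    simpa only [pr2_jn] using HS.integrable_slice p9 i4
  have j3 := int_V2X D hf hk.memf
  have j5 := int_WXX hf hk.memf
  unfold q3
  rw [e1, e2, e3, e4, e5, e6]
  have e7 : ∫ X, (kX D lam f df k dk X + V2 D X * (∫ ξ, f (jn p9 X ξ) * k (jn p9 X ξ)) +
        lam * ∫ ξ, WX X ξ * f (jn p9 X ξ) * k (jn p9 X ξ)) =
      (1 / 2) * (∫ X, ∫ ξ, inner ℝ (pr2 p9 (df (jn p9 X ξ))) (pr2 p9 (dk (jn p9 X ξ)))) +
      (∫ X, ∫ ξ, Vion D lam ξ * f (jn p9 X ξ) * k (jn p9 X ξ)) +
      (∫ X, V2 D X * ∫ ξ, f (jn p9 X ξ) * k (jn p9 X ξ)) +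
      lam * ∫ X, ∫ ξ, WX X ξ * f (jn p9 X ξ) * k (jn p9 X ξ) := by
    have k1 := int_kX D lam hf hk
    rw [integral_add (f := fun X => kX D lam f df k dk X +
        V2 D X * ∫ ξ, f (jn p9 X ξ) * k (jn p9 X ξ)) (k1.add j3) (j5.const_mul lam),
      integral_add k1 j3, integral_const_mul]
    have e8 : ∫ X, kX D lam f df k dk X =
        (1 / 2) * (∫ X, ∫ ξ, inner ℝ (pr2 p9 (df (jn p9 X ξ))) (pr2 p9 (dk (jn p9 X ξ)))) +
        ∫ X, ∫ ξ, Vion D lam ξ * f (jn p9 X ξ) * k (jn p9 X ξ) := by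
      simp only [kX, k2]
      rw [integral_add j2 j4, integral_const_mul]
    rw [e8]
  rw [e7]
  ring

/-- The fibre identity with a multiplier `m (X)`; the gradient of `m Z` has the shape used in
`kato_gen`. -/
theorem q3_mul (D lam : ℝ) (hf : H1 f df) {Z : Config3 → ℝ} {dZ : Config3 → Config3}
    {m : Pos3 → ℝ} {l : Pos3 → Pos3}
    (hk : H1 (fun x => m (pr1 p9 x) * Z x)
      (fun x => m (pr1 p9 x) • dZ x + Z x • jn p9 (l (pr1 p9 x)) 0)) :
    q3 D lam f df (fun x => m (pr1 p9 x) * Z x)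
      (fun x => m (pr1 p9 x) • dZ x + Z x • jn p9 (l (pr1 p9 x)) 0) =
      (1 / 2) * (∫ x, inner ℝ (pr1 p9 (df x))
        (m (pr1 p9 x) • pr1 p9 (dZ x) + Z x • l (pr1 p9 x))) +
      ∫ X, m X * (kX D lam f df Z dZ X + V2 D X * (∫ ξ, f (jn p9 X ξ) * Z (jn p9 X ξ)) +
        lam * ∫ ξ, WX X ξ * f (jn p9 X ξ) * Z (jn p9 X ξ)) ∧
    Integrable (fun X => m X * (kX D lam f df Z dZ X +
        V2 D X * (∫ ξ, f (jn p9 X ξ) * Z (jn p9 X ξ)) +
        lam * ∫ ξ, WX X ξ * f (jn p9 X ξ) * Z (jn p9 X ξ))) := by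
  have hp1 : ∀ x : Config3, pr1 p9 (m (pr1 p9 x) • dZ x + Z x • jn p9 (l (pr1 p9 x)) 0) =
      m (pr1 p9 x) • pr1 p9 (dZ x) + Z x • l (pr1 p9 x) := fun x => by
    rw [Sy.pr1_add, Sy.pr1_smul, Sy.pr1_smul, pr1_jn]
  have hp2 : ∀ x : Config3, pr2 p9 (m (pr1 p9 x) • dZ x + Z x • jn p9 (l (pr1 p9 x)) 0) =
      m (pr1 p9 x) • pr2 p9 (dZ x) := fun x => by
    rw [Sy.pr2_add, Sy.pr2_smul, Sy.pr2_smul, pr2_jn, smul_zero, add_zero]
  have hpt : ∀ X : Pos3, kX D lam f df (fun x => m (pr1 p9 x) * Z x)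
      (fun x => m (pr1 p9 x) • dZ x + Z x • jn p9 (l (pr1 p9 x)) 0) X +
      V2 D X * (∫ ξ, f (jn p9 X ξ) * (m (pr1 p9 (jn p9 X ξ)) * Z (jn p9 X ξ))) +
      lam * ∫ ξ, WX X ξ * f (jn p9 X ξ) * (m (pr1 p9 (jn p9 X ξ)) * Z (jn p9 X ξ)) =
      m X * (kX D lam f df Z dZ X + V2 D X * (∫ ξ, f (jn p9 X ξ) * Z (jn p9 X ξ)) +
        lam * ∫ ξ, WX X ξ * f (jn p9 X ξ) * Z (jn p9 X ξ)) := by
    intro X
    have a1 : kX D lam f df (fun x => m (pr1 p9 x) * Z x)
        (fun x => m (pr1 p9 x) • dZ x + Z x • jn p9 (l (pr1 p9 x)) 0) X =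
        m X * kX D lam f df Z dZ X := by
      simp only [kX, k2, hp2]
      simp only [pr1_jn, inner_smul_right]
      rw [integral_const_mul, mul_add, ← integral_const_mul (m X)
        (fun x => Vion D lam x * f (jn p9 X x) * Z (jn p9 X x))]
      congr 1
      · ring
      · refine integral_congr_ae (ae_of_all _ fun ξ => ?_)
        simp only
        ring
    have a2 : ∫ ξ, f (jn p9 X ξ) * (m (pr1 p9 (jn p9 X ξ)) * Z (jn p9 X ξ)) =
        m X * ∫ ξ, f (jn p9 X ξ) * Z (jn p9 X ξ) := by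
      rw [← integral_const_mul]
      refine integral_congr_ae (ae_of_all _ fun ξ => ?_)
      simp only [pr1_jn]
      ring
    have a3 : ∫ ξ, WX X ξ * f (jn p9 X ξ) * (m (pr1 p9 (jn p9 X ξ)) * Z (jn p9 X ξ)) =
        m X * ∫ ξ, WX X ξ * f (jn p9 X ξ) * Z (jn p9 X ξ) := by
      rw [← integral_const_mul]
      refine integral_congr_ae (ae_of_all _ fun ξ => ?_)
      simp only [pr1_jn]
      ring
    rw [a1, a2, a3]
    ring
  constructor
  · rw [q3_fib D lam hf hk]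
    simp only [hp1]
    congr 1
    exact integral_congr_ae (ae_of_all _ hpt)
  · have := ((int_kX D lam hf hk).add (int_V2X D hf hk.memf)).add
      ((int_WXX hf hk.memf).const_mul lam)
    exact this.congr (ae_of_all _ hpt)

end Crest.Agent.R335.Fib
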