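import Crest.Agent.R335.BSys

/-!
Row 335 (S0521): INTERACTING SIDE, second interface: vector Kato identities for
`s₁ = |Ψ^o|`, `s₂ = |Ψ^e|` and `F` (note 10754 (a),(b) of helper720, 10764 (E2)-(E4) of helper783).
-/

set_option autoImplicit false
set_option linter.unusedVariables false

open MeasureTheory Filter Set Crest.MathPhysics.ThreeBody
open scoped ENNReal Topology ContDiff

noncomputable section
namespace Crest.Agent.R335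

/-- exterior half space -/
def Hz (R : ℝ) : Set Pos3 := {x | R < ‖x‖ ∧ 0 < x 2}

namespace Sys
variable {cg C0 D : ℝ} {B : OBD cg C0 D} {K lam : ℝ} (S : Sys B K lam)

/-- `s₁ = |Ψ^o|`, `s₂ = |Ψ^e|` -/
def s1 (X : Pos3) : ℝ := √(S.s1sq X)
def s2 (X : Pos3) : ℝ := √(S.s2sq X)
/-- `F` normalised so that `F ≤ s₁` -/
def Fn (X : Pos3) : ℝ := √2 * S.F X
/-- `2 λ w₀₀` -/
def wc (X : Pos3) : ℝ := 2 * lam * ∫ ξ, WX X ξ * S.Φ0 ξ ^ 2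
/-- `P = κ² + 2 V` -/
def Pot (X : Pos3) : ℝ := S.κ ^ 2 + 2 * V2 D X
/-- `q₁ = min (q_S², q_T²)` -/
def q1sq : ℝ := 2 * min (S.e1 - S.e0) (S.eT - S.e0)

/-- sum of the remainders of the ion-odd components -/
def Nall (X : Pos3) : ℝ := S.N X + S.NT S.YT X + S.NT S.YB X
/-- sum of the remainders of the ion-even components -/
def Pall (X : Pos3) : ℝ := S.P X + S.PT S.YT X + S.PT S.YB X

/-- error in the equation of `s₁` -/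
def erX (K' : ℝ) (X : Pos3) : ℝ :=
  K' * lam ^ 2 / ‖X‖ ^ 4 * S.s1 X +
    K' * lam * ((|X 2| / ‖X‖ ^ 3 + Real.exp (-(B.a / 2) * ‖X‖)) * S.s2 X +
      |X 2| / ‖X‖ ^ 3 * S.Nall X + Real.exp (-(S.κ + B.a / 4) * ‖X‖))

/-- error in the equation of `F` -/
def erF (K' : ℝ) (X : Pos3) : ℝ :=
  K' * lam * (S.P X / ‖X‖ ^ 2 + (|X 2| / ‖X‖ ^ 3 + Real.exp (-(B.a / 2) * ‖X‖)) *
    (|S.c X| + S.N X))

/-- coupling in the inequality of `s₂` -/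
def cplf (K' : ℝ) (X : Pos3) : ℝ :=
  2 * lam * ((64 * C0 * D * |X 2| / ‖X‖ ^ 3 + K' * Real.exp (-(B.a / 2) * ‖X‖)) * |S.F X| +
    K' * |X 2| / ‖X‖ ^ 3 * S.Pall X + K' * Real.exp (-(S.κ + B.a / 4) * ‖X‖))

end Sys

namespace BI

/-- `s₂`: `Δ s₂ ≥ (P + q₁) s₂ - cpl` on `r > K'` -/
theorem vec_s2 {cg C0 D : ℝ} (hC : 1 ≤ C0) (hD : 4 ≤ D) (B : OBD cg C0 D) (K : ℝ) :
    ∃ K' l' : ℝ, 1 ≤ K' ∧ 0 < l' ∧ ∀ lam, 0 < lam → lam ≤ l' → ∀ S : Sys B K lam,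
      ∃ ds2, H1 S.s2 ds2 ∧ ∀ φ, Test (Ext K') φ → (∀ x, 0 ≤ φ x) →
        (∫ x, inner ℝ (ds2 x) (gr φ x)) + ∫ x, (S.Pot x + S.q1sq) * S.s2 x * φ x ≤
          ∫ x, S.cplf K' x * φ x := sorry

/-- `F`: `Δ F = (P + wc) F + sig` on `r > K'` -/
theorem vec_F {cg C0 D : ℝ} (hC : 1 ≤ C0) (hD : 4 ≤ D) (B : OBD cg C0 D) (K : ℝ) :
    ∃ K' l' : ℝ, 1 ≤ K' ∧ 0 < l' ∧ ∀ lam, 0 < lam → lam ≤ l' → ∀ S : Sys B K lam,
      ∃ (dF : Pos3 → Pos3) (sig : Pos3 → ℝ), H1 S.Fn dF ∧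
        LocallyIntegrableOn sig (Ext K') volume ∧
        (∀ φ, Test (Ext K') φ →
          (∫ x, inner ℝ (dF x) (gr φ x)) + ∫ x, ((S.Pot x + S.wc x) * S.Fn x + sig x) * φ x = 0) ∧
        ∀ᵐ x : Pos3, K' < ‖x‖ → |sig x| ≤ S.erF K' x := sorry

/-- `s₁`: on an open set `U` of the exterior half space where `F` is locally bounded below,
`Δ s₁ = (P + wc) s₁ + X` with a function `X ≥ - er`, and
`s₁² |∇m|² ≤ (1 - m²) s₁ (X + er)`, `m = F / s₁`. -/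
theorem vec_s1 {cg C0 D : ℝ} (hC : 1 ≤ C0) (hD : 4 ≤ D) (B : OBD cg C0 D) (K : ℝ) :
    ∃ K' l' : ℝ, 1 ≤ K' ∧ 0 < l' ∧ ∀ lam, 0 < lam → lam ≤ l' → ∀ S : Sys B K lam,
      ∀ U : Set Pos3, IsOpen U → U ⊆ Hz K' →
      (∀ A, IsCompact A → A ⊆ U → ∃ c : ℝ, 0 < c ∧ ∀ᵐ x, x ∈ A → c ≤ S.F x) →
      ∃ (ds1 dF : Pos3 → Pos3) (Xf : Pos3 → ℝ), H1 S.s1 ds1 ∧ H1 S.Fn dF ∧
        LocallyIntegrableOn Xf U volume ∧
        (∀ φ, Test U φ →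
          (∫ x, inner ℝ (ds1 x) (gr φ x)) + ∫ x, ((S.Pot x + S.wc x) * S.s1 x + Xf x) * φ x
            = 0) ∧
        (∀ᵐ x, x ∈ U → - S.erX K' x ≤ Xf x) ∧
        (∀ᵐ x, x ∈ U → S.Fn x ≤ S.s1 x) ∧
        ∀ᵐ x, x ∈ U → ‖S.s1 x • dF x - S.Fn x • ds1 x‖ ^ 2 ≤
          (S.s1 x ^ 2 - S.Fn x ^ 2) * S.s1 x * (Xf x + S.erX K' x) := sorry

end BI

end Crest.Agent.R335
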