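import Crest.Agent.R335.TCloseAbs
import Crest.Agent.R335.HSpace

/-!
Row 335 (S0521): first-order closeness of a perturbed ground state, in `H¹(ℝ^ι)` (helper192).
-/

set_option autoImplicit false
set_option linter.unusedSectionVars false

open MeasureTheory Filter Set
open scoped ENNReal Topology ContDiff

noncomputable section
namespace Crest.Agent.R335

variable {ι : Type*} [Fintype ι] [DecidableEq ι]
local notation "E" => EuclideanSpace ℝ ι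

namespace H1S

theorem sub_of {f f' : E → ℝ} {g g' : E → E} (h : H1 f g) (h' : H1 f' g') :
    of (h.sub h') = of h - of h' := by
  apply ext'
  filter_upwards [of_fn (h.sub h'), sub_fn (of h) (of h'), of_fn h, of_fn h'] with x h1 h2 h3 h4
  rw [h1, h2, h3, h4]

theorem smul_of {f : E → ℝ} {g : E → E} (h : H1 f g) (c : ℝ) :
    of (h.const_mul c) = c • of h := by
  apply ext'
  filter_upwards [of_fn (h.const_mul c), smul_fn c (of h), of_fn h] with x h1 h2 h3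
  rw [h1, h2, h3]

theorem add_of {f f' : E → ℝ} {g g' : E → E} (h : H1 f g) (h' : H1 f' g') :
    of (h.add h') = of h + of h' := by
  apply ext'
  filter_upwards [of_fn (h.add h'), add_fn (of h) (of h'), of_fn h, of_fn h'] with x h1 h2 h3 h4
  rw [h1, h2, h3, h4]

theorem nF_of_left {f : E → ℝ} {g : E → E} (h : H1 f g) (P : H1S ι) :
    nF ι (of h) P = ∫ x, f x * (fn P) x := by
  rw [nF_symm, nF_left_of]
  simp only [mul_comm]

theorem dF_of_left {f : E → ℝ} {g : E → E} (h : H1 f g) (P : H1S ι) :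
    dF ι (of h) P = ∫ x, inner ℝ (g x) ((gd P) x) := by
  rw [dF_symm, dF_left_of]
  simp only [real_inner_comm]

theorem VF_of_left {V : E → ℝ} {C : ℝ} (hV : FB V C) {f : E → ℝ} {g : E → E} (h : H1 f g)
    (P : H1S ι) : VF hV (of h) P = ∫ x, V x * (f x * (fn P) x) := by
  rw [VF_symm, VF_left_of]
  simp only [mul_comm]

/-- the form `½ ∫ ∇f·∇k + ∫ V f k` -/
def qF {V : E → ℝ} {C : ℝ} (hV : FB V C) : H1S ι →L[ℝ] H1S ι →L[ℝ] ℝ :=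
  (1 / 2 : ℝ) • dF ι + VF hV

theorem qF_apply {V : E → ℝ} {C : ℝ} (hV : FB V C) (P Q : H1S ι) :
    qF hV P Q = (1 / 2) * dF ι P Q + VF hV P Q := rfl

theorem qF_of_left {V : E → ℝ} {C : ℝ} (hV : FB V C) {f : E → ℝ} {g : E → E} (h : H1 f g)
    (P : H1S ι) : qF hV (of h) P =
      (1 / 2) * (∫ x, inner ℝ (g x) ((gd P) x)) + ∫ x, V x * (f x * (fn P) x) := by
  rw [qF_apply, dF_of_left, VF_of_left]

theorem qF_self {V : E → ℝ} {C : ℝ} (hV : FB V C) (P : H1S ι) : qF hV P P =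
      (1 / 2) * (∫ x, ‖(gd P) x‖ ^ 2) + ∫ x, V x * (fn P) x ^ 2 := by
  rw [qF_apply, dF_self, VF_self]

theorem qF_of_self {V : E → ℝ} {C : ℝ} (hV : FB V C) {f : E → ℝ} {g : E → E} (h : H1 f g) :
    qF hV (of h) (of h) = (1 / 2) * (∫ x, ‖g x‖ ^ 2) + ∫ x, V x * f x ^ 2 := by
  rw [qF_apply, dF_of h h, VF_of hV h h]
  simp only [real_inner_self_eq_norm_sq, ← sq]

theorem nF_of_self {f : E → ℝ} {g : E → E} (h : H1 f g) :
    nF ι (of h) (of h) = ∫ x, f x ^ 2 := by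
  rw [nF_of h h]
  simp only [← sq]

theorem VF_bound {V : E → ℝ} {C : ℝ} (hV : FB V C) (P Q : H1S ι) :
    |VF hV P Q| ≤ |C| * ‖P‖ * ‖Q‖ := by
  have h : |VFlin hV P Q| ≤ C * ‖P‖ * ‖Q‖ :=
    bound_of_diag (VFlin hV) (VFlin_symm hV) (VFlin_self_le hV) P Q
  have e : VF hV P Q = VFlin hV P Q := rfl
  rw [e]
  refine h.trans ?_
  have h2 : 0 ≤ ‖P‖ * ‖Q‖ := mul_nonneg (norm_nonneg P) (norm_nonneg Q)
  rw [mul_assoc, mul_assoc]
  exact mul_le_mul_of_nonneg_right (le_abs_self C) h2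

theorem qF_coercive {V : E → ℝ} {C : ℝ} (hV : FB V C) {c M : ℝ}
    (hco : ∀ (f : E → ℝ) (g : E → E), H1 f g → c * ((∫ x, f x ^ 2) + ∫ x, ‖g x‖ ^ 2) ≤
      (1 / 2) * (∫ x, ‖g x‖ ^ 2) + (∫ x, V x * f x ^ 2) + M * ∫ x, f x ^ 2) (P : H1S ι) :
    c * ‖P‖ ^ 2 ≤ qF hV P P + M * nF ι P P := by
  have e1 := qF_self hV P
  have e2 := nF_self P
  have e3 := norm_sq_eq P
  have e4 := hco _ _ (h1 P)
  rw [e1, e2, e3]
  exact e4

theorem nF_nonneg (P : H1S ι) : 0 ≤ nF ι P P := by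
  have e2 := nF_self P
  rw [e2]; exact integral_nonneg fun x => sq_nonneg _

end H1S

open H1S

/-- FIRST ORDER CLOSENESS of the perturbed ground state -/
theorem first_order_close {V W : E → ℝ} {CV CW : ℝ} (hV : H1S.FB V CV) (hW : H1S.FB W CW)
    {c M : ℝ} (hc : 0 < c) (hM : 0 ≤ M)
    (hco : ∀ (f : E → ℝ) (g : E → E), H1 f g → c * ((∫ x, f x ^ 2) + ∫ x, ‖g x‖ ^ 2) ≤
      (1 / 2) * (∫ x, ‖g x‖ ^ 2) + (∫ x, V x * f x ^ 2) + M * ∫ x, f x ^ 2)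
    {φ : E → ℝ} {dφ : E → E} (hφ : H1 φ dφ) (hn : ∫ x, φ x ^ 2 = 1) {e0 : ℝ}
    (heq : ∀ (k : E → ℝ) (dk : E → E), H1 k dk →
      (1 / 2) * (∫ x, inner ℝ (dφ x) (dk x)) + (∫ x, V x * (φ x * k x)) = e0 * ∫ x, φ x * k x)
    {γ K1 : ℝ} (hγ : 0 < γ) (hK1 : 0 ≤ K1) :
    ∃ K l' : ℝ, 1 ≤ K ∧ 0 < l' ∧ ∀ lam, 0 ≤ lam → lam ≤ l' →
      ∀ (Φ : E → ℝ) (dΦ : E → E) (e : ℝ), H1 Φ dΦ → ∫ x, Φ x ^ 2 = 1 → 0 < ∫ x, φ x * Φ x →
      (∀ (k : E → ℝ) (dk : E → E), H1 k dk →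
        (1 / 2) * (∫ x, inner ℝ (dΦ x) (dk x)) + (∫ x, V x * (Φ x * k x)) +
          lam * (∫ x, W x * (Φ x * k x)) = e * ∫ x, Φ x * k x) →
      |e - e0| ≤ K1 * lam →
      (e0 + γ) * (∫ x, (Φ x - (∫ x, φ x * Φ x) * φ x) ^ 2) ≤
        (1 / 2) * (∫ x, ‖dΦ x - (∫ x, φ x * Φ x) • dφ x‖ ^ 2) +
          ∫ x, V x * (Φ x - (∫ x, φ x * Φ x) * φ x) ^ 2 →
      ∫ x, (Φ x - φ x) ^ 2 ≤ (K * lam) ^ 2 ∧ ∫ x, ‖dΦ x - dφ x‖ ^ 2 ≤ (K * lam) ^ 2 := by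
  have hQ1 : nF ι (of hφ) (of hφ) = 1 := (nF_of_self hφ).trans hn
  have hQ : ∀ v, qF hV (of hφ) v = e0 * nF ι (of hφ) v := fun v => by
    have a1 := qF_of_left hV hφ v
    have a2 := nF_of_left hφ v
    rw [a1, a2]
    exact heq _ _ (h1 v)
  have t1 : ∀ u : H1S ι, c * ‖u‖ ^ 2 ≤ qF hV u u + M * nF ι u u := qF_coercive hV hco
  have t2 : ∀ u v : H1S ι, |VF hW u v| ≤ |CW| * ‖u‖ * ‖v‖ := VF_bound hW
  have t3 : ∀ u v : H1S ι, nF ι u v = nF ι v u := nF_symm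
  have t4 : ∀ u : H1S ι, 0 ≤ nF ι u u := nF_nonneg
  have t5 := close_abs (H := H1S ι) (qF hV) (nF ι) (VF hW) t3 t4 hc hM t1 (abs_nonneg CW) t2
    (Q := of hφ) hQ1 (e0 := e0) hQ (γ := γ) (K1 := K1) hγ hK1
  obtain ⟨K, l', hK, hl', hcl⟩ := t5
  refine ⟨K, l', hK, hl', ?_⟩
  intro lam h0 hl Φ dΦ e hΦ hΦn hpos hEq he hgap
  obtain ⟨a, ha⟩ : ∃ a : ℝ, a = ∫ x, φ x * Φ x := ⟨_, rfl⟩
  rw [← ha] at hpos hgap
  have hna : nF ι (of hφ) (of hΦ) = a := (nF_of hφ hΦ).trans ha.symm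
  have hX : of (hΦ.sub (hφ.const_mul a)) = of hΦ - a • of hφ := by
    have b1 := sub_of hΦ (hφ.const_mul a)
    have b2 := smul_of hφ a
    rw [b1, b2]
  have hP1 : nF ι (of hΦ) (of hΦ) = 1 := (nF_of_self hΦ).trans hΦn
  have hP : ∀ v, qF hV (of hΦ) v + lam * VF hW (of hΦ) v = e * nF ι (of hΦ) v := fun v => by
    have a1 := qF_of_left hV hΦ v
    have a2 := nF_of_left hΦ v
    have a3 := VF_of_left hW hΦ v
    rw [a1, a2, a3]
    exact hEq _ _ (h1 v)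
  have hgap' : (e0 + γ) * nF ι (of (hΦ.sub (hφ.const_mul a))) (of (hΦ.sub (hφ.const_mul a))) ≤
      qF hV (of (hΦ.sub (hφ.const_mul a))) (of (hΦ.sub (hφ.const_mul a))) := by
    have a1 := qF_of_self hV (hΦ.sub (hφ.const_mul a))
    have a2 := nF_of_self (hΦ.sub (hφ.const_mul a))
    rw [a1, a2]
    exact hgap
  have key := hcl lam h0 hl (of hΦ) _ _ e a hP1 hna.symm hpos hX (sub_of hΦ hφ) hP he hgap'
  have h2 := norm_of_sq (hΦ.sub hφ)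
  have h3 : ‖of (hΦ.sub hφ)‖ ^ 2 ≤ (K * lam) ^ 2 := by
    apply pow_le_pow_left₀ (norm_nonneg _) key
  have h4 : 0 ≤ ∫ x, (Φ x - φ x) ^ 2 := integral_nonneg fun x => sq_nonneg _
  have h5 : 0 ≤ ∫ x, ‖dΦ x - dφ x‖ ^ 2 := integral_nonneg fun x => sq_nonneg _
  constructor <;> linarith

end Crest.Agent.R335
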