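import Crest.Agent.R335.IonLow
import Crest.Agent.R335.TClose

/-!
Row 335 (S0521), ION BLOCK (helper517): existence of the ion states, levels, first order closeness.
-/

set_option autoImplicit false
set_option linter.unusedSectionVars false
set_option linter.unusedVariables false

open MeasureTheory Filter Set Crest.MathPhysics.ThreeBody
open scoped ENNReal Topology ContDiff

noncomputable section
namespace Crest.Agent.R335
namespace IonF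

theorem cs6 {f k : Y2 → ℝ} (hf : MemLp f 2 volume) (hk : MemLp k 2 volume) :
    (∫ x, f x * k x) ^ 2 ≤ (∫ x, f x ^ 2) * ∫ x, k x ^ 2 := by
  have h := HS.cs hf hk
  simp only [smul_eq_mul, Real.norm_eq_abs, sq_abs] at h
  exact h

/-- the state of one sector, for small `λ` -/
theorem sector_state {D σ π : ℝ} (hσ : σ = 1 ∨ σ = -1) (hπ : π = 1 ∨ π = -1) {φ : Y2 → ℝ}
    {dφ : Y2 → Y2} {e0 : ℝ} (hφ : IonProd D e0 φ dφ) (hφ1 : ∀ ξ, φ (sxi ξ) = σ * φ ξ)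
    (hφ2 : ∀ ξ, φ (rxi ξ) = π * φ ξ) {E1 : ℝ} (hE : e0 < E1)
    (hgap : ∀ (k : Y2 → ℝ) (dk : Y2 → Y2), H1 k dk → (∀ᵐ ξ, k (sxi ξ) = σ * k ξ) →
      (∀ᵐ ξ, k (rxi ξ) = π * k ξ) →
      E1 * (∫ ξ, k ξ ^ 2) - (E1 - e0) * (∫ ξ, φ ξ * k ξ) ^ 2 ≤ k2 D 0 k dk k dk) :
    ∃ K l' : ℝ, 1 ≤ K ∧ 0 < l' ∧ ∀ lam, 0 ≤ lam → lam ≤ l' →
      ∃ (e : ℝ) (Φ : Y2 → ℝ) (dΦ : Y2 → Y2), H1 Φ dΦ ∧ (∫ ξ, Φ ξ ^ 2 = 1) ∧
        (∀ ξ, Φ (sxi ξ) = σ * Φ ξ) ∧ (∀ ξ, Φ (rxi ξ) = π * Φ ξ) ∧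
        (∀ (k : Y2 → ℝ) (dk : Y2 → Y2), H1 k dk → k2 D lam Φ dΦ k dk = e * ∫ ξ, Φ ξ * k ξ) ∧
        (∀ (k : Y2 → ℝ) (dk : Y2 → Y2), H1 k dk → (∀ᵐ ξ, k (sxi ξ) = σ * k ξ) →
          (∀ᵐ ξ, k (rxi ξ) = π * k ξ) →
          e * (∫ ξ, k ξ ^ 2) + (E1 - e) * ((∫ ξ, k ξ ^ 2) - (∫ ξ, Φ ξ * k ξ) ^ 2) ≤
            k2 D lam k dk k dk) ∧
        e0 ≤ e ∧ e ≤ e0 + K * lam ∧ e ≤ (e0 + E1) / 2 ∧
        (∫ ξ, (Φ ξ - φ ξ) ^ 2 ≤ (K * lam) ^ 2) ∧
        (∫ ξ, ‖dΦ ξ - dφ ξ‖ ^ 2 ≤ (K * lam) ^ 2) ∧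
        (∀ i : Fin 3, ∀ᵐ ξ, Φ (cxi i ξ) ^ 2 = Φ ξ ^ 2) := by
  set w : ℝ := ∫ ξ, Wion ξ * (φ ξ * φ ξ) with hw
  have hw0 : 0 ≤ w := Wion_sq_nonneg φ
  have hφφ : k2 D 0 φ dφ φ dφ = e0 := by
    have := hφ.eq φ dφ hφ.h1
    simp only [← sq] at this
    rw [this, hφ.nrm, mul_one]
  have hγ : 0 < E1 - e0 := by linarith
  have hco0 : ∀ (f : Y2 → ℝ) (g : Y2 → Y2), H1 f g →
      (1 / 4) * ((∫ x, f x ^ 2) + ∫ x, ‖g x‖ ^ 2) ≤
      (1 / 2) * (∫ x, ‖g x‖ ^ 2) + (∫ x, Vion D 0 x * f x ^ 2) + 65 * ∫ x, f x ^ 2 :=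
    fun f g h => k2_coer le_rfl h
  obtain ⟨K, l1, hK, hl1, hcl⟩ := first_order_close (Vion_FB D 0) Wion_FB
    (c := 1 / 4) (M := 65) (by norm_num) (by norm_num) hco0 hφ.h1 hφ.nrm (e0 := e0)
    (fun k dk hk => by rw [← k2_eq]; exact hφ.eq k dk hk) hγ hw0
  refine ⟨max K (w + 1), min l1 ((E1 - e0) / (2 * (w + 1))), le_max_of_le_left hK,
    lt_min hl1 (by positivity), ?_⟩
  intro lam h0 hl
  have hla : lam ≤ l1 := hl.trans (min_le_left _ _)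
  have hlb : lam * w ≤ (E1 - e0) / 2 := by
    have h1 : lam ≤ (E1 - e0) / (2 * (w + 1)) := hl.trans (min_le_right _ _)
    rw [le_div_iff₀ (by positivity)] at h1
    nlinarith
  have hφl : k2 D lam φ dφ φ dφ = e0 + lam * w := by
    rw [k2_lam D lam hφ.h1 hφ.h1, hφφ]
  have hφE : (1 / 2) * (∫ x, ‖dφ x‖ ^ 2) + (∫ x, Vion D lam x * φ x ^ 2) < E1 := by
    rw [← k2_self, hφl]; linarith
  have hgapl : ∀ (k : Y2 → ℝ) (dk : Y2 → Y2), H1 k dk → (∀ᵐ x, k (sxi x) = σ * k x) →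
      (∀ᵐ x, k (rxi x) = π * k x) →
      E1 * (∫ x, k x ^ 2) - (E1 - e0) * (∫ x, φ x * k x) ^ 2 ≤
        (1 / 2) * (∫ x, ‖dk x‖ ^ 2) + ∫ x, Vion D lam x * k x ^ 2 := by
    intro k dk hk k1 k2'
    rw [← k2_self]
    exact (hgap k dk hk k1 k2').trans (k2_mono h0 hk)
  obtain ⟨Φ, dΦ, e, hΦ, hn, hs, hp, hpos, hele, heq, hsp⟩ :=
    sector_exists (Vion_FB D lam) (c := 1 / 4) (M := 65) (by norm_num)
      (fun f g h => k2_coer h0 h) sxi_sxi rxi_rxi sxi_rxi hσ hπ (Vion_sxi D lam)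
      (Vion_rxi D lam) hφ.h1 hφ.nrm (Eventually.of_forall hφ1) (Eventually.of_forall hφ2)
      hφE hgapl
  rw [← k2_self, hφl] at hele
  have heq' : ∀ (k : Y2 → ℝ) (dk : Y2 → Y2), H1 k dk →
      k2 D lam Φ dΦ k dk = e * ∫ ξ, Φ ξ * k ξ := fun k dk hk => by
    rw [k2_eq]; exact heq k dk hk
  have hΦΦ : k2 D lam Φ dΦ Φ dΦ = e := by
    have := heq' Φ dΦ hΦ
    simp only [← sq] at this
    rw [this, hn, mul_one]
  have ha1 : (∫ x, φ x * Φ x) ^ 2 ≤ 1 := by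
    have := cs6 hφ.h1.memf hΦ.memf
    rwa [hφ.nrm, hn, one_mul] at this
  have hee : e0 ≤ e := by
    have h1 := hgap Φ dΦ hΦ (Eventually.of_forall hs) (Eventually.of_forall hp)
    have h2 := k2_mono (D := D) h0 hΦ
    rw [hΦΦ] at h2
    rw [hn] at h1
    nlinarith
  have heE : e ≤ (e0 + E1) / 2 := by linarith
  have habs : |e - e0| ≤ w * lam := by
    rw [abs_of_nonneg (by linarith)]; linarith
  have hKK : K ≤ max K (w + 1) := le_max_left _ _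
  have hKK2 : (K * lam) ^ 2 ≤ (max K (w + 1) * lam) ^ 2 := by
    have : K * lam ≤ max K (w + 1) * lam := mul_le_mul_of_nonneg_right hKK h0
    have h2 : 0 ≤ K * lam := mul_nonneg (by linarith) h0
    exact pow_le_pow_left₀ h2 this 2
  set a : ℝ := ∫ x, φ x * Φ x with ha
  have hkk : H1 (fun x => Φ x - a * φ x) (fun x => dΦ x - a • dφ x) :=
    hΦ.sub (hφ.h1.const_mul a)
  have horth : ∫ x, φ x * (Φ x - a * φ x) = 0 := by
    have i1 : Integrable (fun x => φ x * Φ x) := hφ.h1.memf.integrable_mul hΦ.memf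
    have i2 : Integrable (fun x => φ x ^ 2) := hφ.h1.memf.integrable_sq
    have e1 : (fun x => φ x * (Φ x - a * φ x)) = fun x => φ x * Φ x - a * φ x ^ 2 := by
      funext x; ring
    rw [e1, integral_sub i1 (i2.const_mul a), integral_const_mul, hφ.nrm, ← ha]
    ring
  have hc := hcl lam h0 hla Φ dΦ e hΦ hn hpos (fun k dk hk => by
    have h1 := heq' k dk hk
    rw [k2_lam D lam hΦ hk, k2_eq] at h1
    exact h1) habs (by
    have h1 := hgap _ _ hkk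
      (Eventually.of_forall fun ξ => by
        show Φ (sxi ξ) - a * φ (sxi ξ) = σ * (Φ ξ - a * φ ξ)
        rw [hs, hφ1]; ring)
      (Eventually.of_forall fun ξ => by
        show Φ (rxi ξ) - a * φ (rxi ξ) = π * (Φ ξ - a * φ ξ)
        rw [hp, hφ2]; ring)
    rw [horth, k2_self] at h1
    have e1 : e0 + (E1 - e0) = E1 := by ring
    rw [e1]
    linarith)
  refine ⟨e, Φ, dΦ, hΦ, hn, hs, hp, heq', fun k dk hk k1 k2' => ?_, hee, ?_, heE,
    hc.1.trans hKK2, hc.2.trans hKK2, fun i => ?_⟩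
  · rw [k2_self]
    exact hsp k dk hk k1 k2'
  · have : w * lam ≤ max K (w + 1) * lam :=
      mul_le_mul_of_nonneg_right (le_trans (by linarith) (le_max_right _ _)) h0
    linarith
  · exact sector_sq_inv (Vion_FB D lam) (fun x => cxi_sxi i x) (fun x => cxi_rxi i x)
      (Vion_cxi D lam i) (g := E1 - e) (by linarith) hΦ hn hs hp heq hsp

theorem k2_sub (D lam : ℝ) {k Φ : Y2 → ℝ} {dk dΦ : Y2 → Y2} (hk : H1 k dk) (hΦ : H1 Φ dΦ)
    (a : ℝ) : k2 D lam (fun x => k x - a * Φ x) (fun x => dk x - a • dΦ x)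
      (fun x => k x - a * Φ x) (fun x => dk x - a • dΦ x) =
      k2 D lam k dk k dk - 2 * a * k2 D lam Φ dΦ k dk + a ^ 2 * k2 D lam Φ dΦ Φ dΦ := by
  have i1 : Integrable (fun x => inner ℝ (dk x) (dk x)) := integrable_inner_H1 hk.memg hk.memg
  have i2 : Integrable (fun x => inner ℝ (dΦ x) (dk x)) := integrable_inner_H1 hΦ.memg hk.memg
  have i3 : Integrable (fun x => inner ℝ (dΦ x) (dΦ x)) := integrable_inner_H1 hΦ.memg hΦ.memg
  have j1 := (Vion_FB D lam).int2 hk hk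
  have j2 := (Vion_FB D lam).int2 hΦ hk
  have j3 := (Vion_FB D lam).int2 hΦ hΦ
  have i12 : Integrable (fun x => inner ℝ (dk x) (dk x) - 2 * a * inner ℝ (dΦ x) (dk x)) :=
    i1.sub (i2.const_mul _)
  have j12 : Integrable (fun x => Vion D lam x * (k x * k x) -
    2 * a * (Vion D lam x * (Φ x * k x))) := j1.sub (j2.const_mul _)
  have e1 : ∫ x, inner ℝ (dk x - a • dΦ x) (dk x - a • dΦ x) =
      (∫ x, inner ℝ (dk x) (dk x)) - 2 * a * (∫ x, inner ℝ (dΦ x) (dk x)) +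
        a ^ 2 * ∫ x, inner ℝ (dΦ x) (dΦ x) := by
    rw [← integral_const_mul, ← integral_const_mul, ← integral_sub i1 (i2.const_mul _),
      ← integral_add i12 (i3.const_mul _)]
    congr 1; funext x
    rw [inner_sub_left, inner_sub_right, inner_sub_right, real_inner_smul_left,
      real_inner_smul_left, real_inner_smul_right, real_inner_smul_right,
      real_inner_comm (dΦ x) (dk x)]
    ring
  have e2 : ∫ x, Vion D lam x * ((k x - a * Φ x) * (k x - a * Φ x)) =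
      (∫ x, Vion D lam x * (k x * k x)) - 2 * a * (∫ x, Vion D lam x * (Φ x * k x)) +
        a ^ 2 * ∫ x, Vion D lam x * (Φ x * Φ x) := by
    rw [← integral_const_mul, ← integral_const_mul, ← integral_sub j1 (j2.const_mul _),
      ← integral_add j12 (j3.const_mul _)]
    congr 1; funext x
    ring
  rw [k2_eq, k2_eq, k2_eq, k2_eq, e1, e2]
  ring

/-- bottom of the whole form -/
theorem low_level {D eg eu e3 : ℝ} {g u : Pos3 → ℝ} {dg du : Pos3 → Pos3}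
    (ob : OneBody D g u dg du eg eu e3) {lam e K : ℝ} (h0 : 0 ≤ lam) {Φ : Y2 → ℝ}
    {dΦ : Y2 → Y2} (hΦ : H1 Φ dΦ) (hn : ∫ ξ, Φ ξ ^ 2 = 1) {d0 : Y2 → Y2}
    (hp : IonProd D (2 * eg) (ph0 g) d0)
    (heq : ∀ (k : Y2 → ℝ) (dk : Y2 → Y2), H1 k dk → k2 D lam Φ dΦ k dk = e * ∫ ξ, Φ ξ * k ξ)
    (hcl : ∫ ξ, (Φ ξ - ph0 g ξ) ^ 2 ≤ 1 / 2) (he : e ≤ 2 * eg + (eu - eg) / 2)
    {k : Y2 → ℝ} {dk : Y2 → Y2} (hk : H1 k dk) :
    e * (∫ ξ, k ξ ^ 2) ≤ k2 D lam k dk k dk := by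
  obtain ⟨a, ha⟩ : ∃ a : ℝ, a = ∫ ξ, Φ ξ * k ξ := ⟨_, rfl⟩
  have hv : H1 (fun x => k x - a * Φ x) (fun x => dk x - a • dΦ x) := hk.sub (hΦ.const_mul a)
  have hΦΦ : k2 D lam Φ dΦ Φ dΦ = e := by
    have := heq Φ dΦ hΦ
    simp only [← sq] at this
    rw [this, hn, mul_one]
  have h1 := k2_sub D lam hk hΦ a
  rw [hΦΦ, heq k dk hk, ← ha] at h1
  have ik : Integrable (fun x => k x ^ 2) := hk.memf.integrable_sq
  have iΦ : Integrable (fun x => Φ x ^ 2) := hΦ.memf.integrable_sq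
  have iΦk : Integrable (fun x => Φ x * k x) := hΦ.memf.integrable_mul hk.memf
  have hv2 : ∫ x, (k x - a * Φ x) ^ 2 = (∫ x, k x ^ 2) - a ^ 2 := by
    have i12 : Integrable (fun x => k x ^ 2 - 2 * a * (Φ x * k x)) := ik.sub (iΦk.const_mul _)
    have e1 : (fun x => (k x - a * Φ x) ^ 2) = fun x =>
        k x ^ 2 - 2 * a * (Φ x * k x) + a ^ 2 * Φ x ^ 2 := by funext x; ring
    rw [e1, integral_add i12 (iΦ.const_mul _), integral_sub ik (iΦk.const_mul _),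
      integral_const_mul, integral_const_mul, hn, ← ha]
    ring
  have hov : ∫ x, Φ x * (k x - a * Φ x) = 0 := by
    have e1 : (fun x => Φ x * (k x - a * Φ x)) = fun x => Φ x * k x - a * Φ x ^ 2 := by
      funext x; ring
    rw [e1, integral_sub iΦk (iΦ.const_mul _), integral_const_mul, hn, ← ha]
    ring
  have h2 := low_all ob ob.orth hv
  have h3 := k2_mono (D := D) h0 hv
  have h4 : (∫ ξ, ph0 g ξ * (k ξ - a * Φ ξ)) ^ 2 ≤ 1 / 2 * ∫ x, (k x - a * Φ x) ^ 2 := by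
    have m1 : MemLp (fun x => Φ x - ph0 g x) 2 volume := hΦ.memf.sub hp.h1.memf
    have h5 := cs6 m1 hv.memf
    have e1 : ∫ x, (Φ x - ph0 g x) * (k x - a * Φ x) = - ∫ ξ, ph0 g ξ * (k ξ - a * Φ ξ) := by
      have j1 : Integrable (fun x => Φ x * (k x - a * Φ x)) := hΦ.memf.integrable_mul hv.memf
      have j2 : Integrable (fun x => ph0 g x * (k x - a * Φ x)) :=
        hp.h1.memf.integrable_mul hv.memf
      have e2 : (fun x => (Φ x - ph0 g x) * (k x - a * Φ x)) = fun x =>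
          Φ x * (k x - a * Φ x) - ph0 g x * (k x - a * Φ x) := by funext x; ring
      rw [e2, integral_sub j1 j2, hov]
      ring
    rw [e1, neg_sq] at h5
    have hN : 0 ≤ ∫ x, (k x - a * Φ x) ^ 2 := integral_nonneg fun x => sq_nonneg _
    exact h5.trans (mul_le_mul_of_nonneg_right hcl hN)
  have hw : 0 ≤ eu - eg := by linarith [ob.eg_lt]
  have hN : 0 ≤ ∫ x, (k x - a * Φ x) ^ 2 := integral_nonneg fun x => sq_nonneg _
  have h5 := mul_le_mul_of_nonneg_left h4 hw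
  have h6 := mul_le_mul_of_nonneg_right he hN
  have h7 : e * (∫ x, (k x - a * Φ x) ^ 2) ≤ k2 D lam (fun x => k x - a * Φ x)
      (fun x => dk x - a • dΦ x) (fun x => k x - a * Φ x) (fun x => dk x - a • dΦ x) := by
    nlinarith [h2, h3, h5, h6]
  rw [h1, hv2] at h7
  nlinarith [h7]

theorem H1_zero {f : Y2 → ℝ} {df : Y2 → Y2} (h : H1 f df) :
    H1 (fun _ : Y2 => (0 : ℝ)) (fun _ : Y2 => (0 : Y2)) := by
  have := h.const_mul 0
  simpa only [zero_mul, zero_smul] using this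

end IonF

open IonF

theorem ion_core {cg C0 : ℝ} (hcg : 0 < cg) (hC : 1 ≤ C0) : ∃ D₀ : ℝ, 4 ≤ D₀ ∧
    ∀ D : ℝ, D₀ ≤ D → ∀ (B : OBD cg C0 D) (d0 d1 dT : Y2 → Y2),
      IonProd D (2 * B.eg) (ph0 B.g) d0 → IonProd D (B.eg + B.eu) (ph1 B.g B.u) d1 →
      IonProd D (B.eg + B.eu) (phT B.g B.u) dT →
      ∃ K l' : ℝ, 1 ≤ K ∧ 0 < l' ∧ ∀ lam, 0 ≤ lam → lam ≤ l' → IonCore B d0 d1 dT K lam := by
  refine ⟨max 4 (4 * C0 / cg), le_max_left _ _, ?_⟩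
  intro D hD B d0 d1 dT hp0 hp1 hpT
  have ob := B.ob
  have hD4 : 4 ≤ D := (le_max_left _ _).trans hD
  have hD0 : 0 < D := by linarith
  have hDc : C0 / D ≤ cg / 4 := by
    have h1 : 4 * C0 / cg ≤ D := (le_max_right _ _).trans hD
    rw [div_le_iff₀ hcg] at h1
    rw [div_le_iff₀ hD0]
    linarith
  have hgu := ob.orth
  have hw : 0 < B.eu - B.eg := by linarith [ob.eg_lt]
  have hom := B.omle
  have hb : 3 * cg / 4 ≤ (-(1 / 2) + cg) - B.eu := by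
    have := (abs_le.1 B.eu_near).2
    linarith
  -- symmetries of the product states
  have s0 : ∀ ξ, ph0 B.g (sxi ξ) = 1 * ph0 B.g ξ := fun ξ => by
    unfold ph0; rw [el_sxi_zero, el_sxi_one]; ring
  have r0 : ∀ ξ, ph0 B.g (rxi ξ) = 1 * ph0 B.g ξ := fun ξ => by
    unfold ph0; rw [el_rxi, el_rxi, ob.g_even, ob.g_even]; ring
  have s1 : ∀ ξ, ph1 B.g B.u (sxi ξ) = 1 * ph1 B.g B.u ξ := fun ξ => by
    unfold ph1; rw [el_sxi_zero, el_sxi_one]; ring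
  have r1 : ∀ ξ, ph1 B.g B.u (rxi ξ) = (-1) * ph1 B.g B.u ξ := fun ξ => by
    unfold ph1; rw [el_rxi, el_rxi, ob.g_even, ob.g_even, ob.u_odd, ob.u_odd]; ring
  have sT : ∀ ξ, phT B.g B.u (sxi ξ) = (-1) * phT B.g B.u ξ := fun ξ => by
    unfold phT; rw [el_sxi_zero, el_sxi_one]; ring
  have rT : ∀ ξ, phT B.g B.u (rxi ξ) = (-1) * phT B.g B.u ξ := fun ξ => by
    unfold phT; rw [el_rxi, el_rxi, ob.g_even, ob.g_even, ob.u_odd, ob.u_odd]; ring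
  obtain ⟨K0, l0, hK0, hl0, H0⟩ := sector_state (E1 := 2 * B.eg + 2 * (B.eu - B.eg))
    (Or.inl rfl) (Or.inl rfl) hp0 s0 r0 (by linarith) (fun k dk hk k1 k2' => by
      have := low_Sp ob hgu (by linarith) hk k1 k2'
      have e1 : 2 * B.eg + 2 * (B.eu - B.eg) - 2 * B.eg = 2 * (B.eu - B.eg) := by ring
      rw [e1]
      exact this)
  obtain ⟨K1, l1, hK1, hl1, H1'⟩ := sector_state (E1 := B.eg + (-(1 / 2) + cg))
    (Or.inl rfl) (Or.inr rfl) hp1 s1 r1 (by linarith) (fun k dk hk k1 k2' => by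
      have := low_Sm ob hgu hk k1 k2'
      have e1 : B.eg + (-(1 / 2) + cg) - (B.eg + B.eu) = (-(1 / 2) + cg) - B.eu := by ring
      rw [e1]
      exact this)
  obtain ⟨KT, lT, hKT, hlT, HT⟩ := sector_state (E1 := B.eg + (-(1 / 2) + cg))
    (Or.inr rfl) (Or.inr rfl) hpT sT rT (by linarith) (fun k dk hk k1 k2' => by
      have := low_Tm ob hgu hk k1 k2'
      have e1 : B.eg + (-(1 / 2) + cg) - (B.eg + B.eu) = (-(1 / 2) + cg) - B.eu := by ring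
      rw [e1]
      exact this)
  obtain ⟨K, hKdef⟩ : ∃ K : ℝ, K = K0 + K1 + KT := ⟨_, rfl⟩
  have k0 : K0 ≤ K := by rw [hKdef]; linarith
  have k1 : K1 ≤ K := by rw [hKdef]; linarith
  have kT : KT ≤ K := by rw [hKdef]; linarith
  have hKp : 0 < K := by linarith
  obtain ⟨l', hl'⟩ : ∃ l' : ℝ, l' = min (min l0 (min l1 lT))
    (min ((B.eu - B.eg) / (2 * K)) (1 / (2 * K))) := ⟨_, rfl⟩
  have hlp : 0 < l' := by
    rw [hl']
    exact lt_min (lt_min hl0 (lt_min hl1 hlT)) (lt_min (by positivity) (by positivity))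
  refine ⟨K, l', by linarith, hlp, ?_⟩
  intro lam h0 hl
  rw [hl'] at hl
  have a0 : lam ≤ l0 := hl.trans ((min_le_left _ _).trans (min_le_left _ _))
  have a1 : lam ≤ l1 :=
    hl.trans ((min_le_left _ _).trans ((min_le_right _ _).trans (min_le_left _ _)))
  have aT : lam ≤ lT :=
    hl.trans ((min_le_left _ _).trans ((min_le_right _ _).trans (min_le_right _ _)))
  have b1 : K * lam ≤ (B.eu - B.eg) / 2 := by
    have h1 : lam ≤ (B.eu - B.eg) / (2 * K) :=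
      hl.trans ((min_le_right _ _).trans (min_le_left _ _))
    rw [le_div_iff₀ (by positivity)] at h1
    linarith
  have b2 : K * lam ≤ 1 / 2 := by
    have h1 : lam ≤ 1 / (2 * K) := hl.trans ((min_le_right _ _).trans (min_le_right _ _))
    rw [le_div_iff₀ (by positivity)] at h1
    linarith
  obtain ⟨e0, Φ0, dΦ0, p1, p2, p3, p4, p5, p6', p7, p8, p9', p10, p11, p12⟩ := H0 lam h0 a0
  obtain ⟨e1, Φ1, dΦ1, q1, q2, q3, q4, q5, q6', q7, q8, q9, q10, q11, q12⟩ := H1' lam h0 a1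
  obtain ⟨eT, ΦT, dΦT, t1, t2, t3, t4, t5, t6, t7, t8, t9, t10, t11, t12⟩ := HT lam h0 aT
  have m0 : K0 * lam ≤ K * lam := mul_le_mul_of_nonneg_right k0 h0
  have m1 : K1 * lam ≤ K * lam := mul_le_mul_of_nonneg_right k1 h0
  have mT : KT * lam ≤ K * lam := mul_le_mul_of_nonneg_right kT h0
  have n0 : (K0 * lam) ^ 2 ≤ (K * lam) ^ 2 :=
    pow_le_pow_left₀ (mul_nonneg (by linarith) h0) m0 2
  have n1 : (K1 * lam) ^ 2 ≤ (K * lam) ^ 2 :=
    pow_le_pow_left₀ (mul_nonneg (by linarith) h0) m1 2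
  have nT : (KT * lam) ^ 2 ≤ (K * lam) ^ 2 :=
    pow_le_pow_left₀ (mul_nonneg (by linarith) h0) mT 2
  have nonneg : ∀ {Φ k : Y2 → ℝ} {dΦ dk : Y2 → Y2}, H1 Φ dΦ → (∫ ξ, Φ ξ ^ 2 = 1) → H1 k dk →
      0 ≤ (∫ ξ, k ξ ^ 2) - (∫ ξ, Φ ξ * k ξ) ^ 2 := by
    intro Φ k dΦ dk hΦ hn hk
    have := cs6 hΦ.memf hk.memf
    rw [hn, one_mul] at this
    linarith
  have ch0 : IonCh D lam 1 1 e0 B.om Φ0 dΦ0 := by
    refine ⟨p1, Or.inl p2, p3, p4, p5, fun k dk hk x1 x2 => ?_⟩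
    have h1 := p6' k dk hk x1 x2
    have h2 := nonneg p1 p2 hk
    have h3 : B.om ≤ 2 * B.eg + 2 * (B.eu - B.eg) - e0 := by
      unfold OBD.om; linarith
    have := mul_le_mul_of_nonneg_right h3 h2
    linarith
  have ch1 : IonCh D lam 1 (-1) e1 (cg / 4) Φ1 dΦ1 := by
    refine ⟨q1, Or.inl q2, q3, q4, q5, fun k dk hk x1 x2 => ?_⟩
    have h1 := q6' k dk hk x1 x2
    have h2 := nonneg q1 q2 hk
    have h3 : cg / 4 ≤ B.eg + (-(1 / 2) + cg) - e1 := by linarith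
    have := mul_le_mul_of_nonneg_right h3 h2
    linarith
  have chT : IonCh D lam (-1) (-1) eT (cg / 4) ΦT dΦT := by
    refine ⟨t1, Or.inl t2, t3, t4, t5, fun k dk hk x1 x2 => ?_⟩
    have h1 := t6 k dk hk x1 x2
    have h2 := nonneg t1 t2 hk
    have h3 : cg / 4 ≤ B.eg + (-(1 / 2) + cg) - eT := by linarith
    have := mul_le_mul_of_nonneg_right h3 h2
    linarith
  have chZ : IonCh D lam (-1) 1 eT (cg / 4) (fun _ => 0) (fun _ => 0) := by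
    refine ⟨H1_zero hp0.h1, Or.inr fun _ => rfl, fun ξ => by simp, fun ξ => by simp, fun k dk hk => ?_,
      fun k dk hk x1 x2 => ?_⟩
    · rw [k2_eq]; simp
    · have h1 := (low_Tp ob hgu hk x1 x2).trans (k2_mono h0 hk)
      have h2 : 0 ≤ ∫ ξ, k ξ ^ 2 := integral_nonneg fun ξ => sq_nonneg _
      have h3 : eT + cg / 4 ≤ B.eg + (-(1 / 2) + cg) := by linarith
      have := mul_le_mul_of_nonneg_right h3 h2
      simp only [zero_mul, integral_zero]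
      linarith
  refine ⟨e0, e1, eT, Φ0, Φ1, ΦT, dΦ0, dΦ1, dΦT, ⟨ch0, p2, p10.trans n0, p11.trans n0, p12⟩,
    ⟨ch1, q2, q10.trans n1, q11.trans n1, q12⟩, ⟨chT, t2, t10.trans nT, t11.trans nT, t12⟩,
    chZ, fun k dk hk => ?_, ?_, ?_, ?_⟩
  · refine low_level ob (K := K) h0 p1 p2 hp0 p5 ?_ ?_ hk
    · refine (p10.trans n0).trans ?_
      have : 0 ≤ K * lam := mul_nonneg hKp.le h0
      nlinarith
    · linarith
  · rw [abs_of_nonneg (by linarith)]; linarith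
  · rw [abs_of_nonneg (by linarith)]; linarith
  · rw [abs_of_nonneg (by linarith)]; linarith

end Crest.Agent.R335
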