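import Crest.Agent.R335.BIonF
import Crest.Agent.R335.IonCore

/-!
Row 335 (S0521): existence of the ion data (helper459): `BI.ions_exist` from `ion_core` (helper517).
-/

set_option autoImplicit false
set_option linter.unusedSectionVars false
set_option linter.unusedVariables false

open MeasureTheory Filter Set Crest.MathPhysics.ThreeBody
open scoped ENNReal Topology ContDiff

noncomputable section
namespace Crest.Agent.R335

theorem IonW.bion_mono {C C' D K K' a : ℝ} {Φ : Y2 → ℝ} (h : IonW C D K a Φ) (hC : C ≤ C')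
    (hC0 : 0 ≤ C) (hD : 0 ≤ D) (hK : K ≤ K') : IonW C' D K' a Φ := by
  obtain ⟨⟨d, h1, h2⟩, h3, h4, h5⟩ := h
  have hCD : C * D ≤ C' * D := mul_le_mul_of_nonneg_right hC hD
  have hCD0 : 0 ≤ C * D := mul_nonneg hC0 hD
  exact ⟨⟨d, h1, h2.trans hK⟩, h3, ⟨h4.1, h4.2.trans (pow_le_pow_left₀ hCD0 hCD 2)⟩,
    ⟨h5.1, h5.2.trans (pow_le_pow_left₀ hCD0 hCD 4)⟩⟩

private theorem exp_small {D : ℝ} (hD : 1 ≤ D) :
    Real.exp (-(3 * D / 2)) * (D * (1 + D)) ≤ 1 := by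
  have h1 := Real.quadratic_le_exp_of_nonneg (show 0 ≤ 3 * D / 2 by linarith)
  have h2 : D * (1 + D) ≤ Real.exp (3 * D / 2) := by nlinarith
  rw [Real.exp_neg, inv_mul_le_iff₀ (Real.exp_pos _), mul_one]
  exact h2

/-- the data from the core, `D` and `λ` fixed -/
theorem ionData_of_core {cg C0 D : ℝ} (B : OBD cg C0 D) {C1 : ℝ} (h : C0 ≤ C1) (hD0 : 0 < D)
    (hD : 100 * C1 ≤ D) {Cm K1 lam K : ℝ} {d0 d1 dT : Y2 → Y2} (hCm : 1 ≤ Cm)
    (hCm1 : 4 * Cm ≤ C1) (hD1 : 1 ≤ D) (ha : 0 < B.a) (haD : 6 * B.a * (32 * (Cm * D)) ≤ 1)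
    (heg : |B.eg| ≤ 1) (heu : |B.eu| ≤ 1)
    (y2 : YW (2 * B.a) (5 / 2) (10 * (Cm * D) ^ 2) (34 * (Cm * D) ^ 4) (ph0 B.g) ∧
      YW (2 * B.a) (5 / 2) (10 * (Cm * D) ^ 2) (34 * (Cm * D) ^ 4) (ph1 B.g B.u) ∧
      YW (2 * B.a) (5 / 2) (10 * (Cm * D) ^ 2) (34 * (Cm * D) ^ 4) (phT B.g B.u))
    (y6 : YW (6 * B.a) (5 / 2) (10 * (Cm * D) ^ 2) (34 * (Cm * D) ^ 4) (ph0 B.g) ∧
      YW (6 * B.a) (5 / 2) (10 * (Cm * D) ^ 2) (34 * (Cm * D) ^ 4) (ph1 B.g B.u) ∧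
      YW (6 * B.a) (5 / 2) (10 * (Cm * D) ^ 2) (34 * (Cm * D) ^ 4) (phT B.g B.u))
    (m0 : MemLp (ph0 B.g) 2 volume) (m1 : MemLp (ph1 B.g B.u) 2 volume)
    (mT : MemLp (phT B.g B.u) 2 volume)
    (hz : MemLp (fun x : Pos3 => x 2 * B.g x) 2 volume)
    (hzb : ∫ x : Pos3, (x 2 * B.g x) ^ 2 ≤ 3 * D ^ 2)
    (hT : 3 / 4 ≤ (∫ x, B.u x * (ck x * B.g x)) ^ 2) (hK1 : 0 ≤ K1) (hlam : 0 ≤ lam)
    (hsm : K1 * lam ≤ 1 / 8) (hsm2 : 24 / (2 * B.a) ^ 4 * ((K1 * lam) * 11) ≤ 1 / 16)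
    (hsm3 : K1 * lam * (4 * Cm * D) ≤ 1 / 8)
    (hK : 1 ≤ K) (hKK : K1 ≤ K) (hKw : 60 + (40 + 128) * 40 ≤ K)
    (hcore : IonCore B d0 d1 dT K1 lam) : Nonempty (IonData (B.up h hD0 hD) K lam) := by
  obtain ⟨e0, e1, eT, Φ0, Φ1, ΦT, dΦ0, dΦ1, dΦT, s0, s1, sT, cZ, low, n0, n1, nT⟩ := hcore
  have hom0 : 0 < B.om := by
    unfold OBD.om
    linarith [B.ob.eg_lt]
  have homc : B.om ≤ cg / 8 := B.omle
  have hcg1 := B.cg1
  have hcg0 := B.cg0
  have hom1 : B.om ≤ 1 := by linarith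
  have ha' : B.a = B.om / 1000 := rfl
  have hag : (6 * B.a * 2) ^ 2 ≤ B.om := by
    rw [ha']
    nlinarith
  have hco : ∀ k dk, H1 k dk →
      ∫ ξ, ‖dk ξ‖ ^ 2 ≤ 4 * k2 D lam k dk k dk + 128 * ∫ ξ, k ξ ^ 2 :=
    fun k dk hk => bion_k2_coercive hlam hk
  have hb0 : |e0| ≤ 4 := by
    rw [abs_le] at *
    constructor <;> linarith
  have hb1 : |e1| ≤ 4 := by
    rw [abs_le] at *
    constructor <;> linarith
  have hbT : |eT| ≤ 4 := by
    rw [abs_le] at *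
    constructor <;> linarith
  have W0 := s0.ionW hCm hD1 ha haD hom0 hom1 hag hb0 (by norm_num) hlam hK1 m0 y2.1 y6.1 hco
    hsm hsm2
  have W1 := s1.ionW hCm hD1 ha haD (by linarith) (by linarith) (by linarith) hb1 (by norm_num)
    hlam hK1 m1 y2.2.1 y6.2.1 hco hsm hsm2
  have WT := sT.ionW hCm hD1 ha haD (by linarith) (by linarith) (by linarith) hbT (by norm_num)
    hlam hK1 mT y2.2.2 y6.2.2 hco hsm hsm2
  have hKl : K1 * lam ≤ K * lam := mul_le_mul_of_nonneg_right hKK hlam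
  have hKl0 : 0 ≤ K1 * lam := mul_nonneg hK1 hlam
  have hsq : (K1 * lam) ^ 2 ≤ (K * lam) ^ 2 := pow_le_pow_left₀ hKl0 hKl 2
  have h4 : 0 ≤ 4 * Cm := by linarith
  -- dipole
  have hCD : 0 ≤ 4 * Cm * D := by positivity
  have hdip := dip_close (b := 2 * B.a) (S := K1 * lam) (N := 4 * Cm * D) (by linarith) hKl0 hCD
    s1.ch.h1.memf m1 s0.ch.h1.memf m0 W0.m1.1 W0.m1.2 y2.2.1.i1.integrable_sq
    (y2.2.1.b1.trans (by nlinarith [sq_nonneg (Cm * D)])) s1.cl s0.cl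
  have hd0 := B.ob.dip0 hz
  rw [hd0] at hdip
  obtain ⟨t0, t1⟩ := B.ob.mu_ge hz
  have hmu := B.ob.mu_le hD0.le hz hzb
  set μ := ∫ x, B.u x * (x 2 * B.g x) with hμ
  set T := ∫ x, B.u x * (ck x * B.g x) with hT'
  have hs2 : √2 ^ 2 = (2 : ℝ) := Real.sq_sqrt (by norm_num)
  have hs20 : 0 ≤ √2 := Real.sqrt_nonneg 2
  have hlow : 1 ≤ √2 * μ := by
    have h1 : √2 * T ≤ √2 * μ := mul_le_mul_of_nonneg_left t1 hs20
    have h2 : 1 ^ 2 ≤ (√2 * T) ^ 2 := by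
      rw [mul_pow, hs2]
      linarith
    have h3 : 1 ≤ √2 * T :=
      (sq_le_sq₀ (by norm_num) (mul_nonneg hs20 t0)).1 h2
    linarith
  have hsm4 : 2 * (K1 * lam * (4 * Cm * D)) ≤ 1 / 4 := by linarith
  rw [abs_le] at hdip
  have hC14 : 4 ≤ C1 := by linarith
  refine ⟨{
    e0 := e0, e1 := e1, eT := eT, Φ0 := Φ0, Φ1 := Φ1, ΦT := ΦT, dΦ0 := dΦ0, dΦ1 := dΦ1,
    dΦT := dΦT, ch0 := s0.ch, ch1 := s1.ch, chT := sT.ch, chZ := cZ, n0 := s0.n, n1 := s1.n,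
    nT := sT.n, low := low, e0n := n0.trans hKl, e1n := n1.trans hKl, eTn := nT.trans hKl,
    w0 := W0.bion_mono hCm1 h4 hD0.le hKw, w1 := W1.bion_mono hCm1 h4 hD0.le hKw,
    wT := WT.bion_mono hCm1 h4 hD0.le hKw, cl0 := s0.cl.trans hsq, cl1 := s1.cl.trans hsq,
    clp := sT.cl.trans hsq, sq0 := s0.sq, sq1 := s1.sq, sqT := sT.sq, dip_low := ?_,
    dip_up := ?_, Kpos := hK }⟩
  · have h1 : 1 / C1 ≤ 1 / 4 := one_div_le_one_div_of_le (by norm_num) hC14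
    linarith [hdip.2]
  · have := hdip.1
    linarith

theorem ions_exist {cg C0 : ℝ} (hcg : 0 < cg) (hC : 1 ≤ C0) : ∃ (C1 : ℝ) (h : C0 ≤ C1) (D₀ : ℝ),
    4 ≤ D₀ ∧ ∀ (D : ℝ) (hD0 : 0 < D) (hD : 100 * C1 ≤ D), D₀ ≤ D → ∀ B : OBD cg C0 D,
      ∃ K l' : ℝ, 1 ≤ K ∧ 0 < l' ∧
        ∀ lam, 0 ≤ lam → lam ≤ l' → Nonempty (IonData (B.up h hD0 hD) K lam) := by
  obtain ⟨Cm, ηm, δm, hCm, hηm, hδm, HM⟩ := oneBody_moments
  obtain ⟨Dz, ηz, hDz, hηz, HZ'⟩ := oneBody_z2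
  obtain ⟨Mc, ηc, hMc, hηc, HC⟩ := oneBody_ck
  obtain ⟨Di, hDi, HI⟩ := ion_core hcg hC
  have q1 : 0 ≤ C0 / δm := by positivity
  have q2 : 0 ≤ Cm * C0 := by positivity
  have q3 : 0 ≤ 8 * Mc / cg := by positivity
  have q4 : 0 ≤ C0 / ηm := by positivity
  have q5 : 0 ≤ C0 / ηz := by positivity
  have q6 : 0 ≤ C0 / ηc := by positivity
  have q7 : 0 ≤ 2 * C0 / cg := by positivity
  refine ⟨max C0 (4 * Cm), le_max_left _ _,
    4 + Di + Dz + C0 / δm + Cm * C0 + 8 * Mc / cg + C0 / ηm + C0 / ηz + C0 / ηc + 2 * C0 / cg +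
      2 * C0, by linarith, ?_⟩
  intro D hD0 hD hDD B
  have hD1 : 1 ≤ D := by linarith
  have hom0 : 0 < B.om := by
    unfold OBD.om
    linarith [B.ob.eg_lt]
  have ha : 0 < B.a := by
    unfold OBD.a
    positivity
  have hcg1 := B.cg1
  have hcg0 := B.cg0
  have close : ∀ {η : ℝ}, 0 < η → C0 / η ≤ D → C0 / D ≤ η := by
    intro η hη h1
    rw [div_le_iff₀ hη] at h1
    rw [div_le_iff₀ hD0]
    linarith
  have cm := close hηm (by linarith)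
  have cz := close hηz (by linarith)
  have cc := close hηc (by linarith)
  have cg2 : C0 / D ≤ cg / 2 := by
    refine close (by positivity) ?_
    have : C0 / (cg / 2) = 2 * C0 / cg := by field_simp
    rw [this]
    linarith
  have c2 : C0 / D ≤ 1 / 2 := by
    rw [div_le_iff₀ hD0]
    linarith
  have hg := abs_le.1 B.eg_near
  have hu := abs_le.1 B.eu_near
  have heg : |B.eg| ≤ 1 := by
    rw [abs_le]
    constructor <;> linarith
  have heu : |B.eu| ≤ 1 := by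
    rw [abs_le]
    constructor <;> linarith
  have hexp := exp_small hD1
  have haD2 : B.a * (D * (1 + D)) ≤ C0 / 1000 := by
    have h1 : B.om ≤ C0 * Real.exp (-(3 * D / 2)) := B.tun
    have h2 : B.om * (D * (1 + D)) ≤ C0 * Real.exp (-(3 * D / 2)) * (D * (1 + D)) :=
      mul_le_mul_of_nonneg_right h1 (by positivity)
    have h3 : C0 * Real.exp (-(3 * D / 2)) * (D * (1 + D)) ≤ C0 := by
      rw [mul_assoc]
      exact mul_le_of_le_one_right (by linarith) hexp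
    unfold OBD.a
    linarith
  have haδ : 6 * B.a * (1 + D) ≤ δm := by
    have h1 : C0 ≤ δm * D := by
      have : C0 / δm ≤ D := by linarith
      rw [div_le_iff₀ hδm] at this
      linarith
    have h2 : (6 * B.a * (1 + D)) * D ≤ δm * D := by nlinarith
    exact le_of_mul_le_mul_right h2 hD0
  have haD : 6 * B.a * (32 * (Cm * D)) ≤ 1 := by
    have h1 : Cm * C0 ≤ D := by linarith
    have h2 : (6 * B.a * (32 * (Cm * D))) * D ≤ 1 * D := by
      have h3 : B.a * (D * D) ≤ C0 / 1000 := by nlinarith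
      have h4 : Cm * (B.a * (D * D)) ≤ Cm * (C0 / 1000) :=
        mul_le_mul_of_nonneg_left h3 (by linarith)
      nlinarith
    exact le_of_mul_le_mul_right h2 hD0
  have og := fun b (hb : 0 ≤ b) (hb' : b * (1 + D) ≤ δm) =>
    HM D hD1 B.g B.dg B.eg b B.ob.hg B.ob.ng B.ob.g_eq (by linarith) hb hb'
  have ou := fun b (hb : 0 ≤ b) (hb' : b * (1 + D) ≤ δm) =>
    HM D hD1 B.u B.du B.eu b B.ob.hu B.ob.nu B.ob.u_eq (by linarith) hb hb'
  have h2a : 2 * B.a * (1 + D) ≤ δm := by nlinarith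
  have y2 := B.ob.yw hCm hD1 (og (2 * B.a) (by linarith) h2a) (ou (2 * B.a) (by linarith) h2a)
  have y6 := B.ob.yw hCm hD1 (og (6 * B.a) (by linarith) haδ) (ou (6 * B.a) (by linarith) haδ)
  obtain ⟨hz, hzb⟩ := HZ' D (by linarith) B.g B.dg B.eg B.ob.hg B.ob.ng B.ob.g_eq (by linarith)
  have hT := HC D hD1 B.g B.u B.dg B.du B.eg B.eu (-(1 / 2) + cg) (cg / 2) B.ob (by linarith)
    (by linarith) (by linarith) (by linarith) (by
      have h1 : 8 * Mc ≤ D * cg := by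
        have : 8 * Mc / cg ≤ D := by linarith
        rwa [div_le_iff₀ hcg] at this
      have h2 : Real.exp (-(3 * D / 2)) * D ≤ 1 := by
        have : Real.exp (-(3 * D / 2)) * D ≤ Real.exp (-(3 * D / 2)) * (D * (1 + D)) :=
          mul_le_mul_of_nonneg_left (by nlinarith) (Real.exp_pos _).le
        linarith
      have h3 : Mc * Real.exp (-(3 * D / 2)) * D ≤ cg / 2 / 4 * D := by
        have : Mc * (Real.exp (-(3 * D / 2)) * D) ≤ Mc * 1 :=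
          mul_le_mul_of_nonneg_left h2 (by linarith)
        nlinarith
      exact le_of_mul_le_mul_right h3 hD0)
  obtain ⟨d0, p0⟩ := B.ob.ph0_prod
  obtain ⟨d1, p1⟩ := B.ob.ph1_prod
  obtain ⟨dT, pT⟩ := B.ob.phT_prod
  obtain ⟨K1, l1, hK1, hl1, Hcore⟩ := HI D (by linarith) B d0 d1 dT p0 p1 pT
  have hCmD : 0 < 4 * Cm * D := by positivity
  have hA : 0 < 24 / (2 * B.a) ^ 4 := by positivity
  set A := 24 / (2 * B.a) ^ 4 with hA'
  have hK10 : 0 < K1 := by linarith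
  refine ⟨max K1 (60 + (40 + 128) * 40), min l1 (min (1 / (8 * K1)) (min (1 / (176 * (A * K1)))
    (1 / (8 * (K1 * (4 * Cm * D)))))), hK1.trans (le_max_left _ _), ?_, ?_⟩
  · refine lt_min hl1 (lt_min (by positivity) (lt_min (by positivity) (by positivity)))
  intro lam hlam hl
  have l1' : lam ≤ l1 := hl.trans (min_le_left _ _)
  have l2 : lam ≤ 1 / (8 * K1) := hl.trans ((min_le_right _ _).trans (min_le_left _ _))
  have l3 : lam ≤ 1 / (176 * (A * K1)) :=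
    hl.trans ((min_le_right _ _).trans ((min_le_right _ _).trans (min_le_left _ _)))
  have l4 : lam ≤ 1 / (8 * (K1 * (4 * Cm * D))) :=
    hl.trans ((min_le_right _ _).trans ((min_le_right _ _).trans (min_le_right _ _)))
  rw [le_div_iff₀ (by positivity)] at l2 l3 l4
  refine ionData_of_core B (le_max_left _ _) hD0 hD (Cm := Cm) (K1 := K1) hCm (le_max_right _ _)
    hD1 ha haD heg heu y2 y6 p0.h1.memf p1.h1.memf pT.h1.memf hz hzb hT hK10.le hlam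
    (by linarith) ?_ (by linarith) (hK1.trans (le_max_left _ _)) (le_max_left _ _)
    (le_max_right _ _) (Hcore lam hlam l1')
  have : A * (K1 * lam * 11) = lam * (176 * (A * K1)) * (1 / 16) := by ring
  rw [← hA', this]
  linarith

end Crest.Agent.R335
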