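import Crest.Agent.R335.BSys
import Crest.Agent.R335.OBTun
import Crest.Agent.R335.HSlice
import Crest.Agent.R335.HGlob2

/-!
Row 335 (S0521): ions, one-body moments and product integrals (helper459).
-/

set_option autoImplicit false
set_option linter.unusedSectionVars false
set_option linter.unusedVariables false

open MeasureTheory Filter Set Crest.MathPhysics.ThreeBody
open scoped ENNReal Topology ContDiff

noncomputable section
namespace Crest.Agent.R335

/-! ### the weight `jb` -/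

theorem one_le_jb (y : Pos3) : 1 ≤ jb y := by
  unfold jb
  rw [Real.one_le_sqrt]
  nlinarith [sq_nonneg ‖y‖]

theorem jb_pos (y : Pos3) : 0 < jb y := lt_of_lt_of_le one_pos (one_le_jb y)

theorem norm_le_jb (y : Pos3) : ‖y‖ ≤ jb y := by
  unfold jb
  exact Real.le_sqrt_of_sq_le (by linarith)

theorem jb_le_one_add (y : Pos3) : jb y ≤ 1 + ‖y‖ := by
  unfold jb
  rw [Real.sqrt_le_left (by positivity)]
  nlinarith [norm_nonneg y]

theorem continuous_jb : Continuous jb := by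
  unfold jb
  fun_prop

theorem jb_sub_le (x y : Pos3) : jb x ≤ jb y + ‖x - y‖ := by
  have h1 : ‖x‖ ≤ ‖y‖ + ‖x - y‖ := by
    have := norm_add_le y (x - y)
    rwa [add_sub_cancel] at this
  have hy : ‖y‖ ≤ jb y := norm_le_jb y
  have hy2 : jb y ^ 2 = 1 + ‖y‖ ^ 2 := by
    unfold jb
    rw [Real.sq_sqrt (by positivity)]
  have hx : jb x = √(1 + ‖x‖ ^ 2) := rfl
  rw [hx, Real.sqrt_le_left (by have := jb_pos y; positivity)]
  have h2 : ‖x‖ ^ 2 ≤ (‖y‖ + ‖x - y‖) ^ 2 := pow_le_pow_left₀ (norm_nonneg _) h1 2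
  nlinarith [norm_nonneg (x - y), norm_nonneg y]

theorem jb_lip (x y : Pos3) : |jb x - jb y| ≤ ‖x - y‖ := by
  rw [abs_sub_le_iff]
  constructor
  · linarith [jb_sub_le x y]
  · have := jb_sub_le y x
    rw [norm_sub_rev] at this
    linarith

theorem norm_nuc (D : ℝ) : ‖nuc D‖ = |D| := by
  unfold nuc
  simp

theorem norm_le_dn {D : ℝ} (hD : 0 ≤ D) (y : Pos3) : ‖y‖ ≤ D + ob_dn D y := by
  unfold ob_dn
  have h1 : ‖y‖ ≤ D + ‖y - nuc D‖ := by
    have := norm_add_le (nuc D) (y - nuc D)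
    rw [add_sub_cancel, norm_nuc, abs_of_nonneg hD] at this
    exact this
  have h2 : ‖y‖ ≤ D + ‖y - nuc (-D)‖ := by
    have := norm_add_le (nuc (-D)) (y - nuc (-D))
    rw [add_sub_cancel, norm_nuc, abs_neg, abs_of_nonneg hD] at this
    exact this
  rcases min_choice ‖y - nuc D‖ ‖y - nuc (-D)‖ with h | h <;> rw [h] <;> assumption

theorem jb_le_dn {D : ℝ} (hD : 0 ≤ D) (y : Pos3) : jb y ≤ 1 + D + ob_dn D y := by
  linarith [jb_le_one_add y, norm_le_dn hD y]

theorem jb_le_mul {D : ℝ} (hD : 0 ≤ D) (y : Pos3) : jb y ≤ (1 + D) * (1 + ob_dn D y) := by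
  have := jb_le_dn hD y
  nlinarith [ob_dn_nonneg D y]

/-! ### one-body weights -/

/-- the pointwise weight estimate -/
theorem jb_weight_le {D b : ℝ} (hD : 0 ≤ D) (hb : 0 ≤ b) (hb1 : 2 * b ≤ 1 / 2) (y : Pos3) :
    Real.exp (b * jb y) ^ 2 ≤ Real.exp (2 * b * (1 + D)) *
      (1 + 2 * b * Real.exp (ob_dn D y)) := by
  have h1 := jb_le_dn hD y
  have h0 := ob_dn_nonneg D y
  have e1 : Real.exp (b * jb y) ^ 2 ≤ Real.exp (2 * b * (1 + D)) * Real.exp (2 * b * ob_dn D y) := by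
    rw [← Real.exp_nat_mul, ← Real.exp_add, Real.exp_le_exp]
    push_cast
    nlinarith
  refine e1.trans (mul_le_mul_of_nonneg_left ?_ (Real.exp_pos _).le)
  have hc := convexOn_exp.2 (mem_univ (0 : ℝ)) (mem_univ (ob_dn D y))
    (show (0 : ℝ) ≤ 1 - 2 * b by linarith) (show (0 : ℝ) ≤ 2 * b by linarith) (by ring)
  simp only [smul_eq_mul, mul_zero, zero_add, Real.exp_zero, mul_one] at hc
  linarith

/-- `(1+t)² ≤ 8 e^{t/2}` -/
theorem sq_le_exp_half {t : ℝ} (ht : 0 ≤ t) : (1 + t) ^ 2 ≤ 8 * Real.exp (t / 2) := by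
  have := Real.quadratic_le_exp_of_nonneg (show 0 ≤ t / 2 by linarith)
  nlinarith

/-- `(1+t)⁴ ≤ 1024 e^{t/2}` -/
theorem pow4_le_exp_half {t : ℝ} (ht : 0 ≤ t) : (1 + t) ^ 4 ≤ 1024 * Real.exp (t / 2) := by
  have h1 := Real.quadratic_le_exp_of_nonneg (show 0 ≤ t / 4 by linarith)
  have h2 : (1 + t) ^ 2 ≤ 32 * Real.exp (t / 4) := by nlinarith
  have h3 : ((1 + t) ^ 2) ^ 2 ≤ (32 * Real.exp (t / 4)) ^ 2 :=
    pow_le_pow_left₀ (sq_nonneg _) h2 2
  calc (1 + t) ^ 4 = ((1 + t) ^ 2) ^ 2 := by ring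
    _ ≤ (32 * Real.exp (t / 4)) ^ 2 := h3
    _ = 1024 * Real.exp (t / 2) := by
      rw [mul_pow, ← Real.exp_nat_mul]
      norm_num
      ring_nf

/-- the pointwise weight estimate with powers -/
theorem jb_pow_weight_le {D b : ℝ} (hD : 0 ≤ D) (hb : 0 ≤ b) (hb1 : 2 * b ≤ 1 / 2) (y : Pos3) :
    (jb y * Real.exp (b * jb y)) ^ 2 ≤
      Real.exp (2 * b * (1 + D)) * (8 * (1 + D) ^ 2 * Real.exp (ob_dn D y)) ∧
    (jb y ^ 2 * Real.exp (b * jb y)) ^ 2 ≤
      Real.exp (2 * b * (1 + D)) * (1024 * (1 + D) ^ 4 * Real.exp (ob_dn D y)) := by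
  have h1 := jb_le_dn hD y
  have h2 := jb_le_mul hD y
  have h0 := ob_dn_nonneg D y
  have hj := jb_pos y
  have e1 : Real.exp (b * jb y) ^ 2 ≤ Real.exp (2 * b * (1 + D)) * Real.exp (ob_dn D y / 2) := by
    rw [← Real.exp_nat_mul, ← Real.exp_add, Real.exp_le_exp]
    push_cast
    nlinarith
  have j2 : jb y ^ 2 ≤ (1 + D) ^ 2 * (8 * Real.exp (ob_dn D y / 2)) := by
    calc jb y ^ 2 ≤ ((1 + D) * (1 + ob_dn D y)) ^ 2 := pow_le_pow_left₀ hj.le h2 2
      _ = (1 + D) ^ 2 * (1 + ob_dn D y) ^ 2 := by ring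
      _ ≤ _ := mul_le_mul_of_nonneg_left (sq_le_exp_half h0) (by positivity)
  have j4 : jb y ^ 4 ≤ (1 + D) ^ 4 * (1024 * Real.exp (ob_dn D y / 2)) := by
    calc jb y ^ 4 ≤ ((1 + D) * (1 + ob_dn D y)) ^ 4 := pow_le_pow_left₀ hj.le h2 4
      _ = (1 + D) ^ 4 * (1 + ob_dn D y) ^ 4 := by ring
      _ ≤ _ := mul_le_mul_of_nonneg_left (pow4_le_exp_half h0) (by positivity)
  have ee : Real.exp (ob_dn D y / 2) * Real.exp (ob_dn D y / 2) = Real.exp (ob_dn D y) := by
    rw [← Real.exp_add]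
    congr 1
    ring
  constructor
  · calc (jb y * Real.exp (b * jb y)) ^ 2 = jb y ^ 2 * Real.exp (b * jb y) ^ 2 := by ring
      _ ≤ ((1 + D) ^ 2 * (8 * Real.exp (ob_dn D y / 2))) *
          (Real.exp (2 * b * (1 + D)) * Real.exp (ob_dn D y / 2)) :=
        mul_le_mul j2 e1 (by positivity) (by positivity)
      _ = _ := by rw [← ee]; ring
  · calc (jb y ^ 2 * Real.exp (b * jb y)) ^ 2 = jb y ^ 4 * Real.exp (b * jb y) ^ 2 := by ring
      _ ≤ ((1 + D) ^ 4 * (1024 * Real.exp (ob_dn D y / 2))) *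
          (Real.exp (2 * b * (1 + D)) * Real.exp (ob_dn D y / 2)) :=
        mul_le_mul j4 e1 (by positivity) (by positivity)
      _ = _ := by rw [← ee]; ring

/-- weighted one-body bounds of `h` -/
structure OMom (C D b : ℝ) (h : Pos3 → ℝ) : Prop where
  i0 : Integrable (fun x => (Real.exp (b * jb x) * h x) ^ 2)
  i1 : Integrable (fun x => (jb x * Real.exp (b * jb x) * h x) ^ 2)
  i2 : Integrable (fun x => (jb x ^ 2 * Real.exp (b * jb x) * h x) ^ 2)
  b0 : ∫ x, (Real.exp (b * jb x) * h x) ^ 2 ≤ 17 / 16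
  b1 : ∫ x, (jb x * Real.exp (b * jb x) * h x) ^ 2 ≤ (C * D) ^ 2
  b2 : ∫ x, (jb x ^ 2 * Real.exp (b * jb x) * h x) ^ 2 ≤ (C * D) ^ 4

/-- one-body moments: for `b (1 + D)` small -/
theorem oneBody_moments : ∃ C η δ : ℝ, 1 ≤ C ∧ 0 < η ∧ 0 < δ ∧ ∀ D : ℝ, 1 ≤ D →
    ∀ (f : Pos3 → ℝ) (g : Pos3 → Pos3) (e b : ℝ), H1 f g → (∫ x, f x ^ 2 = 1) →
      (∀ w m, H1 w m → B2 D f g w m = e * ∫ x, f x * w x) → e ≤ -(1 / 2) + η →
      0 ≤ b → b * (1 + D) ≤ δ → OMom C D b f := by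
  obtain ⟨C₁, η, hη, hA⟩ := oneBody_agmon (a := 1 / 2) (by norm_num) (by norm_num)
  set M := max C₁ 1 with hM
  have hM1 : 1 ≤ M := le_max_right _ _
  refine ⟨256 * M, η, 1 / (128 * M), by linarith, hη, by positivity, ?_⟩
  intro D hD f g e b hf hn heq he hb hbD
  obtain ⟨ia, ha⟩ := hA D hD f g e hf heq he
  rw [hn, mul_one] at ha
  have hD0 : 0 ≤ D := by linarith
  have key : ∀ x, (Real.exp (1 / 2 * min ‖x - nuc D‖ ‖x - nuc (-D)‖) * f x) ^ 2 =
      Real.exp (ob_dn D x) * f x ^ 2 := by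
    intro x
    rw [mul_pow, ← Real.exp_nat_mul]
    congr 2
    unfold ob_dn
    push_cast
    ring
  simp only [key] at ia ha
  have haM : ∫ x, Real.exp (ob_dn D x) * f x ^ 2 ≤ M := ha.trans (le_max_left _ _)
  have hb' : b * (1 + D) * (128 * M) ≤ 1 := by
    have := mul_le_mul_of_nonneg_right hbD (show 0 ≤ 128 * M by linarith)
    rwa [one_div, inv_mul_cancel₀ (by positivity)] at this
  have hbM : b * M ≤ 1 / 256 := by nlinarith [mul_nonneg hb (by linarith : (0:ℝ) ≤ M)]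
  have hb1 : 2 * b ≤ 1 / 2 := by nlinarith
  have hbD2 : b * (1 + D) ≤ 1 / 128 := by nlinarith [mul_nonneg hb (by linarith : (0:ℝ) ≤ 1 + D)]
  have if2 : Integrable (fun x => f x ^ 2) := hf.memf.integrable_sq
  have hexp : Real.exp (2 * b * (1 + D)) ≤ 1 + 1 / 32 := by
    have h1 : Real.exp (2 * b * (1 + D)) ≤ Real.exp (1 / 64) := by
      rw [Real.exp_le_exp]; linarith
    have h2 := Real.exp_bound_div_one_sub_of_interval (x := 1 / 64) (by norm_num) (by norm_num)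
    refine h1.trans (h2.trans ?_)
    norm_num
  have mj : Measurable jb := continuous_jb.measurable
  have mf : AEStronglyMeasurable f volume := hf.memf.1
  have p0 : ∀ x, (Real.exp (b * jb x) * f x) ^ 2 ≤ Real.exp (2 * b * (1 + D)) *
      (f x ^ 2 + 2 * b * (Real.exp (ob_dn D x) * f x ^ 2)) := by
    intro x
    have := mul_le_mul_of_nonneg_right (jb_weight_le hD0 hb hb1 x) (sq_nonneg (f x))
    calc (Real.exp (b * jb x) * f x) ^ 2 = Real.exp (b * jb x) ^ 2 * f x ^ 2 := by ring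
      _ ≤ _ := this
      _ = _ := by ring
  have p1 : ∀ x, (jb x * Real.exp (b * jb x) * f x) ^ 2 ≤ Real.exp (2 * b * (1 + D)) *
      (8 * (1 + D) ^ 2) * (Real.exp (ob_dn D x) * f x ^ 2) := by
    intro x
    have := mul_le_mul_of_nonneg_right (jb_pow_weight_le hD0 hb hb1 x).1 (sq_nonneg (f x))
    calc (jb x * Real.exp (b * jb x) * f x) ^ 2 = (jb x * Real.exp (b * jb x)) ^ 2 * f x ^ 2 := by
          ring
      _ ≤ _ := this
      _ = _ := by ring
  have p2 : ∀ x, (jb x ^ 2 * Real.exp (b * jb x) * f x) ^ 2 ≤ Real.exp (2 * b * (1 + D)) *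
      (1024 * (1 + D) ^ 4) * (Real.exp (ob_dn D x) * f x ^ 2) := by
    intro x
    have := mul_le_mul_of_nonneg_right (jb_pow_weight_le hD0 hb hb1 x).2 (sq_nonneg (f x))
    calc (jb x ^ 2 * Real.exp (b * jb x) * f x) ^ 2 =
          (jb x ^ 2 * Real.exp (b * jb x)) ^ 2 * f x ^ 2 := by ring
      _ ≤ _ := this
      _ = _ := by ring
  have d0 : Integrable (fun x => Real.exp (2 * b * (1 + D)) *
      (f x ^ 2 + 2 * b * (Real.exp (ob_dn D x) * f x ^ 2))) :=
    (if2.add (ia.const_mul _)).const_mul _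
  have d1 : Integrable (fun x => Real.exp (2 * b * (1 + D)) *
      (8 * (1 + D) ^ 2) * (Real.exp (ob_dn D x) * f x ^ 2)) := ia.const_mul _
  have d2 : Integrable (fun x => Real.exp (2 * b * (1 + D)) *
      (1024 * (1 + D) ^ 4) * (Real.exp (ob_dn D x) * f x ^ 2)) := ia.const_mul _
  have m0 : AEStronglyMeasurable (fun x => (Real.exp (b * jb x) * f x) ^ 2) volume :=
    ((Real.measurable_exp.comp (mj.const_mul b)).aestronglyMeasurable.mul mf).pow 2
  have m1 : AEStronglyMeasurable (fun x => (jb x * Real.exp (b * jb x) * f x) ^ 2) volume :=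
    ((mj.mul (Real.measurable_exp.comp (mj.const_mul b))).aestronglyMeasurable.mul mf).pow 2
  have m2 : AEStronglyMeasurable (fun x => (jb x ^ 2 * Real.exp (b * jb x) * f x) ^ 2) volume :=
    (((mj.pow_const 2).mul (Real.measurable_exp.comp (mj.const_mul b))).aestronglyMeasurable.mul
      mf).pow 2
  have i0 : Integrable (fun x => (Real.exp (b * jb x) * f x) ^ 2) :=
    d0.mono' m0 (Eventually.of_forall fun x => by
      rw [Real.norm_eq_abs, abs_of_nonneg (sq_nonneg _)]; exact p0 x)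
  have i1 : Integrable (fun x => (jb x * Real.exp (b * jb x) * f x) ^ 2) :=
    d1.mono' m1 (Eventually.of_forall fun x => by
      rw [Real.norm_eq_abs, abs_of_nonneg (sq_nonneg _)]; exact p1 x)
  have i2 : Integrable (fun x => (jb x ^ 2 * Real.exp (b * jb x) * f x) ^ 2) :=
    d2.mono' m2 (Eventually.of_forall fun x => by
      rw [Real.norm_eq_abs, abs_of_nonneg (sq_nonneg _)]; exact p2 x)
  have hI0 : 0 ≤ ∫ x, Real.exp (ob_dn D x) * f x ^ 2 := integral_nonneg fun x => by positivity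
  have hep : 0 < Real.exp (2 * b * (1 + D)) := Real.exp_pos _
  refine ⟨i0, i1, i2, ?_, ?_, ?_⟩
  · refine (integral_mono i0 d0 p0).trans ?_
    rw [integral_const_mul, integral_add if2 (ia.const_mul _), integral_const_mul, hn]
    have h1 : 2 * b * (∫ x, Real.exp (ob_dn D x) * f x ^ 2) ≤ 1 / 128 := by
      have := mul_le_mul_of_nonneg_left haM (show 0 ≤ 2 * b by linarith)
      linarith
    have h2 : 0 ≤ 2 * b * (∫ x, Real.exp (ob_dn D x) * f x ^ 2) := by positivity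
    nlinarith
  · refine (integral_mono i1 d1 p1).trans ?_
    rw [integral_const_mul]
    have hD1 : (1 + D) ^ 2 ≤ 4 * D ^ 2 := by nlinarith
    have h1 : Real.exp (2 * b * (1 + D)) * (8 * (1 + D) ^ 2) ≤ 2 * (8 * (4 * D ^ 2)) :=
      mul_le_mul (by linarith) (by linarith) (by positivity) (by norm_num)
    calc _ ≤ 2 * (8 * (4 * D ^ 2)) * M := mul_le_mul h1 haM hI0 (by positivity)
      _ ≤ (256 * M * D) ^ 2 := by
        have : M ≤ M ^ 2 := by nlinarith
        nlinarith [sq_nonneg D, mul_nonneg (sq_nonneg D) (show 0 ≤ M by linarith),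
          mul_le_mul_of_nonneg_left this (sq_nonneg D)]
  · refine (integral_mono i2 d2 p2).trans ?_
    rw [integral_const_mul]
    have hD1 : (1 + D) ^ 4 ≤ 16 * D ^ 4 := by
      have : (1 + D) ^ 2 ≤ 4 * D ^ 2 := by nlinarith
      nlinarith [sq_nonneg D, sq_nonneg (1 + D)]
    have h1 : Real.exp (2 * b * (1 + D)) * (1024 * (1 + D) ^ 4) ≤ 2 * (1024 * (16 * D ^ 4)) :=
      mul_le_mul (by linarith) (by linarith) (by positivity) (by norm_num)
    calc _ ≤ 2 * (1024 * (16 * D ^ 4)) * M := mul_le_mul h1 haM hI0 (by positivity)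
      _ ≤ (256 * M * D) ^ 4 := by
        have h4 : M ≤ M ^ 4 := by
          have : 1 ≤ M ^ 3 := one_le_pow₀ hM1
          nlinarith
        have hD4 : 0 ≤ D ^ 4 := by positivity
        have : (256 * M * D) ^ 4 = 256 ^ 4 * M ^ 4 * D ^ 4 := by ring
        rw [this]
        nlinarith [mul_le_mul_of_nonneg_left h4 hD4, mul_nonneg hD4 (show 0 ≤ M by linarith)]

end Crest.Agent.R335
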