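import Crest.Agent.R335.IonDefs
import Crest.Agent.R335.BIonM
import Crest.Agent.R335.OBPot

/-!
Row 335 (S0521): ions, the product states at `λ = 0` (helper459).
-/

set_option autoImplicit false
set_option linter.unusedSectionVars false
set_option linter.unusedVariables false

open MeasureTheory Filter Set Crest.MathPhysics.ThreeBody
open scoped ENNReal Topology ContDiff

noncomputable section
namespace Crest.Agent.R335

/-- exchanged splitting -/
def q6 : Fin 2 × Fin 3 ≃ Fin 3 ⊕ Fin 3 := p6.trans (Equiv.sumComm _ _)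

theorem el_zero (ξ : Y2) : el 0 ξ = pr1 p6 ξ := by
  ext c
  simp [el, p6]

theorem el_one (ξ : Y2) : el 1 ξ = pr2 p6 ξ := by
  ext c
  simp [el, p6]

theorem pr1_q6 (ξ : Y2) : pr1 q6 ξ = pr2 p6 ξ := by
  ext c
  simp [q6, p6]

theorem pr2_q6 (ξ : Y2) : pr2 q6 ξ = pr1 p6 ξ := by
  ext c
  simp [q6, p6]

/-- `∫ F(x) G(y) = ∫ F ∫ G` -/
theorem integral_el (F G : Pos3 → ℝ) :
    ∫ ξ : Y2, F (el 0 ξ) * G (el 1 ξ) = (∫ x, F x) * ∫ y, G y := by
  have h := (measurePreserving_jn p6).integral_comp (measurableEmbedding_jn p6)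
    (fun ξ : Y2 => F (el 0 ξ) * G (el 1 ξ))
  rw [← h]
  simp only [el_zero, el_one, pr1_jn, pr2_jn]
  exact integral_prod_mul F G

theorem integrable_el {F G : Pos3 → ℝ} (hF : Integrable F) (hG : Integrable G) :
    Integrable fun ξ : Y2 => F (el 0 ξ) * G (el 1 ξ) := by
  rw [← integrable_jn p6]
  simp only [el_zero, el_one, pr1_jn, pr2_jn]
  exact hF.mul_prod hG

theorem memLp_el {F G : Pos3 → ℝ} (hF : MemLp F 2 volume) (hG : MemLp G 2 volume) :
    MemLp (fun ξ : Y2 => F (el 0 ξ) * G (el 1 ξ)) 2 volume := by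
  simp only [el_zero, el_one]
  exact HS.memLp_tensor p6 hF hG

section gen
variable {ι κ κ' : Type*} [Fintype ι] [DecidableEq ι] [Fintype κ] [DecidableEq κ]
  [Fintype κ'] [DecidableEq κ']

theorem inner_jn_pr (p : ι ≃ κ ⊕ κ') (a : EuclideanSpace ℝ κ) (b : EuclideanSpace ℝ κ')
    (Z : EuclideanSpace ℝ ι) :
    inner ℝ (jn p a b) Z = inner ℝ a (pr1 p Z) + inner ℝ b (pr2 p Z) := by
  simp only [PiLp.inner_apply, RCLike.inner_apply, conj_trivial, jn_apply, pr1_apply, pr2_apply]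
  rw [← p.symm.sum_comp, Fintype.sum_sum_type]
  simp

end gen

/-- half of the product equation: `(h_x f)(x) k(y)` tested with `w` -/
theorem prod_half {D e : ℝ} (p : Fin 2 × Fin 3 ≃ Fin 3 ⊕ Fin 3) {f k : Pos3 → ℝ}
    {df : Pos3 → Pos3} (hf : H1 f df) (hk : MemLp k 2 volume)
    (heq : ∀ w m, H1 w m → B2 D f df w m = e * ∫ x, f x * w x)
    {w : Y2 → ℝ} {dw : Y2 → Y2} (hw : H1 w dw) :
    Integrable (fun X : Y2 => inner ℝ (k (pr2 p X) • df (pr1 p X)) (pr1 p (dw X))) ∧
    Integrable (fun X : Y2 => V2 D (pr1 p X) * (f (pr1 p X) * k (pr2 p X)) * w X) ∧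
    (1 / 2) * (∫ X : Y2, inner ℝ (k (pr2 p X) • df (pr1 p X)) (pr1 p (dw X))) +
      (∫ X : Y2, V2 D (pr1 p X) * (f (pr1 p X) * k (pr2 p X)) * w X) =
      e * ∫ X : Y2, f (pr1 p X) * k (pr2 p X) * w X := by
  have m1 : MemLp (fun X : Y2 => k (pr2 p X) • df (pr1 p X)) 2 volume :=
    HS.memLp_tensor_smul' p hf.memg hk
  have m2 : MemLp (fun X : Y2 => pr1 p (dw X)) 2 volume := memLp_pr1 p hw.memg
  have i1 : Integrable (fun X : Y2 => inner ℝ (k (pr2 p X) • df (pr1 p X)) (pr1 p (dw X))) :=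
    (m1.norm.integrable_mul m2.norm).mono' (m1.1.inner m2.1)
      (Eventually.of_forall fun X => norm_inner_le_norm _ _)
  have m3 : MemLp (fun X : Y2 => V2 D (pr1 p X) * f (pr1 p X) * k (pr2 p X)) 2 volume :=
    HS.memLp_tensor p (V2_memLp D hf).1 hk
  have i2 : Integrable (fun X : Y2 => V2 D (pr1 p X) * (f (pr1 p X) * k (pr2 p X)) * w X) := by
    refine (m3.integrable_mul hw.memf).congr (Eventually.of_forall fun X => ?_)
    show V2 D (pr1 p X) * f (pr1 p X) * k (pr2 p X) * w X = _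
    ring
  have m4 : MemLp (fun X : Y2 => f (pr1 p X) * k (pr2 p X)) 2 volume :=
    HS.memLp_tensor p hf.memf hk
  have i3 : Integrable (fun X : Y2 => f (pr1 p X) * k (pr2 p X) * w X) :=
    m4.integrable_mul hw.memf
  refine ⟨i1, i2, ?_⟩
  rw [integral_jn' p i1, integral_jn' p i2, integral_jn' p i3, ← integral_const_mul,
    ← integral_const_mul]
  have j1 : Integrable (fun y : Pos3 => ∫ x, inner ℝ (k (pr2 p (jn p x y)) •
      df (pr1 p (jn p x y))) (pr1 p (dw (jn p x y)))) :=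
    ((integrable_jn p).2 i1).integral_prod_right
  have j2 : Integrable (fun y : Pos3 => ∫ x, V2 D (pr1 p (jn p x y)) * (f (pr1 p (jn p x y)) *
      k (pr2 p (jn p x y))) * w (jn p x y)) :=
    ((integrable_jn p).2 i2).integral_prod_right
  rw [← integral_add (j1.const_mul _) j2]
  refine integral_congr_ae ?_
  filter_upwards [H1.slice_left p hw] with y hy
  simp only [pr1_jn, pr2_jn]
  have h := heq _ _ hy
  unfold B2 at h
  calc _ = k y * ((1 / 2) * (∫ x, inner ℝ (df x) (pr1 p (dw (jn p x y)))) +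
        ∫ x, V2 D x * (f x * w (jn p x y))) := by
        rw [mul_add, ← integral_const_mul (k y) (fun x => V2 D x * (f x * w (jn p x y))),
          mul_left_comm, ← integral_const_mul (k y)]
        congr 1
        · congr 2
          funext x
          rw [real_inner_smul_left]
        · congr 1
          funext x
          ring
    _ = k y * (e * ∫ x, f x * w (jn p x y)) := by rw [h]
    _ = _ := by
      rw [mul_left_comm, ← integral_const_mul (k y)]
      congr 2
      funext x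
      ring

/-- an eigenfunction of the ion at `λ = 0`, without normalisation -/
structure IonE (D e : ℝ) (φ : Y2 → ℝ) (dφ : Y2 → Y2) : Prop where
  h1 : H1 φ dφ
  int : ∀ k dk, H1 k dk → Integrable (fun ξ => Vion D 0 ξ * φ ξ * k ξ)
  eq : ∀ k dk, H1 k dk → k2 D 0 φ dφ k dk = e * ∫ ξ, φ ξ * k ξ

theorem integrable_inner_H1 {ι : Type*} [Fintype ι] [DecidableEq ι]
    {f g : EuclideanSpace ℝ ι → EuclideanSpace ℝ ι} (hf : MemLp f 2 volume)
    (hg : MemLp g 2 volume) : Integrable (fun x => inner ℝ (f x) (g x)) :=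
  (hf.norm.integrable_mul hg.norm).mono' (hf.1.inner hg.1)
    (Eventually.of_forall fun X => norm_inner_le_norm _ _)

theorem IonE.add {D e : ℝ} {φ ψ : Y2 → ℝ} {dφ dψ : Y2 → Y2} (h : IonE D e φ dφ)
    (h' : IonE D e ψ dψ) : IonE D e (fun ξ => φ ξ + ψ ξ) (fun ξ => dφ ξ + dψ ξ) where
  h1 := H1.add h.h1 h'.h1
  int := fun k dk hk => by
    refine ((h.int k dk hk).add (h'.int k dk hk)).congr (Eventually.of_forall fun ξ => ?_)
    show Vion D 0 ξ * φ ξ * k ξ + Vion D 0 ξ * ψ ξ * k ξ = _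
    ring
  eq := fun k dk hk => by
    have e1 := h.eq k dk hk
    have e2 := h'.eq k dk hk
    unfold k2 at e1 e2 ⊢
    have j1 : (∫ x, inner ℝ (dφ x + dψ x) (dk x)) = (∫ x, inner ℝ (dφ x) (dk x)) +
        ∫ x, inner ℝ (dψ x) (dk x) := by
      rw [← integral_add (integrable_inner_H1 h.h1.memg hk.memg)
        (integrable_inner_H1 h'.h1.memg hk.memg)]
      congr 1; funext x; rw [inner_add_left]
    have j2 : (∫ x, Vion D 0 x * (φ x + ψ x) * k x) = (∫ x, Vion D 0 x * φ x * k x) +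
        ∫ x, Vion D 0 x * ψ x * k x := by
      rw [← integral_add (h.int k dk hk) (h'.int k dk hk)]
      congr 1; funext x; ring
    have j3 : (∫ x, (φ x + ψ x) * k x) = (∫ x, φ x * k x) + ∫ x, ψ x * k x := by
      have i1 : Integrable (fun x => φ x * k x) := h.h1.memf.integrable_mul hk.memf
      have i2 : Integrable (fun x => ψ x * k x) := h'.h1.memf.integrable_mul hk.memf
      rw [← integral_add i1 i2]
      congr 1; funext x
      ring
    rw [j1, j2, j3]
    linarith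

theorem IonE.const_mul {D e : ℝ} {φ : Y2 → ℝ} {dφ : Y2 → Y2} (h : IonE D e φ dφ) (c : ℝ) :
    IonE D e (fun ξ => c * φ ξ) (fun ξ => c • dφ ξ) where
  h1 := H1.const_mul h.h1 c
  int := fun k dk hk => by
    refine ((h.int k dk hk).const_mul c).congr (Eventually.of_forall fun ξ => ?_)
    show c * (Vion D 0 ξ * φ ξ * k ξ) = _
    ring
  eq := fun k dk hk => by
    have e1 := h.eq k dk hk
    unfold k2 at e1 ⊢
    have j1 : (∫ x, inner ℝ (c • dφ x) (dk x)) = c * ∫ x, inner ℝ (dφ x) (dk x) := by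
      rw [← integral_const_mul]
      congr 1; funext x; rw [real_inner_smul_left]
    have j2 : (∫ x, Vion D 0 x * (c * φ x) * k x) = c * ∫ x, Vion D 0 x * φ x * k x := by
      rw [← integral_const_mul]
      congr 1; funext x; ring
    have j3 : (∫ x, c * φ x * k x) = c * ∫ x, φ x * k x := by
      rw [← integral_const_mul]
      congr 1; funext x; ring
    rw [j1, j2, j3]
    linear_combination c * e1

/-- product states -/
theorem IonE.prod {D ef ek : ℝ} {f k : Pos3 → ℝ} {df dk : Pos3 → Pos3} (hf : H1 f df)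
    (hk : H1 k dk) (ef' : ∀ w m, H1 w m → B2 D f df w m = ef * ∫ x, f x * w x)
    (ek' : ∀ w m, H1 w m → B2 D k dk w m = ek * ∫ x, k x * w x) :
    ∃ d, IonE D (ef + ek) (fun ξ => f (el 0 ξ) * k (el 1 ξ)) d := by
  have hT := H1.tensor p6 hf hk
  refine ⟨fun X => jn p6 (k (pr2 p6 X) • df (pr1 p6 X)) (f (pr1 p6 X) • dk (pr2 p6 X)),
    ?_, ?_, ?_⟩
  · simp only [el_zero, el_one]
    exact hT
  · intro w dw hw
    obtain ⟨-, a2, -⟩ := prod_half (D := D) p6 hf hk.memf ef' hw
    obtain ⟨-, b2, -⟩ := prod_half (D := D) q6 hk hf.memf ek' hw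
    simp only [pr1_q6, pr2_q6] at b2
    refine (a2.add b2).congr (Eventually.of_forall fun ξ => ?_)
    simp only [Pi.add_apply]
    unfold Vion
    rw [zero_div, add_zero, el_zero, el_one]
    ring
  · intro w dw hw
    obtain ⟨a1, a2, a3⟩ := prod_half (D := D) p6 hf hk.memf ef' hw
    obtain ⟨b1, b2, b3⟩ := prod_half (D := D) q6 hk hf.memf ek' hw
    simp only [pr1_q6, pr2_q6] at b1 b2 b3
    unfold k2
    have j1 : (∫ x, inner ℝ (jn p6 (k (pr2 p6 x) • df (pr1 p6 x)) (f (pr1 p6 x) •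
        dk (pr2 p6 x))) (dw x)) = (∫ X : Y2, inner ℝ (k (pr2 p6 X) • df (pr1 p6 X))
          (pr1 p6 (dw X))) + ∫ X : Y2, inner ℝ (f (pr1 p6 X) • dk (pr2 p6 X)) (pr2 p6 (dw X)) := by
      rw [← integral_add a1 b1]
      congr 1; funext x; rw [inner_jn_pr]
    have j2 : (∫ x, Vion D 0 x * (f (el 0 x) * k (el 1 x)) * w x) =
        (∫ X : Y2, V2 D (pr1 p6 X) * (f (pr1 p6 X) * k (pr2 p6 X)) * w X) +
        ∫ X : Y2, V2 D (pr2 p6 X) * (k (pr2 p6 X) * f (pr1 p6 X)) * w X := by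
      rw [← integral_add a2 b2]
      congr 1; funext x
      unfold Vion
      rw [zero_div, add_zero, el_zero, el_one]
      ring
    have j3 : (∫ x : Y2, f (el 0 x) * k (el 1 x) * w x) =
        ∫ X : Y2, f (pr1 p6 X) * k (pr2 p6 X) * w X := by
      simp only [el_zero, el_one]
    have j4 : (∫ X : Y2, k (pr2 p6 X) * f (pr1 p6 X) * w X) =
        ∫ X : Y2, f (pr1 p6 X) * k (pr2 p6 X) * w X := by
      congr 1; funext x; ring
    rw [j1, j2, j3]
    rw [j4] at b3
    linarith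

section ob
variable {D eg eu e3 : ℝ} {g u : Pos3 → ℝ} {dg du : Pos3 → Pos3}

/-- `⟨g, u⟩ = 0` -/
theorem OneBody.orth (h : OneBody D g u dg du eg eu e3) : ∫ x, g x * u x = 0 := by
  have h1 : (∫ x, g x * u x) = - ∫ x, g x * u x := by
    conv_lhs => rw [← ob_integral_rz]
    rw [← integral_neg]
    congr 1
    funext x
    rw [h.g_even, h.u_odd]
    ring
  linarith

theorem OneBody.ph0_prod (h : OneBody D g u dg du eg eu e3) :
    ∃ d, IonProd D (2 * eg) (ph0 g) d := by
  obtain ⟨d, hd⟩ := IonE.prod h.hg h.hg h.g_eq h.g_eq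
  refine ⟨d, hd.h1, ?_, fun k dk hk => ?_⟩
  · have := integral_el (fun x => g x ^ 2) (fun x => g x ^ 2)
    rw [h.ng, mul_one] at this
    rw [← this]
    congr 1
    funext ξ
    unfold ph0
    ring
  · have := hd.eq k dk hk
    rw [two_mul]
    exact this

/-- the (anti)symmetric combination `(σ u g + g u)/√2` up to sign -/
theorem OneBody.sym_prod (h : OneBody D g u dg du eg eu e3) {s t : ℝ} (hs : s ^ 2 = 1)
    (ht : t ^ 2 = 1) : ∃ d, IonProd D (eg + eu)
      (fun ξ => (s / √2) * (u (el 0 ξ) * g (el 1 ξ)) + (t / √2) * (g (el 0 ξ) * u (el 1 ξ))) d := by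
  obtain ⟨d1, hd1⟩ := IonE.prod h.hu h.hg h.u_eq h.g_eq
  obtain ⟨d2, hd2⟩ := IonE.prod h.hg h.hu h.g_eq h.u_eq
  rw [add_comm] at hd1
  have hd := (hd1.const_mul (s / √2)).add (hd2.const_mul (t / √2))
  refine ⟨_, hd.h1, ?_, hd.eq⟩
  have ig : Integrable (fun x => g x ^ 2) := h.hg.memf.integrable_sq
  have iu : Integrable (fun x => u x ^ 2) := h.hu.memf.integrable_sq
  have iug : Integrable (fun x => g x * u x) := h.hg.memf.integrable_mul h.hu.memf
  have a1 := integral_el (fun x => u x ^ 2) (fun x => g x ^ 2)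
  have a2 := integral_el (fun x => g x ^ 2) (fun x => u x ^ 2)
  have a3 := integral_el (fun x => g x * u x) (fun x => g x * u x)
  rw [h.ng, h.nu, mul_one] at a1 a2
  rw [h.orth, mul_zero] at a3
  have b1 := integrable_el iu ig
  have b2 := integrable_el ig iu
  have b3 := integrable_el iug iug
  have s2 : √2 ^ 2 = (2 : ℝ) := Real.sq_sqrt (by norm_num)
  have hne : √2 ≠ (0 : ℝ) := by positivity
  calc (∫ ξ : Y2, ((s / √2) * (u (el 0 ξ) * g (el 1 ξ)) +
        (t / √2) * (g (el 0 ξ) * u (el 1 ξ))) ^ 2) =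
      ∫ ξ : Y2, ((1 / 2) * (u (el 0 ξ) ^ 2 * g (el 1 ξ) ^ 2) +
        (1 / 2) * (g (el 0 ξ) ^ 2 * u (el 1 ξ) ^ 2)) +
        s * t * (g (el 0 ξ) * u (el 0 ξ) * (g (el 1 ξ) * u (el 1 ξ))) := by
        congr 1
        funext ξ
        have e1 : (s / √2) ^ 2 = 1 / 2 := by rw [div_pow, hs, s2]
        have e2 : (t / √2) ^ 2 = 1 / 2 := by rw [div_pow, ht, s2]
        have e3 : (s / √2) * (t / √2) * 2 = s * t := by
          field_simp
          linear_combination (-(s * t)) * s2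
        linear_combination (u (el 0 ξ) * g (el 1 ξ)) ^ 2 * e1 +
          (g (el 0 ξ) * u (el 1 ξ)) ^ 2 * e2 +
          (u (el 0 ξ) * g (el 1 ξ)) * (g (el 0 ξ) * u (el 1 ξ)) * e3
    _ = 1 := by
        have b12 : Integrable (fun ξ : Y2 => (1 / 2) * (u (el 0 ξ) ^ 2 * g (el 1 ξ) ^ 2) +
            (1 / 2) * (g (el 0 ξ) ^ 2 * u (el 1 ξ) ^ 2)) :=
          (b1.const_mul _).add (b2.const_mul _)
        rw [integral_add b12 (b3.const_mul _),
          integral_add (b1.const_mul _) (b2.const_mul _), integral_const_mul, integral_const_mul,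
          integral_const_mul, a1, a2, a3]
        norm_num

theorem OneBody.ph1_prod (h : OneBody D g u dg du eg eu e3) :
    ∃ d, IonProd D (eg + eu) (ph1 g u) d := by
  obtain ⟨d, hd⟩ := h.sym_prod (s := -1) (t := -1) (by norm_num) (by norm_num)
  refine ⟨d, ?_⟩
  convert hd using 2 with ξ
  unfold ph1
  ring

theorem OneBody.phT_prod (h : OneBody D g u dg du eg eu e3) :
    ∃ d, IonProd D (eg + eu) (phT g u) d := by
  obtain ⟨d, hd⟩ := h.sym_prod (s := 1) (t := -1) (by norm_num) (by norm_num)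
  refine ⟨d, ?_⟩
  convert hd using 2 with ξ
  unfold phT
  ring

end ob

end Crest.Agent.R335
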