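import Crest.Agent.R335.BIonW

/-!
Row 335 (S0521): ions, the dipole moment (helper459).
-/

set_option autoImplicit false
set_option linter.unusedSectionVars false
set_option linter.unusedVariables false

open MeasureTheory Filter Set Crest.MathPhysics.ThreeBody
open scoped ENNReal Topology ContDiff

noncomputable section
namespace Crest.Agent.R335

/-- second moment of `z`, with a sharp constant -/
theorem oneBody_z2 : ∃ D₀ η : ℝ, 1 ≤ D₀ ∧ 0 < η ∧ ∀ D : ℝ, D₀ ≤ D →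
    ∀ (f : Pos3 → ℝ) (g : Pos3 → Pos3) (e : ℝ), H1 f g → (∫ x, f x ^ 2 = 1) →
      (∀ w m, H1 w m → B2 D f g w m = e * ∫ x, f x * w x) → e ≤ -(1 / 2) + η →
      MemLp (fun x : Pos3 => x 2 * f x) 2 volume ∧ ∫ x : Pos3, (x 2 * f x) ^ 2 ≤ 3 * D ^ 2 := by
  obtain ⟨C₁, η, hη, hA⟩ := oneBody_agmon (a := 1 / 2) (by norm_num) (by norm_num)
  refine ⟨max 1 (4 * |C₁|), η, le_max_left _ _, hη, ?_⟩
  intro D hD' f g e hf hn heq he
  have hD : 1 ≤ D := (le_max_left _ _).trans hD'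
  have hD2 : 4 * |C₁| ≤ D := (le_max_right _ _).trans hD'
  obtain ⟨ia, ha⟩ := hA D hD f g e hf heq he
  rw [hn, mul_one] at ha
  have hD0 : 0 ≤ D := by linarith
  have key : ∀ x, (Real.exp (1 / 2 * min ‖x - nuc D‖ ‖x - nuc (-D)‖) * f x) ^ 2 =
      Real.exp (ob_dn D x) * f x ^ 2 := by
    intro x
    rw [mul_pow, ← Real.exp_nat_mul]
    congr 2
    unfold ob_dn
    push_cast
    ring
  simp only [key] at ia ha
  have if2 : Integrable (fun x => f x ^ 2) := hf.memf.integrable_sq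
  have pt : ∀ x : Pos3, (x 2 * f x) ^ 2 ≤ 2 * D ^ 2 * f x ^ 2 +
      4 * (Real.exp (ob_dn D x) * f x ^ 2) := by
    intro x
    have h1 : |x 2| ≤ D + ob_dn D x := (ob_abs_coord_le x 2).trans (norm_le_dn hD0 x)
    have h0 := ob_dn_nonneg D x
    have h2 : x 2 ^ 2 ≤ (D + ob_dn D x) ^ 2 := by
      rw [← sq_abs]
      exact pow_le_pow_left₀ (abs_nonneg _) h1 2
    have h3 : ob_dn D x ^ 2 ≤ 2 * Real.exp (ob_dn D x) := by
      have := Real.quadratic_le_exp_of_nonneg h0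
      nlinarith
    have h4 : x 2 ^ 2 ≤ 2 * D ^ 2 + 4 * Real.exp (ob_dn D x) := by
      nlinarith [sq_nonneg (D - ob_dn D x)]
    calc (x 2 * f x) ^ 2 = x 2 ^ 2 * f x ^ 2 := by ring
      _ ≤ (2 * D ^ 2 + 4 * Real.exp (ob_dn D x)) * f x ^ 2 :=
        mul_le_mul_of_nonneg_right h4 (sq_nonneg _)
      _ = _ := by ring
  have hc : Continuous fun x : Pos3 => x 2 := by fun_prop
  have hm : AEStronglyMeasurable (fun x : Pos3 => x 2 * f x) volume :=
    hc.aestronglyMeasurable.mul hf.memf.1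
  have i1 : Integrable (fun x : Pos3 => 2 * D ^ 2 * f x ^ 2 +
      4 * (Real.exp (ob_dn D x) * f x ^ 2)) := (if2.const_mul _).add (ia.const_mul _)
  have i2 : Integrable (fun x : Pos3 => (x 2 * f x) ^ 2) :=
    i1.mono' (hm.pow 2) (Eventually.of_forall fun x => by
      rw [Real.norm_eq_abs, abs_of_nonneg (sq_nonneg _)]; exact pt x)
  refine ⟨(memLp_two_iff_integrable_sq hm).2 i2, (integral_mono i2 i1 pt).trans ?_⟩
  rw [integral_add (if2.const_mul _) (ia.const_mul _), integral_const_mul, integral_const_mul, hn]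
  have := le_abs_self C₁
  nlinarith

/-- lower bound for `⟨u, ck g⟩` -/
theorem oneBody_ck : ∃ M η : ℝ, 1 ≤ M ∧ 0 < η ∧ ∀ D : ℝ, 1 ≤ D →
    ∀ (g u : Pos3 → ℝ) (dg du : Pos3 → Pos3) (eg eu e3 c : ℝ), OneBody D g u dg du eg eu e3 →
      eg ≤ -(1 / 2) + η → 0 < c → c ≤ 1 / 2 → c ≤ e3 - eu → M * Real.exp (-(3 * D / 2)) ≤ c / 4 →
        3 / 4 ≤ (∫ x, u x * (ck x * g x)) ^ 2 := by
  obtain ⟨C₁, η, hη, hA⟩ := oneBody_agmon (a := 3 / 4) (by norm_num) (by norm_num)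
  refine ⟨max 1 (|C₁| * Real.exp (3 / 2)), η, le_max_left _ _, hη,
    fun D hD1 g u dg du eg eu e3 c hO he hc0 hc1 hc hsmall' => ?_⟩
  set M := |C₁| * Real.exp (3 / 2) with hM
  have hM0 : 0 ≤ M := by positivity
  have hsmall : M * Real.exp (-(3 * D / 2)) ≤ c / 4 :=
    (mul_le_mul_of_nonneg_right (le_max_right _ _) (Real.exp_pos _).le).trans hsmall'
  obtain ⟨ia, ha⟩ := hA D hD1 g dg eg hO.hg hO.g_eq he
  rw [hO.ng, mul_one] at ha
  have ig : Integrable (fun x => g x ^ 2) := hO.hg.memf.integrable_sq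
  -- mass in the slab
  have hcont : Continuous fun x : Pos3 => |x 2| := by fun_prop
  have mS : MeasurableSet {x : Pos3 | |x 2| ≤ 1} :=
    (isClosed_le hcont continuous_const).measurableSet
  have slab : ∫ x in {x : Pos3 | |x 2| ≤ 1}, g x ^ 2 ≤ M * Real.exp (-(3 * D / 2)) := by
    have e1 : ∫ x in {x : Pos3 | |x 2| ≤ 1}, g x ^ 2 ≤
        Real.exp (-(3 / 2 * (D - 1))) *
          ∫ x, (Real.exp (3 / 4 * min ‖x - nuc D‖ ‖x - nuc (-D)‖) * g x) ^ 2 := by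
      rw [← integral_indicator mS, ← integral_const_mul]
      refine integral_mono_of_nonneg (Eventually.of_forall fun x =>
        indicator_nonneg (fun y _ => sq_nonneg _) x) (ia.const_mul _)
        (Eventually.of_forall fun x => ?_)
      show indicator {x : Pos3 | |x 2| ≤ 1} (fun x => g x ^ 2) x ≤ Real.exp (-(3 / 2 * (D - 1))) *
        (Real.exp (3 / 4 * ob_dn D x) * g x) ^ 2
      by_cases hx : |x 2| ≤ 1
      · rw [indicator_of_mem (show x ∈ {x : Pos3 | |x 2| ≤ 1} from hx), mul_pow, ← mul_assoc,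
          ← Real.exp_nat_mul, ← Real.exp_add]
        refine le_mul_of_one_le_left (sq_nonneg _) ?_
        rw [Real.one_le_exp_iff]
        have := ob_dn_ge_of_slab (D := D) hx
        push_cast
        linarith
      · rw [indicator_of_notMem (show x ∉ {x : Pos3 | |x 2| ≤ 1} from hx)]
        positivity
    refine e1.trans ?_
    have e2 : Real.exp (-(3 / 2 * (D - 1))) *
        (∫ x, (Real.exp (3 / 4 * min ‖x - nuc D‖ ‖x - nuc (-D)‖) * g x) ^ 2) ≤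
        Real.exp (-(3 / 2 * (D - 1))) * |C₁| :=
      mul_le_mul_of_nonneg_left (ha.trans (le_abs_self _)) (Real.exp_pos _).le
    refine e2.trans (le_of_eq ?_)
    rw [hM, mul_comm, mul_assoc, ← Real.exp_add]
    congr 2
    ring
  -- trial function
  obtain ⟨wk, hk1⟩ := WG.of_lipschitz ck_lip
  rw [NNReal.coe_one] at hk1
  have hkb : ∀ x, |ck x| ≤ 1 := abs_ck_le
  have hid := agmon_identity hO.hg hO.g_eq wk hkb hk1
  have hw := H1.mul_bdd hO.hg wk hkb hk1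
  have hgap := hO.gap _ _ hw
  have horth : ∫ x, g x * (ck x * g x) = 0 := by
    have h1 : (∫ x, g x * (ck x * g x)) = - ∫ x, g x * (ck x * g x) := by
      conv_lhs => rw [← ob_integral_rz]
      rw [← integral_neg]
      congr 1
      funext x
      rw [hO.g_even, ck_rz]
      ring
    linarith
  rw [horth] at hgap
  have hcs := ob_cauchy_sq hw.memf hO.hu.memf hO.nu
  have iw : Integrable (fun x => (ck x * g x) ^ 2) := hw.memf.integrable_sq
  -- mass of the trial function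
  have hmass : 1 - ∫ x in {x : Pos3 | |x 2| ≤ 1}, g x ^ 2 ≤ ∫ x, (ck x * g x) ^ 2 := by
    have h1 : (∫ x in {x : Pos3 | |x 2| ≤ 1}, g x ^ 2) +
        (∫ x in {x : Pos3 | |x 2| ≤ 1}ᶜ, g x ^ 2) = 1 := by
      rw [integral_add_compl mS ig, hO.ng]
    have h2 : ∫ x in {x : Pos3 | |x 2| ≤ 1}ᶜ, g x ^ 2 ≤ ∫ x, (ck x * g x) ^ 2 := by
      rw [← integral_indicator mS.compl]
      refine integral_mono_of_nonneg (Eventually.of_forall fun x =>
        indicator_nonneg (fun y _ => sq_nonneg _) x) iw (Eventually.of_forall fun x => ?_)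
      show indicator {x : Pos3 | |x 2| ≤ 1}ᶜ (fun x => g x ^ 2) x ≤ (ck x * g x) ^ 2
      by_cases hx : |x 2| ≤ 1
      · rw [indicator_of_notMem (show x ∉ {x : Pos3 | |x 2| ≤ 1}ᶜ from fun h => h hx)]
        positivity
      · rw [indicator_of_mem (show x ∈ {x : Pos3 | |x 2| ≤ 1}ᶜ from hx)]
        rcases lt_abs.1 (not_le.1 hx) with h | h
        · rw [ck_of_gt h.le, one_mul]
        · rw [ck_of_lt (by linarith)]
          apply le_of_eq
          ring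
    linarith
  -- gradient term
  have hgrad : ∫ x, g x ^ 2 * ‖gr ck x‖ ^ 2 ≤ ∫ x in {x : Pos3 | |x 2| ≤ 1}, g x ^ 2 := by
    rw [← integral_indicator mS]
    refine integral_mono_of_nonneg (Eventually.of_forall fun x => by positivity)
      (ig.indicator mS) (Eventually.of_forall fun x => ?_)
    show g x ^ 2 * ‖gr ck x‖ ^ 2 ≤ indicator {x : Pos3 | |x 2| ≤ 1} (fun x => g x ^ 2) x
    by_cases hx : |x 2| ≤ 1
    · rw [indicator_of_mem (show x ∈ {x : Pos3 | |x 2| ≤ 1} from hx)]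
      have h1 : ‖gr ck x‖ ^ 2 ≤ 1 := pow_le_one₀ (norm_nonneg _) (hk1 x)
      nlinarith [sq_nonneg (g x)]
    · rw [indicator_of_notMem (show x ∉ {x : Pos3 | |x 2| ≤ 1} from hx),
        gr_ck_zero (not_le.1 hx), norm_zero]
      norm_num
  rw [hid] at hgap
  set W := ∫ x, (ck x * g x) ^ 2 with hW
  set S := ∫ x in {x : Pos3 | |x 2| ≤ 1}, g x ^ 2 with hS
  set T := ∫ x, u x * (ck x * g x) with hT
  have hS1 : S ≤ c / 4 := slab.trans hsmall
  have hW0 : 0 ≤ W := integral_nonneg fun x => sq_nonneg _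
  have h1 : (e3 - eu) * (W - T ^ 2) ≤ 1 / 2 * S + (eg - eu) * W := by nlinarith
  have h2 : (eg - eu) * W ≤ 0 := mul_nonpos_of_nonpos_of_nonneg (by linarith [hO.eg_lt]) hW0
  have h3 : c * (W - T ^ 2) ≤ (e3 - eu) * (W - T ^ 2) :=
    mul_le_mul_of_nonneg_right hc (by linarith)
  have h4 : c * (W - T ^ 2) ≤ c * (1 / 8) := by linarith
  have h5 : W - T ^ 2 ≤ 1 / 8 := le_of_mul_le_mul_left h4 hc0
  linarith

section ob
variable {D eg eu e3 : ℝ} {g u : Pos3 → ℝ} {dg du : Pos3 → Pos3}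

/-- the dipole at `λ = 0` -/
theorem OneBody.dip0 (h : OneBody D g u dg du eg eu e3)
    (hz : MemLp (fun x : Pos3 => x 2 * g x) 2 volume) :
    ∫ ξ, ph1 g u ξ * (el 0 ξ 2 + el 1 ξ 2) * ph0 g ξ =
      -(√2 * ∫ x, u x * (x 2 * g x)) := by
  have ig : Integrable (fun x => g x ^ 2) := h.hg.memf.integrable_sq
  have iug : Integrable (fun x => u x * g x) := h.hu.memf.integrable_mul h.hg.memf
  have izg : Integrable (fun x : Pos3 => x 2 * g x * g x) := hz.integrable_mul h.hg.memf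
  have izu : Integrable (fun x : Pos3 => u x * (x 2 * g x)) := h.hu.memf.integrable_mul hz
  have a1 := integral_el (fun x => u x * (x 2 * g x)) (fun x => g x ^ 2)
  have a2 := integral_el (fun x => u x * g x) (fun x => x 2 * g x * g x)
  have a3 := integral_el (fun x => x 2 * g x * g x) (fun x => u x * g x)
  have a4 := integral_el (fun x => g x ^ 2) (fun x => u x * (x 2 * g x))
  have b1 := integrable_el izu ig
  have b2 := integrable_el iug izg
  have b3 := integrable_el izg iug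
  have b4 := integrable_el ig izu
  have ho : ∫ x, u x * g x = 0 := by
    rw [← h.orth]
    congr 1
    funext x
    ring
  rw [h.ng, mul_one] at a1
  rw [ho, zero_mul] at a2
  rw [ho, mul_zero] at a3
  rw [h.ng, one_mul] at a4
  have s2 : √2 * √2 = (2 : ℝ) := Real.mul_self_sqrt (by norm_num)
  have hne : √2 ≠ (0 : ℝ) := by positivity
  calc (∫ ξ, ph1 g u ξ * (el 0 ξ 2 + el 1 ξ 2) * ph0 g ξ) =
      ∫ ξ : Y2, -(1 / √2) * ((u (el 0 ξ) * (el 0 ξ 2 * g (el 0 ξ)) * g (el 1 ξ) ^ 2 +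
        u (el 0 ξ) * g (el 0 ξ) * (el 1 ξ 2 * g (el 1 ξ) * g (el 1 ξ))) +
        (el 0 ξ 2 * g (el 0 ξ) * g (el 0 ξ) * (u (el 1 ξ) * g (el 1 ξ)) +
        g (el 0 ξ) ^ 2 * (u (el 1 ξ) * (el 1 ξ 2 * g (el 1 ξ))))) := by
        congr 1
        funext ξ
        unfold ph1 ph0
        ring
    _ = -(1 / √2) * (2 * ∫ x, u x * (x 2 * g x)) := by
        have c1 : Integrable (fun ξ : Y2 => u (el 0 ξ) * (el 0 ξ 2 * g (el 0 ξ)) *
            g (el 1 ξ) ^ 2 + u (el 0 ξ) * g (el 0 ξ) * (el 1 ξ 2 * g (el 1 ξ) * g (el 1 ξ))) :=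
          b1.add b2
        have c2 : Integrable (fun ξ : Y2 => el 0 ξ 2 * g (el 0 ξ) * g (el 0 ξ) *
            (u (el 1 ξ) * g (el 1 ξ)) + g (el 0 ξ) ^ 2 *
            (u (el 1 ξ) * (el 1 ξ 2 * g (el 1 ξ)))) := b3.add b4
        rw [integral_const_mul, integral_add c1 c2, integral_add b1 b2, integral_add b3 b4,
          a1, a2, a3, a4]
        ring
    _ = _ := by
        have e : 1 / √2 * 2 = √2 := by
          rw [one_div, inv_mul_eq_div, div_eq_iff hne]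
          exact s2.symm
        linear_combination (-(∫ x, u x * (x 2 * g x))) * e

/-- `μ ≥ ⟨u, ck g⟩ ≥ 0` -/
theorem OneBody.mu_ge (h : OneBody D g u dg du eg eu e3)
    (hz : MemLp (fun x : Pos3 => x 2 * g x) 2 volume) :
    0 ≤ (∫ x, u x * (ck x * g x)) ∧
      (∫ x, u x * (ck x * g x)) ≤ ∫ x, u x * (x 2 * g x) := by
  have u0 : ∀ x : Pos3, x 2 = 0 → u x = 0 := by
    intro x hx
    have e : rz x = x := by
      ext i
      rw [rz_apply]
      split_ifs with hi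
      · rw [hi, hx, neg_zero]
      · rfl
    have := h.u_odd x
    rw [e] at this
    linarith
  have un : ∀ x : Pos3, x 2 < 0 → u x < 0 := by
    intro x hx
    have e : (rz x) 2 = - x 2 := by rw [rz_apply, if_pos rfl]
    have := h.u_pos (rz x) (by rw [e]; linarith)
    rw [h.u_odd] at this
    linarith
  have hc : Continuous ck := ck_lip.continuous
  have m1 : MemLp (fun x => ck x * g x) 2 volume :=
    h.hg.memf.of_le (hc.aestronglyMeasurable.mul h.hg.memf.1) (Eventually.of_forall fun x => by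
      rw [norm_mul]
      exact mul_le_of_le_one_left (norm_nonneg _) (abs_ck_le x))
  have i1 : Integrable (fun x => u x * (ck x * g x)) := h.hu.memf.integrable_mul m1
  have i2 : Integrable (fun x : Pos3 => u x * (x 2 * g x)) := h.hu.memf.integrable_mul hz
  have ck_nn : ∀ x : Pos3, 0 ≤ x 2 → 0 ≤ ck x ∧ ck x ≤ x 2 := by
    intro x hx
    rcases le_total (x 2) 1 with h' | h'
    · rw [ck_of_le (by linarith) h']
      exact ⟨hx, le_rfl⟩
    · rw [ck_of_gt h']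
      exact ⟨by norm_num, h'⟩
  have ck_np : ∀ x : Pos3, x 2 ≤ 0 → ck x ≤ 0 ∧ x 2 ≤ ck x := by
    intro x hx
    rcases le_total (x 2) (-1) with h' | h'
    · rw [ck_of_lt h']
      exact ⟨by norm_num, h'⟩
    · rw [ck_of_le h' (by linarith)]
      exact ⟨hx, le_rfl⟩
  constructor
  · refine integral_nonneg fun x => ?_
    show 0 ≤ u x * (ck x * g x)
    have hg := h.g_pos x
    rcases lt_trichotomy (x 2) 0 with h1 | h1 | h1
    · have a := un x h1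
      have b := (ck_np x h1.le).1
      rw [← mul_assoc]
      exact mul_nonneg (mul_nonneg_of_nonpos_of_nonpos a.le b) hg.le
    · rw [u0 x h1, zero_mul]
    · have a := h.u_pos x h1
      have b := (ck_nn x h1.le).1
      positivity
  · refine integral_mono i1 i2 fun x => ?_
    show u x * (ck x * g x) ≤ u x * (x 2 * g x)
    have hg := h.g_pos x
    rcases lt_trichotomy (x 2) 0 with h1 | h1 | h1
    · have a := un x h1
      have b := (ck_np x h1.le).2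
      refine mul_le_mul_of_nonpos_left (mul_le_mul_of_nonneg_right b hg.le) a.le
    · rw [u0 x h1, zero_mul, zero_mul]
    · have a := h.u_pos x h1
      have b := (ck_nn x h1.le).2
      exact mul_le_mul_of_nonneg_left (mul_le_mul_of_nonneg_right b hg.le) a.le

/-- upper bound of the dipole -/
theorem OneBody.mu_le (h : OneBody D g u dg du eg eu e3) (hD : 0 ≤ D)
    (hz : MemLp (fun x : Pos3 => x 2 * g x) 2 volume)
    (hb : ∫ x : Pos3, (x 2 * g x) ^ 2 ≤ 3 * D ^ 2) :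
    √2 * (∫ x, u x * (x 2 * g x)) ≤ 5 / 2 * D := by
  have h1 := HZ.cs (f := u) (g := fun x : Pos3 => x 2 * g x) h.hu.memf hz
  rw [h.nu, one_mul] at h1
  have s2 : √2 ^ 2 = (2 : ℝ) := Real.sq_sqrt (by norm_num)
  have h2 : (√2 * (∫ x, u x * (x 2 * g x))) ^ 2 ≤ (5 / 2 * D) ^ 2 := by
    rw [mul_pow, s2]
    nlinarith [sq_nonneg D]
  exact (abs_le_of_sq_le_sq' h2 (by positivity)).2

end ob

/-- closeness of the dipole matrix elements -/
theorem dip_close {b S N : ℝ} (hb : 0 ≤ b) (hS : 0 ≤ S) (hN : 0 ≤ N) {Φ1 φ1 Φ0 φ0 : Y2 → ℝ}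
    (mΦ1 : MemLp Φ1 2 volume) (mφ1 : MemLp φ1 2 volume) (mΦ0 : MemLp Φ0 2 volume)
    (mφ0 : MemLp φ0 2 volume)
    (w0 : Integrable (fun ξ => (wi ξ * Real.exp (b * wi ξ) * Φ0 ξ) ^ 2))
    (w0b : ∫ ξ, (wi ξ * Real.exp (b * wi ξ) * Φ0 ξ) ^ 2 ≤ N ^ 2)
    (w1 : Integrable (fun ξ => (wi ξ * Real.exp (b * wi ξ) * φ1 ξ) ^ 2))
    (w1b : ∫ ξ, (wi ξ * Real.exp (b * wi ξ) * φ1 ξ) ^ 2 ≤ N ^ 2)
    (c1 : ∫ ξ, (Φ1 ξ - φ1 ξ) ^ 2 ≤ S ^ 2) (c0 : ∫ ξ, (Φ0 ξ - φ0 ξ) ^ 2 ≤ S ^ 2) :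
    |(∫ ξ, Φ1 ξ * (el 0 ξ 2 + el 1 ξ 2) * Φ0 ξ) - ∫ ξ, φ1 ξ * (el 0 ξ 2 + el 1 ξ 2) * φ0 ξ| ≤
      2 * (S * N) := by
  have hZc : Continuous fun ξ : Y2 => el 0 ξ 2 + el 1 ξ 2 := by
    have h0 := continuous_el 0
    have h1 := continuous_el 1
    fun_prop
  have hZ : ∀ ξ : Y2, |el 0 ξ 2 + el 1 ξ 2| ≤ wi ξ := by
    intro ξ
    refine (abs_add_le _ _).trans ?_
    unfold wi
    exact add_le_add ((ob_abs_coord_le _ _).trans (norm_le_jb _))
      ((ob_abs_coord_le _ _).trans (norm_le_jb _))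
  have gen : ∀ {Φ : Y2 → ℝ}, MemLp Φ 2 volume →
      Integrable (fun ξ => (wi ξ * Real.exp (b * wi ξ) * Φ ξ) ^ 2) →
      (∫ ξ, (wi ξ * Real.exp (b * wi ξ) * Φ ξ) ^ 2 ≤ N ^ 2) →
      MemLp (fun ξ => (el 0 ξ 2 + el 1 ξ 2) * Φ ξ) 2 volume ∧
      ∫ ξ, ((el 0 ξ 2 + el 1 ξ 2) * Φ ξ) ^ 2 ≤ N ^ 2 := by
    intro Φ mΦ i1 i2
    have pt : ∀ ξ, ((el 0 ξ 2 + el 1 ξ 2) * Φ ξ) ^ 2 ≤
        (wi ξ * Real.exp (b * wi ξ) * Φ ξ) ^ 2 := by
      intro ξ
      have h1 : (el 0 ξ 2 + el 1 ξ 2) ^ 2 ≤ (wi ξ * Real.exp (b * wi ξ)) ^ 2 := by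
        rw [← sq_abs]
        refine pow_le_pow_left₀ (abs_nonneg _) ((hZ ξ).trans ?_) 2
        exact le_mul_of_one_le_right (wi_pos ξ).le
          (Real.one_le_exp (mul_nonneg hb (wi_pos ξ).le))
      rw [mul_pow, mul_pow _ (Φ ξ)]
      exact mul_le_mul_of_nonneg_right h1 (sq_nonneg _)
    have hm : AEStronglyMeasurable (fun ξ : Y2 => (el 0 ξ 2 + el 1 ξ 2) * Φ ξ) volume :=
      hZc.aestronglyMeasurable.mul mΦ.1
    have i3 : Integrable (fun ξ : Y2 => ((el 0 ξ 2 + el 1 ξ 2) * Φ ξ) ^ 2) :=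
      i1.mono' (hm.pow 2) (Eventually.of_forall fun x => by
        rw [Real.norm_eq_abs, abs_of_nonneg (sq_nonneg _)]; exact pt x)
    exact ⟨(memLp_two_iff_integrable_sq hm).2 i3, (integral_mono i3 i1 pt).trans i2⟩
  obtain ⟨mA, bA⟩ := gen mΦ0 w0 w0b
  obtain ⟨mB, bB⟩ := gen mφ1 w1 w1b
  have j1 : Integrable (fun ξ : Y2 => Φ1 ξ * (el 0 ξ 2 + el 1 ξ 2) * Φ0 ξ) := by
    refine (mΦ1.integrable_mul mA).congr (Eventually.of_forall fun ξ => ?_)
    show Φ1 ξ * ((el 0 ξ 2 + el 1 ξ 2) * Φ0 ξ) = _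
    ring
  have j2 : Integrable (fun ξ : Y2 => φ1 ξ * (el 0 ξ 2 + el 1 ξ 2) * φ0 ξ) := by
    refine (mB.integrable_mul mφ0).congr (Eventually.of_forall fun ξ => ?_)
    show (el 0 ξ 2 + el 1 ξ 2) * φ1 ξ * φ0 ξ = _
    ring
  have mδ1 : MemLp (fun ξ => Φ1 ξ - φ1 ξ) 2 volume := mΦ1.sub mφ1
  have mδ0 : MemLp (fun ξ => Φ0 ξ - φ0 ξ) 2 volume := mΦ0.sub mφ0
  have k1 : Integrable (fun ξ : Y2 => (Φ1 ξ - φ1 ξ) * ((el 0 ξ 2 + el 1 ξ 2) * Φ0 ξ)) :=
    mδ1.integrable_mul mA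
  have k2' : Integrable (fun ξ : Y2 => (el 0 ξ 2 + el 1 ξ 2) * φ1 ξ * (Φ0 ξ - φ0 ξ)) :=
    mB.integrable_mul mδ0
  have e : (∫ ξ, Φ1 ξ * (el 0 ξ 2 + el 1 ξ 2) * Φ0 ξ) -
      (∫ ξ, φ1 ξ * (el 0 ξ 2 + el 1 ξ 2) * φ0 ξ) =
      (∫ ξ, (Φ1 ξ - φ1 ξ) * ((el 0 ξ 2 + el 1 ξ 2) * Φ0 ξ)) +
        ∫ ξ, (el 0 ξ 2 + el 1 ξ 2) * φ1 ξ * (Φ0 ξ - φ0 ξ) := by
    rw [← integral_sub j1 j2, ← integral_add k1 k2']
    congr 1
    funext ξ
    ring
  have q1 := HZ.cs mδ1 mA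
  have q2 := HZ.cs mB mδ0
  have hn : ∀ {f : Y2 → ℝ}, 0 ≤ ∫ ξ, (f ξ) ^ 2 := fun {f} => integral_nonneg fun ξ => sq_nonneg _
  have r1 : |∫ ξ, (Φ1 ξ - φ1 ξ) * ((el 0 ξ 2 + el 1 ξ 2) * Φ0 ξ)| ≤ S * N := by
    refine abs_le_of_sq_le_sq (q1.trans ?_) (mul_nonneg hS hN)
    rw [mul_pow]
    exact mul_le_mul c1 bA hn (sq_nonneg _)
  have r2 : |∫ ξ, (el 0 ξ 2 + el 1 ξ 2) * φ1 ξ * (Φ0 ξ - φ0 ξ)| ≤ S * N := by
    refine abs_le_of_sq_le_sq (q2.trans ?_) (mul_nonneg hS hN)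
    rw [mul_comm S N, mul_pow]
    exact mul_le_mul bB c0 hn (sq_nonneg _)
  rw [e]
  refine (abs_add_le _ _).trans ?_
  linarith

end Crest.Agent.R335
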