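import Crest.Agent.R335.BIonD
import Crest.Agent.R335.HIface2

/-!
Row 335 (S0521): ions, coercivity of the ion form (helper459).
-/

set_option autoImplicit false
set_option linter.unusedSectionVars false
set_option linter.unusedVariables false

open MeasureTheory Filter Set Crest.MathPhysics.ThreeBody
open scoped ENNReal Topology ContDiff

noncomputable section
namespace Crest.Agent.R335

private def elY' (j : Fin 2) : Y2 →L[ℝ] Pos3 :=
  LinearMap.toContinuousLinearMap
    { toFun := el j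
      map_add' := fun x y => by ext c; simp [el]
      map_smul' := fun r x => by ext c; simp [el] }

private theorem elY'_apply (j : Fin 2) (x : Y2) : elY' j x = el j x := rfl

private theorem elY'_single (i : Fin 2) (c : Fin 3) :
    elY' i (EuclideanSpace.single (i, c) (1 : ℝ)) = EuclideanSpace.single c (1 : ℝ) := by
  ext d
  rw [elY'_apply]
  simp [el]

private theorem elY'_single_ne {i j : Fin 2} (h : i ≠ j) (c : Fin 3) :
    elY' i (EuclideanSpace.single (j, c) (1 : ℝ)) = 0 := by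
  ext d
  rw [elY'_apply]
  simp [el, h]

private theorem elY'_half (c : Fin 3) :
    (elY' 0 - elY' 1) ((1 / 2 : ℝ) • (EuclideanSpace.single ((0 : Fin 2), c) (1 : ℝ) -
      EuclideanSpace.single ((1 : Fin 2), c) (1 : ℝ))) = EuclideanSpace.single c (1 : ℝ) := by
  rw [map_smul, map_sub, _root_.sub_apply, _root_.sub_apply,
    elY'_single, elY'_single, elY'_single_ne (by decide), elY'_single_ne (by decide)]
  module

/-- coercivity of the ion form, uniformly in `λ ≥ 0` -/
theorem bion_k2_coercive {D lam : ℝ} (hl : 0 ≤ lam) {k : Y2 → ℝ} {dk : Y2 → Y2} (hk : H1 k dk) :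
    ∫ ξ, ‖dk ξ‖ ^ 2 ≤ 4 * k2 D lam k dk k dk + 128 * ∫ ξ, k ξ ^ 2 := by
  have c0 := I.coulomb_le hk (elY' 0) _ (elY'_single 0) (nuc D) (show (0 : ℝ) < 1 / 8 by norm_num)
  have c1 := I.coulomb_le hk (elY' 0) _ (elY'_single 0) (nuc (-D))
    (show (0 : ℝ) < 1 / 8 by norm_num)
  have c2 := I.coulomb_le hk (elY' 1) _ (elY'_single 1) (nuc D) (show (0 : ℝ) < 1 / 8 by norm_num)
  have c3 := I.coulomb_le hk (elY' 1) _ (elY'_single 1) (nuc (-D))
    (show (0 : ℝ) < 1 / 8 by norm_num)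
  have c4 := I.coulomb_le hk (elY' 0 - elY' 1) _ elY'_half 0 (show (0 : ℝ) < 1 by norm_num)
  simp only [_root_.sub_apply, elY'_apply, sub_zero] at c0 c1 c2 c3 c4
  have hd : ∀ j : Fin 2, Integrable (fun x => ∑ c : Fin 3,
      (inner ℝ (dk x) (EuclideanSpace.single (j, c) (1 : ℝ))) ^ 2) := by
    intro j
    refine integrable_finset_sum _ fun c _ => ?_
    have hm : MemLp (fun x => inner ℝ (dk x) (EuclideanSpace.single (j, c) (1 : ℝ) : Y2)) 2
        volume := by
      refine hk.memg.of_le (hk.memg.1.inner aestronglyMeasurable_const)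
        (Eventually.of_forall fun x => ?_)
      refine (norm_inner_le_norm _ _).trans ?_
      simp
    exact hm.integrable_sq
  have hsum : (∫ x, ∑ c : Fin 3, (inner ℝ (dk x) (EuclideanSpace.single ((0 : Fin 2), c)
      (1 : ℝ))) ^ 2) + (∫ x, ∑ c : Fin 3, (inner ℝ (dk x)
      (EuclideanSpace.single ((1 : Fin 2), c) (1 : ℝ))) ^ 2) = ∫ x, ‖dk x‖ ^ 2 := by
    rw [← integral_add (hd 0) (hd 1)]
    congr 1
    funext x
    rw [EuclideanSpace.real_norm_sq_eq, Fintype.sum_prod_type, Fin.sum_univ_two]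
    simp only [EuclideanSpace.inner_single_right]
    simp
  have h4 : 0 ≤ ∫ x, k x ^ 2 / ‖el 0 x - el 1 x‖ := integral_nonneg fun x => by positivity
  have e : (∫ x, Vion D lam x * k x * k x) =
      -((∫ x, k x ^ 2 / ‖el 0 x - nuc D‖) + ∫ x, k x ^ 2 / ‖el 0 x - nuc (-D)‖) -
      ((∫ x, k x ^ 2 / ‖el 1 x - nuc D‖) + ∫ x, k x ^ 2 / ‖el 1 x - nuc (-D)‖) +
      lam * ∫ x, k x ^ 2 / ‖el 0 x - el 1 x‖ := by
    have p1 : Integrable (fun x : Y2 => -(k x ^ 2 / ‖el 0 x - nuc D‖ +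
        k x ^ 2 / ‖el 0 x - nuc (-D)‖)) := (c0.1.add c1.1).neg
    have p2 : Integrable (fun x : Y2 => k x ^ 2 / ‖el 1 x - nuc D‖ +
        k x ^ 2 / ‖el 1 x - nuc (-D)‖) := c2.1.add c3.1
    have p3 : Integrable (fun x : Y2 => -(k x ^ 2 / ‖el 0 x - nuc D‖ +
        k x ^ 2 / ‖el 0 x - nuc (-D)‖) - (k x ^ 2 / ‖el 1 x - nuc D‖ +
        k x ^ 2 / ‖el 1 x - nuc (-D)‖)) := p1.sub p2
    rw [← integral_add c0.1 c1.1, ← integral_add c2.1 c3.1, ← integral_neg, ← integral_const_mul,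
      ← integral_sub p1 p2, ← integral_add p3 (c4.1.const_mul lam)]
    congr 1
    funext x
    unfold Vion V2
    ring
  have e2 : (∫ x, inner ℝ (dk x) (dk x)) = ∫ x, ‖dk x‖ ^ 2 := by
    congr 1
    funext x
    exact real_inner_self_eq_norm_sq _
  unfold k2
  rw [e, e2]
  have h5 : 0 ≤ lam * ∫ x, k x ^ 2 / ‖el 0 x - el 1 x‖ := mul_nonneg hl h4
  have b0 := c0.2
  have b1 := c1.2
  have b2 := c2.2
  have b3 := c3.2
  norm_num at b0 b1 b2 b3
  linarith

end Crest.Agent.R335
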