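import Crest.Agent.R335.HZero
import Crest.Agent.R335.HProd

/-!
Row 335 (S0521): gap-Agmon estimate (Part B, section 2).

`QF V f g = ½∫|g|² + ∫ V f²`.  For a weak eigenfunction `Φ` with a spectral gap `γ` and a weight
`e^{a w}`, `a² |∇w|² ≤ γ`: `∫ e^{2aw}Φ² ≤ (16/3) sup_K e^{2aw}` if `∫_{Kᶜ}Φ² ≤ 1/16`, and
`e^{aw}Φ ∈ H¹`.
-/

set_option autoImplicit false
set_option linter.unusedSectionVars false

open MeasureTheory Filter Set
open scoped ENNReal Topology ContDiff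

noncomputable section
namespace Crest.Agent.R335

variable {ι : Type*} [Fintype ι] [DecidableEq ι]

local notation "E" => EuclideanSpace ℝ ι

/-- the quadratic form `½∫|g|² + ∫ V f²` -/
def QF (V f : E → ℝ) (g : E → E) : ℝ := (1 / 2) * (∫ x, ‖g x‖ ^ 2) + ∫ x, V x * f x ^ 2

theorem H1.sq_mul_bdd {f k : E → ℝ} {g l : E → E} (h : H1 f g) (h' : WG univ k l)
    {C : ℝ} (hk : ∀ x, |k x| ≤ C) (hl : ∀ x, ‖l x‖ ≤ C) :
    H1 (fun x => k x ^ 2 * f x) (fun x => (k x) ^ 2 • g x + (2 * k x * f x) • l x) := by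
  have h1 := (h.mul_bdd h' hk hl).mul_bdd h' hk hl
  refine h1.congr (Eventually.of_forall fun x => ?_) (Eventually.of_forall fun x => ?_)
  · simp only; ring
  · simp only
    rw [smul_add, smul_smul, smul_smul, ← sq, add_assoc, ← add_smul]
    congr 2
    ring

theorem H1.integrable_sq {f : E → ℝ} {g : E → E} (h : H1 f g) : Integrable (fun x => f x ^ 2) :=
  h.memf.integrable_sq

theorem H1.integrable_normsq {f : E → ℝ} {g : E → E} (h : H1 f g) :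
    Integrable (fun x => ‖g x‖ ^ 2) := h.memg.integrable_norm_pow (by norm_num)

/-- GA1: the form of `mΦ` for an eigenfunction `Φ` -/
theorem QF_mul_eig {V Φ : E → ℝ} {G : E → E} {e : ℝ} (h : H1 Φ G) {m : E → ℝ} {dm : E → E}
    (hm : WG univ m dm) {C : ℝ} (hk : ∀ x, |m x| ≤ C) (hl : ∀ x, ‖dm x‖ ≤ C)
    (hE : (1 / 2) * (∫ x, inner ℝ (G x) ((m x) ^ 2 • G x + (2 * m x * Φ x) • dm x)) +
      ∫ x, V x * (Φ x * (m x ^ 2 * Φ x)) = e * ∫ x, Φ x * (m x ^ 2 * Φ x)) :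
    QF V (fun x => m x * Φ x) (fun x => m x • G x + Φ x • dm x) =
      e * (∫ x, (m x * Φ x) ^ 2) + (1 / 2) * ∫ x, Φ x ^ 2 * ‖dm x‖ ^ 2 := by
  unfold QF
  rw [h.ims hm hk hl]
  have e2 : ∀ x, (m x * Φ x) ^ 2 = Φ x * (m x ^ 2 * Φ x) := fun x => by ring
  simp only [e2]
  linarith

/-- Cauchy–Schwarz -/
theorem HZ.cs {α : Type*} [MeasurableSpace α] {μ : Measure α} {f g : α → ℝ} (hf : MemLp f 2 μ)
    (hg : MemLp g 2 μ) : (∫ x, f x * g x ∂μ) ^ 2 ≤ (∫ x, f x ^ 2 ∂μ) * ∫ x, g x ^ 2 ∂μ := by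
  have h1 := real_inner_mul_inner_self_le (hf.toLp f) (hg.toLp g)
  rw [inner_toLp hf hg, inner_toLp hf hf, inner_toLp hg hg] at h1
  have e : ∀ a b : ℝ, inner ℝ a b = a * b := fun a b => by simp [mul_comm]
  simp only [e] at h1
  simpa [sq] using h1

/-- GA2, core inequality -/
theorem gap_agmon_core {V Φ : E → ℝ} {G : E → E} {e γ : ℝ} (hγ : 0 < γ) (h : H1 Φ G)
    {m : E → ℝ} {dm : E → E}
    (hm : WG univ m dm) {C : ℝ} (hk : ∀ x, |m x| ≤ C) (hl : ∀ x, ‖dm x‖ ≤ C)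
    (hE : (1 / 2) * (∫ x, inner ℝ (G x) ((m x) ^ 2 • G x + (2 * m x * Φ x) • dm x)) +
      ∫ x, V x * (Φ x * (m x ^ 2 * Φ x)) = e * ∫ x, Φ x * (m x ^ 2 * Φ x))
    (hgap : (e + γ) * (∫ x, (m x * Φ x) ^ 2) - γ * (∫ x, Φ x * (m x * Φ x)) ^ 2 ≤
      QF V (fun x => m x * Φ x) (fun x => m x • G x + Φ x • dm x))
    (hdm : ∀ᵐ x, ‖dm x‖ ^ 2 ≤ γ * m x ^ 2) :
    ∫ x, (m x * Φ x) ^ 2 ≤ 2 * (∫ x, Φ x * (m x * Φ x)) ^ 2 := by
  have h1 := QF_mul_eig h hm hk hl hE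
  have hI : Integrable (fun x => (m x * Φ x) ^ 2) := (h.mul_bdd hm hk hl).integrable_sq
  have h2 : ∫ x, Φ x ^ 2 * ‖dm x‖ ^ 2 ≤ γ * ∫ x, (m x * Φ x) ^ 2 := by
    rw [← integral_const_mul]
    refine integral_mono_of_nonneg (Eventually.of_forall fun x => by positivity)
      (hI.const_mul γ) ?_
    filter_upwards [hdm] with x hx
    calc Φ x ^ 2 * ‖dm x‖ ^ 2 ≤ Φ x ^ 2 * (γ * m x ^ 2) :=
          mul_le_mul_of_nonneg_left hx (sq_nonneg _)
      _ = γ * (m x * Φ x) ^ 2 := by ring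
  rw [h1] at hgap
  have h3 : γ * (∫ x, (m x * Φ x) ^ 2) - γ * (∫ x, Φ x * (m x * Φ x)) ^ 2 ≤
      (1 / 2) * (γ * ∫ x, (m x * Φ x) ^ 2) := by nlinarith
  have h4 : γ * (∫ x, (m x * Φ x) ^ 2) ≤ γ * (2 * (∫ x, Φ x * (m x * Φ x)) ^ 2) := by linarith
  exact le_of_mul_le_mul_left h4 hγ

/-- GA2, with the concentration set `K` -/
theorem gap_agmon_set {Φ m : E → ℝ} (hΦ : MemLp Φ 2 volume) (hmΦ : MemLp (fun x => m x * Φ x) 2
      volume) (h1 : ∫ x, Φ x ^ 2 = 1)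
    (hcore : ∫ x, (m x * Φ x) ^ 2 ≤ 2 * (∫ x, Φ x * (m x * Φ x)) ^ 2)
    {K : Set E} (hK : MeasurableSet K) {S : ℝ} (hS : 0 ≤ S) (hm0 : ∀ x, 0 ≤ m x)
    (hmS : ∀ x ∈ K, m x ≤ S)
    (hKc : ∫ x in Kᶜ, Φ x ^ 2 ≤ 1 / 16) :
    ∫ x, (m x * Φ x) ^ 2 ≤ (16 / 3) * S ^ 2 := by
  set y := ∫ x, (m x * Φ x) ^ 2 with hy
  have hy0 : 0 ≤ y := integral_nonneg fun x => sq_nonneg _
  have hi : Integrable (fun x => Φ x * (m x * Φ x)) := MemLp.integrable_mul hΦ hmΦ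
  have hsplit : ∫ x, Φ x * (m x * Φ x) =
      (∫ x in K, Φ x * (m x * Φ x)) + ∫ x in Kᶜ, Φ x * (m x * Φ x) :=
    (integral_add_compl hK hi).symm
  have hA : ∫ x in K, Φ x * (m x * Φ x) ≤ S := by
    calc ∫ x in K, Φ x * (m x * Φ x) ≤ ∫ x in K, S * Φ x ^ 2 := by
          refine setIntegral_mono_on hi.integrableOn ((hΦ.integrable_sq).const_mul S).integrableOn
            hK fun x hx => ?_
          have := mul_le_mul_of_nonneg_right (hmS x hx) (sq_nonneg (Φ x))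
          nlinarith
      _ ≤ ∫ x, S * Φ x ^ 2 :=
          setIntegral_le_integral ((hΦ.integrable_sq).const_mul S)
            (Eventually.of_forall fun x => by positivity)
      _ = S := by rw [integral_const_mul, h1, mul_one]
  have hA0 : 0 ≤ ∫ x, Φ x * (m x * Φ x) := by
    refine integral_nonneg fun x => ?_
    have := mul_nonneg (hm0 x) (sq_nonneg (Φ x))
    simp only [Pi.zero_apply]
    nlinarith
  have hB : (∫ x in Kᶜ, Φ x * (m x * Φ x)) ^ 2 ≤ (1 / 16) * y := by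
    have h3 : (∫ x in Kᶜ, Φ x * (m x * Φ x)) ^ 2 ≤
        (∫ x in Kᶜ, Φ x ^ 2) * ∫ x in Kᶜ, (m x * Φ x) ^ 2 :=
      HZ.cs (hΦ.restrict Kᶜ) (hmΦ.restrict Kᶜ)
    have h4 : ∫ x in Kᶜ, (m x * Φ x) ^ 2 ≤ y :=
      setIntegral_le_integral hmΦ.integrable_sq (Eventually.of_forall fun x => sq_nonneg _)
    have h5 : 0 ≤ ∫ x in Kᶜ, (m x * Φ x) ^ 2 := integral_nonneg fun x => sq_nonneg _
    calc _ ≤ _ := h3
      _ ≤ (1 / 16) * y := mul_le_mul hKc h4 h5 (by norm_num)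
  set A := ∫ x in K, Φ x * (m x * Φ x) with hAd
  set B := ∫ x in Kᶜ, Φ x * (m x * Φ x) with hBd
  have hA1 : 0 ≤ A := by
    refine integral_nonneg fun x => ?_
    have := mul_nonneg (hm0 x) (sq_nonneg (Φ x))
    simp only [Pi.zero_apply]
    nlinarith
  rw [hsplit] at hcore
  have h6 : (A + B) ^ 2 ≤ 2 * A ^ 2 + 2 * B ^ 2 := by nlinarith [sq_nonneg (A - B)]
  have h7 : A ^ 2 ≤ S ^ 2 := pow_le_pow_left₀ hA1 hA 2
  nlinarith

/-! ### the exponential weights -/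

/-- truncated exponential weight `e^{min(a w, n)}` -/
def ew (a : ℝ) (w : E → ℝ) (n : ℕ) (x : E) : ℝ := Real.exp (min (a * w x) n)

/-- its gradient -/
def dew (a : ℝ) (w : E → ℝ) (dw : E → E) (n : ℕ) (x : E) : E :=
  ew a w n x • (if a * w x < n then a • dw x else 0)

theorem ew_pos (a : ℝ) (w : E → ℝ) (n : ℕ) (x : E) : 0 < ew a w n x := Real.exp_pos _

theorem ew_le (a : ℝ) (w : E → ℝ) (n : ℕ) (x : E) : ew a w n x ≤ Real.exp n :=
  Real.exp_le_exp.2 (min_le_right _ _)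

theorem ew_le' (a : ℝ) (w : E → ℝ) (n : ℕ) (x : E) : ew a w n x ≤ Real.exp (a * w x) :=
  Real.exp_le_exp.2 (min_le_left _ _)

theorem GA.WG_constC (c : ℝ) : WG (univ : Set E) (fun _ => c) (fun _ => (0 : E)) := by
  have h := WG.of_contDiffOn (ι := ι) isOpen_univ (f := fun _ => c) contDiffOn_const
  have h0 : gr (fun _ : E => c) = fun _ => 0 := by
    funext x
    ext i
    simp [gr, pd]
  rwa [h0] at h

theorem WG.ew {w : E → ℝ} {dw : E → E} (hw : WG univ w dw) (a : ℝ) (n : ℕ) :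
    WG univ (ew a w n) (dew a w dw n) := by
  have h1 := WG.min isOpen_univ (WG.const_mul hw a isOpen_univ) (GA.WG_constC (ι := ι) (n : ℝ))
  have h2 := h1.comp_on isOpen_univ (F := Real.exp) (F' := Real.exp) (a := ⊥)
    (b := ((n : ℝ) : EReal)) (C := Real.exp n)
    (Eventually.of_forall fun x => ⟨bot_le, by exact_mod_cast min_le_right _ _⟩)
    (fun t _ _ => Real.hasDerivAt_exp t) Real.continuous_exp.continuousOn
    (fun t _ ht => by
      rw [abs_of_pos (Real.exp_pos _)]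
      exact Real.exp_le_exp.2 (by exact_mod_cast ht))
  exact h2

theorem norm_dew_le {w : E → ℝ} {dw : E → E} {L : ℝ} (hL : ∀ x, ‖dw x‖ ≤ L) {a : ℝ} (ha : 0 ≤ a)
    (n : ℕ) (x : E) : ‖dew a w dw n x‖ ≤ (a * L) * Crest.Agent.R335.ew a w n x := by
  have hL0 : 0 ≤ L := (norm_nonneg _).trans (hL x)
  unfold dew
  rw [norm_smul, Real.norm_eq_abs, abs_of_pos (ew_pos a w n x), mul_comm]
  refine mul_le_mul_of_nonneg_right ?_ (ew_pos a w n x).le
  split_ifs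
  · rw [norm_smul, Real.norm_eq_abs, abs_of_nonneg ha]
    exact mul_le_mul_of_nonneg_left (hL x) ha
  · rw [norm_zero]; positivity

theorem exists_ew_bound {w : E → ℝ} {dw : E → E} {L : ℝ} (hL : ∀ x, ‖dw x‖ ≤ L) {a : ℝ}
    (ha : 0 ≤ a) (n : ℕ) : ∃ C, (∀ x, |Crest.Agent.R335.ew a w n x| ≤ C) ∧
      ∀ x, ‖dew a w dw n x‖ ≤ C := by
  have hL0 : 0 ≤ L := (norm_nonneg _).trans (hL 0)
  refine ⟨Real.exp n + (a * L) * Real.exp n, fun x => ?_, fun x => ?_⟩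
  · rw [abs_of_pos (ew_pos a w n x)]
    exact (ew_le a w n x).trans (le_add_of_nonneg_right (by positivity))
  · refine (norm_dew_le hL ha n x).trans ?_
    refine (mul_le_mul_of_nonneg_left (ew_le a w n x) (by positivity)).trans ?_
    exact le_add_of_nonneg_left (Real.exp_pos _).le

/-- the data of the gap-Agmon estimate -/
structure GapEig (V Φ : E → ℝ) (G : E → E) (e γ : ℝ) (w : E → ℝ) (dw : E → E) (a L : ℝ) :
    Prop where
  h1 : H1 Φ G
  norm1 : ∫ x, Φ x ^ 2 = 1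
  hγ : 0 < γ
  hw : WG univ w dw
  hL : ∀ x, ‖dw x‖ ≤ L
  ha : 0 ≤ a
  haL : (a * L) ^ 2 ≤ γ
  /-- the weak equation, tested with `m²Φ` -/
  weak : ∀ n : ℕ, (1 / 2) * (∫ x, inner ℝ (G x) ((ew a w n x) ^ 2 • G x +
      (2 * ew a w n x * Φ x) • dew a w dw n x)) +
      ∫ x, V x * (Φ x * (ew a w n x ^ 2 * Φ x)) = e * ∫ x, Φ x * (ew a w n x ^ 2 * Φ x)
  /-- the gap inequality for `mΦ` -/
  gap : ∀ n : ℕ, (e + γ) * (∫ x, (ew a w n x * Φ x) ^ 2) -
      γ * (∫ x, Φ x * (ew a w n x * Φ x)) ^ 2 ≤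
      QF V (fun x => ew a w n x * Φ x) (fun x => ew a w n x • G x + Φ x • dew a w dw n x)

theorem GapEig.h1m {V Φ : E → ℝ} {G : E → E} {e γ : ℝ} {w : E → ℝ} {dw : E → E} {a L : ℝ}
    (H : GapEig V Φ G e γ w dw a L) (n : ℕ) :
    H1 (fun x => ew a w n x * Φ x) (fun x => ew a w n x • G x + Φ x • dew a w dw n x) := by
  obtain ⟨C, h1, h2⟩ := exists_ew_bound (w := w) H.hL H.ha n
  exact H.h1.mul_bdd (H.hw.ew a n) h1 h2

theorem GapEig.bound_n {V Φ : E → ℝ} {G : E → E} {e γ : ℝ} {w : E → ℝ} {dw : E → E} {a L : ℝ}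
    (H : GapEig V Φ G e γ w dw a L) {K : Set E} (hK : MeasurableSet K) {M : ℝ}
    (hKw : ∀ x ∈ K, w x ≤ M) (hKc : ∫ x in Kᶜ, Φ x ^ 2 ≤ 1 / 16) (n : ℕ) :
    ∫ x, (ew a w n x * Φ x) ^ 2 ≤ (16 / 3) * Real.exp (a * M) ^ 2 := by
  obtain ⟨C, h1, h2⟩ := exists_ew_bound (w := w) H.hL H.ha n
  refine gap_agmon_set H.h1.memf (H.h1m n).memf H.norm1 ?_ hK (Real.exp_pos _).le
    (fun x => (ew_pos a w n x).le) (fun x hx => ?_) hKc
  · refine gap_agmon_core H.hγ H.h1 (H.hw.ew a n) h1 h2 (H.weak n) (H.gap n)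
      (Eventually.of_forall fun x => ?_)
    calc ‖dew a w dw n x‖ ^ 2 ≤ ((a * L) * ew a w n x) ^ 2 :=
          pow_le_pow_left₀ (norm_nonneg _) (norm_dew_le H.hL H.ha n x) 2
      _ = (a * L) ^ 2 * ew a w n x ^ 2 := by ring
      _ ≤ γ * ew a w n x ^ 2 := mul_le_mul_of_nonneg_right H.haL (sq_nonneg _)
  · refine (ew_le' a w n x).trans (Real.exp_le_exp.2 ?_)
    exact mul_le_mul_of_nonneg_left (hKw x hx) H.ha

theorem tendsto_ew (a : ℝ) (w : E → ℝ) (x : E) :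
    Tendsto (fun n => ew a w n x) atTop (𝓝 (Real.exp (a * w x))) := by
  refine tendsto_const_nhds.congr' ?_
  filter_upwards [eventually_ge_atTop (⌈a * w x⌉₊)] with n hn
  unfold ew
  rw [min_eq_left ((Nat.le_ceil _).trans (by exact_mod_cast hn))]

/-- GA2: exponential decay in `L²` -/
theorem GapEig.exp_bound {V Φ : E → ℝ} {G : E → E} {e γ : ℝ} {w : E → ℝ} {dw : E → E} {a L : ℝ}
    (H : GapEig V Φ G e γ w dw a L) {K : Set E} (hK : MeasurableSet K)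
    {M : ℝ} (hKw : ∀ x ∈ K, w x ≤ M) (hKc : ∫ x in Kᶜ, Φ x ^ 2 ≤ 1 / 16) :
    MemLp (fun x => Real.exp (a * w x) * Φ x) 2 volume ∧
      ∫ x, (Real.exp (a * w x) * Φ x) ^ 2 ≤ (16 / 3) * Real.exp (a * M) ^ 2 := by
  have hb := H.bound_n hK hKw hKc
  have hwm : AEStronglyMeasurable w volume := (WG.aesm H.hw).1
  have hm : AEStronglyMeasurable (fun x => Real.exp (a * w x) * Φ x) volume :=
    (Real.continuous_exp.comp_aestronglyMeasurable (hwm.const_mul a)).mul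
      H.h1.memf.aestronglyMeasurable
  have hlim : ∀ x, Tendsto (fun n => (ew a w n x * Φ x) ^ 2) atTop
      (𝓝 ((Real.exp (a * w x) * Φ x) ^ 2)) := fun x =>
    ((tendsto_ew a w x).mul_const _).pow 2
  have hF : ∫⁻ x, ENNReal.ofReal ((Real.exp (a * w x) * Φ x) ^ 2) ≤
      ENNReal.ofReal ((16 / 3) * Real.exp (a * M) ^ 2) := by
    have h2 : ∫⁻ x, ENNReal.ofReal ((Real.exp (a * w x) * Φ x) ^ 2) ≤
        liminf (fun n => ∫⁻ x, ENNReal.ofReal ((ew a w n x * Φ x) ^ 2)) atTop := by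
      have h3 : ∀ x, ENNReal.ofReal ((Real.exp (a * w x) * Φ x) ^ 2) =
          liminf (fun n => ENNReal.ofReal ((ew a w n x * Φ x) ^ 2)) atTop := fun x =>
        ((ENNReal.continuous_ofReal.tendsto _).comp (hlim x)).liminf_eq.symm
      calc _ = ∫⁻ x, liminf (fun n => ENNReal.ofReal ((ew a w n x * Φ x) ^ 2)) atTop :=
            lintegral_congr h3
        _ ≤ _ := lintegral_liminf_le' fun n =>
          ((H.h1m n).memf.aestronglyMeasurable.pow 2).aemeasurable.ennreal_ofReal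
    refine h2.trans ?_
    refine liminf_le_of_frequently_le' (Frequently.of_forall fun n => ?_)
    rw [← ofReal_integral_eq_lintegral_ofReal (H.h1m n).integrable_sq
      (Eventually.of_forall fun x => sq_nonneg _)]
    exact ENNReal.ofReal_le_ofReal (hb n)
  have hint : Integrable (fun x => (Real.exp (a * w x) * Φ x) ^ 2) := by
    refine ⟨hm.pow 2, ?_⟩
    rw [hasFiniteIntegral_iff_ofReal (Eventually.of_forall fun x => sq_nonneg _)]
    exact hF.trans_lt ENNReal.ofReal_lt_top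
  refine ⟨(memLp_two_iff_integrable_sq hm).2 hint, ?_⟩
  rw [integral_eq_lintegral_of_nonneg_ae (Eventually.of_forall fun x => sq_nonneg _)
    (hm.pow 2)]
  exact ENNReal.toReal_le_of_le_ofReal (by positivity) hF

theorem GapEig.QF_le {V Φ : E → ℝ} {G : E → E} {e γ : ℝ} {w : E → ℝ} {dw : E → E} {a L : ℝ}
    (H : GapEig V Φ G e γ w dw a L) (n : ℕ) :
    QF V (fun x => ew a w n x * Φ x) (fun x => ew a w n x • G x + Φ x • dew a w dw n x) ≤
      (e + γ / 2) * ∫ x, (ew a w n x * Φ x) ^ 2 := by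
  obtain ⟨C, h1, h2⟩ := exists_ew_bound (w := w) H.hL H.ha n
  rw [QF_mul_eig H.h1 (H.hw.ew a n) h1 h2 (H.weak n)]
  have h3 : ∫ x, Φ x ^ 2 * ‖dew a w dw n x‖ ^ 2 ≤ γ * ∫ x, (ew a w n x * Φ x) ^ 2 := by
    rw [← integral_const_mul]
    refine integral_mono_of_nonneg (Eventually.of_forall fun x => by positivity)
      ((H.h1m n).integrable_sq.const_mul γ) (Eventually.of_forall fun x => ?_)
    have h4 : ‖dew a w dw n x‖ ^ 2 ≤ γ * ew a w n x ^ 2 := by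
      calc ‖dew a w dw n x‖ ^ 2 ≤ ((a * L) * ew a w n x) ^ 2 :=
            pow_le_pow_left₀ (norm_nonneg _) (norm_dew_le H.hL H.ha n x) 2
        _ = (a * L) ^ 2 * ew a w n x ^ 2 := by ring
        _ ≤ γ * ew a w n x ^ 2 := mul_le_mul_of_nonneg_right H.haL (sq_nonneg _)
    calc Φ x ^ 2 * ‖dew a w dw n x‖ ^ 2 ≤ Φ x ^ 2 * (γ * ew a w n x ^ 2) :=
          mul_le_mul_of_nonneg_left h4 (sq_nonneg _)
      _ = γ * (ew a w n x * Φ x) ^ 2 := by ring
  linarith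

/-- GA2': `e^{aw}Φ ∈ H¹` -/
theorem GapEig.h1_exp {V Φ : E → ℝ} {G : E → E} {e γ : ℝ} {w : E → ℝ} {dw : E → E} {a L : ℝ}
    (H : GapEig V Φ G e γ w dw a L) {K : Set E} (hK : MeasurableSet K)
    {M : ℝ} (hKw : ∀ x ∈ K, w x ≤ M) (hKc : ∫ x in Kᶜ, Φ x ^ 2 ≤ 1 / 16)
    {c C0 : ℝ} (hc : 0 < c) (hC0 : 0 ≤ C0)
    (hco : ∀ n, c * (∫ x, ‖ew a w n x • G x + Φ x • dew a w dw n x‖ ^ 2) ≤
      QF V (fun x => ew a w n x * Φ x) (fun x => ew a w n x • G x + Φ x • dew a w dw n x) +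
        C0 * ∫ x, (ew a w n x * Φ x) ^ 2) :
    H1 (fun x => Real.exp (a * w x) * Φ x)
      (fun x => Real.exp (a * w x) • G x + (a * (Real.exp (a * w x) * Φ x)) • dw x) ∧
    ∫ x, ‖Real.exp (a * w x) • G x + (a * (Real.exp (a * w x) * Φ x)) • dw x‖ ^ 2 ≤
      (|e| + γ / 2 + C0) / c * ((16 / 3) * Real.exp (a * M) ^ 2) := by
  obtain ⟨hmem, -⟩ := H.exp_bound hK hKw hKc
  have hb := H.bound_n hK hKw hKc
  have hγ := H.hγ
  have hgr : ∀ n, ∫ x, ‖ew a w n x • G x + Φ x • dew a w dw n x‖ ^ 2 ≤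
      (|e| + γ / 2 + C0) / c * ((16 / 3) * Real.exp (a * M) ^ 2) := by
    intro n
    have h1 := hco n
    have h2 := H.QF_le n
    have h3 := hb n
    have h0 : 0 ≤ ∫ x, (ew a w n x * Φ x) ^ 2 := integral_nonneg fun x => sq_nonneg _
    have h4 : (e + γ / 2) * (∫ x, (ew a w n x * Φ x) ^ 2) ≤
        (|e| + γ / 2) * ∫ x, (ew a w n x * Φ x) ^ 2 :=
      mul_le_mul_of_nonneg_right (by linarith [le_abs_self e]) h0
    have h5 : c * (∫ x, ‖ew a w n x • G x + Φ x • dew a w dw n x‖ ^ 2) ≤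
        (|e| + γ / 2 + C0) * ((16 / 3) * Real.exp (a * M) ^ 2) := by
      calc _ ≤ (|e| + γ / 2 + C0) * ∫ x, (ew a w n x * Φ x) ^ 2 := by linarith
        _ ≤ _ := mul_le_mul_of_nonneg_left h3 (by positivity)
    rw [div_mul_eq_mul_div, le_div_iff₀ hc]
    linarith
  have hlim : Tendsto (fun n => eLpNorm (fun x => ew a w n x * Φ x - Real.exp (a * w x) * Φ x) 2
      volume) atTop (𝓝 0) := by
    refine HZ.tendsto_two_of_dominated (b := fun x => ‖Real.exp (a * w x) * Φ x‖)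
      (fun n => (H.h1m n).memf.aestronglyMeasurable.sub hmem.aestronglyMeasurable) hmem.norm
      (fun n => Eventually.of_forall fun x => ?_) (Eventually.of_forall fun x => ?_)
    · rw [← sub_mul, norm_mul, norm_mul]
      refine mul_le_mul_of_nonneg_right ?_ (norm_nonneg _)
      rw [Real.norm_eq_abs, Real.norm_eq_abs, abs_of_pos (Real.exp_pos _), abs_le]
      constructor
      · linarith [ew_pos a w n x]
      · linarith [ew_le' a w n x, Real.exp_pos (a * w x)]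
    · have h1 := ((tendsto_ew a w x).mul_const (Φ x)).sub_const (Real.exp (a * w x) * Φ x)
      rwa [sub_self] at h1
  obtain ⟨g, hg, hgb⟩ := H1.of_bounded (fun n => H.h1m n) hmem hlim hgr
  have hae : ∀ᵐ x, g x = Real.exp (a * w x) • G x + (a * (Real.exp (a * w x) * Φ x)) • dw x := by
    have h1 : ∀ n : ℕ, ∀ᵐ x, (ew a w n x * Φ x - Real.exp (a * w x) * Φ x) = 0 →
        (ew a w n x • G x + Φ x • dew a w dw n x) - g x = 0 := by
      intro n
      have := ((H.h1m n).sub hg).wg.zero_of_level isOpen_univ 0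
      rwa [Measure.restrict_univ] at this
    filter_upwards [ae_all_iff.2 h1] with x hx
    obtain ⟨n, hn⟩ := exists_nat_gt (a * w x)
    have h2 : ew a w n x = Real.exp (a * w x) := by
      unfold ew
      rw [min_eq_left hn.le]
    have h3 := hx n (by rw [h2, sub_self])
    have h4 : g x = ew a w n x • G x + Φ x • dew a w dw n x := (sub_eq_zero.1 h3).symm
    rw [h4]
    unfold dew
    rw [h2, if_pos hn, smul_smul, smul_smul]
    congr 2
    ring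
  refine ⟨hg.congr ae_eq_rfl hae, ?_⟩
  refine le_trans (le_of_eq ?_) hgb
  refine integral_congr_ae ?_
  filter_upwards [hae] with x hx
  rw [hx]

end Crest.Agent.R335
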