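import Crest.Agent.R335.BIonY
import Crest.Agent.R335.GAgmon

/-!
Row 335 (S0521): ions, weights of the ion states (helper459).
-/

set_option autoImplicit false
set_option linter.unusedSectionVars false
set_option linter.unusedVariables false

open MeasureTheory Filter Set Crest.MathPhysics.ThreeBody
open scoped ENNReal Topology ContDiff

noncomputable section
namespace Crest.Agent.R335

private theorem el_sub (j : Fin 2) (ξ η : Y2) : el j ξ - el j η = el j (ξ - η) := by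
  ext c
  simp [el]

private theorem norm_el_le (j : Fin 2) (ξ : Y2) : ‖el j ξ‖ ≤ ‖ξ‖ := by
  fin_cases j
  · show ‖el 0 ξ‖ ≤ _
    rw [el_zero]; exact norm_pr1_le p6 ξ
  · show ‖el 1 ξ‖ ≤ _
    rw [el_one]; exact norm_pr2_le p6 ξ

theorem wi_lip : LipschitzWith 2 wi := by
  refine LipschitzWith.of_dist_le_mul fun ξ η => ?_
  rw [Real.dist_eq, dist_eq_norm]
  have h0 := jb_lip (el 0 ξ) (el 0 η)
  have h1 := jb_lip (el 1 ξ) (el 1 η)
  rw [el_sub] at h0 h1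
  have e0 := norm_el_le 0 (ξ - η)
  have e1 := norm_el_le 1 (ξ - η)
  have e2 : wi ξ - wi η = (jb (el 0 ξ) - jb (el 0 η)) + (jb (el 1 ξ) - jb (el 1 η)) := by
    unfold wi; ring
  rw [e2]
  refine (abs_add_le _ _).trans ?_
  rw [NNReal.coe_ofNat]
  linarith

private theorem el_sxi_zero (ξ : Y2) : el 0 (sxi ξ) = el 1 ξ := by
  ext c
  show sxi ξ (0, c) = ξ (1, c)
  rw [sxi_apply]
  simp

private theorem el_sxi_one (ξ : Y2) : el 1 (sxi ξ) = el 0 ξ := by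
  ext c
  show sxi ξ (1, c) = ξ (0, c)
  rw [sxi_apply]
  simp

private theorem el_rxi (j : Fin 2) (ξ : Y2) : el j (rxi ξ) = rz (el j ξ) := by
  ext c
  show rxi ξ (j, c) = rz (el j ξ) c
  rw [rxi_apply, rz_apply]
  rfl

private theorem jb_rz (y : Pos3) : jb (rz y) = jb y := by
  unfold jb
  rw [LinearIsometryEquiv.norm_map]

private theorem wi_sxi (ξ : Y2) : wi (sxi ξ) = wi ξ := by
  unfold wi
  rw [el_sxi_zero, el_sxi_one, add_comm]

private theorem wi_rxi (ξ : Y2) : wi (rxi ξ) = wi ξ := by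
  unfold wi
  rw [el_rxi, el_rxi, jb_rz, jb_rz]

theorem k2_eq_QF (D lam : ℝ) (f : Y2 → ℝ) (g : Y2 → Y2) :
    k2 D lam f g f g = QF (Vion D lam) f g := by
  unfold k2 QF
  congr 1
  · congr 2
    funext x
    exact real_inner_self_eq_norm_sq _
  · congr 1
    funext x
    ring

/-- the data of the gap-Agmon estimate for an ion channel -/
theorem IonCh.gapEig {D lam σ π e gap : ℝ} {Φ : Y2 → ℝ} {dΦ : Y2 → Y2}
    (h : IonCh D lam σ π e gap Φ dΦ) (hn : ∫ ξ, Φ ξ ^ 2 = 1) (hgap : 0 < gap) {a : ℝ}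
    (ha : 0 ≤ a) (haL : (a * 2) ^ 2 ≤ gap) :
    GapEig (Vion D lam) Φ dΦ e gap wi (gr wi) a 2 := by
  obtain ⟨w1, w2⟩ := WG.of_lipschitz wi_lip
  have w2' : ∀ x, ‖gr wi x‖ ≤ 2 := fun x => by
    have := w2 x
    rwa [NNReal.coe_ofNat] at this
  refine ⟨h.h1, hn, hgap, w1, w2', ha, haL, fun n => ?_, fun n => ?_⟩
  · obtain ⟨C, b1, b2⟩ := exists_ew_bound (w := wi) w2' ha n
    have := h.eq _ _ (H1.sq_mul_bdd h.h1 (WG.ew w1 a n) b1 b2)
    unfold k2 at this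
    have e1 : (∫ x, Vion D lam x * (Φ x * (ew a wi n x ^ 2 * Φ x))) =
        ∫ x, Vion D lam x * Φ x * (ew a wi n x ^ 2 * Φ x) := by
      congr 1; funext x; ring
    rw [e1]
    exact this
  · obtain ⟨C, b1, b2⟩ := exists_ew_bound (w := wi) w2' ha n
    have hm := H1.mul_bdd h.h1 (WG.ew w1 a n) b1 b2
    have e1 : ∀ ξ, ew a wi n (sxi ξ) = ew a wi n ξ := fun ξ => by
      unfold ew; rw [wi_sxi]
    have e2 : ∀ ξ, ew a wi n (rxi ξ) = ew a wi n ξ := fun ξ => by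
      unfold ew; rw [wi_rxi]
    have := h.spec _ _ hm
      (Eventually.of_forall fun ξ => by
        show ew a wi n (sxi ξ) * Φ (sxi ξ) = σ * (ew a wi n ξ * Φ ξ)
        rw [e1, h.ex]; ring)
      (Eventually.of_forall fun ξ => by
        show ew a wi n (rxi ξ) * Φ (rxi ξ) = π * (ew a wi n ξ * Φ ξ)
        rw [e2, h.par]; ring)
    rw [k2_eq_QF] at this
    linarith

/-- `‖α + β‖²`-type splitting `(α + β)² ≤ (3/2) α² + 3 β²` -/
private theorem sq_split (α β : ℝ) : (α + β) ^ 2 ≤ 3 / 2 * α ^ 2 + 3 * β ^ 2 := by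
  nlinarith [sq_nonneg (α - 2 * β)]

/-- Chebyshev: the mass of `φ` on `{wi > M}` -/
theorem mass_far {b A0 A1 A2 M : ℝ} {φ : Y2 → ℝ} (hb : 0 ≤ b) (hM : 0 < M)
    (hφ : MemLp φ 2 volume) (h : YW b A0 A1 A2 φ) :
    ∫ ξ in {ξ | wi ξ ≤ M}ᶜ, φ ξ ^ 2 ≤ A1 / M ^ 2 := by
  have mS : MeasurableSet {ξ : Y2 | wi ξ ≤ M} := (isClosed_le continuous_wi
    continuous_const).measurableSet
  rw [le_div_iff₀ (by positivity), mul_comm, ← integral_const_mul]
  refine le_trans ?_ h.b1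
  rw [← integral_indicator mS.compl]
  refine integral_mono_of_nonneg (Eventually.of_forall fun x =>
        indicator_nonneg (fun y _ => by positivity) x) h.i1.integrable_sq
        (Eventually.of_forall fun x => ?_)
  show indicator {ξ | wi ξ ≤ M}ᶜ (fun ξ => M ^ 2 * φ ξ ^ 2) x ≤
    (wi x * Real.exp (b * wi x) * φ x) ^ 2
  by_cases hx : wi x ≤ M
  · rw [indicator_of_notMem (show x ∉ {ξ | wi ξ ≤ M}ᶜ from fun h' => h' hx)]
    positivity
  · rw [indicator_of_mem (show x ∈ {ξ | wi ξ ≤ M}ᶜ from hx)]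
    have h1 : M ≤ wi x := (not_le.1 hx).le
    have h2 : 1 ≤ Real.exp (b * wi x) := Real.one_le_exp (mul_nonneg hb (wi_pos x).le)
    have h3 : M ≤ wi x * Real.exp (b * wi x) := by
      nlinarith [wi_pos x]
    calc M ^ 2 * φ x ^ 2 ≤ (wi x * Real.exp (b * wi x)) ^ 2 * φ x ^ 2 :=
          mul_le_mul_of_nonneg_right (pow_le_pow_left₀ hM.le h3 2) (sq_nonneg _)
      _ = _ := by ring

/-- `w^4 e^{4aw} ≤ (24/(2a)^4) e^{6aw}` -/
theorem wi_pow_le {a : ℝ} (ha : 0 < a) (ξ : Y2) :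
    wi ξ ^ 4 * Real.exp (4 * a * wi ξ) ≤ 24 / (2 * a) ^ 4 * Real.exp (6 * a * wi ξ) := by
  have hw := wi_pos ξ
  have h1 : (2 * a * wi ξ) ^ 4 / 24 ≤ Real.exp (2 * a * wi ξ) := by
    have := Real.pow_div_factorial_le_exp (x := 2 * a * wi ξ) (by positivity) 4
    simpa [Nat.factorial] using this
  have h2 : wi ξ ^ 4 ≤ 24 / (2 * a) ^ 4 * Real.exp (2 * a * wi ξ) := by
    rw [div_mul_eq_mul_div, le_div_iff₀ (by positivity)]
    rw [div_le_iff₀ (by norm_num)] at h1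
    calc wi ξ ^ 4 * (2 * a) ^ 4 = (2 * a * wi ξ) ^ 4 := by ring
      _ ≤ _ := h1
      _ = _ := by ring
  calc wi ξ ^ 4 * Real.exp (4 * a * wi ξ) ≤
      24 / (2 * a) ^ 4 * Real.exp (2 * a * wi ξ) * Real.exp (4 * a * wi ξ) :=
        mul_le_mul_of_nonneg_right h2 (Real.exp_pos _).le
    _ = _ := by
      rw [mul_assoc, ← Real.exp_add]
      congr 2
      ring

/-- interpolation: weighted bound of a small function -/
theorem interp {a T S : ℝ} {δ : Y2 → ℝ} (ha : 0 < a) (hδ : MemLp δ 2 volume)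
    (h6 : MemLp (fun ξ => Real.exp (6 * a * wi ξ) * δ ξ) 2 volume) (hT : 0 ≤ T)
    (hS0 : 0 ≤ S) (hS : ∫ ξ, δ ξ ^ 2 ≤ S ^ 2)
    (h6b : ∫ ξ, (Real.exp (6 * a * wi ξ) * δ ξ) ^ 2 ≤ T ^ 2) {W : Y2 → ℝ}
    (hW : Measurable W) (hW0 : ∀ ξ, 0 ≤ W ξ) (hW1 : ∀ ξ, W ξ ≤ wi ξ ^ 2) :
    MemLp (fun ξ => W ξ * Real.exp (2 * a * wi ξ) * δ ξ) 2 volume ∧
      ∫ ξ, (W ξ * Real.exp (2 * a * wi ξ) * δ ξ) ^ 2 ≤ 24 / (2 * a) ^ 4 * (S * T) := by
  have mw := continuous_wi.measurable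
  have me : Measurable (fun ξ => Real.exp (2 * a * wi ξ)) :=
    Real.measurable_exp.comp (mw.const_mul (2 * a))
  have hm : AEStronglyMeasurable (fun ξ => W ξ * Real.exp (2 * a * wi ξ) * δ ξ) volume :=
    (hW.mul me).aestronglyMeasurable.mul hδ.1
  have pt : ∀ ξ, (W ξ * Real.exp (2 * a * wi ξ) * δ ξ) ^ 2 ≤
      24 / (2 * a) ^ 4 * (|δ ξ| * |Real.exp (6 * a * wi ξ) * δ ξ|) := by
    intro ξ
    have h1 : W ξ ^ 2 ≤ wi ξ ^ 4 := by
      calc W ξ ^ 2 ≤ (wi ξ ^ 2) ^ 2 := pow_le_pow_left₀ (hW0 ξ) (hW1 ξ) 2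
        _ = _ := by ring
    have h2 := wi_pow_le ha ξ
    have e1 : Real.exp (2 * a * wi ξ) ^ 2 = Real.exp (4 * a * wi ξ) := by
      rw [← Real.exp_nat_mul]
      congr 1
      push_cast
      ring
    calc (W ξ * Real.exp (2 * a * wi ξ) * δ ξ) ^ 2 =
        W ξ ^ 2 * Real.exp (4 * a * wi ξ) * δ ξ ^ 2 := by rw [← e1]; ring
      _ ≤ wi ξ ^ 4 * Real.exp (4 * a * wi ξ) * δ ξ ^ 2 := by
        refine mul_le_mul_of_nonneg_right (mul_le_mul_of_nonneg_right h1 (Real.exp_pos _).le)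
          (sq_nonneg _)
      _ ≤ 24 / (2 * a) ^ 4 * Real.exp (6 * a * wi ξ) * δ ξ ^ 2 :=
        mul_le_mul_of_nonneg_right h2 (sq_nonneg _)
      _ = _ := by
        rw [abs_mul, abs_of_pos (Real.exp_pos _), ← sq_abs (δ ξ)]
        ring
  have ip : Integrable (fun ξ => 24 / (2 * a) ^ 4 *
      (|δ ξ| * |Real.exp (6 * a * wi ξ) * δ ξ|)) :=
    (hδ.abs.integrable_mul h6.abs).const_mul _
  have ii : Integrable (fun ξ => (W ξ * Real.exp (2 * a * wi ξ) * δ ξ) ^ 2) :=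
    ip.mono' (hm.pow 2) (Eventually.of_forall fun ξ => by
      rw [Real.norm_eq_abs, abs_of_nonneg (sq_nonneg _)]; exact pt ξ)
  refine ⟨(memLp_two_iff_integrable_sq hm).2 ii, ?_⟩
  refine (integral_mono ii ip pt).trans ?_
  rw [integral_const_mul]
  refine mul_le_mul_of_nonneg_left ?_ (by positivity)
  have hcs := HZ.cs (f := fun ξ => |δ ξ|) (g := fun ξ => |Real.exp (6 * a * wi ξ) * δ ξ|)
    hδ.abs h6.abs
  simp only [sq_abs] at hcs
  have hp : (∫ ξ, |δ ξ| * |Real.exp (6 * a * wi ξ) * δ ξ|) ^ 2 ≤ (S * T) ^ 2 := by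
    refine hcs.trans ?_
    rw [mul_pow]
    exact mul_le_mul hS h6b (integral_nonneg fun ξ => sq_nonneg _) (sq_nonneg _)
  exact (abs_le_of_sq_le_sq' hp (mul_nonneg hS0 hT)).2

/-- ION WEIGHTS: from the distance to the product state and the gap to `IonW` -/
theorem IonSt.ionW {C D a M lam σ π e gap K : ℝ} {φ Φ : Y2 → ℝ} {dφ dΦ : Y2 → Y2}
    (hC : 1 ≤ C) (hD : 1 ≤ D) (ha : 0 < a) (haD : 6 * a * (32 * (C * D)) ≤ 1)
    (hgap : 0 < gap) (hgap1 : gap ≤ 1) (hag : (6 * a * 2) ^ 2 ≤ gap) (he : |e| ≤ 4) (hM : 0 ≤ M)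
    (hlam : 0 ≤ lam) (hK : 0 ≤ K)
    (hst : IonSt D lam σ π e gap K φ dφ Φ dΦ) (hφ : MemLp φ 2 volume)
    (h2 : YW (2 * a) (5 / 2) (10 * (C * D) ^ 2) (34 * (C * D) ^ 4) φ)
    (h6 : YW (6 * a) (5 / 2) (10 * (C * D) ^ 2) (34 * (C * D) ^ 4) φ)
    (hco : ∀ k dk, H1 k dk → ∫ ξ, ‖dk ξ‖ ^ 2 ≤ 4 * k2 D lam k dk k dk + M * ∫ ξ, k ξ ^ 2)
    (hsm : K * lam ≤ 1 / 8) (hsm2 : 24 / (2 * a) ^ 4 * ((K * lam) * 11) ≤ 1 / 16) :
    IonW (4 * C) D (60 + (40 + M) * 40) a Φ := by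
  have hCD : 1 ≤ C * D := by nlinarith
  set R := 32 * (C * D) with hR
  have hR0 : 0 < R := by rw [hR]; linarith
  have mS : MeasurableSet {ξ : Y2 | wi ξ ≤ R} := (isClosed_le continuous_wi
    continuous_const).measurableSet
  have hΦ := hst.ch.h1.memf
  have hδ : MemLp (fun ξ => Φ ξ - φ ξ) 2 volume := hΦ.sub hφ
  have iφ := hφ.integrable_sq
  have iδ := hδ.integrable_sq
  have hS0 : 0 ≤ K * lam := mul_nonneg hK hlam
  -- mass far away
  have far : ∫ ξ in {ξ | wi ξ ≤ R}ᶜ, Φ ξ ^ 2 ≤ 1 / 16 := by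
    have f1 := mass_far (b := 2 * a) (by linarith) hR0 hφ h2
    have f2 : 10 * (C * D) ^ 2 / R ^ 2 = 10 / 1024 := by
      rw [hR]
      field_simp
      norm_num
    rw [f2] at f1
    have f3 : ∫ ξ in {ξ | wi ξ ≤ R}ᶜ, (Φ ξ - φ ξ) ^ 2 ≤ (1 / 8) ^ 2 := by
      refine (setIntegral_le_integral iδ (Eventually.of_forall fun ξ => sq_nonneg _)).trans ?_
      exact hst.cl.trans (pow_le_pow_left₀ hS0 hsm 2)
    have f4 : ∫ ξ in {ξ | wi ξ ≤ R}ᶜ, Φ ξ ^ 2 ≤ ∫ ξ in {ξ | wi ξ ≤ R}ᶜ,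
        (2 * φ ξ ^ 2 + 2 * (Φ ξ - φ ξ) ^ 2) := by
      refine integral_mono hΦ.integrable_sq.integrableOn
        ((iφ.const_mul 2).add (iδ.const_mul 2)).integrableOn fun ξ => ?_
      simp only [Pi.add_apply]
      nlinarith [sq_nonneg (φ ξ - (Φ ξ - φ ξ))]
    rw [integral_add (iφ.const_mul 2).integrableOn (iδ.const_mul 2).integrableOn,
      integral_const_mul, integral_const_mul] at f4
    linarith
  have hwK : ∀ x ∈ {ξ : Y2 | wi ξ ≤ R}, wi x ≤ R := fun x hx => hx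
  have hexp1 : Real.exp 1 ^ 2 ≤ 15 / 2 := by
    have h1 := Real.exp_one_lt_d9
    have h0 := Real.exp_pos 1
    nlinarith
  have hE : ∀ b : ℝ, b * R ≤ 1 → (16 / 3 : ℝ) * Real.exp (b * R) ^ 2 ≤ 40 := by
    intro b hb
    have h1 : Real.exp (b * R) ^ 2 ≤ Real.exp 1 ^ 2 :=
      pow_le_pow_left₀ (Real.exp_pos _).le (Real.exp_le_exp.2 hb) 2
    linarith
  -- exponent `6a`
  have G6 := hst.ch.gapEig hst.n hgap (a := 6 * a) (by linarith) hag
  obtain ⟨m6, b6⟩ := G6.exp_bound mS hwK far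
  have b6' := b6.trans (hE (6 * a) haD)
  have δ6 : MemLp (fun ξ => Real.exp (6 * a * wi ξ) * (Φ ξ - φ ξ)) 2 volume := by
    have := m6.sub h6.i0
    refine this.ae_eq (Eventually.of_forall fun ξ => ?_)
    show Real.exp (6 * a * wi ξ) * Φ ξ - Real.exp (6 * a * wi ξ) * φ ξ = _
    ring
  have δ6b : ∫ ξ, (Real.exp (6 * a * wi ξ) * (Φ ξ - φ ξ)) ^ 2 ≤ 11 ^ 2 := by
    calc _ ≤ ∫ ξ, 2 * (Real.exp (6 * a * wi ξ) * Φ ξ) ^ 2 +
          2 * (Real.exp (6 * a * wi ξ) * φ ξ) ^ 2 := by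
          refine integral_mono δ6.integrable_sq ((m6.integrable_sq.const_mul 2).add
            (h6.i0.integrable_sq.const_mul 2)) fun ξ => ?_
          simp only [Pi.add_apply]
          nlinarith [sq_nonneg (Real.exp (6 * a * wi ξ) * Φ ξ + Real.exp (6 * a * wi ξ) * φ ξ)]
      _ = 2 * (∫ ξ, (Real.exp (6 * a * wi ξ) * Φ ξ) ^ 2) +
          2 * ∫ ξ, (Real.exp (6 * a * wi ξ) * φ ξ) ^ 2 := by
          rw [integral_add (m6.integrable_sq.const_mul 2) (h6.i0.integrable_sq.const_mul 2),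
            integral_const_mul, integral_const_mul]
      _ ≤ _ := by
          have := h6.b0
          linarith
  -- exponent `4a`
  have G4 := hst.ch.gapEig hst.n hgap (a := 4 * a) (by linarith) (by nlinarith)
  obtain ⟨m4, b4⟩ := G4.exp_bound mS hwK far
  have h4R : 4 * a * R ≤ 1 := by nlinarith
  have b4' := b4.trans (hE (4 * a) h4R)
  obtain ⟨hH, hHb⟩ := G4.h1_exp mS hwK far (c := 1 / 4) (C0 := M / 4) (by norm_num)
    (by linarith) (fun n => by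
      have := hco _ _ (G4.h1m n)
      rw [k2_eq_QF] at this
      linarith)
  have mw := continuous_wi.measurable
  -- moments
  have gen : ∀ {W : Y2 → ℝ} {A : ℝ}, Measurable W → (∀ ξ, 0 ≤ W ξ) → (∀ ξ, W ξ ≤ wi ξ ^ 2) →
      MemLp (fun ξ => W ξ * Real.exp (2 * a * wi ξ) * φ ξ) 2 volume →
      (∫ ξ, (W ξ * Real.exp (2 * a * wi ξ) * φ ξ) ^ 2 ≤ A) →
      Integrable (fun ξ => (W ξ * Real.exp (2 * a * wi ξ) * Φ ξ) ^ 2) ∧
      ∫ ξ, (W ξ * Real.exp (2 * a * wi ξ) * Φ ξ) ^ 2 ≤ 3 / 2 * A + 3 / 16 := by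
    intro W A hW hW0 hW1 mA bA
    obtain ⟨mδ, bδ⟩ := interp ha hδ δ6 (by norm_num) hS0 hst.cl δ6b hW hW0 hW1
    have bδ' := bδ.trans hsm2
    have e : ∀ ξ, W ξ * Real.exp (2 * a * wi ξ) * Φ ξ = W ξ * Real.exp (2 * a * wi ξ) * φ ξ +
        W ξ * Real.exp (2 * a * wi ξ) * (Φ ξ - φ ξ) := fun ξ => by ring
    have mm : MemLp (fun ξ => W ξ * Real.exp (2 * a * wi ξ) * Φ ξ) 2 volume := by
      simp only [e]
      exact mA.add mδ
    refine ⟨mm.integrable_sq, ?_⟩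
    calc _ ≤ ∫ ξ, 3 / 2 * (W ξ * Real.exp (2 * a * wi ξ) * φ ξ) ^ 2 +
          3 * (W ξ * Real.exp (2 * a * wi ξ) * (Φ ξ - φ ξ)) ^ 2 := by
          refine integral_mono mm.integrable_sq ((mA.integrable_sq.const_mul _).add
            (mδ.integrable_sq.const_mul _)) fun ξ => ?_
          simp only [Pi.add_apply]
          rw [e]
          exact sq_split _ _
      _ = 3 / 2 * (∫ ξ, (W ξ * Real.exp (2 * a * wi ξ) * φ ξ) ^ 2) +
          3 * ∫ ξ, (W ξ * Real.exp (2 * a * wi ξ) * (Φ ξ - φ ξ)) ^ 2 := by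
          rw [integral_add (mA.integrable_sq.const_mul _) (mδ.integrable_sq.const_mul _),
            integral_const_mul, integral_const_mul]
      _ ≤ _ := by linarith
  have one_le : ∀ ξ : Y2, (1 : ℝ) ≤ wi ξ ^ 2 := fun ξ => by nlinarith [two_le_wi ξ]
  have w_le : ∀ ξ : Y2, wi ξ ≤ wi ξ ^ 2 := fun ξ => by nlinarith [two_le_wi ξ]
  have g0 := gen (W := fun _ => 1) (A := 5 / 2) measurable_const (fun _ => by norm_num) one_le
    (by simpa only [one_mul] using h2.i0) (by simpa only [one_mul] using h2.b0)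
  have g1 := gen (W := wi) mw (fun ξ => (wi_pos ξ).le) w_le h2.i1 h2.b1
  have g2 := gen (W := fun ξ => wi ξ ^ 2) (mw.pow_const 2) (fun ξ => sq_nonneg _)
    (fun ξ => le_rfl) h2.i2 h2.b2
  simp only [one_mul] at g0
  have hCD2 : 1 ≤ (C * D) ^ 2 := one_le_pow₀ hCD
  have hCD4 : 1 ≤ (C * D) ^ 4 := one_le_pow₀ hCD
  refine ⟨⟨_, hH, ?_⟩, ⟨g0.1, g0.2.trans (by norm_num)⟩, ⟨g1.1, g1.2.trans ?_⟩,
    ⟨g2.1, g2.2.trans ?_⟩⟩
  · have h5 : (|e| + gap / 2 + M / 4) / (1 / 4) * (16 / 3 * Real.exp (4 * a * R) ^ 2) ≤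
        (40 + M) * 40 := by
      refine mul_le_mul ?_ (hE (4 * a) h4R) (by positivity) (by linarith)
      rw [div_le_iff₀ (by norm_num)]
      linarith
    linarith
  · have : (4 * C * D) ^ 2 = 16 * (C * D) ^ 2 := by ring
    rw [this]
    linarith
  · have : (4 * C * D) ^ 4 = 256 * (C * D) ^ 4 := by ring
    rw [this]
    linarith

end Crest.Agent.R335
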