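import Crest.Agent.R335.BIonC

/-!
Row 335 (S0521): ions, weighted bounds of product states (helper459).
-/

set_option autoImplicit false
set_option linter.unusedSectionVars false
set_option linter.unusedVariables false

open MeasureTheory Filter Set Crest.MathPhysics.ThreeBody
open scoped ENNReal Topology ContDiff

noncomputable section
namespace Crest.Agent.R335

theorem continuous_el (j : Fin 2) : Continuous (el j) := by
  unfold el
  fun_prop

theorem continuous_wi : Continuous wi := by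
  unfold wi
  exact (continuous_jb.comp (continuous_el 0)).add (continuous_jb.comp (continuous_el 1))

theorem two_le_wi (ξ : Y2) : 2 ≤ wi ξ := by
  unfold wi
  linarith [one_le_jb (el 0 ξ), one_le_jb (el 1 ξ)]

theorem wi_pos (ξ : Y2) : 0 < wi ξ := by linarith [two_le_wi ξ]

/-- weighted `L²` bounds -/
structure YW (b A0 A1 A2 : ℝ) (φ : Y2 → ℝ) : Prop where
  i0 : MemLp (fun ξ => Real.exp (b * wi ξ) * φ ξ) 2 volume
  i1 : MemLp (fun ξ => wi ξ * Real.exp (b * wi ξ) * φ ξ) 2 volume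
  i2 : MemLp (fun ξ => wi ξ ^ 2 * Real.exp (b * wi ξ) * φ ξ) 2 volume
  b0 : ∫ ξ, (Real.exp (b * wi ξ) * φ ξ) ^ 2 ≤ A0
  b1 : ∫ ξ, (wi ξ * Real.exp (b * wi ξ) * φ ξ) ^ 2 ≤ A1
  b2 : ∫ ξ, (wi ξ ^ 2 * Real.exp (b * wi ξ) * φ ξ) ^ 2 ≤ A2

theorem YW.mono {b A0 A1 A2 B0 B1 B2 : ℝ} {φ : Y2 → ℝ} (h : YW b A0 A1 A2 φ) (h0 : A0 ≤ B0)
    (h1 : A1 ≤ B1) (h2 : A2 ≤ B2) : YW b B0 B1 B2 φ :=
  ⟨h.i0, h.i1, h.i2, h.b0.trans h0, h.b1.trans h1, h.b2.trans h2⟩

theorem OMom.memLp {C D b : ℝ} {h : Pos3 → ℝ} (m : OMom C D b h)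
    (hm : AEStronglyMeasurable h volume) :
    MemLp (fun x => Real.exp (b * jb x) * h x) 2 volume ∧
    MemLp (fun x => jb x * Real.exp (b * jb x) * h x) 2 volume ∧
    MemLp (fun x => jb x ^ 2 * Real.exp (b * jb x) * h x) 2 volume := by
  have mj : Measurable jb := continuous_jb.measurable
  have me : Measurable (fun x => Real.exp (b * jb x)) := Real.measurable_exp.comp (mj.const_mul b)
  exact ⟨(memLp_two_iff_integrable_sq (me.aestronglyMeasurable.mul hm)).2 m.i0,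
    (memLp_two_iff_integrable_sq ((mj.mul me).aestronglyMeasurable.mul hm)).2 m.i1,
    (memLp_two_iff_integrable_sq (((mj.pow_const 2).mul me).aestronglyMeasurable.mul hm)).2 m.i2⟩

theorem YW.prod {C D b : ℝ} {h k : Pos3 → ℝ} (mh : OMom C D b h) (mk : OMom C D b k)
    (hm : AEStronglyMeasurable h volume) (km : AEStronglyMeasurable k volume) :
    YW b (5 / 4) (5 * (C * D) ^ 2) (17 * (C * D) ^ 4) (fun ξ => h (el 0 ξ) * k (el 1 ξ)) := by
  obtain ⟨h0, h1, h2⟩ := mh.memLp hm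
  obtain ⟨k0, k1, k2⟩ := mk.memLp km
  have ex : ∀ ξ : Y2, Real.exp (b * wi ξ) = Real.exp (b * jb (el 0 ξ)) *
      Real.exp (b * jb (el 1 ξ)) := by
    intro ξ
    rw [← Real.exp_add]
    unfold wi
    ring_nf
  have e0 : ∀ ξ : Y2, Real.exp (b * wi ξ) * (h (el 0 ξ) * k (el 1 ξ)) =
      (Real.exp (b * jb (el 0 ξ)) * h (el 0 ξ)) * (Real.exp (b * jb (el 1 ξ)) * k (el 1 ξ)) := by
    intro ξ
    rw [ex]
    ring
  have e1 : ∀ ξ : Y2, wi ξ * Real.exp (b * wi ξ) * (h (el 0 ξ) * k (el 1 ξ)) =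
      (jb (el 0 ξ) * Real.exp (b * jb (el 0 ξ)) * h (el 0 ξ)) *
        (Real.exp (b * jb (el 1 ξ)) * k (el 1 ξ)) +
      (Real.exp (b * jb (el 0 ξ)) * h (el 0 ξ)) *
        (jb (el 1 ξ) * Real.exp (b * jb (el 1 ξ)) * k (el 1 ξ)) := by
    intro ξ
    rw [ex]
    unfold wi
    ring
  have e2 : ∀ ξ : Y2, wi ξ ^ 2 * Real.exp (b * wi ξ) * (h (el 0 ξ) * k (el 1 ξ)) =
      (jb (el 0 ξ) ^ 2 * Real.exp (b * jb (el 0 ξ)) * h (el 0 ξ)) *
        (Real.exp (b * jb (el 1 ξ)) * k (el 1 ξ)) +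
      (2 * ((jb (el 0 ξ) * Real.exp (b * jb (el 0 ξ)) * h (el 0 ξ)) *
        (jb (el 1 ξ) * Real.exp (b * jb (el 1 ξ)) * k (el 1 ξ))) +
      (Real.exp (b * jb (el 0 ξ)) * h (el 0 ξ)) *
        (jb (el 1 ξ) ^ 2 * Real.exp (b * jb (el 1 ξ)) * k (el 1 ξ))) := by
    intro ξ
    rw [ex]
    unfold wi
    ring
  have i0 := memLp_el h0 k0
  have i1 := (memLp_el h1 k0).add (memLp_el h0 k1)
  have i2 := (memLp_el h2 k0).add (((memLp_el h1 k1).const_mul 2).add (memLp_el h0 k2))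
  have j0 : MemLp (fun ξ : Y2 => Real.exp (b * wi ξ) * (h (el 0 ξ) * k (el 1 ξ))) 2 volume := by
    simp only [e0]; exact i0
  have j1 : MemLp (fun ξ : Y2 => wi ξ * Real.exp (b * wi ξ) * (h (el 0 ξ) * k (el 1 ξ))) 2
      volume := by
    simp only [e1]; exact i1
  have j2 : MemLp (fun ξ : Y2 => wi ξ ^ 2 * Real.exp (b * wi ξ) * (h (el 0 ξ) * k (el 1 ξ))) 2
      volume := by
    simp only [e2]; exact i2
  have hH0 : 0 ≤ ∫ x, (Real.exp (b * jb x) * h x) ^ 2 := integral_nonneg fun x => sq_nonneg _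
  have hK0 : 0 ≤ ∫ x, (Real.exp (b * jb x) * k x) ^ 2 := integral_nonneg fun x => sq_nonneg _
  have hH1 : 0 ≤ ∫ x, (jb x * Real.exp (b * jb x) * h x) ^ 2 :=
    integral_nonneg fun x => sq_nonneg _
  have hK1 : 0 ≤ ∫ x, (jb x * Real.exp (b * jb x) * k x) ^ 2 :=
    integral_nonneg fun x => sq_nonneg _
  have hH2 : 0 ≤ ∫ x, (jb x ^ 2 * Real.exp (b * jb x) * h x) ^ 2 :=
    integral_nonneg fun x => sq_nonneg _
  have hK2 : 0 ≤ ∫ x, (jb x ^ 2 * Real.exp (b * jb x) * k x) ^ 2 :=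
    integral_nonneg fun x => sq_nonneg _
  refine ⟨j0, j1, j2, ?_, ?_, ?_⟩
  · have := integral_el (fun x => (Real.exp (b * jb x) * h x) ^ 2)
      (fun x => (Real.exp (b * jb x) * k x) ^ 2)
    calc _ = ∫ ξ : Y2, (Real.exp (b * jb (el 0 ξ)) * h (el 0 ξ)) ^ 2 *
          (Real.exp (b * jb (el 1 ξ)) * k (el 1 ξ)) ^ 2 := by
          congr 1; funext ξ; rw [e0, mul_pow]
      _ = _ := this
      _ ≤ 17 / 16 * (17 / 16) := mul_le_mul mh.b0 mk.b0 hK0 (by norm_num)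
      _ ≤ 5 / 4 := by norm_num
  · have a1 := integral_el (fun x => (jb x * Real.exp (b * jb x) * h x) ^ 2)
      (fun x => (Real.exp (b * jb x) * k x) ^ 2)
    have a2 := integral_el (fun x => (Real.exp (b * jb x) * h x) ^ 2)
      (fun x => (jb x * Real.exp (b * jb x) * k x) ^ 2)
    have c1 := integrable_el mh.i1 mk.i0
    have c2 := integrable_el mh.i0 mk.i1
    calc _ ≤ ∫ ξ : Y2, 2 * ((jb (el 0 ξ) * Real.exp (b * jb (el 0 ξ)) * h (el 0 ξ)) ^ 2 *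
          (Real.exp (b * jb (el 1 ξ)) * k (el 1 ξ)) ^ 2) +
          2 * ((Real.exp (b * jb (el 0 ξ)) * h (el 0 ξ)) ^ 2 *
          (jb (el 1 ξ) * Real.exp (b * jb (el 1 ξ)) * k (el 1 ξ)) ^ 2) := by
          refine integral_mono j1.integrable_sq ((c1.const_mul 2).add (c2.const_mul 2))
            fun ξ => ?_
          simp only [Pi.add_apply]
          rw [e1, ← mul_pow, ← mul_pow]
          nlinarith [sq_nonneg ((jb (el 0 ξ) * Real.exp (b * jb (el 0 ξ)) * h (el 0 ξ)) *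
            (Real.exp (b * jb (el 1 ξ)) * k (el 1 ξ)) -
            (Real.exp (b * jb (el 0 ξ)) * h (el 0 ξ)) *
            (jb (el 1 ξ) * Real.exp (b * jb (el 1 ξ)) * k (el 1 ξ)))]
      _ = 2 * ((∫ x, (jb x * Real.exp (b * jb x) * h x) ^ 2) *
            ∫ x, (Real.exp (b * jb x) * k x) ^ 2) +
          2 * ((∫ x, (Real.exp (b * jb x) * h x) ^ 2) *
            ∫ x, (jb x * Real.exp (b * jb x) * k x) ^ 2) := by
          rw [integral_add (c1.const_mul 2) (c2.const_mul 2), integral_const_mul,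
            integral_const_mul, a1, a2]
      _ ≤ 2 * ((C * D) ^ 2 * (17 / 16)) + 2 * (17 / 16 * (C * D) ^ 2) :=
          add_le_add (mul_le_mul_of_nonneg_left (mul_le_mul mh.b1 mk.b0 hK0 (sq_nonneg _))
            (by norm_num)) (mul_le_mul_of_nonneg_left (mul_le_mul mh.b0 mk.b1 hK1 (by norm_num))
            (by norm_num))
      _ ≤ _ := by nlinarith [sq_nonneg (C * D)]
  · have a1 := integral_el (fun x => (jb x ^ 2 * Real.exp (b * jb x) * h x) ^ 2)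
      (fun x => (Real.exp (b * jb x) * k x) ^ 2)
    have a2 := integral_el (fun x => (Real.exp (b * jb x) * h x) ^ 2)
      (fun x => (jb x ^ 2 * Real.exp (b * jb x) * k x) ^ 2)
    have c1 := integrable_el mh.i2 mk.i0
    have c2 := integrable_el mh.i0 mk.i2
    calc _ ≤ ∫ ξ : Y2, 8 * ((jb (el 0 ξ) ^ 2 * Real.exp (b * jb (el 0 ξ)) * h (el 0 ξ)) ^ 2 *
          (Real.exp (b * jb (el 1 ξ)) * k (el 1 ξ)) ^ 2) +
          8 * ((Real.exp (b * jb (el 0 ξ)) * h (el 0 ξ)) ^ 2 *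
          (jb (el 1 ξ) ^ 2 * Real.exp (b * jb (el 1 ξ)) * k (el 1 ξ)) ^ 2) := by
          refine integral_mono j2.integrable_sq ((c1.const_mul 8).add (c2.const_mul 8))
            fun ξ => ?_
          simp only [Pi.add_apply]
          have hw : (wi ξ ^ 2) ^ 2 ≤ 8 * (jb (el 0 ξ) ^ 2) ^ 2 + 8 * (jb (el 1 ξ) ^ 2) ^ 2 := by
            unfold wi
            have q : (jb (el 0 ξ) + jb (el 1 ξ)) ^ 2 ≤
                2 * jb (el 0 ξ) ^ 2 + 2 * jb (el 1 ξ) ^ 2 := by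
              nlinarith [sq_nonneg (jb (el 0 ξ) - jb (el 1 ξ))]
            have q2 := pow_le_pow_left₀ (sq_nonneg _) q 2
            nlinarith [sq_nonneg (jb (el 0 ξ) ^ 2 - jb (el 1 ξ) ^ 2)]
          have := mul_le_mul_of_nonneg_right hw
            (sq_nonneg (Real.exp (b * wi ξ) * (h (el 0 ξ) * k (el 1 ξ))))
          calc (wi ξ ^ 2 * Real.exp (b * wi ξ) * (h (el 0 ξ) * k (el 1 ξ))) ^ 2 =
              (wi ξ ^ 2) ^ 2 * (Real.exp (b * wi ξ) * (h (el 0 ξ) * k (el 1 ξ))) ^ 2 := by ring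
            _ ≤ _ := this
            _ = _ := by rw [e0]; ring
      _ = 8 * ((∫ x, (jb x ^ 2 * Real.exp (b * jb x) * h x) ^ 2) *
            ∫ x, (Real.exp (b * jb x) * k x) ^ 2) +
          8 * ((∫ x, (Real.exp (b * jb x) * h x) ^ 2) *
            ∫ x, (jb x ^ 2 * Real.exp (b * jb x) * k x) ^ 2) := by
          rw [integral_add (c1.const_mul 8) (c2.const_mul 8), integral_const_mul,
            integral_const_mul, a1, a2]
      _ ≤ 8 * ((C * D) ^ 4 * (17 / 16)) + 8 * (17 / 16 * (C * D) ^ 4) :=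
          add_le_add (mul_le_mul_of_nonneg_left (mul_le_mul mh.b2 mk.b0 hK0 (by positivity))
            (by norm_num)) (mul_le_mul_of_nonneg_left (mul_le_mul mh.b0 mk.b2 hK2 (by norm_num))
            (by norm_num))
      _ ≤ _ := le_of_eq (by ring)

/-- `(s φ + t ψ)/√2` -/
theorem YW.comb {b A0 A1 A2 : ℝ} {φ ψ : Y2 → ℝ} (h : YW b A0 A1 A2 φ) (h' : YW b A0 A1 A2 ψ)
    {s t : ℝ} (hs : s ^ 2 = 1) (ht : t ^ 2 = 1) :
    YW b (2 * A0) (2 * A1) (2 * A2) (fun ξ => (s / √2) * φ ξ + (t / √2) * ψ ξ) := by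
  have s2 : √2 ^ 2 = (2 : ℝ) := Real.sq_sqrt (by norm_num)
  have e1 : (s / √2) ^ 2 = 1 / 2 := by rw [div_pow, hs, s2]
  have e2 : (t / √2) ^ 2 = 1 / 2 := by rw [div_pow, ht, s2]
  have key : ∀ α β : ℝ, ((s / √2) * α + (t / √2) * β) ^ 2 ≤ α ^ 2 + β ^ 2 := by
    intro α β
    nlinarith [sq_nonneg ((s / √2) * α - (t / √2) * β)]
  have gen : ∀ {W : Y2 → ℝ} {A : ℝ}, MemLp (fun ξ => W ξ * φ ξ) 2 volume →
      MemLp (fun ξ => W ξ * ψ ξ) 2 volume → (∫ ξ, (W ξ * φ ξ) ^ 2 ≤ A) →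
      (∫ ξ, (W ξ * ψ ξ) ^ 2 ≤ A) →
      MemLp (fun ξ => W ξ * ((s / √2) * φ ξ + (t / √2) * ψ ξ)) 2 volume ∧
      ∫ ξ, (W ξ * ((s / √2) * φ ξ + (t / √2) * ψ ξ)) ^ 2 ≤ 2 * A := by
    intro W A m1 m2 a1 a2
    have e : ∀ ξ, W ξ * ((s / √2) * φ ξ + (t / √2) * ψ ξ) =
        (s / √2) * (W ξ * φ ξ) + (t / √2) * (W ξ * ψ ξ) := fun ξ => by ring
    have m : MemLp (fun ξ => W ξ * ((s / √2) * φ ξ + (t / √2) * ψ ξ)) 2 volume := by
      simp only [e]
      exact (m1.const_mul _).add (m2.const_mul _)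
    refine ⟨m, ?_⟩
    calc _ ≤ ∫ ξ, (W ξ * φ ξ) ^ 2 + (W ξ * ψ ξ) ^ 2 := by
          refine integral_mono m.integrable_sq (m1.integrable_sq.add m2.integrable_sq)
            fun ξ => ?_
          simp only [Pi.add_apply]
          rw [e]
          exact key _ _
      _ = (∫ ξ, (W ξ * φ ξ) ^ 2) + ∫ ξ, (W ξ * ψ ξ) ^ 2 :=
          integral_add m1.integrable_sq m2.integrable_sq
      _ ≤ 2 * A := by linarith
  obtain ⟨a, a'⟩ := gen h.i0 h'.i0 h.b0 h'.b0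
  obtain ⟨c, c'⟩ := gen h.i1 h'.i1 h.b1 h'.b1
  obtain ⟨d, d'⟩ := gen h.i2 h'.i2 h.b2 h'.b2
  exact ⟨a, c, d, a', c', d'⟩

section ob
variable {D eg eu e3 : ℝ} {g u : Pos3 → ℝ} {dg du : Pos3 → Pos3}

/-- weights of the three product states -/
theorem OneBody.yw (h : OneBody D g u dg du eg eu e3) {C b : ℝ} (hC : 1 ≤ C) (hD : 1 ≤ D)
    (mg : OMom C D b g) (mu : OMom C D b u) :
    YW b (5 / 2) (10 * (C * D) ^ 2) (34 * (C * D) ^ 4) (ph0 g) ∧
    YW b (5 / 2) (10 * (C * D) ^ 2) (34 * (C * D) ^ 4) (ph1 g u) ∧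
    YW b (5 / 2) (10 * (C * D) ^ 2) (34 * (C * D) ^ 4) (phT g u) := by
  have gm := h.hg.memf.1
  have um := h.hu.memf.1
  have h0 : 0 ≤ (C * D) ^ 2 := sq_nonneg _
  have h4 : 0 ≤ (C * D) ^ 4 := by positivity
  have e2 : (5 : ℝ) / 2 = 2 * (5 / 4) := by norm_num
  have e10 : 10 * (C * D) ^ 2 = 2 * (5 * (C * D) ^ 2) := by ring
  have e34 : 34 * (C * D) ^ 4 = 2 * (17 * (C * D) ^ 4) := by ring
  refine ⟨(YW.prod mg mg gm gm).mono (by norm_num) (by linarith) (by linarith), ?_, ?_⟩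
  · have := (YW.prod mu mg um gm).comb (YW.prod mg mu gm um) (s := -1) (t := -1) (by norm_num)
      (by norm_num)
    rw [e2, e10, e34]
    convert this using 2 with ξ
    unfold ph1
    ring
  · have := (YW.prod mu mg um gm).comb (YW.prod mg mu gm um) (s := 1) (t := -1) (by norm_num)
      (by norm_num)
    rw [e2, e10, e34]
    convert this using 2 with ξ
    unfold phT
    ring

end ob

end Crest.Agent.R335
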