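import Crest.Agent.R335.BRGen

/-!
Row 335 (S0521), Part B sections 5-6: absolute values of weak solutions with source.
-/

set_option autoImplicit false
set_option linter.unusedSectionVars false
set_option linter.unusedVariables false

open MeasureTheory Filter Set Crest.MathPhysics.ThreeBody
open scoped ENNReal Topology ContDiff

noncomputable section
namespace Crest.Agent.R335.BR
open Crest.Agent.R335

/-- `-½Δ f + m f = src` implies `-½Δ|f| + m|f| ≤ |src|` -/
theorem wle_abs {U : Set Pos3} (hU : IsOpen U) {f m src : Pos3 → ℝ} {d : Pos3 → Pos3}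
    (hf : H1 f d) (h : WEq U f d m src) :
    WLe U (fun x => |f x|) (fun x => if 0 < f x then d x else -d x) m (fun x => |src x|) := by
  have hwg : WG U f d := hf.wg.mono (subset_univ _)
  have hwg' : WG U (fun x => -f x) (fun x => -d x) := by
    have := WG.const_mul hwg (-1) hU
    simpa using this
  have hg : L2locV U d := fun K hK hKU => hf.memg.restrict K
  have hg' : L2locV U (fun x => -d x) := fun K hK hKU => (hg K hK hKU).neg
  have ims : LocallyIntegrableOn (fun x => m x * |f x|) U volume := by
    have h1 := h.ims
    intro x hx
    obtain ⟨t, ht, hti⟩ := h1 x hx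
    refine ⟨t, ht, ?_⟩
    have hae : AEStronglyMeasurable (fun x => m x * |f x|) (volume.restrict t) := by
      have e : (fun x => m x * |f x|) = fun x => (if 0 < f x then 1 else -1 : ℝ) * (m x * f x) := by
        funext x
        split_ifs with h0
        · rw [abs_of_pos h0]; ring
        · rw [abs_of_nonpos (not_lt.1 h0)]; ring
      rw [e]
      refine AEStronglyMeasurable.mul ?_ hti.aestronglyMeasurable
      have hfm : AEMeasurable f volume := hf.memf.1.aemeasurable
      have hfm' : AEMeasurable f (volume.restrict t) := hfm.restrict
      have : AEMeasurable (fun x => (if 0 < f x then (1:ℝ) else -1)) (volume.restrict t) := by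
        have hphi : Measurable (fun y : ℝ => if 0 < y then (1:ℝ) else -1) :=
          Measurable.ite measurableSet_Ioi measurable_const measurable_const
        exact hphi.comp_aemeasurable hfm'
      exact this.aestronglyMeasurable
    refine Integrable.mono hti hae (Eventually.of_forall fun x => ?_)
    rw [Real.norm_eq_abs, Real.norm_eq_abs, abs_mul, abs_mul, abs_abs]
  have ifs : LocallyIntegrableOn (fun x => |src x|) U volume := by
    have := h.if'.norm
    simpa [Real.norm_eq_abs] using this
  refine ⟨ims, ifs, fun φ hφ h0 => ?_⟩
  have hq : LocallyIntegrableOn (fun x => m x * f x - src x) U volume := h.ims.sub h.if'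
  have hq' : LocallyIntegrableOn (fun x => -(m x * f x) + src x) U volume := h.ims.neg.add h.if'
  have hc : ∀ {k : Pos3 → ℝ}, LocallyIntegrableOn k U volume → ∀ {ψ : Pos3 → ℝ}, Test U ψ →
      Integrable (fun x => k x * ψ x) volume := fun hk ψ hψ =>
    XL.integrable_mul_cpt hk hψ.smooth.continuous hψ.cpt hψ.sub
  have key := kato_max hU hwg hwg' hg hg' hq hq'
    (fun ψ hψ _ => by
      have h1 := h.eq ψ hψ
      have e1 : ∫ x, (m x * f x - src x) * ψ x = (∫ x, m x * f x * ψ x) - ∫ x, src x * ψ x := by
        rw [← integral_sub (hc h.ims hψ) (hc h.if' hψ)]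
        congr 1; funext x; ring
      rw [e1]; linarith)
    (fun ψ hψ _ => by
      have h1 := h.eq ψ hψ
      have e1 : ∫ x, inner ℝ (-d x) (gr ψ x) = -∫ x, inner ℝ (d x) (gr ψ x) := by
        rw [← integral_neg]
        simp only [inner_neg_left]
      have e2 : ∫ x, (-(m x * f x) + src x) * ψ x =
          -(∫ x, m x * f x * ψ x) + ∫ x, src x * ψ x := by
        have i1 : Integrable (fun x => -(m x * f x * ψ x)) volume := (hc h.ims hψ).neg
        rw [← integral_neg, ← integral_add i1 (hc h.if' hψ)]
        congr 1; funext x; ring
      rw [e1, e2]; linarith) hφ h0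
  have hcond : ∀ x, (-f x < f x) = (0 < f x) := fun x => by
    rw [eq_iff_iff]
    constructor <;> intro hh <;> linarith
  simp only [hcond] at key
  have i1 := hc ims hφ
  have i2 := hc ifs hφ
  have i3 : Integrable (fun x => (if 0 < f x then m x * f x - src x else
      -(m x * f x) + src x) * φ x) volume := by
    have e : (fun x => (if 0 < f x then m x * f x - src x else
      -(m x * f x) + src x) * φ x) = fun x => m x * |f x| * φ x -
        (if 0 < f x then 1 else -1 : ℝ) * (src x * φ x) := by
      funext x
      split_ifs with h0
      · rw [abs_of_pos h0]; ring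
      · rw [abs_of_nonpos (not_lt.1 h0)]; ring
    rw [e]
    refine i1.sub ?_
    have hj := hc h.if' hφ
    refine Integrable.mono hj ?_ (Eventually.of_forall fun x => ?_)
    · refine AEStronglyMeasurable.mul ?_ hj.aestronglyMeasurable
      have hphi : Measurable (fun y : ℝ => if 0 < y then (1:ℝ) else -1) :=
        Measurable.ite measurableSet_Ioi measurable_const measurable_const
      exact (hphi.comp_aemeasurable hf.memf.1.aemeasurable).aestronglyMeasurable
    · rw [norm_mul]
      split_ifs <;> simp
  have key2 : (∫ x, m x * |f x| * φ x) - (∫ x, |src x| * φ x) ≤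
      ∫ x, (if 0 < f x then m x * f x - src x else -(m x * f x) + src x) * φ x := by
    rw [← integral_sub i1 i2]
    refine integral_mono (i1.sub i2) i3 fun x => ?_
    show m x * |f x| * φ x - |src x| * φ x ≤ _
    rw [← sub_mul]
    refine mul_le_mul_of_nonneg_right ?_ (h0 x)
    split_ifs with hh
    · rw [abs_of_pos hh]; linarith [le_abs_self (src x)]
    · rw [abs_of_nonpos (not_lt.1 hh)]; linarith [neg_abs_le (src x)]
  linarith

end Crest.Agent.R335.BR
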