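import Mathlib

/-!
Row 335 (S0521), Part B sections 5-6 (note 10383): the pointwise (real variable) part of the
verification of the barriers.

Notation at a point `x`, `r = |x| ≥ R₁`, `z = x₂ > 0`:
`u = 1/r`, `w = r^{-3/2}`, `O, S` two-centre difference/sum (`E^-`), `Op, Sp` the same with `E^+`,
`SS` the sum with `κ_S`, `B = B₀`, `e = e^{-kr}`, `x = e^{-ar/2}`, `y = e^{-(κ+a/4)r}`, `l = λ`.
-/

set_option autoImplicit false

namespace Crest.Agent.R335.BR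

/-- elementary inequalities between the model functions at a point -/
structure Pt (u w z O S B e x y : ℝ) : Prop where
  u0 : 0 < u
  u1 : u ≤ 1
  w1 : u ^ 2 ≤ w
  z0 : 0 < z
  zu : z * u ≤ 1
  O0 : 0 ≤ O
  OS : O ≤ S
  zS : z * u * S ≤ 6 * O
  B0 : 0 ≤ B
  B1 : B ≤ u ^ 6 * O
  e0 : 0 ≤ e
  e1 : e ≤ u ^ 6 * S
  e2 : 1 ≤ z → e ≤ u ^ 6 * O
  x0 : 0 ≤ x
  x1 : x ≤ u ^ 6
  xS : x * S ≤ u ^ 6 * e
  y0 : 0 ≤ y
  y1 : y ≤ e

namespace Pt

variable {u w z O S B e x y : ℝ} (h : Pt u w z O S B e x y)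
include h

theorem un (n : ℕ) : u ^ n ≤ 1 := pow_le_one₀ h.u0.le h.u1
theorem unn (n : ℕ) : 0 ≤ u ^ n := pow_nonneg h.u0.le n
theorem S0 : 0 ≤ S := h.O0.trans h.OS
theorem w0 : 0 ≤ w := (sq_nonneg u).trans h.w1

theorem BO : B ≤ O := h.B1.trans (by
  have := mul_le_mul_of_nonneg_right (h.un 6) h.O0
  linarith)

theorem eS : e ≤ S := h.e1.trans (by
  have := mul_le_mul_of_nonneg_right (h.un 6) h.S0
  linarith)

theorem xSe : x * S ≤ e := h.xS.trans (by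
  have := mul_le_mul_of_nonneg_right (h.un 6) h.e0
  linarith)

theorem x_le : x ≤ 1 := h.x1.trans (h.un 6)

theorem xOe : x * O ≤ e :=
  (mul_le_mul_of_nonneg_left h.OS h.x0).trans h.xSe

theorem uO (n : ℕ) : u ^ n * O ≤ O := by
  have := mul_le_mul_of_nonneg_right (h.un n) h.O0
  linarith

theorem uS (n : ℕ) : u ^ n * S ≤ S := by
  have := mul_le_mul_of_nonneg_right (h.un n) h.S0
  linarith

theorem upow {m n : ℕ} (hmn : m ≤ n) : u ^ n ≤ u ^ m := pow_le_pow_of_le_one h.u0.le h.u1 hmn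

/-- `z u³ O ≤ u² O` -/
theorem zuO : z * u ^ 3 * O ≤ u ^ 2 * O := by
  have h1 : z * u ^ 3 ≤ u ^ 2 := by
    have := mul_le_mul_of_nonneg_right h.zu (h.unn 2)
    nlinarith [this]
  exact mul_le_mul_of_nonneg_right h1 h.O0

theorem zuO0 : 0 ≤ z * u ^ 3 * O := mul_nonneg (mul_nonneg h.z0.le (h.unn 3)) h.O0

/-- `z u³ S ≤ 6 u² O` -/
theorem zuS : z * u ^ 3 * S ≤ 6 * (u ^ 2 * O) := by
  have := mul_le_mul_of_nonneg_left h.zS (h.unn 2)
  nlinarith [this]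

theorem u2O : u ^ 2 * O ≤ w * O := mul_le_mul_of_nonneg_right h.w1 h.O0

theorem Tb {β : ℝ} (hβ : 0 ≤ β) : u ^ 3 * z * O + β * (u ^ 4 * S) ≤ (1 + β) * S := by
  have h1 := h.zuO
  have h2 := h.uO 2
  have h3 := mul_le_mul_of_nonneg_left (h.uS 4) hβ
  have h4 := h.OS
  nlinarith [h1, h2, h3, h4]

theorem Tnn {β : ℝ} (hβ : 0 ≤ β) : 0 ≤ u ^ 3 * z * O + β * (u ^ 4 * S) := by
  have h1 := h.zuO0
  have h2 := mul_nonneg hβ (mul_nonneg (h.unn 4) h.S0)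
  nlinarith [h1, h2]

end Pt

/-! ### barriers at a point -/

/-- `T^up / α` -/
def Tv (u z O S β : ℝ) : ℝ := u ^ 3 * z * O + β * (u ^ 4 * S)

def bF (A K l O B : ℝ) : ℝ := A * O + K * l * B
def bP (A K1 l u O B : ℝ) : ℝ := K1 * l * (A * (u ^ 2 * O) + B)
def bc (A Ac α β l u z O S SS : ℝ) : ℝ := Ac * SS + l * A * (α * Tv u z O S β)
def bN (A Ac α β γ K2 K3 l u z O S SS e : ℝ) : ℝ :=
  l * (K2 * (u ^ 2 * bc A Ac α β l u z O S SS) + K3 * A * Tv u z O S γ + K2 * e)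

section S
variable {u w z O S B e x y SS : ℝ} {A Ac α β γ K K1 K2 K3 l CD Cu CuD : ℝ}

/-- positivity of the parameters -/
structure Pos (A Ac α β γ K K1 K2 K3 l CD Cu CuD : ℝ) : Prop where
  A : 0 < A
  Ac : 0 < Ac
  α : 0 ≤ α
  β : 0 ≤ β
  γ : 0 ≤ γ
  K : 0 ≤ K
  K1 : 0 ≤ K1
  K2 : 0 ≤ K2
  K3 : 0 ≤ K3
  l : 0 ≤ l
  CD : 0 ≤ CD
  Cu : 0 ≤ Cu
  CuD : 0 ≤ CuD

theorem Tv_nonneg (h : Pt u w z O S B e x y) (hβ : 0 ≤ β) : 0 ≤ Tv u z O S β := h.Tnn hβ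

theorem bc_le (h : Pt u w z O S B e x y) (p : Pos A Ac α β γ K K1 K2 K3 l CD Cu CuD)
    (hSS : SS ≤ S) (h1 : l * (A * (α * (1 + β))) ≤ 1) :
    bc A Ac α β l u z O S SS ≤ (Ac + 1) * S := by
  unfold bc Tv
  have hT := h.Tb p.β
  have a1 : Ac * SS ≤ Ac * S := mul_le_mul_of_nonneg_left hSS p.Ac.le
  have a2 : l * A * (α * (u ^ 3 * z * O + β * (u ^ 4 * S))) ≤ l * A * (α * ((1 + β) * S)) := by
    have := p.A; have := p.l; have := p.α
    gcongr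
  have a3 : l * A * (α * ((1 + β) * S)) ≤ 1 * S := by
    have := mul_le_mul_of_nonneg_right h1 h.S0
    calc l * A * (α * ((1 + β) * S)) = l * (A * (α * (1 + β))) * S := by ring
      _ ≤ 1 * S := this
  linarith

theorem bc_nonneg (h : Pt u w z O S B e x y) (p : Pos A Ac α β γ K K1 K2 K3 l CD Cu CuD)
    (hSS0 : 0 ≤ SS) : 0 ≤ bc A Ac α β l u z O S SS := by
  unfold bc
  have := Tv_nonneg h p.β
  have := p.A; have := p.Ac; have := p.l; have := p.α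
  positivity

theorem bN_nonneg (h : Pt u w z O S B e x y) (p : Pos A Ac α β γ K K1 K2 K3 l CD Cu CuD)
    (hSS0 : 0 ≤ SS) : 0 ≤ bN A Ac α β γ K2 K3 l u z O S SS e := by
  unfold bN
  have := Tv_nonneg h p.γ
  have := bc_nonneg h p hSS0
  have := p.A; have := p.l; have := p.K2; have := p.K3; have := h.e0; have := h.unn 2
  positivity

theorem bN_le (h : Pt u w z O S B e x y) (p : Pos A Ac α β γ K K1 K2 K3 l CD Cu CuD)
    (hSS : SS ≤ S) (h1 : l * (A * (α * (1 + β))) ≤ 1) :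
    bN A Ac α β γ K2 K3 l u z O S SS e ≤
      l * (K2 * (Ac + 1) + K3 * A * (1 + γ) + K2) * S := by
  unfold bN
  have hb := bc_le h p hSS h1
  have a1 : u ^ 2 * bc A Ac α β l u z O S SS ≤ (Ac + 1) * S := by
    have h2 : u ^ 2 * bc A Ac α β l u z O S SS ≤ u ^ 2 * ((Ac + 1) * S) :=
      mul_le_mul_of_nonneg_left hb (h.unn 2)
    have h3 : u ^ 2 * ((Ac + 1) * S) ≤ (Ac + 1) * S := by
      have := mul_le_mul_of_nonneg_left (h.uS 2) (by linarith [p.Ac] : 0 ≤ Ac + 1)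
      linarith
    linarith
  have a2 : Tv u z O S γ ≤ (1 + γ) * S := h.Tb p.γ
  have a3 := h.eS
  have a4 : K2 * (u ^ 2 * bc A Ac α β l u z O S SS) ≤ K2 * ((Ac + 1) * S) :=
    mul_le_mul_of_nonneg_left a1 p.K2
  have a5 : K3 * A * Tv u z O S γ ≤ K3 * A * ((1 + γ) * S) :=
    mul_le_mul_of_nonneg_left a2 (mul_nonneg p.K3 p.A.le)
  have a6 : K2 * e ≤ K2 * S := mul_le_mul_of_nonneg_left a3 p.K2
  have a7 : K2 * (u ^ 2 * bc A Ac α β l u z O S SS) + K3 * A * Tv u z O S γ + K2 * e ≤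
      (K2 * (Ac + 1) + K3 * A * (1 + γ) + K2) * S := by linarith
  calc _ ≤ l * ((K2 * (Ac + 1) + K3 * A * (1 + γ) + K2) * S) := mul_le_mul_of_nonneg_left a7 p.l
    _ = _ := by ring

/-- (H1) -/
theorem bcN_le (h : Pt u w z O S B e x y) (p : Pos A Ac α β γ K K1 K2 K3 l CD Cu CuD)
    (hSS : SS ≤ S) (h1 : l * (A * (α * (1 + β))) ≤ 1)
    (h2 : l * (K2 * (Ac + 1) + K3 * A * (1 + γ) + K2) ≤ 1) :
    bc A Ac α β l u z O S SS + bN A Ac α β γ K2 K3 l u z O S SS e ≤ (Ac + 2) * S := by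
  have a1 := bc_le h p hSS h1
  have a2 := bN_le (e := e) h p hSS h1
  have a3 := mul_le_mul_of_nonneg_right h2 h.S0
  linarith

/-- (H2) -/
theorem bFP_le (h : Pt u w z O S B e x y) (p : Pos A Ac α β γ K K1 K2 K3 l CD Cu CuD)
    (h1 : l * (K + K1 * (A + 1)) ≤ A) :
    bF A K l O B + bP A K1 l u O B ≤ 2 * A * O := by
  unfold bF bP
  have a1 : K * l * B ≤ K * l * O := mul_le_mul_of_nonneg_left h.BO (mul_nonneg p.K p.l)
  have a2 : A * (u ^ 2 * O) + B ≤ (A + 1) * O := by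
    have := mul_le_mul_of_nonneg_left (h.uO 2) p.A.le
    linarith [h.BO]
  have a3 : K1 * l * (A * (u ^ 2 * O) + B) ≤ K1 * l * ((A + 1) * O) :=
    mul_le_mul_of_nonneg_left a2 (mul_nonneg p.K1 p.l)
  have a4 := mul_le_mul_of_nonneg_right h1 h.O0
  nlinarith [a1, a3, a4]

theorem bF_nonneg (h : Pt u w z O S B e x y) (p : Pos A Ac α β γ K K1 K2 K3 l CD Cu CuD) :
    0 ≤ bF A K l O B := by
  unfold bF
  have := p.A; have := p.K; have := p.l; have := h.O0; have := h.B0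
  positivity

theorem bP_nonneg (h : Pt u w z O S B e x y) (p : Pos A Ac α β γ K K1 K2 K3 l CD Cu CuD) :
    0 ≤ bP A K1 l u O B := by
  unfold bP
  have := p.A; have := p.K1; have := p.l; have := h.O0; have := h.B0; have := h.unn 2
  positivity

/-- source of (F) -/
def srcF (CD l u z x F P c N : ℝ) : ℝ :=
  l * CD * u ^ 2 * (F + P) + l * CD * (z * u ^ 3 + x) * (c + N)

theorem srcF_le (h : Pt u w z O S B e x y) (p : Pos A Ac α β γ K K1 K2 K3 l CD Cu CuD)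
    (hSS : SS ≤ S) (h1 : l * (A * (α * (1 + β))) ≤ 1)
    (h2 : l * (K2 * (Ac + 1) + K3 * A * (1 + γ) + K2) ≤ 1)
    (h3 : l * (K + K1 * (A + 1)) ≤ A) :
    srcF CD l u z x (bF A K l O B) (bP A K1 l u O B) (bc A Ac α β l u z O S SS)
      (bN A Ac α β γ K2 K3 l u z O S SS e) ≤
      l * (CD * (2 * A + 6 * (Ac + 2))) * (u ^ 2 * O) + l * (CD * (Ac + 2)) * e := by
  unfold srcF
  have a1 := bFP_le h p h3
  have a2 := bcN_le h p hSS h1 h2
  have hlC : 0 ≤ l * CD := mul_nonneg p.l p.CD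
  have b1 : l * CD * u ^ 2 * (bF A K l O B + bP A K1 l u O B) ≤ l * CD * u ^ 2 * (2 * A * O) :=
    mul_le_mul_of_nonneg_left a1 (mul_nonneg hlC (h.unn 2))
  have b2 : (z * u ^ 3 + x) * (bc A Ac α β l u z O S SS + bN A Ac α β γ K2 K3 l u z O S SS e) ≤
      (z * u ^ 3 + x) * ((Ac + 2) * S) :=
    mul_le_mul_of_nonneg_left a2 (add_nonneg (mul_nonneg h.z0.le (h.unn 3)) h.x0)
  have b3 : (z * u ^ 3 + x) * ((Ac + 2) * S) ≤ (Ac + 2) * (6 * (u ^ 2 * O) + e) := by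
    have c1 := h.zuS
    have c2 := h.xSe
    have c3 : 0 ≤ Ac + 2 := by linarith [p.Ac]
    calc (z * u ^ 3 + x) * ((Ac + 2) * S) = (Ac + 2) * (z * u ^ 3 * S + x * S) := by ring
      _ ≤ _ := mul_le_mul_of_nonneg_left (add_le_add c1 c2) c3
  have b4 := mul_le_mul_of_nonneg_left (b2.trans b3) hlC
  calc _ = l * CD * u ^ 2 * (bF A K l O B + bP A K1 l u O B) + l * CD * ((z * u ^ 3 + x) *
        (bc A Ac α β l u z O S SS + bN A Ac α β γ K2 K3 l u z O S SS e)) := by ring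
    _ ≤ l * CD * u ^ 2 * (2 * A * O) + l * CD * ((Ac + 2) * (6 * (u ^ 2 * O) + e)) :=
        add_le_add b1 b4
    _ = _ := by ring

/-- (V_F) -/
theorem VF (h : Pt u w z O S B e x y) (p : Pos A Ac α β γ K K1 K2 K3 l CD Cu CuD)
    (hSS : SS ≤ S) (h1 : l * (A * (α * (1 + β))) ≤ 1)
    (h2 : l * (K2 * (Ac + 1) + K3 * A * (1 + γ) + K2) ≤ 1)
    (h3 : l * (K + K1 * (A + 1)) ≤ A) {k8 LO LB ez ka : ℝ}
    (hLO : k8 * (w * O) ≤ LO) (hLB : e * (ez / 2 - ka * (1 - ez)) ≤ LB)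
    (hez0 : 0 ≤ ez) (hez : z ≤ 1 → 1 / 3 ≤ ez) (hka0 : 0 ≤ ka) (hka : ka ≤ 1 / 20)
    (hc1 : l * (CD * (2 * A + 6 * (Ac + 2))) ≤ A * k8 / 2) (hc2 : CD * (Ac + 2) ≤ K / 10)
    (hc3 : K * l ≤ A * k8) :
    srcF CD l u z x (bF A K l O B) (bP A K1 l u O B) (bc A Ac α β l u z O S SS)
      (bN A Ac α β γ K2 K3 l u z O S SS e) ≤ A * LO + K * l * LB := by
  have hs := srcF_le h p hSS h1 h2 h3
  have hwO : 0 ≤ w * O := mul_nonneg h.w0 h.O0
  have hk8 : 0 ≤ A * k8 := (mul_nonneg p.K p.l).trans hc3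
  have a1 : A * (k8 * (w * O)) ≤ A * LO := mul_le_mul_of_nonneg_left hLO p.A.le
  have a2 : K * l * (e * (ez / 2 - ka * (1 - ez))) ≤ K * l * LB :=
    mul_le_mul_of_nonneg_left hLB (mul_nonneg p.K p.l)
  have a3 : l * (CD * (2 * A + 6 * (Ac + 2))) * (u ^ 2 * O) ≤ A * k8 / 2 * (w * O) := by
    refine (mul_le_mul_of_nonneg_right hc1 (mul_nonneg (h.unn 2) h.O0)).trans ?_
    exact mul_le_mul_of_nonneg_left h.u2O (by linarith)
  have a4 : l * (CD * (Ac + 2)) * e ≤ K * l * e * (1 / 10) := by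
    have := mul_le_mul_of_nonneg_left hc2 (mul_nonneg p.l h.e0)
    nlinarith [this]
  have hKle : 0 ≤ K * l * e := mul_nonneg (mul_nonneg p.K p.l) h.e0
  rcases le_total z 1 with hz | hz
  · have h13 := hez hz
    have a5 : (1 : ℝ) / 10 ≤ ez / 2 - ka * (1 - ez) := by nlinarith [mul_nonneg hka0 hez0]
    have a6 : K * l * e * (1 / 10) ≤ K * l * (e * (ez / 2 - ka * (1 - ez))) := by
      have := mul_le_mul_of_nonneg_left a5 hKle
      linarith [this]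
    have a7 : A * k8 / 2 * (w * O) ≤ A * (k8 * (w * O)) := by
      have := mul_nonneg hk8 hwO
      nlinarith [this]
    linarith
  · have b1 := h.e2 hz
    have b2 : e ≤ w * O := by
      have : u ^ 6 * O ≤ u ^ 2 * O := mul_le_mul_of_nonneg_right (h.upow (by norm_num)) h.O0
      linarith [h.u2O]
    have a5 : -(ka) ≤ ez / 2 - ka * (1 - ez) := by nlinarith [mul_nonneg hka0 hez0]
    have a6 : K * l * e * (-(ka)) ≤ K * l * (e * (ez / 2 - ka * (1 - ez))) := by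
      have := mul_le_mul_of_nonneg_left a5 hKle
      linarith [this]
    have a7 : K * l * e ≤ K * l * (w * O) := mul_le_mul_of_nonneg_left b2 (mul_nonneg p.K p.l)
    have a8 : K * l * (w * O) ≤ A * k8 * (w * O) := mul_le_mul_of_nonneg_right hc3 hwO
    have a9 : K * l * e * ka ≤ K * l * e * (1 / 20) := mul_le_mul_of_nonneg_left hka hKle
    nlinarith [a1, a2, a3, a4, a6, a7, a8, a9]

/-- source of (P) -/
def srcP (CD Cu l u z x y F c N : ℝ) : ℝ :=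
  l * CD * u ^ 2 * F + l * CD * (z * u ^ 3 + x) * (c + N) + l * Cu * (z * u ^ 2) * N + l * CD * y

/-- generic bound of `(z u³ + x)(c + N)` -/
theorem zx_le (h : Pt u w z O S B e x y) {M v : ℝ} (hM : 0 ≤ M) (hv : v ≤ M * S) :
    (z * u ^ 3 + x) * v ≤ M * (6 * (u ^ 2 * O) + e) := by
  have c1 := h.zuS
  have c2 := h.xSe
  calc (z * u ^ 3 + x) * v ≤ (z * u ^ 3 + x) * (M * S) :=
        mul_le_mul_of_nonneg_left hv (add_nonneg (mul_nonneg h.z0.le (h.unn 3)) h.x0)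
    _ = M * (z * u ^ 3 * S + x * S) := by ring
    _ ≤ _ := mul_le_mul_of_nonneg_left (add_le_add c1 c2) hM

theorem zu2_bc (h : Pt u w z O S B e x y) {M v : ℝ} (hM : 0 ≤ M) (hv : v ≤ M * S) :
    z * u ^ 2 * (u ^ 2 * v) ≤ M * (6 * (u ^ 2 * O)) := by
  have hzu2 : 0 ≤ z * u ^ 2 := mul_nonneg h.z0.le (h.unn 2)
  have e2 : z * u ^ 2 * (u ^ 2 * v) ≤ z * u ^ 2 * (u ^ 2 * (M * S)) :=
    mul_le_mul_of_nonneg_left (mul_le_mul_of_nonneg_left hv (h.unn 2)) hzu2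
  have e3 : z * u ^ 4 * S ≤ 6 * (u ^ 2 * O) := by
    have := h.zuS
    have e4 : z * u ^ 4 * S = u * (z * u ^ 3 * S) := by ring
    have e5 : 0 ≤ z * u ^ 3 * S := mul_nonneg (mul_nonneg h.z0.le (h.unn 3)) h.S0
    rw [e4]
    have := mul_le_mul_of_nonneg_right h.u1 e5
    linarith
  have e6 := mul_le_mul_of_nonneg_left e3 hM
  calc _ ≤ z * u ^ 2 * (u ^ 2 * (M * S)) := e2
    _ = M * (z * u ^ 4 * S) := by ring
    _ ≤ _ := e6

theorem zu2_Tv (h : Pt u w z O S B e x y) (hγ : 0 ≤ γ) :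
    z * u ^ 2 * Tv u z O S γ ≤ (1 + 6 * γ) * (u ^ 2 * O) := by
  unfold Tv
  have e1 : z * u ^ 2 * (u ^ 3 * z * O) ≤ u ^ 2 * O := by
    have f1 : z * u ^ 2 * (u ^ 3 * z) ≤ u ^ 2 := by
      have f2 : (z * u) * (z * u) ≤ 1 := by
        have f3 : 0 ≤ z * u := mul_nonneg h.z0.le h.u0.le
        nlinarith [h.zu]
      have f4 : u ^ 3 * ((z * u) * (z * u)) ≤ u ^ 3 * 1 :=
        mul_le_mul_of_nonneg_left f2 (h.unn 3)
      have f5 := h.upow (show 2 ≤ 3 by norm_num)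
      nlinarith [f4, f5]
    have := mul_le_mul_of_nonneg_right f1 h.O0
    linarith
  have e2 : z * u ^ 2 * (γ * (u ^ 4 * S)) ≤ 6 * γ * (u ^ 2 * O) := by
    have f1 : z * u ^ 6 * S ≤ 6 * (u ^ 2 * O) := by
      have f2 : z * u ^ 6 * S = u ^ 3 * (z * u ^ 3 * S) := by ring
      have f3 : 0 ≤ z * u ^ 3 * S := mul_nonneg (mul_nonneg h.z0.le (h.unn 3)) h.S0
      rw [f2]
      have := mul_le_mul_of_nonneg_right (h.un 3) f3
      linarith [h.zuS]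
    have := mul_le_mul_of_nonneg_left f1 hγ
    calc _ = γ * (z * u ^ 6 * S) := by ring
      _ ≤ _ := this
      _ = _ := by ring
  calc _ = z * u ^ 2 * (u ^ 3 * z * O) + z * u ^ 2 * (γ * (u ^ 4 * S)) := by ring
    _ ≤ _ := add_le_add e1 e2
    _ = _ := by ring

theorem zu2_e (h : Pt u w z O S B e x y) : z * u ^ 2 * e ≤ e := by
  have f1 : z * u ^ 2 ≤ 1 := by
    have := mul_le_mul_of_nonneg_left h.u1 (mul_nonneg h.z0.le h.u0.le)
    nlinarith [h.zu]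
  have := mul_le_mul_of_nonneg_right f1 h.e0
  linarith

/-- `z u² b_N` -/
theorem zu2_bN (h : Pt u w z O S B e x y) (p : Pos A Ac α β γ K K1 K2 K3 l CD Cu CuD)
    (hSS : SS ≤ S) (h1 : l * (A * (α * (1 + β))) ≤ 1) :
    z * u ^ 2 * bN A Ac α β γ K2 K3 l u z O S SS e ≤
      l * ((6 * K2 * (Ac + 1) + K3 * A * (1 + 6 * γ) + K2) * (u ^ 2 * O + e)) := by
  have hb := bc_le h p hSS h1
  unfold bN
  generalize bc A Ac α β l u z O S SS = v at hb ⊢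
  have d2 := zu2_Tv h p.γ
  generalize Tv u z O S γ = t at d2 ⊢
  have d1 := zu2_bc h (by linarith [p.Ac] : 0 ≤ Ac + 1) hb
  have d3 := zu2_e h
  have f1 := mul_le_mul_of_nonneg_left d1 p.K2
  have f2 := mul_le_mul_of_nonneg_left d2 (mul_nonneg p.K3 p.A.le)
  have f3 := mul_le_mul_of_nonneg_left d3 p.K2
  have hu2O : 0 ≤ u ^ 2 * O := mul_nonneg (h.unn 2) h.O0
  have g1 : 0 ≤ (6 * K2 * (Ac + 1) + K3 * A * (1 + 6 * γ)) * e := by
    have := p.K2; have := p.Ac; have := p.K3; have := p.A; have := p.γ; have := h.e0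
    positivity
  have g2 : 0 ≤ K2 * (u ^ 2 * O) := mul_nonneg p.K2 hu2O
  have f4 : z * u ^ 2 * (K2 * (u ^ 2 * v) + K3 * A * t + K2 * e) ≤
      (6 * K2 * (Ac + 1) + K3 * A * (1 + 6 * γ) + K2) * (u ^ 2 * O + e) := by
    calc _ = K2 * (z * u ^ 2 * (u ^ 2 * v)) + K3 * A * (z * u ^ 2 * t) + K2 * (z * u ^ 2 * e) := by
          ring
      _ ≤ K2 * ((Ac + 1) * (6 * (u ^ 2 * O))) + K3 * A * ((1 + 6 * γ) * (u ^ 2 * O)) + K2 * e := by
          linarith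
      _ = (6 * K2 * (Ac + 1) + K3 * A * (1 + 6 * γ)) * (u ^ 2 * O) + K2 * e := by ring
      _ ≤ _ := by linarith
  calc _ = l * (z * u ^ 2 * (K2 * (u ^ 2 * v) + K3 * A * t + K2 * e)) := by ring
    _ ≤ _ := mul_le_mul_of_nonneg_left f4 p.l

/-- (V_P), generic values -/
theorem VP_aux (h : Pt u w z O S B e x y) (p : Pos A Ac α β γ K K1 K2 K3 l CD Cu CuD)
    {f c n M : ℝ} (hf : f ≤ 2 * A * O) (hcn : c + n ≤ (Ac + 2) * S)
    (hn : z * u ^ 2 * n ≤ l * (M * (u ^ 2 * O + e)))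
    (h4 : l * (Cu * M) ≤ 1) {g16 LO LB : ℝ}
    (hLO : g16 * (u ^ 2 * O) ≤ LO) (hLB : g16 * e ≤ LB)
    (hc1 : CD * (2 * A + 6 * (Ac + 2)) + 1 ≤ K1 * (g16 * A))
    (hc2 : CD * (Ac + 3) + 1 ≤ K1 * g16) :
    srcP CD Cu l u z x y f c n ≤ K1 * l * (A * LO + LB) := by
  unfold srcP
  have hlC : 0 ≤ l * CD := mul_nonneg p.l p.CD
  have b1 : l * CD * u ^ 2 * f ≤ l * CD * u ^ 2 * (2 * A * O) :=
    mul_le_mul_of_nonneg_left hf (mul_nonneg hlC (h.unn 2))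
  have b3 := zx_le h (by linarith [p.Ac] : 0 ≤ Ac + 2) hcn
  have b4 := mul_le_mul_of_nonneg_left b3 hlC
  have hue : 0 ≤ u ^ 2 * O + e := add_nonneg (mul_nonneg (h.unn 2) h.O0) h.e0
  have d5 : l * Cu * (z * u ^ 2) * n ≤ l * (u ^ 2 * O + e) := by
    have f1 := mul_le_mul_of_nonneg_left hn p.Cu
    have f2 := mul_le_mul_of_nonneg_right h4 hue
    have f3 := mul_le_mul_of_nonneg_left f1 p.l
    have f4 := mul_le_mul_of_nonneg_left f2 p.l
    calc _ = l * (Cu * (z * u ^ 2 * n)) := by ring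
      _ ≤ _ := f3
      _ = l * (l * (Cu * M) * (u ^ 2 * O + e)) := by ring
      _ ≤ _ := f4
      _ = _ := by ring
  have d6 : l * CD * y ≤ l * CD * e := mul_le_mul_of_nonneg_left h.y1 hlC
  have t1 : K1 * (A * (g16 * (u ^ 2 * O)) + g16 * e) ≤ K1 * (A * LO + LB) := by
    have := mul_le_mul_of_nonneg_left hLO p.A.le
    exact mul_le_mul_of_nonneg_left (by linarith) p.K1
  have t2 := mul_le_mul_of_nonneg_right hc1 (mul_nonneg (h.unn 2) h.O0)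
  have t3 := mul_le_mul_of_nonneg_right hc2 h.e0
  have t4 : CD * (2 * A + 6 * (Ac + 2)) * (u ^ 2 * O) + CD * (Ac + 2) * e + CD * e +
      (u ^ 2 * O + e) ≤ K1 * (A * LO + LB) := by linarith [t1, t2, t3]
  have t5 := mul_le_mul_of_nonneg_left t4 p.l
  linarith

/-- (V_P) -/
theorem VP (h : Pt u w z O S B e x y) (p : Pos A Ac α β γ K K1 K2 K3 l CD Cu CuD)
    (hSS : SS ≤ S) (h1 : l * (A * (α * (1 + β))) ≤ 1)
    (h2 : l * (K2 * (Ac + 1) + K3 * A * (1 + γ) + K2) ≤ 1)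
    (h3 : l * (K + K1 * (A + 1)) ≤ A)
    (h4 : l * (Cu * (6 * K2 * (Ac + 1) + K3 * A * (1 + 6 * γ) + K2)) ≤ 1) {g16 LO LB : ℝ}
    (hLO : g16 * (u ^ 2 * O) ≤ LO) (hLB : g16 * e ≤ LB)
    (hc1 : CD * (2 * A + 6 * (Ac + 2)) + 1 ≤ K1 * (g16 * A))
    (hc2 : CD * (Ac + 3) + 1 ≤ K1 * g16) :
    srcP CD Cu l u z x y (bF A K l O B) (bc A Ac α β l u z O S SS)
      (bN A Ac α β γ K2 K3 l u z O S SS e) ≤ K1 * l * (A * LO + LB) := by
  have hbP := bP_nonneg h p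
  exact VP_aux h p (by linarith [bFP_le h p h3]) (bcN_le h p hSS h1 h2)
    (zu2_bN h p hSS h1) h4 hLO hLB hc1 hc2

/-- error part of the source of (c) -/
def srcE (CD l u z x F P c N : ℝ) : ℝ :=
  l * CD * (z * u ^ 4 + x) * F + l * CD * u ^ 2 * (c + N) + l * CD * (z * u ^ 3 + x) * P

theorem u6 (h : Pt u w z O S B e x y) : u ^ 6 * S ≤ u ^ 4 * S :=
  mul_le_mul_of_nonneg_right (h.upow (by norm_num)) h.S0

/-- `x O ≤ u⁶ S`, `x B ≤ u⁶ S` -/
theorem xO_le (h : Pt u w z O S B e x y) : x * O ≤ u ^ 6 * S :=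
  (mul_le_mul_of_nonneg_right h.x1 h.O0).trans (mul_le_mul_of_nonneg_left h.OS (h.unn 6))

/-- bound of `b_P` by `O` -/
theorem bP_le (h : Pt u w z O S B e x y) (p : Pos A Ac α β γ K K1 K2 K3 l CD Cu CuD) :
    bP A K1 l u O B ≤ K1 * l * ((A + 1) * O) := by
  unfold bP
  have a2 : A * (u ^ 2 * O) + B ≤ (A + 1) * O := by
    have := mul_le_mul_of_nonneg_left (h.uO 2) p.A.le
    linarith [h.BO]
  exact mul_le_mul_of_nonneg_left a2 (mul_nonneg p.K1 p.l)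

/-- the error part of the source of (c), at the barriers: bounded by three symbols -/
theorem srcE_le (h : Pt u w z O S B e x y) (p : Pos A Ac α β γ K K1 K2 K3 l CD Cu CuD)
    (hSS0 : 0 ≤ SS)
    (h3 : l * (K + K1 * (A + 1)) ≤ A) :
    srcE CD l u z x (bF A K l O B) (bP A K1 l u O B) (bc A Ac α β l u z O S SS)
      (bN A Ac α β γ K2 K3 l u z O S SS e) ≤
      l * (CD * (Ac * (1 + l * K2))) * (u ^ 2 * SS) +
      l * (CD * (2 * A * u) + l * (CD * (A * α * (1 + l * K2) + K3 * A + K1 * (A + 1)))) *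
        (u ^ 3 * z * O) +
      l * (CD * (2 * A * u ^ 2) + l * (CD * (A * α * β * (1 + l * K2) + K3 * A * γ + K2 +
        K1 * (A + 1)))) * (u ^ 4 * S) := by
  unfold srcE
  have hbP0 := bP_nonneg h p
  have hF : bF A K l O B ≤ 2 * A * O := by linarith [bFP_le h p h3]
  have hP := bP_le h p
  have hlC : 0 ≤ l * CD := mul_nonneg p.l p.CD
  have hT0 := Tv_nonneg h p.β
  have hG0 := Tv_nonneg h p.γ
  have hzuO := h.zuO0
  have hzu3 : 0 ≤ z * u ^ 3 := mul_nonneg h.z0.le (h.unn 3)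
  have hzu4 : 0 ≤ z * u ^ 4 := mul_nonneg h.z0.le (h.unn 4)
  have hu4S : 0 ≤ u ^ 4 * S := mul_nonneg (h.unn 4) h.S0
  have hu3zO : 0 ≤ u ^ 3 * z * O := by nlinarith [hzuO]
  have hu2SS : 0 ≤ u ^ 2 * SS := mul_nonneg (h.unn 2) hSS0
  -- the F term
  have f1 : (z * u ^ 4 + x) * bF A K l O B ≤
      2 * A * u * (u ^ 3 * z * O) + 2 * A * u ^ 2 * (u ^ 4 * S) := by
    have a1 : (z * u ^ 4 + x) * bF A K l O B ≤ (z * u ^ 4 + x) * (2 * A * O) :=
      mul_le_mul_of_nonneg_left hF (add_nonneg hzu4 h.x0)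
    have a2 := mul_le_mul_of_nonneg_left (xO_le h) (by linarith [p.A] : 0 ≤ 2 * A)
    calc _ ≤ (z * u ^ 4 + x) * (2 * A * O) := a1
      _ = 2 * A * u * (u ^ 3 * z * O) + 2 * A * (x * O) := by ring
      _ ≤ 2 * A * u * (u ^ 3 * z * O) + 2 * A * (u ^ 6 * S) := by linarith
      _ = _ := by ring
  -- the P term
  have f2 : (z * u ^ 3 + x) * bP A K1 l u O B ≤
      l * (K1 * (A + 1)) * (u ^ 3 * z * O) + l * (K1 * (A + 1)) * (u ^ 4 * S) := by
    have a1 : (z * u ^ 3 + x) * bP A K1 l u O B ≤ (z * u ^ 3 + x) * (K1 * l * ((A + 1) * O)) :=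
      mul_le_mul_of_nonneg_left hP (add_nonneg hzu3 h.x0)
    have a0 : 0 ≤ l * (K1 * (A + 1)) :=
      mul_nonneg p.l (mul_nonneg p.K1 (by linarith [p.A]))
    have a2 := mul_le_mul_of_nonneg_left ((xO_le h).trans (u6 h)) a0
    calc _ ≤ (z * u ^ 3 + x) * (K1 * l * ((A + 1) * O)) := a1
      _ = l * (K1 * (A + 1)) * (u ^ 3 * z * O) + l * (K1 * (A + 1)) * (x * O) := by ring
      _ ≤ _ := by linarith
  -- the c term
  have f3 : u ^ 2 * bc A Ac α β l u z O S SS ≤ Ac * (u ^ 2 * SS) +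
      l * (A * α) * (u ^ 3 * z * O + β * (u ^ 4 * S)) := by
    unfold bc Tv
    have a1 : u ^ 2 * (u ^ 3 * z * O + β * (u ^ 4 * S)) ≤ u ^ 3 * z * O + β * (u ^ 4 * S) := by
      have := mul_le_mul_of_nonneg_right (h.un 2)
        (add_nonneg hu3zO (mul_nonneg p.β hu4S))
      linarith
    have a0 : 0 ≤ l * (A * α) := mul_nonneg p.l (mul_nonneg p.A.le p.α)
    have a2 := mul_le_mul_of_nonneg_left a1 a0
    calc _ = Ac * (u ^ 2 * SS) + l * (A * α) * (u ^ 2 * (u ^ 3 * z * O + β * (u ^ 4 * S))) := by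
          ring
      _ ≤ _ := by linarith
  -- the N term
  have f4 : u ^ 2 * bN A Ac α β γ K2 K3 l u z O S SS e ≤
      l * (K2 * (Ac * (u ^ 2 * SS) + l * (A * α) * (u ^ 3 * z * O + β * (u ^ 4 * S))) +
        K3 * A * (u ^ 3 * z * O + γ * (u ^ 4 * S)) + K2 * (u ^ 4 * S)) := by
    have hb0 := bc_nonneg h p hSS0
    unfold bN
    generalize bc A Ac α β l u z O S SS = v at f3 hb0 ⊢
    have a1 : u ^ 2 * (u ^ 2 * v) ≤ u ^ 2 * v := by
      have := mul_le_mul_of_nonneg_right (h.un 2) (mul_nonneg (h.unn 2) hb0)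
      linarith
    have a2 : u ^ 2 * Tv u z O S γ ≤ u ^ 3 * z * O + γ * (u ^ 4 * S) := by
      have := mul_le_mul_of_nonneg_right (h.un 2) hG0
      unfold Tv at this ⊢
      linarith
    have a3 : u ^ 2 * e ≤ u ^ 4 * S := by
      have b1 := mul_le_mul_of_nonneg_left h.e1 (h.unn 2)
      have b2 := mul_le_mul_of_nonneg_right (h.upow (show 4 ≤ 8 by norm_num)) h.S0
      nlinarith [b1, b2]
    have a4 := mul_le_mul_of_nonneg_left (a1.trans f3) p.K2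
    have a5 := mul_le_mul_of_nonneg_left a2 (mul_nonneg p.K3 p.A.le)
    have a6 := mul_le_mul_of_nonneg_left a3 p.K2
    have a7 : K2 * (u ^ 2 * (u ^ 2 * v)) + K3 * A * (u ^ 2 * Tv u z O S γ) + K2 * (u ^ 2 * e) ≤
      K2 * (Ac * (u ^ 2 * SS) + l * (A * α) * (u ^ 3 * z * O + β * (u ^ 4 * S))) +
        K3 * A * (u ^ 3 * z * O + γ * (u ^ 4 * S)) + K2 * (u ^ 4 * S) := by linarith
    have a8 := mul_le_mul_of_nonneg_left a7 p.l
    calc _ = l * (K2 * (u ^ 2 * (u ^ 2 * v)) + K3 * A * (u ^ 2 * Tv u z O S γ) +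
        K2 * (u ^ 2 * e)) := by ring
      _ ≤ _ := a8
  have g1 := mul_le_mul_of_nonneg_left f1 hlC
  have g2 := mul_le_mul_of_nonneg_left f2 hlC
  have g3 := mul_le_mul_of_nonneg_left (add_le_add f3 f4) hlC
  calc _ = l * CD * ((z * u ^ 4 + x) * bF A K l O B) +
        l * CD * (u ^ 2 * bc A Ac α β l u z O S SS +
          u ^ 2 * bN A Ac α β γ K2 K3 l u z O S SS e) +
        l * CD * ((z * u ^ 3 + x) * bP A K1 l u O B) := by ring
    _ ≤ _ := add_le_add (add_le_add g1 g3) g2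
    _ = _ := by ring

/-- (V_c) -/
theorem Vc (h : Pt u w z O S B e x y) (p : Pos A Ac α β γ K K1 K2 K3 l CD Cu CuD)
    (hSS0 : 0 ≤ SS)
    (h3 : l * (K + K1 * (A + 1)) ≤ A) {dS k8 G1 G2 LS LT : ℝ} (hdS : 0 ≤ dS)
    (hLS : k8 * (w * SS) ≤ LS)
    (hLT : α * (G1 * (u ^ 3 * z * O) + G2 * (u ^ 4 * S)) ≤ LT)
    (hc1 : l * (CD * (1 + l * K2)) ≤ k8)
    (hc2 : CD * (2 * A * u) + l * (CD * (A * α * (1 + l * K2) + K3 * A + K1 * (A + 1)) + dS * K)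
      + dS * A ≤ A * (α * G1))
    (hc3 : CD * (2 * A * u ^ 2) + l * (CD * (A * α * β * (1 + l * K2) + K3 * A * γ + K2 +
        K1 * (A + 1))) ≤ A * (α * G2)) :
    l * dS * (z * u ^ 3) * bF A K l O B +
      srcE CD l u z x (bF A K l O B) (bP A K1 l u O B) (bc A Ac α β l u z O S SS)
      (bN A Ac α β γ K2 K3 l u z O S SS e) ≤ Ac * LS + l * A * LT := by
  have hs := srcE_le h p hSS0 h3
  have hk8 : 0 ≤ k8 := (mul_nonneg p.l (mul_nonneg p.CD (by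
    have := mul_nonneg p.l p.K2
    linarith))).trans hc1
  have hu3zO : 0 ≤ u ^ 3 * z * O := by nlinarith [h.zuO0]
  have hu4S : 0 ≤ u ^ 4 * S := mul_nonneg (h.unn 4) h.S0
  have hwSS : u ^ 2 * SS ≤ w * SS := mul_le_mul_of_nonneg_right h.w1 hSS0
  have hwSS0 : 0 ≤ w * SS := mul_nonneg h.w0 hSS0
  have m1 : l * dS * (z * u ^ 3) * bF A K l O B ≤
      l * (dS * A + l * (dS * K)) * (u ^ 3 * z * O) := by
    unfold bF
    have a0 : 0 ≤ l * dS * (z * u ^ 3) :=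
      mul_nonneg (mul_nonneg p.l hdS) (mul_nonneg h.z0.le (h.unn 3))
    have a1 : A * O + K * l * B ≤ (A + l * K) * O := by
      have := mul_le_mul_of_nonneg_left h.BO (mul_nonneg p.K p.l)
      linarith
    have := mul_le_mul_of_nonneg_left a1 a0
    calc _ ≤ _ := this
      _ = _ := by ring
  have m2 : l * (CD * (Ac * (1 + l * K2))) * (u ^ 2 * SS) ≤ Ac * LS := by
    have a1 : l * (CD * (Ac * (1 + l * K2))) * (u ^ 2 * SS) ≤ Ac * k8 * (u ^ 2 * SS) := by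
      have := mul_le_mul_of_nonneg_left hc1 p.Ac.le
      refine mul_le_mul_of_nonneg_right ?_ (mul_nonneg (h.unn 2) hSS0)
      calc _ = Ac * (l * (CD * (1 + l * K2))) := by ring
        _ ≤ _ := this
    have a2 : Ac * k8 * (u ^ 2 * SS) ≤ Ac * k8 * (w * SS) :=
      mul_le_mul_of_nonneg_left hwSS (mul_nonneg p.Ac.le hk8)
    have a3 := mul_le_mul_of_nonneg_left hLS p.Ac.le
    linarith
  have m3 : l * A * (α * (G1 * (u ^ 3 * z * O) + G2 * (u ^ 4 * S))) ≤ l * A * LT :=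
    mul_le_mul_of_nonneg_left hLT (mul_nonneg p.l p.A.le)
  have m4 := mul_le_mul_of_nonneg_right hc2 (mul_nonneg p.l hu3zO)
  have m5 := mul_le_mul_of_nonneg_right hc3 (mul_nonneg p.l hu4S)
  linarith

/-- source of (N) -/
def srcN (CD Cu CuD l u z x y F P c : ℝ) : ℝ :=
  l * CD * u ^ 2 * c + l * (CuD * (z * u ^ 3) + CD * x) * F +
    l * (CD * (z * u ^ 3 + x) + Cu * (z * u ^ 2)) * P + l * CD * y

theorem bP_le2 (h : Pt u w z O S B e x y) (p : Pos A Ac α β γ K K1 K2 K3 l CD Cu CuD) :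
    bP A K1 l u O B ≤ K1 * l * ((A + 1) * (u ^ 2 * O)) := by
  unfold bP
  have a2 : B ≤ u ^ 2 * O :=
    h.B1.trans (mul_le_mul_of_nonneg_right (h.upow (by norm_num)) h.O0)
  exact mul_le_mul_of_nonneg_left (by linarith) (mul_nonneg p.K1 p.l)

/-- (V_N) -/
theorem VN (h : Pt u w z O S B e x y) (p : Pos A Ac α β γ K K1 K2 K3 l CD Cu CuD)
    (hSS0 : 0 ≤ SS)
    (h3 : l * (K + K1 * (A + 1)) ≤ A) {g16 G2 Lb LT Le : ℝ} (hG2 : 0 ≤ G2)
    (hLb : g16 * (u ^ 2 * bc A Ac α β l u z O S SS) ≤ Lb)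
    (hLT : g16 * (u ^ 3 * z * O) + G2 * (u ^ 4 * S) ≤ LT) (hLe : g16 * e ≤ Le)
    (hc1 : CD ≤ K2 * g16)
    (hc2 : CuD * (A + l * K) + l * ((CD + Cu) * (K1 * (A + 1))) ≤ K3 * A * g16)
    (hc3 : CD * (2 * A + 1) + l * (CD * (K1 * (A + 1))) ≤ K2 * g16) :
    srcN CD Cu CuD l u z x y (bF A K l O B) (bP A K1 l u O B) (bc A Ac α β l u z O S SS) ≤
      l * (K2 * Lb + K3 * A * LT + K2 * Le) := by
  unfold srcN
  have hF : bF A K l O B ≤ 2 * A * O := by linarith [bFP_le h p h3, bP_nonneg h p]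
  have hF2 : bF A K l O B ≤ (A + l * K) * O := by
    unfold bF
    have := mul_le_mul_of_nonneg_left h.BO (mul_nonneg p.K p.l)
    linarith
  have hP := bP_le h p
  have hP2 := bP_le2 h p
  have hb0 := bc_nonneg h p hSS0
  generalize bc A Ac α β l u z O S SS = c at *
  generalize bF A K l O B = f at *
  generalize bP A K1 l u O B = q at *
  have hu2c : 0 ≤ u ^ 2 * c := mul_nonneg (h.unn 2) hb0
  have hzu3 : 0 ≤ z * u ^ 3 := mul_nonneg h.z0.le (h.unn 3)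
  have hzu2 : 0 ≤ z * u ^ 2 := mul_nonneg h.z0.le (h.unn 2)
  have hu3zO : 0 ≤ u ^ 3 * z * O := by nlinarith [h.zuO0]
  have hu4S : 0 ≤ u ^ 4 * S := mul_nonneg (h.unn 4) h.S0
  have hKA : 0 ≤ K1 * (A + 1) := mul_nonneg p.K1 (by linarith [p.A])
  -- c
  have a1 : CD * (u ^ 2 * c) ≤ K2 * Lb := by
    have b1 := mul_le_mul_of_nonneg_right hc1 hu2c
    have b2 := mul_le_mul_of_nonneg_left hLb p.K2
    linarith
  -- F
  have a2 : (CuD * (z * u ^ 3) + CD * x) * f ≤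
      CuD * (A + l * K) * (u ^ 3 * z * O) + CD * (2 * A) * e := by
    have b1 : CuD * (z * u ^ 3) * f ≤ CuD * (z * u ^ 3) * ((A + l * K) * O) :=
      mul_le_mul_of_nonneg_left hF2 (mul_nonneg p.CuD hzu3)
    have b2 : CD * x * f ≤ CD * x * (2 * A * O) :=
      mul_le_mul_of_nonneg_left hF (mul_nonneg p.CD h.x0)
    have b3 := mul_le_mul_of_nonneg_left h.xOe (mul_nonneg p.CD (by linarith [p.A] : 0 ≤ 2 * A))
    linarith
  -- P
  have a3 : (CD * (z * u ^ 3 + x) + Cu * (z * u ^ 2)) * q ≤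
      l * ((CD + Cu) * (K1 * (A + 1))) * (u ^ 3 * z * O) + l * (CD * (K1 * (A + 1))) * e := by
    have b1 : CD * (z * u ^ 3 + x) * q ≤ CD * (z * u ^ 3 + x) * (K1 * l * ((A + 1) * O)) :=
      mul_le_mul_of_nonneg_left hP (mul_nonneg p.CD (add_nonneg hzu3 h.x0))
    have b2 : Cu * (z * u ^ 2) * q ≤ Cu * (z * u ^ 2) * (K1 * l * ((A + 1) * (u ^ 2 * O))) :=
      mul_le_mul_of_nonneg_left hP2 (mul_nonneg p.Cu hzu2)
    have b3 := mul_le_mul_of_nonneg_left h.xOe (mul_nonneg p.CD (mul_nonneg p.l hKA))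
    have b4 : u * (u ^ 3 * z * O) ≤ u ^ 3 * z * O := by
      have := mul_le_mul_of_nonneg_right h.u1 hu3zO
      linarith
    have b5 := mul_le_mul_of_nonneg_left b4 (mul_nonneg p.Cu (mul_nonneg p.l hKA))
    linarith
  have a4 : CD * y ≤ CD * e := mul_le_mul_of_nonneg_left h.y1 p.CD
  have t1 := mul_le_mul_of_nonneg_right hc2 hu3zO
  have t2 := mul_le_mul_of_nonneg_right hc3 h.e0
  have t3 := mul_le_mul_of_nonneg_left hLT (mul_nonneg p.K3 p.A.le)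
  have t4 := mul_le_mul_of_nonneg_left hLe p.K2
  have t5 : 0 ≤ K3 * A * (G2 * (u ^ 4 * S)) :=
    mul_nonneg (mul_nonneg p.K3 p.A.le) (mul_nonneg hG2 hu4S)
  have t6 : CD * (u ^ 2 * c) + (CuD * (z * u ^ 3) + CD * x) * f +
      (CD * (z * u ^ 3 + x) + Cu * (z * u ^ 2)) * q + CD * y ≤
      K2 * Lb + K3 * A * LT + K2 * Le := by linarith
  have t7 := mul_le_mul_of_nonneg_left t6 p.l
  linarith

/-! ### triplet sector -/

/-- source of (t) -/
def srct (CD l u z x t N P : ℝ) : ℝ :=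
  l * CD * u ^ 2 * (t + N) + l * CD * (z * u ^ 3 + x) * P
/-- source of (N_T) -/
def srcNT (CD l u z x y t P : ℝ) : ℝ :=
  l * CD * u ^ 2 * t + l * CD * (z * u ^ 2 + x) * P + l * CD * y
/-- source of (P_T) -/
def srcPT (CD l u z x y t N : ℝ) : ℝ :=
  l * CD * (z * u ^ 3 + x) * t + l * CD * (z * u ^ 2 + x) * N + l * CD * y

theorem srct_le (h : Pt u w z O S B e x y) {At KT : ℝ} (hl : 0 ≤ l) (hCD : 0 ≤ CD)
    (hKT : 0 ≤ KT) :
    srct CD l u z x (At * S) (KT * l * (u ^ 2 * S + e)) (KT * l * (u ^ 2 * O + B)) ≤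
      l * (CD * (At + 6 * (KT * l))) * (u ^ 2 * S) := by
  unfold srct
  have hlC : 0 ≤ l * CD := mul_nonneg hl hCD
  have hKl : 0 ≤ KT * l := mul_nonneg hKT hl
  have a1 : u ^ 2 * S + e ≤ 2 * S := by linarith [h.uS 2, h.eS]
  have a2 : u ^ 2 * O + B ≤ 2 * S := by linarith [h.uO 2, h.BO, h.OS]
  have hzx : z * u ^ 3 + x ≤ 2 * u ^ 2 := by
    have b1 : z * u ^ 3 ≤ u ^ 2 := by
      have := mul_le_mul_of_nonneg_right h.zu (h.unn 2)
      nlinarith [this]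
    have b2 : x ≤ u ^ 2 := h.x1.trans (h.upow (by norm_num))
    linarith
  have hzx0 : 0 ≤ z * u ^ 3 + x := add_nonneg (mul_nonneg h.z0.le (h.unn 3)) h.x0
  have b1 : u ^ 2 * (At * S + KT * l * (u ^ 2 * S + e)) ≤
      u ^ 2 * (At * S + KT * l * (2 * S)) :=
    mul_le_mul_of_nonneg_left (by linarith [mul_le_mul_of_nonneg_left a1 hKl]) (h.unn 2)
  have b2 : (z * u ^ 3 + x) * (KT * l * (u ^ 2 * O + B)) ≤ 2 * u ^ 2 * (KT * l * (2 * S)) :=
    mul_le_mul hzx (mul_le_mul_of_nonneg_left a2 hKl)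
      (mul_nonneg hKl (add_nonneg (mul_nonneg (h.unn 2) h.O0) h.B0))
      (mul_nonneg (by norm_num) (h.unn 2))
  have b3 := mul_le_mul_of_nonneg_left (add_le_add b1 b2) hlC
  calc _ = l * CD * (u ^ 2 * (At * S + KT * l * (u ^ 2 * S + e)) +
        (z * u ^ 3 + x) * (KT * l * (u ^ 2 * O + B))) := by ring
    _ ≤ _ := b3
    _ = _ := by ring

/-- (V_t) -/
theorem Vt (h : Pt u w z O S B e x y) {At KT k8 LS : ℝ} (hl : 0 ≤ l) (hCD : 0 ≤ CD)
    (hKT : 0 ≤ KT) (hAt : 0 ≤ At) (hLS : k8 * (w * S) ≤ LS)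
    (hc : l * (CD * (At + 6 * (KT * l))) ≤ At * k8) :
    srct CD l u z x (At * S) (KT * l * (u ^ 2 * S + e)) (KT * l * (u ^ 2 * O + B)) ≤
      At * LS := by
  have h0 : 0 ≤ At * k8 := (mul_nonneg hl (mul_nonneg hCD
    (add_nonneg hAt (mul_nonneg (by norm_num) (mul_nonneg hKT hl))))).trans hc
  have a1 := srct_le h (At := At) hl hCD hKT
  have a2 := mul_le_mul_of_nonneg_right hc (mul_nonneg (h.unn 2) h.S0)
  have a3 : At * k8 * (u ^ 2 * S) ≤ At * k8 * (w * S) :=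
    mul_le_mul_of_nonneg_left (mul_le_mul_of_nonneg_right h.w1 h.S0) h0
  have a4 := mul_le_mul_of_nonneg_left hLS hAt
  linarith

/-- (V_NT) -/
theorem VNT (h : Pt u w z O S B e x y) {At KT g16 LS Le : ℝ} (hl : 0 ≤ l) (hCD : 0 ≤ CD)
    (hKT : 0 ≤ KT) (hLS : g16 * (u ^ 2 * S) ≤ LS) (hLe : g16 * e ≤ Le)
    (hc1 : CD * (At + 4 * (KT * l)) ≤ KT * g16) (hc2 : CD ≤ KT * g16) :
    srcNT CD l u z x y (At * S) (KT * l * (u ^ 2 * O + B)) ≤ KT * l * (LS + Le) := by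
  unfold srcNT
  have hlC : 0 ≤ l * CD := mul_nonneg hl hCD
  have hKl : 0 ≤ KT * l := mul_nonneg hKT hl
  have hB2 : B ≤ u ^ 2 * O :=
    h.B1.trans (mul_le_mul_of_nonneg_right (h.upow (by norm_num)) h.O0)
  have a1 : u ^ 2 * O + B ≤ 2 * (u ^ 2 * O) := by linarith
  have hu2OS : u ^ 2 * O ≤ u ^ 2 * S := mul_le_mul_of_nonneg_left h.OS (h.unn 2)
  have hzx : z * u ^ 2 + x ≤ 2 := by
    have f1 : z * u ^ 2 ≤ 1 := by
      have := mul_le_mul_of_nonneg_left h.u1 (mul_nonneg h.z0.le h.u0.le)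
      nlinarith [h.zu]
    linarith [h.x_le]
  have b2 : (z * u ^ 2 + x) * (KT * l * (u ^ 2 * O + B)) ≤ 2 * (KT * l * (2 * (u ^ 2 * S))) :=
    mul_le_mul hzx (mul_le_mul_of_nonneg_left (by linarith) hKl)
      (mul_nonneg hKl (add_nonneg (mul_nonneg (h.unn 2) h.O0) h.B0)) (by norm_num)
  have b3 := mul_le_mul_of_nonneg_left h.y1 hlC
  have b4 := mul_le_mul_of_nonneg_left b2 hlC
  have c1 := mul_le_mul_of_nonneg_right hc1 (mul_nonneg hl (mul_nonneg (h.unn 2) h.S0))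
  have c2 := mul_le_mul_of_nonneg_right hc2 (mul_nonneg hl h.e0)
  have c3 := mul_le_mul_of_nonneg_left (add_le_add hLS hLe) hKl
  linarith

/-- (V_PT) -/
theorem VPT (h : Pt u w z O S B e x y) {At KT g16 LO LB : ℝ} (hl : 0 ≤ l) (hCD : 0 ≤ CD)
    (hKT : 0 ≤ KT) (hAt : 0 ≤ At) (hLO : g16 * (u ^ 2 * O) ≤ LO) (hLB : g16 * e ≤ LB)
    (hc1 : 6 * (CD * (At + 2 * (KT * l))) ≤ KT * g16)
    (hc2 : CD * (At + 4 * (KT * l) + 1) ≤ KT * g16) :
    srcPT CD l u z x y (At * S) (KT * l * (u ^ 2 * S + e)) ≤ KT * l * (LO + LB) := by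
  unfold srcPT
  have hlC : 0 ≤ l * CD := mul_nonneg hl hCD
  have hKl : 0 ≤ KT * l := mul_nonneg hKT hl
  have hu2O : 0 ≤ u ^ 2 * O := mul_nonneg (h.unn 2) h.O0
  have a1 : (z * u ^ 3 + x) * (At * S) ≤ At * (6 * (u ^ 2 * O) + e) := by
    have := mul_le_mul_of_nonneg_left (add_le_add h.zuS h.xSe) hAt
    linarith
  have a2 : z * u ^ 2 * (u ^ 2 * S) ≤ 6 * (u ^ 2 * O) := by
    have := zu2_bc h (v := S) (M := 1) zero_le_one (by linarith)
    linarith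
  have a3 := zu2_e h
  have a4 : x * (u ^ 2 * S) ≤ e := by
    have := mul_le_mul_of_nonneg_left (h.uS 2) h.x0
    linarith [h.xSe]
  have a5 : x * e ≤ e := by
    have := mul_le_mul_of_nonneg_right h.x_le h.e0
    linarith
  have a6 : (z * u ^ 2 + x) * (u ^ 2 * S + e) ≤ 6 * (u ^ 2 * O) + 3 * e := by linarith
  have a7 := mul_le_mul_of_nonneg_left a6 hKl
  have b1 := mul_le_mul_of_nonneg_left a1 hlC
  have b2 := mul_le_mul_of_nonneg_left a7 hlC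
  have b3 := mul_le_mul_of_nonneg_left h.y1 hlC
  have c1 := mul_le_mul_of_nonneg_right hc1 (mul_nonneg hl hu2O)
  have c2 := mul_le_mul_of_nonneg_right hc2 (mul_nonneg hl h.e0)
  have c3 := mul_le_mul_of_nonneg_left (add_le_add hLO hLB) hKl
  have c4 : 0 ≤ l * CD * (KT * l) * (u ^ 2 * O) := mul_nonneg (mul_nonneg hlC hKl) hu2O
  have c5 : 0 ≤ l * CD * (KT * l) * e := mul_nonneg (mul_nonneg hlC hKl) h.e0
  linarith

/-! ### lower bounds -/

/-- (L_F): `LOp` bounds `L O⁺` from above -/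
theorem LF (h : Pt u w z O S B e x y) (p : Pos A Ac α β γ K K1 K2 K3 l CD Cu CuD)
    (hSS : SS ≤ S) (h1 : l * (A * (α * (1 + β))) ≤ 1)
    (h2 : l * (K2 * (Ac + 1) + K3 * A * (1 + γ) + K2) ≤ 1)
    (h3 : l * (K + K1 * (A + 1)) ≤ A) {k16 LOp LB ez ka Am Op CO : ℝ}
    (hAm : 0 ≤ Am) (hOp0 : 0 ≤ Op) (hOOp : O ≤ CO * Op) (hCO : 0 ≤ CO)
    (hLO : LOp ≤ -(k16 * (w * Op))) (hLB : e * (ez / 2 - ka * (1 - ez)) ≤ LB)
    (hez0 : 0 ≤ ez) (hez : z ≤ 1 → 1 / 3 ≤ ez) (hka0 : 0 ≤ ka) (hka : ka ≤ 1 / 20)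
    (hc1 : l * (CD * (2 * A + 6 * (Ac + 2)) + K) * CO ≤ Am * k16)
    (hc2 : CD * (Ac + 2) ≤ K / 10) :
    Am * LOp - K * l * LB + srcF CD l u z x (bF A K l O B) (bP A K1 l u O B)
      (bc A Ac α β l u z O S SS) (bN A Ac α β γ K2 K3 l u z O S SS e) ≤ 0 := by
  have hs := srcF_le h p hSS h1 h2 h3
  have hwOp : 0 ≤ w * Op := mul_nonneg h.w0 hOp0
  have hKl := mul_nonneg p.K p.l
  have hKle : 0 ≤ K * l * e := mul_nonneg hKl h.e0
  have a1 : Am * LOp ≤ -(Am * k16 * (w * Op)) := by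
    have := mul_le_mul_of_nonneg_left hLO hAm
    linarith
  have a2 : K * l * (e * (ez / 2 - ka * (1 - ez))) ≤ K * l * LB :=
    mul_le_mul_of_nonneg_left hLB hKl
  have u2O : u ^ 2 * O ≤ CO * (w * Op) := by
    have b1 : u ^ 2 * O ≤ u ^ 2 * (CO * Op) := mul_le_mul_of_nonneg_left hOOp (h.unn 2)
    have b2 : u ^ 2 * (CO * Op) ≤ w * (CO * Op) :=
      mul_le_mul_of_nonneg_right h.w1 (mul_nonneg hCO hOp0)
    linarith
  have hM0 : 0 ≤ l * (CD * (2 * A + 6 * (Ac + 2))) := by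
    have := p.l; have := p.CD; have := p.A; have := p.Ac
    positivity
  have a3 := mul_le_mul_of_nonneg_left u2O hM0
  have a4 : l * (CD * (Ac + 2)) * e ≤ K * l * e * (1 / 10) := by
    have := mul_le_mul_of_nonneg_left hc2 (mul_nonneg p.l h.e0)
    nlinarith [this]
  have c1 := mul_le_mul_of_nonneg_right hc1 hwOp
  have hKw : 0 ≤ K * l * (CO * (w * Op)) := mul_nonneg hKl (mul_nonneg hCO hwOp)
  rcases le_total z 1 with hz | hz
  · have h13 := hez hz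
    have a5 : (1 : ℝ) / 10 ≤ ez / 2 - ka * (1 - ez) := by nlinarith [mul_nonneg hka0 hez0]
    have a6 : K * l * e * (1 / 10) ≤ K * l * (e * (ez / 2 - ka * (1 - ez))) := by
      have := mul_le_mul_of_nonneg_left a5 hKle
      linarith [this]
    linarith
  · have b2 : e ≤ CO * (w * Op) := by
      have b1 := h.e2 hz
      have : u ^ 6 * O ≤ u ^ 2 * O := mul_le_mul_of_nonneg_right (h.upow (by norm_num)) h.O0
      linarith
    have a5 : -(ka) ≤ ez / 2 - ka * (1 - ez) := by nlinarith [mul_nonneg hka0 hez0]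
    have a6 : K * l * e * (-(ka)) ≤ K * l * (e * (ez / 2 - ka * (1 - ez))) := by
      have := mul_le_mul_of_nonneg_left a5 hKle
      linarith [this]
    have a7 : K * l * e ≤ K * l * (CO * (w * Op)) := mul_le_mul_of_nonneg_left b2 hKl
    have a9 : K * l * e * ka ≤ K * l * e * (1 / 20) := mul_le_mul_of_nonneg_left hka hKle
    linarith

/-- (L_c): `ℓ_c = aₙ SSp + l (Am/2) T^low`; `LSp`, `LT` bound `L_S SSp`, `L_S T^low` from above. -/
theorem Lc (h : Pt u w z O S B e x y) (p : Pos A Ac α β γ K K1 K2 K3 l CD Cu CuD)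
    (hSS0 : 0 ≤ SS)
    (h3 : l * (K + K1 * (A + 1)) ≤ A) {dS k16 LSp LT an Am Op Sp SSp CO G1 G2 F : ℝ}
    (han : 0 ≤ an) (hAm : 0 ≤ Am) (hdS : 0 ≤ dS) (hOp0 : 0 ≤ Op) (hOOp : O ≤ CO * Op)
    (hCO : 0 ≤ CO) (hSSp : SS ≤ SSp) (hSSp0 : 0 ≤ SSp) (hSSpp : S ≤ Sp)
    (hzSp : z * u * Sp ≤ 6 * Op)
    (hF : Am / 2 * Op ≤ F)
    (hLS : LSp ≤ -(k16 * (w * SSp)))
    (hLT : LT ≤ G1 * (u ^ 3 * z * Op) - (if 6 * z ^ 2 * u ^ 2 ≤ 1 then G2 * (u ^ 4 * Sp) else 0))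
    (hc1 : l * (CD * (Ac * (1 + l * K2))) ≤ an * k16)
    (hc2 : (CD * (2 * A * u) + l * (CD * (A * α * (1 + l * K2) + K3 * A + K1 * (A + 1)))) * CO +
      36 * (CD * (2 * A * u ^ 2) + l * (CD * (A * α * β * (1 + l * K2) + K3 * A * γ + K2 +
        K1 * (A + 1)))) ≤ Am / 2 * (dS - G1))
    (hc3 : CD * (2 * A * u ^ 2) + l * (CD * (A * α * β * (1 + l * K2) + K3 * A * γ + K2 +
        K1 * (A + 1))) ≤ Am / 2 * G2) :
    an * LSp + l * (Am / 2) * LT - l * dS * (z * u ^ 3) * F +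
      srcE CD l u z x (bF A K l O B) (bP A K1 l u O B) (bc A Ac α β l u z O S SS)
      (bN A Ac α β γ K2 K3 l u z O S SS e) ≤ 0 := by
  have hs := srcE_le h p hSS0 h3
  have hu3zOp : 0 ≤ u ^ 3 * z * Op := mul_nonneg (mul_nonneg (h.unn 3) h.z0.le) hOp0
  have hSp0 : 0 ≤ Sp := h.S0.trans hSSpp
  have hu4Sp : 0 ≤ u ^ 4 * Sp := mul_nonneg (h.unn 4) hSp0
  have hlA : 0 ≤ l * (Am / 2) := mul_nonneg p.l (by linarith)
  -- constants
  obtain ⟨X1, hX1⟩ : ∃ X1, X1 = CD * (2 * A * u) +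
    l * (CD * (A * α * (1 + l * K2) + K3 * A + K1 * (A + 1))) := ⟨_, rfl⟩
  obtain ⟨X2, hX2⟩ : ∃ X2, X2 = CD * (2 * A * u ^ 2) +
    l * (CD * (A * α * β * (1 + l * K2) + K3 * A * γ + K2 + K1 * (A + 1))) := ⟨_, rfl⟩
  have hX10 : 0 ≤ X1 := by
    rw [hX1]
    have := p.l; have := p.CD; have := p.A; have := p.α; have := p.K1; have := p.K2
    have := p.K3; have := h.u0
    positivity
  have hX20 : 0 ≤ X2 := by
    rw [hX2]
    have := p.l; have := p.CD; have := p.A; have := p.α; have := p.β; have := p.γ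
    have := p.K1; have := p.K2; have := p.K3; have := h.u0
    positivity
  rw [← hX1, ← hX2] at hc2 hs
  rw [← hX2] at hc3
  -- the three symbols
  have a1 : u ^ 2 * SS ≤ w * SSp :=
    mul_le_mul h.w1 hSSp hSS0 h.w0
  have a2 : u ^ 3 * z * O ≤ CO * (u ^ 3 * z * Op) := by
    have := mul_le_mul_of_nonneg_left hOOp (mul_nonneg (h.unn 3) h.z0.le)
    linarith
  have a3 : u ^ 4 * S ≤ u ^ 4 * Sp := mul_le_mul_of_nonneg_left hSSpp (h.unn 4)
  have hM0 : 0 ≤ l * (CD * (Ac * (1 + l * K2))) := by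
    have := p.l; have := p.CD; have := p.Ac; have := p.K2
    positivity
  have b1 := mul_le_mul_of_nonneg_left a1 hM0
  have b2 := mul_le_mul_of_nonneg_left a2 (mul_nonneg p.l hX10)
  have b3 := mul_le_mul_of_nonneg_left a3 (mul_nonneg p.l hX20)
  have b4 := mul_le_mul_of_nonneg_right hc1 (mul_nonneg h.w0 hSSp0)
  have b5 := mul_le_mul_of_nonneg_left hLS han
  have b6 := mul_le_mul_of_nonneg_left hLT hlA
  have b7 : l * dS * (z * u ^ 3) * (Am / 2 * Op) ≤ l * dS * (z * u ^ 3) * F :=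
    mul_le_mul_of_nonneg_left hF (mul_nonneg (mul_nonneg p.l hdS)
      (mul_nonneg h.z0.le (h.unn 3)))
  have c2 := mul_le_mul_of_nonneg_right hc2 (mul_nonneg p.l hu3zOp)
  have hlu4 : 0 ≤ l * (u ^ 4 * Sp) := mul_nonneg p.l hu4Sp
  have hlu3 : 0 ≤ l * (u ^ 3 * z * Op) := mul_nonneg p.l hu3zOp
  by_cases hz : 6 * z ^ 2 * u ^ 2 ≤ 1
  · rw [if_pos hz] at b6
    have c3 := mul_le_mul_of_nonneg_right hc3 hlu4
    have c4 : 0 ≤ 36 * X2 * (l * (u ^ 3 * z * Op)) :=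
      mul_nonneg (mul_nonneg (by norm_num) hX20) hlu3
    linarith
  · rw [if_neg hz] at b6
    -- `u⁴ Sp ≤ 36 u³ z Op`
    have hz' : 1 ≤ 6 * (z * u) ^ 2 := by
      have h9 := not_le.1 hz
      have h8 : 6 * z ^ 2 * u ^ 2 = 6 * (z * u) ^ 2 := by ring
      rw [h8] at h9
      exact h9.le
    have d1 : u ^ 4 * Sp ≤ 36 * (u ^ 3 * z * Op) := by
      have e1 : u ^ 4 * Sp ≤ 6 * (z * u) ^ 2 * (u ^ 4 * Sp) := by
        have := mul_le_mul_of_nonneg_right hz' hu4Sp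
        linarith
      have e2 : 6 * (z * u) ^ 2 * (u ^ 4 * Sp) = 6 * (z * u ^ 5) * (z * u * Sp) := by ring
      have e3 : 6 * (z * u ^ 5) * (z * u * Sp) ≤ 6 * (z * u ^ 5) * (6 * Op) :=
        mul_le_mul_of_nonneg_left hzSp
          (mul_nonneg (by norm_num) (mul_nonneg h.z0.le (h.unn 5)))
      have e4 : z * u ^ 5 * Op ≤ u ^ 3 * z * Op := by
        have h9 := mul_le_mul_of_nonneg_right (h.un 2) hu3zOp
        have h8 : u ^ 2 * (u ^ 3 * z * Op) = z * u ^ 5 * Op := by ring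
        rw [h8, one_mul] at h9
        exact h9
      calc u ^ 4 * Sp ≤ 6 * (z * u) ^ 2 * (u ^ 4 * Sp) := e1
        _ = 6 * (z * u ^ 5) * (z * u * Sp) := e2
        _ ≤ 6 * (z * u ^ 5) * (6 * Op) := e3
        _ = 36 * (z * u ^ 5 * Op) := by ring
        _ ≤ _ := mul_le_mul_of_nonneg_left e4 (by norm_num)
    have d2 := mul_le_mul_of_nonneg_left d1 (mul_nonneg p.l hX20)
    linarith

/-- (L_t) -/
theorem Lt (h : Pt u w z O S B e x y) {At KT k16 LSp Sp at' : ℝ} (hl : 0 ≤ l) (hCD : 0 ≤ CD)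
    (hKT : 0 ≤ KT) (hAt : 0 ≤ At) (hat : 0 ≤ at') (hS : S ≤ Sp)
    (hLS : LSp ≤ -(k16 * (w * Sp)))
    (hc : l * (CD * (At + 6 * (KT * l))) ≤ at' * k16) :
    at' * LSp + srct CD l u z x (At * S) (KT * l * (u ^ 2 * S + e))
      (KT * l * (u ^ 2 * O + B)) ≤ 0 := by
  have hM : 0 ≤ l * (CD * (At + 6 * (KT * l))) := mul_nonneg hl (mul_nonneg hCD
    (add_nonneg hAt (mul_nonneg (by norm_num) (mul_nonneg hKT hl))))
  have a1 := srct_le h (At := At) hl hCD hKT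
  have a0 : u ^ 2 * S ≤ w * Sp := mul_le_mul h.w1 hS h.S0 h.w0
  have a2 := mul_le_mul_of_nonneg_left a0 hM
  have a3 := mul_le_mul_of_nonneg_right hc (mul_nonneg h.w0 (h.S0.trans hS))
  have a4 := mul_le_mul_of_nonneg_left hLS hat
  linarith

end S

end Crest.Agent.R335.BR
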