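import Crest.Agent.R335.KDefs

/-!
Row 335 (S0521), KOHN-SHAM SIDE, definition of the output (G) of part C.
-/

set_option autoImplicit false

open MeasureTheory Filter Set Crest.MathPhysics.ThreeBody
open scoped ENNReal Topology ContDiff

noncomputable section
namespace Crest.Agent.R335

/-- Poincaré inequality of the measure `U²` (`U = √2 φ`) with constant `2 ω = q²` for EVEN bounded
compactly supported `H¹` functions; the mean is built in:
`∫U²|∇f|² ≥ 2ω (∫U²f² - ½(∫U²f)²)`, `∫U² = 2`. This is the output (G) of part C. -/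
def PoinG (U : Pos3 → ℝ) (om : ℝ) : Prop :=
  ∀ f g, BT f g → (∀ x, f (rz x) = f x) →
    2 * om * ((∫ x, U x ^ 2 * f x ^ 2) - (1 / 2) * (∫ x, U x ^ 2 * f x) ^ 2) ≤
      ∫ x, U x ^ 2 * ‖g x‖ ^ 2

end Crest.Agent.R335
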