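import Crest.Agent.R335.KIface
import Crest.Agent.R335.KDefs2

/-!
Row 335 (S0521), KOHN-SHAM SIDE, INTERFACE 2 (statements with `sorry`, namespace `...R335.KI`).
`PoinG` is defined in `KDefs2`.
-/

set_option autoImplicit false
set_option linter.unusedVariables false

open MeasureTheory Filter Set Crest.MathPhysics.ThreeBody
open scoped ENNReal Topology ContDiff

noncomputable section
namespace Crest.Agent.R335.KI

/-- even sector of the spectral inequality from the Poincaré inequality (G) (module KSPEven) -/
theorem sp_even {s U w : Pos3 → ℝ} {gs gU gw : Pos3 → Pos3} {om : ℝ} (hs : Amp s gs)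
    (hp : Pair s U gU w gw om) (hG : PoinG U om) {f : Pos3 → ℝ} {g : Pos3 → Pos3} (hf : H1 f g)
    (heven : ∀ x, f (rz x) = f x) : SPIneq s gs U gU w gw om f g := sorry

end Crest.Agent.R335.KI
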