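import Crest.Agent.R335.BSys
import Crest.Agent.R335.KIface2

/-!
Row 335 (S0521), PART C: the interface B → C and the output of part C (helper720).
Mathematics: notes 10568, 10569, 10754 (helper720), 10764 (helper783).

Order of quantifiers: `cg C0` universal; `P = P0 D^20` (polynomial in `D`); `D ≥ D0`;
`B : OBD cg C0 D`, `K`; `K1` (depends on `D, B, K`); `R1 ≥ R0(D, B, K, K1)`; `K2, l'` (depend on `R1`);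
`0 < lam ≤ l'`.  `q0² = 2 B.om`, `a = B.a`.
-/

set_option autoImplicit false

open MeasureTheory Filter Set Crest.MathPhysics.ThreeBody
open scoped ENNReal Topology ContDiff

noncomputable section
namespace Crest.Agent.R335

/-! ### explicit functions -/

namespace CX


/-- `E(ρ) = e^{-κρ} ρ^{Q/κ-1} (1 + σ ρ^{-1/2})` ; `σ = -1` : supersolution, `σ = 1` : subsolution -/
def EE (κ Q σ ρ : ℝ) : ℝ := Real.exp (-κ * ρ) * ρ ^ (Q / κ - 1) * (1 + σ * ρ ^ (-(1 / 2) : ℝ))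

/-- two-centre difference -/
def OO (D κ Q σ : ℝ) (x : Pos3) : ℝ := EE κ Q σ ‖x - nuc D‖ - EE κ Q σ ‖x - nuc (-D)‖

/-- two-centre sum -/
def SS (D κ Q σ : ℝ) (x : Pos3) : ℝ := EE κ Q σ ‖x - nuc D‖ + EE κ Q σ ‖x - nuc (-D)‖

/-- radial lower profile of `s2` in the slab `|z| ≤ 1` (up to `poly(D)`) -/
def eLow (κS κ Q lam om r : ℝ) : ℝ := EE κS Q 1 r + lam / om ^ 2 / r ^ 4 * EE κ Q 1 r

end CX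

/-- exterior region in the upper half space -/
def UpExt (R : ℝ) : Set Pos3 := {x | R < ‖x‖ ∧ 0 < x 2}

/-! ### B → C -/

/-- error of the equations of `s1` and `F` -/
def eC (K1 K2 lam κ a : ℝ) (s1 s2 : Pos3 → ℝ) (x : Pos3) : ℝ :=
  K2 * lam ^ 2 / ‖x‖ ^ 4 * s1 x +
    K2 * lam * (|x 2| / ‖x‖ ^ 2 + Real.exp (-(a / 2) * ‖x‖)) * s2 x +
    K1 * lam * Real.exp (-(κ + a / 4) * ‖x‖)

/-- coupling term in the inequality of `s2` -/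
def cC (P K1 lam κ a : ℝ) (s1 : Pos3 → ℝ) (x : Pos3) : ℝ :=
  lam * (P * |x 2| / ‖x‖ ^ 3 + K1 * Real.exp (-(a / 2) * ‖x‖)) * s1 x +
    K1 * lam * Real.exp (-(κ + a / 4) * ‖x‖)

/-- OUTPUT OF PART B, INPUT OF PART C, at one value of `λ`.
`s = √ρ`, `s1 = |Ψ^o|`, `s2 = |Ψ^e|`, `F = √2 ⟨Φ₀, G_S⟩` (so `F → u`, `s1 → |u|`, `s2 → √2 g`),
`w0 = λ ⟨Φ₀, W_X Φ₀⟩`, `-X = -½Δ s1 + (κ²/2 + V + w0) s1`, `m = F/s1`. -/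
structure COut {cg C0 D : ℝ} (B : OBD cg C0 D) (P K1 K2 R1 lam κ κS κT : ℝ)
    (s s1 s2 F w0 X sig : Pos3 → ℝ) (gs gs1 gs2 gF : Pos3 → Pos3) : Prop where
  -- numbers
  lam_pos : 0 < lam
  κ_rng : 9 / 10 ≤ κ ∧ κ ≤ 11 / 10
  κS_rng : 9 / 10 ≤ κS ∧ κS ≤ 11 / 10
  κT_rng : 9 / 10 ≤ κT ∧ κT ≤ 11 / 10
  κ_near : |κ ^ 2 + 2 * B.eu| ≤ K2 * lam
  κS_near : |κS ^ 2 + 2 * B.eg| ≤ K2 * lam
  κT_near : |κT ^ 2 + 2 * B.eg| ≤ K2 * lam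
  -- functions
  amp : Amp s gs
  norm3 : ∫ x, s x ^ 2 = 3
  h1 : H1 s1 gs1
  h2 : H1 s2 gs2
  hF : H1 F gF
  nn1 : ∀ x, 0 ≤ s1 x
  nn2 : ∀ x, 0 ≤ s2 x
  sq : ∀ x, s1 x ^ 2 + s2 x ^ 2 = s x ^ 2
  even1 : ∀ x, s1 (rz x) = s1 x
  even2 : ∀ x, s2 (rz x) = s2 x
  oddF : ∀ x, F (rz x) = - F x
  /-- `s1 1_{z>0} ∈ H¹` (zero trace on the plane) -/
  half1 : H1 (fun x => if 0 < x 2 then s1 x else 0) (fun x => if 0 < x 2 then gs1 x else 0)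
  /-- energy -/
  energy : (1 / 2) * ((∫ x, ‖gs1 x‖ ^ 2) + ∫ x, ‖gs2 x‖ ^ 2) + ∫ x, V2 D x * s x ^ 2 ≤
    2 * B.eg + B.eu + K2 * lam
  mass : |(∫ x, s2 x ^ 2) - 2| ≤ K2 * lam
  -- closeness to `λ = 0`, everywhere
  cl : ∀ᵐ x, |s x - √(2 * B.g x ^ 2 + B.u x ^ 2)| ≤ K2 * lam
  cl1 : ∀ᵐ x, |s1 x - abs (B.u x)| ≤ K2 * lam
  cl2 : ∀ᵐ x, |s2 x - √2 * B.g x| ≤ K2 * lam
  clF : ∀ᵐ x, |F x - B.u x| ≤ K2 * lam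
  -- equations
  kato : WLe univ s gs (fun x => κ ^ 2 / 2 + V2 D x) (fun _ => 0)
  kato2 : WLe (UpExt R1) s2 gs2 (fun x => κ ^ 2 / 2 + V2 D x + B.om / 2)
    (cC P K1 lam κ B.a s1)
  w0m : Measurable w0
  w0b : ∀ᵐ x, x ∈ UpExt R1 → 0 ≤ w0 x ∧ w0 x ≤ B.om / 4
  eq1 : WEq (UpExt R1) s1 gs1 (fun x => κ ^ 2 / 2 + V2 D x + w0 x) (fun x => - X x)
  eqF : WEq (UpExt R1) F gF (fun x => κ ^ 2 / 2 + V2 D x + w0 x) (fun x => - sig x)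
  sigb : ∀ᵐ x, x ∈ UpExt R1 → |sig x| ≤ eC K1 K2 lam κ B.a s1 s2 x
  Xb : ∀ᵐ x, x ∈ UpExt R1 → - eC K1 K2 lam κ B.a s1 s2 x ≤ X x
  /-- `s1² |∇m|² ≤ 2 (1 - m²) s1 (X + e)`, `s1² ∇m = s1 ∇F - F ∇s1` -/
  mgrad : ∀ᵐ x, x ∈ UpExt R1 → ‖s1 x • gF x - F x • gs1 x‖ ^ 2 ≤
    2 * (s1 x ^ 2 - F x ^ 2) * s1 x * (X x + eC K1 K2 lam κ B.a s1 s2 x)
  -- two-sided bounds, `Q = 2 (1 - λ)`
  Flow : ∀ᵐ x, x ∈ UpExt R1 → CX.OO D κ (2 * (1 - lam)) 1 x ≤ P * F x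
  Fup : ∀ᵐ x, x ∈ UpExt R1 → F x ≤ P * CX.OO D κ (2 * (1 - lam)) (-1) x
  Fs1 : ∀ᵐ x, x ∈ UpExt R1 → F x ≤ s1 x
  s1F : ∀ᵐ x, x ∈ UpExt R1 → s1 x ^ 2 - F x ^ 2 ≤ K2 * lam ^ 2 / ‖x‖ ^ 4 * F x ^ 2
  s2low : ∀ᵐ x, x ∈ UpExt R1 → CX.SS D κS (2 * (1 - lam)) 1 x +
    lam / B.om ^ 2 / ‖x‖ ^ 4 * CX.SS D κ (2 * (1 - lam)) 1 x ≤ P * s2 x
  s2up : ∀ᵐ x, x ∈ UpExt R1 → s2 x ≤ P * (CX.SS D κS (2 * (1 - lam)) (-1) x +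
    CX.SS D κT (2 * (1 - lam)) (-1) x +
    lam / B.om * (x 2 / ‖x‖ ^ 3) * CX.OO D κ (2 * (1 - lam)) (-1) x +
    lam / B.om ^ 2 / ‖x‖ ^ 4 * CX.SS D κ (2 * (1 - lam)) (-1) x)

end Crest.Agent.R335
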