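import Crest.Agent.R335.XShell
import Crest.Agent.R335.CDefs

/-!
Row 335 (S0521): `r⁻² T^up`, and the dictionary to the functions `CX.EE`, `CX.OO`, `CX.SS` of part C.
-/

set_option autoImplicit false
set_option linter.unusedSectionVars false

open MeasureTheory Filter Set Crest.MathPhysics.ThreeBody
open scoped ENNReal Topology ContDiff

noncomputable section
namespace Crest.Agent.R335

/-! ### dictionary -/

theorem XC_EE_eq_Em (κ Q σ : ℝ) {t : ℝ} (ht : 0 < t) :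
    CX.EE κ Q σ t = Em κ (Q / κ - 1) (-σ) t := by
  rw [Em_eq ht]
  unfold CX.EE ee
  rw [Real.rpow_neg ht.le, ← Real.sqrt_eq_rpow, neg_mul]
  ring_nf

theorem MPar.of_Q {κ Q σ : ℝ} (k1 : 0.9 ≤ κ) (k2 : κ ≤ 1.1) (q1 : 1.9 ≤ Q) (q2 : Q ≤ 2)
    (hσ : σ = 1 ∨ σ = -1) : MPar κ Q (Q / κ - 1) σ :=
  ⟨k1, k2, q1, q2, by
    have : κ ≠ 0 := by linarith
    field_simp
    ring, hσ⟩

theorem OO_eq_Ox (D κ Q σ : ℝ) {x : Pos3} (hx : x ∈ XT.Uc D) :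
    CX.OO D κ Q σ x = Ox D κ (Q / κ - 1) (-σ) x := by
  have h1 : 0 < ‖x - nuc D‖ := norm_pos_iff.2 (sub_ne_zero.2 hx.1)
  have h2 : 0 < ‖x - nuc (-D)‖ := norm_pos_iff.2 (sub_ne_zero.2 hx.2)
  unfold CX.OO Ox
  rw [XC_EE_eq_Em _ _ _ h1, XC_EE_eq_Em _ _ _ h2]

theorem SS_eq_Sx (D κ Q σ : ℝ) {x : Pos3} (hx : x ∈ XT.Uc D) :
    CX.SS D κ Q σ x = Sx D κ (Q / κ - 1) (-σ) x := by
  have h1 : 0 < ‖x - nuc D‖ := norm_pos_iff.2 (sub_ne_zero.2 hx.1)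
  have h2 : 0 < ‖x - nuc (-D)‖ := norm_pos_iff.2 (sub_ne_zero.2 hx.2)
  unfold CX.SS Sx
  rw [XC_EE_eq_Em _ _ _ h1, XC_EE_eq_Em _ _ _ h2]

/-- `CX.OO` with `σ = -1` is the supersolution `O^-`, with `σ = 1` the subsolution `O^+` -/
theorem OO_neg_eq (D κ Q : ℝ) {x : Pos3} (hx : x ∈ XT.Uc D) :
    CX.OO D κ Q (-1) x = Ox D κ (Q / κ - 1) 1 x := by
  rw [OO_eq_Ox _ _ _ _ hx, neg_neg]

theorem SS_neg_eq (D κ Q : ℝ) {x : Pos3} (hx : x ∈ XT.Uc D) :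
    CX.SS D κ Q (-1) x = Sx D κ (Q / κ - 1) 1 x := by
  rw [SS_eq_Sx _ _ _ _ hx, neg_neg]

/-! ### `r⁻²` times the forced barriers -/

section ri2

variable {D κ Q p q : ℝ} {x : Pos3}

theorem Lx_ri2_hzO_ge (h : MPar κ Q p 1) (hx : XFar D x) :
    -(5.3 * κ / ‖x‖) * (ri 2 x * (hz x * Ox D κ p 1 x)) -
      1.1 * κ * D * (ri 2 x * (ri 4 x * Sx D κ p 1 x)) ≤
      Lx D Q κ (fun y => ri 2 y * (hz y * Ox D κ p 1 y)) x := by
  have hr := hx.reg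
  have hr0 := hx.rpos
  have hD := hx.Dpos
  have hκ := h.kpos
  have hU := mem_Ud hx
  have hz0 := hz_nonneg hx
  have hO := Ox_nonneg h hr
  have hS := (Sx_pos h hr).le
  have r2 := (ri_pos 2 hr0).le
  have r4 := (ri_pos 4 hr0).le
  have hp : 0 < ‖x‖ := hr0
  rw [Lx_mul (XT.isOpen_Ud D) ((ri_jet 2).mono inter_subset_right) (hzO_jet D κ p 1) hU]
  have e0 : inner ℝ ((-((2 : ℕ) * ri (2 + 2) x)) • x)
      (hz x • gOx D κ p 1 x + Ox D κ p 1 x • ghz x) =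
      -(2 * ri 4 x) * (hz x * (-(Del D κ p 1 x * ‖x‖ ^ 2) + Sig D κ p 1 x * (D * x 2)) +
        Ox D κ p 1 x * (-2 * hz x)) := by
    rw [inner_smul_left, inner_add_right, inner_smul_right, inner_smul_right, inner_x_gOx,
      real_inner_comm, inner_ghz_x hp]
    simp only [conj_trivial]
    push_cast
    ring
  rw [e0]
  have e1 := mul_le_mul_of_nonneg_left (Lx_hzOm_ge (Q := Q) h hx) r2
  have hri : ri 4 x = ri 2 x / ‖x‖ ^ 2 := by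
    have h3 : ri 4 x = ri 3 x / ‖x‖ := ri_succ 3 x
    have h2 : ri 3 x = ri 2 x / ‖x‖ := ri_succ 2 x
    rw [h3, h2, div_div, sq]
  have e2 : 2 * ri 4 x * (hz x * (Del D κ p 1 x * ‖x‖ ^ 2)) ≤
      2.6 * κ / ‖x‖ * (ri 2 x * (hz x * Ox D κ p 1 x)) := by
    have a1 : Del D κ p 1 x * ‖x‖ ^ 2 ≤ 1.3 * κ / ‖x‖ * Ox D κ p 1 x * ‖x‖ ^ 2 :=
      mul_le_mul_of_nonneg_right (Del_le h hx) (by positivity)
    have a2 : 2 * ri 4 x * (hz x * (Del D κ p 1 x * ‖x‖ ^ 2)) ≤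
        2 * ri 4 x * (hz x * (1.3 * κ / ‖x‖ * Ox D κ p 1 x * ‖x‖ ^ 2)) :=
      mul_le_mul_of_nonneg_left (mul_le_mul_of_nonneg_left a1 hz0) (by positivity)
    refine a2.trans (le_of_eq ?_)
    rw [hri]
    field_simp
    ring
  have e3 : 0 ≤ 2 * ri 4 x * (hz x * (Sig D κ p 1 x * (D * x 2))) := by
    have := Sig_nonneg h hr
    have := hx.z0
    positivity
  have e4 : 5 * (ri 4 x * (hz x * Ox D κ p 1 x)) ≤
      0.1 * κ / ‖x‖ * (ri 2 x * (hz x * Ox D κ p 1 x)) := by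
    rw [hri]
    have a0 : 0 ≤ ri 2 x * (hz x * Ox D κ p 1 x) := by positivity
    have a1 : 5 / ‖x‖ ^ 2 ≤ 0.1 * κ / ‖x‖ := by
      rw [div_le_div_iff₀ (by positivity) hr0]
      have b1 := mul_le_mul h.k1 hx.r0 (by norm_num) hκ.le
      nlinarith
    have a2 := mul_le_mul_of_nonneg_right a1 a0
    calc _ = 5 / ‖x‖ ^ 2 * (ri 2 x * (hz x * Ox D κ p 1 x)) := by ring
      _ ≤ _ := a2
  have e5 : 5.3 * κ / ‖x‖ * (ri 2 x * (hz x * Ox D κ p 1 x)) =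
      ri 2 x * (2.6 * κ / ‖x‖ * (hz x * Ox D κ p 1 x)) +
      2.6 * κ / ‖x‖ * (ri 2 x * (hz x * Ox D κ p 1 x)) +
      0.1 * κ / ‖x‖ * (ri 2 x * (hz x * Ox D κ p 1 x)) := by ring
  push_cast
  norm_num only
  have e6 : ri (2 + 2) x = ri 4 x := rfl
  rw [e6]
  linarith

theorem ri2_ri4 (y : Pos3) : ri 2 y * ri 4 y = ri 6 y := by
  unfold ri
  rw [← mul_inv, ← pow_add]

theorem Lx_ri2_riS_ge (h : MPar κ Q p 1) (hx : XFar D x) :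
    -(6.24 * κ / ‖x‖) * (ri 2 x * (ri 4 x * Sx D κ p 1 x)) ≤
      Lx D Q κ (fun y => ri 2 y * (ri 4 y * Sx D κ p 1 y)) x := by
  have e1 : (fun y : Pos3 => ri 2 y * (ri 4 y * Sx D κ p 1 y)) =
      fun y => ri 6 y * Sx D κ p 1 y := by
    funext y; rw [← mul_assoc, ri2_ri4]
  rw [e1, ← mul_assoc (ri 2 x), ri2_ri4]
  refine le_trans (le_of_eq ?_) (Lx_riSm_ge (Q := Q) 6 (by norm_num) h hx)
  push_cast
  ring

theorem Tup_jet (D κ p q : ℝ) : Jet (XT.Ud D) (Tup D κ p q)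
    (fun x => (hz x • gOx D κ p 1 x + Ox D κ p 1 x • ghz x) +
      (8 * κ * D / q ^ 2) • (ri 4 x • gSx D κ p 1 x +
        Sx D κ p 1 x • ((-((4 : ℕ) * ri (4 + 2) x)) • x)))
    (fun x => (hz x * lOx D κ p 1 x + 2 * inner ℝ (ghz x) (gOx D κ p 1 x) +
      Ox D κ p 1 x * 0) + 8 * κ * D / q ^ 2 * (ri 4 x * lSx D κ p 1 x +
        2 * inner ℝ ((-((4 : ℕ) * ri (4 + 2) x)) • x) (gSx D κ p 1 x) +
      Sx D κ p 1 x * (((4 : ℕ) * ((4 : ℕ) - 1)) * ri (4 + 2) x))) :=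
  (hzO_jet D κ p 1).add (XT.isOpen_Ud D) ((riS_jet 4 D κ p 1).const_mul (XT.isOpen_Ud D) _)

theorem Tlow_jet (D κ p q : ℝ) : Jet (XT.Ud D) (Tlow D κ p q)
    (fun x => (hz x • gOx D κ p (-1) x + Ox D κ p (-1) x • ghz x) +
      (κ * D / (4 * q ^ 2)) • (ri 4 x • gSx D κ p (-1) x +
        Sx D κ p (-1) x • ((-((4 : ℕ) * ri (4 + 2) x)) • x)))
    (fun x => (hz x * lOx D κ p (-1) x + 2 * inner ℝ (ghz x) (gOx D κ p (-1) x) +
      Ox D κ p (-1) x * 0) + κ * D / (4 * q ^ 2) * (ri 4 x * lSx D κ p (-1) x +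
        2 * inner ℝ ((-((4 : ℕ) * ri (4 + 2) x)) • x) (gSx D κ p (-1) x) +
      Sx D κ p (-1) x * (((4 : ℕ) * ((4 : ℕ) - 1)) * ri (4 + 2) x))) :=
  (hzO_jet D κ p (-1)).add (XT.isOpen_Ud D) ((riS_jet 4 D κ p (-1)).const_mul (XT.isOpen_Ud D) _)

/-- `L(r⁻² T^up)` -/
theorem Lx_ri2Tup_ge (h : MPar κ Q p 1) (hx : XFar D x) (hq : 0 < q)
    (hrq : 1000 ≤ ‖x‖ * q ^ 2) :
    -(5.3 * κ / ‖x‖) * (ri 2 x * (hz x * Ox D κ p 1 x)) -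
      1.2 * κ * D * (ri 2 x * (ri 4 x * Sx D κ p 1 x)) ≤
      Lx D Q κ (fun y => ri 2 y * Tup D κ p q y) x := by
  have hr := hx.reg
  have hr0 := hx.rpos
  have hD := hx.Dpos
  have hκ := h.kpos
  have hU := mem_Ud hx
  have hS := (Sx_pos h hr).le
  have r2 := (ri_pos 2 hr0).le
  have r4 := (ri_pos 4 hr0).le
  have hUo := XT.isOpen_Ud D
  have j1 : Jet (XT.Ud D) (fun y => ri 2 y * (hz y * Ox D κ p 1 y)) _ _ :=
    ((ri_jet 2).mono inter_subset_right).mul hUo (hzO_jet D κ p 1)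
  have j2 : Jet (XT.Ud D) (fun y => ri 2 y * (ri 4 y * Sx D κ p 1 y)) _ _ :=
    ((ri_jet 2).mono inter_subset_right).mul hUo (riS_jet 4 D κ p 1)
  have e1 : (fun y : Pos3 => ri 2 y * Tup D κ p q y) = fun y =>
      ri 2 y * (hz y * Ox D κ p 1 y) + 8 * κ * D / q ^ 2 * (ri 2 y * (ri 4 y * Sx D κ p 1 y)) := by
    funext y; unfold Tup; ring
  rw [e1, Lx_add hUo j1 (j2.const_mul hUo _) hU, Lx_const_mul hUo j2 _ hU]
  have e2 := Lx_ri2_hzO_ge (Q := Q) h hx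
  have e3 := Lx_ri2_riS_ge (Q := Q) h hx
  have e4 := mul_le_mul_of_nonneg_left e3 (show 0 ≤ 8 * κ * D / q ^ 2 by positivity)
  have a0 : 0 ≤ ri 2 x * (ri 4 x * Sx D κ p 1 x) := by positivity
  have a1 : 8 * κ * D / q ^ 2 * (-(6.24 * κ / ‖x‖) * (ri 2 x * (ri 4 x * Sx D κ p 1 x))) =
      -(49.92 * κ * (1 / ‖x‖ / q ^ 2) * (κ * D * (ri 2 x * (ri 4 x * Sx D κ p 1 x)))) := by ring
  have a2 : 1 / ‖x‖ / q ^ 2 ≤ 1 / 1000 := by
    rw [div_div, div_le_div_iff₀ (by positivity) (by norm_num)]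
    linarith
  have a3 : 49.92 * κ * (1 / ‖x‖ / q ^ 2) ≤ 0.1 := by
    have := mul_le_mul h.k2 a2 (by positivity) (by norm_num)
    linarith
  have a4 : 0 ≤ κ * D * (ri 2 x * (ri 4 x * Sx D κ p 1 x)) := by positivity
  have a5 := mul_le_mul_of_nonneg_right a3 a4
  rw [a1] at e4
  linarith

end ri2

end Crest.Agent.R335
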