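import Crest.Agent.R335.XMod
import Crest.Agent.R335.OBDefs

/-!
Row 335 (S0521): two-centre model functions `O^∓`, `S^∓` (section (1.2) of part B).
-/

set_option autoImplicit false
set_option linter.unusedSectionVars false

open MeasureTheory Filter Set Crest.MathPhysics.ThreeBody
open scoped ENNReal Topology ContDiff

noncomputable section
namespace Crest.Agent.R335

/-! ### geometry -/

namespace XT

theorem nuc_two (D : ℝ) : nuc D 2 = D := by simp [nuc]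

theorem nuc_ne {D : ℝ} {i : Fin 3} (hi : i ≠ 2) : nuc D i = 0 := by
  simp [nuc, hi]

theorem norm_nuc (D : ℝ) : ‖nuc D‖ = |D| := by simp [nuc]

theorem inner_nuc (x : Pos3) (D : ℝ) : inner ℝ x (nuc D) = D * x 2 := by
  simp [nuc, EuclideanSpace.inner_single_right]

theorem sq_sub (x : Pos3) (D : ℝ) : ‖x - nuc D‖ ^ 2 = ‖x‖ ^ 2 - 2 * D * x 2 + D ^ 2 := by
  rw [norm_sub_sq_real, inner_nuc, norm_nuc, sq_abs]; ring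

theorem abs_sub_le (x : Pos3) (D : ℝ) : |‖x - nuc D‖ - ‖x‖| ≤ |D| := by
  have := abs_norm_sub_norm_le (x - nuc D) x
  rwa [sub_sub_cancel_left, norm_neg, norm_nuc] at this

theorem rp_le (x : Pos3) {D : ℝ} (hD : 0 ≤ D) : ‖x - nuc D‖ ≤ ‖x‖ + D := by
  have := (abs_le.1 (abs_sub_le x D)).2
  rw [abs_of_nonneg hD] at this; linarith

theorem rm_le (x : Pos3) {D : ℝ} (hD : 0 ≤ D) : ‖x - nuc (-D)‖ ≤ ‖x‖ + D := by
  have := (abs_le.1 (abs_sub_le x (-D))).2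
  rw [abs_neg, abs_of_nonneg hD] at this; linarith

theorem le_rp (x : Pos3) {D : ℝ} (hD : 0 ≤ D) : ‖x‖ - D ≤ ‖x - nuc D‖ := by
  have := (abs_le.1 (abs_sub_le x D)).1
  rw [abs_of_nonneg hD] at this; linarith

theorem le_rm (x : Pos3) {D : ℝ} (hD : 0 ≤ D) : ‖x‖ - D ≤ ‖x - nuc (-D)‖ := by
  have := (abs_le.1 (abs_sub_le x (-D))).1
  rw [abs_neg, abs_of_nonneg hD] at this; linarith

theorem rp_le_rm {x : Pos3} {D : ℝ} (hD : 0 ≤ D) (hz : 0 ≤ x 2) :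
    ‖x - nuc D‖ ≤ ‖x - nuc (-D)‖ := by
  refine le_of_sq_le_sq ?_ (norm_nonneg _)
  rw [sq_sub, sq_sub]
  nlinarith [mul_nonneg hD hz]

theorem rm_le_rp (x : Pos3) {D : ℝ} (hD : 0 ≤ D) :
    ‖x - nuc (-D)‖ ≤ ‖x - nuc D‖ + 2 * D := by
  have h1 : x - nuc (-D) = (x - nuc D) + (nuc D - nuc (-D)) := by abel
  have h2 : nuc D - nuc (-D) = nuc (2 * D) := by
    ext i
    by_cases hi : i = 2
    · subst hi; simp only [PiLp.sub_apply, nuc_two]; ring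
    · simp only [PiLp.sub_apply, nuc_ne hi]; ring
  rw [h1, h2]
  refine (norm_add_le _ _).trans ?_
  rw [norm_nuc, abs_of_nonneg (by linarith)]

theorem del_mul (x : Pos3) (D : ℝ) :
    (‖x - nuc (-D)‖ - ‖x - nuc D‖) * (‖x - nuc (-D)‖ + ‖x - nuc D‖) = 4 * D * x 2 := by
  have h1 := sq_sub x D
  have h2 := sq_sub x (-D)
  nlinarith

/-- open set away from the nuclei -/
def Uc (D : ℝ) : Set Pos3 := {x | x ≠ nuc D ∧ x ≠ nuc (-D)}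

theorem isOpen_Uc (D : ℝ) : IsOpen (Uc D) := isOpen_ne.inter isOpen_ne

end XT

/-- `L b = -½Δb + (κ²/2 + (Q/2) V2) b`, classical -/
def Lx (D Q κ : ℝ) (b : Pos3 → ℝ) (x : Pos3) : ℝ :=
  -(1 / 2) * lap b x + (κ ^ 2 / 2 + Q / 2 * V2 D x) * b x

/-- `O^∓` -/
def Ox (D κ p σ : ℝ) (x : Pos3) : ℝ := Em κ p σ ‖x - nuc D‖ - Em κ p σ ‖x - nuc (-D)‖

/-- `S^∓` -/
def Sx (D κ p σ : ℝ) (x : Pos3) : ℝ := Em κ p σ ‖x - nuc D‖ + Em κ p σ ‖x - nuc (-D)‖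

/-- gradient of `Ox` -/
def gOx (D κ p σ : ℝ) (x : Pos3) : Pos3 :=
  (-(Dm κ p σ ‖x - nuc D‖ / ‖x - nuc D‖)) • (x - nuc D) -
    (-(Dm κ p σ ‖x - nuc (-D)‖ / ‖x - nuc (-D)‖)) • (x - nuc (-D))

/-- gradient of `Sx` -/
def gSx (D κ p σ : ℝ) (x : Pos3) : Pos3 :=
  (-(Dm κ p σ ‖x - nuc D‖ / ‖x - nuc D‖)) • (x - nuc D) +
    (-(Dm κ p σ ‖x - nuc (-D)‖ / ‖x - nuc (-D)‖)) • (x - nuc (-D))

/-- Laplacian of `Ox` -/
def lOx (D κ p σ : ℝ) (x : Pos3) : ℝ :=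
  ((κ ^ 2 - 2 * (κ * (p + 1)) / ‖x - nuc D‖) * Em κ p σ ‖x - nuc D‖ -
      2 * XWm κ p σ ‖x - nuc D‖) -
    ((κ ^ 2 - 2 * (κ * (p + 1)) / ‖x - nuc (-D)‖) * Em κ p σ ‖x - nuc (-D)‖ -
      2 * XWm κ p σ ‖x - nuc (-D)‖)

/-- Laplacian of `Sx` -/
def lSx (D κ p σ : ℝ) (x : Pos3) : ℝ :=
  ((κ ^ 2 - 2 * (κ * (p + 1)) / ‖x - nuc D‖) * Em κ p σ ‖x - nuc D‖ -
      2 * XWm κ p σ ‖x - nuc D‖) +
    ((κ ^ 2 - 2 * (κ * (p + 1)) / ‖x - nuc (-D)‖) * Em κ p σ ‖x - nuc (-D)‖ -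
      2 * XWm κ p σ ‖x - nuc (-D)‖)

theorem Ox_jet (D κ p σ : ℝ) : Jet (XT.Uc D) (Ox D κ p σ) (gOx D κ p σ) (lOx D κ p σ) :=
  (Em_jet κ p σ (nuc D) (XT.isOpen_Uc D) (fun _ hx => hx.1)).sub (XT.isOpen_Uc D)
    (Em_jet κ p σ (nuc (-D)) (XT.isOpen_Uc D) (fun _ hx => hx.2))

theorem Sx_jet (D κ p σ : ℝ) : Jet (XT.Uc D) (Sx D κ p σ) (gSx D κ p σ) (lSx D κ p σ) :=
  (Em_jet κ p σ (nuc D) (XT.isOpen_Uc D) (fun _ hx => hx.1)).add (XT.isOpen_Uc D)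
    (Em_jet κ p σ (nuc (-D)) (XT.isOpen_Uc D) (fun _ hx => hx.2))

section exact

variable {D κ Q p σ : ℝ}

theorem Lx_Ox (hp : κ * (p + 1) = Q) {x : Pos3} (hx : x ∈ XT.Uc D) :
    Lx D Q κ (Ox D κ p σ) x =
      Q / 2 * (1 / ‖x - nuc D‖ - 1 / ‖x - nuc (-D)‖) * Sx D κ p σ x +
        XWm κ p σ ‖x - nuc D‖ - XWm κ p σ ‖x - nuc (-D)‖ := by
  unfold Lx
  rw [(Ox_jet D κ p σ).lapl x hx]
  unfold lOx Ox Sx V2
  rw [hp]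
  ring

theorem Lx_Sx (hp : κ * (p + 1) = Q) {x : Pos3} (hx : x ∈ XT.Uc D) :
    Lx D Q κ (Sx D κ p σ) x =
      Q / 2 * (1 / ‖x - nuc D‖ - 1 / ‖x - nuc (-D)‖) * Ox D κ p σ x +
        XWm κ p σ ‖x - nuc D‖ + XWm κ p σ ‖x - nuc (-D)‖ := by
  unfold Lx
  rw [(Sx_jet D κ p σ).lapl x hx]
  unfold lSx Ox Sx V2
  rw [hp]
  ring

end exact

/-- the region `{z ≥ 0, ρ₊ ≥ 100}` -/
structure XReg (D : ℝ) (x : Pos3) : Prop where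
  D1 : 1 ≤ D
  z0 : 0 ≤ x 2
  rp : 100 ≤ ‖x - nuc D‖

namespace XReg

variable {D : ℝ} {x : Pos3}

theorem Dpos (h : XReg D x) : 0 < D := by linarith [h.D1]

theorem rp_le_rm (h : XReg D x) : ‖x - nuc D‖ ≤ ‖x - nuc (-D)‖ :=
  XT.rp_le_rm h.Dpos.le h.z0

theorem rm (h : XReg D x) : 100 ≤ ‖x - nuc (-D)‖ := h.rp.trans h.rp_le_rm

theorem mem (h : XReg D x) : x ∈ XT.Uc D := by
  have h1 := h.rp
  have h2 := h.rm
  constructor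
  · rintro rfl
    rw [sub_self, norm_zero] at h1; norm_num at h1
  · rintro rfl
    rw [sub_self, norm_zero] at h2; norm_num at h2

theorem inv_sub (h : XReg D x) : 1 / ‖x - nuc D‖ - 1 / ‖x - nuc (-D)‖ =
    (‖x - nuc (-D)‖ - ‖x - nuc D‖) / (‖x - nuc D‖ * ‖x - nuc (-D)‖) := by
  have h1 : ‖x - nuc D‖ ≠ 0 := by linarith [h.rp]
  have h2 : ‖x - nuc (-D)‖ ≠ 0 := by linarith [h.rm]
  rw [div_sub_div _ _ h1 h2]
  ring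

theorem inv_sub_nonneg (h : XReg D x) : 0 ≤ 1 / ‖x - nuc D‖ - 1 / ‖x - nuc (-D)‖ := by
  rw [h.inv_sub]
  have h1 := h.rp
  have h2 := h.rm
  have h3 := h.rp_le_rm
  have : 0 < ‖x - nuc D‖ * ‖x - nuc (-D)‖ := mul_pos (by linarith) (by linarith)
  exact div_nonneg (by linarith) this.le

end XReg

section ineq

variable {D κ Q p σ : ℝ} {x : Pos3}

theorem Ox_nonneg (h : MPar κ Q p σ) (hx : XReg D x) : 0 ≤ Ox D κ p σ x := by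
  unfold Ox
  linarith [Em_anti h hx.rp hx.rp_le_rm]

theorem Sx_pos (h : MPar κ Q p σ) (hx : XReg D x) : 0 < Sx D κ p σ x := by
  unfold Sx
  linarith [Em_pos h hx.rp, Em_pos h hx.rm]

theorem Ox_le_Sx (h : MPar κ Q p σ) (hx : XReg D x) : Ox D κ p σ x ≤ Sx D κ p σ x := by
  unfold Ox Sx
  linarith [Em_pos h hx.rm]

theorem Sx_le (h : MPar κ Q p σ) (hx : XReg D x) :
    Sx D κ p σ x ≤ 2 * Em κ p σ ‖x - nuc D‖ := by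
  unfold Sx
  linarith [Em_anti h hx.rp hx.rp_le_rm]

theorem Em_le_Sx (h : MPar κ Q p σ) (hx : XReg D x) :
    Em κ p σ ‖x - nuc D‖ ≤ Sx D κ p σ x := by
  unfold Sx
  linarith [Em_pos h hx.rm]

theorem Ox_ge (h : MPar κ Q p σ) (hx : XReg D x) :
    Em κ p σ ‖x - nuc D‖ * ((‖x - nuc (-D)‖ - ‖x - nuc D‖) / (4 * D)) ≤ Ox D κ p σ x := by
  have hD := hx.Dpos
  have h1 := Em_decay h hx.rp hx.rp_le_rm
  have hE := Em_pos h hx.rp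
  set δ := ‖x - nuc (-D)‖ - ‖x - nuc D‖ with hδ
  have d0 : 0 ≤ δ := by linarith [hx.rp_le_rm]
  have d1 : δ ≤ 2 * D := by linarith [XT.rm_le_rp x hD.le]
  have key : Real.exp (-(0.98 * κ * δ)) ≤ 1 - δ / (4 * D) := by
    have hy0 : 0 ≤ δ / (2 * D) := by positivity
    have hy1 : δ / (2 * D) ≤ 1 := by rw [div_le_one (by positivity)]; exact d1
    have hconv := convexOn_exp.2 (mem_univ (0 : ℝ)) (mem_univ (-(0.98 * κ * (2 * D))))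
      (sub_nonneg.2 hy1) hy0 (by ring)
    have he : (1 - δ / (2 * D)) • (0 : ℝ) + (δ / (2 * D)) • (-(0.98 * κ * (2 * D))) =
        -(0.98 * κ * δ) := by
      simp only [smul_eq_mul, mul_zero, zero_add]
      field_simp
    rw [he] at hconv
    have hhalf : Real.exp (-(0.98 * κ * (2 * D))) ≤ 1 / 2 := by
      have e1 : (1 : ℝ) ≤ 0.98 * κ * (2 * D) := by
        have := mul_le_mul h.k1 hx.D1 (by norm_num) h.kpos.le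
        nlinarith
      have e2 : Real.exp (-(0.98 * κ * (2 * D))) ≤ Real.exp (-1) :=
        Real.exp_le_exp.2 (by linarith)
      have e3 : Real.exp (-1) ≤ 1 / 2 := by
        rw [Real.exp_neg, inv_eq_one_div]
        exact one_div_le_one_div_of_le (by norm_num) (by linarith [Real.add_one_le_exp (1 : ℝ)])
      exact e2.trans e3
    simp only [smul_eq_mul, Real.exp_zero, mul_one] at hconv
    have e4 : δ / (2 * D) * Real.exp (-(0.98 * κ * (2 * D))) ≤ δ / (2 * D) * (1 / 2) :=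
      mul_le_mul_of_nonneg_left hhalf hy0
    have e5 : δ / (4 * D) = δ / (2 * D) * (1 / 2) := by
      field_simp; norm_num
    rw [e5]
    linarith
  have h2 : Em κ p σ ‖x - nuc (-D)‖ ≤ Em κ p σ ‖x - nuc D‖ * (1 - δ / (4 * D)) :=
    h1.trans (mul_le_mul_of_nonneg_left key hE.le)
  unfold Ox
  linarith

/-- `O ≤ 1.2 δ E(ρ₊)` -/
theorem Ox_le (h : MPar κ Q p σ) (hx : XReg D x) :
    Ox D κ p σ x ≤ 1.2 * (‖x - nuc (-D)‖ - ‖x - nuc D‖) * Em κ p σ ‖x - nuc D‖ := by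
  have h1 := Em_decay_ge h hx.rp hx.rp_le_rm
  have hE := Em_pos h hx.rp
  have d0 : 0 ≤ ‖x - nuc (-D)‖ - ‖x - nuc D‖ := by linarith [hx.rp_le_rm]
  generalize ‖x - nuc (-D)‖ - ‖x - nuc D‖ = δ at d0 h1
  have h2 : 1 - 1.01 * κ * δ ≤ Real.exp (-(1.01 * κ * δ)) := by
    linarith [Real.add_one_le_exp (-(1.01 * κ * δ))]
  have h3 : 1.01 * κ * δ ≤ 1.2 * δ := by
    have : 1.01 * κ ≤ 1.2 := by linarith [h.k2]
    exact mul_le_mul_of_nonneg_right this d0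
  have h4 : Em κ p σ ‖x - nuc D‖ * (1 - 1.2 * δ) ≤ Em κ p σ ‖x - nuc (-D)‖ :=
    (mul_le_mul_of_nonneg_left (by linarith) hE.le).trans h1
  unfold Ox
  linarith

/-- `δ S ≤ 8 D O` -/
theorem del_Sx_le (h : MPar κ Q p σ) (hx : XReg D x) :
    (‖x - nuc (-D)‖ - ‖x - nuc D‖) * Sx D κ p σ x ≤ 8 * D * Ox D κ p σ x := by
  have hD := hx.Dpos
  have h1 := Ox_ge h hx
  have h2 := Sx_le h hx
  have d0 : 0 ≤ ‖x - nuc (-D)‖ - ‖x - nuc D‖ := by linarith [hx.rp_le_rm]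
  generalize ‖x - nuc (-D)‖ - ‖x - nuc D‖ = δ at *
  have h3 : δ * Sx D κ p σ x ≤ δ * (2 * Em κ p σ ‖x - nuc D‖) :=
    mul_le_mul_of_nonneg_left h2 d0
  have h4 : 8 * D * (Em κ p σ ‖x - nuc D‖ * (δ / (4 * D))) ≤ 8 * D * Ox D κ p σ x :=
    mul_le_mul_of_nonneg_left h1 (by positivity)
  have h5 : 8 * D * (Em κ p σ ‖x - nuc D‖ * (δ / (4 * D))) =
      δ * (2 * Em κ p σ ‖x - nuc D‖) := by
    field_simp; ring
  linarith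

/-- (a) of (1.2), everywhere in `{z ≥ 0, ρ₊ ≥ 100}` -/
theorem Lx_Ox_ge (h : MPar κ Q p 1) (hx : XReg D x) :
    epsm κ p 1 ‖x - nuc (-D)‖ * Ox D κ p 1 x ≤ Lx D Q κ (Ox D κ p 1) x := by
  rw [Lx_Ox h.hp hx.mem, XWm_eq_eps h hx.rp, XWm_eq_eps h hx.rm]
  have h1 : 0 ≤ Q / 2 * (1 / ‖x - nuc D‖ - 1 / ‖x - nuc (-D)‖) * Sx D κ p 1 x :=
    mul_nonneg (mul_nonneg (by linarith [h.q1]) hx.inv_sub_nonneg) (Sx_pos h hx).le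
  have h2 := mul_le_mul_of_nonneg_right (epsm_anti h hx.rp hx.rp_le_rm) (Em_pos h hx.rp).le
  have h3 : Ox D κ p 1 x = Em κ p 1 ‖x - nuc D‖ - Em κ p 1 ‖x - nuc (-D)‖ := rfl
  rw [h3]
  linarith

theorem Lx_Sx_ge (h : MPar κ Q p 1) (hx : XReg D x) :
    epsm κ p 1 ‖x - nuc (-D)‖ * Sx D κ p 1 x ≤ Lx D Q κ (Sx D κ p 1) x := by
  rw [Lx_Sx h.hp hx.mem, XWm_eq_eps h hx.rp, XWm_eq_eps h hx.rm]
  have h1 : 0 ≤ Q / 2 * (1 / ‖x - nuc D‖ - 1 / ‖x - nuc (-D)‖) * Ox D κ p 1 x :=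
    mul_nonneg (mul_nonneg (by linarith [h.q1]) hx.inv_sub_nonneg) (Ox_nonneg h hx)
  have h2 := mul_le_mul_of_nonneg_right (epsm_anti h hx.rp hx.rp_le_rm) (Em_pos h hx.rp).le
  have h3 : Sx D κ p 1 x = Em κ p 1 ‖x - nuc D‖ + Em κ p 1 ‖x - nuc (-D)‖ := rfl
  rw [h3]
  linarith

end ineq

/-- the far region `{z ≥ 0, |x| ≥ 6000 D²}` -/
structure XFar (D : ℝ) (x : Pos3) : Prop where
  D1 : 1 ≤ D
  z0 : 0 ≤ x 2
  r : 6000 * D ^ 2 ≤ ‖x‖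

namespace XFar

variable {D : ℝ} {x : Pos3}

theorem Dpos (h : XFar D x) : 0 < D := by linarith [h.D1]

theorem r1 (h : XFar D x) : 6000 * D ≤ ‖x‖ := by
  have := h.r
  have h1 := h.D1
  nlinarith

theorem r0 (h : XFar D x) : 6000 ≤ ‖x‖ := by
  have := h.r1
  have h1 := h.D1
  nlinarith

theorem rpos (h : XFar D x) : 0 < ‖x‖ := by linarith [h.r0]

theorem rp_ge (h : XFar D x) : 0.99 * ‖x‖ ≤ ‖x - nuc D‖ := by
  have h1 := XT.le_rp x h.Dpos.le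
  linarith [h.r1, norm_nonneg x]

theorem rm_ge (h : XFar D x) : 0.99 * ‖x‖ ≤ ‖x - nuc (-D)‖ := by
  have h1 := XT.le_rm x h.Dpos.le
  linarith [h.r1, norm_nonneg x]

theorem rp_le (h : XFar D x) : ‖x - nuc D‖ ≤ 1.01 * ‖x‖ := by
  have h1 := XT.rp_le x h.Dpos.le
  linarith [h.r1, norm_nonneg x]

theorem rm_le (h : XFar D x) : ‖x - nuc (-D)‖ ≤ 1.01 * ‖x‖ := by
  have h1 := XT.rm_le x h.Dpos.le
  linarith [h.r1, norm_nonneg x]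

theorem reg (h : XFar D x) : XReg D x :=
  ⟨h.D1, h.z0, by linarith [h.rp_ge, h.r0]⟩

/-- `ρ₋^{-3/2} ≥ ½ r^{-3/2}` -/
theorem inv_cube (h : XFar D x) : 0.9 * (√‖x‖)⁻¹ ^ 3 ≤ (√‖x - nuc (-D)‖)⁻¹ ^ 3 := by
  have h0 := h.rpos
  have hs : 0 < √‖x‖ := Real.sqrt_pos.2 h0
  have hm : 0 < √‖x - nuc (-D)‖ := Real.sqrt_pos.2 (by linarith [h.rm_ge])
  have h1 : √‖x - nuc (-D)‖ ≤ 1.01 * √‖x‖ := by
    rw [show (1.01 : ℝ) * √‖x‖ = √(1.01 ^ 2 * ‖x‖) by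
      rw [Real.sqrt_mul (by norm_num), Real.sqrt_sq (by norm_num)]]
    refine Real.sqrt_le_sqrt ?_
    linarith [h.rm_le]
  have h2 : (1.01 * √‖x‖)⁻¹ ≤ (√‖x - nuc (-D)‖)⁻¹ := inv_anti₀ hm h1
  have h3 : ((1.01 * √‖x‖)⁻¹) ^ 3 ≤ (√‖x - nuc (-D)‖)⁻¹ ^ 3 :=
    pow_le_pow_left₀ (by positivity) h2 3
  have h4 : ((1.01 * √‖x‖)⁻¹) ^ 3 = (1.01⁻¹) ^ 3 * (√‖x‖)⁻¹ ^ 3 := by
    rw [mul_inv, mul_pow]
  have h5 : (0.9 : ℝ) ≤ (1.01⁻¹) ^ 3 := by norm_num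
  have h6 : 0 ≤ (√‖x‖)⁻¹ ^ 3 := by positivity
  rw [h4] at h3
  nlinarith

/-- `8 D/(ρ₊ρ₋) ≤ 0.15 κ r^{-3/2}` -/
theorem small (h : XFar D x) :
    8 * D / (‖x - nuc D‖ * ‖x - nuc (-D)‖) ≤ 0.13 * (√‖x‖)⁻¹ ^ 3 := by
  have h0 := h.rpos
  have hD := h.Dpos
  have hs : 0 < √‖x‖ := Real.sqrt_pos.2 h0
  have hsq : √‖x‖ * √‖x‖ = ‖x‖ := Real.mul_self_sqrt h0.le
  have hprod : 0.98 * (‖x‖ * ‖x‖) ≤ ‖x - nuc D‖ * ‖x - nuc (-D)‖ := by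
    have := mul_le_mul h.rp_ge h.rm_ge (by positivity) (norm_nonneg _)
    nlinarith
  have hpp : 0 < ‖x - nuc D‖ * ‖x - nuc (-D)‖ := lt_of_lt_of_le (by positivity) hprod
  have hsD : 77 * D ≤ √‖x‖ := by
    rw [show 77 * D = √((77 * D) ^ 2) by rw [Real.sqrt_sq (by positivity)]]
    refine Real.sqrt_le_sqrt ?_
    have := h.r
    nlinarith
  rw [div_le_iff₀ hpp]
  have e1 : 0.13 * (√‖x‖)⁻¹ ^ 3 * (0.98 * (‖x‖ * ‖x‖)) ≤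
      0.13 * (√‖x‖)⁻¹ ^ 3 * (‖x - nuc D‖ * ‖x - nuc (-D)‖) :=
    mul_le_mul_of_nonneg_left hprod (by positivity)
  have e2 : 0.13 * (√‖x‖)⁻¹ ^ 3 * (0.98 * (‖x‖ * ‖x‖)) = 0.13 * 0.98 * √‖x‖ := by
    rw [← hsq]
    field_simp
    rw [Real.sqrt_sq hs.le]
  rw [e2] at e1
  linarith

end XFar

section far

variable {D κ Q p : ℝ} {x : Pos3}

theorem epsm_far {σ : ℝ} (h : MPar κ Q p σ) (hx : XFar D x) :
    0.225 * κ * (√‖x‖)⁻¹ ^ 3 ≤ epsm κ p σ ‖x - nuc (-D)‖ := by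
  have h1 := epsm_ge h hx.reg.rm
  have h2 := hx.inv_cube
  have h3 := mul_le_mul_of_nonneg_left h2 (by linarith [h.kpos] : 0 ≤ κ / 4)
  linarith

/-- (a) of (1.2) -/
theorem Lx_Om_ge (h : MPar κ Q p 1) (hx : XFar D x) :
    κ / 8 * (√‖x‖)⁻¹ ^ 3 * Ox D κ p 1 x ≤ Lx D Q κ (Ox D κ p 1) x := by
  refine le_trans ?_ (Lx_Ox_ge h hx.reg)
  refine mul_le_mul_of_nonneg_right ?_ (Ox_nonneg h hx.reg)
  have := epsm_far h hx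
  have h0 : 0 ≤ κ * (√‖x‖)⁻¹ ^ 3 := by have := h.kpos; positivity
  linarith

theorem Lx_Sm_ge (h : MPar κ Q p 1) (hx : XFar D x) :
    κ / 8 * (√‖x‖)⁻¹ ^ 3 * Sx D κ p 1 x ≤ Lx D Q κ (Sx D κ p 1) x := by
  refine le_trans ?_ (Lx_Sx_ge h hx.reg)
  refine mul_le_mul_of_nonneg_right ?_ (Sx_pos h hx.reg).le
  have := epsm_far h hx
  have h0 : 0 ≤ κ * (√‖x‖)⁻¹ ^ 3 := by have := h.kpos; positivity
  linarith

/-- (b) of (1.2) -/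
theorem Lx_Op_le (h : MPar κ Q p (-1)) (hx : XFar D x) :
    Lx D Q κ (Ox D κ p (-1)) x ≤ -(κ / 16 * (√‖x‖)⁻¹ ^ 3) * Ox D κ p (-1) x := by
  have hr := hx.reg
  rw [Lx_Ox h.hp hr.mem, XWm_eq_eps h hr.rp, XWm_eq_eps h hr.rm, hr.inv_sub]
  have hO := Ox_nonneg h hr
  have h2 := mul_le_mul_of_nonneg_right (epsm_anti h hr.rp hr.rp_le_rm) (Em_pos h hr.rp).le
  have h3 : Ox D κ p (-1) x = Em κ p (-1) ‖x - nuc D‖ - Em κ p (-1) ‖x - nuc (-D)‖ := rfl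
  have hpp : 0 < ‖x - nuc D‖ * ‖x - nuc (-D)‖ :=
    mul_pos (by linarith [hr.rp]) (by linarith [hr.rm])
  have h4 := del_Sx_le h hr
  have h5 : Q / 2 * ((‖x - nuc (-D)‖ - ‖x - nuc D‖) / (‖x - nuc D‖ * ‖x - nuc (-D)‖)) *
      Sx D κ p (-1) x ≤ 8 * D / (‖x - nuc D‖ * ‖x - nuc (-D)‖) * Ox D κ p (-1) x := by
    rw [show Q / 2 * ((‖x - nuc (-D)‖ - ‖x - nuc D‖) / (‖x - nuc D‖ * ‖x - nuc (-D)‖)) *
      Sx D κ p (-1) x = Q / 2 * ((‖x - nuc (-D)‖ - ‖x - nuc D‖) * Sx D κ p (-1) x) /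
        (‖x - nuc D‖ * ‖x - nuc (-D)‖) by ring,
      show 8 * D / (‖x - nuc D‖ * ‖x - nuc (-D)‖) * Ox D κ p (-1) x =
        8 * D * Ox D κ p (-1) x / (‖x - nuc D‖ * ‖x - nuc (-D)‖) by ring]
    refine div_le_div_of_nonneg_right ?_ hpp.le
    have hd : 0 ≤ (‖x - nuc (-D)‖ - ‖x - nuc D‖) * Sx D κ p (-1) x :=
      mul_nonneg (by linarith [hr.rp_le_rm]) (Sx_pos h hr).le
    have := mul_le_mul_of_nonneg_right (by linarith [h.q2] : Q / 2 ≤ 1) hd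
    linarith
  have h6 := mul_le_mul_of_nonneg_right hx.small hO
  have h7 := mul_le_mul_of_nonneg_right (epsm_far h hx) hO
  have h8 : epsm κ p (-1) ‖x - nuc (-D)‖ * Ox D κ p (-1) x ≤
      epsm κ p (-1) ‖x - nuc D‖ * Em κ p (-1) ‖x - nuc D‖ -
        epsm κ p (-1) ‖x - nuc (-D)‖ * Em κ p (-1) ‖x - nuc (-D)‖ := by
    rw [h3]; linarith
  have h9 : 0 ≤ (√‖x‖)⁻¹ ^ 3 * Ox D κ p (-1) x := by positivity
  have h10 : 0.9 * ((√‖x‖)⁻¹ ^ 3 * Ox D κ p (-1) x) ≤ κ * ((√‖x‖)⁻¹ ^ 3 * Ox D κ p (-1) x) :=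
    mul_le_mul_of_nonneg_right h.k1 h9
  linarith

theorem Lx_Sp_le (h : MPar κ Q p (-1)) (hx : XFar D x) :
    Lx D Q κ (Sx D κ p (-1)) x ≤ -(κ / 16 * (√‖x‖)⁻¹ ^ 3) * Sx D κ p (-1) x := by
  have hr := hx.reg
  have hD := hx.Dpos
  rw [Lx_Sx h.hp hr.mem, XWm_eq_eps h hr.rp, XWm_eq_eps h hr.rm, hr.inv_sub]
  have hS := (Sx_pos h hr).le
  have hO := Ox_nonneg h hr
  have hOS := Ox_le_Sx h hr
  have h2 := mul_le_mul_of_nonneg_right (epsm_anti h hr.rp hr.rp_le_rm) (Em_pos h hr.rp).le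
  have h3 : Sx D κ p (-1) x = Em κ p (-1) ‖x - nuc D‖ + Em κ p (-1) ‖x - nuc (-D)‖ := rfl
  have hpp : 0 < ‖x - nuc D‖ * ‖x - nuc (-D)‖ :=
    mul_pos (by linarith [hr.rp]) (by linarith [hr.rm])
  have h4 : ‖x - nuc (-D)‖ - ‖x - nuc D‖ ≤ 2 * D := by linarith [XT.rm_le_rp x hD.le]
  have h5 : Q / 2 * ((‖x - nuc (-D)‖ - ‖x - nuc D‖) / (‖x - nuc D‖ * ‖x - nuc (-D)‖)) *
      Ox D κ p (-1) x ≤ 8 * D / (‖x - nuc D‖ * ‖x - nuc (-D)‖) * Sx D κ p (-1) x := by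
    rw [show Q / 2 * ((‖x - nuc (-D)‖ - ‖x - nuc D‖) / (‖x - nuc D‖ * ‖x - nuc (-D)‖)) *
      Ox D κ p (-1) x = Q / 2 * ((‖x - nuc (-D)‖ - ‖x - nuc D‖) * Ox D κ p (-1) x) /
        (‖x - nuc D‖ * ‖x - nuc (-D)‖) by ring,
      show 8 * D / (‖x - nuc D‖ * ‖x - nuc (-D)‖) * Sx D κ p (-1) x =
        8 * D * Sx D κ p (-1) x / (‖x - nuc D‖ * ‖x - nuc (-D)‖) by ring]
    refine div_le_div_of_nonneg_right ?_ hpp.le
    have hd : 0 ≤ (‖x - nuc (-D)‖ - ‖x - nuc D‖) * Ox D κ p (-1) x :=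
      mul_nonneg (by linarith [hr.rp_le_rm]) hO
    have e1 := mul_le_mul_of_nonneg_right (by linarith [h.q2] : Q / 2 ≤ 1) hd
    have e2 : (‖x - nuc (-D)‖ - ‖x - nuc D‖) * Ox D κ p (-1) x ≤ 2 * D * Sx D κ p (-1) x :=
      mul_le_mul h4 hOS hO (by positivity)
    have e3 : 0 ≤ D * Sx D κ p (-1) x := by positivity
    linarith
  have h6 := mul_le_mul_of_nonneg_right hx.small hS
  have h7 := mul_le_mul_of_nonneg_right (epsm_far h hx) hS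
  have h8 : epsm κ p (-1) ‖x - nuc (-D)‖ * Sx D κ p (-1) x ≤
      epsm κ p (-1) ‖x - nuc D‖ * Em κ p (-1) ‖x - nuc D‖ +
        epsm κ p (-1) ‖x - nuc (-D)‖ * Em κ p (-1) ‖x - nuc (-D)‖ := by
    rw [h3]; linarith
  have h9 : 0 ≤ (√‖x‖)⁻¹ ^ 3 * Sx D κ p (-1) x := by positivity
  have h10 : 0.9 * ((√‖x‖)⁻¹ ^ 3 * Sx D κ p (-1) x) ≤ κ * ((√‖x‖)⁻¹ ^ 3 * Sx D κ p (-1) x) :=
    mul_le_mul_of_nonneg_right h.k1 h9
  linarith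

end far

end Crest.Agent.R335
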