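import Crest.Agent.R335.CDefs
import Crest.Agent.R335.XTwo

/-!
Row 335 (S0521), TOP: bridge between the model functions of `CDefs` (`CX.EE`, `CX.OO`, `CX.SS`) and
those of `XMod`, `XTwo` (`Em`, `Ox`, `Sx`) (helper783).
`CX.EE κ Q σ = Em κ (Q/κ - 1) (-σ)`.
-/

set_option autoImplicit false

open MeasureTheory Filter Set Crest.MathPhysics.ThreeBody
open scoped ENNReal Topology ContDiff

noncomputable section
namespace Crest.Agent.R335

namespace TX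

theorem EE_eq {κ Q σ t : ℝ} (ht : 0 < t) : CX.EE κ Q σ t = Em κ (Q / κ - 1) (-σ) t := by
  rw [Em_eq ht]
  unfold CX.EE ee
  rw [Real.rpow_neg ht.le, ← Real.sqrt_eq_rpow]
  ring_nf

theorem OO_eq {D κ Q σ : ℝ} {x : Pos3} (hx : x ∈ XT.Uc D) :
    CX.OO D κ Q σ x = Ox D κ (Q / κ - 1) (-σ) x := by
  unfold CX.OO Ox
  rw [EE_eq (norm_pos_iff.2 (sub_ne_zero.2 hx.1)), EE_eq (norm_pos_iff.2 (sub_ne_zero.2 hx.2))]

theorem SS_eq {D κ Q σ : ℝ} {x : Pos3} (hx : x ∈ XT.Uc D) :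
    CX.SS D κ Q σ x = Sx D κ (Q / κ - 1) (-σ) x := by
  unfold CX.SS Sx
  rw [EE_eq (norm_pos_iff.2 (sub_ne_zero.2 hx.1)), EE_eq (norm_pos_iff.2 (sub_ne_zero.2 hx.2))]

theorem mpar {κ lam σ : ℝ} (h1 : 9 / 10 ≤ κ) (h2 : κ ≤ 11 / 10) (hl : 0 ≤ lam)
    (hl' : lam ≤ 1 / 20) (hσ : σ = 1 ∨ σ = -1) :
    MPar κ (2 * (1 - lam)) (2 * (1 - lam) / κ - 1) σ where
  k1 := by norm_num; linarith
  k2 := by norm_num; linarith
  q1 := by norm_num; linarith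
  q2 := by linarith
  hp := by
    have : κ ≠ 0 := by linarith
    field_simp; ring
  hσ := hσ

theorem xreg {D R : ℝ} (hD : 1 ≤ D) (hR : D + 100 ≤ R) {x : Pos3} (hx : x ∈ UpExt R) :
    XReg D x where
  D1 := hD
  z0 := hx.2.le
  rp := by
    have := XT.le_rp x (D := D) (by linarith)
    have := hx.1
    linarith

theorem neg_sg {σ : ℝ} (hσ : σ = 1 ∨ σ = -1) : -σ = 1 ∨ -σ = -1 := by
  rcases hσ with h | h <;> rw [h]
  · right; rfl
  · left; ring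

theorem OO_pos {D R κ lam σ : ℝ} (hD : 1 ≤ D) (hR : D + 100 ≤ R) (h1 : 9 / 10 ≤ κ)
    (h2 : κ ≤ 11 / 10) (hl : 0 ≤ lam) (hl' : lam ≤ 1 / 20) (hσ : σ = 1 ∨ σ = -1) {x : Pos3}
    (hx : x ∈ UpExt R) : 0 < CX.OO D κ (2 * (1 - lam)) σ x := by
  have hr := xreg hD hR hx
  have hm := mpar h1 h2 hl hl' (neg_sg hσ)
  rw [OO_eq hr.mem]
  refine lt_of_lt_of_le ?_ (Ox_ge hm hr)
  have hE := Em_pos hm hr.rp
  have hd : 0 < ‖x - nuc (-D)‖ - ‖x - nuc D‖ := by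
    have h3 := XT.del_mul x D
    have h4 : 0 < ‖x - nuc (-D)‖ + ‖x - nuc D‖ := by linarith [hr.rp, hr.rm]
    have h5 : 0 < 4 * D * x 2 := by
      have := hx.2
      positivity
    rw [← h3] at h5
    exact pos_of_mul_pos_left h5 h4.le
  have : 0 < 4 * D := by linarith
  positivity

theorem SS_pos {D κ Q σ : ℝ} {x : Pos3} (hσ : 0 ≤ σ) (hx : x ∈ XT.Uc D) :
    0 < CX.SS D κ Q σ x := by
  have h : ∀ t : ℝ, 0 < t → 0 < CX.EE κ Q σ t := fun t ht => by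
    unfold CX.EE
    have := Real.rpow_pos_of_pos ht (-(1 / 2) : ℝ)
    have := Real.rpow_pos_of_pos ht (Q / κ - 1)
    have := Real.exp_pos (-κ * t)
    positivity
  exact add_pos (h _ (norm_pos_iff.2 (sub_ne_zero.2 hx.1)))
    (h _ (norm_pos_iff.2 (sub_ne_zero.2 hx.2)))

theorem EE_cont (κ Q σ : ℝ) : ContinuousOn (CX.EE κ Q σ) (Ioi 0) := by
  unfold CX.EE
  refine ContinuousOn.mul (ContinuousOn.mul (by fun_prop) ?_) ?_
  · exact fun t ht => (Real.continuousAt_rpow_const _ _ (Or.inl (ne_of_gt ht))).continuousWithinAt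
  · refine continuousOn_const.add (continuousOn_const.mul ?_)
    exact fun t ht => (Real.continuousAt_rpow_const _ _ (Or.inl (ne_of_gt ht))).continuousWithinAt

theorem EE_cont' (κ Q σ : ℝ) (a : Pos3) :
    ContinuousOn (fun x : Pos3 => CX.EE κ Q σ ‖x - a‖) {x | x ≠ a} :=
  (EE_cont κ Q σ).comp (by fun_prop) fun x hx => norm_pos_iff.2 (sub_ne_zero.2 hx)

theorem OO_cont (D κ Q σ : ℝ) : ContinuousOn (CX.OO D κ Q σ) (XT.Uc D) :=
  ((EE_cont' κ Q σ (nuc D)).mono fun _ hx => hx.1).sub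
    ((EE_cont' κ Q σ (nuc (-D))).mono fun _ hx => hx.2)

theorem SS_cont (D κ Q σ : ℝ) : ContinuousOn (CX.SS D κ Q σ) (XT.Uc D) :=
  ((EE_cont' κ Q σ (nuc D)).mono fun _ hx => hx.1).add
    ((EE_cont' κ Q σ (nuc (-D))).mono fun _ hx => hx.2)

theorem mem_Uc {D R : ℝ} (hD : 0 ≤ D) (hR : D < R) {x : Pos3} (hx : R ≤ ‖x‖) : x ∈ XT.Uc D := by
  constructor
  · rintro rfl; rw [XT.norm_nuc, abs_of_nonneg hD] at hx; linarith
  · rintro rfl; rw [XT.norm_nuc, abs_neg, abs_of_nonneg hD] at hx; linarith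

theorem rz_nuc (D : ℝ) : rz (nuc D) = nuc (-D) := by
  ext i
  rw [rz_apply]
  by_cases h : i = 2
  · subst h; simp [nuc]
  · simp [nuc, h]

theorem SS_rz (D κ Q σ : ℝ) (x : Pos3) : CX.SS D κ Q σ (rz x) = CX.SS D κ Q σ x := by
  have h1 : ‖rz x - nuc D‖ = ‖x - nuc (-D)‖ := by
    have := rz_nuc (-D)
    rw [neg_neg] at this
    rw [← this, ← map_sub, LinearIsometryEquiv.norm_map]
  have h2 : ‖rz x - nuc (-D)‖ = ‖x - nuc D‖ := by
    rw [← rz_nuc D, ← map_sub, LinearIsometryEquiv.norm_map]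
  unfold CX.SS
  rw [h1, h2, add_comm]

end TX
end Crest.Agent.R335
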