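import Crest.Agent.R335.BRLowF
import Crest.Agent.R335.TX

/-!
Row 335 (S0521), Part B sections 4-7 (note 10383), singlet sector: final form of the bounds
(`BR.fin_S`, module of the plan `BRPlan`), helper357.
-/

set_option autoImplicit false
set_option linter.unusedSectionVars false
set_option linter.unusedVariables false

open MeasureTheory Filter Set Crest.MathPhysics.ThreeBody
open scoped ENNReal Topology ContDiff

noncomputable section
namespace Crest.Agent.R335.BR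
open Crest.Agent.R335

/-- the singlet fields of `BO.Scal` -/
structure FinS (n : Nu) (P K2 : ℝ) (F c PP N : Pos3 → ℝ) (x : Pos3) : Prop where
  Flow : CX.OO n.D n.κ n.Q 1 x ≤ P * F x
  Fup : F x ≤ P * CX.OO n.D n.κ n.Q (-1) x
  clow : CX.SS n.D n.κS n.Q 1 x +
    n.lam / n.om ^ 2 / ‖x‖ ^ 4 * CX.SS n.D n.κ n.Q 1 x ≤ P * c x
  cup : c x ≤ P * (CX.SS n.D n.κS n.Q (-1) x +
    n.lam / n.om * (x 2 / ‖x‖ ^ 3) * CX.OO n.D n.κ n.Q (-1) x +
    n.lam / n.om ^ 2 / ‖x‖ ^ 4 * CX.SS n.D n.κ n.Q (-1) x)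
  Nc : N x ≤ K2 * c x
  Nup : N x ≤ P * (CX.SS n.D n.κS n.Q (-1) x +
    n.lam / n.om * (x 2 / ‖x‖ ^ 3) * CX.OO n.D n.κ n.Q (-1) x +
    n.lam / n.om ^ 2 / ‖x‖ ^ 4 * CX.SS n.D n.κ n.Q (-1) x)
  Pf : PP x ≤ K2 * n.lam / ‖x‖ ^ 2 * F x

namespace FNw

/-- data at a point -/
structure At (D lam om m2 dS q2 κ A Ac Am an K K1 K2 K3 u z O S B e S' Op Sp Sp' : ℝ) : Prop where
  D1 : 1 ≤ D
  l0 : 0 < lam
  l1 : lam ≤ 1 / 20
  om0 : 0 < om
  om1 : om ≤ 1 / 8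
  m20 : 0 < m2
  dS0 : 0 < dS
  dS2 : dS ≤ 4 * D
  q2lo : om ≤ q2
  q2hi : q2 ≤ 3 * om
  κ1 : 9 / 10 ≤ κ
  κ2 : κ ≤ 11 / 10
  A0 : 0 < A
  Ac0 : 0 < Ac
  Am0 : 0 < Am
  an0 : 0 < an
  K10 : 0 ≤ K1
  K20 : 0 ≤ K2
  K30 : 0 ≤ K3
  u0 : 0 < u
  u1 : u ≤ 1
  z0 : 0 < z
  O0 : 0 ≤ O
  S0 : 0 ≤ S
  S'0 : 0 ≤ S'
  e0 : 0 ≤ e
  OO : O ≤ 4.8 * D * Op
  SS : S ≤ Sp
  SS' : S' ≤ Sp'
  Op0 : 0 ≤ Op
  e1 : e ≤ u ^ 6 * S

section
variable {D lam om m2 dS q2 κ A Ac Am an K K1 K2 K3 u z O S B e S' Op Sp Sp' : ℝ}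
  (h : At D lam om m2 dS q2 κ A Ac Am an K K1 K2 K3 u z O S B e S' Op Sp Sp')
include h

theorem At.q20 : 0 < q2 := lt_of_lt_of_le h.om0 h.q2lo

/-- lower bound of the coefficient -/
theorem At.coef {d1 : ℝ} (hd1 : 0 < d1) (hd : d1 ≤ dS) :
    d1 * D / (40 * om ^ 2) ≤ dS / q2 * (κ * D / (4 * q2)) := by
  have hq := h.q20
  have hD0 : 0 < D := by linarith [h.D1]
  have hdS := h.dS0
  have hom := h.om0
  have e1 : dS / q2 * (κ * D / (4 * q2)) = dS * κ * D / (4 * q2 ^ 2) := by field_simp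
  rw [e1, div_le_div_iff₀ (by positivity) (by positivity)]
  have c1 : q2 ^ 2 ≤ 9 * om ^ 2 := by
    have := mul_self_le_mul_self hq.le h.q2hi
    nlinarith
  have c2 : d1 * (9 / 10) ≤ dS * κ := mul_le_mul hd h.κ1 (by norm_num) hdS.le
  have c3 : d1 * D * (4 * q2 ^ 2) ≤ d1 * D * (4 * (9 * om ^ 2)) :=
    mul_le_mul_of_nonneg_left (by linarith) (by positivity)
  have c4 : d1 * (9 / 10) * (D * (40 * om ^ 2)) ≤ dS * κ * (D * (40 * om ^ 2)) :=
    mul_le_mul_of_nonneg_right c2 (by positivity)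
  linarith

/-- value of `bc` -/
theorem At.bc_eq : bc A Ac (3 * dS / q2) (8 * κ * D / q2) lam u z O S S' =
    Ac * S' + lam * A * (3 * (dS / q2) * (u ^ 3 * z * O) +
      96 * (dS / q2 * (κ * D / (4 * q2))) * (u ^ 4 * S)) := by
  have := h.q20.ne'
  unfold bc Tv
  field_simp
  ring

/-- value of the lower barrier -/
theorem At.bc_le_lc : bc A Ac (3 * dS / q2) (8 * κ * D / q2) lam u z O S S' ≤
    (Ac / an + 28.8 * A * D / Am + 192 * A / Am) * (an * Sp' + lam * (Am / 2) *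
      (dS / q2 * (u ^ 3 * z * Op + κ * D / (4 * q2) * (u ^ 4 * Sp)))) := by
  rw [h.bc_eq]
  have hq := h.q20
  have hD := h.D1
  have hκ := h.κ1
  obtain ⟨α, hα⟩ : ∃ α, α = dS / q2 := ⟨_, rfl⟩
  obtain ⟨β, hβ⟩ : ∃ β, β = κ * D / (4 * q2) := ⟨_, rfl⟩
  rw [← hα, ← hβ]
  have hα0 : 0 ≤ α := by rw [hα]; exact (div_pos h.dS0 hq).le
  have hβ0 : 0 ≤ β := by rw [hβ]; positivity
  have hl := h.l0.le
  have hA := h.A0.le
  have hAm := h.Am0
  have han := h.an0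
  have hAc := h.Ac0
  have hu3 : 0 ≤ u ^ 3 * z := mul_nonneg (pow_nonneg h.u0.le _) h.z0.le
  have hu4 : 0 ≤ u ^ 4 := pow_nonneg h.u0.le _
  have hSp0 : 0 ≤ Sp := h.S0.trans h.SS
  have hSp'0 : 0 ≤ Sp' := h.S'0.trans h.SS'
  have hOp := h.Op0
  have a1 : Ac * S' ≤ Ac * Sp' := mul_le_mul_of_nonneg_left h.SS' hAc.le
  have a2 : u ^ 3 * z * O ≤ 4.8 * D * (u ^ 3 * z * Op) := by
    have := mul_le_mul_of_nonneg_left h.OO hu3
    linarith
  have a3 : u ^ 4 * S ≤ u ^ 4 * Sp := mul_le_mul_of_nonneg_left h.SS hu4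
  obtain ⟨X, hX⟩ : ∃ X, X = lam * (α * (u ^ 3 * z * Op)) := ⟨_, rfl⟩
  obtain ⟨Y, hY⟩ : ∃ Y, Y = lam * (α * (β * (u ^ 4 * Sp))) := ⟨_, rfl⟩
  have hX0 : 0 ≤ X := by rw [hX]; positivity
  have hY0 : 0 ≤ Y := by rw [hY]; positivity
  have a4 : lam * A * (3 * α * (u ^ 3 * z * O) + 96 * (α * β) * (u ^ 4 * S)) ≤
      14.4 * A * D * X + 96 * A * Y := by
    have b1 := mul_le_mul_of_nonneg_left a2 (by positivity : 0 ≤ lam * A * (3 * α))
    have b2 := mul_le_mul_of_nonneg_left a3 (by positivity : 0 ≤ lam * A * (96 * (α * β)))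
    calc _ = lam * A * (3 * α) * (u ^ 3 * z * O) + lam * A * (96 * (α * β)) * (u ^ 4 * S) := by
          ring
      _ ≤ _ := add_le_add b1 b2
      _ = _ := by rw [hX, hY]; ring
  have e1 : an * Sp' + lam * (Am / 2) * (α * (u ^ 3 * z * Op + β * (u ^ 4 * Sp))) =
      an * Sp' + Am / 2 * (X + Y) := by rw [hX, hY]; ring
  rw [e1]
  have e2 : (Ac / an + 28.8 * A * D / Am + 192 * A / Am) * (an * Sp' + Am / 2 * (X + Y)) =
      Ac * Sp' + 14.4 * A * D * (X + Y) + 96 * A * (X + Y) +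
        (Ac / an * (Am / 2 * (X + Y)) + (28.8 * A * D / Am + 192 * A / Am) * (an * Sp')) := by
    field_simp
    ring
  rw [e2]
  have e3 : 0 ≤ Ac / an * (Am / 2 * (X + Y)) +
      (28.8 * A * D / Am + 192 * A / Am) * (an * Sp') := by positivity
  have e4 : 0 ≤ 14.4 * A * D * Y := by positivity
  have e5 : 0 ≤ 96 * A * X := by positivity
  linarith

/-- `bN ≤ K2c lc` -/
theorem At.bN_le_lc {d1 : ℝ} (hd1 : 0 < d1) (hd : d1 ≤ dS) :
    bN A Ac (3 * dS / q2) (8 * κ * D / q2) (4 * κ * D / m2) K2 K3 lam u z O S S' e ≤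
    (K2 * (Ac / an + 28.8 * A * D / Am + 192 * A / Am) + 2 / Am * (14.4 * K3 * A * D * om / d1 +
      (K3 * A * (4.4 * D / m2) + K2) * (40 * om ^ 2 / (d1 * D)))) *
      (an * Sp' + lam * (Am / 2) *
      (dS / q2 * (u ^ 3 * z * Op + κ * D / (4 * q2) * (u ^ 4 * Sp)))) := by
  have hb := h.bc_le_lc
  have hb0 : 0 ≤ bc A Ac (3 * dS / q2) (8 * κ * D / q2) lam u z O S S' := by
    rw [h.bc_eq]
    have := h.Ac0; have := h.S'0; have := h.l0; have := h.A0; have := h.dS0; have := h.q20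
    have := h.u0; have := h.z0; have := h.O0; have := h.S0; have := h.κ1; have := h.D1
    have : 0 ≤ D := by linarith
    have : 0 ≤ κ := by linarith
    positivity
  unfold bN
  generalize bc A Ac (3 * dS / q2) (8 * κ * D / q2) lam u z O S S' = v at hb hb0 ⊢
  have hq := h.q20
  have hD := h.D1
  have hκ := h.κ1
  have hl := h.l0
  have hA := h.A0
  have hAm := h.Am0
  have han := h.an0
  have hAc := h.Ac0
  have hK2 := h.K20
  have hK3 := h.K30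
  have hm2 := h.m20
  have hom := h.om0
  have hD0 : 0 < D := by linarith
  have hdS := h.dS0
  have hu3 : 0 ≤ u ^ 3 * z := mul_nonneg (pow_nonneg h.u0.le _) h.z0.le
  have hu4 : 0 ≤ u ^ 4 := pow_nonneg h.u0.le _
  have hSp0 : 0 ≤ Sp := h.S0.trans h.SS
  have hSp'0 : 0 ≤ Sp' := h.S'0.trans h.SS'
  have hOp := h.Op0
  -- bounds of the coefficients
  have g1 : d1 / (3 * om) ≤ dS / q2 := by
    rw [div_le_div_iff₀ (by positivity) hq]
    exact mul_le_mul hd h.q2hi hq.le hdS.le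
  have g2 : d1 * D / (40 * om ^ 2) ≤ dS / q2 * (κ * D / (4 * q2)) := by
    have e1 : dS / q2 * (κ * D / (4 * q2)) = dS * κ * D / (4 * q2 ^ 2) := by field_simp
    rw [e1, div_le_div_iff₀ (by positivity) (by positivity)]
    have c1 : q2 ^ 2 ≤ 9 * om ^ 2 := by
      have := mul_self_le_mul_self hq.le h.q2hi
      nlinarith
    have c2 : d1 * (9 / 10) ≤ dS * κ := mul_le_mul hd hκ (by norm_num) hdS.le
    have c3 : d1 * D * (4 * q2 ^ 2) ≤ d1 * D * (4 * (9 * om ^ 2)) :=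
      mul_le_mul_of_nonneg_left (by linarith) (by positivity)
    have c4 : d1 * (9 / 10) * (D * (40 * om ^ 2)) ≤ dS * κ * (D * (40 * om ^ 2)) :=
      mul_le_mul_of_nonneg_right c2 (by positivity)
    linarith
  obtain ⟨α, hα⟩ : ∃ α, α = dS / q2 := ⟨_, rfl⟩
  obtain ⟨β, hβ⟩ : ∃ β, β = κ * D / (4 * q2) := ⟨_, rfl⟩
  rw [← hα] at g1
  rw [← hα, ← hβ] at g2
  rw [← hα, ← hβ] at hb ⊢
  have hα0 : 0 ≤ α := by rw [hα]; exact (div_pos h.dS0 hq).le
  have hβ0 : 0 ≤ β := by rw [hβ]; positivity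
  obtain ⟨X, hX⟩ : ∃ X, X = lam * (α * (u ^ 3 * z * Op)) := ⟨_, rfl⟩
  obtain ⟨Y, hY⟩ : ∃ Y, Y = lam * (α * (β * (u ^ 4 * Sp))) := ⟨_, rfl⟩
  have hX0 : 0 ≤ X := by rw [hX]; positivity
  have hY0 : 0 ≤ Y := by rw [hY]; positivity
  have e1 : an * Sp' + lam * (Am / 2) * (α * (u ^ 3 * z * Op + β * (u ^ 4 * Sp))) =
      an * Sp' + Am / 2 * (X + Y) := by rw [hX, hY]; ring
  rw [e1] at hb ⊢
  obtain ⟨Λ, hΛ⟩ : ∃ Λ, Λ = an * Sp' + Am / 2 * (X + Y) := ⟨_, rfl⟩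
  rw [← hΛ] at hb ⊢
  have hXΛ : X ≤ 2 / Am * Λ := by
    have e2 : 2 / Am * Λ = 2 / Am * (an * Sp') + (X + Y) := by rw [hΛ]; field_simp
    rw [e2]
    have : 0 ≤ 2 / Am * (an * Sp') := by positivity
    linarith
  have hYΛ : Y ≤ 2 / Am * Λ := by
    have e2 : 2 / Am * Λ = 2 / Am * (an * Sp') + (X + Y) := by rw [hΛ]; field_simp
    rw [e2]
    have : 0 ≤ 2 / Am * (an * Sp') := by positivity
    linarith
  -- term 1
  have t1 : lam * (K2 * (u ^ 2 * v)) ≤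
      K2 * (Ac / an + 28.8 * A * D / Am + 192 * A / Am) * Λ := by
    have b1 : u ^ 2 * v ≤ v := by
      have := mul_le_mul_of_nonneg_right (pow_le_one₀ (n := 2) h.u0.le h.u1) hb0
      linarith
    have b2 : lam * (K2 * (u ^ 2 * v)) ≤ 1 * (K2 * v) :=
      mul_le_mul (by linarith [h.l1]) (mul_le_mul_of_nonneg_left b1 hK2)
        (mul_nonneg hK2 (mul_nonneg (pow_nonneg h.u0.le _) hb0)) zero_le_one
    have b3 := mul_le_mul_of_nonneg_left hb hK2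
    linarith
  -- `lam u³ z O`
  have s1 : lam * (u ^ 3 * z * O) ≤ 14.4 * D * om / d1 * X := by
    have b1 : lam * (u ^ 3 * z * O) ≤ lam * (u ^ 3 * z * (4.8 * D * Op)) :=
      mul_le_mul_of_nonneg_left (mul_le_mul_of_nonneg_left h.OO hu3) hl.le
    have b2 : 14.4 * D * om / d1 * X =
        4.8 * D * (3 * om / d1 * α) * (lam * (u ^ 3 * z * Op)) := by
      rw [hX]; field_simp; ring
    have b3 : 1 ≤ 3 * om / d1 * α := by
      have := mul_le_mul_of_nonneg_left g1 (by positivity : 0 ≤ 3 * om / d1)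
      have e : 3 * om / d1 * (d1 / (3 * om)) = 1 := by field_simp
      linarith
    rw [b2]
    have b4 : 4.8 * D * 1 * (lam * (u ^ 3 * z * Op)) ≤
        4.8 * D * (3 * om / d1 * α) * (lam * (u ^ 3 * z * Op)) :=
      mul_le_mul_of_nonneg_right (mul_le_mul_of_nonneg_left b3 (by positivity)) (by positivity)
    linarith
  have s2 : lam * (u ^ 4 * S) ≤ 40 * om ^ 2 / (d1 * D) * Y := by
    have b1 : lam * (u ^ 4 * S) ≤ lam * (u ^ 4 * Sp) :=
      mul_le_mul_of_nonneg_left (mul_le_mul_of_nonneg_left h.SS hu4) hl.le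
    have b2 : 40 * om ^ 2 / (d1 * D) * Y =
        (40 * om ^ 2 / (d1 * D) * (α * β)) * (lam * (u ^ 4 * Sp)) := by
      rw [hY]; ring
    have b3 : 1 ≤ 40 * om ^ 2 / (d1 * D) * (α * β) := by
      have := mul_le_mul_of_nonneg_left g2 (by positivity : 0 ≤ 40 * om ^ 2 / (d1 * D))
      have e : 40 * om ^ 2 / (d1 * D) * (d1 * D / (40 * om ^ 2)) = 1 := by field_simp
      linarith
    rw [b2]
    have b4 : 1 * (lam * (u ^ 4 * Sp)) ≤
        (40 * om ^ 2 / (d1 * D) * (α * β)) * (lam * (u ^ 4 * Sp)) :=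
      mul_le_mul_of_nonneg_right b3 (by positivity)
    linarith
  have s3 : lam * e ≤ lam * (u ^ 4 * S) := by
    refine mul_le_mul_of_nonneg_left (h.e1.trans ?_) hl.le
    exact mul_le_mul_of_nonneg_right (pow_le_pow_of_le_one h.u0.le h.u1 (by norm_num)) h.S0
  have γ1 : 4 * κ * D / m2 ≤ 4.4 * D / m2 := by
    refine div_le_div_of_nonneg_right ?_ hm2.le
    have := h.κ2
    nlinarith
  have γ0 : 0 ≤ 4 * κ * D / m2 := by positivity
  -- term 2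
  have t2 : lam * (K3 * A * Tv u z O S (4 * κ * D / m2)) ≤
      2 / Am * (14.4 * K3 * A * D * om / d1 +
        K3 * A * (4.4 * D / m2) * (40 * om ^ 2 / (d1 * D))) * Λ := by
    unfold Tv
    have b1 := mul_le_mul_of_nonneg_left (s1.trans (mul_le_mul_of_nonneg_left hXΛ
      (by positivity : 0 ≤ 14.4 * D * om / d1))) (mul_nonneg hK3 hA.le)
    have b2 : (4 * κ * D / m2) * (lam * (u ^ 4 * S)) ≤
        4.4 * D / m2 * (40 * om ^ 2 / (d1 * D) * (2 / Am * Λ)) :=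
      mul_le_mul γ1 (s2.trans (mul_le_mul_of_nonneg_left hYΛ (by positivity)))
        (mul_nonneg hl.le (mul_nonneg hu4 h.S0)) (by positivity)
    have b3 := mul_le_mul_of_nonneg_left b2 (mul_nonneg hK3 hA.le)
    calc lam * (K3 * A * (u ^ 3 * z * O + 4 * κ * D / m2 * (u ^ 4 * S))) =
        K3 * A * (lam * (u ^ 3 * z * O)) + K3 * A * (4 * κ * D / m2 * (lam * (u ^ 4 * S))) := by
          ring
      _ ≤ _ := add_le_add b1 b3
      _ = _ := by ring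
  have t3 : lam * (K2 * e) ≤ 2 / Am * (K2 * (40 * om ^ 2 / (d1 * D))) * Λ := by
    have b1 := mul_le_mul_of_nonneg_left (s3.trans (s2.trans
      (mul_le_mul_of_nonneg_left hYΛ (by positivity)))) hK2
    calc lam * (K2 * e) = K2 * (lam * e) := by ring
      _ ≤ _ := b1
      _ = _ := by ring
  calc _ = lam * (K2 * (u ^ 2 * v)) + lam * (K3 * A * Tv u z O S (4 * κ * D / m2)) +
        lam * (K2 * e) := by ring
    _ ≤ _ := add_le_add (add_le_add t1 t2) t3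
    _ = _ := by ring

/-- upper bound of `bc` by the three symbols -/
theorem At.bc_le_up : bc A Ac (3 * dS / q2) (8 * κ * D / q2) lam u z O S S' ≤
    Ac * S' + 12 * A * D * (lam / om * (u ^ 3 * z) * O) +
      106 * A * D ^ 2 * (lam / om ^ 2 * u ^ 4 * S) := by
  rw [h.bc_eq]
  have hq := h.q20
  have hD := h.D1
  have hD0 : 0 < D := by linarith
  have hl := h.l0
  have hA := h.A0
  have hom := h.om0
  have hdS := h.dS0
  have hκ := h.κ1
  have hu3 : 0 ≤ u ^ 3 * z := mul_nonneg (pow_nonneg h.u0.le _) h.z0.le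
  have hu4 : 0 ≤ u ^ 4 := pow_nonneg h.u0.le _
  have hO := h.O0
  have hS := h.S0
  have g1 : 3 * (dS / q2) ≤ 12 * D / om := by
    have e1 : 3 * (dS / q2) = 3 * dS / q2 := by ring
    rw [e1, div_le_div_iff₀ hq hom]
    have := mul_le_mul h.dS2 h.q2lo hom.le (by positivity)
    linarith
  have g2 : 96 * (dS / q2 * (κ * D / (4 * q2))) ≤ 106 * D ^ 2 / om ^ 2 := by
    have e1 : 96 * (dS / q2 * (κ * D / (4 * q2))) = 24 * dS * κ * D / q2 ^ 2 := by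
      field_simp; ring
    rw [e1, div_le_div_iff₀ (by positivity) (by positivity)]
    have c1 : om ^ 2 ≤ q2 ^ 2 := by
      have := mul_self_le_mul_self hom.le h.q2lo
      nlinarith
    have c2 : dS * κ ≤ 4 * D * (11 / 10) := mul_le_mul h.dS2 h.κ2 (by linarith) (by positivity)
    have c3 : 24 * dS * κ * D * om ^ 2 ≤ 24 * (4 * D * (11 / 10)) * D * om ^ 2 := by
      have := mul_le_mul_of_nonneg_right c2 (by positivity : 0 ≤ 24 * D * om ^ 2)
      linarith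
    have c4 : 24 * (4 * D * (11 / 10)) * D * om ^ 2 ≤ 106 * D ^ 2 * om ^ 2 := by
      nlinarith [mul_nonneg (sq_nonneg D) (sq_nonneg om)]
    have c5 : 106 * D ^ 2 * om ^ 2 ≤ 106 * D ^ 2 * q2 ^ 2 :=
      mul_le_mul_of_nonneg_left c1 (by positivity)
    linarith
  have t1 := mul_le_mul_of_nonneg_left g1 (by positivity : 0 ≤ lam * A * (u ^ 3 * z * O))
  have t2 := mul_le_mul_of_nonneg_left g2 (by positivity : 0 ≤ lam * A * (u ^ 4 * S))
  calc _ = Ac * S' + lam * A * (u ^ 3 * z * O) * (3 * (dS / q2)) +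
        lam * A * (u ^ 4 * S) * (96 * (dS / q2 * (κ * D / (4 * q2)))) := by ring
    _ ≤ Ac * S' + lam * A * (u ^ 3 * z * O) * (12 * D / om) +
        lam * A * (u ^ 4 * S) * (106 * D ^ 2 / om ^ 2) := by linarith
    _ = _ := by field_simp

/-- upper bound of `bN` by the three symbols -/
theorem At.bN_le_up (h1 : lam * K2 ≤ 1) (he : lam * K2 * e ≤ S' + lam / om ^ 2 * u ^ 4 * S) :
    bN A Ac (3 * dS / q2) (8 * κ * D / q2) (4 * κ * D / m2) K2 K3 lam u z O S S' e ≤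
    (Ac + 1) * S' + (12 * A * D + K3 * A) * (lam / om * (u ^ 3 * z) * O) +
      (106 * A * D ^ 2 + K3 * A * (4.4 * D / m2) + 1) * (lam / om ^ 2 * u ^ 4 * S) := by
  have hb := h.bc_le_up
  have hb0 : 0 ≤ bc A Ac (3 * dS / q2) (8 * κ * D / q2) lam u z O S S' := by
    rw [h.bc_eq]
    have := h.Ac0; have := h.S'0; have := h.l0; have := h.A0; have := h.dS0; have := h.q20
    have := h.u0; have := h.z0; have := h.O0; have := h.S0; have := h.κ1; have := h.D1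
    have : 0 ≤ D := by linarith
    have : 0 ≤ κ := by linarith
    positivity
  unfold bN
  generalize bc A Ac (3 * dS / q2) (8 * κ * D / q2) lam u z O S S' = v at hb hb0 ⊢
  have hD := h.D1
  have hD0 : 0 < D := by linarith
  have hl := h.l0
  have hA := h.A0
  have hom := h.om0
  have hom1 := h.om1
  have hκ := h.κ1
  have hK2 := h.K20
  have hK3 := h.K30
  have hm2 := h.m20
  have hu3 : 0 ≤ u ^ 3 * z := mul_nonneg (pow_nonneg h.u0.le _) h.z0.le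
  have hu4 : 0 ≤ u ^ 4 := pow_nonneg h.u0.le _
  have hO := h.O0
  have hS := h.S0
  have t1 : lam * (K2 * (u ^ 2 * v)) ≤ v := by
    have b1 : u ^ 2 * v ≤ v := by
      have := mul_le_mul_of_nonneg_right (pow_le_one₀ (n := 2) h.u0.le h.u1) hb0
      linarith
    have b0 : 0 ≤ u ^ 2 * v := mul_nonneg (pow_nonneg h.u0.le _) hb0
    calc lam * (K2 * (u ^ 2 * v)) = lam * K2 * (u ^ 2 * v) := by ring
      _ ≤ 1 * (u ^ 2 * v) := mul_le_mul_of_nonneg_right h1 b0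
      _ ≤ v := by linarith
  have c1 : lam ≤ lam / om := by
    rw [le_div_iff₀ hom]
    nlinarith
  have c2 : lam ≤ lam / om ^ 2 := by
    rw [le_div_iff₀ (by positivity)]
    have : om ^ 2 ≤ 1 := pow_le_one₀ hom.le (by linarith)
    nlinarith
  have γ1 : 4 * κ * D / m2 ≤ 4.4 * D / m2 := by
    refine div_le_div_of_nonneg_right ?_ hm2.le
    have := h.κ2
    nlinarith
  have γ0 : 0 ≤ 4 * κ * D / m2 := by positivity
  have t2 : lam * (K3 * A * Tv u z O S (4 * κ * D / m2)) ≤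
      K3 * A * (lam / om * (u ^ 3 * z) * O) +
        K3 * A * (4.4 * D / m2) * (lam / om ^ 2 * u ^ 4 * S) := by
    unfold Tv
    have b1 : lam * (u ^ 3 * z * O) ≤ lam / om * (u ^ 3 * z) * O := by
      have := mul_le_mul_of_nonneg_right c1 (mul_nonneg hu3 hO)
      linarith
    have b2 : lam * (u ^ 4 * S) ≤ lam / om ^ 2 * u ^ 4 * S := by
      have := mul_le_mul_of_nonneg_right c2 (mul_nonneg hu4 hS)
      linarith
    have b3 : 4 * κ * D / m2 * (lam * (u ^ 4 * S)) ≤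
        4.4 * D / m2 * (lam / om ^ 2 * u ^ 4 * S) :=
      mul_le_mul γ1 b2 (by positivity) (by positivity)
    have b4 := mul_le_mul_of_nonneg_left (add_le_add b1 b3) (mul_nonneg hK3 hA.le)
    calc _ = K3 * A * (lam * (u ^ 3 * z * O) + 4 * κ * D / m2 * (lam * (u ^ 4 * S))) := by ring
      _ ≤ _ := b4
      _ = _ := by ring
  linarith

end

theorem at_of {n : Nu} (pr : Prm n) {x : Pos3} (hx : x ∈ (HExt n.R 2 : Set Pos3)) :
    At n.D n.lam n.om n.m2 n.dS n.q2 n.κ n.A n.Ac n.Am n.an n.K n.K1 n.K2 n.K3 (1 / ‖x‖) (x 2)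
      (Ox n.D n.κ n.p 1 x) (Sx n.D n.κ n.p 1 x) (Bz n.k x) (exr n.k x) (Sx n.D n.κS n.pS 1 x)
      (Ox n.D n.κ n.p (-1) x) (Sx n.D n.κ n.p (-1) x) (Sx n.D n.κS n.pS (-1) x) := by
  have hp := LFw.pt pr hx
  have hf := LFw.far pr hx
  have hM := LFw.mpar pr (σ := -1) (Or.inr rfl)
  exact {
    D1 := pr.D1
    l0 := pr.l0
    l1 := pr.l1
    om0 := pr.om0
    om1 := pr.om1
    m20 := pr.m20
    dS0 := pr.dS0
    dS2 := pr.dS2
    q2lo := pr.q2lo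
    q2hi := pr.q2hi
    κ1 := pr.κ1
    κ2 := pr.κ2
    A0 := pr.pos.A
    Ac0 := pr.pos.Ac
    Am0 := pr.Am0
    an0 := pr.an0
    K10 := pr.pos.K1
    K20 := pr.pos.K2
    K30 := pr.pos.K3
    u0 := hp.u0
    u1 := hp.u1
    z0 := hp.z0
    O0 := hp.O0
    S0 := hp.S0
    S'0 := LFw.SS0 pr hx
    e0 := hp.e0
    OO := LFw.OOp pr hx
    SS := BR.Sx_sign hf.reg
    SS' := BR.Sx_sign hf.reg
    Op0 := Ox_nonneg hM hf.reg
    e1 := hp.e1 }

/-- the term `λ K2 e^{-kr}` -/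
theorem exp_term {n : Nu} (pr : Prm n) {R' : ℝ} (hR' : 0 < R')
    (H : ∀ r, R' ≤ r → n.K2 * n.om ^ 2 * Real.exp (1.1 * n.D) / 0.9 * r ^ 4 *
      Real.exp (-(n.a / 8 * r)) ≤ 1)
    (hl : n.lam * n.K2 ≤ 0.9 * Real.exp (-(1.1 * (R' + n.D)))) {x : Pos3}
    (hx : x ∈ (HExt n.R 2 : Set Pos3)) :
    n.lam * n.K2 * exr n.k x ≤ Sx n.D n.κS n.pS 1 x +
      n.lam / n.om ^ 2 * (1 / ‖x‖) ^ 4 * Sx n.D n.κ n.p 1 x := by
  have hf := LFw.far pr hx
  have hr := hf.rpos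
  have hS' := LFw.SS0 pr hx
  have hS := (LFw.pt pr hx).S0
  have hom := pr.om0
  have hl0 := pr.l0
  have hK2 := pr.pos.K2
  have hD := hf.Dpos
  rcases le_total R' ‖x‖ with hRx | hRx
  · -- far
    have h1 := H _ hRx
    have h2 := BR.Sx_lower (LFw.mpar pr (σ := 1) (Or.inl rfl)) hf
    have h3 : n.K2 * n.om ^ 2 * ‖x‖ ^ 4 * exr n.k x ≤ Sx n.D n.κ n.p 1 x := by
      refine le_trans ?_ h2
      have e1 : exr n.k x = Real.exp (-(n.κ * ‖x‖)) * Real.exp (-(n.a / 8 * ‖x‖)) := by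
        unfold exr Nu.k
        rw [← Real.exp_add]
        congr 1
        ring
      have e2 : Real.exp (1.1 * n.D) * Real.exp (-(1.1 * n.D)) = 1 := by
        rw [← Real.exp_add]; simp
      have e3 : Real.exp (-(1.1 * n.D)) ≤ Real.exp (-(n.κ * n.D)) := by
        refine Real.exp_le_exp.2 ?_
        have := mul_le_mul_of_nonneg_right pr.κ2 hD.le
        linarith
      rw [e1]
      have e4 : n.K2 * n.om ^ 2 * ‖x‖ ^ 4 * (Real.exp (-(n.κ * ‖x‖)) *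
          Real.exp (-(n.a / 8 * ‖x‖))) = (n.K2 * n.om ^ 2 * Real.exp (1.1 * n.D) / 0.9 *
            ‖x‖ ^ 4 * Real.exp (-(n.a / 8 * ‖x‖))) * (0.9 * (Real.exp (-(1.1 * n.D)) *
              Real.exp (-(n.κ * ‖x‖)))) := by
        have : (n.K2 * n.om ^ 2 * Real.exp (1.1 * n.D) / 0.9 *
            ‖x‖ ^ 4 * Real.exp (-(n.a / 8 * ‖x‖))) * (0.9 * (Real.exp (-(1.1 * n.D)) *
              Real.exp (-(n.κ * ‖x‖)))) = (Real.exp (1.1 * n.D) * Real.exp (-(1.1 * n.D))) *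
              (n.K2 * n.om ^ 2 * ‖x‖ ^ 4 * (Real.exp (-(n.κ * ‖x‖)) *
          Real.exp (-(n.a / 8 * ‖x‖)))) := by ring
        rw [this, e2, one_mul]
      rw [e4]
      have e5 : 0 ≤ 0.9 * (Real.exp (-(1.1 * n.D)) * Real.exp (-(n.κ * ‖x‖))) := by positivity
      refine (mul_le_mul_of_nonneg_right h1 e5).trans ?_
      rw [one_mul]
      exact mul_le_mul_of_nonneg_left (mul_le_mul_of_nonneg_right e3 (Real.exp_pos _).le)
        (by norm_num)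
    have h4 : n.lam * n.K2 * exr n.k x ≤ n.lam / n.om ^ 2 * (1 / ‖x‖) ^ 4 *
        Sx n.D n.κ n.p 1 x := by
      have h5 := mul_le_mul_of_nonneg_left h3
        (by positivity : 0 ≤ n.lam / n.om ^ 2 * (1 / ‖x‖) ^ 4)
      refine le_trans (le_of_eq ?_) h5
      field_simp
    linarith
  · -- near
    have h2 := BR.Sx_lower (LFw.mparS pr (σ := 1) (Or.inl rfl)) hf
    have e1 : Real.exp (-(1.1 * (R' + n.D))) ≤
        Real.exp (-(n.κS * n.D)) * Real.exp (-(n.κS * ‖x‖)) := by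
      rw [← Real.exp_add]
      refine Real.exp_le_exp.2 ?_
      have b1 : n.κS * (‖x‖ + n.D) ≤ 1.1 * (R' + n.D) :=
        mul_le_mul (by linarith [pr.κS2]) (by linarith) (by positivity) (by norm_num)
      linarith
    have e2 : exr n.k x ≤ 1 := by
      unfold exr
      refine Real.exp_le_one_iff.2 ?_
      have h3 : 0 ≤ n.k := by
        have := LFw.a_pos pr
        have := pr.κ1
        unfold Nu.k
        linarith
      have := mul_nonneg h3 hr.le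
      linarith
    have e3 : n.lam * n.K2 * exr n.k x ≤ n.lam * n.K2 * 1 :=
      mul_le_mul_of_nonneg_left e2 (mul_nonneg hl0.le hK2)
    have e4 : 0 ≤ n.lam / n.om ^ 2 * (1 / ‖x‖) ^ 4 * Sx n.D n.κ n.p 1 x := by positivity
    linarith

end FNw

set_option maxHeartbeats 2000000 in
/-- final form of the bounds at a point -/
theorem fin_pt {n : Nu} (pr : Prm n) {d1 : ℝ} (hd1 : 0 < d1) (hd : d1 ≤ n.dS) {K2c : ℝ}
    (hKN : n.K2 * (n.Ac / n.an + 28.8 * n.A * n.D / n.Am +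
      192 * n.A / n.Am) + 2 / n.Am * (14.4 * n.K3 * n.A * n.D * n.om / d1 +
      (n.K3 * n.A * (4.4 * n.D / n.m2) + n.K2) * (40 * n.om ^ 2 / (d1 * n.D))) ≤ K2c)
    (hKP : 9.6 * n.D * n.K1 * (n.A + 1) / n.Am ≤ K2c) (hl1 : n.lam * n.K2 ≤ 1)
    {x : Pos3} (hx : x ∈ (HExt n.R 2 : Set Pos3))
    (hexp : n.lam * n.K2 * exr n.k x ≤ Sx n.D n.κS n.pS 1 x +
      n.lam / n.om ^ 2 * (1 / ‖x‖) ^ 4 * Sx n.D n.κ n.p 1 x)
    {F c P N : Pos3 → ℝ} (P0 : 0 ≤ P x) (N0 : 0 ≤ N x) (up : UpS n F c P N x)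
    (hF : n.Am / 2 * Ox n.D n.κ n.p (-1) x ≤ F x) (hc : n.lc x ≤ c x) :
    FinS n (2 * n.A + 2 / n.Am + 1 / n.an + 80 / (n.Am * d1 * n.D) +
      n.Ac + 12 * n.A * n.D + 106 * n.A * n.D ^ 2 +
      n.K3 * n.A * (1 + 4.4 * n.D / n.m2) + 1) K2c F c P N x := by
  have hat := FNw.at_of pr hx
  have D1 : 1 ≤ n.D := pr.D1
  have D0 : 0 < n.D := by linarith
  have om0 : 0 < n.om := pr.om0
  have m20 : 0 < n.m2 := pr.m20
  have A0 : 0 < n.A := pr.pos.A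
  have Ac0 : 0 < n.Ac := pr.pos.Ac
  have Am0 : 0 < n.Am := pr.Am0
  have an0 : 0 < n.an := pr.an0
  have K10 : 0 ≤ n.K1 := pr.pos.K1
  have K20 : 0 ≤ n.K2 := pr.pos.K2
  have K30 : 0 ≤ n.K3 := pr.pos.K3
  have l0 : 0 < n.lam := pr.l0
  have q20 : 0 < n.q2 := hat.q20
  have hp := LFw.pt pr hx
  have hf := LFw.far pr hx
  have hr := hf.rpos
  have hU := hf.reg.mem
  have hM := LFw.mpar pr (σ := -1) (Or.inr rfl)
  have hSp'0 : 0 ≤ Sx n.D n.κS n.pS (-1) x := (Sx_pos (LFw.mparS pr (Or.inr rfl)) hf.reg).le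
  have hSp0 := hat.S0.trans hat.SS
  have hbN := hat.bN_le_lc hd1 hd
  have hbN2 := hat.bN_le_up hl1 hexp
  have hbc2 := hat.bc_le_up
  have uc := up.uc
  have uN := up.uN
  have uF := up.uF
  have uP := up.uP
  have d1' : CX.OO n.D n.κ n.Q 1 x = Ox n.D n.κ n.p (-1) x := TX.OO_eq hU
  have d2 : CX.OO n.D n.κ n.Q (-1) x = Ox n.D n.κ n.p 1 x := by
    rw [TX.OO_eq hU, neg_neg]; rfl
  have d3 : CX.SS n.D n.κ n.Q 1 x = Sx n.D n.κ n.p (-1) x := TX.SS_eq hU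
  have d4 : CX.SS n.D n.κ n.Q (-1) x = Sx n.D n.κ n.p 1 x := by
    rw [TX.SS_eq hU, neg_neg]; rfl
  have d5 : CX.SS n.D n.κS n.Q 1 x = Sx n.D n.κS n.pS (-1) x := TX.SS_eq hU
  have d6 : CX.SS n.D n.κS n.Q (-1) x = Sx n.D n.κS n.pS 1 x := by
    rw [TX.SS_eq hU, neg_neg]; rfl
  rw [LFw.bc_eq] at uc
  rw [LFw.bN_eq] at uN
  rw [LFw.bF_eq pr hx] at uF
  rw [LFw.bP_eq pr hx] at uP
  have uP2 := uP.trans (BR.bP_le2 hp pr.pos)
  have elc : n.lc x = n.an * Sx n.D n.κS n.pS (-1) x +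
      n.lam * (n.Am / 2) * (n.dS / n.q2 * ((1 / ‖x‖) ^ 3 * x 2 *
        Ox n.D n.κ n.p (-1) x + n.κ * n.D / (4 * n.q2) *
          ((1 / ‖x‖) ^ 4 * Sx n.D n.κ n.p (-1) x))) := by
    unfold Nu.lc hz Nu.αl Nu.βl
    rw [LFw.ri_eq, LFw.ri_eq]
    ring
  rw [elc] at hc
  obtain ⟨Pc, hPc⟩ : ∃ Pc, Pc = 2 * n.A + 2 / n.Am + 1 / n.an + 80 / (n.Am * d1 * n.D) +
      n.Ac + 12 * n.A * n.D + 106 * n.A * n.D ^ 2 +
      n.K3 * n.A * (1 + 4.4 * n.D / n.m2) + 1 := ⟨_, rfl⟩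
  rw [← hPc]
  have p1 : 0 ≤ 2 / n.Am := by positivity
  have p2 : 0 ≤ 1 / n.an := by positivity
  have p3 : 0 ≤ 80 / (n.Am * d1 * n.D) := by positivity
  have p4 : 0 ≤ 12 * n.A * n.D := by positivity
  have p5 : 0 ≤ 106 * n.A * n.D ^ 2 := by positivity
  have p6 : 0 ≤ n.K3 * n.A * (4.4 * n.D / n.m2) := by positivity
  have p7 : 0 ≤ n.K3 * n.A := by positivity
  have hPc' : Pc = 2 * n.A + 2 / n.Am + 1 / n.an + 80 / (n.Am * d1 * n.D) +
      n.Ac + 12 * n.A * n.D + 106 * n.A * n.D ^ 2 +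
      (n.K3 * n.A + n.K3 * n.A * (4.4 * n.D / n.m2)) + 1 := by rw [hPc]; ring
  obtain ⟨u, hu⟩ : ∃ u, u = 1 / ‖x‖ := ⟨_, rfl⟩
  have e3 : ∀ t : ℝ, t / ‖x‖ ^ 3 = u ^ 3 * t := fun t => by rw [hu]; field_simp
  have e2 : ∀ t : ℝ, t / ‖x‖ ^ 2 = u ^ 2 * t := fun t => by rw [hu]; field_simp
  have e4 : ∀ t : ℝ, t / ‖x‖ ^ 4 = t * u ^ 4 := fun t => by rw [hu]; field_simp
  rw [← hu] at uc uN uP uP2 hc hbN hbN2 hbc2
  have hz : 0 < x 2 := hx.2
  have u0 : 0 < u := by rw [hu]; positivity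
  have hO := hat.O0
  have hOp := hat.Op0
  have hS := hat.S0
  have hS' := hat.S'0
  have hOO := hat.OO
  have hSS := hat.SS
  have hBO := hp.BO
  have hdS := pr.dS0
  -- the coefficient of the lower barrier
  have g2 : d1 * n.D / (40 * n.om ^ 2) ≤ n.dS / n.q2 * (n.κ * n.D / (4 * n.q2)) :=
    hat.coef hd1 hd
  have hF0 : 0 ≤ F x := le_trans (by positivity) hF
  have hκ0 : 0 < n.κ := hM.kpos
  generalize hOv : Ox n.D n.κ n.p 1 x = O at *
  generalize hOpv : Ox n.D n.κ n.p (-1) x = Op at *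
  generalize hSv : Sx n.D n.κ n.p 1 x = S at *
  generalize hSpv : Sx n.D n.κ n.p (-1) x = Sp at *
  generalize hS'v : Sx n.D n.κS n.pS 1 x = S' at *
  generalize hSp'v : Sx n.D n.κS n.pS (-1) x = Sp' at *
  have hu4 : 0 ≤ u ^ 4 := by positivity
  have hu3 : 0 ≤ u ^ 3 := by positivity
  have X10 : 0 ≤ n.lam / n.om * (u ^ 3 * x 2) * O := by positivity
  have X20 : 0 ≤ n.lam / n.om ^ 2 * u ^ 4 * S := by positivity
  have hlcn : 0 ≤ n.lam * (n.Am / 2) * (n.dS / n.q2 * (u ^ 3 * x 2 * Op +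
      n.κ * n.D / (4 * n.q2) * (u ^ 4 * Sp))) := by positivity
  have hc0 : 0 ≤ c x := le_trans (by positivity) hc
  refine ⟨?_, ?_, ?_, ?_, ?_, ?_, ?_⟩
  · -- Flow
    rw [d1']
    have h1 : Op = 2 / n.Am * (n.Am / 2 * Op) := by field_simp
    have h2 : 2 / n.Am * (n.Am / 2 * Op) ≤ 2 / n.Am * F x := mul_le_mul_of_nonneg_left hF p1
    have h3 : 2 / n.Am * F x ≤ Pc * F x := by
      refine mul_le_mul_of_nonneg_right ?_ hF0
      rw [hPc']; linarith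
    linarith
  · -- Fup
    rw [d2]
    have h1 : F x ≤ n.A * O + n.K * n.lam * Bz n.k x := (le_abs_self _).trans uF
    have h2 : n.K * n.lam * Bz n.k x ≤ n.K * n.lam * O :=
      mul_le_mul_of_nonneg_left hBO (mul_nonneg pr.pos.K l0.le)
    have h3 : n.K * n.lam ≤ n.A := by
      have := pr.h3
      have h4 : 0 ≤ n.lam * (n.K1 * (n.A + 1)) := by positivity
      linarith
    have h5 := mul_le_mul_of_nonneg_right h3 hO
    have h6 : 2 * n.A * O ≤ Pc * O := by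
      refine mul_le_mul_of_nonneg_right ?_ hO
      rw [hPc']; linarith
    linarith
  · -- clow
    rw [d5, d3, e4]
    have h1 : Sp' = 1 / n.an * (n.an * Sp') := by field_simp
    have h2 : n.lam / n.om ^ 2 * u ^ 4 * Sp ≤ 80 / (n.Am * d1 * n.D) * (n.lam * (n.Am / 2) *
        (n.dS / n.q2 * (u ^ 3 * x 2 * Op + n.κ * n.D / (4 * n.q2) * (u ^ 4 * Sp)))) := by
      have a1 : n.lam * (n.Am / 2) * (d1 * n.D / (40 * n.om ^ 2) * (u ^ 4 * Sp)) ≤
          n.lam * (n.Am / 2) * (n.dS / n.q2 * (n.κ * n.D / (4 * n.q2)) * (u ^ 4 * Sp)) := by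
        refine mul_le_mul_of_nonneg_left ?_ (by positivity)
        exact mul_le_mul_of_nonneg_right g2 (by positivity)
      have a2 : n.lam * (n.Am / 2) * (n.dS / n.q2 * (n.κ * n.D / (4 * n.q2)) * (u ^ 4 * Sp)) ≤
          n.lam * (n.Am / 2) * (n.dS / n.q2 * (u ^ 3 * x 2 * Op +
            n.κ * n.D / (4 * n.q2) * (u ^ 4 * Sp))) := by
        have : 0 ≤ n.lam * (n.Am / 2) * (n.dS / n.q2 * (u ^ 3 * x 2 * Op)) := by positivity
        linarith
      have a3 := mul_le_mul_of_nonneg_left (a1.trans a2) p3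
      refine le_trans (le_of_eq ?_) a3
      field_simp
      ring
    have h3 : n.an * Sp' ≤ c x := by linarith
    have h4 : n.lam * (n.Am / 2) * (n.dS / n.q2 * (u ^ 3 * x 2 * Op +
      n.κ * n.D / (4 * n.q2) * (u ^ 4 * Sp))) ≤ c x := by
      have : 0 ≤ n.an * Sp' := by positivity
      linarith
    have h5 := mul_le_mul_of_nonneg_left h3 p2
    have h6 := mul_le_mul_of_nonneg_left h4 p3
    have h7 : (1 / n.an + 80 / (n.Am * d1 * n.D)) * c x ≤ Pc * c x := by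
      refine mul_le_mul_of_nonneg_right ?_ hc0
      rw [hPc']; linarith
    linarith
  · -- cup
    rw [d6, d2, d4, e3, e4]
    have h1 := (le_abs_self (c x)).trans (uc.trans hbc2)
    have h2 : n.Ac * S' ≤ Pc * S' := by
      refine mul_le_mul_of_nonneg_right ?_ hS'
      rw [hPc']; linarith
    have h3 : 12 * n.A * n.D * (n.lam / n.om * (u ^ 3 * x 2) * O) ≤
        Pc * (n.lam / n.om * (u ^ 3 * x 2) * O) := by
      refine mul_le_mul_of_nonneg_right ?_ X10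
      rw [hPc']; linarith
    have h4 : 106 * n.A * n.D ^ 2 * (n.lam / n.om ^ 2 * u ^ 4 * S) ≤
        Pc * (n.lam / n.om ^ 2 * u ^ 4 * S) := by
      refine mul_le_mul_of_nonneg_right ?_ X20
      rw [hPc']; linarith
    linarith
  · -- Nc
    have h1 := uN.trans hbN
    have h2 : 0 ≤ n.an * Sp' + n.lam * (n.Am / 2) * (n.dS / n.q2 * (u ^ 3 * x 2 * Op +
      n.κ * n.D / (4 * n.q2) * (u ^ 4 * Sp))) := by positivity
    have h3 := mul_le_mul_of_nonneg_right hKN h2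
    have h4 : 0 ≤ K2c := le_trans (by positivity) hKP
    have h5 := mul_le_mul_of_nonneg_left hc h4
    linarith
  · -- Nup
    rw [d6, d2, d4, e3, e4]
    have h1 := uN.trans hbN2
    have h2 : (n.Ac + 1) * S' ≤ Pc * S' := by
      refine mul_le_mul_of_nonneg_right ?_ hS'
      rw [hPc']; linarith
    have h3 : (12 * n.A * n.D + n.K3 * n.A) * (n.lam / n.om * (u ^ 3 * x 2) * O) ≤
        Pc * (n.lam / n.om * (u ^ 3 * x 2) * O) := by
      refine mul_le_mul_of_nonneg_right ?_ X10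
      rw [hPc']; linarith
    have h4 : (106 * n.A * n.D ^ 2 + n.K3 * n.A * (4.4 * n.D / n.m2) + 1) *
        (n.lam / n.om ^ 2 * u ^ 4 * S) ≤ Pc * (n.lam / n.om ^ 2 * u ^ 4 * S) := by
      refine mul_le_mul_of_nonneg_right ?_ X20
      rw [hPc']; linarith
    linarith
  · -- Pf
    rw [e2]
    have h1 : n.K1 * n.lam * ((n.A + 1) * (u ^ 2 * O)) ≤
        n.K1 * n.lam * ((n.A + 1) * (u ^ 2 * (4.8 * n.D * Op))) := by
      have : 0 ≤ n.K1 * n.lam * ((n.A + 1) * u ^ 2) := by positivity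
      have := mul_le_mul_of_nonneg_left hOO this
      linarith
    have h2 : n.K1 * n.lam * ((n.A + 1) * (u ^ 2 * (4.8 * n.D * Op))) =
        9.6 * n.D * n.K1 * (n.A + 1) / n.Am * (n.lam * u ^ 2) * (n.Am / 2 * Op) := by
      field_simp
      ring
    have h3 : 9.6 * n.D * n.K1 * (n.A + 1) / n.Am * (n.lam * u ^ 2) * (n.Am / 2 * Op) ≤
        9.6 * n.D * n.K1 * (n.A + 1) / n.Am * (n.lam * u ^ 2) * F x :=
      mul_le_mul_of_nonneg_left hF (by positivity)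
    have h4 : 9.6 * n.D * n.K1 * (n.A + 1) / n.Am * (n.lam * u ^ 2 * F x) ≤
        K2c * (n.lam * u ^ 2 * F x) := mul_le_mul_of_nonneg_right hKP (by positivity)
    linarith

/-- final form of the bounds -/
theorem fin_S (n0 : Nu) {d1 : ℝ} (hd1 : 0 < d1) : ∃ K2c l' : ℝ, 1 ≤ K2c ∧ 0 < l' ∧
    ∀ lam κ κS dS : ℝ, lam ≤ l' → d1 ≤ dS → Prm (n0.upd lam κ κS dS) →
      ∀ F c P N : Pos3 → ℝ, ∀ x ∈ (HExt n0.R 2 : Set Pos3), 0 ≤ P x → 0 ≤ N x →
        UpS (n0.upd lam κ κS dS) F c P N x →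
        n0.Am / 2 * Ox n0.D κ (2 * (1 - lam) / κ - 1) (-1) x ≤ F x →
        (n0.upd lam κ κS dS).lc x ≤ c x →
        FinS (n0.upd lam κ κS dS) (2 * n0.A + 2 / n0.Am + 1 / n0.an + 80 / (n0.Am * d1 * n0.D) +
          n0.Ac + 12 * n0.A * n0.D + 106 * n0.A * n0.D ^ 2 +
          n0.K3 * n0.A * (1 + 4.4 * n0.D / n0.m2) + 1) K2c F c P N x := by
  by_cases hex : ∃ lam κ κS dS, Prm (n0.upd lam κ κS dS)
  swap
  · exact ⟨1, 1, le_rfl, one_pos, fun lam κ κS dS _ _ pr =>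
      absurd ⟨lam, κ, κS, dS, pr⟩ hex⟩
  obtain ⟨_, _, _, _, pr0⟩ := hex
  have D1 : 1 ≤ n0.D := pr0.D1
  have D0 : 0 < n0.D := by linarith
  have om0 : 0 < n0.om := pr0.om0
  have m20 : 0 < n0.m2 := pr0.m20
  have A0 : 0 < n0.A := pr0.pos.A
  have Ac0 : 0 < n0.Ac := pr0.pos.Ac
  have Am0 : 0 < n0.Am := pr0.Am0
  have an0 : 0 < n0.an := pr0.an0
  have K10 : 0 ≤ n0.K1 := pr0.pos.K1
  have K20 : 0 ≤ n0.K2 := pr0.pos.K2
  have K30 : 0 ≤ n0.K3 := pr0.pos.K3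
  obtain ⟨R', hR', H⟩ := XS.poly_exp (n0.K2 * n0.om ^ 2 * Real.exp (1.1 * n0.D) / 0.9) 4
    (b := n0.a / 8) (by unfold Nu.a; positivity)
  obtain ⟨KN, hKN⟩ : ∃ KN, KN = n0.K2 * (n0.Ac / n0.an + 28.8 * n0.A * n0.D / n0.Am +
      192 * n0.A / n0.Am) + 2 / n0.Am * (14.4 * n0.K3 * n0.A * n0.D * n0.om / d1 +
      (n0.K3 * n0.A * (4.4 * n0.D / n0.m2) + n0.K2) * (40 * n0.om ^ 2 / (d1 * n0.D))) := ⟨_, rfl⟩
  have KN0 : 0 ≤ KN := by rw [hKN]; positivity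
  obtain ⟨KP, hKP⟩ : ∃ KP, KP = 9.6 * n0.D * n0.K1 * (n0.A + 1) / n0.Am := ⟨_, rfl⟩
  have KP0 : 0 ≤ KP := by rw [hKP]; positivity
  refine ⟨1 + KN + KP, min (1 / (n0.K2 + 1)) (0.9 * Real.exp (-(1.1 * (R' + n0.D))) /
    (n0.K2 + 1)), by linarith, by positivity, ?_⟩
  intro lam κ κS dS hlam hd pr F c P N x hx P0 N0 up hF hc
  have hl0 : 0 < lam := pr.l0
  have hl1 : lam * n0.K2 ≤ 1 := by
    have h1 := hlam.trans (min_le_left _ _)
    rw [le_div_iff₀ (by positivity)] at h1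
    nlinarith
  have hl2 : lam * n0.K2 ≤ 0.9 * Real.exp (-(1.1 * (R' + n0.D))) := by
    have h1 := hlam.trans (min_le_right _ _)
    rw [le_div_iff₀ (by positivity)] at h1
    nlinarith
  exact fin_pt pr hd1 hd (K2c := 1 + KN + KP) (by
      show n0.K2 * (n0.Ac / n0.an + 28.8 * n0.A * n0.D / n0.Am +
      192 * n0.A / n0.Am) + 2 / n0.Am * (14.4 * n0.K3 * n0.A * n0.D * n0.om / d1 +
      (n0.K3 * n0.A * (4.4 * n0.D / n0.m2) + n0.K2) * (40 * n0.om ^ 2 / (d1 * n0.D))) ≤ _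
      rw [← hKN]; linarith) (by
      show 9.6 * n0.D * n0.K1 * (n0.A + 1) / n0.Am ≤ _
      rw [← hKP]; linarith) hl1 hx (FNw.exp_term pr hR' H hl2 hx) P0 N0 up hF hc

end Crest.Agent.R335.BR
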