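import Crest.Agent.R335.XForced

/-!
Row 335 (S0521): forced barriers `T^up`, `T^low` (section (1.4) of part B).
-/

set_option autoImplicit false
set_option linter.unusedSectionVars false

open MeasureTheory Filter Set Crest.MathPhysics.ThreeBody
open scoped ENNReal Topology ContDiff

noncomputable section
namespace Crest.Agent.R335

/-- the very far region `{z ≥ 0, |x| ≥ 10⁷ D²}` -/
structure XFar2 (D : ℝ) (x : Pos3) : Prop where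
  D1 : 1 ≤ D
  z0 : 0 ≤ x 2
  r : 10 ^ 7 * D ^ 2 ≤ ‖x‖

theorem XFar2.far {D : ℝ} {x : Pos3} (h : XFar2 D x) : XFar D x :=
  ⟨h.D1, h.z0, by
    have := h.r
    nlinarith [sq_nonneg D]⟩

theorem XFar2.sqrt {D : ℝ} {x : Pos3} (h : XFar2 D x) : 3000 * D ≤ √‖x‖ := by
  have hD : 0 < D := by linarith [h.D1]
  rw [show 3000 * D = √((3000 * D) ^ 2) by rw [Real.sqrt_sq (by positivity)]]
  refine Real.sqrt_le_sqrt ?_
  have := h.r
  nlinarith [sq_nonneg D]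

/-- `93 D / r² ≤ r^{-3/2}/32` -/
theorem XFar2.absorb {D : ℝ} {x : Pos3} (h : XFar2 D x) :
    93 * D / ‖x‖ ^ 2 ≤ 1 / 32 * (√‖x‖)⁻¹ ^ 3 := by
  have h0 := h.far.rpos
  have hD := h.far.Dpos
  have hs : 0 < √‖x‖ := Real.sqrt_pos.2 h0
  have hsq : √‖x‖ * √‖x‖ = ‖x‖ := Real.mul_self_sqrt h0.le
  have h1 := h.sqrt
  rw [div_le_iff₀ (by positivity)]
  have e2 : 1 / 32 * (√‖x‖)⁻¹ ^ 3 * ‖x‖ ^ 2 = 1 / 32 * √‖x‖ := by
    have : ‖x‖ ^ 2 = (√‖x‖ * √‖x‖) ^ 2 := by rw [hsq]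
    rw [this]
    field_simp
  rw [e2]
  linarith

section lower

variable {D κ Q p : ℝ} {x : Pos3}

theorem XF.ri5 (_hx : 0 < ‖x‖) : ri 5 x = ri 3 x / ‖x‖ ^ 2 := by
  rw [show (5 : ℕ) = 4 + 1 from rfl, ri_succ, show (4 : ℕ) = 3 + 1 from rfl, ri_succ, div_div, sq]

/-- third line of (1.4) -/
theorem Lx_hzOp_le (h : MPar κ Q p (-1)) (hx : XFar2 D x) :
    Lx D Q κ (fun y => hz y * Ox D κ p (-1) y) x ≤
      -(κ / 32 * (√‖x‖)⁻¹ ^ 3) * (hz x * Ox D κ p (-1) x) -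
        (if 6 * x 2 ^ 2 ≤ ‖x‖ ^ 2 then 0.48 * κ * D * (ri 4 x * Sx D κ p (-1) x) else 0) := by
  have hf := hx.far
  have hr := hf.reg
  have hr0 := hf.rpos
  have hD := hf.Dpos
  have hκ := h.kpos
  rw [Lx_hzO (mem_Ud hf)]
  have hz0 := hz_nonneg hf
  have hO := Ox_nonneg h hr
  have hS := (Sx_pos h hr).le
  have r3 := ri_pos 3 hr0
  have e1 : hz x * Lx D Q κ (Ox D κ p (-1)) x ≤
      hz x * (-(κ / 16 * (√‖x‖)⁻¹ ^ 3) * Ox D κ p (-1) x) :=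
    mul_le_mul_of_nonneg_left (Lx_Op_le h hf) hz0
  have e2 : 0 ≤ 2 * hz x * Del D κ p (-1) x := mul_nonneg (by positivity) (Del_nonneg h hr)
  have hsgn : 0 ≤ (√‖x‖)⁻¹ ^ 3 * (hz x * Ox D κ p (-1) x) := by positivity
  have hr4 : ri 4 x = ri 3 x / ‖x‖ := ri_succ 3 x
  split_ifs with hc
  · have a1 : ri 3 x / 2 ≤ ri 3 x - 3 * x 2 ^ 2 * ri 5 x := by
      rw [XF.ri5 hr0]
      have : 3 * x 2 ^ 2 * (ri 3 x / ‖x‖ ^ 2) ≤ ri 3 x / 2 := by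
        rw [mul_div_assoc', div_le_iff₀ (by positivity)]
        nlinarith
      linarith
    have a2 : 0.97 * κ / ‖x‖ * Sx D κ p (-1) x * (D * (ri 3 x / 2)) ≤
        Sig D κ p (-1) x * (D * (ri 3 x - 3 * x 2 ^ 2 * ri 5 x)) :=
      mul_le_mul (Sig_ge h hf) (mul_le_mul_of_nonneg_left a1 hD.le) (by positivity)
        (Sig_nonneg h hr)
    have a3 : 0.97 * κ / ‖x‖ * Sx D κ p (-1) x * (D * (ri 3 x / 2)) =
        0.485 * κ * D * (ri 4 x * Sx D κ p (-1) x) := by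
      rw [hr4]; ring
    have a4 : 0 ≤ κ * D * (ri 4 x * Sx D κ p (-1) x) := by
      rw [hr4]; positivity
    rw [a3] at a2
    have a5 : 0 ≤ κ * ((√‖x‖)⁻¹ ^ 3 * (hz x * Ox D κ p (-1) x)) := mul_nonneg hκ.le hsgn
    linarith
  · push Not at hc
    obtain ⟨z1, s1⟩ := Sx_le_Ox h hf hc
    have hzr : x 2 ^ 2 ≤ ‖x‖ ^ 2 := by
      have h1 : |x 2| ≤ ‖x‖ := by simpa using PiLp.norm_apply_le x 2
      rw [← sq_abs (x 2)]
      exact pow_le_pow_left₀ (abs_nonneg _) h1 2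
    have a1 : -(2 * ri 3 x) ≤ ri 3 x - 3 * x 2 ^ 2 * ri 5 x := by
      rw [XF.ri5 hr0]
      have : 3 * x 2 ^ 2 * (ri 3 x / ‖x‖ ^ 2) ≤ 3 * ri 3 x := by
        rw [mul_div_assoc', div_le_iff₀ (by positivity)]
        nlinarith
      linarith
    have a2 : Sig D κ p (-1) x * (D * (-(2 * ri 3 x))) ≤
        Sig D κ p (-1) x * (D * (ri 3 x - 3 * x 2 ^ 2 * ri 5 x)) :=
      mul_le_mul_of_nonneg_left (mul_le_mul_of_nonneg_left a1 hD.le) (Sig_nonneg h hr)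
    have a3 : Sig D κ p (-1) x * (D * (2 * ri 3 x)) ≤
        1.03 * κ / ‖x‖ * (10.3 * Ox D κ p (-1) x) * (D * (2 * ri 3 x)) := by
      refine mul_le_mul_of_nonneg_right ((Sig_le h hf).trans ?_) (by positivity)
      exact mul_le_mul_of_nonneg_left s1 (by positivity)
    have a4 : ri 3 x / ‖x‖ ≤ 2.5 / ‖x‖ ^ 2 * hz x := by
      unfold hz
      rw [div_mul_eq_mul_div, div_le_div_iff₀ hr0 (by positivity)]
      have : 0.4 * ‖x‖ * ri 3 x ≤ x 2 * ri 3 x := mul_le_mul_of_nonneg_right z1 r3.le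
      nlinarith
    have a5 : 1.03 * κ / ‖x‖ * (10.3 * Ox D κ p (-1) x) * (D * (2 * ri 3 x)) =
        21.218 * κ * D * Ox D κ p (-1) x * (ri 3 x / ‖x‖) := by ring
    have a6 : 21.218 * κ * D * Ox D κ p (-1) x * (ri 3 x / ‖x‖) ≤
        21.218 * κ * D * Ox D κ p (-1) x * (2.5 / ‖x‖ ^ 2 * hz x) :=
      mul_le_mul_of_nonneg_left a4 (by positivity)
    have a7 : 21.218 * κ * D * Ox D κ p (-1) x * (2.5 / ‖x‖ ^ 2 * hz x) ≤
        κ * (93 * D / ‖x‖ ^ 2) * (hz x * Ox D κ p (-1) x) := by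
      have : 0 ≤ κ * (D / ‖x‖ ^ 2) * (hz x * Ox D κ p (-1) x) := by positivity
      have e : 21.218 * κ * D * Ox D κ p (-1) x * (2.5 / ‖x‖ ^ 2 * hz x) =
        53.045 * (κ * (D / ‖x‖ ^ 2) * (hz x * Ox D κ p (-1) x)) := by ring
      have e' : κ * (93 * D / ‖x‖ ^ 2) * (hz x * Ox D κ p (-1) x) =
        93 * (κ * (D / ‖x‖ ^ 2) * (hz x * Ox D κ p (-1) x)) := by ring
      rw [e, e']
      linarith
    have a8 : κ * (93 * D / ‖x‖ ^ 2) * (hz x * Ox D κ p (-1) x) ≤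
        κ * (1 / 32 * (√‖x‖)⁻¹ ^ 3) * (hz x * Ox D κ p (-1) x) :=
      mul_le_mul_of_nonneg_right (mul_le_mul_of_nonneg_left hx.absorb hκ.le)
        (mul_nonneg hz0 hO)
    rw [a5] at a3
    linarith

/-- in the cone the term `D r⁻⁴ S` is negligible -/
theorem XF.cone (h : MPar κ Q p (-1)) (hx : XFar2 D x) (hc : ‖x‖ ^ 2 < 6 * x 2 ^ 2) :
    D * (ri 4 x * Sx D κ p (-1) x) ≤ 1 / 100 * (√‖x‖)⁻¹ ^ 3 * (hz x * Ox D κ p (-1) x) := by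
  have hf := hx.far
  have hr := hf.reg
  have hr0 := hf.rpos
  have hD := hf.Dpos
  have hz0 := hz_nonneg hf
  have hO := Ox_nonneg h hr
  have r3 := ri_pos 3 hr0
  obtain ⟨z1, s1⟩ := Sx_le_Ox h hf hc
  have a4 : ri 3 x / ‖x‖ ≤ 2.5 / ‖x‖ ^ 2 * hz x := by
    unfold hz
    rw [div_mul_eq_mul_div, div_le_div_iff₀ hr0 (by positivity)]
    have : 0.4 * ‖x‖ * ri 3 x ≤ x 2 * ri 3 x := mul_le_mul_of_nonneg_right z1 r3.le
    nlinarith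
  rw [ri_succ 3 x]
  have e1 : D * (ri 3 x / ‖x‖ * Sx D κ p (-1) x) ≤
      D * (2.5 / ‖x‖ ^ 2 * hz x * (10.3 * Ox D κ p (-1) x)) :=
    mul_le_mul_of_nonneg_left (mul_le_mul a4 s1 (Sx_pos h hr).le (by positivity)) hD.le
  have e2 : D * (2.5 / ‖x‖ ^ 2 * hz x * (10.3 * Ox D κ p (-1) x)) =
      25.75 / 93 * ((93 * D / ‖x‖ ^ 2) * (hz x * Ox D κ p (-1) x)) := by ring
  have e3 := mul_le_mul_of_nonneg_right hx.absorb (mul_nonneg hz0 hO)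
  have e4 : 0 ≤ (√‖x‖)⁻¹ ^ 3 * (hz x * Ox D κ p (-1) x) := by positivity
  rw [e2] at e1
  linarith

end lower

/-! ### the forced barriers -/

/-- `T^up / α` -/
def Tup (D κ p q : ℝ) (x : Pos3) : ℝ :=
  hz x * Ox D κ p 1 x + 8 * κ * D / q ^ 2 * (ri 4 x * Sx D κ p 1 x)

/-- `T^low / α` -/
def Tlow (D κ p q : ℝ) (x : Pos3) : ℝ :=
  hz x * Ox D κ p (-1) x + κ * D / (4 * q ^ 2) * (ri 4 x * Sx D κ p (-1) x)

section T

variable {D κ Q p q : ℝ} {x : Pos3}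

theorem Lx_Tup (hx : x ∈ XT.Ud D) : Lx D Q κ (Tup D κ p q) x =
    Lx D Q κ (fun y => hz y * Ox D κ p 1 y) x +
      8 * κ * D / q ^ 2 * Lx D Q κ (fun y => ri 4 y * Sx D κ p 1 y) x := by
  have h1 := Lx_add (D := D) (Q := Q) (κ := κ) (XT.isOpen_Ud D) (hzO_jet D κ p 1)
    ((riS_jet 4 D κ p 1).const_mul (XT.isOpen_Ud D) (8 * κ * D / q ^ 2)) hx
  rw [Lx_const_mul (XT.isOpen_Ud D) (riS_jet 4 D κ p 1) _ hx] at h1
  exact h1

theorem Lx_Tlow (hx : x ∈ XT.Ud D) : Lx D Q κ (Tlow D κ p q) x =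
    Lx D Q κ (fun y => hz y * Ox D κ p (-1) y) x +
      κ * D / (4 * q ^ 2) * Lx D Q κ (fun y => ri 4 y * Sx D κ p (-1) y) x := by
  have h1 := Lx_add (D := D) (Q := Q) (κ := κ) (XT.isOpen_Ud D) (hzO_jet D κ p (-1))
    ((riS_jet 4 D κ p (-1)).const_mul (XT.isOpen_Ud D) (κ * D / (4 * q ^ 2))) hx
  rw [Lx_const_mul (XT.isOpen_Ud D) (riS_jet 4 D κ p (-1)) _ hx] at h1
  exact h1

/-- `L_q T^up ≥ 0.99 (q²/2) r⁻³zO^- + 2.8 κ D r⁻⁴S^-` -/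
theorem Lq_Tup_ge (h : MPar κ Q p 1) (hx : XFar D x) (hq : 0 < q) (hrq : 1000 ≤ ‖x‖ * q ^ 2) :
    0.99 * (q ^ 2 / 2) * (hz x * Ox D κ p 1 x) + 2.8 * κ * D * (ri 4 x * Sx D κ p 1 x) ≤
      Lx D Q κ (Tup D κ p q) x + q ^ 2 / 2 * Tup D κ p q x := by
  have hr := hx.reg
  have hr0 := hx.rpos
  have hD := hx.Dpos
  have hκ := h.kpos
  have hz0 := hz_nonneg hx
  have hO := Ox_nonneg h hr
  have hS := (Sx_pos h hr).le
  have r4 := (ri_pos 4 hr0).le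
  rw [Lx_Tup (mem_Ud hx)]
  have e1 := Lx_hzOm_ge (Q := Q) h hx
  have e2 := Lx_riSm_ge (Q := Q) 4 (by norm_num) h hx
  have hinv : 1 / ‖x‖ ≤ q ^ 2 / 1000 := by
    rw [div_le_div_iff₀ hr0 (by norm_num)]; linarith
  have e3 : 2.6 * κ / ‖x‖ * (hz x * Ox D κ p 1 x) ≤
      0.01 * (q ^ 2 / 2) * (hz x * Ox D κ p 1 x) := by
    refine mul_le_mul_of_nonneg_right ?_ (mul_nonneg hz0 hO)
    have : 2.6 * κ / ‖x‖ = 2.6 * κ * (1 / ‖x‖) := by ring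
    rw [this]
    have := mul_le_mul_of_nonneg_left hinv (by linarith [h.kpos] : 0 ≤ 2.6 * κ)
    have k2 := h.k2
    nlinarith [sq_nonneg q]
  have e4 : 8 * κ * D / q ^ 2 * (-(1.04 * ((4 : ℕ) : ℝ) * κ / ‖x‖) * (ri 4 x * Sx D κ p 1 x)) ≤
      8 * κ * D / q ^ 2 * Lx D Q κ (fun y => ri 4 y * Sx D κ p 1 y) x :=
    mul_le_mul_of_nonneg_left e2 (by positivity)
  have e5 : -(0.05 * κ * D * (ri 4 x * Sx D κ p 1 x)) ≤
      8 * κ * D / q ^ 2 * (-(1.04 * ((4 : ℕ) : ℝ) * κ / ‖x‖) * (ri 4 x * Sx D κ p 1 x)) := by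
    have a1 : 8 * κ * D / q ^ 2 * (-(1.04 * ((4 : ℕ) : ℝ) * κ / ‖x‖) * (ri 4 x * Sx D κ p 1 x)) =
        -(33.28 * κ * (1 / ‖x‖ / q ^ 2) * (κ * D * (ri 4 x * Sx D κ p 1 x))) := by
      push_cast; ring
    have a2 : 1 / ‖x‖ / q ^ 2 ≤ 1 / 1000 := by
      rw [div_le_iff₀ (by positivity)]
      linarith
    have a3 : 33.28 * κ * (1 / ‖x‖ / q ^ 2) ≤ 0.05 := by
      have := mul_le_mul h.k2 a2 (by positivity) (by norm_num)
      linarith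
    have a4 : 0 ≤ κ * D * (ri 4 x * Sx D κ p 1 x) := by positivity
    have a5 := mul_le_mul_of_nonneg_right a3 a4
    rw [a1]
    linarith
  have e6 : q ^ 2 / 2 * Tup D κ p q x = q ^ 2 / 2 * (hz x * Ox D κ p 1 x) +
      4 * κ * D * (ri 4 x * Sx D κ p 1 x) := by
    unfold Tup
    field_simp
    ring
  rw [e6]
  have e7 : 0 ≤ κ * D * (ri 4 x * Sx D κ p 1 x) := by positivity
  linarith

/-- `L_q T^low ≤ (q²/2) r⁻³zO^+ - 0.35 κ D 1_{6z² ≤ r²} r⁻⁴S^+` -/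
theorem Lq_Tlow_le (h : MPar κ Q p (-1)) (hx : XFar2 D x) (hq : 0 < q) :
    Lx D Q κ (Tlow D κ p q) x + q ^ 2 / 2 * Tlow D κ p q x ≤
      q ^ 2 / 2 * (hz x * Ox D κ p (-1) x) -
        (if 6 * x 2 ^ 2 ≤ ‖x‖ ^ 2 then 0.35 * κ * D * (ri 4 x * Sx D κ p (-1) x) else 0) := by
  have hf := hx.far
  have hr := hf.reg
  have hr0 := hf.rpos
  have hD := hf.Dpos
  have hκ := h.kpos
  have hz0 := hz_nonneg hf
  have hO := Ox_nonneg h hr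
  have hS := (Sx_pos h hr).le
  have r4 := (ri_pos 4 hr0).le
  rw [Lx_Tlow (mem_Ud hf)]
  have e1 := Lx_hzOp_le (Q := Q) h hx
  have e2 : Lx D Q κ (fun y => ri 4 y * Sx D κ p (-1) y) x ≤ 0 := by
    refine (Lx_riSp_le 4 h hf).trans ?_
    have : 0 ≤ κ / 16 * (√‖x‖)⁻¹ ^ 3 * (ri 4 x * Sx D κ p (-1) x) := by positivity
    linarith
  have e3 : κ * D / (4 * q ^ 2) * Lx D Q κ (fun y => ri 4 y * Sx D κ p (-1) y) x ≤ 0 :=
    mul_nonpos_of_nonneg_of_nonpos (by positivity) e2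
  have e6 : q ^ 2 / 2 * Tlow D κ p q x = q ^ 2 / 2 * (hz x * Ox D κ p (-1) x) +
      κ * D / 8 * (ri 4 x * Sx D κ p (-1) x) := by
    unfold Tlow
    field_simp
    ring
  rw [e6]
  have e7 : 0 ≤ (√‖x‖)⁻¹ ^ 3 * (hz x * Ox D κ p (-1) x) := by positivity
  have e8 : 0 ≤ κ * ((√‖x‖)⁻¹ ^ 3 * (hz x * Ox D κ p (-1) x)) := mul_nonneg hκ.le e7
  split_ifs at e1 ⊢ with hc
  · have e9 : 0 ≤ κ * D * (ri 4 x * Sx D κ p (-1) x) := by positivity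
    linarith
  · push Not at hc
    have e9 := mul_le_mul_of_nonneg_left (XF.cone h hx hc) hκ.le
    linarith

end T

end Crest.Agent.R335
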