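import Crest.Agent.R335.BRMod
import Crest.Agent.R335.XForced2
import Crest.Agent.R335.HKato

/-!
Row 335 (S0521), Part B sections 5-6 (note 10383): comparison wrappers on `{r > R, z > 0}`.
-/

set_option autoImplicit false
set_option linter.unusedSectionVars false
set_option linter.unusedVariables false

open MeasureTheory Filter Set Crest.MathPhysics.ThreeBody
open scoped ENNReal Topology ContDiff

noncomputable section
namespace Crest.Agent.R335.BR
open Crest.Agent.R335

/-! ### reflection -/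

theorem diffAt_comp_rfl' (i : Fin 3) {b : Pos3 → ℝ} {x : Pos3}
    (h : DifferentiableAt ℝ b (rfl' i x)) : DifferentiableAt ℝ (fun y => b (rfl' i y)) x := by
  have h1 : (fun y : Pos3 => b (rfl' i y)) = b ∘ (rflL i) := by
    rw [coe_rflL]; rfl
  rw [h1]
  refine DifferentiableAt.comp x ?_ (rflL i).differentiable.differentiableAt
  rw [coe_rflL]; exact h

theorem lap_comp_rfl' (i : Fin 3) {U : Set Pos3} (hU : IsOpen U) {b : Pos3 → ℝ}
    {G : Pos3 → Pos3} {L : Pos3 → ℝ} (h : Jet U b G L) {x : Pos3} (hx : rfl' i x ∈ U) :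
    lap (fun y => b (rfl' i y)) x = lap b (rfl' i x) := by
  unfold lap
  refine Finset.sum_congr rfl fun j _ => ?_
  have hV : IsOpen (rfl' i ⁻¹' U) := hU.preimage (continuous_rfl' i)
  have e1 : pd j (fun y => b (rfl' i y)) =ᶠ[𝓝 x] fun y => sg i j * pd j b (rfl' i y) := by
    filter_upwards [hV.mem_nhds hx] with y hy
    exact pd_comp_rfl' i (h.diffAt hU hy) j
  rw [XL.pd_congr e1 j]
  have hd := h.pd_diffAt hU hx j
  have e2 : pd j (fun y => sg i j * pd j b (rfl' i y)) x =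
      sg i j * pd j (fun y => pd j b (rfl' i y)) x :=
    pd_const_mul' (diffAt_comp_rfl' i hd) _ _
  rw [e2, pd_comp_rfl' i hd j, ← mul_assoc, sg_mul_sg, one_mul]

theorem lap_even {U : Set Pos3} (hU : IsOpen U) {b : Pos3 → ℝ}
    {G : Pos3 → Pos3} {L : Pos3 → ℝ} (h : Jet U b G L) (he : ∀ x, b (rfl' 2 x) = b x) {x : Pos3}
    (hx : rfl' 2 x ∈ U) : lap b x = lap b (rfl' 2 x) := by
  have h1 : (fun y => b (rfl' 2 y)) = b := funext he
  rw [← lap_comp_rfl' 2 hU h hx, h1]

/-- pointwise (a.e.) supersolution is a weak supersolution -/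
theorem weak_ge_ae {U : Set Pos3} (hU : IsOpen U) {b : Pos3 → ℝ} {G : Pos3 → Pos3} {L : Pos3 → ℝ}
    (h : Jet U b G L)
    {q f : Pos3 → ℝ} (hq : LocallyIntegrableOn q U volume) (hf : LocallyIntegrableOn f U volume)
    (hp : ∀ᵐ x, x ∈ U → f x ≤ -(1 / 2) * L x + q x) {φ : Pos3 → ℝ} (hφ : Test U φ)
    (h0 : ∀ x, 0 ≤ φ x) :
    ∫ x, f x * φ x ≤ (1 / 2) * (∫ x, inner ℝ (G x) (gr φ x)) + ∫ x, q x * φ x := by
  have i1 := XL.integrable_mul_cpt hf hφ.smooth.continuous hφ.cpt hφ.sub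
  have i2 := XL.integrable_mul_cpt hq hφ.smooth.continuous hφ.cpt hφ.sub
  have i3 := XL.integrable_mul_cpt (h.locInt_lap hU) hφ.smooth.continuous hφ.cpt hφ.sub
  rw [h.ibp hU hφ, mul_neg, ← neg_mul, ← integral_const_mul, ← integral_add (i3.const_mul _) i2]
  refine integral_mono_ae i1 ((i3.const_mul _).add i2) ?_
  filter_upwards [hp] with x hpx
  by_cases hx : x ∈ U
  · have := mul_le_mul_of_nonneg_right (hpx hx) (h0 x)
    change f x * φ x ≤ -(1 / 2) * (L x * φ x) + q x * φ x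
    linarith
  · change f x * φ x ≤ -(1 / 2) * (L x * φ x) + q x * φ x
    rw [XL.eq_zero hφ hx]; simp

theorem setInt_eq {U : Set Pos3} {k : Pos3 → ℝ} (h : ∀ x, x ∉ U → k x = 0) :
    ∫ x in U, k x = ∫ x, k x := setIntegral_eq_integral_of_forall_compl_eq_zero h

theorem inner_gr_zero {U : Set Pos3} {φ : Pos3 → ℝ} (hφ : Test U φ) (v : Pos3 → Pos3) (x : Pos3)
    (hx : x ∉ U) : inner ℝ (v x) (gr φ x) = 0 := by
  rw [XL.gr_eq_zero hφ hx, inner_zero_right]

theorem int_inner_L2 {μ : Measure Pos3} {f g : Pos3 → Pos3} (hf : MemLp f 2 μ)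
    (hg : MemLp g 2 μ) : Integrable (fun x => inner ℝ (f x) (g x)) μ := by
  have h1 : Integrable (fun x => ‖f x‖ * ‖g x‖) μ := hf.norm.integrable_mul hg.norm
  exact h1.mono (hf.1.inner hg.1) (Eventually.of_forall fun x => by
    rw [Real.norm_of_nonneg (mul_nonneg (norm_nonneg _) (norm_nonneg _))]
    exact norm_inner_le_norm _ _)

/-- inner product of an `L²(U)` field and the gradient of a test function -/
theorem int_inner_test {U : Set Pos3} (hU : IsOpen U) {v : Pos3 → Pos3}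
    (hv : MemLp v 2 (volume.restrict U)) {φ : Pos3 → ℝ} (hφ : Test U φ) :
    Integrable (fun x => inner ℝ (v x) (gr φ x)) (volume.restrict U) := by
  have h1 : MemLp (gr φ) 2 (volume.restrict U) := (H1.of_test hφ).memg.restrict U
  exact int_inner_L2 hv h1

/-- the difference inequality for one component -/
theorem diff_ineq {U : Set Pos3} (hU : IsOpen U) {S : Type*} [Fintype S]
    {f b : Pos3 → ℝ} {df G : Pos3 → Pos3} {L : Pos3 → ℝ} {w v : S → Pos3 → ℝ} {C : ℝ}
    {V s h : Pos3 → ℝ} {m : S → Pos3 → ℝ}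
    (hf : MemLp f 2 (volume.restrict U)) (hb : MemLp b 2 (volume.restrict U))
    (hdf : MemLp df 2 (volume.restrict U)) (hG : MemLp G 2 (volume.restrict U))
    (hw : ∀ j, MemLp (w j) 2 (volume.restrict U)) (hv : ∀ j, MemLp (v j) 2 (volume.restrict U))
    (hJ : Jet U b G L)
    (hV : AEMeasurable V (volume.restrict U)) (hVC : ∀ᵐ x ∂(volume.restrict U), |V x| ≤ C)
    (hm : ∀ j, AEMeasurable (m j) (volume.restrict U))
    (hmC : ∀ j, ∀ᵐ x ∂(volume.restrict U), |m j x| ≤ C)
    (hh : LocallyIntegrableOn h U volume)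
    (hsub : WLe U f df V s) (hs : ∀ᵐ x, x ∈ U → s x ≤ (∑ j, m j x * w j x) + h x)
    (hbar : ∀ᵐ x, x ∈ U → (∑ j, m j x * v j x) + h x ≤ -(1 / 2) * L x + V x * b x)
    {φ : Pos3 → ℝ} (hφ : Test U φ) (h0 : ∀ x, 0 ≤ φ x) :
    (1 / 2) * (∫ x in U, inner ℝ (df x - G x) (gr φ x)) + (∫ x in U, V x * (f x - b x) * φ x)
        ≤ ∑ j, ∫ x in U, m j x * (w j x - v j x) * φ x := by
  have hφ2 : MemLp φ 2 (volume.restrict U) := (H1.of_test hφ).memf.restrict U
  have hz : ∀ k : Pos3 → ℝ, ∀ x, x ∉ U → k x * φ x = 0 := fun k x hx => by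
    rw [XL.eq_zero hφ hx, mul_zero]
  -- memberships
  have hVf : MemLp (fun x => V x * f x) 2 (volume.restrict U) := memLp_bdd_mul hV hVC hf
  have hVb : MemLp (fun x => V x * b x) 2 (volume.restrict U) := memLp_bdd_mul hV hVC hb
  have hmw : ∀ j, MemLp (fun x => m j x * w j x) 2 (volume.restrict U) := fun j =>
    memLp_bdd_mul (hm j) (hmC j) (hw j)
  have hmv : ∀ j, MemLp (fun x => m j x * v j x) 2 (volume.restrict U) := fun j =>
    memLp_bdd_mul (hm j) (hmC j) (hv j)
  have hloc : ∀ k : Pos3 → ℝ, MemLp k 2 (volume.restrict U) → LocallyIntegrableOn k U volume := by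
    intro k hk
    have := hk.locallyIntegrable (by norm_num)
    exact locallyIntegrableOn_of_locallyIntegrable_restrict this
  have hSw : LocallyIntegrableOn (fun x => ∑ j, m j x * w j x) U volume :=
    hloc _ (memLp_finsetSum _ fun j _ => hmw j)
  have hSv : LocallyIntegrableOn (fun x => ∑ j, m j x * v j x) U volume :=
    hloc _ (memLp_finsetSum _ fun j _ => hmv j)
  -- source of `f`
  have a1 : ∫ x, s x * φ x ≤ ∫ x, ((∑ j, m j x * w j x) + h x) * φ x := by
    refine integral_mono_ae (XL.integrable_mul_cpt hsub.if' hφ.smooth.continuous hφ.cpt hφ.sub)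
      (XL.integrable_mul_cpt (hSw.add hh) hφ.smooth.continuous hφ.cpt hφ.sub) ?_
    filter_upwards [hs] with x hx
    by_cases hxU : x ∈ U
    · exact mul_le_mul_of_nonneg_right (hx hxU) (h0 x)
    · show s x * φ x ≤ ((∑ j, m j x * w j x) + h x) * φ x
      rw [XL.eq_zero hφ hxU]; simp
  have a2 := hsub.le φ hφ h0
  have a3 : ∫ x, ((∑ j, m j x * v j x) + h x) * φ x ≤
      (1 / 2) * (∫ x, inner ℝ (G x) (gr φ x)) + ∫ x, V x * b x * φ x :=
    weak_ge_ae hU hJ (hloc _ hVb) (hSv.add hh) hbar hφ h0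
  -- integrals over U
  have i1 : Integrable (fun x => (∑ j, m j x * w j x) * φ x) volume :=
    XL.integrable_mul_cpt hSw hφ.smooth.continuous hφ.cpt hφ.sub
  have i2 : Integrable (fun x => (∑ j, m j x * v j x) * φ x) volume :=
    XL.integrable_mul_cpt hSv hφ.smooth.continuous hφ.cpt hφ.sub
  have i3 : Integrable (fun x => h x * φ x) volume :=
    XL.integrable_mul_cpt hh hφ.smooth.continuous hφ.cpt hφ.sub
  have e1 : ∫ x, ((∑ j, m j x * w j x) + h x) * φ x =
      (∫ x, (∑ j, m j x * w j x) * φ x) + ∫ x, h x * φ x := by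
    rw [← integral_add i1 i3]; congr 1; funext x; ring
  have e2 : ∫ x, ((∑ j, m j x * v j x) + h x) * φ x =
      (∫ x, (∑ j, m j x * v j x) * φ x) + ∫ x, h x * φ x := by
    rw [← integral_add i2 i3]; congr 1; funext x; ring
  have e3 : (∫ x, (∑ j, m j x * w j x) * φ x) - (∫ x, (∑ j, m j x * v j x) * φ x) =
      ∑ j, ∫ x in U, m j x * (w j x - v j x) * φ x := by
    rw [← integral_sub i1 i2, ← setInt_eq (U := U) (fun x hx => by
      rw [XL.eq_zero hφ hx]; simp), ← integral_finsetSum]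
    · refine integral_congr_ae (Eventually.of_forall fun x => ?_)
      show (∑ j, m j x * w j x) * φ x - (∑ j, m j x * v j x) * φ x =
        ∑ j, m j x * (w j x - v j x) * φ x
      rw [← sub_mul, ← Finset.sum_sub_distrib, Finset.sum_mul]
      exact Finset.sum_congr rfl fun j _ => by ring
    · intro j _
      exact (memLp_bdd_mul (hm j) (hmC j) ((hw j).sub (hv j))).integrable_mul hφ2
  have e4 : ∫ x in U, inner ℝ (df x - G x) (gr φ x) =
      (∫ x, inner ℝ (df x) (gr φ x)) - ∫ x, inner ℝ (G x) (gr φ x) := by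
    rw [← setInt_eq (U := U) (k := fun x => inner ℝ (df x) (gr φ x))
      (fun x hx => inner_gr_zero hφ df x hx),
      ← setInt_eq (U := U) (k := fun x => inner ℝ (G x) (gr φ x))
      (fun x hx => inner_gr_zero hφ G x hx),
      ← integral_sub (int_inner_test hU hdf hφ) (int_inner_test hU hG hφ)]
    refine integral_congr_ae (Eventually.of_forall fun x => ?_)
    exact inner_sub_left _ _ _
  have e5 : ∫ x in U, V x * (f x - b x) * φ x = (∫ x, V x * f x * φ x) - ∫ x, V x * b x * φ x := by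
    have j1 : Integrable (fun x => V x * f x * φ x) (volume.restrict U) :=
      hVf.integrable_mul hφ2
    have j2 : Integrable (fun x => V x * b x * φ x) (volume.restrict U) :=
      hVb.integrable_mul hφ2
    rw [← setInt_eq (U := U) (hz fun x => V x * f x), ← setInt_eq (U := U) (hz fun x => V x * b x),
      ← integral_sub j1 j2]
    refine integral_congr_ae (Eventually.of_forall fun x => ?_)
    show V x * (f x - b x) * φ x = V x * f x * φ x - V x * b x * φ x
    ring
  rw [← e3, e4, e5]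
  rw [e1] at a1
  rw [e2] at a3
  linarith

/-- restriction of a weak inequality to a smaller open set -/
theorem WLe.mono' {U V : Set Pos3} (hV : IsOpen V) (hVU : V ⊆ U) {s : Pos3 → ℝ} {ds : Pos3 → Pos3}
    {m f : Pos3 → ℝ} (h : WLe U s ds m f) : WLe V s ds m f :=
  ⟨h.ims.mono_set hVU, h.if'.mono_set hVU, fun φ hφ h0 =>
    h.le φ (hφ.mono hVU) h0⟩

/-- one component of the system -/
structure Cmp (R : ℝ) (dir : Prop) (f : Pos3 → ℝ) (df : Pos3 → Pos3) (b : Pos3 → ℝ)
    (G : Pos3 → Pos3) (L : Pos3 → ℝ) : Prop where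
  hf : H1 f df
  fe : ∀ᵐ x, f (rfl' 2 x) = f x
  be : ∀ x, b (rfl' 2 x) = b x
  b2 : MemLp b 2 (volume.restrict (ExtE R))
  fD : dir → H10 {x : Pos3 | 0 < x 2} ({x : Pos3 | 0 < x 2}.indicator f)
    ({x : Pos3 | 0 < x 2}.indicator df)
  b0 : dir → ∀ᵐ x, x ∈ (HExt R 2 : Set Pos3) → 0 ≤ b x
  G2D : dir → MemLp G 2 (volume.restrict (HExt R 2))
  G2E : ¬ dir → MemLp G 2 (volume.restrict (ExtE R))
  jD : dir → Jet (HExt R 2) b G L
  jE : ¬ dir → Jet (ExtE R) b G L
  sh : ∀ᵐ x, x ∈ (HExt R 2 : Set Pos3) → ‖x‖ < R + 1 → f x ≤ b x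

/-- system comparison -/
theorem cmp_sys {R c₀ M : ℝ} (hR : 0 < R) (hc : 0 < c₀)
    {S : Type*} [Fintype S] (dir : S → Prop)
    {f b : S → Pos3 → ℝ} {df G : S → Pos3 → Pos3} {L : S → Pos3 → ℝ}
    (hC : ∀ i, Cmp R (dir i) (f i) (df i) (b i) (G i) (L i))
    {U : S → Pos3 → ℝ} {m : S → S → Pos3 → ℝ} {h s : S → Pos3 → ℝ}
    (hUm : ∀ i, AEMeasurable (U i) (volume.restrict (ExtE R)))
    (hUc : ∀ i x, x ∈ (ExtE R : Set Pos3) → c₀ ≤ U i x)
    (hUM : ∀ i x, x ∈ (ExtE R : Set Pos3) → U i x ≤ M)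
    (hUe : ∀ i x, U i (rfl' 2 x) = U i x)
    (hmm : ∀ i j, AEMeasurable (m i j) (volume.restrict (ExtE R)))
    (hm0 : ∀ i j x, x ∈ (ExtE R : Set Pos3) → 0 ≤ m i j x)
    (hsum : ∀ i x, x ∈ (ExtE R : Set Pos3) → ∑ j, (m i j x + m j i x) ≤ c₀)
    (hme : ∀ i j x, m i j (rfl' 2 x) = m i j x)
    (hhl : ∀ i, LocallyIntegrableOn (h i) (ExtE R) volume)
    (hhe : ∀ i x, h i (rfl' 2 x) = h i x)
    (hsub : ∀ i, WLe (Ext R) (f i) (df i) (U i) (s i))
    (hs : ∀ i, ∀ᵐ x, x ∈ (ExtE R : Set Pos3) → s i x ≤ (∑ j, m i j x * f j x) + h i x)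
    (hbar : ∀ i x, x ∈ (HExt R 2 : Set Pos3) →
      (∑ j, m i j x * b j x) + h i x ≤ -(1 / 2) * lap (b i) x + U i x * b i x) :
    ∀ i, ∀ᵐ x, x ∈ (HExt R 2 : Set Pos3) → f i x ≤ b i x := by
  have hEo : IsOpen (ExtE R : Set Pos3) := isOpen_ExtE R
  have hHo : IsOpen (HExt R 2 : Set Pos3) := isOpen_HExt R 2
  have hHE : (HExt R 2 : Set Pos3) ⊆ ExtE R := inter_subset_left
  have hle : (volume.restrict (HExt R 2 : Set Pos3)) ≤ volume.restrict (ExtE R) :=
    Measure.restrict_mono hHE le_rfl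
  have hEE : (Ext R : Set Pos3) = ExtE R := rfl
  have hev : ∀ᵐ x : Pos3, x 2 ≠ 0 := by
    rw [ae_iff]; simpa using volume_coord_eq_zero (2 : Fin 3)
  have hUC : ∀ i, ∀ᵐ x ∂(volume.restrict (ExtE R : Set Pos3)), |U i x| ≤ max M c₀ := by
    intro i
    filter_upwards [ae_restrict_mem hEo.measurableSet] with x hx
    rw [abs_of_nonneg (hc.le.trans (hUc i x hx))]
    exact (hUM i x hx).trans (le_max_left _ _)
  have hmC : ∀ i j, ∀ᵐ x ∂(volume.restrict (ExtE R : Set Pos3)), |m i j x| ≤ max M c₀ := by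
    intro i j
    filter_upwards [ae_restrict_mem hEo.measurableSet] with x hx
    rw [abs_of_nonneg (hm0 i j x hx)]
    refine le_trans ?_ (le_max_right M c₀)
    refine le_trans ?_ (hsum i x hx)
    refine le_trans (le_add_of_nonneg_right (hm0 j i x hx)) ?_
    exact Finset.single_le_sum (f := fun j => m i j x + m j i x)
      (fun k _ => add_nonneg (hm0 i k x hx) (hm0 k i x hx)) (Finset.mem_univ j)
  have hf2 : ∀ i, MemLp (f i) 2 (volume.restrict (ExtE R)) := fun i => (hC i).hf.memf.restrict _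
  refine cps_ext (2 : Fin 3) hR (δ := 1) one_pos hc dir hf2 (fun i => (hC i).b2)
    (df := df) (db := G) (U := U) (m := m)
    (fun i => by filter_upwards [(hC i).fe] with x hx _ using hx)
    (fun i => Eventually.of_forall fun x _ => (hC i).be x) hUm
    (fun i => by filter_upwards [ae_restrict_mem hEo.measurableSet] with x hx using hUc i x hx)
    (fun i => by filter_upwards [ae_restrict_mem hEo.measurableSet] with x hx using hUM i x hx)
    hmm (fun i j => by
      filter_upwards [ae_restrict_mem hEo.measurableSet] with x hx using hm0 i j x hx)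
    (fun i => by filter_upwards [ae_restrict_mem hEo.measurableSet] with x hx using hsum i x hx)
    (fun i _ => Eventually.of_forall fun x _ => hUe i x)
    (fun i j _ => Eventually.of_forall fun x _ => hme i j x)
    (fun i hi => (hC i).fD hi) (fun i hi => ((hC i).jD hi).wg hHo) (fun i hi => (hC i).G2D hi)
    (fun i hi => (hC i).b0 hi) (fun i hi => (hC i).sh) ?_
    (fun i hi => (hC i).hf.wg.mono (subset_univ _)) (fun i hi => ((hC i).jE hi).wg hEo)
    (fun i hi => (hC i).hf.memg.restrict _) (fun i hi => (hC i).G2E hi) ?_ ?_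
  · -- Dirichlet
    intro i hi φ hφ h0
    refine diff_ineq hHo (C := max M c₀) ((hf2 i).mono_measure hle) ((hC i).b2.mono_measure hle)
      ((hC i).hf.memg.restrict _) ((hC i).G2D hi) (fun j => (hf2 j).mono_measure hle)
      (fun j => (hC j).b2.mono_measure hle) ((hC i).jD hi) ((hUm i).mono_measure hle)
      (hle.absolutelyContinuous.ae_le (hUC i)) (fun j => (hmm i j).mono_measure hle)
      (fun j => hle.absolutelyContinuous.ae_le (hmC i j)) ((hhl i).mono_set hHE)
      (WLe.mono' hHo hHE (hsub i)) ?_ ?_ hφ h0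
    · filter_upwards [hs i] with x hx hxH using hx (hHE hxH)
    · refine Eventually.of_forall fun x hx => ?_
      have := hbar i x hx
      rwa [((hC i).jD hi).lapl x hx] at this
  · -- shell, even
    intro i hi
    have h1 := (hC i).sh
    have h2 : ∀ᵐ x : Pos3, rfl' 2 x ∈ (HExt R 2 : Set Pos3) → ‖rfl' 2 x‖ < R + 1 →
        f i (rfl' 2 x) ≤ b i (rfl' 2 x) := ae_comp_rfl' 2 h1
    filter_upwards [h1, h2, hev, (hC i).fe] with x h1 h2 h3 h4 hx hxr
    rcases lt_or_gt_of_ne h3 with hz | hz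
    · have hm : rfl' 2 x ∈ (HExt R 2 : Set Pos3) := by
        refine ⟨ExtE_symm R 2 x hx, ?_⟩
        show 0 < rfl' 2 x 2
        rw [rfl'_apply, if_pos rfl]; linarith
      have := h2 hm (by rw [norm_rfl']; exact hxr)
      rwa [h4, (hC i).be] at this
    · exact h1 ⟨hx, hz⟩ hxr
  · -- even
    intro i hi φ hφ h0
    have hJ := (hC i).jE hi
    refine diff_ineq hEo (C := max M c₀) (hf2 i) (hC i).b2
      ((hC i).hf.memg.restrict _) ((hC i).G2E hi) hf2
      (fun j => (hC j).b2) hJ (hUm i)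
      (hUC i) (fun j => (hmm i j)) (fun j => (hmC i j)) (hhl i)
      (hsub i) (hs i) ?_ hφ h0
    filter_upwards [hev] with x h3 hx
    rcases lt_or_gt_of_ne h3 with hz | hz
    · have hm : rfl' 2 x ∈ (HExt R 2 : Set Pos3) := by
        refine ⟨ExtE_symm R 2 x hx, ?_⟩
        show 0 < rfl' 2 x 2
        rw [rfl'_apply, if_pos rfl]; linarith
      have h5 := hbar i _ hm
      have h6 : lap (b i) (rfl' 2 x) = L i x := by
        rw [← lap_even hEo hJ (hC i).be (hHE hm), hJ.lapl x hx]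
      rw [h6, hUe i x, (hC i).be x, hhe i x] at h5
      have h7 : (∑ j, m i j (rfl' 2 x) * b j (rfl' 2 x)) = ∑ j, m i j x * b j x :=
        Finset.sum_congr rfl fun j _ => by rw [hme i j x, (hC j).be x]
      rwa [h7] at h5
    · have h5 := hbar i x ⟨hx, hz⟩
      rwa [hJ.lapl x hx] at h5

end Crest.Agent.R335.BR
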