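import Crest.Agent.R335.BRDefs

/-!
Row 335 (S0521), Part B sections 5-6: `L²` jets (functions with `C²` jets, square integrable together
with their gradients), and linearity of `Lx`.
-/

set_option autoImplicit false
set_option linter.unusedSectionVars false
set_option linter.unusedVariables false

open MeasureTheory Filter Set Crest.MathPhysics.ThreeBody
open scoped ENNReal Topology ContDiff

noncomputable section
namespace Crest.Agent.R335.BR
open Crest.Agent.R335

/-- `b` has a jet on `U`, `b` and its gradient are in `L²(U)` -/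
def JL (U : Set Pos3) (b : Pos3 → ℝ) : Prop :=
  ∃ (G : Pos3 → Pos3) (L : Pos3 → ℝ), Jet U b G L ∧ MemLp b 2 (volume.restrict U) ∧
    MemLp G 2 (volume.restrict U)

namespace JL
variable {U V : Set Pos3} {b b' : Pos3 → ℝ}

theorem mono (h : JL U b) (hV : V ⊆ U) : JL V b := by
  obtain ⟨G, L, h1, h2, h3⟩ := h
  have hle : volume.restrict V ≤ volume.restrict U := Measure.restrict_mono hV le_rfl
  exact ⟨G, L, h1.mono hV, h2.mono_measure hle, h3.mono_measure hle⟩

theorem add (hU : IsOpen U) (h : JL U b) (h' : JL U b') : JL U (fun x => b x + b' x) := by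
  obtain ⟨G, L, h1, h2, h3⟩ := h
  obtain ⟨G', L', h1', h2', h3'⟩ := h'
  exact ⟨_, _, h1.add hU h1', h2.add h2', h3.add h3'⟩

theorem const_mul (hU : IsOpen U) (h : JL U b) (c : ℝ) : JL U (fun x => c * b x) := by
  obtain ⟨G, L, h1, h2, h3⟩ := h
  exact ⟨_, _, h1.const_mul hU c, h2.const_mul c, h3.const_smul c⟩

theorem congr (hU : IsOpen U) (h : JL U b) (hb : ∀ x ∈ U, b' x = b x) : JL U b' := by
  obtain ⟨G, L, h1, h2, h3⟩ := h
  refine ⟨G, L, h1.congr hU hb, (memLp_congr_ae ?_).2 h2, h3⟩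
  filter_upwards [ae_restrict_mem hU.measurableSet] with x hx using hb x hx

/-- product with a bounded function with bounded gradient -/
theorem mul_bdd (hU : IsOpen U) (h : JL U b) {k : Pos3 → ℝ} {Gk : Pos3 → Pos3} {Lk : Pos3 → ℝ}
    (hk : Jet U k Gk Lk) {C : ℝ} (h1 : ∀ x ∈ U, |k x| ≤ C) (h2 : ∀ x ∈ U, ‖Gk x‖ ≤ C)
    (hGk : AEStronglyMeasurable Gk (volume.restrict U)) :
    JL U (fun x => k x * b x) := by
  obtain ⟨G, L, h3, h4, h5⟩ := h
  have hkm : AEStronglyMeasurable k (volume.restrict U) :=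
    hk.smooth.continuousOn.aestronglyMeasurable hU.measurableSet
  refine ⟨_, _, hk.mul hU h3, ?_, ?_⟩
  · refine MemLp.of_le_mul (c := C) h4 (hkm.mul h4.1) ?_
    filter_upwards [ae_restrict_mem hU.measurableSet] with x hx
    rw [norm_mul]
    exact mul_le_mul_of_nonneg_right (h1 x hx) (norm_nonneg _)
  · refine MemLp.add ?_ ?_
    · refine MemLp.of_le_mul (c := C) h5 (hkm.smul h5.1) ?_
      filter_upwards [ae_restrict_mem hU.measurableSet] with x hx
      rw [norm_smul]
      exact mul_le_mul_of_nonneg_right (h1 x hx) (norm_nonneg _)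
    · refine MemLp.of_le_mul (c := C) h4 (h4.1.smul hGk) ?_
      filter_upwards [ae_restrict_mem hU.measurableSet] with x hx
      rw [norm_smul, mul_comm]
      exact mul_le_mul_of_nonneg_right (h2 x hx) (norm_nonneg _)

/-- product with `r^{-m}` outside the unit ball -/
theorem ri_mul (hU : IsOpen U) (hU1 : ∀ x ∈ U, 1 ≤ ‖x‖) (h : JL U b) (m : ℕ) :
    JL U (fun x => ri m x * b x) := by
  have h0 : U ⊆ {x : Pos3 | x ≠ 0} := fun x hx h0 => by
    have := hU1 x hx
    rw [h0, norm_zero] at this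
    norm_num at this
  have hb : ∀ (j : ℕ) x, x ∈ U → |ri j x| ≤ 1 := fun j x hx => by
    have h1 := hU1 x hx
    unfold ri
    rw [abs_of_nonneg (by positivity)]
    exact inv_le_one_of_one_le₀ (one_le_pow₀ h1)
  refine h.mul_bdd hU ((ri_jet m).mono h0) (C := 1 + m) (fun x hx => ?_) (fun x hx => ?_) ?_
  · have := hb m x hx
    have h2 : (0 : ℝ) ≤ m := Nat.cast_nonneg m
    linarith
  · have h1 := hU1 x hx
    rw [norm_smul, Real.norm_eq_abs, abs_neg, abs_mul, Nat.abs_cast]
    have e1 : |ri (m + 2) x| * ‖x‖ ≤ 1 := by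
      have h2 := hb (m + 1) x hx
      have h3 : ri (m + 2) x = ri (m + 1) x / ‖x‖ := ri_succ (m + 1) x
      have h4 : 0 < ‖x‖ := by linarith
      rw [h3, abs_div, abs_of_pos h4, div_mul_cancel₀ _ h4.ne']
      exact h2
    have h2 : (0 : ℝ) ≤ m := Nat.cast_nonneg m
    nlinarith
  · have hc : ContinuousOn (fun x : Pos3 => (-(m * ri (m + 2) x)) • x) U := by
      suffices h6 : ContinuousOn (fun x : Pos3 => (-((m : ℝ) * ri (m + 2) x))) U by
        exact h6.smul continuousOn_id
      refine (continuousOn_const.mul ?_).neg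
      have h5 : ContinuousOn (fun x : Pos3 => ‖x‖ ^ (m + 2)) U := by fun_prop
      refine ContinuousOn.inv₀ h5 fun x hx => ?_
      have h1 := hU1 x hx
      have h4 : 0 < ‖x‖ := by linarith
      positivity
    exact hc.aestronglyMeasurable hU.measurableSet

end JL

/-! ### linearity of `Lx` -/

theorem Lx_congr {D Q κ : ℝ} {U : Set Pos3} (hU : IsOpen U) {b b' : Pos3 → ℝ}
    (h : ∀ x ∈ U, b' x = b x) {x : Pos3} (hx : x ∈ U) : Lx D Q κ b' x = Lx D Q κ b x := by
  have he : b' =ᶠ[𝓝 x] b := by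
    filter_upwards [hU.mem_nhds hx] with y hy using h y hy
  unfold Lx
  rw [lap_congr he, h x hx]

theorem Lx_of_lap {D κ lam : ℝ} {b : Pos3 → ℝ} (x : Pos3) :
    -(1 / 2) * lap b x + mL D lam κ x * b x = Lx D (2 * (1 - lam)) κ b x := by
  unfold Lx mL
  ring

end Crest.Agent.R335.BR
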