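import Crest.Agent.R335.Cmp2
import Crest.Agent.R335.HHalf

/-!
Row 335 (S0521): comparison principle for systems on `{R < ‖x‖}` and `{R < ‖x‖, 0 < x i0}`
(helper543).
-/

set_option autoImplicit false
set_option linter.unusedSectionVars false
set_option linter.unusedVariables false

open MeasureTheory Filter Set
open scoped ENNReal Topology ContDiff

noncomputable section
namespace Crest.Agent.R335

variable {ι : Type*} [Fintype ι] [DecidableEq ι]

local notation "E" => EuclideanSpace ℝ ι

/-! ### the reflection -/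

theorem inner_rfl' (i : ι) (x y : E) : inner ℝ (rfl' i x) (rfl' i y) = inner ℝ x y := by
  rw [← rflL_apply, ← rflL_apply, LinearIsometryEquiv.inner_map_map]

theorem coe_rflL (i : ι) : (rflL i : E → E) = rfl' i := rfl

theorem integral_comp_rfl' (i : ι) (f : E → ℝ) : ∫ x, f (rfl' i x) = ∫ x, f x :=
  (measurePreserving_rfl' i).integral_comp (measurableEmbedding_rfl' i) f

theorem tsupport_comp_rfl' (i : ι) (φ : E → ℝ) :
    tsupport (fun x => φ (rfl' i x)) = rfl' i ⁻¹' tsupport φ := by
  have h := tsupport_comp_eq_preimage φ (rflL i).toHomeomorph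
  have e : (φ ∘ (rflL i).toHomeomorph) = fun x => φ (rfl' i x) := by
    funext x
    show φ (rflL i x) = _
    rw [rflL_apply]
  rw [e] at h
  rw [h]
  congr 1

theorem Test.comp_rfl' (i : ι) {U : Set E} {φ : E → ℝ} (h : Test U φ) :
    Test (rfl' i ⁻¹' U) fun x => φ (rfl' i x) := by
  refine ⟨?_, ?_, ?_⟩
  · rw [show (fun x => φ (rfl' i x)) = φ ∘ (rflL i) by rw [coe_rflL]; rfl]
    exact h.smooth.comp (rflL i).contDiff
  · rw [HasCompactSupport, tsupport_comp_rfl']
    have : (rfl' i ⁻¹' tsupport φ : Set E) = rfl' i '' tsupport φ := by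
      ext x
      constructor
      · intro hx
        exact ⟨rfl' i x, hx, rfl'_rfl' i x⟩
      · rintro ⟨y, hy, rfl⟩
        show rfl' i (rfl' i y) ∈ tsupport φ
        rwa [rfl'_rfl']
    rw [this]
    exact h.cpt.image (continuous_rfl' i)
  · rw [tsupport_comp_rfl']
    exact preimage_mono h.sub

/-- sign of the coordinate `j` under the reflection of `i` -/
def sg (i j : ι) : ℝ := if j = i then -1 else 1

theorem rfl'_apply' (i : ι) (x : E) (j : ι) : rfl' i x j = sg i j * x j := by
  simp only [rfl'_apply, sg]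
  split_ifs <;> simp

theorem sg_mul_sg (i j : ι) : sg i j * sg i j = 1 := by
  unfold sg
  split_ifs <;> norm_num

theorem pd_comp_rfl' (i : ι) {φ : E → ℝ} {x : E} (h : DifferentiableAt ℝ φ (rfl' i x)) (j : ι) :
    pd j (fun y => φ (rfl' i y)) x = sg i j * pd j φ (rfl' i x) := by
  unfold pd
  have h1 : HasFDerivAt (rfl' i : E → E) ((rflL i : E ≃L[ℝ] E) : E →L[ℝ] E) x := by
    have := ((rflL i : E ≃L[ℝ] E) : E →L[ℝ] E).hasFDerivAt (x := x)
    have e : (((rflL i : E ≃L[ℝ] E) : E →L[ℝ] E) : E → E) = rfl' i := by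
      funext y
      exact rflL_apply i y
    rw [e] at this
    exact this
  have h2 := (h.hasFDerivAt.comp x h1).fderiv
  have h3 : fderiv ℝ (fun y => φ (rfl' i y)) x = fderiv ℝ (φ ∘ rfl' i) x := rfl
  rw [h3, h2]
  show fderiv ℝ φ (rfl' i x) (rflL i (EuclideanSpace.single j 1)) = _
  have h4 : rflL i (EuclideanSpace.single j (1 : ℝ)) = sg i j • EuclideanSpace.single j (1 : ℝ) := by
    rw [rflL_apply]
    ext k
    simp only [rfl'_apply, sg, PiLp.smul_apply, smul_eq_mul, PiLp.single_apply]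
    by_cases hkj : k = j
    · subst hkj
      simp
    · by_cases hki : k = i <;> simp [hkj]
  rw [h4, map_smul, smul_eq_mul]

theorem locInt_comp_rfl' (i : ι) {U : Set E} (hU : IsOpen U) (hUs : ∀ x, x ∈ U → rfl' i x ∈ U)
    {F : Type*} [NormedAddCommGroup F] {k : E → F} (hk : LocallyIntegrableOn k U volume) :
    LocallyIntegrableOn (fun x => k (rfl' i x)) U volume := by
  rw [locallyIntegrableOn_iff hU.isLocallyClosed] at hk ⊢
  intro K hKU hK
  have h1 : IntegrableOn k (rfl' i '' K) volume := by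
    refine hk _ ?_ (hK.image (continuous_rfl' i))
    rintro _ ⟨y, hy, rfl⟩
    exact hUs y (hKU hy)
  exact ((measurePreserving_rfl' i).integrableOn_image (measurableEmbedding_rfl' i)
    (s := K) (f := k)).1 h1

/-- composition with the reflection -/
theorem WG.comp_rfl' (i : ι) {U : Set E} (hU : IsOpen U) (hUs : ∀ x, x ∈ U → rfl' i x ∈ U)
    {f : E → ℝ} {g : E → E} (h : WG U f g) :
    WG U (fun x => f (rfl' i x)) (fun x => rfl' i (g (rfl' i x))) := by
  refine ⟨locInt_comp_rfl' i hU hUs h.intf, ?_, fun φ hφ j => ?_⟩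
  · have h1 := locInt_comp_rfl' i hU hUs h.intg
    have h2 := ((rflL i : E ≃L[ℝ] E) : E →L[ℝ] E).locallyIntegrableOn_comp h1
    refine h2.congr (Eventually.of_forall fun x => ?_)
    show rflL i (g (rfl' i x)) = _
    rw [rflL_apply]
  · have hT : Test U fun x => φ (rfl' i x) :=
      (hφ.comp_rfl' i).mono (fun x hx => by
        have := hUs _ hx
        rwa [rfl'_rfl'] at this)
    have h1 := h.ibp _ hT j
    have e1 : ∀ x, f (rfl' i x) * pd j φ x =
        (fun y => sg i j * (f y * pd j (fun z => φ (rfl' i z)) y)) (rfl' i x) := by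
      intro x
      show _ = sg i j * (f (rfl' i x) * pd j (fun z => φ (rfl' i z)) (rfl' i x))
      rw [pd_comp_rfl' i (hφ.differentiableAt _), rfl'_rfl']
      linear_combination (- f (rfl' i x) * pd j φ x) * sg_mul_sg i j
    have e2 : ∀ x, rfl' i (g (rfl' i x)) j * φ x =
        (fun y => sg i j * (g y j * φ (rfl' i y))) (rfl' i x) := by
      intro x
      show _ = sg i j * (g (rfl' i x) j * φ (rfl' i (rfl' i x)))
      rw [rfl'_rfl', rfl'_apply']
      ring
    simp_rw [e1, e2]
    rw [integral_comp_rfl' i (fun y => sg i j * (f y * pd j (fun z => φ (rfl' i z)) y)),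
      integral_comp_rfl' i (fun y => sg i j * (g y j * φ (rfl' i y))), integral_const_mul,
      integral_const_mul, h1]
    ring

/-- the gradient of an even function -/
theorem WG.grad_even (i : ι) {U : Set E} (hU : IsOpen U) (hUs : ∀ x, x ∈ U → rfl' i x ∈ U)
    {f : E → ℝ} {g : E → E} (h : WG U f g) (he : ∀ᵐ x, x ∈ U → f (rfl' i x) = f x) :
    ∀ᵐ x, x ∈ U → g (rfl' i x) = rfl' i (g x) := by
  have h1 := h.comp_rfl' i hU hUs
  have h2 : WG U f (fun x => rfl' i (g (rfl' i x))) := by
    refine h1.congr hU ?_ (EventuallyEq.refl _ _)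
    rw [EventuallyEq, ae_restrict_iff' hU.measurableSet]
    exact he
  have h3 := h.unique hU h2
  rw [EventuallyEq, ae_restrict_iff' hU.measurableSet] at h3
  filter_upwards [h3] with x hx hxU
  have := hx hxU
  rw [this, rfl'_rfl']

/-! ### halving integrals -/

theorem volume_coord_eq_zero (i : ι) : volume {x : E | x i = 0} = 0 := by
  have h : {x : E | x i = 0} =
      ((LinearMap.ker ((EuclideanSpace.proj i : E →L[ℝ] ℝ) : E →ₗ[ℝ] ℝ) : Submodule ℝ E) :
        Set E) := by
    ext x
    simp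
  rw [h]
  refine Measure.addHaar_submodule _ _ ?_
  intro hcon
  have : (EuclideanSpace.single i (1 : ℝ) : E) ∈
      LinearMap.ker ((EuclideanSpace.proj i : E →L[ℝ] ℝ) : E →ₗ[ℝ] ℝ) := by
    rw [hcon]
    trivial
  simp at this

/-- the integral of an even function over a symmetric set -/
theorem setIntegral_even (i : ι) {U : Set E} (hU : MeasurableSet U)
    (hUs : ∀ x, x ∈ U → rfl' i x ∈ U) {k : E → ℝ} (hk : IntegrableOn k U volume)
    (he : ∀ᵐ x, x ∈ U → k (rfl' i x) = k x) :
    ∫ x in U, k x = 2 * ∫ x in U ∩ {x | 0 < x i}, k x := by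
  have hm1 : MeasurableSet {x : E | 0 < x i} :=
    (isOpen_lt continuous_const ((EuclideanSpace.proj (𝕜 := ℝ) i).continuous)).measurableSet
  have hm2 : MeasurableSet {x : E | x i < 0} :=
    (isOpen_lt ((EuclideanSpace.proj (𝕜 := ℝ) i).continuous) continuous_const).measurableSet
  have h1 : (U : Set E) =ᵐ[volume] ((U ∩ {x | 0 < x i}) ∪ (U ∩ {x | x i < 0}) : Set E) := by
    have h0 : ∀ᵐ x : E, x i ≠ 0 := by
      rw [ae_iff]
      simpa using volume_coord_eq_zero i
    filter_upwards [h0] with x hx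
    apply propext
    show x ∈ U ↔ x ∈ ((U ∩ {x | 0 < x i}) ∪ (U ∩ {x | x i < 0}) : Set E)
    constructor
    · intro hxU
      rcases lt_or_gt_of_ne hx with h | h
      · exact Or.inr ⟨hxU, h⟩
      · exact Or.inl ⟨hxU, h⟩
    · rintro (h | h)
      · exact h.1
      · exact h.1
  rw [setIntegral_congr_set h1, setIntegral_union]
  · have h2 : ∫ x in U ∩ {x | x i < 0}, k x = ∫ x in U ∩ {x | 0 < x i}, k x := by
      have e1 : (U ∩ {x : E | x i < 0} : Set E) = rfl' i ⁻¹' (U ∩ {x | 0 < x i}) := by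
        ext x
        simp only [mem_inter_iff, mem_preimage, mem_ofPred_eq, rfl'_apply, if_true]
        constructor
        · rintro ⟨h, h'⟩
          exact ⟨hUs x h, by linarith⟩
        · rintro ⟨h, h'⟩
          have := hUs _ h
          rw [rfl'_rfl'] at this
          exact ⟨this, by linarith⟩
      rw [e1]
      have h3 := (measurePreserving_rfl' i).setIntegral_preimage_emb
        (measurableEmbedding_rfl' i) k (U ∩ {x | 0 < x i})
      rw [← h3]
      refine setIntegral_congr_ae ?_ ?_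
      · exact (hU.inter hm1).preimage (measurableEmbedding_rfl' i).measurable
      · filter_upwards [he] with x hx hx2
        have : x ∈ U := by
          have := hUs _ hx2.1
          rwa [rfl'_rfl'] at this
        exact (hx this).symm
    rw [h2]
    ring
  · rw [Set.disjoint_left]
    rintro x ⟨_, hx⟩ ⟨_, hx'⟩
    exact lt_asymm (show 0 < x i from hx) (show x i < 0 from hx')
  · exact hU.inter hm2
  · exact hk.mono_set inter_subset_left
  · exact hk.mono_set inter_subset_left

/-! ### the system comparison principle on exterior domains -/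

/-- the exterior of a ball -/
def ExtE (R : ℝ) : Set E := {x | R < ‖x‖}

/-- the upper half of the exterior of a ball -/
def HExt (R : ℝ) (i : ι) : Set E := {x | R < ‖x‖} ∩ {x | 0 < x i}

theorem isOpen_ExtE (R : ℝ) : IsOpen (ExtE R : Set E) := isOpen_lt continuous_const continuous_norm

theorem isOpen_HExt (R : ℝ) (i : ι) : IsOpen (HExt R i : Set E) :=
  (isOpen_ExtE R).inter (isOpen_half i)

theorem ExtE_symm (R : ℝ) (i : ι) (x : E) (hx : x ∈ ExtE R) : rfl' i x ∈ (ExtE R : Set E) := by
  show R < ‖rfl' i x‖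
  rw [norm_rfl']
  exact hx

theorem infDist_ExtE {R δ : ℝ} (hR : 0 ≤ R) {x : E}
    (h : Metric.infDist x (ExtE R : Set E)ᶜ < δ) : ‖x‖ < R + δ := by
  have hne : ((ExtE R : Set E)ᶜ).Nonempty := ⟨0, by
    show ¬ R < ‖(0 : E)‖
    rw [norm_zero]
    exact not_lt.2 hR⟩
  obtain ⟨y, hy, hxy⟩ := (Metric.infDist_lt_iff hne).1 h
  have hy' : ‖y‖ ≤ R := not_lt.1 hy
  have : ‖x‖ ≤ ‖y‖ + dist x y := by
    rw [dist_eq_norm]
    calc ‖x‖ = ‖y + (x - y)‖ := by rw [add_sub_cancel]
      _ ≤ ‖y‖ + ‖x - y‖ := norm_add_le _ _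
  linarith

theorem infDist_HExt {R δ : ℝ} (hR : 0 < R) (i : ι) {x : E}
    (h : Metric.infDist x ({x : E | 0 < x i} \ HExt R i) < δ) : ‖x‖ < R + δ := by
  have hne : ({x : E | 0 < x i} \ HExt R i).Nonempty := by
    refine ⟨EuclideanSpace.single i R, ?_, ?_⟩
    · show 0 < (EuclideanSpace.single i R : E) i
      simpa using hR
    · rintro ⟨h1, -⟩
      have h2 : R < ‖(EuclideanSpace.single i R : E)‖ := h1
      rw [PiLp.norm_single, Real.norm_of_nonneg hR.le] at h2
      exact lt_irrefl _ h2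
  obtain ⟨y, hy, hxy⟩ := (Metric.infDist_lt_iff hne).1 h
  have hy' : ‖y‖ ≤ R := by
    by_contra hcon
    exact hy.2 ⟨not_le.1 hcon, hy.1⟩
  have : ‖x‖ ≤ ‖y‖ + dist x y := by
    rw [dist_eq_norm]
    calc ‖x‖ = ‖y + (x - y)‖ := by rw [add_sub_cancel]
      _ ≤ ‖y‖ + ‖x - y‖ := norm_add_le _ _
  linarith

/-- product of a bounded function and an `L²` function -/
theorem memLp_bdd_mul {μ : Measure E} {k u : E → ℝ} {C : ℝ} (hk : AEMeasurable k μ)
    (hkC : ∀ᵐ x ∂μ, |k x| ≤ C) (hu : MemLp u 2 μ) : MemLp (fun x => k x * u x) 2 μ := by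
  have h1 : MemLp (fun x => C * ‖u x‖) 2 μ := hu.norm.const_mul C
  refine h1.mono (hk.aestronglyMeasurable.mul hu.aestronglyMeasurable) ?_
  filter_upwards [hkC] with x hx
  rw [norm_mul, Real.norm_eq_abs, norm_mul, Real.norm_eq_abs C, norm_norm]
  exact mul_le_mul_of_nonneg_right (hx.trans (le_abs_self C)) (norm_nonneg _)

/-- the tested inequality for `u = f - b`, extended to the test function `(f - b)₊` -/
theorem tested_of_test {U : Set E} (hU : IsOpen U) {S : Type*} [Fintype S]
    {s b : E → ℝ} {ds db : E → E} (hs2 : MemLp s 2 (volume.restrict U))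
    (hb2 : MemLp b 2 (volume.restrict U)) (hds : MemLp ds 2 (volume.restrict U))
    (hdb : MemLp db 2 (volume.restrict U))
    {V : E → ℝ} {m : S → E → ℝ} {w : S → E → ℝ} {C : ℝ}
    (hV : AEMeasurable V (volume.restrict U)) (hVC : ∀ᵐ x ∂(volume.restrict U), |V x| ≤ C)
    (hm : ∀ j, AEMeasurable (m j) (volume.restrict U))
    (hmC : ∀ j, ∀ᵐ x ∂(volume.restrict U), |m j x| ≤ C)
    (hw : ∀ j, MemLp (w j) 2 (volume.restrict U))
    (h : ∀ φ : E → ℝ, Test U φ → (∀ x, 0 ≤ φ x) →
      (1 / 2) * (∫ x in U, inner ℝ (ds x - db x) (gr φ x)) + (∫ x in U, V x * (s x - b x) * φ x)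
        ≤ ∑ j, ∫ x in U, m j x * w j x * φ x)
    (he : H10 U (U.indicator (ep s b)) (U.indicator (dep s b ds db))) :
    (1 / 2) * (∫ x in U, inner ℝ (ds x - db x) (dep s b ds db x)) +
        (∫ x in U, V x * (s x - b x) * ep s b x)
        ≤ ∑ j, ∫ x in U, m j x * w j x * ep s b x := by
  -- the zero order term
  have hq1 : MemLp (fun x => V x * (s x - b x)) 2 (volume.restrict U) :=
    memLp_bdd_mul hV hVC (hs2.sub hb2)
  have hq2 : ∀ j, MemLp (fun x => m j x * w j x) 2 (volume.restrict U) := fun j =>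
    memLp_bdd_mul (hm j) (hmC j) (hw j)
  have hq3 : MemLp (fun x => ∑ j, m j x * w j x) 2 (volume.restrict U) :=
    memLp_finsetSum _ (fun j _ => hq2 j)
  have hG : MemLp (fun x => (1 / 2 : ℝ) • (ds x - db x)) 2 (volume.restrict U) :=
    (hds.sub hdb).const_smul (1 / 2 : ℝ)
  -- splitting of the zero order integral against an `L²` function
  have hsplit : ∀ u : E → ℝ, MemLp u 2 (volume.restrict U) →
      ∫ x in U, (V x * (s x - b x) - ∑ j, m j x * w j x) * u x =
        (∫ x in U, V x * (s x - b x) * u x) - ∑ j, ∫ x in U, m j x * w j x * u x := by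
    intro u hu
    have i1 : Integrable (fun x => V x * (s x - b x) * u x) (volume.restrict U) :=
      hq1.integrable_mul hu
    have i2 : ∀ j ∈ (Finset.univ : Finset S),
        Integrable (fun x => m j x * w j x * u x) (volume.restrict U) :=
      fun j _ => (hq2 j).integrable_mul hu
    rw [← integral_finsetSum _ i2, ← integral_sub i1 (integrable_finsetSum _ i2)]
    refine integral_congr_ae (Eventually.of_forall fun x => ?_)
    simp only [sub_mul, Finset.sum_mul]
  have key := test_extend hU (hq1.sub hq3) hG (fun φ hφ hφ0 => ?_) he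
    (Eventually.of_forall fun x => indicator_nonneg (fun x _ => ep_nonneg _ _ _) x)
  · have e1 : ∫ x in U, inner ℝ ((1 / 2 : ℝ) • (ds x - db x)) (U.indicator (dep s b ds db) x) =
        (1 / 2) * ∫ x in U, inner ℝ (ds x - db x) (dep s b ds db x) := by
      rw [← integral_const_mul]
      refine setIntegral_congr_fun hU.measurableSet fun x hx => ?_
      show inner ℝ ((1 / 2 : ℝ) • (ds x - db x)) (U.indicator (dep s b ds db) x) =
        (1 / 2) * inner ℝ (ds x - db x) (dep s b ds db x)
      rw [indicator_of_mem hx, real_inner_smul_left]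
    have e2 : ∫ x in U, (V x * (s x - b x) - ∑ j, m j x * w j x) * U.indicator (ep s b) x =
        ∫ x in U, (V x * (s x - b x) - ∑ j, m j x * w j x) * ep s b x := by
      refine setIntegral_congr_fun hU.measurableSet fun x hx => ?_
      show _ * U.indicator (ep s b) x = _ * ep s b x
      rw [indicator_of_mem hx]
    have key2 : (∫ x in U, inner ℝ ((1 / 2 : ℝ) • (ds x - db x))
        (U.indicator (dep s b ds db) x)) +
        ∫ x in U, (V x * (s x - b x) - ∑ j, m j x * w j x) * U.indicator (ep s b) x ≤ 0 := key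
    rw [e1, e2, hsplit _ (memLp_ep hs2 hb2)] at key2
    linarith
  · have hφ2 : MemLp φ 2 (volume.restrict U) := (H1.of_test hφ).memf.restrict U
    have e1 : ∫ x in U, inner ℝ ((1 / 2 : ℝ) • (ds x - db x)) (gr φ x) =
        (1 / 2) * ∫ x in U, inner ℝ (ds x - db x) (gr φ x) := by
      rw [← integral_const_mul]
      refine integral_congr_ae (Eventually.of_forall fun x => ?_)
      show inner ℝ ((1 / 2 : ℝ) • (ds x - db x)) (gr φ x) =
        (1 / 2) * inner ℝ (ds x - db x) (gr φ x)
      rw [real_inner_smul_left]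
    show (∫ x in U, inner ℝ ((1 / 2 : ℝ) • (ds x - db x)) (gr φ x)) +
      ∫ x in U, (V x * (s x - b x) - ∑ j, m j x * w j x) * φ x ≤ 0
    rw [e1, hsplit _ hφ2]
    have := h φ hφ hφ0
    linarith

/-- **Comparison principle** (CP) on a general open set: the test function `(s - b)₊ 1_U` is in
`H¹₀(U)` (see `H10.ep_ext`, `H10.ep_half`). -/
theorem cp {U : Set E} (hU : IsOpen U) {s b : E → ℝ} {ds db : E → E}
    (hs2 : MemLp s 2 (volume.restrict U)) (hb2 : MemLp b 2 (volume.restrict U))
    (hds : MemLp ds 2 (volume.restrict U)) (hdb : MemLp db 2 (volume.restrict U))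
    {V : E → ℝ} {c₀ M : ℝ} (hc : 0 < c₀) (hV : AEMeasurable V (volume.restrict U))
    (hVc : ∀ᵐ x ∂(volume.restrict U), c₀ ≤ V x) (hVM : ∀ᵐ x ∂(volume.restrict U), V x ≤ M)
    (h : ∀ φ : E → ℝ, Test U φ → (∀ x, 0 ≤ φ x) →
      (1 / 2) * (∫ x in U, inner ℝ (ds x - db x) (gr φ x)) +
        (∫ x in U, V x * (s x - b x) * φ x) ≤ 0)
    (he : H10 U (U.indicator (ep s b)) (U.indicator (dep s b ds db))) :
    ∀ᵐ x ∂(volume.restrict U), s x ≤ b x := by
  have hVC : ∀ᵐ x ∂(volume.restrict U), |V x| ≤ max M c₀ := by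
    filter_upwards [hVc, hVM] with x h1 h2
    rw [abs_of_nonneg (hc.le.trans h1)]
    exact h2.trans (le_max_left _ _)
  have h1 := tested_of_test (S := Empty) hU hs2 hb2 hds hdb hV hVC (m := fun e => e.elim)
    (w := fun e => e.elim) (fun e => e.elim) (fun e => e.elim) (fun e => e.elim)
    (by simpa using h) he
  have h2 := cps_core (S := Unit) (μ := volume.restrict U) (f := fun _ => s) (b := fun _ => b)
    (df := fun _ => ds) (db := fun _ => db) (fun _ => hs2) (fun _ => hb2) (fun _ => hds)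
    (fun _ => hdb) (U := fun _ => V) (m := fun _ _ _ => 0) hc (fun _ => hV) (fun _ => hVc)
    (fun _ => hVM) (fun _ _ => aemeasurable_const) (fun _ _ => Eventually.of_forall fun _ => le_rfl)
    (fun _ => Eventually.of_forall fun _ => by simpa using hc.le) (fun _ => by simpa using h1)
  exact h2 ()

/-- **System comparison principle** (CPS) on `{R < ‖x‖, 0 < x i0}`.  Components with `dir i` are of
Dirichlet type (test functions supported in the half exterior, `f i ∈ H¹₀(0 < x i0)`), the others are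
even and the inequality is tested in the whole exterior. All the coefficients are even on the
exterior. -/
theorem cps_ext (i0 : ι) {R δ c₀ M : ℝ} (hR : 0 < R) (hδ : 0 < δ) (hc : 0 < c₀)
    {S : Type*} [Fintype S] (dir : S → Prop)
    {f b : S → E → ℝ} {df db : S → E → E}
    (hf2 : ∀ i, MemLp (f i) 2 (volume.restrict (ExtE R)))
    (hb2 : ∀ i, MemLp (b i) 2 (volume.restrict (ExtE R)))
    (hfe : ∀ i, ∀ᵐ x, x ∈ (ExtE R : Set E) → f i (rfl' i0 x) = f i x)
    (hbe : ∀ i, ∀ᵐ x, x ∈ (ExtE R : Set E) → b i (rfl' i0 x) = b i x)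
    {U : S → E → ℝ} {m : S → S → E → ℝ}
    (hUm : ∀ i, AEMeasurable (U i) (volume.restrict (ExtE R)))
    (hUc : ∀ i, ∀ᵐ x ∂(volume.restrict (ExtE R : Set E)), c₀ ≤ U i x)
    (hUM : ∀ i, ∀ᵐ x ∂(volume.restrict (ExtE R : Set E)), U i x ≤ M)
    (hmm : ∀ i j, AEMeasurable (m i j) (volume.restrict (ExtE R)))
    (hm0 : ∀ i j, ∀ᵐ x ∂(volume.restrict (ExtE R : Set E)), 0 ≤ m i j x)
    (hsum : ∀ i, ∀ᵐ x ∂(volume.restrict (ExtE R : Set E)), ∑ j, (m i j x + m j i x) ≤ c₀)
    (hUe : ∀ i, ¬ dir i → ∀ᵐ x, x ∈ (ExtE R : Set E) → U i (rfl' i0 x) = U i x)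
    (hme : ∀ i j, ¬ dir i → ∀ᵐ x, x ∈ (ExtE R : Set E) → m i j (rfl' i0 x) = m i j x)
    -- Dirichlet components
    (hfD : ∀ i, dir i → H10 {x : E | 0 < x i0} ({x : E | 0 < x i0}.indicator (f i))
      ({x : E | 0 < x i0}.indicator (df i)))
    (hbD : ∀ i, dir i → WG (HExt R i0) (b i) (db i))
    (hdbD : ∀ i, dir i → MemLp (db i) 2 (volume.restrict (HExt R i0)))
    (hb0 : ∀ i, dir i → ∀ᵐ x, x ∈ (HExt R i0 : Set E) → 0 ≤ b i x)
    (hshD : ∀ i, dir i → ∀ᵐ x, x ∈ (HExt R i0 : Set E) → ‖x‖ < R + δ → f i x ≤ b i x)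
    (hineqD : ∀ i, dir i → ∀ φ : E → ℝ, Test (HExt R i0) φ → (∀ x, 0 ≤ φ x) →
      (1 / 2) * (∫ x in HExt R i0, inner ℝ (df i x - db i x) (gr φ x)) +
        (∫ x in HExt R i0, U i x * (f i x - b i x) * φ x)
        ≤ ∑ j, ∫ x in HExt R i0, m i j x * (f j x - b j x) * φ x)
    -- even components
    (hfE : ∀ i, ¬ dir i → WG (ExtE R) (f i) (df i))
    (hbE : ∀ i, ¬ dir i → WG (ExtE R) (b i) (db i))
    (hdfE : ∀ i, ¬ dir i → MemLp (df i) 2 (volume.restrict (ExtE R)))
    (hdbE : ∀ i, ¬ dir i → MemLp (db i) 2 (volume.restrict (ExtE R)))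
    (hshE : ∀ i, ¬ dir i → ∀ᵐ x, x ∈ (ExtE R : Set E) → ‖x‖ < R + δ → f i x ≤ b i x)
    (hineqE : ∀ i, ¬ dir i → ∀ φ : E → ℝ, Test (ExtE R) φ → (∀ x, 0 ≤ φ x) →
      (1 / 2) * (∫ x in ExtE R, inner ℝ (df i x - db i x) (gr φ x)) +
        (∫ x in ExtE R, U i x * (f i x - b i x) * φ x)
        ≤ ∑ j, ∫ x in ExtE R, m i j x * (f j x - b j x) * φ x) :
    ∀ i, ∀ᵐ x, x ∈ (HExt R i0 : Set E) → f i x ≤ b i x := by
  have hEo : IsOpen (ExtE R : Set E) := isOpen_ExtE R
  have hHo : IsOpen (HExt R i0 : Set E) := isOpen_HExt R i0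
  have hHE : (HExt R i0 : Set E) ⊆ ExtE R := inter_subset_left
  have hHP : (HExt R i0 : Set E) ⊆ {x | 0 < x i0} := inter_subset_right
  have hle : (volume.restrict (HExt R i0 : Set E)) ≤ volume.restrict (ExtE R) :=
    Measure.restrict_mono hHE le_rfl
  have hac : (volume.restrict (HExt R i0 : Set E)) ≪ volume.restrict (ExtE R) :=
    hle.absolutelyContinuous
  have hUC : ∀ i, ∀ᵐ x ∂(volume.restrict (ExtE R : Set E)), |U i x| ≤ max M c₀ := by
    intro i
    filter_upwards [hUc i, hUM i] with x h1 h2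
    rw [abs_of_nonneg (hc.le.trans h1)]
    exact h2.trans (le_max_left _ _)
  have hmC : ∀ i j, ∀ᵐ x ∂(volume.restrict (ExtE R : Set E)), |m i j x| ≤ max M c₀ := by
    intro i j
    filter_upwards [hsum i, hm0 i j, ae_all_iff.2 (hm0 i), ae_all_iff.2 (fun k => hm0 k i)]
      with x h1 h2 h3 h4
    rw [abs_of_nonneg h2]
    refine le_trans ?_ (le_max_right M c₀)
    refine le_trans ?_ h1
    refine le_trans (le_add_of_nonneg_right (h4 j)) ?_
    exact Finset.single_le_sum (f := fun j => m i j x + m j i x)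
      (fun k _ => add_nonneg (h3 k) (h4 k)) (Finset.mem_univ j)
  have hf2' : ∀ i, MemLp (f i) 2 (volume.restrict (HExt R i0)) := fun i => (hf2 i).mono_measure hle
  have hb2' : ∀ i, MemLp (b i) 2 (volume.restrict (HExt R i0)) := fun i => (hb2 i).mono_measure hle
  have hdf' : ∀ i, MemLp (df i) 2 (volume.restrict (HExt R i0)) := by
    intro i
    by_cases hi : dir i
    · have h1 := (hfD i hi).h1.memg.restrict (HExt R i0)
      refine (memLp_congr_ae ?_).1 h1
      filter_upwards [ae_restrict_mem hHo.measurableSet] with x hx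
      exact indicator_of_mem (hHP hx) _
    · exact (hdfE i hi).mono_measure hle
  have hdb' : ∀ i, MemLp (db i) 2 (volume.restrict (HExt R i0)) := by
    intro i
    by_cases hi : dir i
    · exact hdbD i hi
    · exact (hdbE i hi).mono_measure hle
  have hmain := cps_core (μ := volume.restrict (HExt R i0)) (f := f) (b := b) (df := df)
    (db := db) hf2' hb2' hdf' hdb' (U := U) (m := m) (M := M) hc (fun i => (hUm i).mono_measure hle)
    (fun i => hac.ae_le (hUc i)) (fun i => hac.ae_le (hUM i))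
    (fun i j => (hmm i j).mono_measure hle) (fun i j => hac.ae_le (hm0 i j))
    (fun i => hac.ae_le (hsum i)) ?_
  · intro i
    have := hmain i
    rwa [ae_restrict_iff' hHo.measurableSet] at this
  intro i
  by_cases hi : dir i
  · -- Dirichlet component
    have he0 := H10.ep_half (isOpen_half i0) hHo hHP (hfD i hi) (hbD i hi) (hb2' i) (hdb' i)
      (hb0 i hi) hδ (by
        filter_upwards [hshD i hi] with x hx hxV hd
        rw [indicator_of_mem (hHP hxV)]
        exact hx hxV (infDist_HExt hR i0 hd))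
    have e1 : (HExt R i0 : Set E).indicator (ep ({x : E | 0 < x i0}.indicator (f i)) (b i)) =
        (HExt R i0 : Set E).indicator (ep (f i) (b i)) := by
      refine indicator_congr fun x hx => ?_
      unfold ep
      rw [indicator_of_mem (hHP hx)]
    have e2 : (HExt R i0 : Set E).indicator (dep ({x : E | 0 < x i0}.indicator (f i)) (b i)
        ({x : E | 0 < x i0}.indicator (df i)) (db i)) =
        (HExt R i0 : Set E).indicator (dep (f i) (b i) (df i) (db i)) := by
      refine indicator_congr fun x hx => ?_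
      unfold dep
      rw [indicator_of_mem (hHP hx), indicator_of_mem (hHP hx)]
    rw [e1, e2] at he0
    exact tested_of_test hHo (hf2' i) (hb2' i) (hdf' i) (hdb' i) ((hUm i).mono_measure hle)
      (hac.ae_le (hUC i)) (fun j => (hmm i j).mono_measure hle) (fun j => hac.ae_le (hmC i j))
      (w := fun j x => f j x - b j x) (fun j => (hf2' j).sub (hb2' j)) (hineqD i hi) he0
  · -- even component
    have he0 := H10.ep_ext hEo (hfE i hi) (hbE i hi) (hf2 i) (hb2 i) (hdfE i hi) (hdbE i hi) hδ (by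
        filter_upwards [hshE i hi] with x hx hxV hd
        exact hx hxV (infDist_ExtE hR.le hd))
    have h1 := tested_of_test hEo (hf2 i) (hb2 i) (hdfE i hi) (hdbE i hi) (hUm i)
      (hUC i) (fun j => hmm i j) (fun j => hmC i j)
      (w := fun j x => f j x - b j x) (fun j => (hf2 j).sub (hb2 j)) (hineqE i hi) he0
    -- parity of the gradients
    have hgf := (hfE i hi).grad_even i0 hEo (ExtE_symm R i0) (hfe i)
    have hgb := (hbE i hi).grad_even i0 hEo (ExtE_symm R i0) (hbe i)
    have hep : ∀ᵐ x, x ∈ (ExtE R : Set E) → ep (f i) (b i) (rfl' i0 x) = ep (f i) (b i) x := by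
      filter_upwards [hfe i, hbe i] with x h1 h2 hx
      unfold ep
      rw [h1 hx, h2 hx]
    have hepm := memLp_ep (hf2 i) (hb2 i)
    have hdepm := memLp_dep (hf2 i).aestronglyMeasurable.aemeasurable
      (hb2 i).aestronglyMeasurable.aemeasurable (hdfE i hi) (hdbE i hi)
    have a1 : ∫ x in ExtE R, inner ℝ (df i x - db i x) (dep (f i) (b i) (df i) (db i) x) =
        2 * ∫ x in HExt R i0, inner ℝ (df i x - db i x) (dep (f i) (b i) (df i) (db i) x) := by
      refine setIntegral_even i0 hEo.measurableSet (ExtE_symm R i0) ?_ ?_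
      · have : Integrable (fun x => ‖dep (f i) (b i) (df i) (db i) x‖ ^ 2)
            (volume.restrict (ExtE R)) := (memLp_two_iff_integrable_sq_norm hdepm.1).1 hdepm
        refine this.congr (Eventually.of_forall fun x => ?_)
        exact (inner_dep _ _ _ _ x).symm
      · filter_upwards [hfe i, hbe i, hgf, hgb] with x h1 h2 h3 h4 hx
        rw [inner_dep, inner_dep]
        unfold dep
        rw [h1 hx, h2 hx, h3 hx, h4 hx]
        split_ifs
        · rw [← rfl'_sub, norm_rfl']
        · rfl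
    have a2 : ∫ x in ExtE R, U i x * (f i x - b i x) * ep (f i) (b i) x =
        2 * ∫ x in HExt R i0, U i x * (f i x - b i x) * ep (f i) (b i) x := by
      refine setIntegral_even i0 hEo.measurableSet (ExtE_symm R i0) ?_ ?_
      · exact (memLp_bdd_mul (hUm i) (hUC i) ((hf2 i).sub (hb2 i))).integrable_mul hepm
      · filter_upwards [hfe i, hbe i, hep, hUe i hi] with x h1 h2 h3 h4 hx
        rw [h1 hx, h2 hx, h3 hx, h4 hx]
    have a3 : ∀ j, ∫ x in ExtE R, m i j x * (f j x - b j x) * ep (f i) (b i) x =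
        2 * ∫ x in HExt R i0, m i j x * (f j x - b j x) * ep (f i) (b i) x := by
      intro j
      refine setIntegral_even i0 hEo.measurableSet (ExtE_symm R i0) ?_ ?_
      · exact (memLp_bdd_mul (hmm i j) (hmC i j) ((hf2 j).sub (hb2 j))).integrable_mul hepm
      · filter_upwards [hfe j, hbe j, hep, hme i j hi] with x h1 h2 h3 h4 hx
        rw [h1 hx, h2 hx, h3 hx, h4 hx]
    rw [a1, a2, Finset.sum_congr rfl (fun j _ => a3 j), ← Finset.mul_sum] at h1
    linarith

end Crest.Agent.R335
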