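import Crest.Agent.R335.XTwo
import Crest.Agent.R335.CmpW
import Crest.Agent.R335.BIface
import Crest.Agent.R335.CDefs
import Crest.Agent.R335.BRAlg

/-!
Row 335 (S0521), Part B sections 5-6 (note 10383): the model functions at a point, products with
`r^{-2}`, the barriers `e^{-kr}` and `B₀ = e^{-kr}(1-e^{-z})`.
-/

set_option autoImplicit false
set_option linter.unusedSectionVars false
set_option linter.unusedVariables false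

open MeasureTheory Filter Set Crest.MathPhysics.ThreeBody
open scoped ENNReal Topology ContDiff

noncomputable section
namespace Crest.Agent.R335.BR
open Crest.Agent.R335

/-! ### products with `r^{-2}` -/

theorem isOpen_ne0 : IsOpen {x : Pos3 | x ≠ 0} := isOpen_ne

/-- jet of `|x|^{-2}` in `ℝ³` -/
theorem rm2_jet : Jet {x : Pos3 | x ≠ 0} (fun x => ‖x‖⁻¹ ^ 2) (fun x => (-2 * ‖x‖⁻¹ ^ 4) • x)
    (fun x => 2 * ‖x‖⁻¹ ^ 4) := by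
  have h1 : ∀ t : ℝ, 0 < t → HasDerivAt (fun t : ℝ => t⁻¹ ^ 2) (-2 * t⁻¹ ^ 3) t := fun t ht => by
    have := (hasDerivAt_inv ht.ne').fun_pow 2
    refine this.congr_deriv ?_
    rw [show (2 - 1 : ℕ) = 1 from rfl]
    push_cast
    field_simp
  have h2 : ∀ t : ℝ, 0 < t → HasDerivAt (fun t : ℝ => -2 * t⁻¹ ^ 3) (6 * t⁻¹ ^ 4) t :=
    fun t ht => by
    have := ((hasDerivAt_inv ht.ne').fun_pow 3).const_mul (-2)
    refine this.congr_deriv ?_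
    rw [show (3 - 1 : ℕ) = 2 from rfl]
    push_cast
    field_simp
    norm_num
  have h3 : ContinuousOn (fun t : ℝ => 6 * t⁻¹ ^ 4) (Ioi 0) := by
    refine ContinuousOn.mul continuousOn_const (ContinuousOn.pow ?_ 4)
    exact continuousOn_inv₀.mono fun t ht => ne_of_gt ht
  have h := Jet.radial (U := {x : Pos3 | x ≠ 0}) h1 h2 h3 (0 : Pos3) (fun x hx => hx) isOpen_ne0
  refine (h.congr isOpen_ne0 (fun x _ => by rw [sub_zero])).of_eq (fun x hx => ?_)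
    (fun x hx => ?_)
  · have hr : ‖x‖ ≠ 0 := norm_ne_zero_iff.2 hx
    rw [sub_zero]
    congr 1
    field_simp
  · have hr : ‖x‖ ≠ 0 := norm_ne_zero_iff.2 hx
    simp only [sub_zero, Fintype.card_fin]
    field_simp
    norm_num

/-- product with `r^{-2}` -/
theorem mul_rm2 {U : Set Pos3} (hU : IsOpen U) (h0 : ∀ x ∈ U, x ≠ 0) {b : Pos3 → ℝ}
    {G : Pos3 → Pos3} {L : Pos3 → ℝ} (h : Jet U b G L) :
    Jet U (fun x => ‖x‖⁻¹ ^ 2 * b x)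
      (fun x => ‖x‖⁻¹ ^ 2 • G x + b x • ((-2 * ‖x‖⁻¹ ^ 4) • x))
      (fun x => ‖x‖⁻¹ ^ 2 * L x - 4 * ‖x‖⁻¹ ^ 4 * inner ℝ x (G x) + 2 * ‖x‖⁻¹ ^ 4 * b x) := by
  refine ((rm2_jet.mono h0).mul hU h).of_eq (fun x hx => rfl) (fun x hx => ?_)
  rw [inner_smul_left]
  simp only [conj_trivial]
  ring

/-- `L(r^{-2} b)` -/
theorem Lx_rm2 {U : Set Pos3} (hU : IsOpen U) (h0 : ∀ x ∈ U, x ≠ 0) {b : Pos3 → ℝ}
    {G : Pos3 → Pos3} {L : Pos3 → ℝ} (h : Jet U b G L) (D Q κ : ℝ) {x : Pos3} (hx : x ∈ U) :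
    Lx D Q κ (fun x => ‖x‖⁻¹ ^ 2 * b x) x =
      ‖x‖⁻¹ ^ 2 * Lx D Q κ b x + 2 * ‖x‖⁻¹ ^ 4 * inner ℝ x (G x) - ‖x‖⁻¹ ^ 4 * b x := by
  unfold Lx
  rw [(mul_rm2 hU h0 h).lapl x hx, h.lapl x hx]
  ring

theorem Lx_rm2_ge {U : Set Pos3} (hU : IsOpen U) (h0 : ∀ x ∈ U, x ≠ 0) {b : Pos3 → ℝ}
    {G : Pos3 → Pos3} {L : Pos3 → ℝ} (h : Jet U b G L) (D Q κ : ℝ) {x : Pos3} (hx : x ∈ U)
    {c m : ℝ} (hb : 0 ≤ b x) (hr : 1 ≤ ‖x‖) (hG : -(c * ‖x‖ * b x) ≤ inner ℝ x (G x))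
    (hL : 0 ≤ Lx D Q κ b x) :
    (m - (2 * c + 1) / ‖x‖) * (‖x‖⁻¹ ^ 2 * b x) ≤
      Lx D Q κ (fun x => ‖x‖⁻¹ ^ 2 * b x) x + m * (‖x‖⁻¹ ^ 2 * b x) := by
  rw [Lx_rm2 hU h0 h D Q κ hx]
  have hr0 : 0 < ‖x‖ := by linarith
  have hu : 0 < ‖x‖⁻¹ := inv_pos.2 hr0
  have hu1 : ‖x‖⁻¹ ≤ 1 := inv_le_one_of_one_le₀ hr
  have e1 : 0 ≤ ‖x‖⁻¹ ^ 2 * Lx D Q κ b x := mul_nonneg (by positivity) hL
  have e2 : 2 * ‖x‖⁻¹ ^ 4 * (-(c * ‖x‖ * b x)) ≤ 2 * ‖x‖⁻¹ ^ 4 * inner ℝ x (G x) :=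
    mul_le_mul_of_nonneg_left hG (by positivity)
  have e3 : 2 * ‖x‖⁻¹ ^ 4 * (-(c * ‖x‖ * b x)) = -(2 * c * ‖x‖⁻¹ * (‖x‖⁻¹ ^ 2 * b x)) := by
    field_simp
  have e4 : ‖x‖⁻¹ ^ 4 * b x ≤ ‖x‖⁻¹ * (‖x‖⁻¹ ^ 2 * b x) := by
    have : ‖x‖⁻¹ ^ 4 * b x = ‖x‖⁻¹ * (‖x‖⁻¹ * (‖x‖⁻¹ ^ 2 * b x)) := by ring
    rw [this]
    refine mul_le_mul_of_nonneg_left ?_ hu.le
    have h5 : 0 ≤ ‖x‖⁻¹ ^ 2 * b x := by positivity
    nlinarith [mul_le_mul_of_nonneg_right hu1 h5]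
  have e5 : (m - (2 * c + 1) / ‖x‖) * (‖x‖⁻¹ ^ 2 * b x) =
      m * (‖x‖⁻¹ ^ 2 * b x) - 2 * c * ‖x‖⁻¹ * (‖x‖⁻¹ ^ 2 * b x) -
        ‖x‖⁻¹ * (‖x‖⁻¹ ^ 2 * b x) := by
    rw [div_eq_mul_inv]; ring
  rw [e5]
  linarith

/-! ### radial derivative of `O`, `S` -/

theorem inner_self_sub (x : Pos3) (D : ℝ) : inner ℝ x (x - nuc D) = ‖x‖ ^ 2 - D * x 2 := by
  rw [inner_sub_right, real_inner_self_eq_norm_sq, XT.inner_nuc]

/-- `x·∇S ≥ -2κ r S` -/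
theorem x_gSx {D κ Q p σ : ℝ} (h : MPar κ Q p σ) {x : Pos3} (hx : XFar D x) :
    -(2 * κ * ‖x‖ * Sx D κ p σ x) ≤ inner ℝ x (gSx D κ p σ x) := by
  have hr := hx.reg
  unfold gSx Sx
  rw [inner_add_right, inner_smul_right, inner_smul_right, inner_self_sub, inner_self_sub]
  have hp0 : 0 < ‖x - nuc D‖ := by linarith [hr.rp]
  have hm0 : 0 < ‖x - nuc (-D)‖ := by linarith [hr.rm]
  have hr0 := hx.rpos
  have hD := hx.Dpos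
  have hz := hx.z0
  have hzr : |x 2| ≤ ‖x‖ := by
    have := PiLp.norm_apply_le x 2
    simpa using this
  have hzr' : x 2 ≤ ‖x‖ := (le_abs_self _).trans hzr
  have key : ∀ D' : ℝ, 0 < ‖x - nuc D'‖ → 100 ≤ ‖x - nuc D'‖ → 0.99 * ‖x‖ ≤ ‖x - nuc D'‖ →
      |D'| = D → -(2 * κ * ‖x‖ * Em κ p σ ‖x - nuc D'‖) ≤
        -(Dm κ p σ ‖x - nuc D'‖ / ‖x - nuc D'‖) * (‖x‖ ^ 2 - D' * x 2) := by
    intro D' h0 h100 h99 habs
    have hE := Em_pos h h100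
    have hDm := Dm_le h h100
    have hDm0 := (Dm_pos h h100).le
    have a1 : ‖x‖ ^ 2 - D' * x 2 ≤ 1.01 * ‖x‖ ^ 2 := by
      have : -(D' * x 2) ≤ D * ‖x‖ := by
        have b1 : |D' * x 2| ≤ D * ‖x‖ := by
          rw [abs_mul, habs]
          exact mul_le_mul_of_nonneg_left hzr hD.le
        linarith [neg_abs_le (D' * x 2), (abs_le.1 b1).1]
      have b2 : 6000 * D * ‖x‖ ≤ ‖x‖ * ‖x‖ := mul_le_mul_of_nonneg_right hx.r1 hr0.le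
      nlinarith
    have a2 : (Dm κ p σ ‖x - nuc D'‖ / ‖x - nuc D'‖) * (‖x‖ ^ 2 - D' * x 2) ≤
        (Dm κ p σ ‖x - nuc D'‖ / ‖x - nuc D'‖) * (1.01 * ‖x‖ ^ 2) :=
      mul_le_mul_of_nonneg_left a1 (div_nonneg hDm0 h0.le)
    have a3 : (Dm κ p σ ‖x - nuc D'‖ / ‖x - nuc D'‖) * (1.01 * ‖x‖ ^ 2) ≤
        1.03 * ‖x‖ * Dm κ p σ ‖x - nuc D'‖ := by
      rw [div_mul_eq_mul_div, div_le_iff₀ h0]
      have b1 : 1.01 * ‖x‖ ^ 2 ≤ 1.03 * ‖x‖ * ‖x - nuc D'‖ := by nlinarith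
      nlinarith [mul_le_mul_of_nonneg_left b1 hDm0]
    have a4 : 1.03 * ‖x‖ * Dm κ p σ ‖x - nuc D'‖ ≤
        1.03 * ‖x‖ * (1.01 * κ * Em κ p σ ‖x - nuc D'‖) :=
      mul_le_mul_of_nonneg_left hDm (by positivity)
    have a5 : 1.03 * ‖x‖ * (1.01 * κ * Em κ p σ ‖x - nuc D'‖) ≤
        2 * κ * ‖x‖ * Em κ p σ ‖x - nuc D'‖ := by
      have : 0 ≤ κ * ‖x‖ * Em κ p σ ‖x - nuc D'‖ :=
        mul_nonneg (mul_nonneg h.kpos.le hr0.le) hE.le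
      nlinarith
    linarith
  have k1 := key D hp0 hr.rp hx.rp_ge (abs_of_pos hD)
  have k2 := key (-D) hm0 hr.rm hx.rm_ge (by rw [abs_neg, abs_of_pos hD])
  linarith

/-- `x·∇O ≥ -2κ r O` -/
theorem x_gOx {D κ Q p σ : ℝ} (h : MPar κ Q p σ) {x : Pos3} (hx : XFar D x) :
    -(2 * κ * ‖x‖ * Ox D κ p σ x) ≤ inner ℝ x (gOx D κ p σ x) := by
  have hr := hx.reg
  unfold gOx
  rw [inner_sub_right, inner_smul_right, inner_smul_right, inner_self_sub, inner_self_sub]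
  have hp0 : 0 < ‖x - nuc D‖ := by linarith [hr.rp]
  have hm0 : 0 < ‖x - nuc (-D)‖ := by linarith [hr.rm]
  have hr0 := hx.rpos
  have hD := hx.Dpos
  have hz := hx.z0
  have hO := Ox_nonneg h hr
  have h1 := (Dm_div_diff h hr.rp hr.rp_le_rm).2
  have e1 : Em κ p σ ‖x - nuc D‖ - Em κ p σ ‖x - nuc (-D)‖ = Ox D κ p σ x := rfl
  rw [e1] at h1
  have h2 : 0 ≤ Dm κ p σ ‖x - nuc D‖ / ‖x - nuc D‖ := div_nonneg (Dm_pos h hr.rp).le hp0.le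
  have h3 : 0 ≤ Dm κ p σ ‖x - nuc (-D)‖ / ‖x - nuc (-D)‖ :=
    div_nonneg (Dm_pos h hr.rm).le hm0.le
  have h4 : 1.2 * κ / ‖x - nuc D‖ * Ox D κ p σ x * ‖x‖ ^ 2 ≤ 2 * κ * ‖x‖ * Ox D κ p σ x := by
    have b1 : ‖x‖ ^ 2 / ‖x - nuc D‖ ≤ 1.02 * ‖x‖ := by
      rw [div_le_iff₀ hp0]
      nlinarith [hx.rp_ge]
    have b2 : 1.2 * κ / ‖x - nuc D‖ * Ox D κ p σ x * ‖x‖ ^ 2 =
        1.2 * κ * Ox D κ p σ x * (‖x‖ ^ 2 / ‖x - nuc D‖) := by ring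
    rw [b2]
    have b3 : 0 ≤ 1.2 * κ * Ox D κ p σ x := by have := h.kpos; positivity
    have b4 := mul_le_mul_of_nonneg_left b1 b3
    have b5 : 0 ≤ κ * ‖x‖ * Ox D κ p σ x := mul_nonneg (mul_nonneg h.kpos.le hr0.le) hO
    nlinarith
  have h5 := mul_le_mul_of_nonneg_right h1 (sq_nonneg ‖x‖)
  have h6 : 0 ≤ D * x 2 * (Dm κ p σ ‖x - nuc D‖ / ‖x - nuc D‖ +
      Dm κ p σ ‖x - nuc (-D)‖ / ‖x - nuc (-D)‖) :=
    mul_nonneg (mul_nonneg hD.le hz) (add_nonneg h2 h3)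
  nlinarith

/-! ### monotonicity in `κ` and elementary bounds -/

theorem Em_mono {κ κ' Q p p' σ : ℝ} (h : MPar κ Q p σ) (h' : MPar κ' Q p' σ) (hk : κ ≤ κ')
    {t : ℝ} (ht : 100 ≤ t) : Em κ' p' σ t ≤ Em κ p σ t := by
  have h0 : 0 < t := by linarith
  obtain ⟨u0, u1⟩ := XM.u_bounds ht
  rw [Em_eq h0, Em_eq h0]
  have hd : 0 ≤ 1 - σ * (√t)⁻¹ := by rcases h.hσ with rfl | rfl <;> linarith
  refine mul_le_mul_of_nonneg_right ?_ hd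
  unfold ee
  have hp : p' ≤ p := by
    have e1 := h.hp
    have e2 := h'.hp
    have k0 := h.kpos
    have k0' := h'.kpos
    have p1 := h.p1
    by_contra hc
    push Not at hc
    have : κ * (p + 1) < κ' * (p' + 1) := by
      have b1 : κ * (p + 1) ≤ κ' * (p + 1) := mul_le_mul_of_nonneg_right hk (by linarith)
      have b2 : κ' * (p + 1) < κ' * (p' + 1) := mul_lt_mul_of_pos_left (by linarith) k0'
      linarith
    linarith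
  refine mul_le_mul (Real.exp_le_exp.2 ?_) (Real.rpow_le_rpow_of_exponent_le (by linarith) hp)
    (Real.rpow_nonneg h0.le _) (Real.exp_pos _).le
  have := mul_le_mul_of_nonneg_right hk h0.le
  linarith

theorem Sx_mono {D κ κ' Q p p' σ : ℝ} (h : MPar κ Q p σ) (h' : MPar κ' Q p' σ) (hk : κ ≤ κ')
    {x : Pos3} (hx : XReg D x) : Sx D κ' p' σ x ≤ Sx D κ p σ x := by
  unfold Sx
  linarith [Em_mono h h' hk hx.rp, Em_mono h h' hk hx.rm]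

/-- `E^-(t) ≤ E^+(t)` -/
theorem Em_sign {κ p : ℝ} {t : ℝ} (ht : 100 ≤ t) : Em κ p 1 t ≤ Em κ p (-1) t := by
  have h0 : 0 < t := by linarith
  obtain ⟨u0, u1⟩ := XM.u_bounds ht
  rw [Em_eq h0, Em_eq h0]
  exact mul_le_mul_of_nonneg_left (by linarith) (ee_pos _ _ h0).le

theorem Sx_sign {D κ p : ℝ} {x : Pos3} (hx : XReg D x) : Sx D κ p 1 x ≤ Sx D κ p (-1) x := by
  unfold Sx
  linarith [Em_sign (κ := κ) (p := p) hx.rp, Em_sign (κ := κ) (p := p) hx.rm]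

/-- `O(κ') ≤ 4.8 D O(κ)`, also with different signs -/
theorem Ox_comp {D κ κ' Q Q' p p' σ σ' : ℝ} (h : MPar κ Q p σ) (h' : MPar κ' Q' p' σ') {x : Pos3}
    (hx : XReg D x) (hE : Em κ' p' σ' ‖x - nuc D‖ ≤ Em κ p σ ‖x - nuc D‖) :
    Ox D κ' p' σ' x ≤ 4.8 * D * Ox D κ p σ x := by
  have hD := hx.Dpos
  have h1 := Ox_le h' hx
  have h2 := Ox_ge h hx
  have d0 : 0 ≤ ‖x - nuc (-D)‖ - ‖x - nuc D‖ := by linarith [hx.rp_le_rm]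
  generalize ‖x - nuc (-D)‖ - ‖x - nuc D‖ = δ at *
  have h3 : 1.2 * δ * Em κ' p' σ' ‖x - nuc D‖ ≤ 1.2 * δ * Em κ p σ ‖x - nuc D‖ :=
    mul_le_mul_of_nonneg_left hE (by positivity)
  have h4 : 4.8 * D * (Em κ p σ ‖x - nuc D‖ * (δ / (4 * D))) ≤ 4.8 * D * Ox D κ p σ x :=
    mul_le_mul_of_nonneg_left h2 (by positivity)
  have h5 : 4.8 * D * (Em κ p σ ‖x - nuc D‖ * (δ / (4 * D))) =
      1.2 * δ * Em κ p σ ‖x - nuc D‖ := by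
    field_simp; ring
  linarith

/-- `z S ≤ 6 r O` in the form `z u S ≤ 6 O` -/
theorem zuS_le {D κ Q p σ : ℝ} (h : MPar κ Q p σ) {x : Pos3} (hx : XFar D x) :
    x 2 * ‖x‖⁻¹ * Sx D κ p σ x ≤ 6 * Ox D κ p σ x := by
  have hr := hx.reg
  have hD := hx.Dpos
  have hr0 := hx.rpos
  have h1 := del_Sx_le h hr
  have h2 := XT.del_mul x D
  have hS := (Sx_pos h hr).le
  have h3 : ‖x - nuc (-D)‖ + ‖x - nuc D‖ ≤ 2.02 * ‖x‖ := by linarith [hx.rp_le, hx.rm_le]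
  have d0 : 0 ≤ ‖x - nuc (-D)‖ - ‖x - nuc D‖ := by linarith [hr.rp_le_rm]
  generalize ‖x - nuc (-D)‖ - ‖x - nuc D‖ = δ at *
  have h4 : 4 * D * x 2 ≤ δ * (2.02 * ‖x‖) := by
    rw [← h2]; exact mul_le_mul_of_nonneg_left h3 d0
  have h5 : 4 * D * x 2 * Sx D κ p σ x ≤ 2.02 * ‖x‖ * (8 * D * Ox D κ p σ x) := by
    calc 4 * D * x 2 * Sx D κ p σ x ≤ δ * (2.02 * ‖x‖) * Sx D κ p σ x :=
          mul_le_mul_of_nonneg_right h4 hS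
      _ = 2.02 * ‖x‖ * (δ * Sx D κ p σ x) := by ring
      _ ≤ _ := mul_le_mul_of_nonneg_left h1 (by positivity)
  have hO := Ox_nonneg h hr
  rw [show x 2 * ‖x‖⁻¹ * Sx D κ p σ x = (x 2 * Sx D κ p σ x) / ‖x‖ by
    rw [div_eq_mul_inv]; ring, div_le_iff₀ hr0]
  have h6 : D * (x 2 * Sx D κ p σ x) ≤ D * (4.04 * (Ox D κ p σ x * ‖x‖)) := by linarith
  have h7 := le_of_mul_le_mul_left h6 hD
  have h8 : 0 ≤ Ox D κ p σ x * ‖x‖ := by positivity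
  linarith

/-! ### exponential comparison -/

theorem Em_lower {κ Q p σ : ℝ} (h : MPar κ Q p σ) {t : ℝ} (ht : 100 ≤ t) :
    0.9 * Real.exp (-(κ * t)) ≤ Em κ p σ t := by
  have h0 : 0 < t := by linarith
  obtain ⟨u0, u1⟩ := XM.u_bounds ht
  rw [Em_eq h0]
  unfold ee
  have h1 : (1 : ℝ) ≤ t ^ p := Real.one_le_rpow (by linarith) (by linarith [h.p1])
  have h2 : (0.9 : ℝ) ≤ 1 - σ * (√t)⁻¹ := by rcases h.hσ with rfl | rfl <;> linarith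
  have h3 := Real.exp_pos (-(κ * t))
  have h4 : Real.exp (-(κ * t)) * 1 ≤ Real.exp (-(κ * t)) * t ^ p :=
    mul_le_mul_of_nonneg_left h1 h3.le
  calc 0.9 * Real.exp (-(κ * t)) = Real.exp (-(κ * t)) * 1 * 0.9 := by ring
    _ ≤ _ := mul_le_mul h4 h2 (by norm_num) (by positivity)

theorem Em_upper {κ Q p σ : ℝ} (h : MPar κ Q p σ) {t : ℝ} (ht : 100 ≤ t) :
    Em κ p σ t ≤ 1.1 * Real.exp (-(κ * t)) * t ^ 2 := by
  have h0 : 0 < t := by linarith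
  obtain ⟨u0, u1⟩ := XM.u_bounds ht
  rw [Em_eq h0]
  unfold ee
  have h1 : t ^ p ≤ t ^ 2 := by
    have := Real.rpow_le_rpow_of_exponent_le (show 1 ≤ t by linarith)
      (show p ≤ (2 : ℝ) by linarith [h.p2])
    simpa using this
  have h2 : 1 - σ * (√t)⁻¹ ≤ (1.1 : ℝ) := by rcases h.hσ with rfl | rfl <;> linarith
  have h2' : 0 ≤ 1 - σ * (√t)⁻¹ := by rcases h.hσ with rfl | rfl <;> linarith
  have h3 := Real.exp_pos (-(κ * t))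
  have h4 : Real.exp (-(κ * t)) * t ^ p ≤ Real.exp (-(κ * t)) * t ^ 2 :=
    mul_le_mul_of_nonneg_left h1 h3.le
  calc _ ≤ Real.exp (-(κ * t)) * t ^ 2 * 1.1 := mul_le_mul h4 h2 h2' (by positivity)
    _ = _ := by ring

/-- lower bound of `O^∓` -/
theorem Ox_lower {D κ Q p σ : ℝ} (h : MPar κ Q p σ) {x : Pos3} (hx : XFar D x) :
    0.15 * (x 2 * ‖x‖⁻¹) * (Real.exp (-(κ * D)) * Real.exp (-(κ * ‖x‖))) ≤ Ox D κ p σ x := by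
  have hr := hx.reg
  have h1 := zuS_le h hx
  have h2 := Em_le_Sx h hr
  have h3 := Em_lower h hr.rp
  have h4 : Real.exp (-(κ * D)) * Real.exp (-(κ * ‖x‖)) ≤ Real.exp (-(κ * ‖x - nuc D‖)) := by
    rw [← Real.exp_add]
    refine Real.exp_le_exp.2 ?_
    have := mul_le_mul_of_nonneg_left (XT.rp_le x hx.Dpos.le) h.kpos.le
    linarith
  have hzu : 0 ≤ x 2 * ‖x‖⁻¹ := mul_nonneg hx.z0 (inv_nonneg.2 hx.rpos.le)
  have h5 := mul_le_mul_of_nonneg_left ((mul_le_mul_of_nonneg_left h4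
    (by norm_num : (0 : ℝ) ≤ 0.9)).trans (h3.trans h2)) hzu
  linarith

/-- lower bound of `S^∓` -/
theorem Sx_lower {D κ Q p σ : ℝ} (h : MPar κ Q p σ) {x : Pos3} (hx : XFar D x) :
    0.9 * (Real.exp (-(κ * D)) * Real.exp (-(κ * ‖x‖))) ≤ Sx D κ p σ x := by
  have hr := hx.reg
  have h2 := Em_le_Sx h hr
  have h3 := Em_lower h hr.rp
  have h4 : Real.exp (-(κ * D)) * Real.exp (-(κ * ‖x‖)) ≤ Real.exp (-(κ * ‖x - nuc D‖)) := by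
    rw [← Real.exp_add]
    refine Real.exp_le_exp.2 ?_
    have := mul_le_mul_of_nonneg_left (XT.rp_le x hx.Dpos.le) h.kpos.le
    linarith
  linarith

/-- upper bound of `S^∓` -/
theorem Sx_upper {D κ Q p σ : ℝ} (h : MPar κ Q p σ) {x : Pos3} (hx : XFar D x) :
    Sx D κ p σ x ≤ 3 * Real.exp (κ * D) * Real.exp (-(κ * ‖x‖)) * ‖x‖ ^ 2 := by
  have hr := hx.reg
  have h2 := Sx_le h hr
  have h3 := Em_upper h hr.rp
  have hr0 := hx.rpos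
  have h4 : Real.exp (-(κ * ‖x - nuc D‖)) ≤ Real.exp (κ * D) * Real.exp (-(κ * ‖x‖)) := by
    rw [← Real.exp_add]
    refine Real.exp_le_exp.2 ?_
    have := mul_le_mul_of_nonneg_left (XT.le_rp x hx.Dpos.le) h.kpos.le
    linarith
  have h5 : ‖x - nuc D‖ ^ 2 ≤ 1.03 * ‖x‖ ^ 2 := by
    have := pow_le_pow_left₀ (norm_nonneg _) hx.rp_le 2
    nlinarith [sq_nonneg ‖x‖]
  have h6 : 1.1 * Real.exp (-(κ * ‖x - nuc D‖)) * ‖x - nuc D‖ ^ 2 ≤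
      1.1 * (Real.exp (κ * D) * Real.exp (-(κ * ‖x‖))) * (1.03 * ‖x‖ ^ 2) :=
    mul_le_mul (mul_le_mul_of_nonneg_left h4 (by norm_num)) h5 (by positivity) (by positivity)
  have h7 : 0 ≤ Real.exp (κ * D) * Real.exp (-(κ * ‖x‖)) * ‖x‖ ^ 2 := by positivity
  linarith

end Crest.Agent.R335.BR
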