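import Crest.Agent.R335.OBDefs
import Crest.Agent.R335.HLip
import Crest.Agent.R335.HGlob2
import Crest.Agent.R335.HBasic

/-!
Row 335 (S0521), ONE-BODY block: radial Lipschitz functions, the hydrogen ground state (helper733).
-/

set_option autoImplicit false

open MeasureTheory Filter Set Crest.MathPhysics.ThreeBody
open scoped ENNReal Topology ContDiff

noncomputable section
namespace Crest.Agent.R335

lemma ob_ae_ne (a : Pos3) : ∀ᵐ x : Pos3, x ≠ a := by
  have h : (volume : Measure Pos3) {a} = 0 := measure_singleton a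
  exact compl_mem_ae_iff.2 h

lemma ob_abs_coord_le (x : Pos3) (i : Fin 3) : |x i| ≤ ‖x‖ := by
  have := PiLp.norm_apply_le x i
  rwa [Real.norm_eq_abs] at this

/-- derivative of the norm off the origin -/
lemma ob_hasFDerivAt_norm {a x : Pos3} (hx : x ≠ a) :
    HasFDerivAt (fun y : Pos3 => ‖y - a‖) ((1 / ‖x - a‖) • innerSL ℝ (x - a)) x := by
  have h1 : HasFDerivAt (fun y : Pos3 => y - a) (ContinuousLinearMap.id ℝ Pos3) x :=
    (hasFDerivAt_id x).sub_const a
  have h2 := h1.norm_sq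
  have h0 : ‖x - a‖ ≠ 0 := norm_ne_zero_iff.2 (sub_ne_zero.2 hx)
  have h3 := h2.sqrt (by positivity)
  have h4 : (fun y : Pos3 => √(‖y - a‖ ^ 2)) = fun y => ‖y - a‖ := by
    ext y; exact Real.sqrt_sq (norm_nonneg _)
  rw [h4] at h3
  refine h3.congr_fderiv ?_
  ext v
  simp only [_root_.smul_apply, ContinuousLinearMap.coe_comp, Function.comp_apply,
    ContinuousLinearMap.coe_id', id_eq, innerSL_apply_apply, smul_eq_mul, nsmul_eq_mul,
    Real.sqrt_sq (norm_nonneg _)]
  push_cast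
  field_simp

/-- gradient of a radial function off the centre -/
lemma ob_gr_radial {F F' : ℝ → ℝ} {a x : Pos3} (hx : x ≠ a)
    (hF : HasDerivAt F (F' ‖x - a‖) ‖x - a‖) :
    gr (fun y : Pos3 => F ‖y - a‖) x = (F' ‖x - a‖ / ‖x - a‖) • (x - a) := by
  have h1 := hF.comp_hasFDerivAt x (ob_hasFDerivAt_norm hx)
  have h2 : fderiv ℝ (fun y : Pos3 => F ‖y - a‖) x =
      F' ‖x - a‖ • ((1 / ‖x - a‖) • innerSL ℝ (x - a)) := h1.fderiv
  ext i
  rw [gr_apply, pd, h2]
  simp only [_root_.smul_apply, smul_eq_mul, innerSL_apply_apply, PiLp.smul_apply,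
    PiLp.sub_apply]
  rw [EuclideanSpace.inner_single_right]
  simp
  ring

lemma ob_lipschitz_radial {F F' : ℝ → ℝ} {C : ℝ} (hF : ∀ t, 0 ≤ t → HasDerivAt F (F' t) t)
    (hC : ∀ t, 0 ≤ t → |F' t| ≤ C) (a : Pos3) :
    LipschitzWith (Real.toNNReal C) (fun x : Pos3 => F ‖x - a‖) := by
  have hC0 : 0 ≤ C := (abs_nonneg _).trans (hC 0 le_rfl)
  refine LipschitzWith.of_dist_le_mul fun x y => ?_
  rw [Real.dist_eq, Real.coe_toNNReal _ hC0, dist_eq_norm]
  have h1 : ‖F ‖x - a‖ - F ‖y - a‖‖ ≤ C * ‖‖x - a‖ - ‖y - a‖‖ := by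
    refine (convex_Ici (0 : ℝ)).norm_image_sub_le_of_norm_hasDerivWithin_le (f := F) (f' := F')
      (fun t ht => (hF t ht).hasDerivWithinAt) (fun t ht => by
        rw [Real.norm_eq_abs]; exact hC t ht) (norm_nonneg _) (norm_nonneg _)
  refine h1.trans (mul_le_mul_of_nonneg_left ?_ hC0)
  rw [Real.norm_eq_abs]
  refine (abs_norm_sub_norm_le _ _).trans (le_of_eq ?_)
  congr 1
  abel

/-- radial Lipschitz functions are weakly differentiable -/
theorem WG_radial {F F' : ℝ → ℝ} {C : ℝ} (hF : ∀ t, 0 ≤ t → HasDerivAt F (F' t) t)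
    (hC : ∀ t, 0 ≤ t → |F' t| ≤ C) (a : Pos3) :
    WG univ (fun x : Pos3 => F ‖x - a‖) (fun x => (F' ‖x - a‖ / ‖x - a‖) • (x - a)) := by
  refine WG.congr isOpen_univ (WG.of_lipschitz (ob_lipschitz_radial hF hC a)).1 (ae_of_all _ fun _ => rfl) ?_
  rw [Measure.restrict_univ]
  filter_upwards [ob_ae_ne a] with x hx
  exact ob_gr_radial hx (hF _ (norm_nonneg _))

lemma ob_norm_radial_grad {F' : ℝ → ℝ} {a x : Pos3} (hx : x ≠ a) :
    ‖(F' ‖x - a‖ / ‖x - a‖) • (x - a)‖ = |F' ‖x - a‖| := by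
  have h0 : ‖x - a‖ ≠ 0 := norm_ne_zero_iff.2 (sub_ne_zero.2 hx)
  rw [norm_smul, Real.norm_eq_abs, abs_div, abs_of_nonneg (norm_nonneg (x - a)),
    div_mul_cancel₀ _ h0]

/-! ### integrals of radial functions -/

lemma ob_integral_radial (f : ℝ → ℝ) (a : Pos3) :
    ∫ x : Pos3, f ‖x - a‖ = 4 * Real.pi * ∫ t in Ioi (0 : ℝ), t ^ 2 * f t := by
  rw [integral_sub_right_eq_self (fun x : Pos3 => f ‖x‖) a, integral_fun_norm_addHaar]
  have h1 : (volume : Measure Pos3).real (Metric.ball 0 1) = Real.pi * 4 / 3 := by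
    rw [Measure.real, EuclideanSpace.volume_ball_fin_three]
    simp
    positivity
  rw [h1]
  simp
  ring

lemma ob_integral_exp {c : ℝ} (hc : 0 < c) (a : Pos3) :
    ∫ x : Pos3, Real.exp (-(c * ‖x - a‖)) = 8 * Real.pi / c ^ 3 := by
  rw [ob_integral_radial (fun t => Real.exp (-(c * t))) a]
  have h := Real.integral_rpow_mul_exp_neg_mul_Ioi (a := 3) (r := c) (by norm_num) hc
  have h2 : ∫ t in Ioi (0 : ℝ), t ^ 2 * Real.exp (-(c * t)) = 2 / c ^ 3 := by
    rw [show (2 : ℝ) / c ^ 3 = (1 / c) ^ (3 : ℝ) * Real.Gamma 3 by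
      rw [show (3 : ℝ) = ((2 : ℕ) : ℝ) + 1 by norm_num, Real.Gamma_nat_eq_factorial]
      rw [show ((2 : ℕ) : ℝ) + 1 = ((3 : ℕ) : ℝ) by norm_num, Real.rpow_natCast]
      simp [Nat.factorial]
      ring, ← h]
    refine setIntegral_congr_fun measurableSet_Ioi fun t ht => ?_
    congr 1
    rw [show (3 : ℝ) - 1 = ((2 : ℕ) : ℝ) by norm_num, Real.rpow_natCast]
  rw [h2]
  ring

lemma ob_integrable_exp {c : ℝ} (hc : 0 < c) (a : Pos3) :
    Integrable (fun x : Pos3 => Real.exp (-(c * ‖x - a‖))) := by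
  by_contra hneg
  have h := ob_integral_exp hc a
  rw [integral_undef hneg] at h
  have : 0 < 8 * Real.pi / c ^ 3 := by positivity
  linarith

/-! ### the hydrogen ground state -/

lemma hyd_pos (a x : Pos3) : 0 < hyd a x := by
  unfold hyd
  have := Real.pi_pos
  positivity

lemma continuous_hyd (a : Pos3) : Continuous (hyd a) := by
  unfold hyd; fun_prop

lemma hyd_sq (a x : Pos3) : hyd a x ^ 2 = Real.exp (-(2 * ‖x - a‖)) / Real.pi := by
  unfold hyd
  rw [div_pow, Real.sq_sqrt Real.pi_pos.le, ← Real.exp_nat_mul]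
  congr 2
  push_cast
  ring

theorem hyd_norm (a : Pos3) : ∫ x, hyd a x ^ 2 = 1 := by
  simp_rw [hyd_sq]
  rw [integral_div, ob_integral_exp (by norm_num : (0 : ℝ) < 2)]
  have := Real.pi_pos
  field_simp
  norm_num

lemma hyd_memLp (a : Pos3) : MemLp (hyd a) 2 volume := by
  rw [memLp_two_iff_integrable_sq (continuous_hyd a).aestronglyMeasurable]
  simp_rw [hyd_sq]
  exact (ob_integrable_exp (by norm_num : (0 : ℝ) < 2) a).div_const _

lemma norm_dhyd_le (a x : Pos3) : ‖dhyd a x‖ ≤ hyd a x := by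
  unfold dhyd
  rw [norm_smul, Real.norm_eq_abs, abs_neg, abs_div, abs_of_pos (hyd_pos a x),
    abs_of_nonneg (norm_nonneg (x - a))]
  rcases eq_or_lt_of_le (norm_nonneg (x - a)) with h | h
  · rw [← h, mul_zero]; exact (hyd_pos a x).le
  · rw [div_mul_cancel₀ _ h.ne']

lemma measurable_dhyd (a : Pos3) : Measurable (dhyd a) := by
  unfold dhyd
  have h1 : Measurable (hyd a) := (continuous_hyd a).measurable
  have h2 : Measurable fun x : Pos3 => ‖x - a‖ := by fun_prop
  exact ((h1.div h2).neg).smul (measurable_id.sub_const a)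

theorem hyd_H1 (a : Pos3) : H1 (hyd a) (dhyd a) := by
  refine ⟨hyd_memLp a, ?_, ?_⟩
  · exact (hyd_memLp a).mono (measurable_dhyd a).aestronglyMeasurable (ae_of_all _ fun x => by
      rw [Real.norm_eq_abs, abs_of_pos (hyd_pos a x)]; exact norm_dhyd_le a x)
  · have hF : ∀ t : ℝ, 0 ≤ t → HasDerivAt (fun t => Real.exp (-t) / √Real.pi)
        (-(Real.exp (-t) / √Real.pi)) t := by
      intro t _
      have h1 : HasDerivAt (fun t : ℝ => Real.exp (-t)) (Real.exp (-t) * (-1)) t :=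
        (hasDerivAt_id t).neg.exp
      have h2 := h1.div_const (√Real.pi)
      exact h2.congr_deriv (by ring)
    have hC : ∀ t : ℝ, 0 ≤ t → |-(Real.exp (-t) / √Real.pi)| ≤ 1 := by
      intro t ht
      rw [abs_neg, abs_of_nonneg (by positivity)]
      have h1 : Real.exp (-t) ≤ 1 := Real.exp_le_one_iff.2 (by linarith)
      have h2 : (1 : ℝ) ≤ √Real.pi := Real.one_le_sqrt.2 (by linarith [Real.pi_gt_three])
      rw [div_le_one (by linarith)]
      linarith
    have h := WG_radial hF hC a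
    refine WG.congr isOpen_univ h (ae_of_all _ fun x => rfl) (ae_of_all _ fun x => ?_)
    unfold dhyd hyd
    ring_nf

end Crest.Agent.R335
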