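import Crest.Agent.R335.BRJL
import Crest.Agent.R335.BRL2

/-!
Row 335 (S0521): the barriers as `L²` jets (predicate `BR.JL`), from `BRL2` (helper737).
-/

set_option autoImplicit false
set_option linter.unusedSectionVars false
set_option linter.unusedVariables false

open MeasureTheory Filter Set Crest.MathPhysics.ThreeBody
open scoped ENNReal Topology ContDiff

noncomputable section
namespace Crest.Agent.R335.BL
open Crest.Agent.R335 Crest.Agent.R335.BR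

variable {D κ Q p σ R k : ℝ}

theorem ExtE_sub_Uc (hD : 1 ≤ D) (hR : D + 100 ≤ R) : (ExtE R : Set Pos3) ⊆ XT.Uc D := by
  intro x hx
  have hx' : R < ‖x‖ := hx
  have hDD : |D| = D := abs_of_nonneg (by linarith)
  constructor
  · rintro rfl
    rw [XT.norm_nuc, hDD] at hx'
    linarith
  · rintro rfl
    rw [XT.norm_nuc, abs_neg, hDD] at hx'
    linarith

theorem ExtE_sub_ne (hR : 0 ≤ R) : (ExtE R : Set Pos3) ⊆ {x : Pos3 | x ≠ 0} := by
  intro x hx h0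
  have hx' : R < ‖x‖ := hx
  rw [h0, norm_zero] at hx'
  linarith

theorem ExtE_sub_Ud (hD : 1 ≤ D) (hR : D + 100 ≤ R) : (ExtE R : Set Pos3) ⊆ XT.Ud D :=
  subset_inter (ExtE_sub_Uc hD hR) (ExtE_sub_ne (by linarith))

/-- a jet with decaying function and gradient is an `L²` jet -/
theorem jl_of_dec {U : Set Pos3} (hU : IsOpen U) {b : Pos3 → ℝ} {G : Pos3 → Pos3}
    {L : Pos3 → ℝ} (hj : Jet U b G L) (hb : Dec U b) (hG : Dec U G) : JL U b :=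
  ⟨G, L, hj, hb.memLp hU.measurableSet, hG.memLp hU.measurableSet⟩

theorem jl_Ox (h : MPar κ Q p σ) (hD : 1 ≤ D) (hR : D + 100 ≤ R) : JL (ExtE R) (Ox D κ p σ) :=
  jl_of_dec (isOpen_ExtE R) ((Ox_jet D κ p σ).mono (ExtE_sub_Uc hD hR)) (dec_Ox h hD hR)
    (dec_gOx h hD hR)

theorem jl_Sx (h : MPar κ Q p σ) (hD : 1 ≤ D) (hR : D + 100 ≤ R) : JL (ExtE R) (Sx D κ p σ) :=
  jl_of_dec (isOpen_ExtE R) ((Sx_jet D κ p σ).mono (ExtE_sub_Uc hD hR)) (dec_Sx h hD hR)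
    (dec_gSx h hD hR)

theorem jl_hzO (h : MPar κ Q p σ) (hD : 1 ≤ D) (hR : D + 100 ≤ R) :
    JL (ExtE R) (fun x => hz x * Ox D κ p σ x) :=
  jl_of_dec (isOpen_ExtE R) ((hzO_jet D κ p σ).mono (ExtE_sub_Ud hD hR)) (dec_hzO h hD hR).1
    (dec_hzO h hD hR).2

theorem jl_riO (h : MPar κ Q p σ) (hD : 1 ≤ D) (hR : D + 100 ≤ R) (n : ℕ) :
    JL (ExtE R) (fun x => ri n x * Ox D κ p σ x) :=
  jl_of_dec (isOpen_ExtE R) ((riO_jet n D κ p σ).mono (ExtE_sub_Ud hD hR)) (dec_riO h hD hR n).1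
    (dec_riO h hD hR n).2

theorem jl_riS (h : MPar κ Q p σ) (hD : 1 ≤ D) (hR : D + 100 ≤ R) (n : ℕ) :
    JL (ExtE R) (fun x => ri n x * Sx D κ p σ x) :=
  jl_of_dec (isOpen_ExtE R) ((riS_jet n D κ p σ).mono (ExtE_sub_Ud hD hR)) (dec_riS h hD hR n).1
    (dec_riS h hD hR n).2

theorem jl_exr (hk : 1 / 2 ≤ k) (hR : 1 ≤ R) : JL (ExtE R) (exr k) :=
  jl_of_dec (isOpen_ExtE R) ((exr_jet k).mono (ExtE_sub_ne (by linarith))) (dec_exr _ hk)
    (dec_gexr _ (isOpen_ExtE R).measurableSet hk)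

theorem jl_Bz (hk : 1 / 2 ≤ k) (hR : 1 ≤ R) : JL (HExt R 2) (Bz k) :=
  jl_of_dec (isOpen_HExt R 2)
    ((Bz_jet k).mono ((HExt_sub R).trans (ExtE_sub_ne (by linarith)))) (dec_Bz_HExt R hk).1
    (dec_Bz_HExt R hk).2

theorem memLp_Bz_abs (hk : 1 / 2 ≤ k) (R : ℝ) :
    MemLp (fun x : Pos3 => exr k x * (1 - Real.exp (-|x 2|))) 2 (volume.restrict (ExtE R)) :=
  (dec_Bz_abs _ hk).memLpE

theorem memLp_Ox_abs (h : MPar κ Q p σ) (hD : 1 ≤ D) (hR : D + 100 ≤ R) :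
    MemLp (fun x : Pos3 => |Ox D κ p σ x|) 2 (volume.restrict (ExtE R)) :=
  (dec_Ox h hD hR).abs.memLpE

theorem memLp_riO_abs (h : MPar κ Q p σ) (hD : 1 ≤ D) (hR : D + 100 ≤ R) (n : ℕ) :
    MemLp (fun x : Pos3 => ri n x * |Ox D κ p σ x|) 2 (volume.restrict (ExtE R)) :=
  (Dec.mul (bdd_ri (by linarith) n) (dec_Ox h hD hR).abs).memLpE

end Crest.Agent.R335.BL
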