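import Crest.Agent.R335.BRUp

/-!
Row 335 (S0521), Part B sections 5-6, singlet sector: the lower bound of `c`.
-/

set_option autoImplicit false
set_option linter.unusedSectionVars false
set_option linter.unusedVariables false

open MeasureTheory Filter Set Crest.MathPhysics.ThreeBody
open scoped ENNReal Topology ContDiff

noncomputable section
namespace Crest.Agent.R335.BR
open Crest.Agent.R335

variable {n : Nu}

theorem lc_rfl (x : Pos3) : n.lc (rfl' 2 x) = n.lc x := by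
  unfold Nu.lc; rw [Sx_rfl, Sx_rfl, Ox_rfl, hz_rfl, ri_rfl]; ring

theorem jl_lc (pr : Prm n) : JL (ExtE n.R) n.lc := by
  have hU := isOpen_ExtE (ι := Fin 3) n.R
  have m : MPar n.κ n.Q n.p (-1) := pr.mp (Or.inr rfl)
  have mS : MPar n.κS n.Q n.pS (-1) := pr.mpS (Or.inr rfl)
  exact ((BL.jl_Sx mS pr.D1 pr.RD).const_mul hU n.an).add hU
    ((((BL.jl_hzO m pr.D1 pr.RD).add hU ((BL.jl_riS m pr.D1 pr.RD 4).const_mul hU
      n.βl)).const_mul hU n.αl).const_mul hU (n.lam * (n.Am / 2)))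

theorem Lx_lc (pr : Prm n) {x : Pos3} (hx : x ∈ (ExtE n.R : Set Pos3)) :
    Lx n.D n.Q n.κS n.lc x = n.an * Lx n.D n.Q n.κS (Sx n.D n.κS n.pS (-1)) x +
      n.lam * (n.Am / 2) * (n.αl * Lx n.D n.Q n.κS (fun y => hz y * Ox n.D n.κ n.p (-1) y +
        n.βl * (ri 4 y * Sx n.D n.κ n.p (-1) y)) x) := by
  have hU := isOpen_ExtE (ι := Fin 3) n.R
  have hj := (pr.jhzO (-1)).add hU ((pr.jriS 4 (-1)).const_mul hU n.βl)
  have h := Lx_add (D := n.D) (Q := n.Q) (κ := n.κS) hU ((pr.jSS (-1)).const_mul hU n.an)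
    ((hj.const_mul hU n.αl).const_mul hU (n.lam * (n.Am / 2))) hx
  rw [Lx_const_mul hU (pr.jSS (-1)) _ hx, Lx_const_mul hU (hj.const_mul hU n.αl) _ hx,
    Lx_const_mul hU hj _ hx] at h
  exact h

/-- error part of the source of `c` -/
def Ec (n : Nu) (F c P N : Pos3 → ℝ) (X : Pos3) : ℝ :=
  n.lam * n.CD * (|c X| / ‖X‖ ^ 3 + N X / ‖X‖ ^ 2 +
        (|X 2| / ‖X‖ ^ 4 + Real.exp (-(n.a / 2) * ‖X‖)) * |F X|) +
      n.lam * (n.CD * |X 2| / ‖X‖ ^ 3 + n.CD * Real.exp (-(n.a / 2) * ‖X‖)) * P X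

theorem Ec_le (pr : Prm n) {F c P N : Pos3 → ℝ} {x : Pos3}
    (hx : x ∈ (HExt n.R 2 : Set Pos3)) (up : UpS n F c P N x) :
    Ec n F c P N x ≤
      srcE n.CD n.lam (1 / ‖x‖) (x 2) (xx n x) (n.bF x) (n.bP x) (n.bc x) (n.bN x) := by
  obtain ⟨u0, u1, zu, x0, x1⟩ := pr.el (HExt_sub _ hx)
  have hz : 0 < x 2 := hx.2
  have hl := pr.l0.le
  have hCD := pr.pos.CD
  unfold Ec srcE
  have e4 : n.CD * |x 2| / ‖x‖ ^ 3 = n.CD * (|x 2| * (1 / ‖x‖) ^ 3) := by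
    rw [div_pow_u, mul_assoc]
  rw [div_pow_u (|c x|), div_pow_u (N x), div_pow_u (|x 2|) x 4, neg_exp_eq, e4, abs_of_pos hz]
  change n.lam * n.CD * (_ + _ + (_ + xx n x) * _) + n.lam * (_ + n.CD * xx n x) * P x ≤ _
  have e1 : (1 / ‖x‖) ^ 3 ≤ (1 / ‖x‖) ^ 2 := pow_le_pow_of_le_one u0 u1 (by norm_num)
  have u2 : 0 ≤ (1 / ‖x‖) ^ 2 := by positivity
  have a1 : |c x| * (1 / ‖x‖) ^ 3 ≤ n.bc x * (1 / ‖x‖) ^ 2 :=
    mul_le_mul up.uc e1 (by positivity) ((abs_nonneg _).trans up.uc)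
  have a2 : N x * (1 / ‖x‖) ^ 2 ≤ n.bN x * (1 / ‖x‖) ^ 2 := mul_le_mul_of_nonneg_right up.uN u2
  have a3 : (x 2 * (1 / ‖x‖) ^ 4 + xx n x) * |F x| ≤ (x 2 * (1 / ‖x‖) ^ 4 + xx n x) * n.bF x :=
    mul_le_mul_of_nonneg_left up.uF (by positivity)
  have a4 : (x 2 * (1 / ‖x‖) ^ 3 + xx n x) * P x ≤ (x 2 * (1 / ‖x‖) ^ 3 + xx n x) * n.bP x :=
    mul_le_mul_of_nonneg_left up.uP (by positivity)
  have b1 := mul_le_mul_of_nonneg_left (add_le_add (add_le_add a1 a2) a3) (mul_nonneg hl hCD)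
  have b2 := mul_le_mul_of_nonneg_left a4 (mul_nonneg hl hCD)
  linarith

/-- pointwise subsolution inequality on `z > 0` -/
theorem point_c (pr : Prm n) {F c P N : Pos3 → ℝ} {x : Pos3}
    (hx : x ∈ (HExt n.R 2 : Set Pos3)) (up : UpS n F c P N x)
    (lf : n.Am / 2 * Ox n.D n.κ n.p (-1) x ≤ F x) :
    Lx n.D n.Q n.κS n.lc x ≤ n.lam * n.dS * (x 2 / ‖x‖ ^ 3) * F x - Ec n F c P N x := by
  have hE := Ec_le pr hx up
  rw [bF_eq pr hx, bP_eq pr hx, bc_eq, bN_eq] at hE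
  have hR : n.R < ‖x‖ := hx.1
  have hf2 := pr.far2 hx
  have hf := hf2.far
  have h0 : 0 < ‖x‖ := hf.rpos
  have hu0 : 0 ≤ 1 / ‖x‖ := by positivity
  have hu1 : 1 / ‖x‖ ≤ 1 / n.R := by
    have := pr.R1
    exact one_div_le_one_div_of_le (by linarith) hR.le
  have m : MPar n.κ n.Q n.p (-1) := pr.mp (Or.inr rfl)
  have mS : MPar n.κS n.Q n.pS (-1) := pr.mpS (Or.inr rfl)
  have hq := pr.q20
  have hαl : 0 ≤ n.αl := div_nonneg pr.dS0.le hq.le
  have main := Lc (x := xx n x) (pr.ptx hx) pr.pos (pr.SS0 hx) pr.h3 (dS := n.dS)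
    (k16 := n.κ / 16)
    (LSp := Lx n.D n.Q n.κS (Sx n.D n.κS n.pS (-1)) x)
    (LT := n.αl * Lx n.D n.Q n.κS (fun y => hz y * Ox n.D n.κ n.p (-1) y +
        n.βl * (ri 4 y * Sx n.D n.κ n.p (-1) y)) x) (an := n.an) (Am := n.Am)
    (Op := Ox n.D n.κ n.p (-1) x) (Sp := Sx n.D n.κ n.p (-1) x)
    (SSp := Sx n.D n.κS n.pS (-1) x) (CO := 4.8 * n.D) (G1 := n.αl * (n.q2 / 2))
    (G2 := n.αl * (0.35 * n.κ * n.D)) (F := F x) pr.an0.le pr.Am0.le pr.dS0.le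
    (Ox_nonneg m hf.reg) (Ox_comp m pr.m1 hf.reg (Em_sign hf.reg.rp))
    (by have := hf.Dpos; positivity) (Sx_sign hf.reg) (Sx_pos mS hf.reg).le (Sx_sign hf.reg)
    (by have := zuS_le m hf; rw [one_div]; exact this) lf ?_ ?_ pr.Lc1 (pr.Lc2 _ hu0 hu1)
    (pr.Lc3 _ hu0 hu1)
  · rw [Lx_lc pr (HExt_sub _ hx)]
    have e1 : n.lam * n.dS * (x 2 / ‖x‖ ^ 3) * F x =
        n.lam * n.dS * (x 2 * (1 / ‖x‖) ^ 3) * F x := by rw [div_pow_u]
    rw [e1]
    linarith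
  · have h1 := Lx_Sp_le mS hf
    have h2 : 0 ≤ (√‖x‖)⁻¹ ^ 3 * Sx n.D n.κS n.pS (-1) x :=
      mul_nonneg (by positivity) (Sx_pos mS hf.reg).le
    have h3 := pr.kk
    nlinarith
  · have hsq : (√n.q2) ^ 2 = n.q2 := Real.sq_sqrt hq.le
    have h1 := Lq_Tlow_le (q := √n.q2) m hf2 (Real.sqrt_pos.2 hq)
    have hT : Tlow n.D n.κ n.p (√n.q2) =
        fun y => hz y * Ox n.D n.κ n.p (-1) y + n.βl * (ri 4 y * Sx n.D n.κ n.p (-1) y) := by
      funext y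
      unfold Tlow Nu.βl
      rw [hsq]
    rw [hT, hsq] at h1
    have e1 : (n.κS ^ 2 - n.κ ^ 2) / 2 = n.q2 / 2 := rfl
    have h2 := mul_le_mul_of_nonneg_left h1 hαl
    rw [Lx_rate n.D n.Q n.κ n.κS, e1]
    refine h2.trans (le_of_eq ?_)
    rw [hz_eq, ri_eq]
    have hiff : (6 * x 2 ^ 2 * (1 / ‖x‖) ^ 2 ≤ 1) ↔ (6 * x 2 ^ 2 ≤ ‖x‖ ^ 2) := by
      rw [one_div, inv_pow, mul_inv_le_iff₀ (by positivity), one_mul]
    by_cases hc : 6 * x 2 ^ 2 ≤ ‖x‖ ^ 2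
    · rw [if_pos hc, if_pos (hiff.2 hc)]; ring
    · rw [if_neg hc, if_neg (fun h => hc (hiff.1 h))]; ring

theorem Lx_rfl (pr : Prm n) {κ' : ℝ} {b : Pos3 → ℝ} (hb : JL (ExtE n.R) b)
    (he : ∀ x, b (rfl' 2 x) = b x) {x : Pos3} (hx : x ∈ (ExtE n.R : Set Pos3)) :
    Lx n.D n.Q κ' b x = Lx n.D n.Q κ' b (rfl' 2 x) := by
  obtain ⟨G, L, hj, -, -⟩ := hb
  unfold Lx
  rw [← lap_even (isOpen_ExtE n.R) hj he (ExtE_symm n.R 2 x hx), he, V2_rfl]

/-- **lower bound of `c`** -/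
theorem low_c (pr : Prm n) {F c P N : Pos3 → ℝ} (h : SFn n F c P N)
    (up : ∀ᵐ x : Pos3, x ∈ (HExt n.R 2 : Set Pos3) → UpS n F c P N x)
    (lf : ∀ᵐ x : Pos3, x ∈ (HExt n.R 2 : Set Pos3) → n.Am / 2 * Ox n.D n.κ n.p (-1) x ≤ F x)
    (sh : ∀ᵐ x : Pos3, x ∈ (HExt n.R 2 : Set Pos3) → ‖x‖ < n.R + 1 → n.lc x ≤ c x) :
    ∀ᵐ x : Pos3, x ∈ (HExt n.R 2 : Set Pos3) → n.lc x ≤ c x := by
  obtain ⟨dc, sc, hc, ec, bsc⟩ := h.ec
  have hEo : IsOpen (ExtE n.R : Set Pos3) := isOpen_ExtE (ι := Fin 3) n.R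
  have hR0 : 0 < n.R := by linarith [pr.R1]
  have hJL := jl_lc pr
  obtain ⟨G, L, hj, hl2, hG2⟩ := jl_lc pr
  have hev : ∀ᵐ x : Pos3, x 2 ≠ 0 := by
    rw [ae_iff]; simpa using volume_coord_eq_zero (2 : Fin 3)
  have hmem : ∀ x : Pos3, x ∈ (ExtE n.R : Set Pos3) → x 2 < 0 →
      rfl' 2 x ∈ (HExt n.R 2 : Set Pos3) := fun x hx hz => by
    refine ⟨ExtE_symm n.R 2 x hx, ?_⟩
    show 0 < rfl' 2 x 2
    rw [z_rfl]; linarith
  -- the pointwise inequality on the whole exterior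
  have pt1 : ∀ᵐ x : Pos3, x ∈ (HExt n.R 2 : Set Pos3) →
      Lx n.D n.Q n.κS n.lc x ≤ n.lam * n.dS * (x 2 / ‖x‖ ^ 3) * F x - Ec n F c P N x := by
    filter_upwards [up, lf] with x h1 h2 hx
    exact point_c pr hx (h1 hx) (h2 hx)
  have pt2 : ∀ᵐ x : Pos3, x ∈ (ExtE n.R : Set Pos3) → Lx n.D n.Q n.κS n.lc x ≤ sc x := by
    have pt1' := ae_comp_rfl' 2 pt1
    filter_upwards [pt1, pt1', hev, h.oddF, h.evenc, h.evenP, h.evenN, bsc]
      with x h1 h2 h3 hF hcc hP hN hb hx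
    have hb1 := hb hx
    have key : Lx n.D n.Q n.κS n.lc x ≤
        n.lam * n.dS * (x 2 / ‖x‖ ^ 3) * F x - Ec n F c P N x := by
      rcases lt_or_gt_of_ne h3 with hz | hz
      · have h4 := h2 (hmem x hx hz)
        rw [← Lx_rfl pr hJL lc_rfl hx] at h4
        refine h4.trans (le_of_eq ?_)
        unfold Ec
        rw [hF, hcc, hP, hN, z_rfl, norm_rfl', abs_neg, abs_neg]
        ring
      · exact h1 ⟨hx, hz⟩
    have h5 := (abs_le.1 hb1).1
    have h6 : Ec n F c P N x = n.lam * n.CD * (|c x| / ‖x‖ ^ 3 + N x / ‖x‖ ^ 2 +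
        (|x 2| / ‖x‖ ^ 4 + Real.exp (-(n.a / 2) * ‖x‖)) * |F x|) +
      n.lam * (n.CD * |x 2| / ‖x‖ ^ 3 + n.CD * Real.exp (-(n.a / 2) * ‖x‖)) * P x := rfl
    linarith
  have hVM : ∀ x ∈ (ExtE n.R : Set Pos3), |mL n.D n.lam n.κS x| ≤ 1 := fun x hx => by
    have := pr.mLb pr.κS1 pr.κS2 hx
    rw [abs_of_nonneg (by linarith)]; exact this.2
  have hVm : AEMeasurable (mL n.D n.lam n.κS) (volume.restrict (ExtE n.R)) :=
    (mL_meas _ _ _).aemeasurable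
  have res := cp hEo hl2 (hc.memf.restrict _) hG2 (hc.memg.restrict _)
    (V := mL n.D n.lam n.κS) (c₀ := 4 / 10) (M := 1) (by norm_num) hVm ?_ ?_ ?_
    (H10.ep_ext hEo (hj.wg hEo) (hc.wg.mono (subset_univ _)) hl2 (hc.memf.restrict _) hG2
      (hc.memg.restrict _) one_pos ?_)
  · have hHE := HExt_sub n.R
    rw [ae_restrict_iff' hEo.measurableSet] at res
    filter_upwards [res] with x hx hxH using hx (hHE hxH)
  · filter_upwards [ae_restrict_mem hEo.measurableSet] with x hx using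
      (pr.mLb pr.κS1 pr.κS2 hx).1
  · filter_upwards [ae_restrict_mem hEo.measurableSet] with x hx using
      (pr.mLb pr.κS1 pr.κS2 hx).2
  · intro φ hφ hφ0
    have hφ2 : MemLp φ 2 (volume.restrict (ExtE n.R)) := (H1.of_test hφ).memf.restrict _
    have hVb : ∀ᵐ x ∂(volume.restrict (ExtE n.R : Set Pos3)), |mL n.D n.lam n.κS x| ≤ 1 := by
      filter_upwards [ae_restrict_mem hEo.measurableSet] with x hx using hVM x hx
    have hVl : MemLp (fun x => mL n.D n.lam n.κS x * n.lc x) 2 (volume.restrict (ExtE n.R)) :=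
      memLp_bdd_mul hVm hVb hl2
    have hVc : MemLp (fun x => mL n.D n.lam n.κS x * c x) 2 (volume.restrict (ExtE n.R)) :=
      memLp_bdd_mul hVm hVb (hc.memf.restrict _)
    have hz : ∀ k : Pos3 → ℝ, ∀ x, x ∉ (ExtE n.R : Set Pos3) → k x * φ x = 0 := fun k x hx => by
      rw [XL.eq_zero hφ hx, mul_zero]
    have e4 : ∫ x in ExtE n.R, inner ℝ (G x - dc x) (gr φ x) =
        (∫ x, inner ℝ (G x) (gr φ x)) - ∫ x, inner ℝ (dc x) (gr φ x) := by
      rw [← setInt_eq (U := ExtE n.R) (k := fun x => inner ℝ (G x) (gr φ x))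
        (fun x hx => inner_gr_zero hφ G x hx),
        ← setInt_eq (U := ExtE n.R) (k := fun x => inner ℝ (dc x) (gr φ x))
        (fun x hx => inner_gr_zero hφ dc x hx),
        ← integral_sub (int_inner_test hEo hG2 hφ) (int_inner_test hEo (hc.memg.restrict _) hφ)]
      refine integral_congr_ae (Eventually.of_forall fun x => ?_)
      exact inner_sub_left _ _ _
    have e5 : ∫ x in ExtE n.R, mL n.D n.lam n.κS x * (n.lc x - c x) * φ x =
        (∫ x, mL n.D n.lam n.κS x * n.lc x * φ x) - ∫ x, mL n.D n.lam n.κS x * c x * φ x := by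
      have j1 : Integrable (fun x => mL n.D n.lam n.κS x * n.lc x * φ x)
        (volume.restrict (ExtE n.R)) := hVl.integrable_mul hφ2
      have j2 : Integrable (fun x => mL n.D n.lam n.κS x * c x * φ x)
        (volume.restrict (ExtE n.R)) := hVc.integrable_mul hφ2
      rw [← setInt_eq (U := ExtE n.R) (hz fun x => mL n.D n.lam n.κS x * n.lc x),
        ← setInt_eq (U := ExtE n.R) (hz fun x => mL n.D n.lam n.κS x * c x),
        ← integral_sub j1 j2]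
      refine integral_congr_ae (Eventually.of_forall fun x => ?_)
      show mL n.D n.lam n.κS x * (n.lc x - c x) * φ x = mL n.D n.lam n.κS x * n.lc x * φ x -
        mL n.D n.lam n.κS x * c x * φ x
      ring
    have hloc : LocallyIntegrableOn (fun x => mL n.D n.lam n.κS x * n.lc x) (ExtE n.R)
        volume := by
      have := hVl.locallyIntegrable (by norm_num)
      exact locallyIntegrableOn_of_locallyIntegrable_restrict this
    have i1 := XL.integrable_mul_cpt hloc hφ.smooth.continuous hφ.cpt hφ.sub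
    have i2 := XL.integrable_mul_cpt (hj.locInt_lap hEo) hφ.smooth.continuous hφ.cpt hφ.sub
    have i3 := XL.integrable_mul_cpt ec.if' hφ.smooth.continuous hφ.cpt hφ.sub
    have e6 : (1 / 2) * (∫ x, inner ℝ (G x) (gr φ x)) + (∫ x, mL n.D n.lam n.κS x * n.lc x * φ x) ≤
        ∫ x, sc x * φ x := by
      rw [hj.ibp hEo hφ, mul_neg, ← neg_mul, ← integral_const_mul,
        ← integral_add (i2.const_mul _) i1]
      refine integral_mono_ae ((i2.const_mul _).add i1) i3 ?_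
      filter_upwards [pt2] with x hx
      by_cases hxE : x ∈ (ExtE n.R : Set Pos3)
      · have h1 := hx hxE
        have h2 : Lx n.D n.Q n.κS n.lc x = -(1 / 2) * L x + mL n.D n.lam n.κS x * n.lc x := by
          rw [← hj.lapl x hxE]
          exact (Lx_of_lap x).symm
        rw [h2] at h1
        have h3 := mul_le_mul_of_nonneg_right h1 (hφ0 x)
        change -(1 / 2) * (L x * φ x) + mL n.D n.lam n.κS x * n.lc x * φ x ≤ sc x * φ x
        linarith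
      · change -(1 / 2) * (L x * φ x) + mL n.D n.lam n.κS x * n.lc x * φ x ≤ sc x * φ x
        rw [XL.eq_zero hφ hxE]; simp
    have e7 := ec.eq φ hφ
    rw [e4, e5]
    linarith
  · have h1 := sh
    have h2 : ∀ᵐ x : Pos3, rfl' 2 x ∈ (HExt n.R 2 : Set Pos3) → ‖rfl' 2 x‖ < n.R + 1 →
        n.lc (rfl' 2 x) ≤ c (rfl' 2 x) := ae_comp_rfl' 2 h1
    filter_upwards [h1, h2, hev, h.evenc] with x h1 h2 h3 h4 hx hd
    have hxr : ‖x‖ < n.R + 1 := infDist_ExtE hR0.le hd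
    rcases lt_or_gt_of_ne h3 with hz | hz
    · have := h2 (hmem x hx hz) (by rw [norm_rfl']; exact hxr)
      rwa [h4, lc_rfl] at this
    · exact h1 ⟨hx, hz⟩ hxr

end Crest.Agent.R335.BR
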