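import Crest.Agent.R335.CmpW
import Crest.Agent.R335.HCut

/-!
Row 335 (S0521): cutting a function given outside a ball to a global `H¹` function, resp. to
`H¹₀` of the half space when it is odd (helper696).
-/

set_option autoImplicit false
set_option linter.unusedSectionVars false

open MeasureTheory Filter Set
open scoped ENNReal Topology ContDiff

noncomputable section
namespace Crest.Agent.R335
namespace OG

variable {ι : Type*} [Fintype ι] [DecidableEq ι]

local notation "E" => EuclideanSpace ℝ ι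

/-- radial smooth cutoff: `0` for `‖x‖ ≤ a`, `1` for `b ≤ ‖x‖` -/
def oc (a b : ℝ) (x : E) : ℝ := Real.smoothTransition ((‖x‖ ^ 2 - a ^ 2) / (b ^ 2 - a ^ 2))

theorem oc_contDiff (a b : ℝ) : ContDiff ℝ ∞ (oc a b : E → ℝ) :=
  Real.smoothTransition.contDiff.comp (((contDiff_norm_sq ℝ).sub contDiff_const).div_const _)

theorem oc_mem (a b : ℝ) (x : E) : oc a b x ∈ Icc (0 : ℝ) 1 :=
  ⟨Real.smoothTransition.nonneg _, Real.smoothTransition.le_one _⟩

theorem oc_rfl' (i : ι) (a b : ℝ) (x : E) : oc a b (rfl' i x) = oc a b x := by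
  unfold oc; rw [norm_rfl']

theorem oc_zero {a b : ℝ} (ha : 0 ≤ a) (hab : a < b) {x : E} (hx : ‖x‖ ≤ a) : oc a b x = 0 := by
  unfold oc
  refine Real.smoothTransition.zero_of_nonpos ?_
  have h1 : ‖x‖ ^ 2 ≤ a ^ 2 := pow_le_pow_left₀ (norm_nonneg _) hx 2
  have h2 : a ^ 2 < b ^ 2 := pow_lt_pow_left₀ hab ha two_ne_zero
  exact div_nonpos_of_nonpos_of_nonneg (by linarith) (by linarith)

theorem oc_one {a b : ℝ} (ha : 0 ≤ a) (hab : a < b) {x : E} (hx : b ≤ ‖x‖) : oc a b x = 1 := by
  unfold oc
  refine Real.smoothTransition.one_of_one_le ?_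
  have h1 : b ^ 2 ≤ ‖x‖ ^ 2 := pow_le_pow_left₀ (ha.trans hab.le) hx 2
  have h2 : a ^ 2 < b ^ 2 := pow_lt_pow_left₀ hab ha two_ne_zero
  rw [le_div_iff₀ (by linarith)]
  linarith

theorem gr_const_of_eventually {φ : E → ℝ} {c : ℝ} {x : E} (h : φ =ᶠ[𝓝 x] fun _ => c) :
    gr φ x = 0 := by
  ext i
  simp only [gr_apply, pd]
  rw [h.fderiv_eq]
  simp

theorem gr_oc_zero {a b : ℝ} (ha : 0 ≤ a) (hab : a < b) {x : E} (hx : ‖x‖ < a) :
    gr (oc a b) x = 0 := by
  refine gr_const_of_eventually (c := 0) ?_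
  filter_upwards [continuous_norm.isOpen_preimage _ isOpen_Iio |>.mem_nhds (show x ∈ _ from hx)]
    with y hy using oc_zero ha hab (le_of_lt hy)

theorem gr_oc_one {a b : ℝ} (ha : 0 ≤ a) (hab : a < b) {x : E} (hx : b < ‖x‖) :
    gr (oc a b) x = 0 := by
  refine gr_const_of_eventually (c := 1) ?_
  filter_upwards [continuous_norm.isOpen_preimage _ isOpen_Ioi |>.mem_nhds (show x ∈ _ from hx)]
    with y hy using oc_one ha hab (le_of_lt hy)

theorem gr_oc_bdd {a b : ℝ} (ha : 0 ≤ a) (hab : a < b) :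
    ∃ C : ℝ, 0 ≤ C ∧ ∀ x : E, ‖gr (oc a b) x‖ ≤ C := by
  have hc : Continuous (gr (oc a b : E → ℝ)) := continuous_gr ((oc_contDiff a b).of_le (by norm_cast))
  obtain ⟨C, hC⟩ := (isCompact_closedBall (0 : E) b).exists_bound_of_continuousOn hc.continuousOn
  refine ⟨max C 0, le_max_right _ _, fun x => ?_⟩
  by_cases hx : ‖x‖ ≤ b
  · exact (hC x (by rwa [mem_closedBall_zero_iff])).trans (le_max_left _ _)
  · rw [gr_oc_one ha hab (not_le.1 hx), norm_zero]
    exact le_max_right _ _

/-- a function given outside the ball of radius `r`, cut to a global `H¹` function which agrees with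
it outside the ball of radius `b` -/
theorem cut_H1 {r a b : ℝ} (hr : 0 ≤ r) (hra : r < a) (hab : a < b) {k : E → ℝ} {dk : E → E}
    (hk : WG (ExtE r) k dk) (k2 : MemLp k 2 (volume.restrict (ExtE r)))
    (dk2 : MemLp dk 2 (volume.restrict (ExtE r))) :
    H1 (fun x => oc a b x * k x) (fun x => oc a b x • dk x + k x • gr (oc a b) x) := by
  have ha : 0 ≤ a := hr.trans hra.le
  have hm : MeasurableSet (ExtE r : Set E) := (isOpen_ExtE r).measurableSet
  obtain ⟨C, hC0, hC⟩ := gr_oc_bdd (ι := ι) ha hab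
  have hout : ∀ x : E, x ∉ (ExtE r : Set E) → ‖x‖ < a := fun x hx => (not_lt.1 hx).trans_lt hra
  have e1 : (fun x : E => oc a b x * k x) =
      (ExtE r : Set E).indicator (fun x => oc a b x * k x) := by
    funext x
    by_cases hx : x ∈ (ExtE r : Set E)
    · rw [indicator_of_mem hx]
    · rw [indicator_of_notMem hx, oc_zero ha hab (hout x hx).le, zero_mul]
  have e2 : (fun x : E => oc a b x • dk x + k x • gr (oc a b) x) =
      (ExtE r : Set E).indicator (fun x => oc a b x • dk x + k x • gr (oc a b) x) := by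
    funext x
    by_cases hx : x ∈ (ExtE r : Set E)
    · rw [indicator_of_mem hx]
    · rw [indicator_of_notMem hx, oc_zero ha hab (hout x hx).le, gr_oc_zero ha hab (hout x hx),
        zero_smul, smul_zero, add_zero]
  have mo : AEStronglyMeasurable (oc a b : E → ℝ) (volume.restrict (ExtE r)) :=
    (oc_contDiff a b).continuous.aestronglyMeasurable
  have mg : AEStronglyMeasurable (gr (oc a b : E → ℝ)) (volume.restrict (ExtE r)) :=
    (continuous_gr ((oc_contDiff a b).of_le (by norm_cast))).aestronglyMeasurable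
  refine ⟨?_, ?_, ?_⟩
  · rw [e1, memLp_indicator_iff_restrict hm]
    refine k2.mono (mo.mul k2.aestronglyMeasurable) (Eventually.of_forall fun x => ?_)
    rw [norm_mul, Real.norm_eq_abs, abs_of_nonneg (oc_mem a b x).1]
    exact mul_le_of_le_one_left (norm_nonneg _) (oc_mem a b x).2
  · rw [e2, memLp_indicator_iff_restrict hm]
    refine MemLp.add ?_ ?_
    · refine dk2.mono (mo.smul dk2.aestronglyMeasurable) (Eventually.of_forall fun x => ?_)
      rw [norm_smul, Real.norm_eq_abs, abs_of_nonneg (oc_mem a b x).1]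
      exact mul_le_of_le_one_left (norm_nonneg _) (oc_mem a b x).2
    · refine (k2.const_mul C).mono (k2.aestronglyMeasurable.smul mg)
        (Eventually.of_forall fun x => ?_)
      rw [norm_smul, norm_mul, Real.norm_of_nonneg hC0, mul_comm]
      exact mul_le_mul_of_nonneg_right (hC x) (norm_nonneg _)
  · refine WG.of_local isOpen_univ fun x _ => ?_
    by_cases hx : r < ‖x‖
    · exact ⟨ExtE r, isOpen_ExtE r, hx, hk.mul_smooth (isOpen_ExtE r) (oc_contDiff a b)⟩
    · refine ⟨Metric.ball 0 a, Metric.isOpen_ball, ?_, ?_⟩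
      · rw [mem_ball_zero_iff]; exact (not_lt.1 hx).trans_lt hra
      · have h0 : WG (Metric.ball (0 : E) a) (fun _ => (0 : ℝ)) (fun _ => (0 : E)) := by
          have := WG.of_contDiffOn (Metric.isOpen_ball (x := (0 : E)) (ε := a))
            (f := fun _ => (0 : ℝ)) contDiffOn_const
          have e : gr (fun _ : E => (0 : ℝ)) = fun _ => (0 : E) := by
            funext y; exact gr_const_of_eventually (c := 0) (Eventually.of_forall fun _ => rfl)
          rwa [e] at this
        refine h0.congr Metric.isOpen_ball ?_ ?_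
        · filter_upwards [ae_restrict_mem Metric.isOpen_ball.measurableSet] with y hy
          rw [mem_ball_zero_iff] at hy
          rw [oc_zero ha hab hy.le, zero_mul]
        · filter_upwards [ae_restrict_mem Metric.isOpen_ball.measurableSet] with y hy
          rw [mem_ball_zero_iff] at hy
          rw [oc_zero ha hab hy.le, gr_oc_zero ha hab hy, zero_smul, smul_zero, add_zero]

/-- an odd function given outside a ball, cut to the half space -/
theorem cut_H10 (i : ι) {r a b : ℝ} (hr : 0 ≤ r) (hra : r < a) (hab : a < b) {k : E → ℝ}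
    {dk : E → E} (hk : WG (ExtE r) k dk) (k2 : MemLp k 2 (volume.restrict (ExtE r)))
    (dk2 : MemLp dk 2 (volume.restrict (ExtE r)))
    (odd : ∀ᵐ x : E, x ∈ (ExtE r : Set E) → k (rfl' i x) = - k x) :
    H10 {x : E | 0 < x i} (fun x => if 0 < x i then oc a b x * k x else 0)
      (fun x => if 0 < x i then oc a b x • dk x + k x • gr (oc a b) x else 0) := by
  refine H10.half_of_odd i (cut_H1 hr hra hab hk k2 dk2) ?_
  filter_upwards [odd] with x hx
  by_cases h : x ∈ (ExtE r : Set E)
  · rw [oc_rfl', hx h]; ring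
  · have h1 : ‖x‖ ≤ a := (not_lt.1 h).trans hra.le
    have h2 : ‖rfl' i x‖ ≤ a := by rwa [norm_rfl']
    rw [oc_zero (hr.trans hra.le) hab h1, oc_zero (hr.trans hra.le) hab h2]
    ring

end OG
end Crest.Agent.R335
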