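import Crest.Agent.R335.BRDefs
import Crest.Agent.R335.BRGen
import Crest.Agent.R335.BRL2
import Crest.Agent.R335.BRJL
import Crest.Agent.R335.OGCut

/-!
Row 335 (S0521), Part B sections 4-7 (note 10383), singlet sector: the lower bound of `F`
(`BR.low_F`, module of the plan `BRPlan`), helper357.
-/

set_option autoImplicit false
set_option linter.unusedSectionVars false
set_option linter.unusedVariables false

open MeasureTheory Filter Set Crest.MathPhysics.ThreeBody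
open scoped ENNReal Topology ContDiff

noncomputable section
namespace Crest.Agent.R335.BR
open Crest.Agent.R335
namespace LFw

/-! ### parameters -/

theorem mpar {n : Nu} (pr : Prm n) {σ : ℝ} (hσ : σ = 1 ∨ σ = -1) : MPar n.κ n.Q n.p σ := by
  have h0 : n.κ ≠ 0 := by have := pr.κ1; linarith
  have hl0 := pr.l0
  have hl1 := pr.l1
  have hk1 := pr.κ1
  have hk2 := pr.κ2
  refine ⟨by linarith, by linarith, ?_, ?_, ?_, hσ⟩
  · unfold Nu.Q; linarith
  · unfold Nu.Q; linarith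
  · unfold Nu.p; field_simp; ring

theorem mparS {n : Nu} (pr : Prm n) {σ : ℝ} (hσ : σ = 1 ∨ σ = -1) : MPar n.κS n.Q n.pS σ := by
  have h0 : n.κS ≠ 0 := by have := pr.κS1; linarith
  have hl0 := pr.l0
  have hl1 := pr.l1
  have hk1 := pr.κS1
  have hk2 := pr.κS2
  refine ⟨by linarith, by linarith, ?_, ?_, ?_, hσ⟩
  · unfold Nu.Q; linarith
  · unfold Nu.Q; linarith
  · unfold Nu.pS; field_simp; ring

theorem a_pos {n : Nu} (pr : Prm n) : 0 < n.a := by
  have := pr.om0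
  unfold Nu.a
  positivity

theorem a_le {n : Nu} (pr : Prm n) : n.a ≤ 1 / 8000 := by
  have := pr.om1
  unfold Nu.a
  linarith

theorem R_ge {n : Nu} (pr : Prm n) : 10 ^ 7 ≤ n.R := by
  have h1 := pr.r0
  have h2 := pr.D1
  have h3 : 1 ≤ n.D ^ 2 := one_le_pow₀ h2
  linarith

theorem RD_ge {n : Nu} (pr : Prm n) : n.D + 102 ≤ n.R := by
  have h1 := pr.r0
  have h2 := pr.D1
  have h3 : n.D ≤ n.D ^ 2 := by nlinarith
  nlinarith

theorem far {n : Nu} (pr : Prm n) {x : Pos3} (hx : x ∈ (HExt n.R 2 : Set Pos3)) : XFar n.D x := by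
  have h1 := pr.r0
  have h2 : n.R < ‖x‖ := hx.1
  have h3 : 0 < x 2 := hx.2
  refine ⟨pr.D1, h3.le, ?_⟩
  have h4 : 0 ≤ n.D ^ 2 := sq_nonneg _
  linarith

theorem pt {n : Nu} (pr : Prm n) {x : Pos3} (hx : x ∈ (HExt n.R 2 : Set Pos3)) :
    Pt (1 / ‖x‖) ((√‖x‖)⁻¹ ^ 3) (x 2) (Ox n.D n.κ n.p 1 x) (Sx n.D n.κ n.p 1 x) (Bz n.k x)
      (exr n.k x) (Real.exp (-(n.a / 2 * ‖x‖))) (Real.exp (-((n.κ + n.a / 4) * ‖x‖))) :=
  pr.pt n.κ n.Q n.p (mpar pr (Or.inl rfl)) x (le_of_lt hx.1) hx.2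

theorem rfl'_nuc (D : ℝ) : rfl' 2 (nuc D) = nuc (-D) := by
  ext i
  rw [rfl'_apply]
  by_cases hi : i = 2
  · subst hi; simp [XT.nuc_two]
  · rw [if_neg hi, XT.nuc_ne hi, XT.nuc_ne hi]

theorem norm_rfl'_sub (x : Pos3) (D : ℝ) : ‖rfl' 2 x - nuc D‖ = ‖x - nuc (-D)‖ := by
  have h : rfl' 2 x - nuc D = rfl' 2 (x - nuc (-D)) := by
    rw [rfl'_sub, rfl'_nuc, neg_neg]
  rw [h, norm_rfl']

theorem Ox_odd (D κ p σ : ℝ) (x : Pos3) : Ox D κ p σ (rfl' 2 x) = - Ox D κ p σ x := by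
  unfold Ox
  rw [norm_rfl'_sub, norm_rfl'_sub, neg_neg]
  ring

/-! ### the barriers as functions of `1/r`, ... -/

theorem ri_eq (m : ℕ) (x : Pos3) : ri m x = (1 / ‖x‖) ^ m := by
  unfold ri
  rw [one_div, inv_pow]

theorem bF_eq {n : Nu} (pr : Prm n) {x : Pos3} (hx : x ∈ (HExt n.R 2 : Set Pos3)) :
    n.bF x = bF n.A n.K n.lam (Ox n.D n.κ n.p 1 x) (Bz n.k x) := by
  have hO := (pt pr hx).O0
  have hz : 0 < x 2 := hx.2
  unfold Nu.bF bF Bz fz
  rw [abs_of_nonneg hO, abs_of_pos hz]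

theorem bP_eq {n : Nu} (pr : Prm n) {x : Pos3} (hx : x ∈ (HExt n.R 2 : Set Pos3)) :
    n.bP x = bP n.A n.K1 n.lam (1 / ‖x‖) (Ox n.D n.κ n.p 1 x) (Bz n.k x) := by
  have hO := (pt pr hx).O0
  have hz : 0 < x 2 := hx.2
  unfold Nu.bP bP Bz fz
  rw [abs_of_nonneg hO, abs_of_pos hz, ri_eq]

theorem bc_eq (n : Nu) (x : Pos3) :
    n.bc x = bc n.A n.Ac n.α n.β n.lam (1 / ‖x‖) (x 2) (Ox n.D n.κ n.p 1 x) (Sx n.D n.κ n.p 1 x)
      (Sx n.D n.κS n.pS 1 x) := by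
  unfold Nu.bc bc Tv hz
  rw [ri_eq, ri_eq]
  ring

theorem bN_eq (n : Nu) (x : Pos3) :
    n.bN x = bN n.A n.Ac n.α n.β n.γ n.K2 n.K3 n.lam (1 / ‖x‖) (x 2) (Ox n.D n.κ n.p 1 x)
      (Sx n.D n.κ n.p 1 x) (Sx n.D n.κS n.pS 1 x) (exr n.k x) := by
  unfold Nu.bN bN
  rw [bc_eq]
  unfold Tv hz
  rw [ri_eq, ri_eq, ri_eq]
  ring

theorem κ_le {n : Nu} (pr : Prm n) : n.κ ≤ n.κS := by
  have h1 := pr.q2lo
  have h2 := pr.om0
  have h3 := pr.κ1
  have h4 := pr.κS1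
  unfold Nu.q2 at h1
  nlinarith

theorem SS_le {n : Nu} (pr : Prm n) {x : Pos3} (hx : x ∈ (HExt n.R 2 : Set Pos3)) :
    Sx n.D n.κS n.pS 1 x ≤ Sx n.D n.κ n.p 1 x :=
  BR.Sx_mono (mpar pr (Or.inl rfl)) (mparS pr (Or.inl rfl)) (κ_le pr) (far pr hx).reg

theorem SS0 {n : Nu} (pr : Prm n) {x : Pos3} (hx : x ∈ (HExt n.R 2 : Set Pos3)) :
    0 ≤ Sx n.D n.κS n.pS 1 x := (Sx_pos (mparS pr (Or.inl rfl)) (far pr hx).reg).le

/-- `O^- ≤ 4.8 D O^+` -/
theorem OOp {n : Nu} (pr : Prm n) {x : Pos3} (hx : x ∈ (HExt n.R 2 : Set Pos3)) :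
    Ox n.D n.κ n.p 1 x ≤ 4.8 * n.D * Ox n.D n.κ n.p (-1) x :=
  Ox_comp (mpar pr (Or.inr rfl)) (mpar pr (Or.inl rfl)) (far pr hx).reg
    (Em_sign (far pr hx).reg.rp)

/-- the source of the equation of `F` -/
theorem src_le {n : Nu} (pr : Prm n) {F c P N : Pos3 → ℝ} {x : Pos3}
    (hx : x ∈ (HExt n.R 2 : Set Pos3)) (up : UpS n F c P N x) (P0 : 0 ≤ P x) (N0 : 0 ≤ N x)
    {s : ℝ} (hs : |s| ≤ n.lam * n.CD * (|F x| / ‖x‖ ^ 3 + P x / ‖x‖ ^ 2 +
      (|x 2| / ‖x‖ ^ 3 + Real.exp (-(n.a / 2) * ‖x‖)) * (|c x| + N x))) :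
    |s| ≤ srcF n.CD n.lam (1 / ‖x‖) (x 2) (Real.exp (-(n.a / 2 * ‖x‖))) (n.bF x) (n.bP x)
      (n.bc x) (n.bN x) := by
  have h := pt pr hx
  have hz : 0 < x 2 := hx.2
  have hr := (far pr hx).rpos
  obtain ⟨u, hu⟩ : ∃ u, u = 1 / ‖x‖ := ⟨_, rfl⟩
  have e3 : ∀ t : ℝ, t / ‖x‖ ^ 3 = u ^ 3 * t := fun t => by rw [hu]; field_simp
  have e2 : ∀ t : ℝ, t / ‖x‖ ^ 2 = u ^ 2 * t := fun t => by rw [hu]; field_simp
  rw [← hu] at h
  rw [neg_mul, e3, e2, e3, abs_of_pos hz] at hs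
  rw [← hu]
  obtain ⟨xx, hxx⟩ : ∃ xx, xx = Real.exp (-(n.a / 2 * ‖x‖)) := ⟨_, rfl⟩
  rw [← hxx] at h hs ⊢
  refine hs.trans ?_
  unfold srcF
  have hlC : 0 ≤ n.lam * n.CD := mul_nonneg pr.pos.l pr.pos.CD
  have u0 := h.u0
  have u1 := h.u1
  have a1 : u ^ 3 * |F x| ≤ u ^ 2 * n.bF x := by
    have b1 : u ^ 3 ≤ u ^ 2 := h.upow (by norm_num)
    exact mul_le_mul b1 up.uF (abs_nonneg _) (h.unn 2)
  have a2 : u ^ 2 * P x ≤ u ^ 2 * n.bP x := mul_le_mul_of_nonneg_left up.uP (h.unn 2)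
  have a3 : (u ^ 3 * x 2 + xx) * (|c x| + N x) ≤ (u ^ 3 * x 2 + xx) * (n.bc x + n.bN x) :=
    mul_le_mul_of_nonneg_left (add_le_add up.uc up.uN)
      (add_nonneg (mul_nonneg (h.unn 3) h.z0.le) h.x0)
  have a4 := mul_le_mul_of_nonneg_left (add_le_add (add_le_add a1 a2) a3) hlC
  refine a4.trans (le_of_eq ?_)
  ring

/-- the pointwise inequality -/
theorem point {n : Nu} (pr : Prm n) {F c P N : Pos3 → ℝ} {x : Pos3}
    (hx : x ∈ (HExt n.R 2 : Set Pos3)) (up : UpS n F c P N x) (P0 : 0 ≤ P x) (N0 : 0 ≤ N x)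
    {s : ℝ} (hs : |s| ≤ n.lam * n.CD * (|F x| / ‖x‖ ^ 3 + P x / ‖x‖ ^ 2 +
      (|x 2| / ‖x‖ ^ 3 + Real.exp (-(n.a / 2) * ‖x‖)) * (|c x| + N x))) :
    n.Am * Lx n.D n.Q n.κ (Ox n.D n.κ n.p (-1)) x - n.K * n.lam * Lx n.D n.Q n.κ (Bz n.k) x +
      |s| ≤ 0 := by
  have h1 := src_le pr hx up P0 N0 hs
  rw [bF_eq pr hx, bP_eq pr hx, bc_eq, bN_eq] at h1
  have hp := pt pr hx
  have hf := far pr hx
  have hr := hf.rpos
  have hM := mpar pr (σ := -1) (Or.inr rfl)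
  have hM1 := mpar pr (σ := 1) (Or.inl rfl)
  have ha := a_pos pr
  have ha1 := a_le pr
  have hra : 30 ≤ n.a * ‖x‖ := pr.ra.trans (mul_le_mul_of_nonneg_left (le_of_lt hx.1) ha.le)
  have hD := pr.D1
  have h2 := BR.LF hp pr.pos (SS_le pr hx) pr.h1 pr.h2 pr.h3 (k16 := n.κ / 16)
    (LOp := Lx n.D n.Q n.κ (Ox n.D n.κ n.p (-1)) x) (LB := Lx n.D n.Q n.κ (Bz n.k) x)
    (ez := Real.exp (-(x 2))) (ka := n.κ * n.a / 4) (Am := n.Am) (Op := Ox n.D n.κ n.p (-1) x)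
    (CO := 4.8 * n.D) pr.Am0.le (Ox_nonneg hM hf.reg) (OOp pr hx) (by positivity)
    (by
      have := Lx_Op_le hM hf
      linarith)
    (by
      exact Lx_Bz_ge hM.k1 hM.k2 (by linarith [hM.q1]) hM.q2 ha (by linarith) hf hra)
    (Real.exp_pos _).le
    (fun hz => by
      have h3 : Real.exp (-1) ≤ Real.exp (-(x 2)) := Real.exp_le_exp.2 (by linarith)
      have h4 := Real.exp_neg_one_gt_d9
      norm_num at h4
      linarith)
    (by have := hM.kpos; positivity)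
    (by
      have h3 : n.κ * n.a ≤ 1.1 * (1 / 8000) := mul_le_mul hM.k2 ha1 ha.le (by norm_num)
      linarith)
    pr.LF1 pr.F2
  linarith

/-! ### weak form -/

theorem wle_neg {U : Set Pos3} {s m f : Pos3 → ℝ} {ds : Pos3 → Pos3} (h : WEq U s ds m f) :
    WLe U (fun x => - s x) (fun x => - ds x) m (fun x => - f x) := by
  refine ⟨?_, h.if'.neg, fun φ hφ _ => ?_⟩
  · have h1 := h.ims.neg
    refine h1.congr (Eventually.of_forall fun x => ?_)
    show -(m x * s x) = m x * - s x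
    ring
  · have h1 := h.eq φ hφ
    simp only [inner_neg_left, mul_neg, neg_mul, integral_neg]
    linarith

theorem measurable_V2 (D : ℝ) : Measurable (V2 D) := by
  unfold V2
  fun_prop

theorem mL_meas (D lam κ : ℝ) : Measurable (mL D lam κ) :=
  ((measurable_V2 D).const_mul _).const_add _

/-- bounds of the potential -/
theorem mL_bd {n : Nu} (pr : Prm n) {x : Pos3} (hx : x ∈ (HExt n.R 2 : Set Pos3)) :
    2 / 5 ≤ mL n.D n.lam n.κ x ∧ mL n.D n.lam n.κ x ≤ 1 := by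
  have hf := far pr hx
  obtain ⟨h1, h2⟩ := hf.V2_ge
  have h3 : 2.03 / ‖x‖ ≤ 1 / 1000 := by
    rw [div_le_div_iff₀ hf.rpos (by norm_num)]
    linarith [hf.r0]
  have hk1 := pr.κ1
  have hk2 := pr.κ2
  have hl0 := pr.l0
  have hl1 := pr.l1
  have h4 : 0.81 ≤ n.κ ^ 2 := by nlinarith
  have h5 : n.κ ^ 2 ≤ 1.21 := by nlinarith
  unfold mL
  generalize V2 n.D x = v at *
  constructor
  · nlinarith
  · nlinarith

end LFw

/-- lower bound of `F` -/
theorem low_F {n : Nu} (pr : Prm n) {F c P N : Pos3 → ℝ} (h : SFn n F c P N)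
    (up : ∀ᵐ x : Pos3, x ∈ (HExt n.R 2 : Set Pos3) → UpS n F c P N x)
    (sh : ∀ᵐ x : Pos3, x ∈ (HExt n.R 2 : Set Pos3) → ‖x‖ < n.R + 1 →
      n.Am * Ox n.D n.κ n.p (-1) x ≤ F x) :
    ∀ᵐ x : Pos3, x ∈ (HExt n.R 2 : Set Pos3) →
      n.Am * Ox n.D n.κ n.p (-1) x - n.K * n.lam * Bz n.k x ≤ F x ∧
      n.Am / 2 * Ox n.D n.κ n.p (-1) x ≤ F x := by
  obtain ⟨d, src, hF, hE, hsrc⟩ := h.eF
  have hM := LFw.mpar pr (σ := -1) (Or.inr rfl)
  have hR7 := LFw.R_ge pr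
  have hRD := LFw.RD_ge pr
  have ha := LFw.a_pos pr
  have hD := pr.D1
  have hR0 : 0 < n.R := by linarith
  have hk : 1 / 2 ≤ n.k := by
    have := hM.k1
    unfold Nu.k
    linarith
  have hHo : IsOpen (HExt n.R 2 : Set Pos3) := isOpen_HExt n.R 2
  have hHE : (HExt n.R 2 : Set Pos3) ⊆ ExtE n.R := inter_subset_left
  have hHP : (HExt n.R 2 : Set Pos3) ⊆ {x | 0 < x 2} := inter_subset_right
  have hKl : 0 ≤ n.K * n.lam := mul_nonneg pr.pos.K pr.pos.l
  -- jets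
  have hUc : ∀ R', n.D + 100 ≤ R' → (ExtE R' : Set Pos3) ⊆ XT.Uc n.D := fun R' hR' x hx => by
    have hx' : R' < ‖x‖ := hx
    constructor
    · rintro rfl
      rw [XT.norm_nuc, abs_of_nonneg (by linarith)] at hx'
      linarith
    · rintro rfl
      rw [XT.norm_nuc, abs_neg, abs_of_nonneg (by linarith)] at hx'
      linarith
  have h0 : (HExt n.R 2 : Set Pos3) ⊆ {x : Pos3 | x ≠ 0} := fun x hx hx0 => by
    have hx' : n.R < ‖x‖ := hx.1
    rw [hx0, norm_zero] at hx'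
    linarith
  have jO : Jet (HExt n.R 2) (Ox n.D n.κ n.p (-1)) (gOx n.D n.κ n.p (-1))
      (lOx n.D n.κ n.p (-1)) := (Ox_jet n.D n.κ n.p (-1)).mono (hHE.trans (hUc n.R (by linarith)))
  have jB := (Bz_jet n.k).mono h0
  have jb := (jB.const_mul hHo (n.K * n.lam)).sub hHo (jO.const_mul hHo n.Am)
  -- memberships
  have mO := ((BL.dec_Ox hM hD (R := n.R) (by linarith)).mono hHE).memLpH
  have mgO := ((BL.dec_gOx hM hD (R := n.R) (by linarith)).mono hHE).memLpH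
  have mB := (BL.dec_Bz_HExt n.R hk).1.memLpH
  have mgB := (BL.dec_Bz_HExt n.R hk).2.memLpH
  have mF : MemLp F 2 (volume.restrict (HExt n.R 2 : Set Pos3)) := hF.memf.restrict _
  have md : MemLp d 2 (volume.restrict (HExt n.R 2 : Set Pos3)) := hF.memg.restrict _
  have hVm : AEMeasurable (mL n.D n.lam n.κ) (volume.restrict (HExt n.R 2 : Set Pos3)) :=
    (LFw.mL_meas _ _ _).aemeasurable
  have hVbd : ∀ᵐ x ∂(volume.restrict (HExt n.R 2 : Set Pos3)),
      2 / 5 ≤ mL n.D n.lam n.κ x ∧ mL n.D n.lam n.κ x ≤ 1 := by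
    filter_upwards [ae_restrict_mem hHo.measurableSet] with x hx using LFw.mL_bd pr hx
  -- the comparison
  have key := cp hHo (s := fun x => n.Am * Ox n.D n.κ n.p (-1) x - F x)
    (b := fun x => n.K * n.lam * Bz n.k x)
    (ds := fun x => n.Am • gOx n.D n.κ n.p (-1) x - d x)
    (db := fun x => (n.K * n.lam) • (exr n.k x • (Real.exp (-(x 2)) • e3v) +
      fz x • ((-(n.k * exr n.k x / ‖x‖)) • x)))
    ((mO.const_mul n.Am).sub mF) (mB.const_mul (n.K * n.lam)) ((mgO.const_smul n.Am).sub md)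
    (mgB.const_smul (n.K * n.lam)) (V := mL n.D n.lam n.κ) (c₀ := 2 / 5) (M := 1) (by norm_num)
    hVm (hVbd.mono fun x hx => hx.1) (hVbd.mono fun x hx => hx.2) ?_ ?_
  · rw [ae_restrict_iff' hHo.measurableSet] at key
    filter_upwards [key] with x hx hxH
    have h1 : n.Am * Ox n.D n.κ n.p (-1) x - F x ≤ n.K * n.lam * Bz n.k x := hx hxH
    refine ⟨by linarith, ?_⟩
    have hp := LFw.pt pr hxH
    have h2 := mul_le_mul_of_nonneg_left (hp.BO.trans (LFw.OOp pr hxH)) hKl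
    have h3 := mul_le_mul_of_nonneg_right pr.LF2 (Ox_nonneg hM (LFw.far pr hxH).reg)
    linarith
  · -- weak inequality
    intro φ hφ hφ0
    have h1 := diff_ineq (S := Empty) hHo (f := fun x => - F x) (df := fun x => - d x)
      (b := fun x => n.K * n.lam * Bz n.k x - n.Am * Ox n.D n.κ n.p (-1) x)
      (G := fun x => (n.K * n.lam) • (exr n.k x • (Real.exp (-(x 2)) • e3v) +
        fz x • ((-(n.k * exr n.k x / ‖x‖)) • x)) - n.Am • gOx n.D n.κ n.p (-1) x)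
      (C := 1) mF.neg ((mB.const_mul (n.K * n.lam)).sub (mO.const_mul n.Am)) md.neg
      ((mgB.const_smul (n.K * n.lam)).sub (mgO.const_smul n.Am)) (w := fun e => e.elim)
      (v := fun e => e.elim) (m := fun e => e.elim) (fun e => e.elim) (fun e => e.elim) jb
      (V := mL n.D n.lam n.κ) (s := fun x => - src x) (h := fun x => - src x) hVm
      (hVbd.mono fun x hx => by rw [abs_of_nonneg (by linarith [hx.1])]; exact hx.2)
      (fun e => e.elim) (fun e => e.elim)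
      ((hE.if'.neg).mono_set hHE) (WLe.mono' hHo hHE (LFw.wle_neg hE))
      (Eventually.of_forall fun x _ => by simp) ?_ hφ hφ0
    · simp only [Finset.univ_eq_empty, Finset.sum_empty] at h1
      refine le_trans (le_of_eq ?_) h1
      congr 1
      · congr 1
        refine integral_congr_ae (Eventually.of_forall fun x => ?_)
        have hab : ∀ a b c : Pos3, a - b - c = -b - (c - a) := fun a b c => by abel
        exact congrArg (fun v => inner ℝ v (gr φ x)) (hab _ _ _)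
      · refine integral_congr_ae (Eventually.of_forall fun x => ?_)
        show mL n.D n.lam n.κ x * (n.Am * Ox n.D n.κ n.p (-1) x - F x -
          n.K * n.lam * Bz n.k x) * φ x = mL n.D n.lam n.κ x * (-F x - (n.K * n.lam * Bz n.k x -
            n.Am * Ox n.D n.κ n.p (-1) x)) * φ x
        ring
    · filter_upwards [up, hsrc] with x hux hsx hx
      have h2 := LFw.point pr hx (hux hx) (h.P0 x) (h.N0 x) (hsx hx.1)
      have h3 : Lx n.D n.Q n.κ (Bz n.k) x = -(1 / 2) * (exr n.k x * (-Real.exp (-(x 2))) +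
          2 * inner ℝ ((-(n.k * exr n.k x / ‖x‖)) • x) (Real.exp (-(x 2)) • e3v) +
          fz x * ((n.k ^ 2 - 2 * n.k / ‖x‖) * exr n.k x)) +
          mL n.D n.lam n.κ x * Bz n.k x := by
        rw [← jB.lapl x hx, Lx_of_lap]
        rfl
      have h4 : Lx n.D n.Q n.κ (Ox n.D n.κ n.p (-1)) x = -(1 / 2) * lOx n.D n.κ n.p (-1) x +
          mL n.D n.lam n.κ x * Ox n.D n.κ n.p (-1) x := by
        rw [← jO.lapl x hx, Lx_of_lap]
        rfl
      have h5 := neg_abs_le (src x)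
      simp only [Finset.univ_eq_empty, Finset.sum_empty, zero_add]
      rw [h3, h4] at h2
      linarith
  · -- the test function
    have hW : IsOpen (ExtE (n.R - 2) : Set Pos3) := isOpen_ExtE _
    have jW : Jet (ExtE (n.R - 2)) (Ox n.D n.κ n.p (-1)) (gOx n.D n.κ n.p (-1))
        (lOx n.D n.κ n.p (-1)) := (Ox_jet n.D n.κ n.p (-1)).mono (hUc (n.R - 2) (by linarith))
    have wO := (BL.dec_Ox hM hD (R := n.R - 2) (by linarith)).memLpE
    have wgO := (BL.dec_gOx hM hD (R := n.R - 2) (by linarith)).memLpE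
    have hc1 := OG.cut_H1 (r := n.R - 2) (a := n.R - 1) (b := n.R) (by linarith) (by linarith)
      (by linarith) ((jW.const_mul hW n.Am).wg hW) (wO.const_mul n.Am) (wgO.const_smul n.Am)
    have hodd : ∀ᵐ x : Pos3, (OG.oc (n.R - 1) n.R (rfl' 2 x) *
        (n.Am * Ox n.D n.κ n.p (-1) (rfl' 2 x)) - F (rfl' 2 x)) =
        -(OG.oc (n.R - 1) n.R x * (n.Am * Ox n.D n.κ n.p (-1) x) - F x) := by
      filter_upwards [h.oddF] with x hx
      rw [hx, LFw.Ox_odd, OG.oc_rfl']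
      ring
    have hs1 := H10.half_of_odd 2 (hc1.sub hF) hodd
    have he := H10.ep_half (isOpen_half 2) hHo hHP hs1 ((jB.const_mul hHo (n.K * n.lam)).wg hHo)
      (mB.const_mul (n.K * n.lam)) (mgB.const_smul (n.K * n.lam))
      (Eventually.of_forall fun x hx => mul_nonneg hKl (LFw.pt pr hx).B0) (δ := 1) one_pos (by
        filter_upwards [sh] with x hx hxH hd
        have h1 := hx hxH (infDist_HExt hR0 2 hd)
        have h2 : 0 < x 2 := hxH.2
        have h3 : n.R ≤ ‖x‖ := le_of_lt hxH.1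
        simp only [h2, if_true]
        rw [OG.oc_one (by linarith) (by linarith) h3, one_mul]
        have h4 := mul_nonneg hKl (LFw.pt pr hxH).B0
        linarith)
    have e0 : ∀ x ∈ (HExt n.R 2 : Set Pos3), OG.oc (n.R - 1) n.R x = 1 := fun x hx =>
      OG.oc_one (by linarith) (by linarith) (le_of_lt hx.1)
    have e0' : ∀ x ∈ (HExt n.R 2 : Set Pos3), gr (OG.oc (n.R - 1) n.R) x = 0 := fun x hx =>
      OG.gr_oc_one (by linarith) (by linarith) hx.1
    have e1 : ∀ x ∈ (HExt n.R 2 : Set Pos3), (if 0 < x 2 then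
        OG.oc (n.R - 1) n.R x * (n.Am * Ox n.D n.κ n.p (-1) x) - F x else 0) =
        n.Am * Ox n.D n.κ n.p (-1) x - F x := fun x hx => by
      rw [if_pos (show 0 < x 2 from hx.2), e0 x hx, one_mul]
    have e2 : ∀ x ∈ (HExt n.R 2 : Set Pos3), (if 0 < x 2 then
        (OG.oc (n.R - 1) n.R x • (n.Am • gOx n.D n.κ n.p (-1) x) +
          (n.Am * Ox n.D n.κ n.p (-1) x) • gr (OG.oc (n.R - 1) n.R) x) - d x else 0) =
        n.Am • gOx n.D n.κ n.p (-1) x - d x := fun x hx => by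
      rw [if_pos (show 0 < x 2 from hx.2), e0 x hx, e0' x hx, one_smul, smul_zero, add_zero]
    refine he.congr (Eventually.of_forall fun x => ?_) (Eventually.of_forall fun x => ?_)
    · by_cases hx : x ∈ (HExt n.R 2 : Set Pos3)
      · rw [indicator_of_mem hx, indicator_of_mem hx]
        simp only [ep, e1 x hx]
      · rw [indicator_of_notMem hx, indicator_of_notMem hx]
    · by_cases hx : x ∈ (HExt n.R 2 : Set Pos3)
      · rw [indicator_of_mem hx, indicator_of_mem hx]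
        simp only [dep, e1 x hx, e2 x hx]
      · rw [indicator_of_notMem hx, indicator_of_notMem hx]

end Crest.Agent.R335.BR
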