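import Crest.Agent.R335.HSlice
import Crest.Agent.R335.HChain
import Crest.Agent.R335.HGlob2

/-!
Row 335 (S0521): Sobolev library, partial norms (module HNorm, part 1).
-/

set_option autoImplicit false
set_option linter.unusedSectionVars false

open MeasureTheory Filter Set
open scoped ENNReal Topology ContDiff

noncomputable section
namespace Crest.Agent.R335

variable {ι κ κ' : Type*} [Fintype ι] [DecidableEq ι] [Fintype κ] [DecidableEq κ]
  [Fintype κ'] [DecidableEq κ'] {S : Type*} [Fintype S]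

local notation "E" => EuclideanSpace ℝ ι

/-- square of the partial norm -/
def HN.q (p : ι ≃ κ ⊕ κ') (f : S → E → ℝ) (x : EuclideanSpace ℝ κ) : ℝ :=
  ∑ s, ∫ y, f s (jn p x y) ^ 2

/-- half of the gradient of `q` -/
def HN.V (p : ι ≃ κ ⊕ κ') (f : S → E → ℝ) (g : S → E → E) (x : EuclideanSpace ℝ κ) :
    EuclideanSpace ℝ κ :=
  ∑ s, ∫ y, f s (jn p x y) • pr1 p (g s (jn p x y))

/-- partial gradient energy in the first group -/
def HN.T (p : ι ≃ κ ⊕ κ') (g : S → E → E) (x : EuclideanSpace ℝ κ) : ℝ :=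
  ∑ s, ∫ y, ‖pr1 p (g s (jn p x y))‖ ^ 2

theorem HN.q_nonneg (p : ι ≃ κ ⊕ κ') (f : S → E → ℝ) (x : EuclideanSpace ℝ κ) :
    0 ≤ HN.q p f x := Finset.sum_nonneg fun _ _ => integral_nonneg fun _ => sq_nonneg _

theorem HN.T_nonneg (p : ι ≃ κ ⊕ κ') (g : S → E → E) (x : EuclideanSpace ℝ κ) :
    0 ≤ HN.T p g x := Finset.sum_nonneg fun _ _ => integral_nonneg fun _ => sq_nonneg _

theorem HN.q_integrable (p : ι ≃ κ ⊕ κ') {f : S → E → ℝ} (hf : ∀ s, MemLp (f s) 2 volume) :
    Integrable (HN.q p f) :=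
  integrable_finsetSum _ fun s _ => HS.integrable_slice p (hf s).integrable_sq

theorem HN.V_integrable (p : ι ≃ κ ⊕ κ') {f : S → E → ℝ} {g : S → E → E}
    (hf : ∀ s, MemLp (f s) 2 volume) (hg : ∀ s, MemLp (g s) 2 volume) :
    Integrable (HN.V p f g) :=
  integrable_finsetSum _ fun s _ =>
    HS.integrable_slice p (HS.integrable_smul (hf s) (memLp_pr1 p (hg s)))

theorem HN.T_integrable (p : ι ≃ κ ⊕ κ') {g : S → E → E}
    (hg : ∀ s, MemLp (g s) 2 volume) : Integrable (HN.T p g) :=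
  integrable_finsetSum _ fun s _ =>
    HS.integrable_slice p (HS.integrable_norm_sq (memLp_pr1 p (hg s)))

theorem HN.V_norm_le (p : ι ≃ κ ⊕ κ') {f : S → E → ℝ} {g : S → E → E}
    (hf : ∀ s, MemLp (f s) 2 volume) (hg : ∀ s, MemLp (g s) 2 volume) :
    ∀ᵐ x, ‖HN.V p f g x‖ ≤ √(HN.q p f x) * √(HN.T p g x) := by
  have h1 : ∀ᵐ x : EuclideanSpace ℝ κ, ∀ s, MemLp (fun y => f s (jn p x y)) 2 volume :=
    ae_all_iff.2 fun s => MemLp.slice_right p (hf s)
  have h2 : ∀ᵐ x : EuclideanSpace ℝ κ, ∀ s, MemLp (fun y => pr1 p (g s (jn p x y))) 2 volume :=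
    ae_all_iff.2 fun s => MemLp.slice_right p (memLp_pr1 p (hg s))
  filter_upwards [h1, h2] with x hx1 hx2
  have hs : ∀ s, ‖∫ y, f s (jn p x y) • pr1 p (g s (jn p x y))‖ ≤
      √(∫ y, f s (jn p x y) ^ 2) * √(∫ y, ‖pr1 p (g s (jn p x y))‖ ^ 2) := by
    intro s
    rw [← Real.sqrt_mul (integral_nonneg fun y => sq_nonneg _)]
    exact Real.le_sqrt_of_sq_le (HS.cs (hx1 s) (hx2 s))
  calc ‖HN.V p f g x‖ ≤ ∑ s, ‖∫ y, f s (jn p x y) • pr1 p (g s (jn p x y))‖ := norm_sum_le _ _
    _ ≤ ∑ s, √(∫ y, f s (jn p x y) ^ 2) * √(∫ y, ‖pr1 p (g s (jn p x y))‖ ^ 2) :=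
        Finset.sum_le_sum fun s _ => hs s
    _ ≤ _ := Real.sum_sqrt_mul_sqrt_le _ (fun s => integral_nonneg fun y => sq_nonneg _)
        (fun s => integral_nonneg fun y => sq_nonneg _)

theorem HN.WG_zero {U : Set E} : WG U (fun _ => (0 : ℝ)) (fun _ => (0 : E)) := by
  refine ⟨locallyIntegrableOn_zero, locallyIntegrableOn_zero, ?_⟩
  intro φ _ i
  simp

theorem HN.WG_sum {U : Set E} (hU : IsOpen U) {f : S → E → ℝ} {g : S → E → E}
    (h : ∀ s, WG U (f s) (g s)) : WG U (fun x => ∑ s, f s x) (fun x => ∑ s, g s x) := by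
  classical
  have : ∀ A : Finset S, WG U (fun x => ∑ s ∈ A, f s x) (fun x => ∑ s ∈ A, g s x) := by
    intro A
    induction A using Finset.induction_on with
    | empty => simpa using HN.WG_zero
    | insert a A ha ih =>
      simp only [Finset.sum_insert ha]
      exact WG.add (h a) ih hU
  exact this Finset.univ

/-- the partial square integral of an `H¹` function is `W^{1,1}` -/
theorem HN.WG_sq_slice (p : ι ≃ κ ⊕ κ') {f : E → ℝ} {g : E → E} (h : H1 f g) :
    WG univ (fun x => ∫ y, f (jn p x y) ^ 2)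
      (fun x => (2 : ℝ) • ∫ y, f (jn p x y) • pr1 p (g (jn p x y))) := by
  have hg : MemLp (fun X => pr1 p (g X)) 2 volume := memLp_pr1 p h.memg
  have hi1 : Integrable (fun X => f X ^ 2) := h.memf.integrable_sq
  have hi2 : Integrable (fun X => f X • pr1 p (g X)) := HS.integrable_smul h.memf hg
  refine ⟨(HS.integrable_slice p hi1).locallyIntegrable.locallyIntegrableOn _,
    ((HS.integrable_slice p hi2).smul (2 : ℝ)).locallyIntegrable.locallyIntegrableOn _, ?_⟩
  intro φ hφ k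
  have hpdc : Continuous (pd k φ) := (contDiff_pd hφ.smooth k).continuous
  obtain ⟨C1, hC1⟩ := hpdc.bounded_above_of_compact_support (hasCompactSupport_pd hφ.cpt k)
  obtain ⟨C2, hC2⟩ := hφ.smooth.continuous.bounded_above_of_compact_support hφ.cpt
  have hI1 : Integrable (fun X => f X ^ 2 * pd k φ (pr1 p X)) :=
    hi1.mul_bdd (hpdc.comp (continuous_pr1 p)).aestronglyMeasurable
      (Eventually.of_forall fun X => hC1 _)
  have hi2k : Integrable (fun X => f X * pr1 p (g X) k) := by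
    have := (EuclideanSpace.proj (𝕜 := ℝ) k).integrable_comp hi2
    simpa [smul_eq_mul] using this
  have hI2 : Integrable (fun X => (f X * pr1 p (g X) k) * φ (pr1 p X)) :=
    hi2k.mul_bdd (hφ.smooth.continuous.comp (continuous_pr1 p)).aestronglyMeasurable
      (Eventually.of_forall fun X => hC2 _)
  calc ∫ x, (∫ y, f (jn p x y) ^ 2) * pd k φ x
      = ∫ x, ∫ y, f (jn p x y) ^ 2 * pd k φ (pr1 p (jn p x y)) := by
        congr 1; funext x
        rw [← integral_mul_const]; simp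
    _ = ∫ y, ∫ x, f (jn p x y) ^ 2 * pd k φ (pr1 p (jn p x y)) := by
        rw [← integral_jn p hI1, integral_jn' p hI1]
    _ = ∫ y, - (2 * ∫ x, (f (jn p x y) * pr1 p (g (jn p x y)) k) * φ (pr1 p (jn p x y))) := by
        refine integral_congr_ae ?_
        filter_upwards [H1.slice_left p h] with y hy
        have := (g2_WG_sq hy).ibp φ hφ k
        simp only [pr1_jn]
        calc ∫ x, f (jn p x y) ^ 2 * pd k φ x
            = ∫ x, (f (jn p x y) * f (jn p x y)) * pd k φ x := by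
              congr 1; funext x; ring
          _ = _ := this
          _ = _ := by
              rw [← integral_const_mul]; congr 2; funext x
              simp [smul_eq_mul]; ring
    _ = - (2 * ∫ y, ∫ x, (f (jn p x y) * pr1 p (g (jn p x y)) k) * φ (pr1 p (jn p x y))) := by
        rw [integral_neg, integral_const_mul]
    _ = - (2 * ∫ x, ∫ y, (f (jn p x y) * pr1 p (g (jn p x y)) k) * φ (pr1 p (jn p x y))) := by
        rw [← integral_jn' p hI2, integral_jn p hI2]
    _ = - ∫ x, ((2 : ℝ) • ∫ y, f (jn p x y) • pr1 p (g (jn p x y))) k * φ x := by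
        rw [← integral_const_mul]
        congr 1
        refine integral_congr_ae ?_
        filter_upwards [HS.ae_integrable_slice p hi2] with x hx
        have e1 : (∫ y, f (jn p x y) • pr1 p (g (jn p x y))) k =
            ∫ y, f (jn p x y) * (pr1 p (g (jn p x y)) k) := by
          have := (EuclideanSpace.proj (𝕜 := ℝ) k).integral_comp_comm hx
          simp only [EuclideanSpace.coe_proj, PiLp.smul_apply, smul_eq_mul] at this
          rw [← this]
        rw [PiLp.smul_apply, e1, smul_eq_mul, mul_assoc, ← integral_mul_const]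
        simp only [pr1_jn]

theorem HN.WG_q (p : ι ≃ κ ⊕ κ') {f : S → E → ℝ} {g : S → E → E} (h : ∀ s, H1 (f s) (g s)) :
    WG univ (HN.q p f) (fun x => (2 : ℝ) • HN.V p f g x) := by
  have := HN.WG_sum isOpen_univ fun s => HN.WG_sq_slice p (h s)
  refine ⟨this.intf, ?_, ?_⟩
  · have := this.intg
    simp only [← Finset.smul_sum] at this
    exact this
  · have := this.ibp
    simp only [← Finset.smul_sum] at this
    exact this

/-- the regularised partial norm -/
theorem HN.WG_reg (p : ι ≃ κ ⊕ κ') {f : S → E → ℝ} {g : S → E → E} (h : ∀ s, H1 (f s) (g s))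
    {ε : ℝ} (hε : 0 < ε) :
    WG univ (fun x => √(HN.q p f x + ε ^ 2))
      (fun x => (√(HN.q p f x + ε ^ 2))⁻¹ • HN.V p f g x) := by
  have h1 := WG.comp_on isOpen_univ (HN.WG_q p h) (F := fun t => √(t + ε ^ 2))
    (F' := fun t => 1 / (2 * √(t + ε ^ 2))) (a := 0) (b := ⊤) (C := 1 / (2 * ε))
    (Eventually.of_forall fun x => ⟨by exact_mod_cast HN.q_nonneg p f x, le_top⟩)
    (by
      intro t ht _
      have ht0 : (0 : ℝ) ≤ t := by exact_mod_cast ht
      have h2 : HasDerivAt (fun t : ℝ => t + ε ^ 2) 1 t := (hasDerivAt_id t).add_const _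
      exact h2.sqrt (by positivity))
    (by
      have : {t : ℝ | (0 : EReal) ≤ (t : EReal) ∧ (t : EReal) ≤ ⊤} = Ici 0 := by
        ext t; simp
      rw [this]
      intro t ht
      have ht0 : (0 : ℝ) ≤ t := ht
      apply ContinuousAt.continuousWithinAt
      have : 2 * √(t + ε ^ 2) ≠ 0 := by positivity
      exact continuousAt_const.div (by fun_prop) this)
    (by
      intro t ht _
      have ht0 : (0 : ℝ) ≤ t := by exact_mod_cast ht
      have h3 : ε ≤ √(t + ε ^ 2) := Real.le_sqrt_of_sq_le (by linarith)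
      rw [abs_of_nonneg (by positivity)]
      gcongr)
  refine WG.congr isOpen_univ h1 (ae_eq_refl _) (Eventually.of_forall fun x => ?_)
  have h2 : 0 < √(HN.q p f x + ε ^ 2) := by
    have := HN.q_nonneg p f x
    positivity
  simp only [smul_smul]
  congr 1
  field_simp

theorem HN.V_bound (p : ι ≃ κ ⊕ κ') {f : S → E → ℝ} {g : S → E → E}
    (hf : ∀ s, MemLp (f s) 2 volume) (hg : ∀ s, MemLp (g s) 2 volume) :
    ∀ᵐ x, ∀ ε : ℝ, ‖(√(HN.q p f x + ε ^ 2))⁻¹ • HN.V p f g x‖ ≤ √(HN.T p g x) := by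
  filter_upwards [HN.V_norm_le p hf hg] with x hx
  intro ε
  have h1 : √(HN.q p f x) ≤ √(HN.q p f x + ε ^ 2) := Real.sqrt_le_sqrt (by nlinarith [sq_nonneg ε])
  rw [norm_smul, norm_inv, Real.norm_eq_abs, abs_of_nonneg (Real.sqrt_nonneg _)]
  rcases eq_or_lt_of_le (Real.sqrt_nonneg (HN.q p f x + ε ^ 2)) with h0 | h0
  · rw [← h0]; simp
  · rw [inv_mul_le_iff₀ h0]
    exact hx.trans (mul_le_mul_of_nonneg_right h1 (Real.sqrt_nonneg _))

/-- the gradient of the partial norm -/
def HN.m (p : ι ≃ κ ⊕ κ') (f : S → E → ℝ) (g : S → E → E) (x : EuclideanSpace ℝ κ) :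
    EuclideanSpace ℝ κ := (√(HN.q p f x))⁻¹ • HN.V p f g x

theorem HN.m_norm_le (p : ι ≃ κ ⊕ κ') {f : S → E → ℝ} {g : S → E → E}
    (hf : ∀ s, MemLp (f s) 2 volume) (hg : ∀ s, MemLp (g s) 2 volume) :
    ∀ᵐ x, ‖HN.m p f g x‖ ^ 2 ≤ HN.T p g x := by
  filter_upwards [HN.V_bound p hf hg] with x hx
  have h1 := hx 0
  simp only [ne_eq, OfNat.ofNat_ne_zero, not_false_eq_true, zero_pow, add_zero] at h1
  calc ‖HN.m p f g x‖ ^ 2 ≤ √(HN.T p g x) ^ 2 := by
        unfold HN.m; gcongr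
    _ = _ := Real.sq_sqrt (HN.T_nonneg p g x)

theorem HN.m_smul (p : ι ≃ κ ⊕ κ') {f : S → E → ℝ} {g : S → E → E}
    (hf : ∀ s, MemLp (f s) 2 volume) (hg : ∀ s, MemLp (g s) 2 volume) :
    ∀ᵐ x, √(HN.q p f x) • HN.m p f g x = HN.V p f g x := by
  filter_upwards [HN.V_norm_le p hf hg] with x hx
  unfold HN.m
  rcases eq_or_ne (√(HN.q p f x)) 0 with h0 | h0
  · rw [h0, zero_mul] at hx
    have : HN.V p f g x = 0 := norm_le_zero_iff.1 hx
    rw [this]; simp
  · rw [smul_smul, mul_inv_cancel₀ h0, one_smul]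

theorem HN.aesm_sqrt_q (p : ι ≃ κ ⊕ κ') {f : S → E → ℝ} (hf : ∀ s, MemLp (f s) 2 volume) :
    AEStronglyMeasurable (fun x => √(HN.q p f x)) volume :=
  Real.continuous_sqrt.comp_aestronglyMeasurable (HN.q_integrable p hf).1

theorem HN.aesm_m (p : ι ≃ κ ⊕ κ') {f : S → E → ℝ} {g : S → E → E}
    (hf : ∀ s, MemLp (f s) 2 volume) (hg : ∀ s, MemLp (g s) 2 volume) :
    AEStronglyMeasurable (HN.m p f g) volume := by
  have h1 : AEMeasurable (fun x => (√(HN.q p f x))⁻¹) volume :=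
    (HN.aesm_sqrt_q p hf).aemeasurable.inv
  exact h1.aestronglyMeasurable.smul (HN.V_integrable p hf hg).1

theorem HN.H1_sqrt_q (p : ι ≃ κ ⊕ κ') {f : S → E → ℝ} {g : S → E → E}
    (h : ∀ s, H1 (f s) (g s)) : H1 (fun x => √(HN.q p f x)) (HN.m p f g) := by
  have hf : ∀ s, MemLp (f s) 2 volume := fun s => (h s).memf
  have hg : ∀ s, MemLp (g s) 2 volume := fun s => (h s).memg
  have hT := HN.T_integrable p hg
  have hTm : AEStronglyMeasurable (fun x => √(HN.T p g x)) volume :=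
    Real.continuous_sqrt.comp_aestronglyMeasurable hT.1
  have hT2 : MemLp (fun x => √(HN.T p g x)) 2 volume := by
    rw [memLp_two_iff_integrable_sq hTm]
    refine hT.congr (Eventually.of_forall fun x => ?_)
    simp only [Real.sq_sqrt (HN.T_nonneg p g x)]
  have hN2 : MemLp (fun x => √(HN.q p f x)) 2 volume := by
    rw [memLp_two_iff_integrable_sq (HN.aesm_sqrt_q p hf)]
    refine (HN.q_integrable p hf).congr (Eventually.of_forall fun x => ?_)
    simp only [Real.sq_sqrt (HN.q_nonneg p f x)]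
  have hm2 : MemLp (HN.m p f g) 2 volume := by
    rw [memLp_two_iff_integrable_sq_norm (HN.aesm_m p hf hg)]
    refine hT.mono' ((HN.aesm_m p hf hg).norm.pow 2) ?_
    filter_upwards [HN.m_norm_le p hf hg] with x hx
    rwa [Real.norm_eq_abs, abs_of_nonneg (sq_nonneg _)]
  refine ⟨hN2, hm2, ?_⟩
  set ε : ℕ → ℝ := fun n => 1 / ((n : ℝ) + 1) with hεd
  have hε : ∀ n, 0 < ε n := fun n => Nat.one_div_pos_of_nat
  have hε1 : ∀ n, ε n ≤ 1 := by
    intro n
    rw [hεd]
    simp only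
    rw [div_le_one (by positivity)]
    have : (0 : ℝ) ≤ n := Nat.cast_nonneg n
    linarith
  have hεt : Tendsto ε atTop (𝓝 0) := tendsto_one_div_add_atTop_nhds_zero_nat
  refine WG.of_dominated isOpen_univ (fn := fun n x => √(HN.q p f x + ε n ^ 2))
    (gn := fun n x => (√(HN.q p f x + ε n ^ 2))⁻¹ • HN.V p f g x)
    (a := fun x => √(HN.q p f x) + 1) (b := fun x => √(HN.T p g x))
    (fun n => HN.WG_reg p h (hε n)) ?_ ?_ ?_ ?_ ?_ ?_
  · exact ((hN2.locallyIntegrable (by norm_num)).add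
      (locallyIntegrable_const (1 : ℝ))).locallyIntegrableOn _
  · exact (hT2.locallyIntegrable (by norm_num)).locallyIntegrableOn _
  · intro n
    refine Eventually.of_forall fun x => ?_
    rw [Real.norm_eq_abs, abs_of_nonneg (Real.sqrt_nonneg _)]
    rw [Real.sqrt_le_left (by positivity)]
    have h1 := Real.sq_sqrt (HN.q_nonneg p f x)
    have h2 := Real.sqrt_nonneg (HN.q p f x)
    have h3 : ε n ^ 2 ≤ 1 := by
      have := hε n; have := hε1 n; nlinarith
    nlinarith
  · intro n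
    rw [Measure.restrict_univ]
    filter_upwards [HN.V_bound p hf hg] with x hx using hx (ε n)
  · refine Eventually.of_forall fun x => ?_
    have h1 : Tendsto (fun n => HN.q p f x + ε n ^ 2) atTop (𝓝 (HN.q p f x + 0 ^ 2)) :=
      tendsto_const_nhds.add (hεt.pow 2)
    have h2 := (Real.continuous_sqrt.tendsto _).comp h1
    simpa [Function.comp_def] using h2
  · rw [Measure.restrict_univ]
    filter_upwards [HN.V_norm_le p hf hg] with x hx
    have h1 : Tendsto (fun n => HN.q p f x + ε n ^ 2) atTop (𝓝 (HN.q p f x + 0 ^ 2)) :=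
      tendsto_const_nhds.add (hεt.pow 2)
    have h2 : Tendsto (fun n => √(HN.q p f x + ε n ^ 2)) atTop (𝓝 (√(HN.q p f x))) := by
      have := (Real.continuous_sqrt.tendsto _).comp h1
      simpa [Function.comp_def] using this
    rcases eq_or_ne (√(HN.q p f x)) 0 with h0 | h0
    · rw [h0, zero_mul] at hx
      have hV : HN.V p f g x = 0 := norm_le_zero_iff.1 hx
      simp [HN.m, hV]
    · exact (h2.inv₀ h0).smul_const _

/-- partial norm of a finite family (module HNorm) -/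
theorem H1.pnorm (p : ι ≃ κ ⊕ κ') {f : S → E → ℝ} {g : S → E → E}
    (h : ∀ s, H1 (f s) (g s)) :
    ∃ m : EuclideanSpace ℝ κ → EuclideanSpace ℝ κ,
      H1 (fun x => √(∑ s, ∫ y, f s (jn p x y) ^ 2)) m ∧
      ∀ᵐ x, √(∑ s, ∫ y, f s (jn p x y) ^ 2) • m x =
          ∑ s, ∫ y, f s (jn p x y) • pr1 p (g s (jn p x y)) ∧
        ‖m x‖ ^ 2 ≤ ∑ s, ∫ y, ‖pr1 p (g s (jn p x y))‖ ^ 2 := by
  refine ⟨HN.m p f g, HN.H1_sqrt_q p h, ?_⟩
  filter_upwards [HN.m_smul p (fun s => (h s).memf) (fun s => (h s).memg),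
    HN.m_norm_le p (fun s => (h s).memf) (fun s => (h s).memg)] with x h1 h2
  exact ⟨h1, h2⟩

end Crest.Agent.R335
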