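import Crest.Agent.R335.CDefs
import Crest.Agent.R335.BIface2
import Crest.Agent.R335.BPar
import Crest.Agent.R335.HSlice
import Crest.Agent.R335.HNormA
import Crest.Agent.R335.HHalf
import Crest.Agent.R335.HGlob2

/-!
Row 335 (S0521), interface B → C, part 1 (helper357): the amplitudes `s₁ = |Ψ^o|`, `s₂ = |Ψ^e|`:
`H¹`, kinetic energy, norm, zero trace of `s₁` on the plane.
-/

set_option autoImplicit false
set_option linter.unusedSectionVars false

open MeasureTheory Filter Set Crest.MathPhysics.ThreeBody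
open scoped ENNReal Topology ContDiff

noncomputable section
namespace Crest.Agent.R335.CO
open Crest.Agent.R335

/-! ### kinetic energy of one electron -/

theorem pr1_eq (x : Config3) : pr1 p9 x = elPos 0 x := rfl

/-- kinetic energy of the electron `i` -/
def kin (i : Fin 3) (g : Config3 → Config3) : ℝ := ∫ x, ‖elPos i (g x)‖ ^ 2

theorem norm_sq_elPos (x : Config3) :
    ‖x‖ ^ 2 = ‖elPos 0 x‖ ^ 2 + ‖elPos 1 x‖ ^ 2 + ‖elPos 2 x‖ ^ 2 := by
  simp only [EuclideanSpace.norm_sq_eq, Real.norm_eq_abs, sq_abs, Fintype.sum_prod_type,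
    Fin.sum_univ_three, elPos]

theorem norm_elPos_le (i : Fin 3) (x : Config3) : ‖elPos i x‖ ≤ ‖x‖ := by
  have h := norm_sq_elPos x
  refine (sq_le_sq₀ (norm_nonneg _) (norm_nonneg _)).1 ?_
  fin_cases i
  · show ‖elPos 0 x‖ ^ 2 ≤ _
    nlinarith [sq_nonneg ‖elPos 1 x‖, sq_nonneg ‖elPos 2 x‖]
  · show ‖elPos 1 x‖ ^ 2 ≤ _
    nlinarith [sq_nonneg ‖elPos 0 x‖, sq_nonneg ‖elPos 2 x‖]
  · show ‖elPos 2 x‖ ^ 2 ≤ _
    nlinarith [sq_nonneg ‖elPos 0 x‖, sq_nonneg ‖elPos 1 x‖]

theorem memLp_elPos (i : Fin 3) {g : Config3 → Config3} (hg : MemLp g 2 volume) :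
    MemLp (fun x => elPos i (g x)) 2 volume :=
  hg.of_le ((continuous_elPos i).comp_aestronglyMeasurable hg.1)
    (Eventually.of_forall fun x => norm_elPos_le i (g x))

theorem kin_integrable (i : Fin 3) {g : Config3 → Config3} (hg : MemLp g 2 volume) :
    Integrable (fun x => ‖elPos i (g x)‖ ^ 2) := HS.integrable_norm_sq (memLp_elPos i hg)

theorem kin_total {g : Config3 → Config3} (hg : MemLp g 2 volume) :
    ∫ x, ‖g x‖ ^ 2 = kin 0 g + kin 1 g + kin 2 g := by
  have i01 : Integrable (fun x => ‖elPos 0 (g x)‖ ^ 2 + ‖elPos 1 (g x)‖ ^ 2) :=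
    (kin_integrable 0 hg).add (kin_integrable 1 hg)
  unfold kin
  rw [← integral_add (kin_integrable 0 hg) (kin_integrable 1 hg),
    ← integral_add i01 (kin_integrable 2 hg)]
  exact integral_congr_ae (Eventually.of_forall fun x => norm_sq_elPos (g x))

theorem kin_perm (σ : Equiv.Perm (Fin 3)) (i : Fin 3) (g : Config3 → Config3) :
    kin (σ i) (fun x => (permL σ).symm (g (permConfig σ x))) = kin i g := by
  unfold kin
  rw [← integral_perm σ (fun x => ‖elPos i (g x)‖ ^ 2)]
  refine integral_congr_ae (Eventually.of_forall fun x => ?_)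
  simp only
  have h : elPos i (g (permConfig σ x)) = elPos (σ i) ((permL σ).symm (g (permConfig σ x))) := by
    rw [← elPos_permConfig, ← permL_apply σ ((permL σ).symm (g (permConfig σ x))),
      LinearIsometryEquiv.apply_symm_apply]
  rw [h]

theorem elPos_zero_r12 (v : Config3) : elPos 0 (r12 v) = elPos 0 v := by
  ext c
  simp only [elPos]
  rw [r12_apply]
  simp

theorem integral_r12 {F : Type*} [NormedAddCommGroup F] [NormedSpace ℝ F] (f : Config3 → F) :
    ∫ x, f (r12 x) = ∫ x, f x := by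
  have := g2_integral_isom r12 0 f
  simpa using this

theorem memLp_r12 {F : Type*} [NormedAddCommGroup F] {f : Config3 → F} (hf : MemLp f 2 volume) :
    MemLp (fun x => f (r12 x)) 2 volume :=
  hf.comp_measurePreserving r12.measurePreserving

theorem kin_r12 (g : Config3 → Config3) : kin 0 (fun x => r12 (g (r12 x))) = kin 0 g := by
  unfold kin
  simp only [elPos_zero_r12]
  exact integral_r12 (fun x => ‖elPos 0 (g x)‖ ^ 2)

/-- parallelogram identity -/
theorem kin_par (i : Fin 3) {a b : Config3 → Config3} (ha : MemLp a 2 volume)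
    (hb : MemLp b 2 volume) :
    kin i (fun x => (1 / 2 : ℝ) • (a x + b x)) + kin i (fun x => (1 / 2 : ℝ) • (a x - b x)) =
      (kin i a + kin i b) / 2 := by
  have e1 : ∀ u v : Config3, elPos i ((1 / 2 : ℝ) • (u + v)) =
      (1 / 2 : ℝ) • (elPos i u + elPos i v) := fun u v => by
    rw [← elC_apply, map_smul, map_add, elC_apply, elC_apply]
  have e2 : ∀ u v : Config3, elPos i ((1 / 2 : ℝ) • (u - v)) =
      (1 / 2 : ℝ) • (elPos i u - elPos i v) := fun u v => by
    rw [← elC_apply, map_smul, map_sub, elC_apply, elC_apply]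
  unfold kin
  have h1 := (memLp_elPos i ha)
  have h2 := (memLp_elPos i hb)
  have i1 : Integrable (fun x => ‖elPos i ((1 / 2 : ℝ) • (a x + b x))‖ ^ 2) :=
    kin_integrable i (g := fun x => (1 / 2 : ℝ) • (a x + b x)) ((ha.add hb).const_smul (1 / 2 : ℝ))
  have i2 : Integrable (fun x => ‖elPos i ((1 / 2 : ℝ) • (a x - b x))‖ ^ 2) :=
    kin_integrable i (g := fun x => (1 / 2 : ℝ) • (a x - b x)) ((ha.sub hb).const_smul (1 / 2 : ℝ))
  have j1 := kin_integrable i ha
  have j2 := kin_integrable i hb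
  rw [← integral_add i1 i2, ← integral_add j1 j2, ← integral_div]
  refine integral_congr_ae (Eventually.of_forall fun x => ?_)
  simp only
  rw [e1, e2, norm_smul, norm_smul, mul_pow, mul_pow]
  have := parallelogram_law_with_norm ℝ (elPos i (a x)) (elPos i (b x))
  rw [Real.norm_eq_abs, abs_of_pos (by norm_num : (0 : ℝ) < 1 / 2)]
  nlinarith

/-! ### the families -/

section fam
variable {cg C0 D : ℝ} {B : OBD cg C0 D} {K lam : ℝ} (S : Sys B K lam)

/-- gradient of the transposed function -/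
def gP (σ : Equiv.Perm (Fin 3)) (g : Config3 → Config3) (x : Config3) : Config3 :=
  (permL σ).symm (g (permConfig σ x))

theorem gP_memLp (σ : Equiv.Perm (Fin 3)) {g : Config3 → Config3} (hg : MemLp g 2 volume) :
    MemLp (gP σ g) 2 volume := by
  have h1 : MemLp (fun x => g (permConfig σ x)) 2 volume := hg.comp_measurePreserving (mp_perm σ)
  exact ((permL σ).symm.toContinuousLinearEquiv : Config3 →L[ℝ] Config3).comp_memLp' h1

/-- gradients of the channel functions -/
def dS (x : Config3) : Config3 := (1 / 2 : ℝ) • (S.dψ x + gP (Equiv.swap 1 2) S.dψ x)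
def dT (x : Config3) : Config3 := (1 / 2 : ℝ) • (S.dψ x - gP (Equiv.swap 1 2) S.dψ x)

theorem h1_S : H1 S.YS (dS S) := by
  have := ((S.tb.h1.add (H1_perm S.tb.h1 (Equiv.swap 1 2))).const_mul (1 / 2))
  refine H1.congr this (Eventually.of_forall fun x => ?_) (Eventually.of_forall fun x => rfl)
  simp only [Sys.YS, GS]
  ring

theorem h1_T : H1 S.YT (fun x => (-√2) • dT S x) := by
  have := (((S.tb.h1.sub (H1_perm S.tb.h1 (Equiv.swap 1 2))).const_mul (1 / 2)).const_mul (-√2))
  refine H1.congr this (Eventually.of_forall fun x => ?_) (Eventually.of_forall fun x => rfl)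
  simp only [Sys.YT, GT]
  ring

theorem h1_B : H1 S.YB (gP (finRotate 3) S.dψ) := H1_perm S.tb.h1 (finRotate 3)

/-- parity parts -/
theorem h1_Yp {Y : Config3 → ℝ} {dY : Config3 → Config3} (h : H1 Y dY) (π : ℝ) :
    H1 (Yp π Y) (fun x => (1 / 2 : ℝ) • (dY x + π • r12 (dY (r12 x)))) := by
  have h2 := h.comp_isometry r12 0
  simp only [add_zero, r12_symm] at h2
  have := ((h.add (h2.const_mul π)).const_mul (1 / 2))
  refine H1.congr this (Eventually.of_forall fun x => ?_) (Eventually.of_forall fun x => rfl)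
  simp only [Yp]
  ring

/-- the three components of the part of ion parity `π` -/
def fam (π : ℝ) (i : Fin 3) : Config3 → ℝ :=
  if i = 0 then fun x => √2 * Yp π S.YS x else if i = 1 then Yp π S.YT else Yp π S.YB

/-- gradient of the channel function -/
def dch (i : Fin 3) : Config3 → Config3 :=
  if i = 0 then fun x => √2 • dS S x else if i = 1 then fun x => (-√2) • dT S x
  else gP (finRotate 3) S.dψ

def dfam (π : ℝ) (i : Fin 3) (x : Config3) : Config3 :=
  (1 / 2 : ℝ) • (dch S i x + π • r12 (dch S i (r12 x)))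

theorem h1_fam (π : ℝ) (i : Fin 3) : H1 (fam S π i) (dfam S π i) := by
  fin_cases i
  · refine H1.congr (h1_Yp ((h1_S S).const_mul √2) π) (Eventually.of_forall fun x => ?_)
      (Eventually.of_forall fun x => rfl)
    simp only [Yp, fam]
    simp
    ring
  · exact h1_Yp (h1_T S) π
  · exact h1_Yp (h1_B S) π

theorem dch_memLp (i : Fin 3) : MemLp (dch S i) 2 volume := by
  fin_cases i
  · exact ((h1_S S).const_mul √2).memg
  · exact (h1_T S).memg
  · exact (h1_B S).memg

theorem sum_fam (π : ℝ) (X : Pos3) : ∑ i, ∫ ξ, fam S π i (jn p9 X ξ) ^ 2 =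
    2 * (∫ ξ, Yp π S.YS (jn p9 X ξ) ^ 2) + (∫ ξ, Yp π S.YT (jn p9 X ξ) ^ 2) +
      ∫ ξ, Yp π S.YB (jn p9 X ξ) ^ 2 := by
  rw [Fin.sum_univ_three]
  have e0 : ∫ ξ, fam S π 0 (jn p9 X ξ) ^ 2 = 2 * ∫ ξ, Yp π S.YS (jn p9 X ξ) ^ 2 := by
    rw [← integral_const_mul]
    refine integral_congr_ae (Eventually.of_forall fun ξ => ?_)
    simp only [fam, if_true]
    rw [mul_pow, Real.sq_sqrt (by norm_num)]
  rw [e0]
  rfl

theorem s1sq_eq (X : Pos3) : S.s1sq X = ∑ i, ∫ ξ, fam S 1 i (jn p9 X ξ) ^ 2 := (sum_fam S 1 X).symm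
theorem s2sq_eq (X : Pos3) : S.s2sq X = ∑ i, ∫ ξ, fam S (-1) i (jn p9 X ξ) ^ 2 :=
  (sum_fam S (-1) X).symm

/-- kinetic energy of the two parity parts -/
theorem kin_fam (i : Fin 3) : kin 0 (dfam S 1 i) + kin 0 (dfam S (-1) i) = kin 0 (dch S i) := by
  have hm := dch_memLp S i
  have hm2 : MemLp (fun x => r12 (dch S i (r12 x))) 2 volume :=
    (r12.toContinuousLinearEquiv : Config3 →L[ℝ] Config3).comp_memLp' (memLp_r12 hm)
  have h := kin_par 0 hm hm2
  rw [kin_r12] at h
  have e1 : dfam S 1 i = fun x => (1 / 2 : ℝ) • (dch S i x + r12 (dch S i (r12 x))) := by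
    funext x; simp only [dfam, one_smul]
  have e2 : dfam S (-1) i = fun x => (1 / 2 : ℝ) • (dch S i x - r12 (dch S i (r12 x))) := by
    funext x; simp only [dfam, neg_smul, one_smul, sub_eq_add_neg]
  rw [e1, e2, h]
  ring

theorem kin_smul (i : Fin 3) (c : ℝ) (g : Config3 → Config3) :
    kin i (fun x => c • g x) = c ^ 2 * kin i g := by
  unfold kin
  rw [← integral_const_mul]
  refine integral_congr_ae (Eventually.of_forall fun x => ?_)
  simp only
  rw [← elC_apply, map_smul, elC_apply, norm_smul, mul_pow, Real.norm_eq_abs, sq_abs]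

/-- antisymmetry: `T₀ = T₁` -/
theorem kin01 : kin 0 S.dψ = kin 1 S.dψ := by
  have h1 := H1_perm S.tb.h1 (Equiv.swap 0 1)
  have h2 : H1 (fun x => S.ψ (permConfig (Equiv.swap 0 1) x)) (fun x => (-1 : ℝ) • S.dψ x) := by
    refine H1.congr (S.tb.h1.const_mul (-1)) (Eventually.of_forall fun x => ?_)
      (Eventually.of_forall fun x => rfl)
    simp only
    rw [S.tb.anti]; ring
  have h3 := H1.unique h1 h2
  have h4 := kin_perm (Equiv.swap 0 1) 1 S.dψ
  rw [Equiv.swap_apply_right] at h4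
  rw [← h4]
  unfold kin
  refine integral_congr_ae ?_
  filter_upwards [h3] with x hx
  rw [hx, neg_smul, one_smul, ← elC_apply, ← elC_apply, map_neg, norm_neg]

theorem kin_ch : kin 0 (dch S 0) + kin 0 (dch S 1) + kin 0 (dch S 2) = ∫ x, ‖S.dψ x‖ ^ 2 := by
  have hm := S.tb.h1.memg
  have hp := gP_memLp (Equiv.swap 1 2) hm
  have e0 : kin 0 (dch S 0) = 2 * kin 0 (dS S) := by
    have : dch S 0 = fun x => √2 • dS S x := rfl
    rw [this, kin_smul, Real.sq_sqrt (by norm_num)]
  have e1 : kin 0 (dch S 1) = 2 * kin 0 (dT S) := by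
    have : dch S 1 = fun x => (-√2) • dT S x := rfl
    rw [this, kin_smul, neg_sq, Real.sq_sqrt (by norm_num)]
  have e2 : kin 0 (dch S 2) = kin 2 S.dψ := by
    have : dch S 2 = gP (finRotate 3) S.dψ := rfl
    rw [this]
    exact kin_perm (finRotate 3) 2 S.dψ
  have e3 : kin 0 (dS S) + kin 0 (dT S) = (kin 0 S.dψ + kin 0 S.dψ) / 2 := by
    have h := kin_par 0 hm hp
    have h' : kin 0 (gP (Equiv.swap 1 2) S.dψ) = kin 0 S.dψ :=
      kin_perm (Equiv.swap 1 2) 0 S.dψ
    rw [h'] at h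
    exact h
  rw [e0, e1, e2, kin_total hm, ← kin01]
  linarith

/-- `s₁` and `s₂` are in `H¹`, with the bound of the kinetic energy -/
theorem amp_H1 : ∃ m1 m2 : Pos3 → Pos3, H1 (fun X => √(S.s1sq X)) m1 ∧
    H1 (fun X => √(S.s2sq X)) m2 ∧
    (∫ X, ‖m1 X‖ ^ 2) + (∫ X, ‖m2 X‖ ^ 2) ≤ ∫ x, ‖S.dψ x‖ ^ 2 := by
  have key : ∀ π : ℝ, ∃ m : Pos3 → Pos3,
      H1 (fun X => √(∑ i, ∫ ξ, fam S π i (jn p9 X ξ) ^ 2)) m ∧
        ∫ X, ‖m X‖ ^ 2 ≤ kin 0 (dfam S π 0) + kin 0 (dfam S π 1) + kin 0 (dfam S π 2) := by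
    intro π
    obtain ⟨m, hm, hm2⟩ := H1.pnorm p9 (h1_fam S π)
    refine ⟨m, hm, ?_⟩
    have hi : ∀ i, Integrable (fun x => ‖pr1 p9 (dfam S π i x)‖ ^ 2) := fun i =>
      kin_integrable 0 (h1_fam S π i).memg
    have hi2 : ∀ i, Integrable (fun X : Pos3 => ∫ ξ, ‖pr1 p9 (dfam S π i (jn p9 X ξ))‖ ^ 2) :=
      fun i => HS.integrable_slice p9 (hi i)
    calc ∫ X, ‖m X‖ ^ 2 ≤ ∫ X, ∑ i, ∫ ξ, ‖pr1 p9 (dfam S π i (jn p9 X ξ))‖ ^ 2 := by
          refine integral_mono_ae (HS.integrable_norm_sq hm.memg)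
            (integrable_finsetSum _ fun i _ => hi2 i) ?_
          filter_upwards [hm2] with X hX using hX.2
      _ = ∑ i, ∫ X, ∫ ξ, ‖pr1 p9 (dfam S π i (jn p9 X ξ))‖ ^ 2 :=
          integral_finsetSum _ fun i _ => hi2 i
      _ = ∑ i, kin 0 (dfam S π i) := by
          refine Finset.sum_congr rfl fun i _ => ?_
          rw [← integral_jn p9 (hi i)]
          rfl
      _ = _ := Fin.sum_univ_three _
  obtain ⟨m1, h1, k1⟩ := key 1
  obtain ⟨m2, h2, k2⟩ := key (-1)
  refine ⟨m1, m2, ?_, ?_, ?_⟩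
  · simpa only [← s1sq_eq] using h1
  · simpa only [← s2sq_eq] using h2
  · have a0 := kin_fam S 0
    have a1 := kin_fam S 1
    have a2 := kin_fam S 2
    have a3 := kin_ch S
    linarith

/-! ### parity -/

theorem odd_perm (σ : Equiv.Perm (Fin 3)) (x : Config3) :
    S.ψ (permConfig σ (r9 x)) = - S.ψ (permConfig σ x) := by
  rw [← r9_perm, S.tb.odd]

theorem odd_S (x : Config3) : S.YS (r9 x) = - S.YS x := by
  simp only [Sys.YS, GS]
  rw [odd_perm, S.tb.odd]; ring

theorem odd_T (x : Config3) : S.YT (r9 x) = - S.YT x := by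
  simp only [Sys.YT, GT]
  rw [odd_perm, S.tb.odd]; ring

theorem odd_B (x : Config3) : S.YB (r9 x) = - S.YB x := by
  simp only [Sys.YB, GB]
  exact odd_perm S _ x

theorem odd_Yp {Y : Config3 → ℝ} (hY : ∀ x, Y (r9 x) = - Y x) (π : ℝ) (x : Config3) :
    Yp π Y (r9 (r12 x)) = - (Y (r12 x) + π * Y x) / 2 := by
  simp only [Yp]
  have h1 : Y (r9 (r12 x)) = - Y (r12 x) := hY _
  have h2 : Y (r12 (r9 (r12 x))) = - Y x := by
    rw [← r9_r12, r12_r12, hY]
  rw [h1, h2]; ring

theorem odd_fam (i : Fin 3) (x : Config3) : fam S 1 i (r9 (r12 x)) = - fam S 1 i x := by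
  fin_cases i
  · have := odd_Yp (odd_S S) 1 x
    simp only [fam]
    simp only [Fin.zero_eta, Fin.isValue, if_true]
    rw [this]
    simp only [Yp]; ring
  · have := odd_Yp (odd_T S) 1 x
    show Yp 1 S.YT _ = - Yp 1 S.YT x
    rw [this]
    simp only [Yp]; ring
  · have := odd_Yp (odd_B S) 1 x
    show Yp 1 S.YB _ = - Yp 1 S.YB x
    rw [this]
    simp only [Yp]; ring

theorem rfl'_eq (x : Config3) : rfl' ((0, 2) : Fin 3 × Fin 3) x = r9 (r12 x) := by
  ext ⟨i, c⟩
  rw [rfl'_apply, r9_apply, r12_apply]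
  by_cases h0 : i = 0 <;> by_cases h2 : c = 2 <;> simp [h0, h2]

end fam

/-! ### zero trace -/

/-- gradient of a function cut at the plane -/
theorem half_grad {f : Pos3 → ℝ} {g m : Pos3 → Pos3} (h : H1 f g)
    (h' : H1 (fun x => if 0 < x 2 then f x else 0) m) :
    H1 (fun x => if 0 < x 2 then f x else 0) (fun x => if 0 < x 2 then g x else 0) := by
  have hU : IsOpen {x : Pos3 | 0 < x 2} := isOpen_half 2
  have w1 : WG {x : Pos3 | 0 < x 2} f g := WG.mono h.wg (subset_univ _)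
  have w2 : WG {x : Pos3 | 0 < x 2} (fun x => if 0 < x 2 then f x else 0) m :=
    WG.mono h'.wg (subset_univ _)
  have w3 : WG {x : Pos3 | 0 < x 2} f m := by
    refine WG.congr hU w2 ?_ (Eventually.of_forall fun x => rfl)
    refine (ae_restrict_iff' hU.measurableSet).2 (Eventually.of_forall fun x hx => ?_)
    have hx' : 0 < x 2 := hx
    simp only [hx', if_true]
  have e1 := (ae_restrict_iff' hU.measurableSet).1 (WG.unique hU w1 w3)
  have e2 := WG.zero_of_level isOpen_univ h'.wg 0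
  rw [Measure.restrict_univ] at e2
  refine H1.congr h' (Eventually.of_forall fun x => rfl) ?_
  filter_upwards [e1, e2] with x h1 h2
  by_cases hx : 0 < x 2
  · simp only [hx, if_true]
    exact (h1 hx).symm
  · simp only [hx, if_false] at h2 ⊢
    exact h2 trivial

end Crest.Agent.R335.CO

namespace Crest.Agent.R335
open CO

/-- zero trace of the odd part -/
theorem half1 {cg C0 D : ℝ} {B : OBD cg C0 D} {K lam : ℝ} (S : Sys B K lam)
    {gs1 : Pos3 → Pos3} (h : H1 S.s1 gs1) :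
    H1 (fun x => if 0 < x 2 then S.s1 x else 0) (fun x => if 0 < x 2 then gs1 x else 0) := by
  have hf : ∀ i, H1 (fun x : Config3 => if 0 < x (0, 2) then fam S 1 i x else 0)
      (fun x => if 0 < x (0, 2) then dfam S 1 i x else 0) := fun i =>
    (H10.half_of_odd (0, 2) (h1_fam S 1 i)
      (Eventually.of_forall fun x => by rw [rfl'_eq, odd_fam])).h1
  obtain ⟨m, hm, -⟩ := H1.pnorm p9 hf
  refine half_grad h (m := m) ?_
  refine H1.congr hm (Eventually.of_forall fun X => ?_) (Eventually.of_forall fun x => rfl)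
  simp only
  by_cases hX : 0 < X 2
  · simp only [jn9_zero, hX, if_true]
    unfold Sys.s1
    rw [s1sq_eq]
  · simp only [jn9_zero, hX, if_false]
    simp

end Crest.Agent.R335
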