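import Crest.Agent.R335.SyGam

/-!
Row 335 (S0521), interacting side, section 3.6 (helper759): the weighted identity for
`U = e^{a w} Γ` (gamma_identity).
-/

set_option autoImplicit false
set_option linter.unusedSectionVars false

open MeasureTheory Filter Set Crest.MathPhysics.ThreeBody
open scoped ENNReal Topology ContDiff

noncomputable section
namespace Crest.Agent.R335
namespace Sy

/-- weighted ion vector -/
def wΦ (a : ℝ) (Φ : Y2 → ℝ) (ξ : Y2) : ℝ := Real.exp (a * wi ξ) * Φ ξ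

theorem Yp_ew (a π : ℝ) (Y : Config3 → ℝ) (x : Config3) :
    Yp π (fun x => ew a x * Y x) x = ew a x * Yp π Y x := by
  unfold Yp ew
  simp only
  rw [w9_r12]; ring

theorem tn_ew (a : ℝ) (F : Pos3 → ℝ) (Φ : Y2 → ℝ) (x : Config3) :
    tn p9 F (wΦ a Φ) x = ew a x * tn p9 F Φ x := by
  unfold tn wΦ ew w9; ring

/-- `U = e^{aw} Γ` is in `H¹` -/
theorem U_H1 {a π : ℝ} {Y : Config3 → ℝ} {dY : Config3 → Config3} (hY : H1 Y dY) {Φ : Y2 → ℝ}
    (hΦ : MemLp Φ 2 volume) (hwY : ∃ d, H1 (fun x => ew a x * Y x) d)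
    (hwΦ : ∃ d, H1 (wΦ a Φ) d) : ∃ dU, H1 (fun x => ew a x * cR π Φ Y x) dU := by
  obtain ⟨d1, h1⟩ := hwY
  obtain ⟨d2, h2⟩ := hwΦ
  refine ⟨_, (Crest.Agent.R335.H1.sub (Yp_H1 π h1) (tn_H1 p9 (cF_H1 hY hΦ) h2)).congr
    (Eventually.of_forall fun x => ?_) (Filter.EventuallyEq.refl _ _)⟩
  simp only
  rw [Yp_ew, tn_ew]
  unfold cR tn
  ring

theorem cR_r12 {π : ℝ} (hπ : π = 1 ∨ π = -1) {Φ : Y2 → ℝ} (hp : ∀ ξ, Φ (rxi ξ) = π * Φ ξ)
    (Y : Config3 → ℝ) (x : Config3) : cR π Φ Y (r12 x) = π * cR π Φ Y x := by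
  unfold cR Yp
  rw [r12_r12, pr1_r12, pr2_r12, hp]
  rcases hπ with h | h <;> subst h <;> ring

/-- the weighted identity for the remainder `Γ` -/
theorem gamma_identity {D lam En σ e π a : ℝ} (ha : 0 ≤ a) (hπ : π = 1 ∨ π = -1)
    {Y : Config3 → ℝ} {dY : Config3 → Config3} (hY : Chan D lam En σ Y dY) {Φ : Y2 → ℝ}
    {dΦ : Y2 → Y2} (hΦ : H1 Φ dΦ) (hp : ∀ ξ, Φ (rxi ξ) = π * Φ ξ)
    (heq : ∀ k dk, H1 k dk → k2 D lam Φ dΦ k dk = e * ∫ ξ, Φ ξ * k ξ)
    (hwY : ∃ d, H1 (fun x => ew a x * Y x) d) (hwΦ : ∃ d, H1 (wΦ a Φ) d)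
    {U : Config3 → ℝ} {dU : Config3 → Config3} (hUd : ∀ x, U x = ew a x * cR π Φ Y x)
    (hU : H1 U dU) {k : Pos3 → ℝ} {l : Pos3 → Pos3}
    (hK : H1 (fun x => k (pr1 p9 x) * U x)
      (fun x => k (pr1 p9 x) • dU x + U x • jn p9 (l (pr1 p9 x)) 0)) :
    (1 / 2) * (∫ x, inner ℝ (dU x) (k (pr1 p9 x) • dU x + U x • jn p9 (l (pr1 p9 x)) 0)) +
      (∫ x, (V0 D lam x - En - a ^ 2 / 2 * ‖gr w9 x‖ ^ 2) * (k (pr1 p9 x) * U x ^ 2)) +
      lam * ((∫ x, W9 x * (ew a x * Y x * (k (pr1 p9 x) * U x))) -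
        ∫ x, W9 x * (Y x * tn p9 (cF (wΦ a Φ) (fun x => k (pr1 p9 x) * U x)) Φ x)) = 0 := by
  obtain ⟨C, hC⟩ := fb_V0 D lam
  obtain ⟨C', hC'⟩ := fb_W9
  obtain ⟨dwY, hwY⟩ := hwY
  obtain ⟨dwΦ, hwΦ⟩ := hwΦ
  obtain ⟨K9, hK9⟩ : ∃ K9 : Config3 → ℝ, K9 = fun x => k (pr1 p9 x) * U x := ⟨_, rfl⟩
  obtain ⟨dK9, hdK9⟩ : ∃ dK9 : Config3 → Config3, dK9 = fun x =>
    k (pr1 p9 x) • dU x + U x • jn p9 (l (pr1 p9 x)) 0 := ⟨_, rfl⟩
  rw [← hK9, ← hdK9] at hK
  suffices main : (1 / 2) * (∫ x, inner ℝ (dU x) (dK9 x)) +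
      (∫ x, (V0 D lam x - En - a ^ 2 / 2 * ‖gr w9 x‖ ^ 2) * (k (pr1 p9 x) * U x ^ 2)) +
      lam * ((∫ x, W9 x * (ew a x * Y x * K9 x)) -
        ∫ x, W9 x * (Y x * tn p9 (cF (wΦ a Φ) K9) Φ x)) = 0 by
    rw [hK9, hdK9] at main
    exact main
  have hΓ := cR_H1 π hΦ hY.h1
  obtain ⟨Γ, hΓd⟩ : ∃ Γ, Γ = cR π Φ Y := ⟨_, rfl⟩
  obtain ⟨dΓ, hdΓd⟩ : ∃ dΓ, dΓ = dcR π Φ dΦ Y dY := ⟨_, rfl⟩
  rw [← hΓd, ← hdΓd] at hΓ
  rw [← hΓd] at hUd
  -- gradient relation
  have hg1 : ∀ᵐ x, ew a x • dΓ x = dU x - (a * U x) • gr w9 x := by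
    have h1 := WG.mul_smooth isOpen_univ hΓ.wg (contDiff_ew a)
    have h2 : (fun x => ew a x * Γ x) = U := (funext hUd).symm
    rw [h2] at h1
    have h3 := WG.unique isOpen_univ hU.wg h1
    rw [Measure.restrict_univ] at h3
    filter_upwards [h3] with x hx
    rw [hx, gr_ew, smul_smul, hUd x]
    have : (Γ x * (a * ew a x)) = a * (ew a x * Γ x) := by ring
    rw [this]
    abel
  have hUg : MemLp (fun x => (a * U x) • gr w9 x) 2 volume := by
    refine MemLp.of_le_mul (c := |a| * 2) hU.memf ((hU.memf.aestronglyMeasurable.const_mul a).smul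
      (HL.measurable_gr w9).aestronglyMeasurable) (Eventually.of_forall fun x => ?_)
    rw [norm_smul, norm_mul, Real.norm_eq_abs, mul_assoc, mul_assoc]
    refine mul_le_mul_of_nonneg_left ?_ (abs_nonneg _)
    rw [mul_comm]
    exact mul_le_mul_of_nonneg_right (gr_w9_le x) (norm_nonneg _)
  have hewΓ : MemLp (fun x => ew a x • dΓ x) 2 volume :=
    (memLp_congr_ae hg1).2 (hU.memg.sub hUg)
  -- truncated test functions
  have hφ : ∀ n : ℕ, H1 (fun x => en a n x * K9 x)
      (fun x => en a n x • dK9 x + K9 x • gr (en a n) x) := by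
    intro n
    refine Crest.Agent.R335.H1.mul_bdd (C := max (Real.exp (a * n)) (2 * a * Real.exp (a * n)))
      hK (en_WG ha n) (fun x => ?_) (fun x => ?_)
    · rw [abs_of_pos (en_pos a n x)]
      exact (en_le ha n x).trans (le_max_left _ _)
    · refine (gr_en_le ha n x).trans (le_trans ?_ (le_max_right _ _))
      exact mul_le_mul_of_nonneg_left (en_le ha n x) (by positivity)
  have hpar : ∀ (n : ℕ) x, Yp π (fun x => en a n x * K9 x) x = en a n x * K9 x := by
    intro n x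
    have h1 : U (r12 x) = π * U x := by
      rw [hUd, hUd, hΓd, cR_r12 hπ hp]
      unfold ew; rw [w9_r12]; ring
    have h2 : en a n (r12 x) = en a n x := by unfold en; rw [w9_r12]
    simp only [Yp, hK9]
    rw [h2, pr1_r12, h1]
    rcases hπ with h | h <;> subst h <;> ring
  have key : ∀ n : ℕ, (1 / 2) * (∫ x, inner ℝ (dΓ x)
        (en a n x • dK9 x + K9 x • gr (en a n) x)) +
      (∫ x, V0 D lam x * (Γ x * (en a n x * K9 x))) +
      lam * ((∫ x, W9 x * (Y x * (en a n x * K9 x))) -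
        ∫ x, W9 x * (Y x * tn p9 (cF Φ (fun x => en a n x * K9 x)) Φ x)) =
      En * ∫ x, Γ x * (en a n x * K9 x) := by
    intro n
    have h1 := gamma_eq π hY hΦ heq (hφ n)
    rw [← hΓd, ← hdΓd] at h1
    unfold B0 at h1
    rw [← h1]
    have hF := cF_H1 (hφ n) hΦ.memf
    have e : ∫ x, W9 x * (Y x * (Yp π (fun x => en a n x * K9 x) x -
        tn p9 (cF Φ (fun x => en a n x * K9 x)) Φ x)) =
        (∫ x, W9 x * (Y x * (en a n x * K9 x))) -
        ∫ x, W9 x * (Y x * tn p9 (cF Φ (fun x => en a n x * K9 x)) Φ x) := by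
      rw [← integral_sub (hC'.int2 hY.h1 (hφ n)) (hC'.int2 hY.h1 (tn_H1 p9 hF hΦ))]
      refine integral_congr_ae (Eventually.of_forall fun x => ?_)
      simp only
      rw [hpar]; ring
    rw [e]
  -- limits
  have hev : ∀ x, ∀ᶠ n : ℕ in atTop, en a n x = ew a x ∧ gr (en a n) x = gr (ew a) x :=
    en_eventually a
  -- A
  have limA : Tendsto (fun n : ℕ => ∫ x, inner ℝ (dΓ x)
      (en a n x • dK9 x + K9 x • gr (en a n) x)) atTop
      (𝓝 (∫ x, inner ℝ (dΓ x) (ew a x • dK9 x + K9 x • gr (ew a) x))) := by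
    refine tendsto_integral_of_dominated_convergence
      (fun x => ‖ew a x • dΓ x‖ * (‖dK9 x‖ + 2 * a * ‖K9 x‖)) (fun n => ?_) ?_ (fun n => ?_) ?_
    · exact hΓ.memg.aestronglyMeasurable.inner (hφ n).memg.aestronglyMeasurable
    · have h1 : MemLp (fun x => ‖dK9 x‖ + 2 * a * ‖K9 x‖) 2 volume :=
        hK.memg.norm.add (hK.memf.norm.const_mul _)
      exact int_mul2 hewΓ.norm h1
    · refine Eventually.of_forall fun x => ?_
      have e1 := en_pos a n x
      have e2 := en_le_ew ha n x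
      have e3 := gr_en_le ha n x
      calc ‖inner ℝ (dΓ x) (en a n x • dK9 x + K9 x • gr (en a n) x)‖
          ≤ ‖dΓ x‖ * ‖en a n x • dK9 x + K9 x • gr (en a n) x‖ := norm_inner_le_norm _ _
        _ ≤ ‖dΓ x‖ * (en a n x * ‖dK9 x‖ + ‖K9 x‖ * (2 * a * en a n x)) := by
            refine mul_le_mul_of_nonneg_left ((norm_add_le _ _).trans ?_) (norm_nonneg _)
            rw [norm_smul, norm_smul, Real.norm_of_nonneg e1.le]
            gcongr
        _ = (en a n x * ‖dΓ x‖) * (‖dK9 x‖ + 2 * a * ‖K9 x‖) := by ring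
        _ ≤ (ew a x * ‖dΓ x‖) * (‖dK9 x‖ + 2 * a * ‖K9 x‖) := by gcongr
        _ = ‖ew a x • dΓ x‖ * (‖dK9 x‖ + 2 * a * ‖K9 x‖) := by
            rw [norm_smul, Real.norm_of_nonneg (ew_pos a x).le]
    · refine Eventually.of_forall fun x => ?_
      refine tendsto_nhds_of_eventually_eq ?_
      filter_upwards [hev x] with n hn
      rw [hn.1, hn.2]
  -- a general limit with potentials
  have limV : ∀ (V G H : Config3 → ℝ), AEStronglyMeasurable (fun x => V x * (G x * H x)) volume →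
      Integrable (fun x => V x * (ew a x * G x * H x)) →
      Tendsto (fun n : ℕ => ∫ x, V x * (G x * (en a n x * H x))) atTop
        (𝓝 (∫ x, V x * (ew a x * G x * H x))) := by
    intro V G H hm hi
    refine tendsto_integral_of_dominated_convergence (fun x => ‖V x * (ew a x * G x * H x)‖)
      (fun n => ?_) hi.norm (fun n => ?_) ?_
    · have h1 : AEStronglyMeasurable (en a n) (volume : Measure Config3) :=
        (en_lip ha n).continuous.aestronglyMeasurable
      refine (h1.mul hm).congr (Eventually.of_forall fun x => ?_)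
      simp only [Pi.mul_apply]; ring
    · refine Eventually.of_forall fun x => ?_
      have e1 := en_pos a n x
      have e2 := en_le_ew ha n x
      have e3 : V x * (G x * (en a n x * H x)) = en a n x * (V x * (G x * H x)) := by ring
      have e4 : V x * (ew a x * G x * H x) = ew a x * (V x * (G x * H x)) := by ring
      rw [e3, e4, norm_mul (en a n x), norm_mul (ew a x), Real.norm_of_nonneg e1.le,
        Real.norm_of_nonneg (ew_pos a x).le]
      exact mul_le_mul_of_nonneg_right e2 (norm_nonneg _)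
    · refine Eventually.of_forall fun x => ?_
      refine tendsto_nhds_of_eventually_eq ?_
      filter_upwards [hev x] with n hn
      rw [hn.1]; ring
  have hUeq : (fun x => ew a x * Γ x) = U := (funext hUd).symm
  have limB : Tendsto (fun n : ℕ => ∫ x, V0 D lam x * (Γ x * (en a n x * K9 x))) atTop
      (𝓝 (∫ x, V0 D lam x * (ew a x * Γ x * K9 x))) := by
    refine limV _ _ _ (hC.int2 hΓ hK).aestronglyMeasurable ?_
    have := hC.int2 hU hK
    refine this.congr (Eventually.of_forall fun x => ?_)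
    simp only
    rw [hUd x]
  have limE : Tendsto (fun n : ℕ => ∫ x, Γ x * (en a n x * K9 x)) atTop
      (𝓝 (∫ x, ew a x * Γ x * K9 x)) := by
    have h1 := limV (fun _ => 1) Γ K9 (by
      simp only [one_mul]; exact (int_mul2 hΓ.memf hK.memf).aestronglyMeasurable) (by
      simp only [one_mul]
      refine (int_mul2 hU.memf hK.memf).congr (Eventually.of_forall fun x => ?_)
      simp only
      rw [hUd x])
    simpa only [one_mul] using h1
  have limC : Tendsto (fun n : ℕ => ∫ x, W9 x * (Y x * (en a n x * K9 x))) atTop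
      (𝓝 (∫ x, W9 x * (ew a x * Y x * K9 x))) :=
    limV _ _ _ (hC'.int2 hY.h1 hK).aestronglyMeasurable (hC'.int2 hwY hK)
  -- D
  have limD : Tendsto (fun n : ℕ => ∫ x, W9 x * (Y x * tn p9 (cF Φ (fun x => en a n x * K9 x)) Φ x))
      atTop (𝓝 (∫ x, W9 x * (Y x * tn p9 (cF (wΦ a Φ) K9) Φ x))) := by
    have habsK := Crest.Agent.R335.H1.abs hK
    have habsΦ := Crest.Agent.R335.H1.abs hΦ
    have hbD := cF_H1 habsK (Crest.Agent.R335.H1.abs hwΦ).memf
    have hbT := tn_H1 p9 hbD habsΦ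
    -- pointwise limit
    have hpt : ∀ᵐ X : Pos3, (Tendsto (fun n : ℕ => cF Φ (fun x => en a n x * K9 x) X) atTop
        (𝓝 (cF (wΦ a Φ) K9 X))) ∧ ∀ n : ℕ, |cF Φ (fun x => en a n x * K9 x) X| ≤
          cF (fun ξ => |wΦ a Φ ξ|) (fun x => |K9 x|) X := by
      filter_upwards [slice_memLp p9 hK.memf] with X hX
      have hb : Integrable (fun ξ => |wΦ a Φ ξ| * |K9 (jn p9 X ξ)|) :=
        int_mul2 hwΦ.memf.abs hX.abs
      have hle : ∀ (n : ℕ) ξ, ‖Φ ξ * (en a n (jn p9 X ξ) * K9 (jn p9 X ξ))‖ ≤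
          |wΦ a Φ ξ| * |K9 (jn p9 X ξ)| := by
        intro n ξ
        have e1 := en_pos a n (jn p9 X ξ)
        have e2 := en_le_ew ha n (jn p9 X ξ)
        rw [ew_jn] at e2
        rw [norm_mul, norm_mul, Real.norm_of_nonneg e1.le, Real.norm_eq_abs, Real.norm_eq_abs,
          wΦ, abs_mul, abs_of_pos (Real.exp_pos _)]
        calc |Φ ξ| * (en a n (jn p9 X ξ) * |K9 (jn p9 X ξ)|)
            = en a n (jn p9 X ξ) * (|Φ ξ| * |K9 (jn p9 X ξ)|) := by ring
          _ ≤ Real.exp (a * wi ξ) * (|Φ ξ| * |K9 (jn p9 X ξ)|) :=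
              mul_le_mul_of_nonneg_right e2 (by positivity)
          _ = _ := by ring
      constructor
      · unfold cF
        refine tendsto_integral_of_dominated_convergence _ (fun n => ?_) hb
          (fun n => Eventually.of_forall (hle n)) (Eventually.of_forall fun ξ => ?_)
        · refine hΦ.memf.aestronglyMeasurable.mul (AEStronglyMeasurable.mul ?_
            hX.aestronglyMeasurable)
          have h1 : Continuous (fun ξ : Y2 => en a n (jn p9 X ξ)) :=
            (en_lip ha n).continuous.comp ((continuous_jn p9).comp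
              (by fun_prop : Continuous fun ξ : Y2 => (X, ξ)))
          exact h1.aestronglyMeasurable
        · refine tendsto_nhds_of_eventually_eq ?_
          filter_upwards [hev (jn p9 X ξ)] with n hn
          rw [hn.1, ew_jn]
          unfold wΦ; ring
      · intro n
        unfold cF
        calc |∫ ξ, Φ ξ * (en a n (jn p9 X ξ) * K9 (jn p9 X ξ))|
            ≤ ∫ ξ, ‖Φ ξ * (en a n (jn p9 X ξ) * K9 (jn p9 X ξ))‖ := by
              rw [← Real.norm_eq_abs]; exact norm_integral_le_integral_norm _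
          _ ≤ ∫ ξ, |wΦ a Φ ξ| * |K9 (jn p9 X ξ)| :=
              integral_mono_of_nonneg (Eventually.of_forall fun ξ => norm_nonneg _) hb
                (Eventually.of_forall (hle n))
    have hpt9 := (qmp_pr1 p9).ae hpt
    have hbint : Integrable (fun x => ‖W9 x * Y x‖ *
        ‖tn p9 (cF (fun ξ => |wΦ a Φ ξ|) (fun x => |K9 x|)) (fun ξ => |Φ ξ|) x‖) :=
      int_mul2 (memLp_W hY.h1).norm hbT.memf.norm
    refine tendsto_integral_of_dominated_convergence _ (fun n => ?_) hbint (fun n => ?_) ?_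
    · exact (hC'.int2 hY.h1 (tn_H1 p9 (cF_H1 (hφ n) hΦ.memf) hΦ)).aestronglyMeasurable
    · filter_upwards [hpt9] with x hx
      have h1 := hx.2 n
      unfold tn
      rw [← mul_assoc, norm_mul]
      refine mul_le_mul_of_nonneg_left ?_ (norm_nonneg _)
      rw [norm_mul, norm_mul]
      simp only [Real.norm_eq_abs, abs_abs]
      refine mul_le_mul_of_nonneg_right (h1.trans (le_abs_self _)) (abs_nonneg _)
    · filter_upwards [hpt9] with x hx
      unfold tn
      exact (((hx.1).mul_const _).const_mul _).const_mul _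
  have hlim := ((limA.const_mul (1 / 2)).add limB).add ((limC.sub limD).const_mul lam)
  have hfin := tendsto_nhds_unique (hlim.congr key) (limE.const_mul En)
  -- algebra
  have eA : ∫ x, inner ℝ (dΓ x) (ew a x • dK9 x + K9 x • gr (ew a) x) =
      (∫ x, inner ℝ (dU x) (dK9 x)) - ∫ x, a ^ 2 * ‖gr w9 x‖ ^ 2 * (K9 x * U x) := by
    have hi : Integrable (fun x => a ^ 2 * ‖gr w9 x‖ ^ 2 * (K9 x * U x)) := by
      have h1 := int_mul2 hK.memf hU.memf
      refine (h1.const_mul (a ^ 2)).bdd_mul (c := 4)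
        (f := fun x => ‖gr w9 x‖ ^ 2) ((HL.measurable_gr w9).norm.pow_const 2).aestronglyMeasurable
        (Eventually.of_forall fun x => ?_) |>.congr (Eventually.of_forall fun x => ?_)
      · rw [Real.norm_of_nonneg (sq_nonneg _)]
        nlinarith [gr_w9_le x, norm_nonneg (gr w9 x)]
      · simp only; ring
    rw [← integral_sub (int_inner hU.memg hK.memg) hi]
    refine integral_congr_ae ?_
    filter_upwards [hg1] with x hx
    have e1 : inner ℝ (dΓ x) (ew a x • dK9 x + K9 x • gr (ew a) x) =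
        inner ℝ (ew a x • dΓ x) (dK9 x + (a * K9 x) • gr w9 x) := by
      rw [gr_ew, inner_add_right, inner_add_right, inner_smul_right, inner_smul_left,
        inner_smul_left, inner_smul_right, inner_smul_right, inner_smul_right]
      simp only [conj_trivial]; ring
    have e2 : inner ℝ (gr w9 x) (dK9 x) = k (pr1 p9 x) * inner ℝ (gr w9 x) (dU x) := by
      simp only [hdK9]
      rw [inner_add_right, inner_smul_right, inner_smul_right, inner_gr_w9]; ring
    have e3 : inner ℝ (dU x) (dK9 x + (a * K9 x) • gr w9 x) =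
        inner ℝ (dU x) (dK9 x) + a * K9 x * inner ℝ (gr w9 x) (dU x) := by
      rw [inner_add_right, inner_smul_right, real_inner_comm (gr w9 x)]
    have e4 : inner ℝ ((a * U x) • gr w9 x) (dK9 x + (a * K9 x) • gr w9 x) =
        a * U x * (k (pr1 p9 x) * inner ℝ (gr w9 x) (dU x) + a * K9 x * ‖gr w9 x‖ ^ 2) := by
      rw [inner_smul_left, inner_add_right, inner_smul_right, real_inner_self_eq_norm_sq, e2]
      simp only [conj_trivial]
    rw [e1, hx, inner_sub_left, e3, e4]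
    simp only [hK9]; ring
  have eB : ∫ x, V0 D lam x * (ew a x * Γ x * K9 x) = ∫ x, V0 D lam x * (K9 x * U x) :=
    integral_congr_ae (Eventually.of_forall fun x => by simp only; rw [← hUd x]; ring)
  have eE : ∫ x, ew a x * Γ x * K9 x = ∫ x, K9 x * U x :=
    integral_congr_ae (Eventually.of_forall fun x => by simp only; rw [← hUd x]; ring)
  have iB : Integrable (fun x => V0 D lam x * (K9 x * U x)) := hC.int2 hK hU
  have iE : Integrable (fun x => K9 x * U x) := int_mul2 hK.memf hU.memf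
  have iG : Integrable (fun x => a ^ 2 * ‖gr w9 x‖ ^ 2 * (K9 x * U x)) := by
    refine (iE.const_mul (a ^ 2)).bdd_mul (c := 4)
      (f := fun x => ‖gr w9 x‖ ^ 2) ((HL.measurable_gr w9).norm.pow_const 2).aestronglyMeasurable
      (Eventually.of_forall fun x => ?_) |>.congr (Eventually.of_forall fun x => ?_)
    · rw [Real.norm_of_nonneg (sq_nonneg _)]
      nlinarith [gr_w9_le x, norm_nonneg (gr w9 x)]
    · simp only; ring
  have eF : ∫ x, (V0 D lam x - En - a ^ 2 / 2 * ‖gr w9 x‖ ^ 2) * (k (pr1 p9 x) * U x ^ 2) =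
      (∫ x, V0 D lam x * (K9 x * U x)) - En * (∫ x, K9 x * U x) -
        (1 / 2) * ∫ x, a ^ 2 * ‖gr w9 x‖ ^ 2 * (K9 x * U x) := by
    have iBE : Integrable (fun x => V0 D lam x * (K9 x * U x) - En * (K9 x * U x)) :=
      iB.sub (iE.const_mul _)
    rw [← integral_const_mul, ← integral_const_mul, ← integral_sub iB (iE.const_mul _),
      ← integral_sub iBE (iG.const_mul _)]
    refine integral_congr_ae (Eventually.of_forall fun x => ?_)
    simp only [hK9]; ring
  rw [eA, eB, eE] at hfin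
  rw [eF]
  linarith

end Sy
end Crest.Agent.R335
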