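import Crest.Agent.R335.VecFW
import Crest.Agent.R335.SyId
import Crest.Agent.R335.CO1

/-!
Row 335 (S0521), Part B sections 5-6 (note 10383): parity of the scalar functions of the sectors and
zero trace of the odd ones on the plane `z = 0` (helper465).
-/

set_option autoImplicit false
set_option linter.unusedSectionVars false
set_option linter.unusedVariables false

open MeasureTheory Filter Set Crest.MathPhysics.ThreeBody
open scoped ENNReal Topology ContDiff

noncomputable section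
namespace Crest.Agent.R335.BR.Par
open Crest.Agent.R335

theorem rz_eq' (x : Pos3) : rz x = rfl' 2 x := by
  ext i
  rw [rz_apply, rfl'_apply]

/-! ### pointwise parity -/

/-- projection of a function odd under the total reflection -/
theorem cF_rfl {Y : Config3 → ℝ} (hodd : ∀ x, Y (r9 x) = - Y x) {Φ : Y2 → ℝ} {π : ℝ}
    (hΦ : ∀ ξ, Φ (rxi ξ) = π * Φ ξ) (X : Pos3) : cF Φ Y (rfl' 2 X) = -π * cF Φ Y X := by
  rw [← rz_eq']
  unfold cF
  have h1 : ∀ ξ, Y (jn p9 (rz X) (rxi ξ)) = - Y (jn p9 X ξ) := fun ξ => by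
    rw [jn_rz_rxi]; exact hodd _
  have h2 : ∫ ξ, Φ ξ * Y (jn p9 (rz X) ξ) = ∫ ξ, Φ (rxi ξ) * Y (jn p9 (rz X) (rxi ξ)) :=
    ((rxi.measurePreserving).integral_comp rxi.toHomeomorph.measurableEmbedding
      (fun ξ => Φ ξ * Y (jn p9 (rz X) ξ))).symm
  rw [h2, ← integral_const_mul]
  refine integral_congr_ae (Eventually.of_forall fun ξ => ?_)
  show Φ (rxi ξ) * Y (jn p9 (rz X) (rxi ξ)) = -π * (Φ ξ * Y (jn p9 X ξ))
  rw [h1, hΦ]; ring

/-- parity part -/
theorem Yp_r {Y : Config3 → ℝ} (hodd : ∀ x, Y (r9 x) = - Y x) {π : ℝ} (hπ : π = 1 ∨ π = -1)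
    (x : Config3) : Yp π Y (r9 (r12 x)) = -π * Yp π Y x := by
  rw [CO.odd_Yp hodd]
  unfold Yp
  rcases hπ with h | h <;> subst h <;> ring

theorem cR_r {Y : Config3 → ℝ} (hodd : ∀ x, Y (r9 x) = - Y x) {π : ℝ} (hπ : π = 1 ∨ π = -1)
    {Φ : Y2 → ℝ} (hΦ : ∀ ξ, Φ (rxi ξ) = π * Φ ξ) (x : Config3) :
    cR π Φ Y (r9 (r12 x)) = -π * cR π Φ Y x := by
  unfold cR
  have e1 : pr1 p9 (r9 (r12 x)) = rfl' 2 (pr1 p9 x) := by
    rw [← rz_eq']
    ext c
    rw [rz_apply]
    simp only [CO.pr1_eq, elPos, r9_apply, r12_apply]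
    by_cases hc : c = 2 <;> simp [hc]
  have e2 : pr2 p9 (r9 (r12 x)) = pr2 p9 x := by
    ext ⟨j, c⟩
    simp only [pr2_apply]
    rw [r9_apply, r12_apply]
    by_cases hc : c = 2 <;> simp [p9, hc, Fin.succ_ne_zero]
  rw [e1, e2, Yp_r hodd hπ, cF_rfl hodd hΦ]
  ring

/-- weighted norm of a function with a sign under the reflection of the electron `0` -/
theorem wN_rfl {U : Config3 → ℝ} {s : ℝ} (hs : s = 1 ∨ s = -1)
    (hU : ∀ x, U (r9 (r12 x)) = s * U x) (b : ℝ) (X : Pos3) :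
    wN b U (rfl' 2 X) = wN b U X := by
  rw [← rz_eq']
  unfold wN
  congr 1
  refine integral_congr_ae (Eventually.of_forall fun ξ => ?_)
  show (Real.exp (b * wi ξ) * U (jn p9 (rz X) ξ)) ^ 2 = (Real.exp (b * wi ξ) * U (jn p9 X ξ)) ^ 2
  rw [jn_rz, hU]
  rcases hs with h | h <;> subst h <;> ring

/-! ### zero trace -/

/-- an `H¹` function vanishing for `z ≤ 0` -/
theorem H10_of_zero {f : Pos3 → ℝ} {g m : Pos3 → Pos3} (h : H1 f g)
    (h' : H1 (fun x => if 0 < x 2 then f x else 0) m) :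
    H10 {x : Pos3 | 0 < x 2} ({x : Pos3 | 0 < x 2}.indicator f)
      ({x : Pos3 | 0 < x 2}.indicator g) := by
  have h1 := CO.half_grad h h'
  have h2 := h1.sub (Crest.Agent.R335.H1.comp_rfl' 2 h1)
  have h3 := H10.half_of_odd 2 h2 (Eventually.of_forall fun x => by
    simp only [rfl'_rfl']; ring)
  have hneg : ∀ x : Pos3, 0 < x 2 → ¬ 0 < rfl' 2 x 2 := fun x hx => by
    rw [rfl'_apply, if_pos rfl]; linarith
  refine h3.congr (Eventually.of_forall fun x => ?_) (Eventually.of_forall fun x => ?_)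
  · by_cases hx : 0 < x 2
    · have : x ∈ {x : Pos3 | 0 < x 2} := hx
      rw [indicator_of_mem this]
      simp only [hx, if_true, if_neg (hneg x hx), sub_zero]
    · have : x ∉ {x : Pos3 | 0 < x 2} := hx
      rw [indicator_of_notMem this]
      simp only [hx, if_false]
  · by_cases hx : 0 < x 2
    · have : x ∈ {x : Pos3 | 0 < x 2} := hx
      rw [indicator_of_mem this]
      simp only [hx, if_true, if_neg (hneg x hx), rfl'_zero, sub_zero]
    · have : x ∉ {x : Pos3 | 0 < x 2} := hx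
      rw [indicator_of_notMem this]
      simp only [hx, if_false]

/-- absolute value of an odd function -/
theorem H10_abs_odd {f : Pos3 → ℝ} {g m : Pos3 → Pos3} (h : H1 f g)
    (hodd : ∀ x, f (rfl' 2 x) = - f x) (h' : H1 (fun x => |f x|) m) :
    H10 {x : Pos3 | 0 < x 2} ({x : Pos3 | 0 < x 2}.indicator fun x => |f x|)
      ({x : Pos3 | 0 < x 2}.indicator m) := by
  have h1 := (H10.half_of_odd 2 h (Eventually.of_forall hodd)).h1
  have h2 := Crest.Agent.R335.H1.abs h1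
  refine H10_of_zero h' (h2.congr (Eventually.of_forall fun x => ?_)
    (Filter.EventuallyEq.refl _ _))
  simp only
  split_ifs <;> simp

/-- weighted norm of a function odd in the electron `0` -/
theorem H10_wN {a : ℝ} {U : Config3 → ℝ} (hU : ∃ dU, H1 (fun x => Sy.ew a x * U x) dU)
    (hodd : ∀ x, U (r9 (r12 x)) = - U x) {d : Pos3 → Pos3} (h : H1 (wN a U) d) :
    H10 {x : Pos3 | 0 < x 2} ({x : Pos3 | 0 < x 2}.indicator (wN a U))
      ({x : Pos3 | 0 < x 2}.indicator d) := by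
  obtain ⟨dU, hdU⟩ := hU
  have hw : ∀ x, Sy.ew a (r9 (r12 x)) = Sy.ew a x := fun x => by
    unfold Sy.ew
    congr 2
    rw [VecF.w9_eq, VecF.w9_eq]
    have e : ∀ i : Fin 3, i ≠ 0 → elPos i (r9 (r12 x)) = elPos i x := fun i hi => by
      ext c
      simp only [elPos, r9_apply, r12_apply]
      by_cases hc : c = 2 <;> simp [hc, hi]
    rw [e 1 (by decide), e 2 (by decide)]
  have h1 : H1 (fun x : Config3 => if 0 < x (0, 2) then Sy.ew a x * U x else 0)
      (fun x => if 0 < x (0, 2) then dU x else 0) :=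
    (H10.half_of_odd (0, 2) hdU (Eventually.of_forall fun x => by
      rw [CO.rfl'_eq, hw, hodd]; ring)).h1
  obtain ⟨m, hm, -⟩ := Crest.Agent.R335.H1.pnorm (S := Unit) p9 (fun _ => h1)
  refine H10_of_zero h (m := m) ?_
  refine H1.congr hm (Eventually.of_forall fun X => ?_) (Eventually.of_forall fun x => rfl)
  simp only [Finset.univ_unique, Finset.sum_singleton, jn9_zero]
  by_cases hX : 0 < X 2
  · simp only [hX, if_true]
    rfl
  · simp only [hX, if_false]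
    simp only [ne_eq, OfNat.ofNat_ne_zero, not_false_eq_true, zero_pow, integral_zero,
      Real.sqrt_zero]

/-! ### the functions of the sectors -/

section sys
variable {cg C0 D : ℝ} {B : OBD cg C0 D} {K lam : ℝ} (S : Sys B K lam)

theorem oddT {Y : Config3 → ℝ} (hY : Y = S.YT ∨ Y = S.YB) (x : Config3) : Y (r9 x) = - Y x := by
  rcases hY with h | h <;> subst h
  · exact CO.odd_T S x
  · exact CO.odd_B S x

theorem F_rfl (x : Pos3) : S.F (rfl' 2 x) = - S.F x := by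
  have := cF_rfl (CO.odd_S S) (π := 1) S.ch0.par x
  unfold Sys.F
  rw [this]; ring

theorem absF_rfl (x : Pos3) : |S.F (rfl' 2 x)| = |S.F x| := by rw [F_rfl, abs_neg]

theorem c_rfl (x : Pos3) : S.c (rfl' 2 x) = S.c x := by
  have := cF_rfl (CO.odd_S S) (π := -1) S.ch1.par x
  unfold Sys.c
  rw [this]; ring

theorem P_rfl (x : Pos3) : S.P (rfl' 2 x) = S.P x :=
  wN_rfl (s := -1) (Or.inr rfl)
    (fun x => cR_r (π := 1) (CO.odd_S S) (Or.inl rfl) S.ch0.par x) B.a x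

theorem N_rfl (x : Pos3) : S.N (rfl' 2 x) = S.N x :=
  wN_rfl (s := - -1) (Or.inl (by norm_num))
    (fun x => cR_r (π := -1) (CO.odd_S S) (Or.inr rfl) S.ch1.par x) B.a x

theorem t_rfl {Y : Config3 → ℝ} (hY : Y = S.YT ∨ Y = S.YB) (x : Pos3) :
    S.t Y (rfl' 2 x) = S.t Y x := by
  have := cF_rfl (oddT S hY) (π := -1) S.chT.par x
  unfold Sys.t
  rw [this]; ring

theorem NT_rfl {Y : Config3 → ℝ} (hY : Y = S.YT ∨ Y = S.YB) (x : Pos3) :
    S.NT Y (rfl' 2 x) = S.NT Y x :=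
  wN_rfl (s := - -1) (Or.inl (by norm_num))
    (fun x => cR_r (π := -1) (oddT S hY) (Or.inr rfl) S.chT.par x) B.a x

theorem PT_rfl {Y : Config3 → ℝ} (hY : Y = S.YT ∨ Y = S.YB) (x : Pos3) :
    S.PT Y (rfl' 2 x) = S.PT Y x :=
  wN_rfl (s := -1) (Or.inr rfl)
    (fun x => Yp_r (π := 1) (oddT S hY) (Or.inl rfl) x) B.a x

theorem a_nonneg : 0 ≤ B.a := by
  have h := B.ob.eg_lt
  unfold OBD.a OBD.om
  linarith

theorem wΦ_H1 {C0 D K a : ℝ} (ha : 0 ≤ a) {Φ : Y2 → ℝ} (h : IonW C0 D K a Φ) :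
    ∃ d, H1 (Sy.wΦ a Φ) d := by
  obtain ⟨d, hd, -⟩ := h.w4
  have hl : LipschitzWith (‖(3 * a)‖₊ * 2) (fun ξ : Y2 => 3 * a * wi ξ) := by
    refine LipschitzWith.of_dist_le_mul fun x y => ?_
    have := Sy.wi_lip.dist_le_mul x y
    rw [Real.dist_eq] at this ⊢
    rw [← mul_sub, abs_mul, NNReal.coe_mul, coe_nnnorm, Real.norm_eq_abs, mul_assoc]
    exact mul_le_mul_of_nonneg_left this (abs_nonneg _)
  have h0 : ∀ ξ : Y2, 0 ≤ 3 * a * wi ξ := fun ξ => by
    have h1 : 0 ≤ wi ξ := by unfold wi jb; positivity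
    positivity
  have hm := Crest.Agent.R335.WG.of_lipschitz (VecF.exp_neg_lip hl h0)
  obtain ⟨C, hC⟩ : ∃ C : ℝ, C = ((‖(3 * a)‖₊ * 2 : NNReal) : ℝ) := ⟨_, rfl⟩
  have h1 := Crest.Agent.R335.H1.mul_bdd (C := max 1 C) hd hm.1 (fun x => ?_)
    (fun x => (hm.2 x).trans (by rw [hC]; exact le_max_right _ _))
  · refine ⟨_, h1.congr (ae_of_all _ fun x => ?_) (Filter.EventuallyEq.refl _ _)⟩
    simp only
    rw [← mul_assoc, ← Real.exp_add]
    unfold Sy.wΦ
    congr 2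
    ring
  · rw [abs_of_pos (Real.exp_pos _)]
    exact (Real.exp_le_one_iff.2 (by linarith [h0 x])).trans (le_max_left _ _)

theorem H10_P {d : Pos3 → Pos3} (h : H1 S.P d) :
    H10 {x : Pos3 | 0 < x 2} ({x : Pos3 | 0 < x 2}.indicator S.P)
      ({x : Pos3 | 0 < x 2}.indicator d) := by
  have ha := a_nonneg (B := B)
  obtain ⟨e, he⟩ := S.w0.w4
  refine H10_wN (Sy.U_H1 (CO.h1_S S) S.ch0.h1.memf
    (S.isW_YS.ew ha (by linarith)) (wΦ_H1 ha S.w0)) (fun x => ?_) h
  · have := cR_r (π := 1) (CO.odd_S S) (Or.inl rfl) S.ch0.par x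
    rw [this]; ring

theorem H10_PT {Y : Config3 → ℝ} (hY : Y = S.YT ∨ Y = S.YB) {d : Pos3 → Pos3}
    (h : H1 (S.PT Y) d) :
    H10 {x : Pos3 | 0 < x 2} ({x : Pos3 | 0 < x 2}.indicator (S.PT Y))
      ({x : Pos3 | 0 < x 2}.indicator d) := by
  have ha := a_nonneg (B := B)
  have hw : VecF.IsW B.a Y := by
    rcases hY with h | h <;> subst h
    · exact S.isW_YT
    · exact S.isW_YB
  obtain ⟨e, he⟩ := hw.ew ha (b := B.a) (by linarith)
  refine H10_wN (a := B.a) (U := Yp 1 Y) ⟨_, (Sy.Yp_H1 1 he).congr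
    (Eventually.of_forall fun x => Sy.Yp_ew _ _ _ _) (Filter.EventuallyEq.refl _ _)⟩
    (fun x => ?_) h
  have := Yp_r (π := 1) (oddT S hY) (Or.inl rfl) x
  rw [this]; ring

theorem H10_absF {d m : Pos3 → Pos3} (h : H1 S.F d) (h' : H1 (fun x => |S.F x|) m) :
    H10 {x : Pos3 | 0 < x 2} ({x : Pos3 | 0 < x 2}.indicator fun x => |S.F x|)
      ({x : Pos3 | 0 < x 2}.indicator m) := H10_abs_odd h (F_rfl S) h'

end sys

end Crest.Agent.R335.BR.Par
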