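import Crest.Agent.R335.BRDefs
import Crest.Agent.R335.BIface

/-!
Row 335 (S0521), Part B sections 4-7, singlet sector: PLAN (statements with `sorry`, namespace
`...R335.BRP`; each `BRP.xxx` is to be proved as `Crest.Agent.R335.BR.xxx` in the module named).
-/

set_option autoImplicit false
set_option linter.unusedVariables false

open MeasureTheory Filter Set Crest.MathPhysics.ThreeBody
open scoped ENNReal Topology ContDiff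

noncomputable section
namespace Crest.Agent.R335.BRP
open Crest.Agent.R335 Crest.Agent.R335.BR

/-- choice of the parameters (module BRPrm) -/
theorem prm_exists {D om m2 CD Cu CuD d1 A Ac Am an : ℝ} (hD : 4 ≤ D) (om0 : 0 < om)
    (om1 : om ≤ 1 / 8) (m20 : 0 < m2) (m21 : m2 ≤ 1) (hCD : 1 ≤ CD) (hCu : 0 ≤ Cu)
    (hCuD : 0 ≤ CuD) (hd : 0 < d1) (hA : 1 ≤ A) (hAc : 1 ≤ Ac) (hAm : 0 < Am) (han : 0 < an) :
    ∃ Ra : ℝ, ∀ R, Ra ≤ R → ∀ Z : ℝ, ∃ K K1 K2 l' : ℝ, Z ≤ K1 ∧ Z ≤ K2 ∧ 0 < l' ∧ l' ≤ 1 / 20 ∧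
      ∀ lam κ κS dS : ℝ, 0 < lam → lam ≤ l' → 9 / 10 ≤ κ → κ ≤ 11 / 10 → 9 / 10 ≤ κS →
        κS ≤ 11 / 10 → om ≤ κS ^ 2 - κ ^ 2 → κS ^ 2 - κ ^ 2 ≤ 3 * om → d1 ≤ dS → dS ≤ 4 * D →
        Prm (Nu.upd ⟨D, 0, 0, 0, om, m2, CD, Cu, CuD, 0, A, Ac, Am, an, K, K1, K2,
          2 * (CuD * (A + 1) + 1) / (A * m2), R⟩ lam κ κS dS) := sorry

/-- upper bounds (module BRUp, helper826) -/
theorem up_S {n : Nu} (pr : Prm n) {F c P N : Pos3 → ℝ} (h : SFn n F c P N)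
    (sh : ∀ᵐ x : Pos3, x ∈ (HExt n.R 2 : Set Pos3) → ‖x‖ < n.R + 1 → UpS n F c P N x) :
    ∀ᵐ x : Pos3, x ∈ (HExt n.R 2 : Set Pos3) → UpS n F c P N x := sorry

/-- lower bound of `F` (module BRLowF): comparison of `Am O⁺ - F` (odd, cut) with `K λ B₀` on the
half exterior; inputs: `BR.LF`, `Lx_Op_le`, `Lx_Bz_ge`, `OG.cut_H10`, `H10.half_of_odd`,
`H10.ep_half`, `cp` -/
theorem low_F {n : Nu} (pr : Prm n) {F c P N : Pos3 → ℝ} (h : SFn n F c P N)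
    (up : ∀ᵐ x : Pos3, x ∈ (HExt n.R 2 : Set Pos3) → UpS n F c P N x)
    (sh : ∀ᵐ x : Pos3, x ∈ (HExt n.R 2 : Set Pos3) → ‖x‖ < n.R + 1 →
      n.Am * Ox n.D n.κ n.p (-1) x ≤ F x) :
    ∀ᵐ x : Pos3, x ∈ (HExt n.R 2 : Set Pos3) →
      n.Am * Ox n.D n.κ n.p (-1) x - n.K * n.lam * Bz n.k x ≤ F x ∧
      n.Am / 2 * Ox n.D n.κ n.p (-1) x ≤ F x := sorry

/-- lower bound of `c` (module BRLowC): comparison of `lc` with `c` on the exterior (all functions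
even, so that only the pointwise inequality on `z > 0` is needed); inputs: `BR.Lc`, `Lx_Sp_le`,
`Lq_Tlow_le`, `H10.ep_ext`, `cp` -/
theorem low_c {n : Nu} (pr : Prm n) {F c P N : Pos3 → ℝ} (h : SFn n F c P N)
    (up : ∀ᵐ x : Pos3, x ∈ (HExt n.R 2 : Set Pos3) → UpS n F c P N x)
    (lf : ∀ᵐ x : Pos3, x ∈ (HExt n.R 2 : Set Pos3) → n.Am / 2 * Ox n.D n.κ n.p (-1) x ≤ F x)
    (sh : ∀ᵐ x : Pos3, x ∈ (HExt n.R 2 : Set Pos3) → ‖x‖ < n.R + 1 → n.lc x ≤ c x) :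
    ∀ᵐ x : Pos3, x ∈ (HExt n.R 2 : Set Pos3) → n.lc x ≤ c x := sorry

/-- the singlet fields of `BO.Scal` -/
structure FinS (n : Nu) (P K2 : ℝ) (F c PP N : Pos3 → ℝ) (x : Pos3) : Prop where
  Flow : CX.OO n.D n.κ n.Q 1 x ≤ P * F x
  Fup : F x ≤ P * CX.OO n.D n.κ n.Q (-1) x
  clow : CX.SS n.D n.κS n.Q 1 x +
    n.lam / n.om ^ 2 / ‖x‖ ^ 4 * CX.SS n.D n.κ n.Q 1 x ≤ P * c x
  cup : c x ≤ P * (CX.SS n.D n.κS n.Q (-1) x +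
    n.lam / n.om * (x 2 / ‖x‖ ^ 3) * CX.OO n.D n.κ n.Q (-1) x +
    n.lam / n.om ^ 2 / ‖x‖ ^ 4 * CX.SS n.D n.κ n.Q (-1) x)
  Nc : N x ≤ K2 * c x
  Nup : N x ≤ P * (CX.SS n.D n.κS n.Q (-1) x +
    n.lam / n.om * (x 2 / ‖x‖ ^ 3) * CX.OO n.D n.κ n.Q (-1) x +
    n.lam / n.om ^ 2 / ‖x‖ ^ 4 * CX.SS n.D n.κ n.Q (-1) x)
  Pf : PP x ≤ K2 * n.lam / ‖x‖ ^ 2 * F x

/-- final form of the bounds (module BRFin). `Nup`: the term `lam K2 e^{-kr}` of `bN` is `≤` the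
`SS κS` term for `r ≤ R'` (`lam` small) and `≤` the `r⁻⁴` term for `r ≥ R'`. -/
theorem fin_S (n0 : Nu) {d1 : ℝ} (hd1 : 0 < d1) : ∃ K2c l' : ℝ, 1 ≤ K2c ∧ 0 < l' ∧
    ∀ lam κ κS dS : ℝ, lam ≤ l' → d1 ≤ dS → Prm (n0.upd lam κ κS dS) →
      ∀ F c P N : Pos3 → ℝ, ∀ x ∈ (HExt n0.R 2 : Set Pos3), 0 ≤ P x → 0 ≤ N x →
        UpS (n0.upd lam κ κS dS) F c P N x →
        n0.Am / 2 * Ox n0.D κ (2 * (1 - lam) / κ - 1) (-1) x ≤ F x →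
        (n0.upd lam κ κS dS).lc x ≤ c x →
        FinS (n0.upd lam κ κS dS) (2 * n0.A + 2 / n0.Am + 1 / n0.an + 80 / (n0.Am * d1 * n0.D) +
          n0.Ac + 12 * n0.A * n0.D + 106 * n0.A * n0.D ^ 2 +
          n0.K3 * n0.A * (1 + 4.4 * n0.D / n0.m2) + 1) K2c F c P N x := sorry

end Crest.Agent.R335.BRP
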