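import Crest.Agent.R335.BRDefs
import Crest.Agent.R335.BIface

/-!
Row 335 (S0521), Part B sections 4-7, singlet sector: PLAN, second part (statements with `sorry`,
namespace `...R335.BRP`).
-/

set_option autoImplicit false
set_option linter.unusedVariables false

open MeasureTheory Filter Set Crest.MathPhysics.ThreeBody
open scoped ENNReal Topology ContDiff

noncomputable section
namespace Crest.Agent.R335.BRP
open Crest.Agent.R335 Crest.Agent.R335.BR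

/-- the system at fixed `λ` (module BRSys): from `BI.sys_S`, `BO.numbers`, `BR.Par`, `S.dip` -/
theorem sfn_of_sys {cg C0 D : ℝ} (hC : 1 ≤ C0) (hD : 4 ≤ D) (B : OBD cg C0 D) (K : ℝ) :
    ∃ K' l' : ℝ, 1 ≤ K' ∧ 0 < l' ∧ ∀ A Ac Am an Kp K1 K2 K3 R : ℝ, K' ≤ R →
      ∀ lam, 0 < lam → lam ≤ l' → ∀ S : Sys B K lam,
        SFn ⟨D, lam, S.κ, S.κS, B.om, cg / 32, max K' (16 * C0 * D), K', 64 * C0 * D, S.dip,
          A, Ac, Am, an, Kp, K1, K2, K3, R⟩ S.F S.c S.P S.N ∧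
        (9 / 10 ≤ S.κ ∧ S.κ ≤ 11 / 10) ∧ (9 / 10 ≤ S.κS ∧ S.κS ≤ 11 / 10) ∧
        B.om ≤ S.κS ^ 2 - S.κ ^ 2 ∧ S.κS ^ 2 - S.κ ^ 2 ≤ 3 * B.om ∧
        1 / C0 ≤ S.dip ∧ S.dip ≤ 4 * D := sorry

/-- upper bounds on the shell (module BRShU) -/
theorem shell_up {n : Nu} (pr : Prm n) {Cs : ℝ} (hCs : 0 ≤ Cs)
    (hK1 : 2 * Cs * Real.exp (1.2 * (n.R + 1)) ≤ n.K1)
    (hK2 : 2 * Cs * Real.exp (1.2 * (n.R + 1)) ≤ n.K2) {F c P N : Pos3 → ℝ} {x : Pos3}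
    (hx : x ∈ (HExt n.R 2 : Set Pos3)) (hr : ‖x‖ < n.R + 1)
    (hF : |F x| ≤ n.A * Ox n.D n.κ n.p 1 x) (hP : P x ≤ Cs * n.lam * min 1 (x 2))
    (hc : |c x| ≤ n.Ac * Sx n.D n.κS n.pS 1 x) (hN : N x ≤ Cs * n.lam) :
    UpS n F c P N x := sorry

/-- lower bound of `c` on the shell (module BRShU) -/
theorem shell_lc (n0 : Nu) (han : 0 < n0.an) : ∃ l' : ℝ, 0 < l' ∧ ∀ lam κ κS dS : ℝ, lam ≤ l' →
    Prm (n0.upd lam κ κS dS) → ∀ c : Pos3 → ℝ, ∀ x ∈ (HExt n0.R 2 : Set Pos3),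
      ‖x‖ < n0.R + 1 → 2 * n0.an * Sx n0.D κS (2 * (1 - lam) / κS - 1) (-1) x ≤ c x →
      (n0.upd lam κ κS dS).lc x ≤ c x := sorry

end Crest.Agent.R335.BRP
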