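import Crest.Agent.R335.BRDefs
import Crest.Agent.R335.XShell

/-!
Row 335 (S0521), Part B sections 4-7, singlet sector: choice of the parameters (helper737).
-/

set_option autoImplicit false
set_option linter.unusedVariables false

open MeasureTheory Filter Set Crest.MathPhysics.ThreeBody
open scoped ENNReal Topology ContDiff

noncomputable section
namespace Crest.Agent.R335.BR
open Crest.Agent.R335

namespace PrmE

theorem ev (X Y : ℝ) (hY : 0 < Y) : ∀ᶠ lam in 𝓝[>] (0 : ℝ), lam * X ≤ Y := by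
  have h1 : Tendsto (fun lam : ℝ => lam * X) (𝓝[>] (0 : ℝ)) (𝓝 (0 * X)) :=
    ((continuous_id.mul continuous_const).tendsto 0).mono_left nhdsWithin_le_nhds
  rw [zero_mul] at h1
  exact h1.eventually_le_const hY

theorem ex {P : ℝ → Prop} (h : ∀ᶠ lam in 𝓝[>] (0 : ℝ), P lam) :
    ∃ l : ℝ, 0 < l ∧ ∀ lam, 0 < lam → lam ≤ l → P lam := by
  obtain ⟨l, hl, h1⟩ := (mem_nhdsGT_iff_exists_Ioc_subset).1 h
  exact ⟨l, hl, fun lam h0 h2 => h1 ⟨h0, h2⟩⟩

theorem ru {R u X Y : ℝ} (hX : 0 ≤ X) (hY : 0 < Y) (hR : 0 < R) (h : X / Y ≤ R) (hu0 : 0 ≤ u)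
    (hu : u ≤ 1 / R) : u * X ≤ Y := by
  rw [div_le_iff₀ hY] at h
  have h1 : u * R ≤ 1 := by rwa [le_div_iff₀ hR] at hu
  nlinarith [mul_le_mul_of_nonneg_left h hu0]

end PrmE

open PrmE in
set_option maxHeartbeats 2000000 in
/-- choice of the parameters -/
theorem prm_exists {D om m2 CD Cu CuD d1 A Ac Am an : ℝ} (hD : 4 ≤ D) (om0 : 0 < om)
    (om1 : om ≤ 1 / 8) (m20 : 0 < m2) (m21 : m2 ≤ 1) (hCD : 1 ≤ CD) (hCu : 0 ≤ Cu)
    (hCuD : 0 ≤ CuD) (hd : 0 < d1) (hA : 1 ≤ A) (hAc : 1 ≤ Ac) (hAm : 0 < Am) (han : 0 < an) :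
    ∃ Ra : ℝ, ∀ R, Ra ≤ R → ∀ Z : ℝ, ∃ K K1 K2 l' : ℝ, Z ≤ K1 ∧ Z ≤ K2 ∧ 0 < l' ∧ l' ≤ 1 / 20 ∧
      ∀ lam κ κS dS : ℝ, 0 < lam → lam ≤ l' → 9 / 10 ≤ κ → κ ≤ 11 / 10 → 9 / 10 ≤ κS →
        κS ≤ 11 / 10 → om ≤ κS ^ 2 - κ ^ 2 → κS ^ 2 - κ ^ 2 ≤ 3 * om → d1 ≤ dS → dS ≤ 4 * D →
        Prm (Nu.upd ⟨D, 0, 0, 0, om, m2, CD, Cu, CuD, 0, A, Ac, Am, an, K, K1, K2,
          2 * (CuD * (A + 1) + 1) / (A * m2), R⟩ lam κ κS dS) := by
  have hD1 : (1 : ℝ) ≤ D := by linarith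
  have hD0 : (0 : ℝ) < D := by linarith
  have hA0 : (0 : ℝ) < A := by linarith
  have hAc0 : (0 : ℝ) < Ac := by linarith
  have hCD0 : (0 : ℝ) < CD := by linarith
  obtain ⟨R0, hR0, hR0a, hpt⟩ := XS.Pt hD1 (show 0 < om / 1000 by positivity)
  -- bounds needed from the radius
  set Y2 : ℝ := A * d1 * (1 / 5) with hY2
  set Y3 : ℝ := A * d1 with hY3
  set Y4 : ℝ := Am * d1 / 8 with hY4
  set Y5 : ℝ := Am * d1 * (1 / 5) with hY5
  have y2 : 0 < Y2 := by positivity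
  have y3 : 0 < Y3 := by positivity
  have y4 : 0 < Y4 := by positivity
  have y5 : 0 < Y5 := by positivity
  set X2 : ℝ := CD * (2 * A) with hX2
  set X4 : ℝ := CD * (2 * A) * (4.8 * D) + 36 * (CD * (2 * A)) with hX4
  have x2 : 0 ≤ X2 := by positivity
  have x4 : 0 ≤ X4 := by positivity
  refine ⟨max (max (max R0 (1000 / om)) (max (12 / m2) (X2 / Y2)))
    (max (max (X2 / Y3) (X4 / Y4)) (X2 / Y5)), fun R hR Z => ?_⟩
  have a1 : R0 ≤ R := ((le_max_left _ _).trans (le_max_left _ _)).trans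
    ((le_max_left _ _).trans hR)
  have a2 : 1000 / om ≤ R := ((le_max_right _ _).trans (le_max_left _ _)).trans
    ((le_max_left _ _).trans hR)
  have a3 : 12 / m2 ≤ R := ((le_max_left _ _).trans (le_max_right _ _)).trans
    ((le_max_left _ _).trans hR)
  have a4 : X2 / Y2 ≤ R := ((le_max_right _ _).trans (le_max_right _ _)).trans
    ((le_max_left _ _).trans hR)
  have a5 : X2 / Y3 ≤ R := ((le_max_left _ _).trans (le_max_left _ _)).trans
    ((le_max_right _ _).trans hR)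
  have a6 : X4 / Y4 ≤ R := ((le_max_right _ _).trans (le_max_left _ _)).trans
    ((le_max_right _ _).trans hR)
  have a7 : X2 / Y5 ≤ R := (le_max_right _ _).trans ((le_max_right _ _).trans hR)
  have hRp : 1 ≤ R := by
    have : (1 : ℝ) ≤ 10 ^ 7 * D ^ 2 := by nlinarith
    linarith
  have hRpos : 0 < R := by linarith
  -- the constants
  set γ0 : ℝ := 4.4 * D / m2 with hγ0
  set α0 : ℝ := 12 * D / om with hα0
  set β0 : ℝ := 8.8 * D / om with hβ0
  have hγ : 0 ≤ γ0 := by positivity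
  have hα : 0 ≤ α0 := by positivity
  have hβ : 0 ≤ β0 := by positivity
  set K3 : ℝ := 2 * (CuD * (A + 1) + 1) / (A * m2) with hK3
  have k3 : 0 ≤ K3 := by positivity
  obtain ⟨K, k0, kF2⟩ : ∃ K : ℝ, 0 ≤ K ∧ CD * (Ac + 2) ≤ K / 10 :=
    ⟨10 * (CD * (Ac + 2)), by positivity, by linarith⟩
  obtain ⟨K1, k10, kZ1, kP1, kP2⟩ : ∃ K1 : ℝ, 0 ≤ K1 ∧ Z ≤ K1 ∧
      CD * (2 * A + 6 * (Ac + 2)) + 1 ≤ K1 * (om / 16 * A) ∧
      CD * (Ac + 3) + 1 ≤ K1 * (om / 16) := by
    refine ⟨max (max 0 Z) (max ((CD * (2 * A + 6 * (Ac + 2)) + 1) / (om / 16 * A))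
      ((CD * (Ac + 3) + 1) / (om / 16))), (le_max_left _ _).trans (le_max_left _ _),
      (le_max_right _ _).trans (le_max_left _ _), ?_, ?_⟩
    · rw [← div_le_iff₀ (by positivity)]
      exact (le_max_left _ _).trans (le_max_right _ _)
    · rw [← div_le_iff₀ (by positivity)]
      exact (le_max_right _ _).trans (le_max_right _ _)
  obtain ⟨K2, k20, kZ2, kN1, kN3⟩ : ∃ K2 : ℝ, 0 ≤ K2 ∧ Z ≤ K2 ∧
      CD ≤ K2 * (m2 / 2) ∧ CD * (2 * A + 1) + 1 ≤ K2 * (m2 / 2) := by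
    refine ⟨max (max 0 Z) (max (CD / (m2 / 2)) ((CD * (2 * A + 1) + 1) / (m2 / 2))),
      (le_max_left _ _).trans (le_max_left _ _), (le_max_right _ _).trans (le_max_left _ _),
      ?_, ?_⟩
    · rw [← div_le_iff₀ (by positivity)]
      exact (le_max_left _ _).trans (le_max_right _ _)
    · rw [← div_le_iff₀ (by positivity)]
      exact (le_max_right _ _).trans (le_max_right _ _)
  have kN2 : K3 * A * (m2 / 2) = CuD * (A + 1) + 1 := by
    rw [hK3]; field_simp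
  -- lam part of c2, c3, Lc2, Lc3
  set W1 : ℝ := CD * (A * α0 * (1 + 1 * K2) + K3 * A + K1 * (A + 1)) with hW1
  set W2 : ℝ := CD * (A * α0 * β0 * (1 + 1 * K2) + K3 * A * γ0 + K2 + K1 * (A + 1)) with hW2
  have w1 : 0 ≤ W1 := by positivity
  have w2 : 0 ≤ W2 := by positivity
  obtain ⟨l', hl', hall⟩ := ex (
    (ev 1 (1 / 20) (by norm_num)).and <|
    (ev (A * (α0 * (1 + β0))) 1 one_pos).and <|
    (ev (K2 * (Ac + 1) + K3 * A * (1 + γ0) + K2) 1 one_pos).and <|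
    (ev (K + K1 * (A + 1)) A hA0).and <|
    (ev (Cu * (6 * K2 * (Ac + 1) + K3 * A * (1 + 6 * γ0) + K2)) 1 one_pos).and <|
    (ev (CD * (2 * A + 6 * (Ac + 2))) (A * (1 / 20)) (by positivity)).and <|
    (ev K (A * (1 / 10)) (by positivity)).and <|
    (ev (CD * (1 + 1 * K2)) (1 / 10) (by norm_num)).and <|
    (ev (W1 + 4 * D * K) Y2 y2).and <|
    (ev W2 Y3 y3).and <|
    (ev (CuD * K + (CD + Cu) * (K1 * (A + 1))) 1 one_pos).and <|
    (ev (CD * (K1 * (A + 1))) 1 one_pos).and <|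
    (ev (8 * (2 * CD + Cu + CuD + 4 * D)) (4 / 10) (by norm_num)).and <|
    (ev ((CD * (2 * A + 6 * (Ac + 2)) + K) * (4.8 * D)) (Am * (1 / 20)) (by positivity)).and <|
    (ev (K * (4.8 * D)) (Am / 2) (by positivity)).and <|
    (ev (CD * (Ac * (1 + 1 * K2))) (an * (1 / 20)) (by positivity)).and <|
    (ev (W1 * (4.8 * D) + 36 * W2) Y4 y4).and
    (ev W2 Y5 y5))
  refine ⟨K, K1, K2, min l' (1 / 20), kZ1, kZ2, lt_min hl' (by norm_num), min_le_right _ _,
    fun lam κ κS dS h0 hl hκ1 hκ2 hκS1 hκS2 hq1 hq2 hd1 hd2 => ?_⟩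
  obtain ⟨e0, e1, e2, e3, e4, e5, e6, e7, e8, e9, e10, e11, e12, e13, e14, e15, e16, e17⟩ :=
    hall lam h0 (hl.trans (min_le_left _ _))
  have hl1 : lam ≤ 1 := by linarith
  have hq0 : 0 < κS ^ 2 - κ ^ 2 := by linarith
  have hdS : 0 < dS := by linarith
  have hκ0 : 0 < κ := by linarith
  have hκD1 : κ * D ≤ 11 / 10 * D := mul_le_mul_of_nonneg_right hκ2 hD0.le
  have hκD2 : (9 : ℝ) / 10 * 4 ≤ κ * D := mul_le_mul hκ1 hD (by norm_num) hκ0.le
  set q := κS ^ 2 - κ ^ 2 with hq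
  -- α, β, γ
  have bα0 : 0 ≤ 3 * dS / q := by positivity
  have bα1 : 3 * dS / q ≤ α0 := by
    rw [hα0]
    refine (div_le_div_of_nonneg_right (show 3 * dS ≤ 12 * D by linarith) hq0.le).trans ?_
    exact div_le_div_of_nonneg_left (by positivity) om0 hq1
  have bβ0 : 0 ≤ 8 * κ * D / q := by positivity
  have bβ1 : 8 * κ * D / q ≤ β0 := by
    rw [hβ0]
    refine (div_le_div_of_nonneg_right (show 8 * κ * D ≤ 8.8 * D by
      rw [mul_assoc]; linarith) hq0.le).trans ?_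
    exact div_le_div_of_nonneg_left (by positivity) om0 hq1
  have bγ0 : 0 ≤ 4 * κ * D / m2 := by positivity
  have bγ1 : 4 * κ * D / m2 ≤ γ0 := by
    rw [hγ0]
    exact div_le_div_of_nonneg_right (show 4 * κ * D ≤ 4.4 * D by
      rw [mul_assoc]; linarith) m20.le
  have bαq : 3 * dS / q * q = 3 * dS := by field_simp
  have hqs : d1 * q ≤ d1 * (3 / 8) := mul_le_mul_of_nonneg_left (by linarith) hd.le
  have bαlo : 8 * d1 ≤ 3 * dS / q := by
    rw [le_div_iff₀ hq0, mul_assoc]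
    linarith
  have bl0 : 0 ≤ dS / q := by positivity
  have blq : dS / q * q = dS := by field_simp
  have bllo : 8 / 3 * d1 ≤ dS / q := by
    rw [le_div_iff₀ hq0, mul_assoc]
    linarith
  have hB1 : lam * (CD * (A * (3 * dS / q) * (1 + lam * K2) + K3 * A + K1 * (A + 1))) ≤
      lam * W1 := by
    rw [hW1]; gcongr
  have hB2 : lam * (CD * (A * (3 * dS / q) * (8 * κ * D / q) * (1 + lam * K2) +
      K3 * A * (4 * κ * D / m2) + K2 + K1 * (A + 1))) ≤ lam * W2 := by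
    rw [hW2]; gcongr
  have hR1 : ∀ u, 0 ≤ u → u ≤ 1 / R → u ≤ 1 ∧ u ^ 2 ≤ u := fun u hu0 hu => by
    have : u ≤ 1 := hu.trans (by rw [div_le_one hRpos]; exact hRp)
    exact ⟨this, by rw [sq]; exact mul_le_of_le_one_left hu0 this⟩
  constructor
  case D1 => exact hD1
  case l0 => exact h0
  case l1 => exact hl.trans (min_le_right _ _)
  case κ1 => exact hκ1
  case κ2 => exact hκ2
  case κS1 => exact hκS1
  case κS2 => exact hκS2
  case om0 => exact om0
  case om1 => exact om1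
  case q2lo => exact hq1
  case q2hi => exact hq2
  case m20 => exact m20
  case m21 => exact m21
  case dS0 => exact hdS
  case dS2 => exact hd2
  case pos =>
    exact ⟨hA0, hAc0, bα0, bβ0, bγ0, k0, k10, k20, k3, h0.le, hCD0.le, hCu, hCuD⟩
  case Am0 => exact hAm
  case an0 => exact han
  case r0 => exact hR0.trans a1
  case ra =>
    show 30 ≤ om / 1000 * R
    exact hR0a.trans (mul_le_mul_of_nonneg_left a1 (by positivity))
  case r1 =>
    show 1000 ≤ om * R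
    rw [div_le_iff₀ om0] at a2
    linarith
  case r2 =>
    show 12 ≤ m2 * R
    rw [div_le_iff₀ m20] at a3
    linarith
  case pt => exact fun κ Q p h x hx hz => hpt κ Q p h x (a1.trans hx) hz
  case h1 =>
    show lam * (A * (3 * dS / q * (1 + 8 * κ * D / q))) ≤ 1
    refine le_trans ?_ e1
    gcongr
  case h2 =>
    show lam * (K2 * (Ac + 1) + K3 * A * (1 + 4 * κ * D / m2) + K2) ≤ 1
    refine le_trans ?_ e2
    gcongr
  case h3 => exact e3
  case h4 =>
    show lam * (Cu * (6 * K2 * (Ac + 1) + K3 * A * (1 + 6 * (4 * κ * D / m2)) + K2)) ≤ 1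
    refine le_trans ?_ e4
    gcongr
  case F1 =>
    show lam * (CD * (2 * A + 6 * (Ac + 2))) ≤ A * (κ / 8) / 2
    have : A * (9 / 10) ≤ A * κ := mul_le_mul_of_nonneg_left hκ1 hA0.le
    linarith
  case F2 => exact kF2
  case F3 =>
    show K * lam ≤ A * (κ / 8)
    have : A * (9 / 10) ≤ A * κ := mul_le_mul_of_nonneg_left hκ1 hA0.le
    linarith
  case P1 => exact kP1
  case P2 => exact kP2
  case c1 =>
    show lam * (CD * (1 + lam * K2)) ≤ κ / 8
    have : lam * (CD * (1 + lam * K2)) ≤ lam * (CD * (1 + 1 * K2)) := by gcongr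
    linarith
  case c2 =>
    intro u hu0 hu
    show CD * (2 * A * u) + lam * (CD * (A * (3 * dS / q) * (1 + lam * K2) + K3 * A +
      K1 * (A + 1)) + dS * K) + dS * A ≤ A * (3 * dS / q * (0.99 * (q / 2)))
    have hr := ru x2 y2 hRpos a4 hu0 hu
    have e : A * (3 * dS / q * (0.99 * (q / 2))) = 1.485 * (A * dS) := by
      rw [show A * (3 * dS / q * (0.99 * (q / 2))) = A * (0.495 * (3 * dS / q * q)) by ring, bαq]
      ring
    rw [e]
    have f1 : lam * (dS * K) ≤ lam * (4 * D * K) := by gcongr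
    have f2 : A * d1 ≤ A * dS := mul_le_mul_of_nonneg_left hd1 hA0.le
    have f3 : CD * (2 * A * u) = u * X2 := by rw [hX2]; ring
    rw [f3]
    rw [hY2] at hr e8
    rw [mul_add] at e8
    rw [mul_add lam]
    linarith
  case c3 =>
    intro u hu0 hu
    show CD * (2 * A * u ^ 2) + lam * (CD * (A * (3 * dS / q) * (8 * κ * D / q) *
      (1 + lam * K2) + K3 * A * (4 * κ * D / m2) + K2 + K1 * (A + 1))) ≤
      A * (3 * dS / q * (2.8 * κ * D))
    have hr := ru x2 y3 hRpos a5 hu0 hu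
    obtain ⟨u1, u2⟩ := hR1 u hu0 hu
    have f3 : CD * (2 * A * u ^ 2) ≤ u * X2 := by
      rw [hX2]
      have : CD * (2 * A * u ^ 2) ≤ CD * (2 * A * u) := by gcongr
      linarith
    have f4 : A * d1 * 2 ≤ A * (3 * dS / q * (2.8 * κ * D)) := by
      have g1 : (10 : ℝ) ≤ 2.8 * κ * D := by rw [mul_assoc]; linarith
      have g2 : 8 * d1 * 10 ≤ 3 * dS / q * (2.8 * κ * D) :=
        mul_le_mul bαlo g1 (by norm_num) bα0
      have g3 := mul_le_mul_of_nonneg_left g2 hA0.le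
      have g4 : 0 < A * d1 := by positivity
      linarith
    rw [hY3] at hr e9
    linarith
  case N1 => exact kN1
  case N2 =>
    show CuD * (A + lam * K) + lam * ((CD + Cu) * (K1 * (A + 1))) ≤ K3 * A * (m2 / 2)
    rw [kN2]
    have : CuD * (A + lam * K) + lam * ((CD + Cu) * (K1 * (A + 1))) =
      CuD * A + lam * (CuD * K + (CD + Cu) * (K1 * (A + 1))) := by ring
    rw [this]
    linarith
  case N3 =>
    show CD * (2 * A + 1) + lam * (CD * (K1 * (A + 1))) ≤ K2 * (m2 / 2)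
    linarith
  case s1 =>
    show lam * (8 * (2 * CD + Cu + CuD + dS)) ≤ 4 / 10
    refine le_trans ?_ e12
    gcongr
  case LF1 =>
    show lam * (CD * (2 * A + 6 * (Ac + 2)) + K) * (4.8 * D) ≤ Am * (κ / 16)
    have : Am * (1 / 20) ≤ Am * (κ / 16) := mul_le_mul_of_nonneg_left (by linarith) hAm.le
    rw [mul_assoc]
    linarith
  case LF2 =>
    show K * lam * (4.8 * D) ≤ Am / 2
    rw [show K * lam * (4.8 * D) = lam * (K * (4.8 * D)) by ring]
    exact e14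
  case Lc1 =>
    show lam * (CD * (Ac * (1 + lam * K2))) ≤ an * (κ / 16)
    have f1 : lam * (CD * (Ac * (1 + lam * K2))) ≤ lam * (CD * (Ac * (1 + 1 * K2))) := by gcongr
    have f2 : an * (1 / 20) ≤ an * (κ / 16) := mul_le_mul_of_nonneg_left (by linarith) han.le
    linarith
  case Lc2 =>
    intro u hu0 hu
    show (CD * (2 * A * u) + lam * (CD * (A * (3 * dS / q) * (1 + lam * K2) + K3 * A +
      K1 * (A + 1)))) * (4.8 * D) + 36 * (CD * (2 * A * u ^ 2) + lam * (CD * (A * (3 * dS / q) *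
      (8 * κ * D / q) * (1 + lam * K2) + K3 * A * (4 * κ * D / m2) + K2 + K1 * (A + 1)))) ≤
      Am / 2 * (dS - dS / q * (q / 2))
    have hr := ru x4 y4 hRpos a6 hu0 hu
    obtain ⟨u1, u2⟩ := hR1 u hu0 hu
    have e : Am / 2 * (dS - dS / q * (q / 2)) = Am * dS / 4 := by
      rw [show dS / q * (q / 2) = (dS / q * q) / 2 by ring, blq]; ring
    rw [e]
    have f1 : CD * (2 * A * u ^ 2) ≤ CD * (2 * A * u) := by gcongr
    have f2 : Am * d1 ≤ Am * dS := mul_le_mul_of_nonneg_left hd1 hAm.le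
    have f3 : u * X4 = CD * (2 * A * u) * (4.8 * D) + 36 * (CD * (2 * A * u)) := by
      rw [hX4]; ring
    have f4 := mul_le_mul_of_nonneg_right hB1 (show 0 ≤ 4.8 * D by positivity)
    rw [f3] at hr
    rw [hY4] at hr e16
    rw [add_mul]
    linarith
  case Lc3 =>
    intro u hu0 hu
    show CD * (2 * A * u ^ 2) + lam * (CD * (A * (3 * dS / q) * (8 * κ * D / q) *
      (1 + lam * K2) + K3 * A * (4 * κ * D / m2) + K2 + K1 * (A + 1))) ≤
      Am / 2 * (dS / q * (0.35 * κ * D))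
    have hr := ru x2 y5 hRpos a7 hu0 hu
    obtain ⟨u1, u2⟩ := hR1 u hu0 hu
    have f3 : CD * (2 * A * u ^ 2) ≤ u * X2 := by
      rw [hX2]
      have : CD * (2 * A * u ^ 2) ≤ CD * (2 * A * u) := by gcongr
      linarith
    have f4 : Am * d1 * (2 / 5) ≤ Am / 2 * (dS / q * (0.35 * κ * D)) := by
      have g1 : (1.26 : ℝ) ≤ 0.35 * κ * D := by rw [mul_assoc]; linarith
      have g2 : 8 / 3 * d1 * 1.26 ≤ dS / q * (0.35 * κ * D) :=
        mul_le_mul bllo g1 (by norm_num) bl0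
      have g3 := mul_le_mul_of_nonneg_left g2 (show 0 ≤ Am / 2 by positivity)
      have g4 : 0 < Am * d1 := by positivity
      linarith
    rw [hY5] at hr e17
    linarith

end Crest.Agent.R335.BR
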