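import Crest.Agent.R335.BRUpA

/-!
Row 335 (S0521), Part B sections 4-7, singlet sector: the bounds on the shell `R < |x| < R + 1`
(helper737): `BRP.shell_up`, `BRP.shell_lc`.
-/

set_option autoImplicit false
set_option linter.unusedVariables false

open MeasureTheory Filter Set Crest.MathPhysics.ThreeBody
open scoped ENNReal Topology ContDiff

noncomputable section
namespace Crest.Agent.R335.BR
open Crest.Agent.R335

namespace ShU

theorem fz_ge {x : Pos3} (hz : 0 < x 2) : min 1 (x 2) / 2 ≤ fz x := by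
  unfold fz
  have h1 : Real.exp (-(x 2)) ≤ 1 / (1 + x 2) := by
    rw [Real.exp_neg, inv_eq_one_div]
    exact one_div_le_one_div_of_le (by linarith) (by linarith [Real.add_one_le_exp (x 2)])
  have h2 : min 1 (x 2) / 2 ≤ 1 - 1 / (1 + x 2) := by
    have e : 1 - 1 / (1 + x 2) = x 2 / (1 + x 2) := by field_simp; ring
    rw [e, le_div_iff₀ (by linarith)]
    rcases le_total (x 2) 1 with h | h
    · rw [min_eq_right h]; nlinarith
    · rw [min_eq_left h]; linarith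
  linarith

theorem exr_ge {k R : ℝ} (hk0 : 0 ≤ k) (hk : k ≤ 1.2) {x : Pos3} (hr : ‖x‖ < R + 1) :
    1 ≤ Real.exp (1.2 * (R + 1)) * exr k x := by
  unfold exr
  rw [← Real.exp_add]
  refine Real.one_le_exp ?_
  have h1 : k * ‖x‖ ≤ 1.2 * (R + 1) :=
    mul_le_mul hk hr.le (norm_nonneg _) (by norm_num)
  linarith

end ShU

/-- upper bounds on the shell -/
theorem shell_up {n : Nu} (pr : Prm n) {Cs : ℝ} (hCs : 0 ≤ Cs)
    (hK1 : 2 * Cs * Real.exp (1.2 * (n.R + 1)) ≤ n.K1)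
    (hK2 : 2 * Cs * Real.exp (1.2 * (n.R + 1)) ≤ n.K2) {F c P N : Pos3 → ℝ} {x : Pos3}
    (hx : x ∈ (HExt n.R 2 : Set Pos3)) (hr : ‖x‖ < n.R + 1)
    (hF : |F x| ≤ n.A * Ox n.D n.κ n.p 1 x) (hP : P x ≤ Cs * n.lam * min 1 (x 2))
    (hc : |c x| ≤ n.Ac * Sx n.D n.κS n.pS 1 x) (hN : N x ≤ Cs * n.lam) :
    UpS n F c P N x := by
  have hz : 0 < x 2 := hx.2
  have hR : n.R < ‖x‖ := hx.1
  have hr0 : 0 < ‖x‖ := by linarith [pr.R1]
  have hO := pr.O0 hx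
  have hS : 0 ≤ Sx n.D n.κ n.p 1 x := (Sx_pos pr.m1 (pr.far2 hx).far.reg).le
  have hSS := pr.SS0 hx
  have l0 := pr.l0
  have hk0 : 0 ≤ n.k := by
    unfold Nu.k
    linarith [pr.κ1, pr.a0]
  have hk1 : n.k ≤ 1.2 := by
    unfold Nu.k
    linarith [pr.κ2, pr.a1]
  have hek := ShU.exr_ge hk0 hk1 hr
  have he := exr_pos n.k x
  have hfz := ShU.fz_ge hz
  have hmin : 0 ≤ min 1 (x 2) := le_min zero_le_one hz.le
  have hBz : 0 ≤ Bz n.k x := mul_nonneg he.le (fz_nonneg hz.le)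
  have hu : 0 ≤ 1 / ‖x‖ := by positivity
  have hA := pr.pos.A
  have hT1 : 0 ≤ Tv (1 / ‖x‖) (x 2) (Ox n.D n.κ n.p 1 x) (Sx n.D n.κ n.p 1 x) n.β := by
    unfold Tv
    have := pr.pos.β
    positivity
  have hT2 : 0 ≤ Tv (1 / ‖x‖) (x 2) (Ox n.D n.κ n.p 1 x) (Sx n.D n.κ n.p 1 x) n.γ := by
    unfold Tv
    have := pr.pos.γ
    positivity
  have hα := pr.pos.α
  refine ⟨?_, ?_, ?_, ?_⟩
  · rw [bF_eq pr hx]
    unfold bF
    have : 0 ≤ n.K * n.lam * Bz n.k x := mul_nonneg (mul_nonneg pr.pos.K l0.le) hBz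
    linarith
  · rw [bP_eq pr hx]
    unfold bP
    refine hP.trans ?_
    have h1 : min 1 (x 2) / 2 ≤ Real.exp (1.2 * (n.R + 1)) * Bz n.k x := by
      unfold Bz
      calc min 1 (x 2) / 2 ≤ 1 * (min 1 (x 2) / 2) := by rw [one_mul]
        _ ≤ (Real.exp (1.2 * (n.R + 1)) * exr n.k x) * fz x :=
          mul_le_mul hek hfz (by positivity) (by positivity)
        _ = Real.exp (1.2 * (n.R + 1)) * (exr n.k x * fz x) := by ring
    have h2 : Cs * n.lam * min 1 (x 2) ≤ n.K1 * n.lam * Bz n.k x := by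
      calc Cs * n.lam * min 1 (x 2) = 2 * Cs * n.lam * (min 1 (x 2) / 2) := by ring
        _ ≤ 2 * Cs * n.lam * (Real.exp (1.2 * (n.R + 1)) * Bz n.k x) :=
          mul_le_mul_of_nonneg_left h1 (by positivity)
        _ = (2 * Cs * Real.exp (1.2 * (n.R + 1))) * (n.lam * Bz n.k x) := by ring
        _ ≤ n.K1 * (n.lam * Bz n.k x) := mul_le_mul_of_nonneg_right hK1 (by positivity)
        _ = n.K1 * n.lam * Bz n.k x := by ring
    have h3 : 0 ≤ n.K1 * n.lam * (n.A * ((1 / ‖x‖) ^ 2 * Ox n.D n.κ n.p 1 x)) := by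
      have := pr.pos.K1
      positivity
    rw [mul_add]
    linarith
  · rw [bc_eq]
    unfold bc
    have : 0 ≤ n.lam * n.A * (n.α * Tv (1 / ‖x‖) (x 2) (Ox n.D n.κ n.p 1 x)
      (Sx n.D n.κ n.p 1 x) n.β) := by positivity
    linarith
  · rw [bN_eq]
    unfold bN
    refine hN.trans ?_
    have hK20 := pr.pos.K2
    have hK30 := pr.pos.K3
    have h2 : Cs * n.lam ≤ n.lam * (n.K2 * exr n.k x) := by
      calc Cs * n.lam ≤ 2 * (Cs * n.lam) * 1 := by nlinarith [mul_nonneg hCs l0.le]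
        _ ≤ 2 * (Cs * n.lam) * (Real.exp (1.2 * (n.R + 1)) * exr n.k x) :=
          mul_le_mul_of_nonneg_left hek (by positivity)
        _ = (2 * Cs * Real.exp (1.2 * (n.R + 1))) * (n.lam * exr n.k x) := by ring
        _ ≤ n.K2 * (n.lam * exr n.k x) := mul_le_mul_of_nonneg_right hK2 (by positivity)
        _ = n.lam * (n.K2 * exr n.k x) := by ring
    have hbc : 0 ≤ bc n.A n.Ac n.α n.β n.lam (1 / ‖x‖) (x 2) (Ox n.D n.κ n.p 1 x)
        (Sx n.D n.κ n.p 1 x) (Sx n.D n.κS n.pS 1 x) := by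
      unfold bc
      have := pr.pos.Ac
      positivity
    have h3 : 0 ≤ n.lam * (n.K2 * ((1 / ‖x‖) ^ 2 * bc n.A n.Ac n.α n.β n.lam (1 / ‖x‖) (x 2)
      (Ox n.D n.κ n.p 1 x) (Sx n.D n.κ n.p 1 x) (Sx n.D n.κS n.pS 1 x)) +
        n.K3 * n.A * Tv (1 / ‖x‖) (x 2) (Ox n.D n.κ n.p 1 x) (Sx n.D n.κ n.p 1 x) n.γ) := by
      positivity
    rw [mul_add] at h3 ⊢
    rw [mul_add]
    linarith

/-- lower bound of `c` on the shell -/
theorem shell_lc (n0 : Nu) (han : 0 < n0.an) : ∃ l' : ℝ, 0 < l' ∧ ∀ lam κ κS dS : ℝ, lam ≤ l' →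
    Prm (n0.upd lam κ κS dS) → ∀ c : Pos3 → ℝ, ∀ x ∈ (HExt n0.R 2 : Set Pos3),
      ‖x‖ < n0.R + 1 → 2 * n0.an * Sx n0.D κS (2 * (1 - lam) / κS - 1) (-1) x ≤ c x →
      (n0.upd lam κ κS dS).lc x ≤ c x := by
  -- the bound of `lc - an Sx` on the shell, divided by `lam`
  set X : ℝ := |n0.Am / 2 * (4 * n0.D / n0.om * ((1 + 1.1 * n0.D / (4 * n0.om)) *
    (2.05 * Real.exp (1.1 * n0.D) * (n0.R + 1) ^ 2)))| with hX
  have hX0 : 0 ≤ X := abs_nonneg _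
  set Y : ℝ := n0.an * (0.9 * Real.exp (-(1.1 * n0.D)) * Real.exp (-(1.1 * (n0.R + 1)))) with hY
  have hY0 : 0 < Y := by positivity
  refine ⟨Y / (X + 1), by positivity, fun lam κ κS dS hl pr c x hx hr hc => ?_⟩
  have hzp : 0 < x 2 := hx.2
  have hR : n0.R < ‖x‖ := hx.1
  have l0 : 0 < lam := pr.l0
  have hD1 : 1 ≤ n0.D := pr.D1
  have hD0 : 0 < n0.D := by linarith
  have om0 : 0 < n0.om := pr.om0
  have hAm : 0 < n0.Am := pr.Am0
  have hκ1 : 9 / 10 ≤ κ := pr.κ1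
  have hκ2 : κ ≤ 11 / 10 := pr.κ2
  have hq : n0.om ≤ κS ^ 2 - κ ^ 2 := pr.q2lo
  have hq0 : 0 < κS ^ 2 - κ ^ 2 := by linarith
  have hd0 : 0 < dS := pr.dS0
  have hd2 : dS ≤ 4 * n0.D := pr.dS2
  have hfar := (pr.far2 hx).far
  have hRR : (10 : ℝ) ^ 7 ≤ n0.R := pr.R1
  have hr0 : 0 < ‖x‖ := by linarith
  have hr1 : 1 ≤ ‖x‖ := by linarith
  have m1 := pr.mp (σ := -1) (Or.inr rfl)
  have mS := pr.mpS (σ := -1) (Or.inr rfl)
  have hO := Ox_nonneg m1 hfar.reg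
  have hS := (Sx_pos m1 hfar.reg).le
  have hOS := Ox_le_Sx m1 hfar.reg
  have hup := Crest.Agent.R335.Sx_upper m1 hfar
  have hlo := Crest.Agent.R335.Sx_lower mS hfar
  -- names
  set O := Ox (n0.upd lam κ κS dS).D (n0.upd lam κ κS dS).κ (n0.upd lam κ κS dS).p (-1) x with hOd
  set S := Sx (n0.upd lam κ κS dS).D (n0.upd lam κ κS dS).κ (n0.upd lam κ κS dS).p (-1) x with hSd
  have hSu : S ≤ 2.05 * Real.exp (1.1 * n0.D) * (n0.R + 1) ^ 2 := by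
    refine hup.trans ?_
    show 2.05 * Real.exp (1.1 * n0.D) * ‖x‖ ^ 2 * Real.exp (-(κ * ‖x‖)) ≤ _
    have e1 : Real.exp (-(κ * ‖x‖)) ≤ 1 := by
      refine Real.exp_le_one_iff.2 ?_
      have : 0 ≤ κ * ‖x‖ := by positivity
      linarith
    have e2 : ‖x‖ ^ 2 ≤ (n0.R + 1) ^ 2 := pow_le_pow_left₀ (norm_nonneg _) hr.le 2
    calc 2.05 * Real.exp (1.1 * n0.D) * ‖x‖ ^ 2 * Real.exp (-(κ * ‖x‖))
        ≤ 2.05 * Real.exp (1.1 * n0.D) * (n0.R + 1) ^ 2 * 1 := by gcongr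
      _ = _ := by ring
  have hSl : 0.9 * Real.exp (-(1.1 * n0.D)) * Real.exp (-(1.1 * (n0.R + 1))) ≤
      Sx n0.D κS (2 * (1 - lam) / κS - 1) (-1) x := by
    refine le_trans ?_ hlo
    show _ ≤ 0.9 * Real.exp (-(1.1 * n0.D)) * Real.exp (-(κS * ‖x‖))
    refine mul_le_mul_of_nonneg_left (Real.exp_le_exp.2 ?_) (by positivity)
    have hκS2 : κS ≤ 11 / 10 := pr.κS2
    have : κS * ‖x‖ ≤ 1.1 * (n0.R + 1) :=
      mul_le_mul (by norm_num; linarith) hr.le (norm_nonneg _) (by norm_num)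
    linarith
  have hαl : dS / (κS ^ 2 - κ ^ 2) ≤ 4 * n0.D / n0.om := by
    refine (div_le_div_of_nonneg_right hd2 hq0.le).trans ?_
    exact div_le_div_of_nonneg_left (by positivity) om0 hq
  have hβl : κ * n0.D / (4 * (κS ^ 2 - κ ^ 2)) ≤ 1.1 * n0.D / (4 * n0.om) := by
    refine (div_le_div_of_nonneg_right (show κ * n0.D ≤ 1.1 * n0.D from
      mul_le_mul_of_nonneg_right (by norm_num; linarith) hD0.le) (by positivity)).trans ?_
    exact div_le_div_of_nonneg_left (by positivity) (by positivity) (by linarith)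
  have hαl0 : 0 ≤ dS / (κS ^ 2 - κ ^ 2) := by positivity
  have hβl0 : 0 ≤ κ * n0.D / (4 * (κS ^ 2 - κ ^ 2)) := by positivity
  have hu1 : (1 / ‖x‖) ≤ 1 := by rw [div_le_one hr0]; exact hr1
  have hu0 : 0 ≤ 1 / ‖x‖ := by positivity
  have hhz : hz x ≤ 1 := by
    rw [hz_eq]
    have e1 : x 2 ≤ ‖x‖ := by
      have := PiLp.norm_apply_le x 2
      rw [Real.norm_eq_abs, abs_of_pos hzp] at this
      exact this
    have e2 : (1 / ‖x‖) ^ 3 * x 2 ≤ (1 / ‖x‖) ^ 3 * ‖x‖ := mul_le_mul_of_nonneg_left e1 (by positivity)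
    have e3 : (1 / ‖x‖) ^ 3 * ‖x‖ = (1 / ‖x‖) ^ 2 := by field_simp
    have e4 : (1 / ‖x‖) ^ 2 ≤ 1 := pow_le_one₀ hu0 hu1
    linarith
  have hri : ri 4 x ≤ 1 := by
    rw [ri_eq]; exact pow_le_one₀ hu0 hu1
  have hri0 : 0 ≤ ri 4 x := by rw [ri_eq]; positivity
  have hin : hz x * O + κ * n0.D / (4 * (κS ^ 2 - κ ^ 2)) * (ri 4 x * S) ≤
      (1 + 1.1 * n0.D / (4 * n0.om)) * (2.05 * Real.exp (1.1 * n0.D) * (n0.R + 1) ^ 2) := by
    have e1 : hz x * O ≤ 1 * S := mul_le_mul hhz hOS hO zero_le_one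
    have e2 : ri 4 x * S ≤ 1 * S := mul_le_mul_of_nonneg_right hri hS
    have e3 : κ * n0.D / (4 * (κS ^ 2 - κ ^ 2)) * (ri 4 x * S) ≤
        1.1 * n0.D / (4 * n0.om) * (1 * S) :=
      mul_le_mul hβl e2 (mul_nonneg hri0 hS) (by positivity)
    have e4 : (1 + 1.1 * n0.D / (4 * n0.om)) * S ≤
        (1 + 1.1 * n0.D / (4 * n0.om)) * (2.05 * Real.exp (1.1 * n0.D) * (n0.R + 1) ^ 2) :=
      mul_le_mul_of_nonneg_left hSu (by positivity)
    linarith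
  have hfin : n0.Am / 2 * (dS / (κS ^ 2 - κ ^ 2) * (hz x * O +
      κ * n0.D / (4 * (κS ^ 2 - κ ^ 2)) * (ri 4 x * S))) ≤ X := by
    refine le_trans ?_ (le_abs_self _)
    refine mul_le_mul_of_nonneg_left ?_ (by positivity)
    exact mul_le_mul hαl hin (by
      have : 0 ≤ hz x := by rw [hz_eq]; positivity
      positivity) (by positivity)
  have hlX : lam * X ≤ Y := by
    have e1 : lam * (X + 1) ≤ Y := by rwa [le_div_iff₀ (by positivity)] at hl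
    linarith
  have e5 : lam * (n0.Am / 2 * (dS / (κS ^ 2 - κ ^ 2) * (hz x * O +
      κ * n0.D / (4 * (κS ^ 2 - κ ^ 2)) * (ri 4 x * S)))) ≤ Y :=
    (mul_le_mul_of_nonneg_left hfin l0.le).trans hlX
  have e6 : Y ≤ n0.an * Sx n0.D κS (2 * (1 - lam) / κS - 1) (-1) x :=
    mul_le_mul_of_nonneg_left hSl han.le
  show n0.an * Sx n0.D κS (2 * (1 - lam) / κS - 1) (-1) x + lam * (n0.Am / 2) *
    (dS / (κS ^ 2 - κ ^ 2) * (hz x * O + κ * n0.D / (4 * (κS ^ 2 - κ ^ 2)) * (ri 4 x * S))) ≤ c x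
  rw [mul_assoc lam]
  linarith

end Crest.Agent.R335.BR
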