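import Crest.Agent.R335.BSupC
import Crest.Agent.R335.BDecay
import Crest.Agent.R335.BFar

/-!
Row 335 (S0521), interacting side, (3.7), part F: `|F - u/√2| ≤ K' λ min(1,|z|)` (helper246).
-/

set_option autoImplicit false
set_option linter.unusedSectionVars false

open MeasureTheory Filter Set Crest.MathPhysics.ThreeBody
open scoped ENNReal Topology ContDiff

noncomputable section
namespace Crest.Agent.R335.BSup
open Crest.Agent.R335

local notation "E3" => EuclideanSpace ℝ (Fin 3)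

/-- gradient of `|f|`, zero on `{f = 0}` -/
def dab (f : E3 → ℝ) (g : E3 → E3) (x : E3) : E3 :=
  (if 0 < f x then g x else 0) + (if 0 < -f x then -g x else 0)

theorem H1_dab {f : E3 → ℝ} {g : E3 → E3} (h : H1 f g) : H1 (fun x => |f x|) (dab f g) := by
  have h1 := h.pos
  have h2 := h.const_mul (-1)
  have h3 := (h2.congr (f' := fun x => -f x) (g' := fun x => -g x)
    (Eventually.of_forall fun x => by simp) (Eventually.of_forall fun x => by simp)).pos
  refine (h1.add h3).congr (Eventually.of_forall fun x => ?_) (ae_eq_refl _)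
  show Max.max (f x) 0 + Max.max (-f x) 0 = |f x|
  rcases le_total 0 (f x) with h | h
  · rw [max_eq_left h, max_eq_right (by linarith), abs_of_nonneg h, add_zero]
  · rw [max_eq_right h, max_eq_left (by linarith), abs_of_nonpos h, zero_add]

theorem H10_dab {U : Set E3} (hU : IsOpen U) {f : E3 → ℝ} {g : E3 → E3} (h : H10 U f g) :
    H10 U (fun x => |f x|) (dab f g) := by
  have h1 := h.pos hU
  have h2 := h.const_mul (-1)
  have h3 := (h2.congr (f' := fun x => -f x) (g' := fun x => -g x)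
    (Eventually.of_forall fun x => by simp) (Eventually.of_forall fun x => by simp)).pos hU
  refine (h1.add h3).congr (Eventually.of_forall fun x => ?_) (ae_eq_refl _)
  show Max.max (f x) 0 + Max.max (-f x) 0 = |f x|
  rcases le_total 0 (f x) with h | h
  · rw [max_eq_left h, max_eq_right (by linarith), abs_of_nonneg h, add_zero]
  · rw [max_eq_right h, max_eq_left (by linarith), abs_of_nonpos h, zero_add]

/-- Kato inequality for `|f|`, with source -/
theorem kato_src {f r V : E3 → ℝ} {g : E3 → E3} (h : H1 f g) (hV : MemLp (fun x => V x * f x) 2 volume)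
    (hr : MemLp r 2 volume)
    (heq : ∀ φ : E3 → ℝ, Test univ φ →
      (1 / 2) * (∫ x, inner ℝ (g x) (gr φ x)) + ∫ x, V x * f x * φ x = ∫ x, r x * φ x)
    {φ : E3 → ℝ} (hφ : Test univ φ) (hφ0 : ∀ x, 0 ≤ φ x) :
    (1 / 2) * (∫ x, inner ℝ (dab f g x) (gr φ x)) + ∫ x, V x * |f x| * φ x ≤
      ∫ x, |r x| * φ x := by
  have h2 := h.const_mul (-1)
  have h3 : H1 (fun x => -f x) (fun x => -g x) := h2.congr
    (Eventually.of_forall fun x => by simp) (Eventually.of_forall fun x => by simp)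
  set q : E3 → ℝ := fun x => V x * f x - r x with hq
  have hqm : MemLp q 2 volume := hV.sub hr
  have hql : LocallyIntegrableOn q univ volume :=
    (hqm.locallyIntegrable (by norm_num)).locallyIntegrableOn _
  have hg2 : L2locV univ g := fun K _ _ => h.memg.mono_measure Measure.restrict_le_self
  have hg3 : L2locV univ (fun x => -g x) := fun K _ _ =>
    h3.memg.mono_measure Measure.restrict_le_self
  have iq : ∀ ψ : E3 → ℝ, Test univ ψ → Integrable (fun x => q x * ψ x) := fun ψ hψ =>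
    memLp_two_integrable_mul hqm (H1.of_test hψ).memf
  have eqq : ∀ ψ : E3 → ℝ, Test univ ψ →
      (1 / 2) * (∫ x, inner ℝ (g x) (gr ψ x)) + ∫ x, q x * ψ x = 0 := by
    intro ψ hψ
    have i1 : Integrable (fun x => V x * f x * ψ x) :=
      memLp_two_integrable_mul hV (H1.of_test hψ).memf
    have i2 : Integrable (fun x => r x * ψ x) := memLp_two_integrable_mul hr (H1.of_test hψ).memf
    have e : ∫ x, q x * ψ x = (∫ x, V x * f x * ψ x) - ∫ x, r x * ψ x := by
      rw [← integral_sub i1 i2]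
      congr 1; funext x; simp only [hq]; ring
    rw [e]
    linarith [heq ψ hψ]
  have key := kato_max isOpen_univ h.wg h3.wg hg2 hg3 hql hql.neg
    (fun ψ hψ _ => (eqq ψ hψ).le) (fun ψ hψ _ => by
      have h1 := eqq ψ hψ
      have e1 : ∫ x, inner ℝ (-g x) (gr ψ x) = -∫ x, inner ℝ (g x) (gr ψ x) := by
        rw [← integral_neg]
        simp only [inner_neg_left]
      have e2 : ∫ x, (-q) x * ψ x = -∫ x, q x * ψ x := by
        rw [← integral_neg]
        refine integral_congr_ae (Eventually.of_forall fun x => ?_)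
        simp only [Pi.neg_apply, neg_mul]
      rw [e1, e2]
      linarith) hφ hφ0
  have hcond : ∀ x, (-f x < f x) = (0 < f x) := fun x => by
    rw [eq_iff_iff]
    constructor <;> intro hh <;> linarith
  simp only [hcond] at key
  have hab := h.abs
  have hae := hab.unique (H1_dab h)
  have e1 : ∫ x, inner ℝ (if 0 < f x then g x else -g x) (gr φ x) =
      ∫ x, inner ℝ (dab f g x) (gr φ x) := by
    refine integral_congr_ae ?_
    filter_upwards [hae] with x hx
    rw [← hx]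
  rw [e1] at key
  have hφm := (H1.of_test hφ).memf
  have i1 : Integrable (fun x => V x * |f x| * φ x) := by
    have hVa : MemLp (fun x => V x * |f x|) 2 volume := by
      refine MemLp.of_le hV ?_ (Eventually.of_forall fun x => ?_)
      · have : (fun x => V x * |f x|) = fun x => (if 0 < f x then (1 : ℝ) else -1) *
            (V x * f x) := by
          funext x
          split_ifs with hx
          · rw [abs_of_pos hx, one_mul]
          · rw [abs_of_nonpos (not_lt.1 hx)]; ring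
        rw [this]
        exact (aesm_ite aestronglyMeasurable_const h.memf.aestronglyMeasurable
          aestronglyMeasurable_const aestronglyMeasurable_const).mul hV.aestronglyMeasurable
      · rw [norm_mul, norm_mul, Real.norm_eq_abs |f x|, abs_abs, Real.norm_eq_abs (f x)]
    exact memLp_two_integrable_mul hVa hφm
  have i2 : Integrable (fun x => |r x| * φ x) := memLp_two_integrable_mul hr.abs hφm
  have e2 : (∫ x, V x * |f x| * φ x) - ∫ x, |r x| * φ x ≤
      ∫ x, (if 0 < f x then q x else (-q) x) * φ x := by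
    have i3 : Integrable (fun x => (if 0 < f x then q x else (-q) x) * φ x) := by
      refine (iq φ hφ).norm.mono' ((aesm_ite aestronglyMeasurable_const
        h.memf.aestronglyMeasurable hqm.aestronglyMeasurable
        hqm.aestronglyMeasurable.neg).mul hφm.aestronglyMeasurable)
        (Eventually.of_forall fun x => ?_)
      rw [norm_mul, norm_mul]
      refine mul_le_mul_of_nonneg_right ?_ (norm_nonneg _)
      split_ifs
      · exact le_rfl
      · rw [Pi.neg_apply, norm_neg]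
    rw [← integral_sub i1 i2]
    refine integral_mono (i1.sub i2) i3 fun x => ?_
    simp only [Pi.neg_apply, hq]
    have h1 := hφ0 x
    split_ifs with hx
    · rw [abs_of_pos hx]
      nlinarith [mul_le_mul_of_nonneg_right (le_abs_self (r x)) h1]
    · rw [abs_of_nonpos (not_lt.1 hx)]
      nlinarith [mul_le_mul_of_nonneg_right (neg_abs_le (r x)) h1]
  linarith

/-! ### projections -/

/-- coupling of the projection -/
def wF (Φ : Y2 → ℝ) (Y : Config3 → ℝ) (X : Pos3) : ℝ := ∫ ξ, WX X ξ * Y (jn p9 X ξ) * Φ ξ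

theorem wF_memLp {Y : Config3 → ℝ} {dY : Config3 → Config3} (h : H1 Y dY) {Φ : Y2 → ℝ}
    (hΦ : MemLp Φ 2 volume) (hn : ∫ ξ, Φ ξ ^ 2 = 1) :
    MemLp (wF Φ Y) 2 volume ∧ ∀ᵐ X, |wF Φ Y X| ≤ bW Y X := by
  have h1 := Sy.memLp_W h
  refine ⟨?_, ?_⟩
  · refine (HS.pair_memLp p9 h1 hΦ).ae_eq (Eventually.of_forall fun X => ?_)
    unfold wF
    refine integral_congr_ae (Eventually.of_forall fun ξ => ?_)
    simp only [pr1_jn, pr2_jn, smul_eq_mul]
    ring
  · filter_upwards [MemLp.slice_right p9 h1] with X hX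
    simp only [pr1_jn, pr2_jn] at hX
    have h3 := abs_integral_mul_le hX hΦ
    rw [hn, Real.sqrt_one, mul_one] at h3
    exact h3

theorem wF_int {Y : Config3 → ℝ} {dY : Config3 → Config3} (h : H1 Y dY) {Φ : Y2 → ℝ}
    {dΦ : Y2 → Y2} (hΦ : H1 Φ dΦ) {χ : Pos3 → ℝ} {dχ : Pos3 → Pos3} (hχ : H1 χ dχ) :
    ∫ x, Sy.W9 x * (Y x * Sy.tn p9 χ Φ x) = ∫ X, wF Φ Y X * χ X := by
  have h1 := Sy.memLp_W h
  have h2 := Sy.tn_H1 p9 hχ hΦ
  have i : Integrable (fun x => Sy.W9 x * (Y x * Sy.tn p9 χ Φ x)) := by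
    refine (memLp_two_integrable_mul h1 h2.memf).congr (Eventually.of_forall fun x => ?_)
    simp only [Sy.W9]; ring
  rw [I.integral_jn p9 i]
  refine integral_congr_ae (Eventually.of_forall fun X => ?_)
  simp only
  unfold wF
  rw [← integral_mul_const]
  refine integral_congr_ae (Eventually.of_forall fun ξ => ?_)
  simp only [Sy.W9, Sy.tn, pr1_jn, pr2_jn]
  ring

section
variable {cg C0 D : ℝ} {B : OBD cg C0 D} {K lam : ℝ} (S : Sys B K lam)

/-- source of the equation of `F - u/√2` -/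
def rF (X : Pos3) : ℝ := -((S.e0 - S.E + B.eu) / √2) * B.u X - lam * wF S.Φ0 S.YS X

/-- gradient of `F - u/√2` -/
def dvF (dY : Config3 → Config3) (X : Pos3) : Pos3 :=
  Sy.dcF S.Φ0 dY X - (1 / √2 : ℝ) • B.du X

theorem vF_H1 {dY : Config3 → Config3} (hY : H1 S.YS dY) :
    H1 (fun X => S.F X - B.u X / √2) (dvF S dY) := by
  have h1 := Sy.cF_H1 hY S.ch0.h1.memf
  have h2 := B.ob.hu.const_mul (1 / √2)
  refine (h1.sub h2).congr (Eventually.of_forall fun x => ?_) (ae_eq_refl _)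
  show cF S.Φ0 S.YS x - 1 / √2 * B.u x = S.F x - B.u x / √2
  rw [div_eq_mul_one_div (B.u x), mul_comm (B.u x)]
  rfl

theorem rF_memLp {dY : Config3 → Config3} (hY : H1 S.YS dY) : MemLp (rF S) 2 volume :=
  (B.ob.hu.memf.const_mul _).sub ((wF_memLp hY S.ch0.h1.memf S.n0).1.const_mul lam)

theorem vF_eq {dY : Config3 → Config3} (hY : Chan D lam S.E 1 S.YS dY) {χ : Pos3 → ℝ}
    {dχ : Pos3 → Pos3} (hχ : H1 χ dχ) :
    (1 / 2) * (∫ x, inner ℝ (dvF S dY x) (dχ x)) +
      ∫ x, (S.e0 - S.E + V2 D x) * (S.F x - B.u x / √2) * χ x = ∫ x, rF S x * χ x := by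
  have h1 := Sy.proj_eq hY S.ch0.h1 S.ch0.eq hχ
  have h2 := B.ob.u_eq χ dχ hχ
  unfold B2 at h2
  rw [wF_int hY.h1 S.ch0.h1 hχ] at h1
  have hF := Sy.cF_H1 hY.h1 S.ch0.h1.memf
  have hw := (wF_memLp hY.h1 S.ch0.h1.memf S.n0).1
  have i1 : Integrable (fun x => inner ℝ (Sy.dcF S.Φ0 dY x) (dχ x)) :=
    Sy.int_inner hF.memg hχ.memg
  have i2 : Integrable (fun x => inner ℝ (B.du x) (dχ x)) := Sy.int_inner B.ob.hu.memg hχ.memg
  have i3 : Integrable (fun x => V2 D x * (cF S.Φ0 S.YS x * χ x)) := V2_integrable D hF hχ.memf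
  have i4 : Integrable (fun x => V2 D x * (B.u x * χ x)) := V2_integrable D B.ob.hu hχ.memf
  have i5 : Integrable (fun x => cF S.Φ0 S.YS x * χ x) := memLp_two_integrable_mul hF.memf hχ.memf
  have i6 : Integrable (fun x => B.u x * χ x) := memLp_two_integrable_mul B.ob.hu.memf hχ.memf
  have i7 : Integrable (fun x => wF S.Φ0 S.YS x * χ x) := memLp_two_integrable_mul hw hχ.memf
  have e1 : ∫ x, inner ℝ (dvF S dY x) (dχ x) = (∫ x, inner ℝ (Sy.dcF S.Φ0 dY x) (dχ x)) -
      (1 / √2) * ∫ x, inner ℝ (B.du x) (dχ x) := by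
    rw [← integral_const_mul, ← integral_sub i1 (i2.const_mul _)]
    refine integral_congr_ae (Eventually.of_forall fun x => ?_)
    simp only [dvF, inner_sub_left, real_inner_smul_left]
  have e2 : ∫ x, (S.e0 - S.E + V2 D x) * (S.F x - B.u x / √2) * χ x =
      (∫ x, V2 D x * (cF S.Φ0 S.YS x * χ x)) + (S.e0 - S.E) * (∫ x, cF S.Φ0 S.YS x * χ x) -
      (1 / √2) * (∫ x, V2 D x * (B.u x * χ x)) - (S.e0 - S.E) / √2 * ∫ x, B.u x * χ x := by
    have j1 : Integrable (fun x => V2 D x * (cF S.Φ0 S.YS x * χ x) +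
        (S.e0 - S.E) * (cF S.Φ0 S.YS x * χ x)) := i3.add (i5.const_mul _)
    have j2 : Integrable (fun x => V2 D x * (cF S.Φ0 S.YS x * χ x) +
        (S.e0 - S.E) * (cF S.Φ0 S.YS x * χ x) - (1 / √2) * (V2 D x * (B.u x * χ x))) :=
      j1.sub (i4.const_mul _)
    rw [← integral_const_mul, ← integral_const_mul, ← integral_const_mul,
      ← integral_add i3 (i5.const_mul _), ← integral_sub j1 (i4.const_mul _),
      ← integral_sub j2 (i6.const_mul _)]
    refine integral_congr_ae (Eventually.of_forall fun x => ?_)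
    simp only [Sys.F]
    ring
  have e3 : ∫ x, rF S x * χ x = -((S.e0 - S.E + B.eu) / √2) * (∫ x, B.u x * χ x) -
      lam * ∫ x, wF S.Φ0 S.YS x * χ x := by
    rw [← integral_const_mul, ← integral_const_mul, ← integral_sub (i6.const_mul _)
      (i7.const_mul _)]
    refine integral_congr_ae (Eventually.of_forall fun x => ?_)
    simp only [rF]
    ring
  have e4 : ∫ X, (V2 D X + S.e0 - S.E) * (cF S.Φ0 S.YS X * χ X) =
      (∫ x, V2 D x * (cF S.Φ0 S.YS x * χ x)) + (S.e0 - S.E) * ∫ x, cF S.Φ0 S.YS x * χ x := by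
    rw [← integral_const_mul, ← integral_add i3 (i5.const_mul _)]
    refine integral_congr_ae (Eventually.of_forall fun x => ?_)
    simp only
    ring
  rw [e4] at h1
  rw [e1, e2, e3]
  linear_combination h1 - (1 / √2) * h2

/-- `|F - u/√2| ≤ K λ` -/
theorem vF_sup : ∀ᵐ X : Pos3, |S.F X - B.u X / √2| ≤ K * lam := by
  obtain ⟨dY, hY⟩ := chan_S S.tb
  have hlam : 0 ≤ K * lam := (abs_nonneg _).trans S.En
  have hm0 := S.ch0.h1.memf
  have hm1 := S.ch1.h1.memf
  have orth : ∫ ξ, S.Φ0 ξ * S.Φ1 ξ = 0 := by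
    have h1 := integral_isom rxi (fun ξ => S.Φ0 ξ * S.Φ1 ξ)
    simp only [S.ch0.par, S.ch1.par] at h1
    have h2 : ∫ ξ, 1 * S.Φ0 ξ * (-1 * S.Φ1 ξ) = - ∫ ξ, S.Φ0 ξ * S.Φ1 ξ := by
      rw [← integral_neg]; congr 1; funext ξ; ring
    rw [h2] at h1
    linarith
  filter_upwards [S.clS, MemLp.slice_right p9 hY.h1.memf] with X h1 h2
  have i0 : Integrable (fun ξ => S.Φ0 ξ ^ 2) := memLp_two_integrable_sq hm0
  have i1 : Integrable (fun ξ => S.Φ0 ξ * S.Φ1 ξ) := memLp_two_integrable_mul hm0 hm1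
  have i2 : Integrable (fun ξ => S.Φ0 ξ * GS S.ψ (jn p9 X ξ)) := memLp_two_integrable_mul hm0 h2
  have hr : MemLp (fun ξ => GS S.ψ (jn p9 X ξ) -
      (B.u X / √2 * S.Φ0 ξ + B.g X / 2 * S.Φ1 ξ)) 2 volume :=
    h2.sub ((hm0.const_mul _).add (hm1.const_mul _))
  have e : S.F X - B.u X / √2 = ∫ ξ, S.Φ0 ξ * (GS S.ψ (jn p9 X ξ) -
      (B.u X / √2 * S.Φ0 ξ + B.g X / 2 * S.Φ1 ξ)) := by
    have e1 : ∫ ξ, S.Φ0 ξ * (GS S.ψ (jn p9 X ξ) -
        (B.u X / √2 * S.Φ0 ξ + B.g X / 2 * S.Φ1 ξ)) =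
        (∫ ξ, S.Φ0 ξ * GS S.ψ (jn p9 X ξ)) - (B.u X / √2) * (∫ ξ, S.Φ0 ξ ^ 2) -
          (B.g X / 2) * ∫ ξ, S.Φ0 ξ * S.Φ1 ξ := by
      have j1 : Integrable (fun ξ => S.Φ0 ξ * GS S.ψ (jn p9 X ξ) -
        (B.u X / √2) * S.Φ0 ξ ^ 2) := i2.sub (i0.const_mul _)
      rw [← integral_const_mul, ← integral_const_mul, ← integral_sub i2 (i0.const_mul _),
        ← integral_sub j1 (i1.const_mul _)]
      refine integral_congr_ae (Eventually.of_forall fun ξ => ?_)
      simp only
      ring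
    rw [e1, S.n0, orth]
    unfold Sys.F Sys.YS cF
    ring
  rw [e]
  refine (abs_integral_mul_le hm0 hr).trans ?_
  rw [S.n0, Real.sqrt_one, one_mul]
  rw [Real.sqrt_le_left hlam]
  exact h1

end

/-- near the plane the coupling is bounded -/
theorem bW_plane {cg C0 D : ℝ} (hD : 4 ≤ D) (B : OBD cg C0 D) (K : ℝ) :
    ∃ K' l' : ℝ, 0 < K' ∧ 0 < l' ∧ ∀ lam, 0 < lam → lam ≤ l' → ∀ S : Sys B K lam,
      ∀ᵐ X : Pos3, |X 2| ≤ 1 → bW S.YS X ≤ K' := by
  obtain ⟨ha, ha1, hg, hu⟩ := BD.a_bounds (by linarith) B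
  have ha2 : B.a ≤ 1 / 100 := ha1.trans (by norm_num)
  obtain ⟨K1, l1, hK1, hl1, hdec⟩ := decay_S (by linarith) B K
  obtain ⟨K2, hK2, hpl⟩ := plane_coupling (K := K1) hD ha ha2
  obtain ⟨g1, g2⟩ := abs_le.1 hg
  obtain ⟨u1, u2⟩ := abs_le.1 hu
  refine ⟨K2, min (min l1 1) (1 / (400 * (|K| + 1))), hK2, by positivity, ?_⟩
  intro lam hl hl' S
  obtain ⟨dY, hY⟩ := chan_S S.tb
  have hl1' : lam ≤ l1 := hl'.trans ((min_le_left _ _).trans (min_le_left _ _))
  have hl2' : lam ≤ 1 := hl'.trans ((min_le_left _ _).trans (min_le_right _ _))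
  have h3 : K * lam ≤ 1 / 400 := by
    have h4 : lam * (400 * (|K| + 1)) ≤ 1 :=
      (le_div_iff₀ (by positivity)).1 (hl'.trans (min_le_right _ _))
    have h5 : K * lam ≤ |K| * lam := mul_le_mul_of_nonneg_right (le_abs_self K) hl.le
    nlinarith
  obtain ⟨E1, E2⟩ := abs_le.1 S.En
  obtain ⟨e1, e2⟩ := abs_le.1 S.e0n
  have hE1 : -2 ≤ S.E := by linarith
  have hE2 : S.E ≤ 0 := by linarith
  have hκ : 9 / 10 ≤ S.κ := by
    unfold Sys.κ
    apply Real.le_sqrt_of_sq_le
    norm_num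
    linarith
  have hw : ∀ᵐ X : Pos3, wN (2 * B.a) S.YS X ≤ K1 := by
    filter_upwards [hdec lam hl hl1' S] with X hX
    refine hX.trans ?_
    refine mul_le_of_le_one_right hK1.le (Real.exp_le_one_iff.2 ?_)
    have : 0 ≤ S.κ - B.a / 16 := by linarith
    nlinarith [norm_nonneg X]
  obtain ⟨d, hd, -⟩ := (isWB_Y S (Or.inl rfl)).ew (b := 2 * B.a) ha.le (by linarith)
    (by linarith)
  obtain ⟨d1, hd1, -⟩ := (isWB_Y S (Or.inl rfl)).ew (b := B.a) ha.le (by linarith)
    (by linarith)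
  have hd' : H1 (fun x => Real.exp (2 * B.a * (jb (elPos 1 x) + jb (elPos 2 x))) * S.YS x) d := by
    simpa only [Sy.ew, VecF.w9_eq] using hd
  have h4 := hpl lam S.E 1 S.YS dY hl.le hl2' hE1 hE2 hY ⟨d, hd'⟩ hw
  filter_upwards [h4, MemLp.slice_right p9 (Sy.memLp_W hd1),
    MemLp.slice_right p9 (Sy.memLp_W hY.h1)] with X h5 h6 h7 hX
  refine le_trans ?_ (h5 hX).1
  simp only [pr1_jn, pr2_jn, Sy.ew_jn] at h6 h7
  unfold bW
  refine Real.sqrt_le_sqrt ?_
  have i1 := memLp_two_integrable_sq h6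
  refine (integral_mono_of_nonneg (Eventually.of_forall fun _ => sq_nonneg _) i1
    (Eventually.of_forall fun ξ => ?_)).trans (le_of_eq ?_)
  · simp only
    have : WX X ξ * (Real.exp (B.a * wi ξ) * S.YS (jn p9 X ξ)) =
        Real.exp (B.a * wi ξ) * (WX X ξ * S.YS (jn p9 X ξ)) := by ring
    rw [this, mul_pow]
    have h8 : 1 ≤ Real.exp (B.a * wi ξ) := by
      refine Real.one_le_exp ?_
      have := Sy.two_le_wi ξ
      nlinarith
    have h9 : 1 ≤ Real.exp (B.a * wi ξ) ^ 2 := one_le_pow₀ h8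
    have h10 : 0 ≤ (WX X ξ * S.YS (jn p9 X ξ)) ^ 2 := sq_nonneg _
    nlinarith
  · refine integral_congr_ae (Eventually.of_forall fun ξ => ?_)
    simp only
    ring

/-- (3.7) for `F` -/
theorem F_plane {cg C0 D : ℝ} (hC : 1 ≤ C0) (hD : 4 ≤ D) (B : OBD cg C0 D) (K : ℝ) :
    ∃ K' l' : ℝ, 0 < K' ∧ 0 < l' ∧ ∀ lam, 0 < lam → lam ≤ l' → ∀ S : Sys B K lam,
      ∀ᵐ X : Pos3, |S.F X - B.u X / √2| ≤ K' * lam * min 1 |X 2| := by
  obtain ⟨K2, l2, hK2, hl2, hbW⟩ := bW_plane hD B K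
  obtain ⟨ha, ha1, hg, hu⟩ := BD.a_bounds (by linarith) B
  obtain ⟨g1, g2⟩ := abs_le.1 hg
  obtain ⟨u1, u2⟩ := abs_le.1 hu
  refine ⟨20 * (|K| + (2 * |K| * C0 + K2)), min l2 (1 / (400 * (|K| + 1))), by positivity,
    by positivity, ?_⟩
  intro lam hl hl' S
  have hK1 : 1 ≤ K := S.Kpos
  have hK : |K| = K := abs_of_nonneg (by linarith)
  rw [hK]
  obtain ⟨dY, hY⟩ := chan_S S.tb
  have hl1' : lam ≤ l2 := hl'.trans (min_le_left _ _)
  have h3 : K * lam ≤ 1 / 400 := by
    have h4 : lam * (400 * (|K| + 1)) ≤ 1 :=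
      (le_div_iff₀ (by positivity)).1 (hl'.trans (min_le_right _ _))
    have h5 : K * lam ≤ |K| * lam := mul_le_mul_of_nonneg_right (le_abs_self K) hl.le
    nlinarith
  obtain ⟨E1, E2⟩ := abs_le.1 S.En
  obtain ⟨e1, e2⟩ := abs_le.1 S.e0n
  set v : Pos3 → ℝ := fun X => S.F X - B.u X / √2 with hv
  have hH := vF_H1 S hY.h1
  have hr := rF_memLp S hY.h1
  have hVv : MemLp (fun x => (S.e0 - S.E + V2 D x) * (S.F x - B.u x / √2)) 2 volume := by
    refine ((hH.memf.const_mul (S.e0 - S.E)).add (V2_memLp D hH).1).ae_eq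
      (Eventually.of_forall fun x => ?_)
    simp only [Pi.add_apply]
    ring
  have hodd : ∀ x, v (rfl' 2 x) = - v x := by
    intro x
    simp only [hv]
    rw [← rz_eq, B.ob.u_odd]
    have := cF_rz hY (Φ := S.Φ0) (π := 1) S.ch0.par x
    unfold Sys.F Sys.YS
    rw [this]
    ring
  have hhalf := H10.half_of_odd 2 hH (Eventually.of_forall hodd)
  have hhalf2 := H10_dab (isOpen_half (2 : Fin 3)) hhalf
  have hM1 := vF_sup S
  have hM2 : ∀ᵐ x : E3, |x 2| ≤ 1 → |rF S x| ≤ (2 * K * C0 + K2) * lam := by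
    filter_upwards [hbW lam hl hl1' S, (wF_memLp hY.h1 S.ch0.h1.memf S.n0).2] with x h4 h5 hx
    have h6 := h4 hx
    unfold rF
    have h7 : |S.e0 - S.E + B.eu| ≤ 2 * (K * lam) := by
      rw [abs_le]; constructor <;> linarith
    have h8 : |(S.e0 - S.E + B.eu) / √2| ≤ 2 * (K * lam) := by
      rw [abs_div]
      refine (div_le_self (abs_nonneg _) ?_).trans h7
      rw [abs_of_nonneg (Real.sqrt_nonneg _), Real.one_le_sqrt]
      norm_num
    have h9 : |-((S.e0 - S.E + B.eu) / √2) * B.u x| ≤ 2 * (K * lam) * C0 := by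
      rw [abs_mul, abs_neg]
      exact mul_le_mul h8 (B.ub x) (abs_nonneg _) (by nlinarith)
    have h10 : |lam * wF S.Φ0 S.YS x| ≤ lam * K2 := by
      rw [abs_mul, abs_of_pos hl]
      exact mul_le_mul_of_nonneg_left (h5.trans h6) hl.le
    refine (abs_sub _ _).trans ?_
    linarith
  have hkey := plane_bound (c := S.e0 - S.E) (b := fun x => |rF S x|) hD (by linarith)
    (H1_dab hH) (fun x => abs_nonneg _) hr.abs ?_ (M1 := K * lam) (M2 := (2 * K * C0 + K2) * lam)
    (by positivity) (by positivity) hM1 hM2 (fun φ hφ hφ0 =>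
      kato_src hH hVv hr (fun ψ hψ => vF_eq S hY (H1.of_test hψ)) hφ hφ0)
  · have hkey2 := ae_comp_rfl' (2 : Fin 3) hkey
    filter_upwards [hkey, hkey2, ae_coord_ne_zero (2 : Fin 3)] with x h1 h2 h0
    rcases lt_or_gt_of_ne h0 with h | h
    · have h3 : (rfl' (2 : Fin 3) x) 2 = - x 2 := by simp
      have h4 := h2 (by rw [h3]; linarith)
      have h5 := hodd x
      simp only [hv] at h5
      rw [h3] at h4
      rw [h5, abs_neg] at h4
      rw [abs_of_neg h]
      refine h4.trans (le_of_eq ?_)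
      ring
    · rw [abs_of_pos h]
      refine (h1 h).trans (le_of_eq ?_)
      ring
  · refine hhalf2.congr (Eventually.of_forall fun x => ?_) (Eventually.of_forall fun x => ?_)
    · simp only
      split_ifs <;> simp
    · simp only [dab]
      split_ifs <;> simp

end Crest.Agent.R335.BSup
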