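import Crest.Agent.R335.Mult

/-!
Row 335 (S0521): the diagonal multipole bound `multipole_diag` (helper543).
-/

set_option autoImplicit false
set_option linter.unusedSectionVars false
set_option linter.unusedVariables false

open MeasureTheory Filter Set Crest.MathPhysics.ThreeBody
open scoped ENNReal Topology ContDiff

noncomputable section
namespace Crest.Agent.R335
open Mult

theorem Mult.cxi_apply (i : Fin 3) (ξ : Y2) (jc : Fin 2 × Fin 3) :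
    cxi i ξ jc = if jc.2 = i then - ξ jc else ξ jc := by
  unfold cxi
  simp only [LinearIsometryEquiv.piLpCongrRight_apply]
  split_ifs with h <;> simp

theorem Mult.el_cxi (i : Fin 3) (j : Fin 2) (ξ : Y2) (c : Fin 3) :
    el j (cxi i ξ) c = if c = i then - el j ξ c else el j ξ c := by
  rw [el_apply, el_apply, Mult.cxi_apply]

theorem Mult.norm_el_cxi (i : Fin 3) (j : Fin 2) (ξ : Y2) : ‖el j (cxi i ξ)‖ = ‖el j ξ‖ := by
  rw [EuclideanSpace.norm_eq, EuclideanSpace.norm_eq]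
  congr 1
  refine Finset.sum_congr rfl fun c _ => ?_
  rw [Mult.el_cxi]
  split_ifs <;> simp

theorem Mult.wi_cxi (i : Fin 3) (ξ : Y2) : wi (cxi i ξ) = wi ξ := by
  unfold wi jb
  rw [Mult.norm_el_cxi, Mult.norm_el_cxi]

/-- the dipole moments vanish on symmetric sets -/
theorem Mult.dipole_zero {Φ : Y2 → ℝ} (i : Fin 3) (hs : ∀ᵐ ξ, Φ (cxi i ξ) ^ 2 = Φ ξ ^ 2) (t : ℝ) :
    ∫ ξ, {ξ : Y2 | wi ξ ≤ t}.indicator (fun ξ => (el 0 ξ i + el 1 ξ i) * Φ ξ ^ 2) ξ = 0 := by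
  set k : Y2 → ℝ := {ξ : Y2 | wi ξ ≤ t}.indicator (fun ξ => (el 0 ξ i + el 1 ξ i) * Φ ξ ^ 2) with hk
  have h1 : ∫ ξ, k (cxi i ξ) = ∫ ξ, k ξ :=
    (cxi i).measurePreserving.integral_comp (cxi i).toHomeomorph.measurableEmbedding k
  have h2 : ∫ ξ, k (cxi i ξ) = - ∫ ξ, k ξ := by
    rw [← integral_neg]
    refine integral_congr_ae ?_
    filter_upwards [hs] with ξ hξ
    rw [hk]
    by_cases hw : wi ξ ≤ t
    · have hw' : wi (cxi i ξ) ≤ t := by rw [Mult.wi_cxi]; exact hw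
      rw [indicator_of_mem (show cxi i ξ ∈ {ξ : Y2 | wi ξ ≤ t} from hw'),
        indicator_of_mem (show ξ ∈ {ξ : Y2 | wi ξ ≤ t} from hw), Mult.el_cxi, Mult.el_cxi, if_pos rfl,
        if_pos rfl, hξ]
      ring
    · have hw' : ¬ wi (cxi i ξ) ≤ t := by rw [Mult.wi_cxi]; exact hw
      rw [indicator_of_notMem (show cxi i ξ ∉ {ξ : Y2 | wi ξ ≤ t} from hw'),
        indicator_of_notMem (show ξ ∉ {ξ : Y2 | wi ξ ≤ t} from hw), neg_zero]
  linarith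

set_option maxHeartbeats 1600000 in
theorem IonW.diag {C0 D K a : ℝ} {Φ : Y2 → ℝ} (h : IonW C0 D K a Φ) (ha : 0 < a)
    (hs : ∀ i : Fin 3, ∀ᵐ ξ, Φ (cxi i ξ) ^ 2 = Φ ξ ^ 2) {X : Pos3} (hX : 1 ≤ ‖X‖) :
    |(∫ ξ, WX X ξ * Φ ξ ^ 2) - 2 / ‖X‖ * ∫ ξ, Φ ξ ^ 2| ≤
      (6 * (C0 * D) ^ 2 + (10 + 4 * K) * (6 / a ^ 3)) / ‖X‖ ^ 3 := by
  set r := ‖X‖ with hr
  have h0 : 0 < r := by linarith
  have hK := h.K0
  have hh := h.hardy X
  have hsq := h.int_sq ha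
  set A : Set Y2 := {ξ : Y2 | wi ξ ≤ r / 2} with hA
  have hAm : MeasurableSet A := measurableSet_le continuous_wi.measurable measurable_const
  -- integrability
  have hGle : ∀ ξ, |Φ ξ| ≤ |Real.exp (4 * a * wi ξ) * Φ ξ| := by
    intro ξ
    rw [abs_mul, abs_of_pos (Real.exp_pos _)]
    have h1 : 1 ≤ Real.exp (4 * a * wi ξ) :=
      Real.one_le_exp (by have := Mult.two_le_wi ξ; positivity)
    nlinarith [abs_nonneg (Φ ξ)]
  have hW1 : ∀ ξ, WX X ξ * Φ ξ ^ 2 ≤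
      1 / 2 * (Φ ξ ^ 2 + (WX X ξ * (Real.exp (4 * a * wi ξ) * Φ ξ)) ^ 2) := by
    intro ξ
    have h1 := hGle ξ
    have h3 := WX_nonneg X ξ
    have e1 : (WX X ξ * (Real.exp (4 * a * wi ξ) * Φ ξ)) ^ 2 =
        (WX X ξ * |Real.exp (4 * a * wi ξ) * Φ ξ|) ^ 2 := by
      rw [mul_pow, mul_pow (WX X ξ) |_| 2, sq_abs]
    rw [e1, ← sq_abs (Φ ξ)]
    set q := |Real.exp (4 * a * wi ξ) * Φ ξ|
    have h4 : WX X ξ * |Φ ξ| ^ 2 ≤ |Φ ξ| * (WX X ξ * q) := by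
      have := mul_le_mul_of_nonneg_left h1 (mul_nonneg h3 (abs_nonneg (Φ ξ)))
      nlinarith
    nlinarith [sq_nonneg (|Φ ξ| - WX X ξ * q)]
  have hi1 : Integrable (fun ξ => WX X ξ * Φ ξ ^ 2) := by
    refine Integrable.mono' ((hsq.1.add hh.1).const_mul (1 / 2))
      ((measurable_WX X).aestronglyMeasurable.mul (h.aesm.pow 2)) (Eventually.of_forall fun ξ => ?_)
    rw [Real.norm_of_nonneg (mul_nonneg (WX_nonneg X ξ) (sq_nonneg _))]
    exact hW1 ξ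
  have hcoord : ∀ i : Fin 3, Continuous fun ξ : Y2 => el 0 ξ i + el 1 ξ i := fun i =>
    ((EuclideanSpace.proj (𝕜 := ℝ) i).continuous.comp (continuous_el 0)).add
      ((EuclideanSpace.proj (𝕜 := ℝ) i).continuous.comp (continuous_el 1))
  have hwE : ∀ ξ, wi ξ * Φ ξ ^ 2 ≤ (wi ξ * Real.exp (2 * a * wi ξ) * Φ ξ) ^ 2 := by
    intro ξ
    have hw := Mult.two_le_wi ξ
    have hE : 1 ≤ Real.exp (2 * a * wi ξ) := Real.one_le_exp (by positivity)
    have e : (wi ξ * Real.exp (2 * a * wi ξ) * Φ ξ) ^ 2 =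
        wi ξ ^ 2 * Real.exp (2 * a * wi ξ) ^ 2 * Φ ξ ^ 2 := by ring
    rw [e]
    refine mul_le_mul_of_nonneg_right ?_ (sq_nonneg _)
    have h1 : 1 ≤ Real.exp (2 * a * wi ξ) ^ 2 := one_le_pow₀ hE
    nlinarith
  have hi3 : ∀ i : Fin 3, Integrable
      (A.indicator fun ξ => (el 0 ξ i + el 1 ξ i) * Φ ξ ^ 2) := by
    intro i
    refine Integrable.indicator ?_ hAm
    refine Integrable.mono' h.m1.1 ((hcoord i).aestronglyMeasurable.mul (h.aesm.pow 2))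
      (Eventually.of_forall fun ξ => ?_)
    rw [Real.norm_eq_abs, abs_mul, abs_of_nonneg (sq_nonneg (Φ ξ))]
    refine (mul_le_mul_of_nonneg_right ?_ (sq_nonneg _)).trans (hwE ξ)
    have b : ∀ y : Pos3, |y i| ≤ ‖y‖ := fun y => by
      have := PiLp.norm_apply_le y i
      rwa [Real.norm_eq_abs] at this
    exact (abs_add_le _ _).trans ((add_le_add (b _) (b _)).trans (Mult.norm_el_add_le ξ))
  -- the dipole part
  have hQ : ∀ ξ, inner ℝ X (el 0 ξ + el 1 ξ) = ∑ i : Fin 3, X i * (el 0 ξ i + el 1 ξ i) := by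
    intro ξ
    rw [PiLp.inner_apply]
    refine Finset.sum_congr rfl fun i _ => ?_
    simp [mul_comm]
  have hQ0 : ∫ ξ, A.indicator (fun ξ => inner ℝ X (el 0 ξ + el 1 ξ) / r ^ 3 * Φ ξ ^ 2) ξ = 0 := by
    have e : ∀ ξ, A.indicator (fun ξ => inner ℝ X (el 0 ξ + el 1 ξ) / r ^ 3 * Φ ξ ^ 2) ξ =
        ∑ i : Fin 3, X i / r ^ 3 *
          A.indicator (fun ξ => (el 0 ξ i + el 1 ξ i) * Φ ξ ^ 2) ξ := by
      intro ξ
      by_cases hξ : ξ ∈ A
      · simp only [indicator_of_mem hξ]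
        rw [hQ, Finset.sum_div, Finset.sum_mul]
        refine Finset.sum_congr rfl fun i _ => ?_
        ring
      · simp only [indicator_of_notMem hξ, mul_zero, Finset.sum_const_zero]
    simp_rw [e]
    rw [integral_finsetSum _ (fun i _ => (hi3 i).const_mul _)]
    refine Finset.sum_eq_zero fun i _ => ?_
    rw [integral_const_mul, Mult.dipole_zero i (hs i), mul_zero]
  have hiQ : Integrable (A.indicator (fun ξ => inner ℝ X (el 0 ξ + el 1 ξ) / r ^ 3 * Φ ξ ^ 2)) := by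
    have e : A.indicator (fun ξ => inner ℝ X (el 0 ξ + el 1 ξ) / r ^ 3 * Φ ξ ^ 2) = fun ξ =>
        ∑ i : Fin 3, X i / r ^ 3 *
          A.indicator (fun ξ => (el 0 ξ i + el 1 ξ i) * Φ ξ ^ 2) ξ := by
      funext ξ
      by_cases hξ : ξ ∈ A
      · simp only [indicator_of_mem hξ]
        rw [hQ, Finset.sum_div, Finset.sum_mul]
        refine Finset.sum_congr rfl fun i _ => ?_
        ring
      · simp only [indicator_of_notMem hξ, mul_zero, Finset.sum_const_zero]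
    rw [e]
    exact integrable_finsetSum _ (fun i _ => (hi3 i).const_mul _)
  -- the three comparison functions
  set f1 : Y2 → ℝ := fun ξ => 6 / r ^ 3 * (wi ξ * Real.exp (2 * a * wi ξ) * Φ ξ) ^ 2 with hf1
  set f2 : Y2 → ℝ := fun ξ => Real.exp (-(3 / 2 * a * r)) * (1 / 2) *
    (Φ ξ ^ 2 + (WX X ξ * (Real.exp (4 * a * wi ξ) * Φ ξ)) ^ 2) with hf2
  set f3 : Y2 → ℝ := fun ξ => 2 * Real.exp (-(a * r)) * (Real.exp (2 * a * wi ξ) * Φ ξ) ^ 2 with hf3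
  have j1 : Integrable f1 := h.m1.1.const_mul _
  have j2 : Integrable f2 := (hsq.1.add hh.1).const_mul _
  have j3 : Integrable f3 := h.m0.1.const_mul _
  have hpt : ∀ ξ, |WX X ξ * Φ ξ ^ 2 - 2 / r * Φ ξ ^ 2 -
      A.indicator (fun ξ => inner ℝ X (el 0 ξ + el 1 ξ) / r ^ 3 * Φ ξ ^ 2) ξ| ≤
      f1 ξ + (f2 ξ + f3 ξ) := by
    intro ξ
    have hw2 := Mult.two_le_wi ξ
    have hf1n : 0 ≤ f1 ξ := by
      rw [hf1]
      positivity
    have hf2n : 0 ≤ f2 ξ := by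
      rw [hf2]
      positivity
    have hf3n : 0 ≤ f3 ξ := by
      rw [hf3]
      positivity
    have hE : 1 ≤ Real.exp (2 * a * wi ξ) := Real.one_le_exp (by positivity)
    rcases le_or_gt (wi ξ) (r / 2) with hw | hw
    · refine le_trans ?_ (le_add_of_nonneg_right (add_nonneg hf2n hf3n))
      rw [indicator_of_mem (show ξ ∈ A from hw)]
      have h1 := Mult.WX_quad hr.symm h0 hw
      have e : WX X ξ * Φ ξ ^ 2 - 2 / r * Φ ξ ^ 2 -
          inner ℝ X (el 0 ξ + el 1 ξ) / r ^ 3 * Φ ξ ^ 2 =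
          (WX X ξ - 2 / r - inner ℝ X (el 0 ξ + el 1 ξ) / r ^ 3) * Φ ξ ^ 2 := by ring
      rw [e, abs_mul, abs_of_nonneg (sq_nonneg (Φ ξ))]
      refine (mul_le_mul_of_nonneg_right h1 (sq_nonneg _)).trans ?_
      have e2 : f1 ξ = 6 * wi ξ ^ 2 / r ^ 3 * (Real.exp (2 * a * wi ξ) ^ 2 * Φ ξ ^ 2) := by
        rw [hf1]
        ring
      rw [e2]
      refine mul_le_mul_of_nonneg_left ?_ (by positivity)
      have h2 : 1 ≤ Real.exp (2 * a * wi ξ) ^ 2 := one_le_pow₀ hE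
      nlinarith [sq_nonneg (Φ ξ)]
    · refine le_trans ?_ (le_add_of_nonneg_left hf1n)
      rw [indicator_of_notMem (show ξ ∉ A from not_le.2 hw), sub_zero]
      have h3 := WX_nonneg X ξ
      refine (abs_sub _ _).trans (add_le_add ?_ ?_)
      · rw [abs_of_nonneg (mul_nonneg h3 (sq_nonneg _))]
        have h1 := far_abs ha hw (Φ ξ)
        have hE1 : 1 ≤ Real.exp (a * wi ξ) := Real.one_le_exp (by positivity)
        have h2 : |Φ ξ| ≤ Real.exp (-(3 / 2 * a * r)) * |Real.exp (4 * a * wi ξ) * Φ ξ| := by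
          refine le_trans ?_ h1
          nlinarith [abs_nonneg (Φ ξ)]
        have e1 : (WX X ξ * (Real.exp (4 * a * wi ξ) * Φ ξ)) ^ 2 =
            (WX X ξ * |Real.exp (4 * a * wi ξ) * Φ ξ|) ^ 2 := by
          rw [mul_pow, mul_pow (WX X ξ) |_| 2, sq_abs]
        show _ ≤ Real.exp (-(3 / 2 * a * r)) * (1 / 2) * _
        rw [e1, ← sq_abs (Φ ξ)]
        set q := |Real.exp (4 * a * wi ξ) * Φ ξ|
        set ε := Real.exp (-(3 / 2 * a * r))
        have hε : 0 < ε := Real.exp_pos _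
        have h4 : WX X ξ * |Φ ξ| ^ 2 ≤ ε * (|Φ ξ| * (WX X ξ * q)) := by
          have := mul_le_mul_of_nonneg_left h2 (mul_nonneg h3 (abs_nonneg (Φ ξ)))
          nlinarith
        have h5 : |Φ ξ| * (WX X ξ * q) ≤ 1 / 2 * (|Φ ξ| ^ 2 + (WX X ξ * q) ^ 2) := by
          nlinarith [sq_nonneg (|Φ ξ| - WX X ξ * q)]
        calc WX X ξ * |Φ ξ| ^ 2 ≤ ε * (|Φ ξ| * (WX X ξ * q)) := h4
          _ ≤ ε * (1 / 2 * (|Φ ξ| ^ 2 + (WX X ξ * q) ^ 2)) :=
              mul_le_mul_of_nonneg_left h5 hε.le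
          _ = _ := by ring
      · rw [abs_of_nonneg (by positivity)]
        have hEr : 1 ≤ Real.exp (-(a * r)) * Real.exp (2 * a * wi ξ) := by
          rw [← Real.exp_add]
          exact Real.one_le_exp (by nlinarith)
        have hc : 1 ≤ Real.exp (-(a * r)) * Real.exp (2 * a * wi ξ) ^ 2 := by nlinarith
        have h2r : 2 / r ≤ 2 := by
          rw [div_le_iff₀ h0]
          linarith
        show _ ≤ 2 * Real.exp (-(a * r)) * (Real.exp (2 * a * wi ξ) * Φ ξ) ^ 2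
        calc 2 / r * Φ ξ ^ 2 ≤ 2 * (1 * Φ ξ ^ 2) := by nlinarith [sq_nonneg (Φ ξ)]
          _ ≤ 2 * ((Real.exp (-(a * r)) * Real.exp (2 * a * wi ξ) ^ 2) * Φ ξ ^ 2) :=
              mul_le_mul_of_nonneg_left (mul_le_mul_of_nonneg_right hc (sq_nonneg _)) (by norm_num)
          _ = _ := by ring
  have hdiff : (∫ ξ, WX X ξ * Φ ξ ^ 2) - 2 / r * ∫ ξ, Φ ξ ^ 2 =
      ∫ ξ, (WX X ξ * Φ ξ ^ 2 - 2 / r * Φ ξ ^ 2 -
      A.indicator (fun ξ => inner ℝ X (el 0 ξ + el 1 ξ) / r ^ 3 * Φ ξ ^ 2) ξ) := by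
    have q1 := integral_sub (hi1.sub (hsq.1.const_mul (2 / r))) hiQ
    have q2 := integral_sub hi1 (hsq.1.const_mul (2 / r))
    simp only [Pi.sub_apply] at q1
    rw [q1, hQ0, q2, integral_const_mul, sub_zero]
  rw [hdiff]
  have hfin : |∫ ξ, (WX X ξ * Φ ξ ^ 2 - 2 / r * Φ ξ ^ 2 -
      A.indicator (fun ξ => inner ℝ X (el 0 ξ + el 1 ξ) / r ^ 3 * Φ ξ ^ 2) ξ)| ≤
      ∫ ξ, (f1 ξ + (f2 ξ + f3 ξ)) := by
    rw [← Real.norm_eq_abs]
    refine norm_integral_le_of_norm_le (integrable_add3 j1 j2 j3)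
      (Eventually.of_forall fun ξ => ?_)
    rw [Real.norm_eq_abs]
    exact hpt ξ
  refine hfin.trans ?_
  rw [integral_add3 j1 j2 j3]
  have hexp : Real.exp (-(3 / 2 * a * r)) ≤ Real.exp (-(a * r)) :=
    Real.exp_le_exp.2 (by nlinarith [mul_pos ha h0])
  have hE3 : Real.exp (-(a * r)) ≤ 6 / a ^ 3 / r ^ 3 := by
    rw [div_div, ← mul_pow]
    exact exp_neg_le_three (mul_pos ha h0)
  have t1 : ∫ ξ, f1 ξ ≤ 6 / r ^ 3 * (C0 * D) ^ 2 := by
    rw [hf1, integral_const_mul]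
    exact mul_le_mul_of_nonneg_left h.m1.2 (by positivity)
  have t2 : ∫ ξ, f2 ξ ≤ Real.exp (-(a * r)) * (1 / 2) * (4 + 8 * K) := by
    have q1 := integral_add hsq.1 hh.1
    rw [hf2, integral_const_mul, q1]
    have n1 : 0 ≤ ∫ ξ, Φ ξ ^ 2 := integral_nonneg fun ξ => sq_nonneg _
    have n2 : 0 ≤ ∫ ξ, (WX X ξ * (Real.exp (4 * a * wi ξ) * Φ ξ)) ^ 2 :=
      integral_nonneg fun ξ => sq_nonneg _
    refine mul_le_mul (mul_le_mul_of_nonneg_right hexp (by norm_num)) (add_le_add hsq.2 hh.2)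
      (add_nonneg n1 n2) (by positivity)
  have t3 : ∫ ξ, f3 ξ ≤ 2 * Real.exp (-(a * r)) * 4 := by
    rw [hf3, integral_const_mul]
    exact mul_le_mul_of_nonneg_left h.m0.2 (by positivity)
  calc (∫ ξ, f1 ξ) + ((∫ ξ, f2 ξ) + ∫ ξ, f3 ξ) ≤ 6 / r ^ 3 * (C0 * D) ^ 2 +
        (Real.exp (-(a * r)) * (1 / 2) * (4 + 8 * K) + 2 * Real.exp (-(a * r)) * 4) :=
        add_le_add t1 (add_le_add t2 t3)
    _ = 6 / r ^ 3 * (C0 * D) ^ 2 + (10 + 4 * K) * Real.exp (-(a * r)) := by ring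
    _ ≤ 6 / r ^ 3 * (C0 * D) ^ 2 + (10 + 4 * K) * (6 / a ^ 3 / r ^ 3) :=
        add_le_add le_rfl (mul_le_mul_of_nonneg_left hE3 (by positivity))
    _ = _ := by ring

/-- no dipole: the diagonal multipole bound is `O(r⁻³)` -/
theorem multipole_diag {C0 D K a : ℝ} (hC : 1 ≤ C0) (hD : 1 ≤ D) (ha : 0 < a)
    (ha1 : a ≤ 1 / 100) : ∃ K' : ℝ, 0 < K' ∧ ∀ Φ : Y2 → ℝ, IonW C0 D K a Φ →
      (∀ i : Fin 3, ∀ᵐ ξ, Φ (cxi i ξ) ^ 2 = Φ ξ ^ 2) → ∀ X : Pos3, 1 ≤ ‖X‖ →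
        |(∫ ξ, WX X ξ * Φ ξ ^ 2) - 2 / ‖X‖ * ∫ ξ, Φ ξ ^ 2| ≤ K' / ‖X‖ ^ 3 := by
  refine ⟨|6 * (C0 * D) ^ 2 + (10 + 4 * K) * (6 / a ^ 3)| + 1, by positivity,
    fun Φ h hs X hX => (h.diag ha hs hX).trans ?_⟩
  have h0 : 0 < ‖X‖ := by linarith
  refine div_le_div_of_nonneg_right ?_ (by positivity)
  linarith [le_abs_self (6 * (C0 * D) ^ 2 + (10 + 4 * K) * (6 / a ^ 3))]

end Crest.Agent.R335
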