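import Crest.Agent.R335.MultB

/-!
Row 335 (S0521): multipole expansions (helper543): `multipole`, `multipole_diag`.
-/

set_option autoImplicit false
set_option linter.unusedSectionVars false
set_option linter.unusedVariables false

open MeasureTheory Filter Set Crest.MathPhysics.ThreeBody
open scoped ENNReal Topology ContDiff

noncomputable section
namespace Crest.Agent.R335
open Mult

section
variable {C0 D K a : ℝ} {Φ : Y2 → ℝ}

/-- (2) the odd part -/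
theorem IonW.odd_part (h : IonW C0 D K a Φ) (hC : 0 ≤ C0 * D) (ha : 0 < a) {X : Pos3}
    (hX : 1 ≤ ‖X‖) :
    √(∫ ξ, (Real.exp (a * wi ξ) * Wm X ξ * Φ ξ) ^ 2) ≤
      8 * |X 2| / ‖X‖ ^ 3 * (C0 * D) + √(8 * K) * Real.exp (-(3 / 2 * a * ‖X‖)) := by
  set r := ‖X‖ with hr
  have h0 : 0 < r := by linarith
  have hK := h.K0
  have hh := h.hardy X
  have hh' := h.hardy (rz X)
  have hpt : ∀ ξ, (Real.exp (a * wi ξ) * Wm X ξ * Φ ξ) ^ 2 ≤
      (8 * |X 2| / r ^ 3) ^ 2 * (wi ξ * Real.exp (2 * a * wi ξ) * Φ ξ) ^ 2 +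
      (1 / 2 * Real.exp (-(3 / 2 * a * r)) ^ 2 *
          (WX X ξ * (Real.exp (4 * a * wi ξ) * Φ ξ)) ^ 2 +
        1 / 2 * Real.exp (-(3 / 2 * a * r)) ^ 2 *
          (WX (rz X) ξ * (Real.exp (4 * a * wi ξ) * Φ ξ)) ^ 2) := by
    intro ξ
    have hw2 := Mult.two_le_wi ξ
    rcases le_or_gt (wi ξ) (r / 2) with hw | hw
    · refine le_trans ?_ (le_add_of_nonneg_right (by positivity))
      have h1 := Mult.Wm_le hr.symm h0 hw
      have h2 := exp_le2 ha (show 0 ≤ wi ξ by linarith)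
      have e : (8 * |X 2| / r ^ 3) ^ 2 * (wi ξ * Real.exp (2 * a * wi ξ) * Φ ξ) ^ 2 =
          (Real.exp (2 * a * wi ξ) * (8 * |X 2| * wi ξ / r ^ 3) * |Φ ξ|) ^ 2 := by
        rw [mul_pow _ |Φ ξ| 2, sq_abs (Φ ξ)]
        ring
      rw [e, ← sq_abs (Real.exp (a * wi ξ) * Wm X ξ * Φ ξ), abs_mul, abs_mul,
        abs_of_pos (Real.exp_pos _)]
      refine pow_le_pow_left₀ (by positivity) ?_ 2
      exact mul_le_mul_of_nonneg_right (mul_le_mul h2 h1 (abs_nonneg _) (Real.exp_pos _).le)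
        (abs_nonneg _)
    · refine le_trans ?_ (le_add_of_nonneg_left (by positivity))
      have h1 := far_abs ha hw (Φ ξ)
      have h3 := WX_nonneg X ξ
      have h3' := WX_nonneg (rz X) ξ
      set q := |Real.exp (4 * a * wi ξ) * Φ ξ| with hq
      have h4 : |Real.exp (a * wi ξ) * Wm X ξ * Φ ξ| ≤
          Real.exp (-(3 / 2 * a * r)) * ((WX X ξ * q + WX (rz X) ξ * q) / 2) := by
        calc |Real.exp (a * wi ξ) * Wm X ξ * Φ ξ|
            = |Wm X ξ| * (Real.exp (a * wi ξ) * |Φ ξ|) := by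
              rw [abs_mul, abs_mul, abs_of_pos (Real.exp_pos _)]
              ring
          _ ≤ ((WX X ξ + WX (rz X) ξ) / 2) * (Real.exp (-(3 / 2 * a * r)) * q) :=
              mul_le_mul (abs_Wm_le X ξ) h1 (by positivity) (by positivity)
          _ = _ := by ring
      rw [← sq_abs (Real.exp (a * wi ξ) * Wm X ξ * Φ ξ)]
      refine (pow_le_pow_left₀ (abs_nonneg _) h4 2).trans ?_
      have e1 : (WX X ξ * (Real.exp (4 * a * wi ξ) * Φ ξ)) ^ 2 = (WX X ξ * q) ^ 2 := by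
        rw [hq, mul_pow, mul_pow (WX X ξ) |_| 2, sq_abs]
      have e2 : (WX (rz X) ξ * (Real.exp (4 * a * wi ξ) * Φ ξ)) ^ 2 = (WX (rz X) ξ * q) ^ 2 := by
        rw [hq, mul_pow, mul_pow (WX (rz X) ξ) |_| 2, sq_abs]
      rw [e1, e2, mul_pow]
      have hE : 0 ≤ Real.exp (-(3 / 2 * a * r)) ^ 2 := sq_nonneg _
      have h5 : ((WX X ξ * q + WX (rz X) ξ * q) / 2) ^ 2 ≤
          1 / 2 * (WX X ξ * q) ^ 2 + 1 / 2 * (WX (rz X) ξ * q) ^ 2 := by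
        nlinarith [sq_nonneg (WX X ξ * q - WX (rz X) ξ * q)]
      calc _ ≤ Real.exp (-(3 / 2 * a * r)) ^ 2 *
            (1 / 2 * (WX X ξ * q) ^ 2 + 1 / 2 * (WX (rz X) ξ * q) ^ 2) :=
            mul_le_mul_of_nonneg_left h5 hE
        _ = _ := by ring
  have i1 := h.m1.1.const_mul ((8 * |X 2| / r ^ 3) ^ 2)
  have i2 := hh.1.const_mul (1 / 2 * Real.exp (-(3 / 2 * a * r)) ^ 2)
  have i3 := hh'.1.const_mul (1 / 2 * Real.exp (-(3 / 2 * a * r)) ^ 2)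
  have hfin := sqrt_int_le (B := (8 * |X 2| / r ^ 3 * (C0 * D)) ^ 2 +
      (√(8 * K) * Real.exp (-(3 / 2 * a * r))) ^ 2)
    hpt (integrable_add3 i1 i2 i3) (by
      rw [integral_add3 i1 i2 i3, integral_const_mul, integral_const_mul, integral_const_mul]
      have t1 : (8 * |X 2| / r ^ 3) ^ 2 * (∫ ξ, (wi ξ * Real.exp (2 * a * wi ξ) * Φ ξ) ^ 2) ≤
          (8 * |X 2| / r ^ 3) ^ 2 * (C0 * D) ^ 2 :=
        mul_le_mul_of_nonneg_left h.m1.2 (by positivity)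
      have t2 : 1 / 2 * Real.exp (-(3 / 2 * a * r)) ^ 2 *
          (∫ ξ, (WX X ξ * (Real.exp (4 * a * wi ξ) * Φ ξ)) ^ 2) ≤
          1 / 2 * Real.exp (-(3 / 2 * a * r)) ^ 2 * (8 * K) :=
        mul_le_mul_of_nonneg_left hh.2 (by positivity)
      have t3 : 1 / 2 * Real.exp (-(3 / 2 * a * r)) ^ 2 *
          (∫ ξ, (WX (rz X) ξ * (Real.exp (4 * a * wi ξ) * Φ ξ)) ^ 2) ≤
          1 / 2 * Real.exp (-(3 / 2 * a * r)) ^ 2 * (8 * K) :=
        mul_le_mul_of_nonneg_left hh'.2 (by positivity)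
      rw [mul_pow (√(8 * K)), Real.sq_sqrt (by positivity)]
      linarith)
  refine hfin.trans ?_
  rw [Real.sqrt_le_left (by positivity)]
  have p1 : 0 ≤ 8 * |X 2| / r ^ 3 * (C0 * D) := by positivity
  have p2 : 0 ≤ √(8 * K) * Real.exp (-(3 / 2 * a * r)) := by positivity
  nlinarith [mul_nonneg p1 p2]

/-- integrability of `Φ'² + ..` -/
theorem IonW.int_sq (h : IonW C0 D K a Φ) (ha : 0 < a) : Integrable (fun ξ => Φ ξ ^ 2) ∧
    ∫ ξ, Φ ξ ^ 2 ≤ 4 := by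
  have hpt : ∀ ξ, Φ ξ ^ 2 ≤ (Real.exp (2 * a * wi ξ) * Φ ξ) ^ 2 := by
    intro ξ
    rw [mul_pow]
    have h1 : 1 ≤ Real.exp (2 * a * wi ξ) :=
      Real.one_le_exp (by have := Mult.two_le_wi ξ; positivity)
    have h2 : 1 ≤ Real.exp (2 * a * wi ξ) ^ 2 := one_le_pow₀ h1
    nlinarith [sq_nonneg (Φ ξ)]
  have hi : Integrable (fun ξ => Φ ξ ^ 2) := by
    refine Integrable.mono' h.m0.1 (h.aesm.pow 2) (Eventually.of_forall fun ξ => ?_)
    rw [Real.norm_of_nonneg (sq_nonneg _)]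
    exact hpt ξ
  exact ⟨hi, (integral_mono hi h.m0.1 hpt).trans h.m0.2⟩

theorem Mult.abs_el_sum_le (ξ : Y2) : |el 0 ξ 2 + el 1 ξ 2| ≤ wi ξ :=
  (abs_add_le _ _).trans ((add_le_add (Mult.abs_two_le _) (Mult.abs_two_le _)).trans
    (Mult.norm_el_add_le ξ))

set_option maxHeartbeats 2000000 in
/-- (4) the dipole -/
theorem IonW.dipole {Φ' : Y2 → ℝ} (h : IonW C0 D K a Φ) (h' : IonW C0 D K a Φ')
    (hC : 0 ≤ C0 * D) (ha : 0 < a) {X : Pos3} (hX : 1 ≤ ‖X‖) :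
    |(∫ ξ, Φ' ξ * Wm X ξ * Φ ξ) - X 2 / ‖X‖ ^ 3 * ∫ ξ, Φ' ξ * (el 0 ξ 2 + el 1 ξ 2) * Φ ξ| ≤
      38 * (C0 * D) ^ 2 * |X 2| / ‖X‖ ^ 4 +
        (2 + 4 * K + ((C0 * D) ^ 2 + 4) / 2) * Real.exp (-(a * ‖X‖)) := by
  set r := ‖X‖ with hr
  have h0 : 0 < r := by linarith
  have hK := h.K0
  have hh := h.hardy X
  have hh' := h.hardy (rz X)
  have hz : |X 2| ≤ r := Mult.abs_two_le X
  -- the three comparison functions
  set f1 : Y2 → ℝ := fun ξ => 19 * |X 2| / r ^ 4 *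
    ((wi ξ * Real.exp (2 * a * wi ξ) * Φ' ξ) ^ 2 + (wi ξ * Real.exp (2 * a * wi ξ) * Φ ξ) ^ 2)
    with hf1
  set f2 : Y2 → ℝ := fun ξ => Real.exp (-(3 / 2 * a * r)) * (1 / 2 * Φ' ξ ^ 2 +
    1 / 4 * ((WX X ξ * (Real.exp (4 * a * wi ξ) * Φ ξ)) ^ 2 +
      (WX (rz X) ξ * (Real.exp (4 * a * wi ξ) * Φ ξ)) ^ 2)) with hf2
  set f3 : Y2 → ℝ := fun ξ => Real.exp (-(a * r)) * (1 / 2) *
    ((wi ξ * Real.exp (2 * a * wi ξ) * Φ ξ) ^ 2 + (Real.exp (2 * a * wi ξ) * Φ' ξ) ^ 2) with hf3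
  have hi1 : Integrable f1 := (h'.m1.1.add h.m1.1).const_mul _
  have hi2 : Integrable f2 :=
    (((h'.int_sq ha).1.const_mul _).add ((hh.1.add hh'.1).const_mul _)).const_mul _
  have hi3 : Integrable f3 := (h.m1.1.add h'.m0.1).const_mul _
  -- pointwise bound of the coupling on the whole space
  have hWm : ∀ ξ, |Wm X ξ * Φ ξ| ≤
      (WX X ξ + WX (rz X) ξ) / 2 * |Real.exp (4 * a * wi ξ) * Φ ξ| := by
    intro ξ
    rw [abs_mul]
    refine mul_le_mul (abs_Wm_le X ξ) ?_ (abs_nonneg _) (by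
      have := WX_nonneg X ξ
      have := WX_nonneg (rz X) ξ
      positivity)
    rw [abs_mul, abs_of_pos (Real.exp_pos _)]
    have h1 : 1 ≤ Real.exp (4 * a * wi ξ) :=
      Real.one_le_exp (by have := Mult.two_le_wi ξ; positivity)
    nlinarith [abs_nonneg (Φ ξ)]
  have hAM : ∀ ξ, |Φ' ξ| * ((WX X ξ + WX (rz X) ξ) / 2 * |Real.exp (4 * a * wi ξ) * Φ ξ|) ≤
      1 / 2 * Φ' ξ ^ 2 + 1 / 4 * ((WX X ξ * (Real.exp (4 * a * wi ξ) * Φ ξ)) ^ 2 +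
        (WX (rz X) ξ * (Real.exp (4 * a * wi ξ) * Φ ξ)) ^ 2) := by
    intro ξ
    set q := |Real.exp (4 * a * wi ξ) * Φ ξ| with hq
    have e1 : (WX X ξ * (Real.exp (4 * a * wi ξ) * Φ ξ)) ^ 2 = (WX X ξ * q) ^ 2 := by
      rw [hq, mul_pow, mul_pow (WX X ξ) |_| 2, sq_abs]
    have e2 : (WX (rz X) ξ * (Real.exp (4 * a * wi ξ) * Φ ξ)) ^ 2 = (WX (rz X) ξ * q) ^ 2 := by
      rw [hq, mul_pow, mul_pow (WX (rz X) ξ) |_| 2, sq_abs]
    rw [e1, e2, ← sq_abs (Φ' ξ)]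
    nlinarith [sq_nonneg (|Φ' ξ| - WX X ξ * q), sq_nonneg (|Φ' ξ| - WX (rz X) ξ * q)]
  have hA : Integrable (fun ξ => Φ' ξ * Wm X ξ * Φ ξ) := by
    have hd : Integrable (fun ξ => 1 / 2 * Φ' ξ ^ 2 +
        1 / 4 * ((WX X ξ * (Real.exp (4 * a * wi ξ) * Φ ξ)) ^ 2 +
          (WX (rz X) ξ * (Real.exp (4 * a * wi ξ) * Φ ξ)) ^ 2)) :=
      ((h'.int_sq ha).1.const_mul _).add ((hh.1.add hh'.1).const_mul _)
    refine Integrable.mono' hd ((h'.aesm.mul (measurable_Wm X).aestronglyMeasurable).mul h.aesm)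
      (Eventually.of_forall fun ξ => ?_)
    rw [Real.norm_eq_abs, mul_assoc, abs_mul]
    exact (mul_le_mul_of_nonneg_left (hWm ξ) (abs_nonneg _)).trans (hAM ξ)
  have hB : Integrable (fun ξ => Φ' ξ * (el 0 ξ 2 + el 1 ξ 2) * Φ ξ) := by
    have hd : Integrable (fun ξ => 1 / 2 * ((wi ξ * Real.exp (2 * a * wi ξ) * Φ ξ) ^ 2 +
        (Real.exp (2 * a * wi ξ) * Φ' ξ) ^ 2)) := (h.m1.1.add h'.m0.1).const_mul _
    have hcont : Continuous fun ξ : Y2 => el 0 ξ 2 + el 1 ξ 2 :=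
      ((EuclideanSpace.proj (𝕜 := ℝ) (2 : Fin 3)).continuous.comp (continuous_el 0)).add
        ((EuclideanSpace.proj (𝕜 := ℝ) (2 : Fin 3)).continuous.comp (continuous_el 1))
    refine Integrable.mono' hd ((h'.aesm.mul hcont.aestronglyMeasurable).mul h.aesm)
      (Eventually.of_forall fun ξ => ?_)
    rw [Real.norm_eq_abs, abs_mul, abs_mul]
    have h1 := abs_el_sum_le ξ
    have hw := Mult.two_le_wi ξ
    have hE : 1 ≤ Real.exp (2 * a * wi ξ) := Real.one_le_exp (by positivity)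
    have h2 : |Φ' ξ| * |el 0 ξ 2 + el 1 ξ 2| * |Φ ξ| ≤
        (Real.exp (2 * a * wi ξ) * |Φ' ξ|) * (wi ξ * Real.exp (2 * a * wi ξ) * |Φ ξ|) := by
      have a1 : |Φ' ξ| ≤ Real.exp (2 * a * wi ξ) * |Φ' ξ| := by nlinarith [abs_nonneg (Φ' ξ)]
      have a2 : |el 0 ξ 2 + el 1 ξ 2| * |Φ ξ| ≤ wi ξ * Real.exp (2 * a * wi ξ) * |Φ ξ| := by
        refine mul_le_mul_of_nonneg_right (h1.trans ?_) (abs_nonneg _)
        nlinarith
      rw [mul_assoc]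
      exact mul_le_mul a1 a2 (by positivity) (by positivity)
    refine h2.trans ?_
    have e1 : (wi ξ * Real.exp (2 * a * wi ξ) * Φ ξ) ^ 2 =
        (wi ξ * Real.exp (2 * a * wi ξ) * |Φ ξ|) ^ 2 := by
      rw [mul_pow, mul_pow _ |Φ ξ| 2, sq_abs]
    have e2 : (Real.exp (2 * a * wi ξ) * Φ' ξ) ^ 2 = (Real.exp (2 * a * wi ξ) * |Φ' ξ|) ^ 2 := by
      rw [mul_pow, mul_pow _ |Φ' ξ| 2, sq_abs]
    rw [e1, e2]
    nlinarith [sq_nonneg (wi ξ * Real.exp (2 * a * wi ξ) * |Φ ξ| -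
      Real.exp (2 * a * wi ξ) * |Φ' ξ|)]
  -- the pointwise bound of the difference
  have hpt : ∀ ξ, |Φ' ξ * Wm X ξ * Φ ξ - X 2 / r ^ 3 * (Φ' ξ * (el 0 ξ 2 + el 1 ξ 2) * Φ ξ)| ≤
      f1 ξ + (f2 ξ + f3 ξ) := by
    intro ξ
    have hw2 := Mult.two_le_wi ξ
    have hf1n : 0 ≤ f1 ξ := by
      rw [hf1]
      positivity
    have hf2n : 0 ≤ f2 ξ := by
      rw [hf2]
      positivity
    have hf3n : 0 ≤ f3 ξ := by
      rw [hf3]
      positivity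
    have hE : 1 ≤ Real.exp (2 * a * wi ξ) := Real.one_le_exp (by positivity)
    rcases le_or_gt (wi ξ) (r / 2) with hw | hw
    · refine le_trans ?_ (le_add_of_nonneg_right (add_nonneg hf2n hf3n))
      have h1 := Mult.Wm_dip hr.symm h0 hw
      have e : Φ' ξ * Wm X ξ * Φ ξ - X 2 / r ^ 3 * (Φ' ξ * (el 0 ξ 2 + el 1 ξ 2) * Φ ξ) =
          Φ' ξ * Φ ξ * (Wm X ξ - X 2 / r ^ 3 * (el 0 ξ 2 + el 1 ξ 2)) := by ring
      rw [e, abs_mul, abs_mul]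
      have b1 : wi ξ * |Φ' ξ| ≤ wi ξ * Real.exp (2 * a * wi ξ) * |Φ' ξ| := by
        refine mul_le_mul_of_nonneg_right ?_ (abs_nonneg _)
        nlinarith
      have b2 : wi ξ * |Φ ξ| ≤ wi ξ * Real.exp (2 * a * wi ξ) * |Φ ξ| := by
        refine mul_le_mul_of_nonneg_right ?_ (abs_nonneg _)
        nlinarith
      have e1 : (wi ξ * Real.exp (2 * a * wi ξ) * Φ ξ) ^ 2 =
          (wi ξ * Real.exp (2 * a * wi ξ) * |Φ ξ|) ^ 2 := by
        rw [mul_pow, mul_pow _ |Φ ξ| 2, sq_abs]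
      have e2 : (wi ξ * Real.exp (2 * a * wi ξ) * Φ' ξ) ^ 2 =
          (wi ξ * Real.exp (2 * a * wi ξ) * |Φ' ξ|) ^ 2 := by
        rw [mul_pow, mul_pow _ |Φ' ξ| 2, sq_abs]
      have b3 : (wi ξ * |Φ' ξ|) * (wi ξ * |Φ ξ|) ≤
          1 / 2 * ((wi ξ * Real.exp (2 * a * wi ξ) * Φ' ξ) ^ 2 +
            (wi ξ * Real.exp (2 * a * wi ξ) * Φ ξ) ^ 2) := by
        refine (mul_le_mul b1 b2 (by positivity) (by positivity)).trans ?_
        rw [e1, e2]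
        nlinarith [sq_nonneg (wi ξ * Real.exp (2 * a * wi ξ) * |Φ' ξ| -
          wi ξ * Real.exp (2 * a * wi ξ) * |Φ ξ|)]
      calc |Φ' ξ| * |Φ ξ| * |Wm X ξ - X 2 / r ^ 3 * (el 0 ξ 2 + el 1 ξ 2)|
          ≤ |Φ' ξ| * |Φ ξ| * (38 * |X 2| * wi ξ ^ 2 / r ^ 4) :=
            mul_le_mul_of_nonneg_left h1 (by positivity)
        _ = 38 * |X 2| / r ^ 4 * ((wi ξ * |Φ' ξ|) * (wi ξ * |Φ ξ|)) := by ring
        _ ≤ 38 * |X 2| / r ^ 4 * (1 / 2 * ((wi ξ * Real.exp (2 * a * wi ξ) * Φ' ξ) ^ 2 +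
            (wi ξ * Real.exp (2 * a * wi ξ) * Φ ξ) ^ 2)) :=
            mul_le_mul_of_nonneg_left b3 (by positivity)
        _ = f1 ξ := by
            rw [hf1]
            ring
    · refine le_trans ?_ (le_add_of_nonneg_left hf1n)
      refine (abs_sub _ _).trans (add_le_add ?_ ?_)
      · -- far part of the coupling
        have h1 := far_abs ha hw (Φ ξ)
        have hE1 : 1 ≤ Real.exp (a * wi ξ) := Real.one_le_exp (by positivity)
        have h2 : |Φ ξ| ≤ Real.exp (-(3 / 2 * a * r)) * |Real.exp (4 * a * wi ξ) * Φ ξ| := by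
          refine le_trans ?_ h1
          nlinarith [abs_nonneg (Φ ξ)]
        calc |Φ' ξ * Wm X ξ * Φ ξ| = |Φ' ξ| * (|Wm X ξ| * |Φ ξ|) := by
              rw [abs_mul, abs_mul, mul_assoc]
          _ ≤ |Φ' ξ| * ((WX X ξ + WX (rz X) ξ) / 2 *
                (Real.exp (-(3 / 2 * a * r)) * |Real.exp (4 * a * wi ξ) * Φ ξ|)) := by
              refine mul_le_mul_of_nonneg_left (mul_le_mul (abs_Wm_le X ξ) h2 (abs_nonneg _) ?_)
                (abs_nonneg _)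
              have := WX_nonneg X ξ
              have := WX_nonneg (rz X) ξ
              positivity
          _ = Real.exp (-(3 / 2 * a * r)) * (|Φ' ξ| * ((WX X ξ + WX (rz X) ξ) / 2 *
                |Real.exp (4 * a * wi ξ) * Φ ξ|)) := by ring
          _ ≤ f2 ξ := mul_le_mul_of_nonneg_left (hAM ξ) (Real.exp_pos _).le
      · -- far part of the dipole
        have hEr : 1 ≤ Real.exp (-(a * r)) * Real.exp (2 * a * wi ξ) := by
          rw [← Real.exp_add]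
          exact Real.one_le_exp (by nlinarith)
        have b0 : |X 2 / r ^ 3| ≤ 1 := by
          rw [abs_div, abs_of_pos (show 0 < r ^ 3 by positivity), div_le_one (by positivity)]
          nlinarith [sq_nonneg r, mul_self_nonneg (r - 1)]
        have h1 := abs_el_sum_le ξ
        have b1 : |X 2 / r ^ 3 * (Φ' ξ * (el 0 ξ 2 + el 1 ξ 2) * Φ ξ)| ≤
            |Φ' ξ| * (wi ξ * |Φ ξ|) := by
          rw [abs_mul, abs_mul, abs_mul]
          calc |X 2 / r ^ 3| * (|Φ' ξ| * |el 0 ξ 2 + el 1 ξ 2| * |Φ ξ|)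
              ≤ 1 * (|Φ' ξ| * wi ξ * |Φ ξ|) :=
                mul_le_mul b0 (mul_le_mul_of_nonneg_right (mul_le_mul_of_nonneg_left h1
                  (abs_nonneg _)) (abs_nonneg _)) (by positivity) (by norm_num)
            _ = |Φ' ξ| * (wi ξ * |Φ ξ|) := by ring
        have e1 : (wi ξ * Real.exp (2 * a * wi ξ) * Φ ξ) ^ 2 =
            (wi ξ * Real.exp (2 * a * wi ξ) * |Φ ξ|) ^ 2 := by
          rw [mul_pow, mul_pow _ |Φ ξ| 2, sq_abs]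
        have e2 : (Real.exp (2 * a * wi ξ) * Φ' ξ) ^ 2 =
            (Real.exp (2 * a * wi ξ) * |Φ' ξ|) ^ 2 := by
          rw [mul_pow, mul_pow _ |Φ' ξ| 2, sq_abs]
        have b2 : |Φ' ξ| * (wi ξ * |Φ ξ|) ≤
            Real.exp (-(a * r)) * ((Real.exp (2 * a * wi ξ) * |Φ' ξ|) *
              (wi ξ * Real.exp (2 * a * wi ξ) * |Φ ξ|)) := by
          have c1 : 0 ≤ |Φ' ξ| * (wi ξ * |Φ ξ|) := by positivity
          have c2 : 1 ≤ (Real.exp (-(a * r)) * Real.exp (2 * a * wi ξ)) *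
              Real.exp (2 * a * wi ξ) := by nlinarith
          calc |Φ' ξ| * (wi ξ * |Φ ξ|) = 1 * (|Φ' ξ| * (wi ξ * |Φ ξ|)) := by ring
            _ ≤ ((Real.exp (-(a * r)) * Real.exp (2 * a * wi ξ)) *
              Real.exp (2 * a * wi ξ)) * (|Φ' ξ| * (wi ξ * |Φ ξ|)) :=
                mul_le_mul_of_nonneg_right c2 c1
            _ = _ := by ring
        refine b1.trans (b2.trans ?_)
        show _ ≤ Real.exp (-(a * r)) * (1 / 2) * _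
        rw [e1, e2, mul_assoc (Real.exp (-(a * r)))]
        refine mul_le_mul_of_nonneg_left ?_ (Real.exp_pos _).le
        nlinarith [sq_nonneg (wi ξ * Real.exp (2 * a * wi ξ) * |Φ ξ| -
          Real.exp (2 * a * wi ξ) * |Φ' ξ|)]
  -- integration
  have hdiff : (∫ ξ, Φ' ξ * Wm X ξ * Φ ξ) -
      X 2 / r ^ 3 * ∫ ξ, Φ' ξ * (el 0 ξ 2 + el 1 ξ 2) * Φ ξ =
      ∫ ξ, (Φ' ξ * Wm X ξ * Φ ξ - X 2 / r ^ 3 * (Φ' ξ * (el 0 ξ 2 + el 1 ξ 2) * Φ ξ)) := by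
    rw [integral_sub hA (hB.const_mul _), integral_const_mul]
  rw [hdiff]
  have hfin : |∫ ξ, (Φ' ξ * Wm X ξ * Φ ξ -
      X 2 / r ^ 3 * (Φ' ξ * (el 0 ξ 2 + el 1 ξ 2) * Φ ξ))| ≤ ∫ ξ, (f1 ξ + (f2 ξ + f3 ξ)) := by
    rw [← Real.norm_eq_abs]
    refine norm_integral_le_of_norm_le (integrable_add3 hi1 hi2 hi3)
      (Eventually.of_forall fun ξ => ?_)
    rw [Real.norm_eq_abs]
    exact hpt ξ
  refine hfin.trans ?_
  rw [integral_add3 hi1 hi2 hi3]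
  have t1 : ∫ ξ, f1 ξ ≤ 38 * (C0 * D) ^ 2 * |X 2| / r ^ 4 := by
    rw [hf1, integral_const_mul, integral_add h'.m1.1 h.m1.1]
    have := add_le_add h'.m1.2 h.m1.2
    calc _ ≤ 19 * |X 2| / r ^ 4 * ((C0 * D) ^ 2 + (C0 * D) ^ 2) :=
          mul_le_mul_of_nonneg_left this (by positivity)
      _ = _ := by ring
  have hexp : Real.exp (-(3 / 2 * a * r)) ≤ Real.exp (-(a * r)) :=
    Real.exp_le_exp.2 (by nlinarith [mul_pos ha h0])
  have t2 : ∫ ξ, f2 ξ ≤ (2 + 4 * K) * Real.exp (-(a * r)) := by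
    have e : ∫ ξ, f2 ξ = Real.exp (-(3 / 2 * a * r)) * (1 / 2 * (∫ ξ, Φ' ξ ^ 2) +
        1 / 4 * ((∫ ξ, (WX X ξ * (Real.exp (4 * a * wi ξ) * Φ ξ)) ^ 2) +
          ∫ ξ, (WX (rz X) ξ * (Real.exp (4 * a * wi ξ) * Φ ξ)) ^ 2)) := by
      have q1 := integral_add ((h'.int_sq ha).1.const_mul (1 / 2))
        ((hh.1.add hh'.1).const_mul (1 / 4))
      simp only [Pi.add_apply] at q1
      rw [hf2, integral_const_mul, q1, integral_const_mul, integral_const_mul,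
        integral_add hh.1 hh'.1]
    rw [e, mul_comm]
    have n1 : 0 ≤ ∫ ξ, Φ' ξ ^ 2 := integral_nonneg fun ξ => sq_nonneg _
    have n2 : 0 ≤ ∫ ξ, (WX X ξ * (Real.exp (4 * a * wi ξ) * Φ ξ)) ^ 2 :=
      integral_nonneg fun ξ => sq_nonneg _
    have n3 : 0 ≤ ∫ ξ, (WX (rz X) ξ * (Real.exp (4 * a * wi ξ) * Φ ξ)) ^ 2 :=
      integral_nonneg fun ξ => sq_nonneg _
    refine mul_le_mul ?_ hexp (Real.exp_pos _).le (by positivity)
    have := (h'.int_sq ha).2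
    linarith [hh.2, hh'.2]
  have t3 : ∫ ξ, f3 ξ ≤ ((C0 * D) ^ 2 + 4) / 2 * Real.exp (-(a * r)) := by
    rw [hf3, integral_const_mul, integral_add h.m1.1 h'.m0.1]
    have := add_le_add h.m1.2 h'.m0.2
    calc _ ≤ Real.exp (-(a * r)) * (1 / 2) * ((C0 * D) ^ 2 + 4) :=
          mul_le_mul_of_nonneg_left this (by positivity)
      _ = _ := by ring
  calc (∫ ξ, f1 ξ) + ((∫ ξ, f2 ξ) + ∫ ξ, f3 ξ) ≤ 38 * (C0 * D) ^ 2 * |X 2| / r ^ 4 +
        ((2 + 4 * K) * Real.exp (-(a * r)) + ((C0 * D) ^ 2 + 4) / 2 * Real.exp (-(a * r))) :=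
        add_le_add t1 (add_le_add t2 t3)
    _ = _ := by ring

end

/-- multipoles for ion states with weights -/
theorem multipole {C0 D K a : ℝ} (hC : 1 ≤ C0) (hD : 1 ≤ D) (ha : 0 < a) (ha1 : a ≤ 1 / 100) :
    ∃ K' : ℝ, 0 < K' ∧ ∀ Φ Φ' : Y2 → ℝ, IonW C0 D K a Φ → IonW C0 D K a Φ' →
      ∀ X : Pos3, 1 ≤ ‖X‖ →
        √(∫ ξ, (Real.exp (a * wi ξ) * (WX X ξ - 2 / ‖X‖) * Φ ξ) ^ 2) ≤ K' / ‖X‖ ^ 2 ∧
        √(∫ ξ, (Real.exp (a * wi ξ) * Wm X ξ * Φ ξ) ^ 2) ≤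
          16 * C0 * D * |X 2| / ‖X‖ ^ 3 + K' * Real.exp (-(a / 2) * ‖X‖) ∧
        √(∫ ξ in {ξ | ‖X‖ / 2 < wi ξ}, (Real.exp (a * wi ξ) * WX X ξ * Φ ξ) ^ 2) ≤
          K' * Real.exp (-(a / 2) * ‖X‖) ∧
        |(∫ ξ, Φ' ξ * Wm X ξ * Φ ξ) - X 2 / ‖X‖ ^ 3 * ∫ ξ, Φ' ξ * (el 0 ξ 2 + el 1 ξ 2) * Φ ξ| ≤
          K' * |X 2| / ‖X‖ ^ 4 + K' * Real.exp (-(a / 2) * ‖X‖) := by
  have hCD : 0 ≤ C0 * D := by positivity
  set K1 := √(4 * (C0 * D) ^ 2 + (16 * K + 32) * (24 / a ^ 4)) with hK1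
  set K2 := √(8 * K) with hK2
  set K3 := 38 * (C0 * D) ^ 2 with hK3
  set K4 := |2 + 4 * K + ((C0 * D) ^ 2 + 4) / 2| with hK4
  have n1 : 0 ≤ K1 := Real.sqrt_nonneg _
  have n2 : 0 ≤ K2 := Real.sqrt_nonneg _
  have n3 : 0 ≤ K3 := by positivity
  have n4 : 0 ≤ K4 := abs_nonneg _
  refine ⟨K1 + K2 + K3 + K4 + 1, by positivity, fun Φ Φ' h h' X hX => ?_⟩
  have h0 : 0 < ‖X‖ := by linarith
  have hexp1 : Real.exp (-(3 / 2 * a * ‖X‖)) ≤ Real.exp (-(a / 2) * ‖X‖) :=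
    Real.exp_le_exp.2 (by nlinarith [mul_pos ha h0])
  have hexp2 : Real.exp (-(a * ‖X‖)) ≤ Real.exp (-(a / 2) * ‖X‖) :=
    Real.exp_le_exp.2 (by nlinarith [mul_pos ha h0])
  have hE := (Real.exp_pos (-(a / 2) * ‖X‖)).le
  refine ⟨(h.monopole ha hX).trans ?_, (h.odd_part hCD ha hX).trans ?_, (h.far ha X ‖X‖).trans ?_,
    (h.dipole h' hCD ha hX).trans ?_⟩
  · exact div_le_div_of_nonneg_right (by linarith) (by positivity)
  · have e1 : 8 * |X 2| / ‖X‖ ^ 3 * (C0 * D) ≤ 16 * C0 * D * |X 2| / ‖X‖ ^ 3 := by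
      have : 8 * |X 2| / ‖X‖ ^ 3 * (C0 * D) = 8 * C0 * D * |X 2| / ‖X‖ ^ 3 := by ring
      rw [this]
      refine div_le_div_of_nonneg_right ?_ (by positivity)
      have : 0 ≤ C0 * D * |X 2| := by positivity
      nlinarith
    refine add_le_add e1 (mul_le_mul ?_ hexp1 (Real.exp_pos _).le (by positivity))
    linarith
  · exact mul_le_mul (by linarith) hexp1 (Real.exp_pos _).le (by positivity)
  · refine add_le_add ?_ (mul_le_mul ?_ hexp2 (Real.exp_pos _).le (by positivity))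
    · exact div_le_div_of_nonneg_right (mul_le_mul_of_nonneg_right (by linarith) (abs_nonneg _))
        (by positivity)
    · have := le_abs_self (2 + 4 * K + ((C0 * D) ^ 2 + 4) / 2)
      linarith

end Crest.Agent.R335
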