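import Crest.Agent.R335.HNorm

/-!
Row 335 (S0521), interacting side, module VecS1 part 1 (helper892): the Kato IDENTITY for the
partial norm where it is bounded below, and the Cauchy–Schwarz inequality for projections.
-/

set_option autoImplicit false
set_option linter.unusedSectionVars false

open MeasureTheory Filter Set
open scoped ENNReal Topology ContDiff

noncomputable section
namespace Crest.Agent.R335

variable {ι κ κ' : Type*} [Fintype ι] [DecidableEq ι] [Fintype κ] [DecidableEq κ]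
  [Fintype κ'] [DecidableEq κ'] {S : Type*} [Fintype S]

local notation "E" => EuclideanSpace ℝ ι

namespace VS

/-- locally bounded below, a.e. -/
def LowB (U : Set E) (N : E → ℝ) : Prop :=
  ∀ A, IsCompact A → A ⊆ U → ∃ c : ℝ, 0 < c ∧ ∀ᵐ x, x ∈ A → c ≤ N x

theorem locInt_mul_inv {U : Set E} (hU : IsOpen U) {f N : E → ℝ}
    (hf : LocallyIntegrableOn f U volume) (hNm : AEStronglyMeasurable N volume)
    (hlow : LowB U N) :
    LocallyIntegrableOn (fun x => f x * (N x)⁻¹) U volume := by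
  rw [locallyIntegrableOn_iff hU.isLocallyClosed]
  intro A hAU hA
  obtain ⟨c, hc, hcA⟩ := hlow A hA hAU
  have h1 : IntegrableOn f A volume := hf.integrableOn_compact_subset hAU hA
  have h2 : AEStronglyMeasurable (fun x => (N x)⁻¹) (volume.restrict A) :=
    hNm.aemeasurable.inv.aestronglyMeasurable.restrict
  refine h1.mul_bdd (c := c⁻¹) h2 ?_
  filter_upwards [ae_restrict_of_ae hcA, ae_restrict_mem hA.measurableSet] with y h3 h4
  have h5 := h3 h4
  rw [Real.norm_eq_abs, abs_of_nonneg (inv_nonneg.2 (hc.le.trans h5))]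
  gcongr

/-- integrals against test functions -/
theorem integrable_mul_test {U : Set E} {f φ : E → ℝ} (hf : LocallyIntegrableOn f U volume)
    (hφ : Test U φ) : Integrable (fun x => f x * φ x) := by
  obtain ⟨C, hC⟩ := hφ.smooth.continuous.bounded_above_of_compact_support hφ.cpt
  have h1 : IntegrableOn f (tsupport φ) volume := hf.integrableOn_compact_subset hφ.sub hφ.cpt
  have h2 : IntegrableOn (fun x => f x * φ x) (tsupport φ) volume :=
    h1.mul_bdd (c := C) hφ.smooth.continuous.aestronglyMeasurable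
      (Eventually.of_forall fun x => hC x)
  rw [integrableOn_iff_integrable_of_support_subset] at h2
  · exact h2
  · intro x hx
    refine subset_tsupport _ ?_
    intro h0
    exact hx (by simp [h0])

/-- the Kato identity for the partial norm, where it is bounded below -/
theorem kato_id (p : ι ≃ κ ⊕ κ') {f : S → E → ℝ} {g : S → E → E}
    (h : ∀ s, H1 (f s) (g s)) {U : Set (EuclideanSpace ℝ κ)} (hU : IsOpen U)
    {q : EuclideanSpace ℝ κ → ℝ} (hq : LocallyIntegrableOn q U volume)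
    (hlow : LowB U (fun x => √(HN.q p f x)))
    (hEL : ∀ (k : EuclideanSpace ℝ κ → ℝ) (l : EuclideanSpace ℝ κ → EuclideanSpace ℝ κ) (C : ℝ),
      WG univ k l → (∀ x, |k x| ≤ C) → (∀ s, H1 (fun X => k (pr1 p X) * f s X)
        (fun X => k (pr1 p X) • g s X + f s X • jn p (l (pr1 p X)) 0)) → (∀ x, x ∉ U → k x = 0) →
      (1 / 2) * (∑ s, ∫ X, inner ℝ (g s X)
          (k (pr1 p X) • g s X + f s X • jn p (l (pr1 p X)) 0)) +
        ∫ x, k x * q x = 0)
    {φ : EuclideanSpace ℝ κ → ℝ} (hφ : Test U φ) :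
    (1 / 2) * (∫ x, inner ℝ (HN.m p f g x) (gr φ x)) +
      ∫ x, (((1 / 2) * (HN.T p g x - ‖HN.m p f g x‖ ^ 2) + (1 / 2) * HN.T2 p g x + q x) *
        (√(HN.q p f x))⁻¹) * φ x = 0 := by
  have hf : ∀ s, MemLp (f s) 2 volume := fun s => (h s).memf
  have hg : ∀ s, MemLp (g s) 2 volume := fun s => (h s).memg
  obtain ⟨C, hC, hC'⟩ := HN.exists_bound hφ
  obtain ⟨c, hc, hcA⟩ := hlow (tsupport φ) hφ.cpt hφ.sub
  set ε : ℕ → ℝ := fun n => 1 / ((n : ℝ) + 1) with hεd
  have hε : ∀ n, 0 < ε n := fun n => Nat.one_div_pos_of_nat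
  have hεt : Tendsto ε atTop (𝓝 0) := tendsto_one_div_add_atTop_nhds_zero_nat
  have hgrc : Continuous (gr φ) := (contDiff_gr hφ.smooth).continuous
  have hT := HN.T_integrable p hg
  have hT2 := HN.T2_integrable p hg
  have hV := HN.V_integrable p hf hg
  have hqφ : Integrable (fun x => q x * φ x) := integrable_mul_test hq hφ
  -- the regularised integrands
  have hN0 : ∀ n x, 0 < √(HN.q p f x + ε n ^ 2) := fun n x => by
    have := HN.q_nonneg p f x
    have := hε n
    positivity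
  have hinvm : ∀ n, AEStronglyMeasurable (fun x => (√(HN.q p f x + ε n ^ 2))⁻¹) volume := by
    intro n
    have h1 : AEStronglyMeasurable (fun x => √(HN.q p f x + ε n ^ 2)) volume :=
      Real.continuous_sqrt.comp_aestronglyMeasurable
        ((HN.q_integrable p hf).1.add aestronglyMeasurable_const)
    exact h1.aemeasurable.inv.aestronglyMeasurable
  -- main identity for each n
  set L : ℕ → EuclideanSpace ℝ κ → ℝ := fun n x =>
    (1 / 2) * ((√(HN.q p f x + ε n ^ 2))⁻¹ * inner ℝ (HN.V p f g x) (gr φ x)) +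
      ((1 / 2) * ((HN.T p g x + HN.T2 p g x) -
        ((√(HN.q p f x + ε n ^ 2))⁻¹ ^ 2) * ‖HN.V p f g x‖ ^ 2) + q x) *
        (√(HN.q p f x + ε n ^ 2))⁻¹ * φ x with hL
  have hkey : ∀ n, ∫ x, L n x = 0 := by
    intro n
    have hk := HN.WG_k p h (hε n) hφ
    have hkm : AEStronglyMeasurable (HN.k p f (ε n) φ) volume := by
      have := hk.intf
      rw [locallyIntegrableOn_univ] at this
      exact this.aestronglyMeasurable
    have hkU : ∀ x, x ∉ U → HN.k p f (ε n) φ x = 0 := by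
      intro x hx
      have : φ x = 0 := by
        by_contra h0
        exact hx (hφ.sub (subset_tsupport _ h0))
      simp [HN.k, this]
    have hH := HN.H1_k p h (hε n) hφ
    have hkb := HN.k_bound p f (hε n) hC
    have e0 := hEL (HN.k p f (ε n) φ) (HN.l p f g (ε n) φ) (C * (ε n)⁻¹) hk hkb hH hkU
    have hW0 : ∀ s, Integrable (fun X => (fun (_ : S) (_ : E) => (0 : ℝ)) s X * f s X ^ 2) := by
      intro s; simp
    obtain ⟨hi, e1⟩ := HN.EL_slice p h hW0 hkm hkb hH
    have e2 : ∑ s, ∫ X, (fun (_ : S) (_ : E) => (0 : ℝ)) s X * HN.k p f (ε n) φ (pr1 p X) *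
        f s X ^ 2 = 0 := by simp
    rw [e2, add_zero] at e1
    rw [e1] at e0
    have hkq : Integrable (fun x => HN.k p f (ε n) φ x * q x) := by
      have := hqφ.bdd_mul (c := (ε n)⁻¹) (hinvm n) (Eventually.of_forall fun x => by
        rw [Real.norm_eq_abs, abs_of_pos (inv_pos.2 (hN0 n x))]
        exact HN.inv_le p f (hε n) x)
      refine this.congr (Eventually.of_forall fun x => ?_)
      simp only [HN.k]; ring
    rw [← integral_add hi hkq] at e0
    rw [← e0]
    refine integral_congr_ae (Eventually.of_forall fun x => ?_)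
    simp only [hL, HN.k, HN.l, HN.P, zero_mul, integral_zero, Finset.sum_const_zero, mul_zero,
      add_zero]
    rw [inner_add_right, inner_smul_right, inner_smul_right, inner_smul_right,
      real_inner_self_eq_norm_sq]
    ring
  -- domination
  set N : EuclideanSpace ℝ κ → ℝ := fun x => √(HN.q p f x) with hNdef
  have hNm : AEStronglyMeasurable N volume := HN.aesm_sqrt_q p hf
  have hmV : ∀ x, HN.m p f g x = (N x)⁻¹ • HN.V p f g x := fun x => rfl
  set G : EuclideanSpace ℝ κ → ℝ := fun x =>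
    (1 / 2) * (c⁻¹ * (C * ‖HN.V p f g x‖)) + c⁻¹ * (C * (HN.T p g x + (1 / 2) * HN.T2 p g x)) +
      c⁻¹ * |q x * φ x| with hG
  have hGi : Integrable G :=
    (((hV.norm.const_mul C).const_mul _).const_mul _).add
      (((hT.add (hT2.const_mul _)).const_mul _).const_mul _) |>.add (hqφ.abs.const_mul _)
  have hT20 : ∀ x, 0 ≤ HN.T2 p g x := fun x =>
    Finset.sum_nonneg fun _ _ => integral_nonneg fun _ => sq_nonneg _
  have hLm : ∀ n, AEStronglyMeasurable (L n) volume := by
    intro n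
    refine AEStronglyMeasurable.add (((hinvm n).mul (hV.1.inner
      hgrc.aestronglyMeasurable)).const_mul _) ?_
    have h1 : AEStronglyMeasurable (fun x => ((1 / 2) * ((HN.T p g x + HN.T2 p g x) -
        ((√(HN.q p f x + ε n ^ 2))⁻¹ ^ 2) * ‖HN.V p f g x‖ ^ 2)) *
        (√(HN.q p f x + ε n ^ 2))⁻¹ * φ x) volume :=
      ((((hT.1.add hT2.1).sub (((hinvm n).pow 2).mul (hV.1.norm.pow 2))).const_mul _).mul
        (hinvm n)).mul hφ.smooth.continuous.aestronglyMeasurable
    have h2 : AEStronglyMeasurable (fun x => (√(HN.q p f x + ε n ^ 2))⁻¹ * (q x * φ x)) volume :=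
      (hinvm n).mul hqφ.1
    refine (h1.add h2).congr (Eventually.of_forall fun x => ?_)
    simp only [Pi.add_apply]; ring
  have hbd : ∀ n, ∀ᵐ x, ‖L n x‖ ≤ G x := by
    intro n
    filter_upwards [hcA, HN.V_norm_le p hf hg] with x hx hVx
    have hT0 := HN.T_nonneg p g x
    have hT2x := hT20 x
    have hC0 : 0 ≤ C := (abs_nonneg _).trans (hC x)
    by_cases hxs : x ∈ tsupport φ
    · have h1 : c ≤ √(HN.q p f x) := hx hxs
      have h2 : √(HN.q p f x) ≤ √(HN.q p f x + ε n ^ 2) :=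
        Real.sqrt_le_sqrt (by nlinarith [sq_nonneg (ε n)])
      set M := √(HN.q p f x + ε n ^ 2) with hM
      have hM0 : 0 < M := hN0 n x
      have h3 : M⁻¹ ≤ c⁻¹ := by
        have := h1.trans h2
        gcongr
      have h4 : M⁻¹ ^ 2 * ‖HN.V p f g x‖ ^ 2 ≤ HN.T p g x := by
        have h5 : ‖HN.V p f g x‖ ≤ M * √(HN.T p g x) :=
          hVx.trans (mul_le_mul_of_nonneg_right h2 (Real.sqrt_nonneg _))
        have h6 := pow_le_pow_left₀ (norm_nonneg _) h5 2
        rw [mul_pow, Real.sq_sqrt hT0] at h6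
        calc M⁻¹ ^ 2 * ‖HN.V p f g x‖ ^ 2 ≤ M⁻¹ ^ 2 * (M ^ 2 * HN.T p g x) := by gcongr
          _ = _ := by field_simp
      have h4' : 0 ≤ M⁻¹ ^ 2 * ‖HN.V p f g x‖ ^ 2 := by positivity
      have h7 : |(inner ℝ (HN.V p f g x) (gr φ x) : ℝ)| ≤ C * ‖HN.V p f g x‖ := by
        refine (abs_real_inner_le_norm _ _).trans ?_
        rw [mul_comm]
        exact mul_le_mul_of_nonneg_right (hC' x) (norm_nonneg _)
      have h8 : |(1 / 2) * (M⁻¹ * inner ℝ (HN.V p f g x) (gr φ x))| ≤
          (1 / 2) * (c⁻¹ * (C * ‖HN.V p f g x‖)) := by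
        rw [abs_mul, abs_mul, abs_of_pos (inv_pos.2 hM0), abs_of_pos (by norm_num : (0:ℝ) < 1 / 2)]
        gcongr
      have h9 : |(1 / 2) * ((HN.T p g x + HN.T2 p g x) - M⁻¹ ^ 2 * ‖HN.V p f g x‖ ^ 2)| ≤
          HN.T p g x + (1 / 2) * HN.T2 p g x := by
        rw [abs_le]
        constructor <;> linarith
      have h10 : |((1 / 2) * ((HN.T p g x + HN.T2 p g x) - M⁻¹ ^ 2 * ‖HN.V p f g x‖ ^ 2)) *
          M⁻¹ * φ x| ≤ c⁻¹ * (C * (HN.T p g x + (1 / 2) * HN.T2 p g x)) := by
        rw [abs_mul, abs_mul, abs_of_pos (inv_pos.2 hM0)]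
        calc _ ≤ (HN.T p g x + (1 / 2) * HN.T2 p g x) * c⁻¹ * C := by
              gcongr
              exact hC x
          _ = _ := by ring
      have h11 : |q x * φ x * M⁻¹| ≤ c⁻¹ * |q x * φ x| := by
        rw [abs_mul, abs_of_pos (inv_pos.2 hM0), mul_comm]
        gcongr
      have e : L n x = (1 / 2) * (M⁻¹ * inner ℝ (HN.V p f g x) (gr φ x)) +
          ((1 / 2) * ((HN.T p g x + HN.T2 p g x) - M⁻¹ ^ 2 * ‖HN.V p f g x‖ ^ 2)) * M⁻¹ * φ x +
          q x * φ x * M⁻¹ := by
        simp only [hL, ← hM]; ring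
      rw [Real.norm_eq_abs, e]
      refine (abs_add_three _ _ _).trans ?_
      exact add_le_add (add_le_add h8 h10) h11
    · have e1 : φ x = 0 := image_eq_zero_of_notMem_tsupport hxs
      have e2 : gr φ x = 0 := gr_eq_zero_of_notMem' hxs
      have e3 : L n x = 0 := by simp [hL, e1, e2]
      rw [e3, norm_zero]
      simp only [hG]
      positivity
  have hlim : ∀ᵐ x, Tendsto (fun n => L n x) atTop
      (𝓝 ((1 / 2) * inner ℝ (HN.m p f g x) (gr φ x) +
        (((1 / 2) * (HN.T p g x - ‖HN.m p f g x‖ ^ 2) + (1 / 2) * HN.T2 p g x + q x) *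
        (N x)⁻¹) * φ x)) := by
    filter_upwards [hcA] with x hx
    by_cases hxs : x ∈ tsupport φ
    · have h1 : c ≤ √(HN.q p f x) := hx hxs
      have hNx : 0 < N x := hc.trans_le h1
      have h2 : Tendsto (fun n => √(HN.q p f x + ε n ^ 2)) atTop (𝓝 (N x)) := by
        have h1 : Tendsto (fun n => HN.q p f x + ε n ^ 2) atTop (𝓝 (HN.q p f x + 0 ^ 2)) :=
          tendsto_const_nhds.add (hεt.pow 2)
        have := (Real.continuous_sqrt.tendsto _).comp h1
        simpa [Function.comp_def] using this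
      have h3 : Tendsto (fun n => (√(HN.q p f x + ε n ^ 2))⁻¹) atTop (𝓝 (N x)⁻¹) :=
        h2.inv₀ hNx.ne'
      have h4 := ((h3.mul_const (inner ℝ (HN.V p f g x) (gr φ x))).const_mul (1 / 2)).add
        (((((((h3.pow 2).mul_const (‖HN.V p f g x‖ ^ 2)).const_sub
          (HN.T p g x + HN.T2 p g x)).const_mul (1 / 2)).add_const (q x)).mul h3).mul_const (φ x))
      refine (h4.congr fun n => ?_).trans (le_of_eq ?_)
      · simp only [hL]
      · congr 1
        rw [hmV, inner_smul_left, norm_smul, Real.norm_eq_abs, mul_pow, sq_abs]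
        simp only [conj_trivial]
        ring
    · have e1 : φ x = 0 := image_eq_zero_of_notMem_tsupport hxs
      have e2 : gr φ x = 0 := gr_eq_zero_of_notMem' hxs
      have e3 : ∀ n, L n x = 0 := fun n => by simp [hL, e1, e2]
      simp only [e3, e1, e2, inner_zero_right, mul_zero, add_zero]
      exact tendsto_const_nhds
  have hlimI := tendsto_integral_of_dominated_convergence G hLm hGi hbd hlim
  simp only [hkey] at hlimI
  have h0 := tendsto_nhds_unique hlimI tendsto_const_nhds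
  have hm2 := (HN.H1_sqrt_q p h).memg
  have i1 : Integrable (fun x => inner ℝ (HN.m p f g x) (gr φ x)) :=
    HS.integrable_inner hm2 (hgrc.memLp_of_hasCompactSupport (hasCompactSupport_gr hφ.cpt))
  have i2 : LocallyIntegrableOn (fun x => (1 / 2) * (HN.T p g x - ‖HN.m p f g x‖ ^ 2) +
      (1 / 2) * HN.T2 p g x + q x) U volume := by
    have h1 : Integrable (fun x => (1 / 2) * (HN.T p g x - ‖HN.m p f g x‖ ^ 2) +
      (1 / 2) * HN.T2 p g x) :=
      ((hT.sub (HS.integrable_norm_sq hm2)).const_mul _).add (hT2.const_mul _)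
    exact (h1.locallyIntegrable.locallyIntegrableOn U).add hq
  have i3 := integrable_mul_test (locInt_mul_inv hU i2 hNm hlow) hφ
  rw [← integral_const_mul, ← integral_add (i1.const_mul _) i3]
  exact h0

/-- fibre version of `cs_proj` -/
theorem cs_fib {α V : Type*} [MeasurableSpace α] {μ : Measure α} [NormedAddCommGroup V]
    [InnerProductSpace ℝ V] [CompleteSpace V] [DecidableEq S] {F : S → α → ℝ} {G : S → α → V}
    (hF : ∀ s, MemLp (F s) 2 μ) (hG : ∀ s, MemLp (G s) 2 μ) (s0 : S) {Φ : α → ℝ}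
    (hΦ : MemLp Φ 2 μ) (hΦ1 : ∫ y, Φ y ^ 2 ∂μ = 1) {N : ℝ} (hN : 0 < N) {m : V}
    (hNq : N ^ 2 = ∑ s, ∫ y, F s y ^ 2 ∂μ) (hm : N • m = ∑ s, ∫ y, F s y • G s y ∂μ) :
    ‖N • (∫ y, Φ y • G s0 y ∂μ) - (∫ y, Φ y * F s0 y ∂μ) • m‖ ^ 2 ≤
      (N ^ 2 - (∫ y, Φ y * F s0 y ∂μ) ^ 2) * ((∑ s, ∫ y, ‖G s y‖ ^ 2 ∂μ) - ‖m‖ ^ 2) := by
  set c : ℝ := ∫ y, Φ y * F s0 y ∂μ with hc
  set a : ℝ := c / N ^ 2 with ha
  have hNa : a * N ^ 2 = c := by rw [ha]; field_simp
  have hψ : ∀ s, MemLp (fun y => (if s = s0 then Φ y else 0) - a * F s y) 2 μ := by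
    intro s
    refine MemLp.sub ?_ ((hF s).const_mul a)
    split_ifs
    · exact hΦ
    · exact MemLp.zero
  have hv : ∀ s, MemLp (fun y => N • G s y - F s y • m) 2 μ := by
    intro s
    refine ((hG s).const_smul N).sub ?_
    have := (hF s).norm
    refine MemLp.of_le_mul (c := ‖m‖) (hF s) ((hF s).1.smul_const m)
      (Eventually.of_forall fun y => ?_)
    rw [norm_smul, mul_comm]
  have iFF : ∀ s, Integrable (fun y => F s y ^ 2) μ := fun s => (hF s).integrable_sq
  have iFG : ∀ s, Integrable (fun y => F s y • G s y) μ := fun s =>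
    HS.integrable_smul (hF s) (hG s)
  have iΦG : Integrable (fun y => Φ y • G s0 y) μ := HS.integrable_smul hΦ (hG s0)
  have iΦF : Integrable (fun y => Φ y * F s0 y) μ := hΦ.integrable_mul (hF s0)
  have iGG : ∀ s, Integrable (fun y => ‖G s y‖ ^ 2) μ := fun s => HS.integrable_norm_sq (hG s)
  -- the sum of the pairings
  have eI : ∀ s, ∫ y, ((if s = s0 then Φ y else 0) - a * F s y) • (N • G s y - F s y • m) ∂μ =
      (if s = s0 then N • (∫ y, Φ y • G s0 y ∂μ) - c • m else 0) -
        ((a * N) • (∫ y, F s y • G s y ∂μ) - (a * ∫ y, F s y ^ 2 ∂μ) • m) := by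
    intro s
    have h1 : ∫ y, (a * F s y) • (N • G s y - F s y • m) ∂μ =
        (a * N) • (∫ y, F s y • G s y ∂μ) - (a * ∫ y, F s y ^ 2 ∂μ) • m := by
      rw [← integral_smul, ← integral_const_mul, ← integral_smul_const, ← integral_sub]
      · refine integral_congr_ae (Eventually.of_forall fun y => ?_)
        simp only [smul_sub, smul_smul]
        congr 2
        · ring
        · ring
      · exact (iFG s).smul _
      · exact ((iFF s).const_mul a).smul_const m
    have h1i : Integrable (fun y => (a * F s y) • (N • G s y - F s y • m)) μ := 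
      HS.integrable_smul ((hF s).const_mul a) (hv s)
    simp only [sub_smul]
    by_cases hs : s = s0
    · subst hs
      simp only [if_true]
      have h2 : ∫ y, Φ y • (N • G s y - F s y • m) ∂μ =
          N • (∫ y, Φ y • G s y ∂μ) - c • m := by
        rw [hc, ← integral_smul, ← integral_smul_const, ← integral_sub]
        · refine integral_congr_ae (Eventually.of_forall fun y => ?_)
          simp only [smul_sub, smul_smul]
          rw [mul_comm]
        · exact iΦG.smul _
        · exact iΦF.smul_const m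
      rw [integral_sub (HS.integrable_smul hΦ (hv s)) h1i, h1, h2]
    · simp only [if_neg hs, zero_smul, zero_sub]
      rw [integral_neg, h1]
  have eS : ∑ s, ∫ y, ((if s = s0 then Φ y else 0) - a * F s y) • (N • G s y - F s y • m) ∂μ =
      N • (∫ y, Φ y • G s0 y ∂μ) - c • m := by
    simp only [eI]
    rw [Finset.sum_sub_distrib, Finset.sum_ite_eq' Finset.univ s0, if_pos (Finset.mem_univ _),
      Finset.sum_sub_distrib, ← Finset.smul_sum, ← hm, ← Finset.sum_smul, ← Finset.mul_sum,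
      ← hNq, smul_smul]
    have : a * N * N = a * N ^ 2 := by ring
    rw [this, sub_self, sub_zero]
  have eA : ∑ s, ∫ y, ((if s = s0 then Φ y else 0) - a * F s y) ^ 2 ∂μ = 1 - a * c := by
    have h1 : ∀ s, ∫ y, ((if s = s0 then Φ y else 0) - a * F s y) ^ 2 ∂μ =
        (if s = s0 then 1 - 2 * a * c else 0) + a ^ 2 * ∫ y, F s y ^ 2 ∂μ := by
      intro s
      by_cases hs : s = s0
      · subst hs
        simp only [if_true]
        have e : ∀ y, (Φ y - a * F s y) ^ 2 = (Φ y ^ 2 - 2 * a * (Φ y * F s y)) +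
            a ^ 2 * F s y ^ 2 := fun y => by ring
        have i5 : Integrable (fun y => Φ y ^ 2 - 2 * a * (Φ y * F s y)) μ :=
          (hΦ.integrable_sq).sub (iΦF.const_mul _)
        simp_rw [e]
        rw [integral_add i5 ((iFF s).const_mul _),
          integral_sub hΦ.integrable_sq (iΦF.const_mul _), integral_const_mul,
          integral_const_mul, hΦ1]
      · simp only [if_neg hs, zero_sub, zero_add]
        rw [← integral_const_mul]
        congr 1; funext y; ring
    simp only [h1]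
    rw [Finset.sum_add_distrib, Finset.sum_ite_eq' Finset.univ s0, if_pos (Finset.mem_univ _),
      ← Finset.mul_sum, ← hNq]
    have : a ^ 2 * N ^ 2 = a * c := by rw [← hNa]; ring
    rw [this]; ring
  have eB : ∑ s, ∫ y, ‖N • G s y - F s y • m‖ ^ 2 ∂μ =
      N ^ 2 * ((∑ s, ∫ y, ‖G s y‖ ^ 2 ∂μ) - ‖m‖ ^ 2) := by
    have h1 : ∀ s, ∫ y, ‖N • G s y - F s y • m‖ ^ 2 ∂μ =
        N ^ 2 * (∫ y, ‖G s y‖ ^ 2 ∂μ) - 2 * N * inner ℝ (∫ y, F s y • G s y ∂μ) m +
          ‖m‖ ^ 2 * ∫ y, F s y ^ 2 ∂μ := by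
      intro s
      have e : ∀ y, ‖N • G s y - F s y • m‖ ^ 2 = (N ^ 2 * ‖G s y‖ ^ 2 -
          2 * N * inner ℝ m (F s y • G s y)) + ‖m‖ ^ 2 * F s y ^ 2 := by
        intro y
        rw [norm_sub_sq_real, norm_smul, norm_smul, mul_pow, mul_pow, Real.norm_eq_abs,
          Real.norm_eq_abs, sq_abs, sq_abs, inner_smul_left, inner_smul_right, inner_smul_right,
          real_inner_comm]
        simp only [conj_trivial]
        ring
      have i1 : Integrable (fun y => (inner ℝ m (F s y • G s y) : ℝ)) μ :=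
        (iFG s).const_inner m
      have i5 : Integrable (fun y => N ^ 2 * ‖G s y‖ ^ 2 -
          2 * N * inner ℝ m (F s y • G s y)) μ := ((iGG s).const_mul _).sub (i1.const_mul _)
      simp_rw [e]
      rw [integral_add i5 ((iFF s).const_mul _),
        integral_sub ((iGG s).const_mul _) (i1.const_mul _), integral_const_mul,
        integral_const_mul, integral_const_mul, integral_inner (iFG s) m, real_inner_comm]
    simp only [h1]
    rw [Finset.sum_add_distrib, Finset.sum_sub_distrib, ← Finset.mul_sum, ← Finset.mul_sum,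
      ← Finset.mul_sum, ← sum_inner, ← hm, ← hNq, inner_smul_left, real_inner_self_eq_norm_sq]
    simp only [conj_trivial]
    ring
  have hle : ‖N • (∫ y, Φ y • G s0 y ∂μ) - c • m‖ ≤
      √(1 - a * c) * √(N ^ 2 * ((∑ s, ∫ y, ‖G s y‖ ^ 2 ∂μ) - ‖m‖ ^ 2)) := by
    rw [← eS, ← eA, ← eB]
    calc _ ≤ ∑ s, ‖∫ y, ((if s = s0 then Φ y else 0) - a * F s y) • (N • G s y - F s y • m) ∂μ‖ :=
          norm_sum_le _ _
      _ ≤ ∑ s, √(∫ y, ((if s = s0 then Φ y else 0) - a * F s y) ^ 2 ∂μ) *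
          √(∫ y, ‖N • G s y - F s y • m‖ ^ 2 ∂μ) := by
          refine Finset.sum_le_sum fun s _ => ?_
          rw [← Real.sqrt_mul (integral_nonneg fun y => sq_nonneg _)]
          exact Real.le_sqrt_of_sq_le (HS.cs (hψ s) (hv s))
      _ ≤ _ := Real.sum_sqrt_mul_sqrt_le _ (fun s => integral_nonneg fun y => sq_nonneg _)
        (fun s => integral_nonneg fun y => sq_nonneg _)
  have hA0 : 0 ≤ 1 - a * c := by
    rw [← eA]
    exact Finset.sum_nonneg fun s _ => integral_nonneg fun y => sq_nonneg _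
  have hB0 : 0 ≤ N ^ 2 * ((∑ s, ∫ y, ‖G s y‖ ^ 2 ∂μ) - ‖m‖ ^ 2) := by
    rw [← eB]
    exact Finset.sum_nonneg fun s _ => integral_nonneg fun y => sq_nonneg _
  have h2 := pow_le_pow_left₀ (norm_nonneg _) hle 2
  rw [mul_pow, Real.sq_sqrt hA0, Real.sq_sqrt hB0] at h2
  refine h2.trans (le_of_eq ?_)
  have : (1 - a * c) * N ^ 2 = N ^ 2 - c ^ 2 := by
    have : a * c * N ^ 2 = c ^ 2 := by rw [mul_right_comm, hNa]; ring
    rw [sub_mul, one_mul, this]
  rw [← mul_assoc, this]

/-- `|N ∇F - F ∇N|² ≤ (N² - F²)(∑∫|∇f|² - |∇N|²)` for `F = ⟨Φ, f s0⟩` -/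
theorem cs_proj [DecidableEq S] (p : ι ≃ κ ⊕ κ') {f : S → E → ℝ} {g : S → E → E}
    (h : ∀ s, H1 (f s) (g s)) (s0 : S) {Φ : EuclideanSpace ℝ κ' → ℝ} (hΦ : MemLp Φ 2 volume)
    (hΦ1 : ∫ y, Φ y ^ 2 = 1) :
    ∀ᵐ x, 0 < √(HN.q p f x) →
      ‖√(HN.q p f x) • (∫ y, Φ y • pr1 p (g s0 (jn p x y))) -
        (∫ y, Φ y * f s0 (jn p x y)) • HN.m p f g x‖ ^ 2 ≤
      (HN.q p f x - (∫ y, Φ y * f s0 (jn p x y)) ^ 2) * (HN.T p g x - ‖HN.m p f g x‖ ^ 2) := by
  have hf : ∀ s, MemLp (f s) 2 volume := fun s => (h s).memf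
  have hg : ∀ s, MemLp (g s) 2 volume := fun s => (h s).memg
  have h1 : ∀ᵐ x : EuclideanSpace ℝ κ, ∀ s, MemLp (fun y => f s (jn p x y)) 2 volume :=
    ae_all_iff.2 fun s => MemLp.slice_right p (hf s)
  have h2 : ∀ᵐ x : EuclideanSpace ℝ κ, ∀ s, MemLp (fun y => pr1 p (g s (jn p x y))) 2 volume :=
    ae_all_iff.2 fun s => MemLp.slice_right p (memLp_pr1 p (hg s))
  filter_upwards [h1, h2, HN.m_smul p hf hg] with x hx1 hx2 hx3
  intro hN
  have hsq : √(HN.q p f x) ^ 2 = HN.q p f x := Real.sq_sqrt (HN.q_nonneg p f x)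
  have := cs_fib hx1 hx2 s0 hΦ hΦ1 hN hsq hx3
  rwa [hsq] at this

end VS

end Crest.Agent.R335
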