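import Crest.Agent.R335.BSys
import Crest.Agent.R335.BPar
import Crest.Agent.R335.Mult
import Crest.Agent.R335.VSId
import Crest.Agent.R335.HGlob2

/-!
Row 335 (S0521), interacting side, module VecS1 part 2 (helper892): parity parts of channel
functions, their weak equation and the fibre energies.
-/

set_option autoImplicit false
set_option linter.unusedSectionVars false
set_option linter.unusedVariables false

open MeasureTheory Filter Set Crest.MathPhysics.ThreeBody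
open scoped ENNReal Topology ContDiff

noncomputable section
namespace Crest.Agent.R335
namespace VS
open Mult

/-! ### parity and coordinates -/

theorem pr1_r12 (x : Config3) : pr1 p9 (r12 x) = pr1 p9 x := by
  conv_lhs => rw [← jn_pr p9 x, ← jn_rxi, pr1_jn]

theorem pr2_r12 (x : Config3) : pr2 p9 (r12 x) = rxi (pr2 p9 x) := by
  conv_lhs => rw [← jn_pr p9 x, ← jn_rxi, pr2_jn]

theorem r12_jn0 (v : Pos3) : r12 (jn p9 v 0) = jn p9 v 0 := by
  rw [← jn_rxi, map_zero]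

/-- explicit gradient of `Yp π Y` -/
def gY (π : ℝ) (dY : Config3 → Config3) (x : Config3) : Config3 :=
  (1 / 2 : ℝ) • (dY x + π • r12 (dY (r12 x)))

theorem H1_Yp {Y : Config3 → ℝ} {dY : Config3 → Config3} (h : H1 Y dY) (π : ℝ) :
    H1 (Yp π Y) (gY π dY) := by
  have h1 := H1.comp_isometry h r12 0
  simp only [add_zero, r12_symm] at h1
  have h2 := H1.const_mul (H1.add h (H1.const_mul h1 π)) (1 / 2)
  refine H1.congr h2 (ae_of_all _ fun x => ?_) (ae_of_all _ fun x => ?_)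
  · simp only [Yp]; ring
  · simp only [gY]

theorem gY_r12 {π : ℝ} (hπ : π ^ 2 = 1) (dY : Config3 → Config3) (x : Config3) :
    r12 (gY π dY (r12 x)) = π • gY π dY x := by
  unfold gY
  simp only [map_smul, map_add, r12_r12, smul_add, smul_smul]
  rw [add_comm]
  have : π * (1 / 2 * π) = 1 / 2 := by nlinarith
  rw [this]
  congr 2
  ring

theorem Yp_r12 {π : ℝ} (hπ : π ^ 2 = 1) (Y : Config3 → ℝ) (x : Config3) :
    Yp π Y (r12 x) = π * Yp π Y x := by
  unfold Yp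
  rw [r12_r12]
  have : π * ((Y x + π * Y (r12 x)) / 2) = (π * Y x + π ^ 2 * Y (r12 x)) / 2 := by ring
  rw [this, hπ]
  ring

theorem Yp_rxi {π : ℝ} (hπ : π ^ 2 = 1) (Y : Config3 → ℝ) (X : Pos3) (ξ : Y2) :
    Yp π Y (jn p9 X (rxi ξ)) = π * Yp π Y (jn p9 X ξ) := by
  rw [jn_rxi, Yp_r12 hπ]

theorem Yp_add (Y : Config3 → ℝ) (x : Config3) : Yp 1 Y x + Yp (-1) Y x = Y x := by
  unfold Yp; ring

theorem mp_r12 : MeasurePreserving r12 (volume : Measure Config3) volume :=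
  r12.measurePreserving

theorem int_r12 {F : Type*} [NormedAddCommGroup F] [NormedSpace ℝ F] (f : Config3 → F) :
    ∫ x, f (r12 x) = ∫ x, f x :=
  mp_r12.integral_comp r12.toHomeomorph.measurableEmbedding f

theorem mp_rxi : MeasurePreserving rxi (volume : Measure Y2) volume :=
  rxi.measurePreserving

theorem int_rxi {F : Type*} [NormedAddCommGroup F] [NormedSpace ℝ F] (f : Y2 → F) :
    ∫ ξ, f (rxi ξ) = ∫ ξ, f ξ :=
  mp_rxi.integral_comp rxi.toHomeomorph.measurableEmbedding f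

/-- odd functions have zero integral -/
theorem int_odd {f : Y2 → ℝ} (h : ∀ ξ, f (rxi ξ) = - f ξ) : ∫ ξ, f ξ = 0 := by
  have h1 := int_rxi f
  simp only [h] at h1
  rw [integral_neg] at h1
  linarith

theorem inner_r12 (u v : Config3) : inner ℝ (r12 u) v = inner ℝ u (r12 v) := by
  conv_lhs => rw [← r12_r12 v]
  exact r12.inner_map_map u (r12 v)

/-- tests of definite parity see only the parity part of the gradient -/
theorem int_inner_gY {Y : Config3 → ℝ} {dY : Config3 → Config3} (h : H1 Y dY) {π : ℝ}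
    (hπ : π ^ 2 = 1) {K : Config3 → ℝ} {dK : Config3 → Config3} (hK : H1 K dK)
    (hp : ∀ x, r12 (dK (r12 x)) = π • dK x) :
    ∫ x, inner ℝ (dY x) (dK x) = ∫ x, inner ℝ (gY π dY x) (dK x) := by
  have i1 : Integrable (fun x => (inner ℝ (dY x) (dK x) : ℝ)) :=
    HS.integrable_inner h.memg hK.memg
  have i2 : Integrable (fun x => (inner ℝ (dY (r12 x)) (dK (r12 x)) : ℝ)) :=
    (mp_r12.integrable_comp_emb r12.toHomeomorph.measurableEmbedding).2 i1
  have e1 : ∀ x, (inner ℝ (gY π dY x) (dK x) : ℝ) =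
      (1 / 2) * inner ℝ (dY x) (dK x) + (1 / 2) * inner ℝ (dY (r12 x)) (dK (r12 x)) := by
    intro x
    have h2 : dK (r12 x) = π • r12 (dK x) := by
      have := congrArg r12 (hp x)
      rwa [r12_r12, map_smul] at this
    rw [h2]
    simp only [gY, inner_smul_left, inner_add_left, inner_smul_right, inner_r12, conj_trivial]
    ring
  simp only [e1]
  rw [integral_add (i1.const_mul _) (i2.const_mul _), integral_const_mul, integral_const_mul,
    int_r12 (fun x => (inner ℝ (dY x) (dK x) : ℝ))]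
  ring

/-! ### the weak equation of the parity parts -/

theorem pot_int {D lam E σ : ℝ} {Y : Config3 → ℝ} {dY : Config3 → Config3}
    (h : Chan D lam E σ Y dY) (π c : ℝ) :
    Integrable (fun X => (V9 D lam X - E) * (c * Y X) * (c * Yp π Y X)) := by
  have h1 : MemLp (fun X => V9 D lam X * Y X) 2 volume := V9_memLp D lam h.h1
  have h2 : MemLp (fun X => V9 D lam X * Y X - E * Y X) 2 volume :=
    h1.sub (h.h1.memf.const_mul E)
  have h3 := (h2.integrable_mul (H1_Yp h.h1 π).memf).const_mul (c * c)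
  refine h3.congr (ae_of_all _ fun X => ?_)
  simp only [Pi.mul_apply]
  ring

theorem chan_test {D lam E σ : ℝ} {Y : Config3 → ℝ} {dY : Config3 → Config3}
    (h : Chan D lam E σ Y dY) {π : ℝ} (hπ : π ^ 2 = 1) (c : ℝ) {k : Pos3 → ℝ} {l : Pos3 → Pos3}
    {C : ℝ} (hkm : AEStronglyMeasurable k volume) (hkb : ∀ x, |k x| ≤ C)
    (hH : H1 (fun X => k (pr1 p9 X) * (c * Yp π Y X))
      (fun X => k (pr1 p9 X) • (c • gY π dY X) + (c * Yp π Y X) • jn p9 (l (pr1 p9 X)) 0)) :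
    (1 / 2) * (∫ X, inner ℝ (c • gY π dY X)
      (k (pr1 p9 X) • (c • gY π dY X) + (c * Yp π Y X) • jn p9 (l (pr1 p9 X)) 0)) +
      ∫ x, k x * ∫ ξ, (V9 D lam (jn p9 x ξ) - E) * (c * Y (jn p9 x ξ)) *
        (c * Yp π Y (jn p9 x ξ)) = 0 := by
  have heq := h.eq _ _ hH
  unfold q3 at heq
  rw [int_inner_gY h.h1 hπ hH] at heq
  swap
  · intro x
    rw [map_add, map_smul, map_smul, map_smul, pr1_r12, gY_r12 hπ, r12_jn0, Yp_r12 hπ]
    simp only [smul_add, smul_smul]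
    congr 1
    · congr 1; ring
    · congr 1; ring
  have hV : Integrable (fun X => V9 D lam X * Y X * (k (pr1 p9 X) * (c * Yp π Y X))) :=
    V9_integrable D lam h.h1 hH.memf
  have hE : Integrable (fun X => Y X * (k (pr1 p9 X) * (c * Yp π Y X))) :=
    h.h1.memf.integrable_mul hH.memf
  have e1 : ∫ X, inner ℝ (c • gY π dY X)
      (k (pr1 p9 X) • (c • gY π dY X) + (c * Yp π Y X) • jn p9 (l (pr1 p9 X)) 0) =
      c * ∫ X, inner ℝ (gY π dY X)
      (k (pr1 p9 X) • (c • gY π dY X) + (c * Yp π Y X) • jn p9 (l (pr1 p9 X)) 0) := by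
    rw [← integral_const_mul]
    congr 1; funext X
    rw [inner_smul_left]; simp
  have e2 : ∫ x, k x * ∫ ξ, (V9 D lam (jn p9 x ξ) - E) * (c * Y (jn p9 x ξ)) *
        (c * Yp π Y (jn p9 x ξ)) =
      c * ((∫ X, V9 D lam X * Y X * (k (pr1 p9 X) * (c * Yp π Y X))) -
        E * ∫ X, Y X * (k (pr1 p9 X) * (c * Yp π Y X))) := by
    rw [← integral_const_mul, ← integral_sub hV (hE.const_mul _), ← integral_const_mul]
    have hI : Integrable (fun X => c * (V9 D lam X * Y X * (k (pr1 p9 X) * (c * Yp π Y X)) -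
        E * (Y X * (k (pr1 p9 X) * (c * Yp π Y X))))) := (hV.sub (hE.const_mul _)).const_mul c
    rw [integral_jn p9 hI]
    congr 1; funext x
    rw [← integral_const_mul]
    congr 1; funext ξ
    rw [pr1_jn]; ring
  rw [e1, e2]
  linear_combination c * heq

/-! ### potentials on the fibre -/

theorem memLp_WX {G : Y2 → ℝ} {d : Y2 → Y2} (h : H1 G d) (X : Pos3) :
    MemLp (fun ξ => WX X ξ * G ξ) 2 volume :=
  (memLp_two_iff_integrable_sq ((measurable_WX X).aestronglyMeasurable.mul h.memf.1)).2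
    (hardy_WX h X).1

theorem memLp_Wp {G : Y2 → ℝ} {d : Y2 → Y2} (h : H1 G d) (X : Pos3) :
    MemLp (fun ξ => Wp X ξ * G ξ) 2 volume := by
  refine (((memLp_WX h X).add (memLp_WX h (rz X))).const_mul (1 / 2)).ae_eq
    (ae_of_all _ fun ξ => ?_)
  simp only [Pi.add_apply, Wp]; ring

theorem memLp_Wm {G : Y2 → ℝ} {d : Y2 → Y2} (h : H1 G d) (X : Pos3) :
    MemLp (fun ξ => Wm X ξ * G ξ) 2 volume := by
  refine (((memLp_WX h X).sub (memLp_WX h (rz X))).const_mul (1 / 2)).ae_eq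
    (ae_of_all _ fun ξ => ?_)
  simp only [Pi.sub_apply, Wm]; ring

theorem elL_sub_single (c : Fin 3) :
    (elL 0 - elL 1) ((1 / 2 : ℝ) • (EuclideanSpace.single ((0 : Fin 2), c) (1 : ℝ) -
      EuclideanSpace.single ((1 : Fin 2), c) (1 : ℝ))) = EuclideanSpace.single c (1 : ℝ) := by
  ext d
  rw [_root_.sub_apply]
  simp only [map_smul, map_sub]
  simp only [elL_apply, el_apply, PiLp.sub_apply, PiLp.smul_apply, PiLp.single_apply,
    Prod.mk.injEq, smul_eq_mul]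
  by_cases h : d = c
  · subst h; simp; norm_num
  · simp [h]

theorem memLp_rep {G : Y2 → ℝ} {d : Y2 → Y2} (h : H1 G d) :
    MemLp (fun ξ => 1 / ‖el 0 ξ - el 1 ξ‖ * G ξ) 2 volume := by
  have hm : AEStronglyMeasurable (fun ξ => 1 / ‖el 0 ξ - el 1 ξ‖ * G ξ) volume := by
    refine AEStronglyMeasurable.mul ?_ h.memf.1
    have h1 : Measurable fun ξ : Y2 => ‖el 0 ξ - el 1 ξ‖ :=
      ((continuous_el 0).sub (continuous_el 1)).norm.measurable
    exact (measurable_const.div h1).aestronglyMeasurable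
  refine (memLp_two_iff_integrable_sq hm).2 ?_
  refine (hardy h (elL 0 - elL 1) _ elL_sub_single 0).1.congr (ae_of_all _ fun ξ => ?_)
  simp only [sub_zero]
  have : (elL 0 - elL 1) ξ = el 0 ξ - el 1 ξ := rfl
  rw [this]
  ring

theorem memLp_Vion (D lam : ℝ) {G : Y2 → ℝ} {d : Y2 → Y2} (h : H1 G d) :
    MemLp (fun ξ => Vion D lam ξ * G ξ) 2 volume := by
  refine ((((memLp_WX h (nuc D)).add (memLp_WX h (nuc (-D)))).neg).add
    ((memLp_rep h).const_mul lam)).ae_eq (ae_of_all _ fun ξ => ?_)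
  simp only [Pi.add_apply, Pi.neg_apply, Vion, V2, WX]
  rw [norm_sub_rev (el 0 ξ) (nuc D), norm_sub_rev (el 1 ξ) (nuc D),
    norm_sub_rev (el 0 ξ) (nuc (-D)), norm_sub_rev (el 1 ξ) (nuc (-D))]
  ring

theorem Wp_rxi (X : Pos3) (ξ : Y2) : Wp X (rxi ξ) = Wp X ξ := by
  unfold Wp; rw [WX_rxi, WX_rxi, ob_rz_rz]; ring

theorem Wm_rxi (X : Pos3) (ξ : Y2) : Wm X (rxi ξ) = - Wm X ξ := by
  unfold Wm; rw [WX_rxi, WX_rxi, ob_rz_rz]; ring

theorem Wp_add_Wm (X : Pos3) (ξ : Y2) : Wp X ξ + Wm X ξ = WX X ξ := by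
  unfold Wp Wm; ring

theorem Wp_nonneg (X : Pos3) (ξ : Y2) : 0 ≤ Wp X ξ := by
  unfold Wp
  have := WX_nonneg X ξ
  have := WX_nonneg (rz X) ξ
  positivity

theorem fib_split (D lam E : ℝ) (X : Pos3) {F H : Y2 → ℝ} {dF dH : Y2 → Y2} (hF : H1 F dF)
    (hH : H1 H dH) {π : ℝ} (hπ : π ^ 2 = 1) (hFp : ∀ ξ, F (rxi ξ) = π * F ξ)
    (hHp : ∀ ξ, H (rxi ξ) = - (π * H ξ)) :
    ∫ ξ, (V2 D X + Vion D lam ξ + lam * WX X ξ - E) * (F ξ + H ξ) * F ξ =
      (∫ ξ, Vion D lam ξ * F ξ * F ξ) + (V2 D X - E) * (∫ ξ, F ξ ^ 2) +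
        lam * ((∫ ξ, Wp X ξ * F ξ ^ 2) + ∫ ξ, Wm X ξ * H ξ * F ξ) := by
  have i1 : Integrable (fun ξ => Vion D lam ξ * F ξ * F ξ) :=
    (memLp_Vion D lam hF).integrable_mul hF.memf
  have i2 : Integrable (fun ξ => F ξ ^ 2) := hF.memf.integrable_sq
  have i3 : Integrable (fun ξ => Wp X ξ * F ξ ^ 2) := by
    refine ((memLp_Wp hF X).integrable_mul hF.memf).congr (ae_of_all _ fun ξ => ?_)
    simp only [Pi.mul_apply]; ring
  have i4 : Integrable (fun ξ => Wm X ξ * H ξ * F ξ) :=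
    (memLp_Wm hH X).integrable_mul hF.memf
  have i5 : Integrable (fun ξ => Vion D lam ξ * H ξ * F ξ) :=
    (memLp_Vion D lam hH).integrable_mul hF.memf
  have i6 : Integrable (fun ξ => H ξ * F ξ) := hH.memf.integrable_mul hF.memf
  have i7 : Integrable (fun ξ => Wp X ξ * H ξ * F ξ) :=
    (memLp_Wp hH X).integrable_mul hF.memf
  have i8 : Integrable (fun ξ => Wm X ξ * F ξ * F ξ) :=
    (memLp_Wm hF X).integrable_mul hF.memf
  have io : Integrable (fun ξ => Vion D lam ξ * H ξ * F ξ + (V2 D X - E) * (H ξ * F ξ) +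
      lam * (Wp X ξ * H ξ * F ξ + Wm X ξ * F ξ * F ξ)) :=
    (i5.add (i6.const_mul _)).add ((i7.add i8).const_mul _)
  have hodd : ∫ ξ, (Vion D lam ξ * H ξ * F ξ + (V2 D X - E) * (H ξ * F ξ) +
      lam * (Wp X ξ * H ξ * F ξ + Wm X ξ * F ξ * F ξ)) = 0 := by
    refine int_odd fun ξ => ?_
    rw [Vion_rxi, Wp_rxi, Wm_rxi, hFp, hHp]
    linear_combination (-(Vion D lam ξ * H ξ * F ξ + (V2 D X - E) * (H ξ * F ξ) +
      lam * (Wp X ξ * H ξ * F ξ + Wm X ξ * F ξ * F ξ))) * hπ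
  have ie1 : Integrable (fun ξ => Vion D lam ξ * F ξ * F ξ + (V2 D X - E) * F ξ ^ 2) :=
    i1.add (i2.const_mul _)
  have ie2 : Integrable (fun ξ => lam * (Wp X ξ * F ξ ^ 2 + Wm X ξ * H ξ * F ξ)) :=
    (i3.add i4).const_mul _
  have ie3 : Integrable (fun ξ => (Vion D lam ξ * F ξ * F ξ + (V2 D X - E) * F ξ ^ 2) +
      lam * (Wp X ξ * F ξ ^ 2 + Wm X ξ * H ξ * F ξ)) := ie1.add ie2
  have e : ∀ ξ, (V2 D X + Vion D lam ξ + lam * WX X ξ - E) * (F ξ + H ξ) * F ξ =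
      ((Vion D lam ξ * F ξ * F ξ + (V2 D X - E) * F ξ ^ 2) +
        lam * (Wp X ξ * F ξ ^ 2 + Wm X ξ * H ξ * F ξ)) +
      (Vion D lam ξ * H ξ * F ξ + (V2 D X - E) * (H ξ * F ξ) +
      lam * (Wp X ξ * H ξ * F ξ + Wm X ξ * F ξ * F ξ)) := by
    intro ξ
    rw [← Wp_add_Wm]; ring
  simp only [e]
  rw [integral_add ie3 io, hodd, add_zero, integral_add ie1 ie2,
    integral_add i1 (i2.const_mul _), integral_const_mul, integral_const_mul, integral_add i3 i4]

/-! ### the family of parity parts -/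

variable {S : Type*} [Fintype S]

/-- family of parity parts -/
def fF (π : ℝ) (c : S → ℝ) (Y : S → Config3 → ℝ) (s : S) (x : Config3) : ℝ := c s * Yp π (Y s) x

/-- its gradients -/
def gF (π : ℝ) (c : S → ℝ) (dY : S → Config3 → Config3) (s : S) (x : Config3) : Config3 :=
  c s • gY π (dY s) x

/-- potential energy of the fibre -/
def qF (D lam E π : ℝ) (c : S → ℝ) (Y : S → Config3 → ℝ) (X : Pos3) : ℝ :=
  ∑ s, ∫ ξ, (V9 D lam (jn p9 X ξ) - E) * (c s * Y s (jn p9 X ξ)) * (c s * Yp π (Y s) (jn p9 X ξ))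

section Fam
variable {D lam E : ℝ} {σ c : S → ℝ} {Y : S → Config3 → ℝ} {dY : S → Config3 → Config3}

theorem fF_H1 (hc : ∀ s, Chan D lam E (σ s) (Y s) (dY s)) (π : ℝ) (c : S → ℝ) (s : S) :
    H1 (fF π c Y s) (gF π c dY s) := H1.const_mul (H1_Yp (hc s).h1 π) (c s)

theorem qF_int (hc : ∀ s, Chan D lam E (σ s) (Y s) (dY s)) (π : ℝ) (c : S → ℝ) :
    Integrable (qF D lam E π c Y) := by
  unfold qF
  exact integrable_finsetSum _ fun s _ => HS.integrable_slice p9 (pot_int (hc s) π (c s))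

/-- the equation of the family tested with `k(X) f` -/
theorem fam_EL (hc : ∀ s, Chan D lam E (σ s) (Y s) (dY s)) {π : ℝ} (hπ : π ^ 2 = 1) (c : S → ℝ)
    {k : Pos3 → ℝ} {l : Pos3 → Pos3} {C : ℝ} (hkl : WG univ k l) (hkb : ∀ x, |k x| ≤ C)
    (hH : ∀ s, H1 (fun X => k (pr1 p9 X) * fF π c Y s X)
      (fun X => k (pr1 p9 X) • gF π c dY s X + fF π c Y s X • jn p9 (l (pr1 p9 X)) 0)) :
    (1 / 2) * (∑ s, ∫ X, inner ℝ (gF π c dY s X)
      (k (pr1 p9 X) • gF π c dY s X + fF π c Y s X • jn p9 (l (pr1 p9 X)) 0)) +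
      ∫ x, k x * qF D lam E π c Y x = 0 := by
  have hkm : AEStronglyMeasurable k volume := by
    have := hkl.intf
    rw [locallyIntegrableOn_univ] at this
    exact this.aestronglyMeasurable
  have h1 := fun s => chan_test (hc s) hπ (c s) hkm hkb (hH s)
  have e1 : ∫ x, k x * qF D lam E π c Y x = ∑ s, ∫ x, k x * ∫ ξ, (V9 D lam (jn p9 x ξ) - E) *
      (c s * Y s (jn p9 x ξ)) * (c s * Yp π (Y s) (jn p9 x ξ)) := by
    unfold qF
    simp only [Finset.mul_sum]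
    rw [integral_finsetSum]
    intro s _
    exact (HS.integrable_slice p9 (pot_int (hc s) π (c s))).bdd_mul hkm (Eventually.of_forall hkb)
  rw [e1, Finset.mul_sum, ← Finset.sum_add_distrib]
  exact Finset.sum_eq_zero fun s _ => h1 s

/-- **Kato identity of the family** -/
theorem fam_id (hc : ∀ s, Chan D lam E (σ s) (Y s) (dY s)) {π : ℝ} (hπ : π ^ 2 = 1) (c : S → ℝ)
    {U : Set Pos3} (hU : IsOpen U) (hlow : LowB U (fun x => √(HN.q p9 (fF π c Y) x)))
    {φ : Pos3 → ℝ} (hφ : Test U φ) :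
    (1 / 2) * (∫ x, inner ℝ (HN.m p9 (fF π c Y) (gF π c dY) x) (gr φ x)) +
      ∫ x, (((1 / 2) * (HN.T p9 (gF π c dY) x - ‖HN.m p9 (fF π c Y) (gF π c dY) x‖ ^ 2) +
        (1 / 2) * HN.T2 p9 (gF π c dY) x + qF D lam E π c Y x) *
        (√(HN.q p9 (fF π c Y) x))⁻¹) * φ x = 0 :=
  kato_id p9 (fF_H1 hc π c) hU ((qF_int hc π c).locallyIntegrable.locallyIntegrableOn U) hlow
    (fun _ _ _ hkl hkb hH _ => fam_EL hc hπ c hkl hkb hH) hφ

/-- slices of the family -/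
theorem fam_slice (hc : ∀ s, Chan D lam E (σ s) (Y s) (dY s)) (π : ℝ) (c : S → ℝ) :
    ∀ᵐ X : Pos3, ∀ s, H1 (fun ξ => fF π c Y s (jn p9 X ξ))
      (fun ξ => pr2 p9 (gF π c dY s (jn p9 X ξ))) :=
  ae_all_iff.2 fun s => H1.slice_right p9 (fF_H1 hc π c s)

/-- fibre energies -/
theorem fam_fibre (hc : ∀ s, Chan D lam E (σ s) (Y s) (dY s)) {π : ℝ} (hπ : π ^ 2 = 1)
    (c : S → ℝ) :
    ∀ᵐ X : Pos3, (1 / 2) * HN.T2 p9 (gF π c dY) X + qF D lam E π c Y X =
      (∑ s, k2 D lam (fun ξ => fF π c Y s (jn p9 X ξ)) (fun ξ => pr2 p9 (gF π c dY s (jn p9 X ξ)))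
        (fun ξ => fF π c Y s (jn p9 X ξ)) (fun ξ => pr2 p9 (gF π c dY s (jn p9 X ξ)))) +
      (V2 D X - E) * HN.q p9 (fF π c Y) X +
      lam * ∑ s, ((∫ ξ, Wp X ξ * fF π c Y s (jn p9 X ξ) ^ 2) +
        ∫ ξ, Wm X ξ * fF (-π) c Y s (jn p9 X ξ) * fF π c Y s (jn p9 X ξ)) := by
  have hπ' : (-π) ^ 2 = 1 := by rw [neg_sq, hπ]
  filter_upwards [fam_slice hc π c, fam_slice hc (-π) c] with X h1 h2
  unfold HN.T2 qF HN.q k2
  rw [Finset.mul_sum, Finset.mul_sum, Finset.mul_sum, ← Finset.sum_add_distrib,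
    ← Finset.sum_add_distrib, ← Finset.sum_add_distrib]
  refine Finset.sum_congr rfl fun s _ => ?_
  have e := fib_split D lam E X (h1 s) (h2 s) hπ
    (fun ξ => by simp only [fF]; rw [Yp_rxi hπ]; ring)
    (fun ξ => by simp only [fF]; rw [Yp_rxi hπ']; ring)
  have e2 : ∫ ξ, (V9 D lam (jn p9 X ξ) - E) * (c s * Y s (jn p9 X ξ)) *
      (c s * Yp π (Y s) (jn p9 X ξ)) =
      ∫ ξ, (V2 D X + Vion D lam ξ + lam * WX X ξ - E) * (fF π c Y s (jn p9 X ξ) +
        fF (-π) c Y s (jn p9 X ξ)) * fF π c Y s (jn p9 X ξ) := by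
    congr 1; funext ξ
    rw [V9_jn]
    have : c s * Y s (jn p9 X ξ) = fF π c Y s (jn p9 X ξ) + fF (-π) c Y s (jn p9 X ξ) := by
      unfold fF Yp; ring
    rw [this]; rfl
  rw [e2, e]
  have e3 : ∀ ξ, (inner ℝ (pr2 p9 (gF π c dY s (jn p9 X ξ)))
      (pr2 p9 (gF π c dY s (jn p9 X ξ))) : ℝ) = ‖pr2 p9 (gF π c dY s (jn p9 X ξ))‖ ^ 2 :=
    fun ξ => real_inner_self_eq_norm_sq _
  simp only [e3]
  ring

end Fam

end VS
end Crest.Agent.R335
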