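import Crest.Agent.R335.SyKc
import Crest.Agent.R335.VSPar
import Crest.Agent.R335.MultD

/-!
Row 335 (S0521), interacting side, section 3.6 (helper759): orthogonality `⟨Φ, Γ(X)⟩ = 0` and the
bound `⟨Φ, e^{aw}Γ⟩² ≤ |e^{aw}Γ|²/5`.
-/

set_option autoImplicit false
set_option linter.unusedSectionVars false

open MeasureTheory Filter Set Crest.MathPhysics.ThreeBody
open scoped ENNReal Topology ContDiff

noncomputable section
namespace Crest.Agent.R335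
namespace Sy

/-- Cauchy–Schwarz -/
theorem cs {α : Type*} [MeasurableSpace α] {μ : Measure α} {f g : α → ℝ} (hf : MemLp f 2 μ)
    (hg : MemLp g 2 μ) : (∫ x, f x * g x ∂μ) ^ 2 ≤ (∫ x, f x ^ 2 ∂μ) * ∫ x, g x ^ 2 ∂μ := by
  have hff := hf.integrable_sq
  have hkk := hg.integrable_sq
  have hfk : Integrable (fun x => f x * g x) μ := hf.integrable_mul hg
  have key : ∀ t : ℝ, 0 ≤ (∫ x, g x ^ 2 ∂μ) * (t * t) + (2 * ∫ x, f x * g x ∂μ) * t +
      ∫ x, f x ^ 2 ∂μ := by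
    intro t
    have h0 : 0 ≤ ∫ x, (f x + t * g x) ^ 2 ∂μ := integral_nonneg fun x => sq_nonneg _
    have e : ∫ x, (f x + t * g x) ^ 2 ∂μ = (∫ x, g x ^ 2 ∂μ) * (t * t) +
        (2 * ∫ x, f x * g x ∂μ) * t + ∫ x, f x ^ 2 ∂μ := by
      have : (fun x => (f x + t * g x) ^ 2) =
          fun x => (t * t) * g x ^ 2 + (2 * t) * (f x * g x) + f x ^ 2 := by
        funext x; ring
      have i1 : Integrable (fun x => (t * t) * g x ^ 2 + (2 * t) * (f x * g x)) μ :=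
        (hkk.const_mul _).add (hfk.const_mul _)
      rw [this, integral_add i1 hff,
        integral_add (hkk.const_mul _) (hfk.const_mul _), integral_const_mul, integral_const_mul]
      ring
    rwa [e] at h0
  have := discrim_le_zero key
  unfold discrim at this
  nlinarith [this]

theorem cs_abs {α : Type*} [MeasurableSpace α] {μ : Measure α} {f g : α → ℝ} (hf : MemLp f 2 μ)
    (hg : MemLp g 2 μ) : |∫ x, f x * g x ∂μ| ≤ √(∫ x, f x ^ 2 ∂μ) * √(∫ x, g x ^ 2 ∂μ) := by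
  rw [← Real.sqrt_mul (integral_nonneg fun _ => sq_nonneg _)]
  exact Real.abs_le_sqrt (cs hf hg)

theorem memLp_rxi {f : Y2 → ℝ} (hf : MemLp f 2 volume) : MemLp (fun ξ => f (rxi ξ)) 2 volume :=
  hf.comp_measurePreserving VS.mp_rxi

theorem Yp_jn (π : ℝ) (Y : Config3 → ℝ) (X : Pos3) (ξ : Y2) :
    Yp π Y (jn p9 X ξ) = (Y (jn p9 X ξ) + π * Y (jn p9 X (rxi ξ))) / 2 := by
  unfold Yp; rw [r12_jn]

theorem cR_jn (π : ℝ) (Φ : Y2 → ℝ) (Y : Config3 → ℝ) (X : Pos3) (ξ : Y2) :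
    cR π Φ Y (jn p9 X ξ) = Yp π Y (jn p9 X ξ) - cF Φ Y X * Φ ξ := by
  unfold cR; rw [pr1_jn, pr2_jn]

theorem cF_Yp {π : ℝ} (hπ : π = 1 ∨ π = -1) {Φ : Y2 → ℝ} (hp : ∀ ξ, Φ (rxi ξ) = π * Φ ξ)
    {Y : Config3 → ℝ} {X : Pos3} (hΦ : MemLp Φ 2 volume)
    (hY : MemLp (fun ξ : Y2 => Y (jn p9 X ξ)) 2 volume) :
    ∫ ξ, Φ ξ * Yp π Y (jn p9 X ξ) = cF Φ Y X := by
  have i1 := int_mul2 hΦ hY
  have i2 := int_mul2 (memLp_rxi hΦ) (memLp_rxi hY)
  have e1 : ∫ ξ, Φ (rxi ξ) * Y (jn p9 X (rxi ξ)) = cF Φ Y X :=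
    VS.int_rxi (fun ξ => Φ ξ * Y (jn p9 X ξ))
  have hpp : π * π = 1 := by rcases hπ with h | h <;> rw [h] <;> norm_num
  have e2 : ∫ ξ, Φ ξ * Yp π Y (jn p9 X ξ) =
      (1 / 2) * (∫ ξ, Φ ξ * Y (jn p9 X ξ)) + (1 / 2) * ∫ ξ, Φ (rxi ξ) * Y (jn p9 X (rxi ξ)) := by
    rw [← integral_const_mul, ← integral_const_mul, ← integral_add (i1.const_mul _)
      (i2.const_mul _)]
    refine integral_congr_ae (Eventually.of_forall fun ξ => ?_)
    simp only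
    rw [Yp_jn, hp]
    ring
  rw [e2, e1]
  unfold cF
  ring

/-- orthogonality of the remainder -/
theorem cF_cR {π : ℝ} (hπ : π = 1 ∨ π = -1) {Φ : Y2 → ℝ} (hp : ∀ ξ, Φ (rxi ξ) = π * Φ ξ)
    (hn : (∫ ξ, Φ ξ ^ 2 = 1) ∨ (∀ ξ, Φ ξ = 0))
    {Y : Config3 → ℝ} {X : Pos3} (hΦ : MemLp Φ 2 volume)
    (hY : MemLp (fun ξ : Y2 => Y (jn p9 X ξ)) 2 volume) :
    ∫ ξ, Φ ξ * cR π Φ Y (jn p9 X ξ) = 0 := by
  rcases hn with hn | hn
  · have h1 := cF_Yp hπ hp hΦ hY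
    have i1 : Integrable (fun ξ : Y2 => Φ ξ * Yp π Y (jn p9 X ξ)) := by
      refine (((int_mul2 hΦ hY).add ((int_mul2 hΦ (memLp_rxi hY)).const_mul π)).const_mul
        (1 / 2)).congr (Eventually.of_forall fun ξ => ?_)
      simp only [Pi.add_apply]
      rw [Yp_jn]; ring
    have e : ∫ ξ, Φ ξ * cR π Φ Y (jn p9 X ξ) =
        (∫ ξ, Φ ξ * Yp π Y (jn p9 X ξ)) - cF Φ Y X * ∫ ξ, Φ ξ ^ 2 := by
      rw [← integral_const_mul, ← integral_sub i1 (hΦ.integrable_sq.const_mul _)]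
      refine integral_congr_ae (Eventually.of_forall fun ξ => ?_)
      simp only
      rw [cR_jn]; ring
    rw [e, h1, hn]; ring
  · simp [hn]

theorem th_num {t : ℝ} (ht : 1 ≤ t) : (1 - 1 / t) ^ 2 ≤ (t ^ 4 - 1) / 16 := by
  have h0 : 0 < t := by linarith
  obtain ⟨s, hs⟩ : ∃ s, s = t - 1 := ⟨_, rfl⟩
  have hs0 : 0 ≤ s := by linarith
  have ht' : t = 1 + s := by linarith
  have e : 1 - 1 / t = s / t := by field_simp; linarith
  rw [e, div_pow, div_le_div_iff₀ (by positivity) (by norm_num), ht']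
  have h1 : 0 ≤ (1 - s) ^ 2 * s := by positivity
  have h2 : (1 + s) ^ 4 - 1 = 4 * s + 6 * s ^ 2 + 4 * s ^ 3 + s ^ 4 := by ring
  rw [h2]
  have h3 : 0 ≤ s ^ 3 := by positivity
  have h4 : 0 ≤ s ^ 4 := by positivity
  have h5 : 0 ≤ s ^ 5 := by positivity
  have h6 : 0 ≤ s ^ 6 := by positivity
  nlinarith [h1, h3, h4, h5, h6]

/-- `th = 1/5` -/
theorem th_fibre {C0 D K a : ℝ} (ha : 0 < a) {Φ : Y2 → ℝ} (h : IonW C0 D K a Φ)
    (hn : (∫ ξ, Φ ξ ^ 2 = 1) ∨ (∀ ξ, Φ ξ = 0)) {G : Y2 → ℝ}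
    (hU : MemLp (fun ξ => Real.exp (a * wi ξ) * G ξ) 2 volume) (h0 : ∫ ξ, Φ ξ * G ξ = 0) :
    (∫ ξ, Φ ξ * (Real.exp (a * wi ξ) * G ξ)) ^ 2 ≤
      1 / 5 * ∫ ξ, (Real.exp (a * wi ξ) * G ξ) ^ 2 := by
  have hI : 0 ≤ ∫ ξ, (Real.exp (a * wi ξ) * G ξ) ^ 2 := integral_nonneg fun _ => sq_nonneg _
  rcases hn with hn | hn
  · have hΦm := h.aesm
    have hexp : Continuous fun ξ : Y2 => Real.exp (a * wi ξ) :=
      Real.continuous_exp.comp (continuous_const.mul Mult.continuous_wi)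
    have hw0 : ∀ ξ, 0 ≤ wi ξ := fun ξ => by linarith [two_le_wi ξ]
    have he1 : ∀ ξ, 1 ≤ Real.exp (a * wi ξ) := fun ξ =>
      Real.one_le_exp (mul_nonneg ha.le (hw0 ξ))
    have hΦ2 := (h.int_sq ha).1
    have hΦ : MemLp Φ 2 volume := (memLp_two_iff_integrable_sq hΦm).2 hΦ2
    have hG : MemLp G 2 volume := by
      have hm : AEStronglyMeasurable G volume := by
        have h1 : Continuous fun ξ : Y2 => Real.exp (-(a * wi ξ)) :=
          Real.continuous_exp.comp (continuous_const.mul Mult.continuous_wi).neg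
        refine (h1.aestronglyMeasurable.mul hU.1).congr (Eventually.of_forall fun ξ => ?_)
        simp only [Pi.mul_apply]
        rw [← mul_assoc, ← Real.exp_add, neg_add_cancel, Real.exp_zero, one_mul]
      refine hU.of_le hm (Eventually.of_forall fun ξ => ?_)
      rw [norm_mul, Real.norm_of_nonneg (Real.exp_pos _).le]
      exact le_mul_of_one_le_left (norm_nonneg _) (he1 ξ)
    have hA : MemLp (fun ξ => (1 - 1 / Real.exp (a * wi ξ)) * Φ ξ) 2 volume := by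
      have hc : Continuous fun ξ : Y2 => 1 - 1 / Real.exp (a * wi ξ) :=
        continuous_const.sub (continuous_const.div hexp fun ξ => (Real.exp_pos _).ne')
      refine hΦ.of_le (hc.aestronglyMeasurable.mul hΦm) (Eventually.of_forall fun ξ => ?_)
      rw [norm_mul, Real.norm_eq_abs]
      have h1 : 1 / Real.exp (a * wi ξ) ≤ 1 := by
        rw [div_le_one (Real.exp_pos _)]; exact he1 ξ
      have h2 : 0 < 1 / Real.exp (a * wi ξ) := by positivity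
      refine mul_le_of_le_one_left (norm_nonneg _) ?_
      rw [abs_le]; constructor <;> linarith
    have e1 : ∫ ξ, Φ ξ * (Real.exp (a * wi ξ) * G ξ) =
        ∫ ξ, ((1 - 1 / Real.exp (a * wi ξ)) * Φ ξ) * (Real.exp (a * wi ξ) * G ξ) := by
      have e2 : ∫ ξ, ((1 - 1 / Real.exp (a * wi ξ)) * Φ ξ) * (Real.exp (a * wi ξ) * G ξ) =
          (∫ ξ, Φ ξ * (Real.exp (a * wi ξ) * G ξ)) - ∫ ξ, Φ ξ * G ξ := by
        rw [← integral_sub (int_mul2 hΦ hU) (int_mul2 hΦ hG)]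
        refine integral_congr_ae (Eventually.of_forall fun ξ => ?_)
        have := (Real.exp_pos (a * wi ξ)).ne'
        simp only
        field_simp
      rw [e2, h0, sub_zero]
    rw [e1]
    refine (cs hA hU).trans (mul_le_mul_of_nonneg_right ?_ hI)
    have e3 : ∫ ξ, ((Real.exp (2 * a * wi ξ) * Φ ξ) ^ 2 - Φ ξ ^ 2) / 16 =
        ((∫ ξ, (Real.exp (2 * a * wi ξ) * Φ ξ) ^ 2) - ∫ ξ, Φ ξ ^ 2) / 16 := by
      rw [integral_div, integral_sub h.m0.1 hΦ2]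
    have e4 : ∫ ξ, ((1 - 1 / Real.exp (a * wi ξ)) * Φ ξ) ^ 2 ≤
        ∫ ξ, ((Real.exp (2 * a * wi ξ) * Φ ξ) ^ 2 - Φ ξ ^ 2) / 16 := by
      refine integral_mono hA.integrable_sq ((h.m0.1.sub hΦ2).div_const 16) fun ξ => ?_
      simp only
      have e5 : Real.exp (2 * a * wi ξ) = Real.exp (a * wi ξ) ^ 2 := by
        rw [← Real.exp_nat_mul]; congr 1; push_cast; ring
      have h1 := th_num (he1 ξ)
      rw [e5, mul_pow, mul_pow]
      have h2 := mul_le_mul_of_nonneg_right h1 (sq_nonneg (Φ ξ))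
      calc (1 - 1 / Real.exp (a * wi ξ)) ^ 2 * Φ ξ ^ 2 ≤
          (Real.exp (a * wi ξ) ^ 4 - 1) / 16 * Φ ξ ^ 2 := h2
        _ = _ := by ring
    rw [e3, hn] at e4
    linarith [h.m0.2]
  · have : ∫ ξ, Φ ξ * (Real.exp (a * wi ξ) * G ξ) = 0 := by simp [hn]
    rw [this]
    have : 0 ≤ 1 / 5 * ∫ ξ, (Real.exp (a * wi ξ) * G ξ) ^ 2 := by positivity
    simpa using this

/-- the hypothesis `hth` of `kato_core` -/
theorem th_ae {C0 Dd K a : ℝ} (ha : 0 < a) {Φ : Y2 → ℝ} (h : IonW C0 Dd K a Φ)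
    (hn : (∫ ξ, Φ ξ ^ 2 = 1) ∨ (∀ ξ, Φ ξ = 0)) {π : ℝ} (hπ : π = 1 ∨ π = -1)
    (hp : ∀ ξ, Φ (rxi ξ) = π * Φ ξ) (hΦ : MemLp Φ 2 volume) {Y : Config3 → ℝ}
    (hY : MemLp Y 2 volume) {U : Config3 → ℝ} (hUd : ∀ x, U x = ew a x * cR π Φ Y x)
    (hU : MemLp U 2 volume) :
    ∀ᵐ X : Pos3, (∫ ξ, Φ ξ * U (jn p9 X ξ)) ^ 2 ≤ 1 / 5 * ∫ ξ, U (jn p9 X ξ) ^ 2 := by
  filter_upwards [slice_memLp p9 hY, slice_memLp p9 hU] with X hX hUX
  have e : ∀ ξ : Y2, U (jn p9 X ξ) = Real.exp (a * wi ξ) * cR π Φ Y (jn p9 X ξ) := fun ξ => by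
    rw [hUd, ew_jn]
  simp only [e] at hUX ⊢
  exact th_fibre ha h hn hUX (cF_cR hπ hp hn hΦ hX)

end Sy
end Crest.Agent.R335
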