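import Crest.Agent.R335.BSupE
import Crest.Agent.R335.BSupF
import Crest.Agent.R335.SyTh

/-!
Row 335 (S0521), interacting side, (3.7): global smallness (helper182).
-/

set_option autoImplicit false
set_option linter.unusedSectionVars false

open MeasureTheory Filter Set Crest.MathPhysics.ThreeBody
open scoped ENNReal Topology ContDiff

noncomputable section
namespace Crest.Agent.R335.BSup
open Crest.Agent.R335

local notation "E3" => EuclideanSpace ℝ (Fin 3)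

/-- the lower fibre bound of the weight, `th = 1/5` -/
theorem th_channel {cg C0 D : ℝ} {B : OBD cg C0 D} {K lam : ℝ} (ha : 0 < B.a)
    (S : Sys B K lam) {σ π e gap : ℝ} (hπ : π = 1 ∨ π = -1) {Φ : Y2 → ℝ} {dΦ : Y2 → Y2} (hI : IonCh D lam σ π e gap Φ dΦ)
    (hW : IonW C0 D K B.a Φ) (hn : ∫ ξ, Φ ξ ^ 2 = 1) {Y : Config3 → ℝ}
    {dY : Config3 → Config3} (hY : Chan D lam S.E σ Y dY)
    (hwY : ∃ d, H1 (fun x => Sy.ew B.a x * Y x) d) :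
    ∀ᵐ X : Pos3, (∫ ξ, Φ ξ * (Sy.ew B.a (jn p9 X ξ) * cR π Φ Y (jn p9 X ξ))) ^ 2 ≤
      1 / 5 * ∫ ξ, (Sy.ew B.a (jn p9 X ξ) * cR π Φ Y (jn p9 X ξ)) ^ 2 := by
  obtain ⟨dU, hU⟩ := Sy.U_H1 (π := π) hY.h1 hI.h1.memf hwY (VW.of_ion ha.le hW hn).h1
  exact Sy.th_ae ha hW (Or.inl hn) hπ hI.par hI.h1.memf hY.h1.memf (fun x => rfl) hU.memf

theorem cR_zero (Y : Config3 → ℝ) : cR 1 (fun _ => 0) Y = Yp 1 Y := by
  funext x
  unfold cR
  simp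

/-- odd channels -/
theorem channel_odd {cg C0 D : ℝ} (hD : 4 ≤ D) {B : OBD cg C0 D} {K lam : ℝ} (S : Sys B K lam)
    (hl : 0 < lam) {σ e gap c δ M : ℝ} {Φ : Y2 → ℝ} {dΦ : Y2 → Y2}
    (hI : IonCh D lam σ 1 e gap Φ dΦ) (hgap : 0 ≤ gap) (hv : VW B.a Φ)
    {Y : Config3 → ℝ} {dY : Config3 → Config3} (hYS : Y = S.YS ∨ Y = S.YT ∨ Y = S.YB)
    (hY : Chan D lam S.E σ Y dY)
    (hth : ∀ᵐ X : Pos3, (∫ ξ, Φ ξ * (Sy.ew B.a (jn p9 X ξ) * cR 1 Φ Y (jn p9 X ξ))) ^ 2 ≤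
      1 / 5 * ∫ ξ, (Sy.ew B.a (jn p9 X ξ) * cR 1 Φ Y (jn p9 X ξ)) ^ 2)
    (hc : c ≤ e - S.E + gap * (4 / 5) - 2 * B.a ^ 2) (hc0 : 0 < c) (hδ : 0 < δ)
    (hcδ : δ ≤ c + B.eu) (hM0 : 0 ≤ M)
    (hM : ∀ᵐ x : E3, |x 2| ≤ 1 → bW (fun x => Sy.ew B.a x * Y x) x ≤ M) :
    ∀ᵐ x : E3, wN B.a (cR 1 Φ Y) x ≤
      20 * (yn √(2 * c) * (18 + 144 / δ) *
        (3 * (4 * √((3 + 2 * (12 * B.a) ^ 2) * (8 * K)))) + 3 * M) * lam * min 1 |x 2| := by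
  obtain ⟨ha, ha1, -, -⟩ := BD.a_bounds (by linarith) B
  have hwY : ∃ d, H1 (fun x => Sy.ew B.a x * Y x) d := by
    obtain ⟨d, hd, -⟩ := (isWB_Y S hYS).ew ha.le ha.le (by linarith)
    exact ⟨d, hd⟩
  obtain ⟨m, hm, ⟨dU, hU⟩, hweak⟩ := chan_weak ha.le hl.le (Or.inl rfl) hI hgap hv hY hwY hth hc
  obtain ⟨hb1, hb2⟩ := bW_bound S hYS ha.le (by linarith) ha.le
  have hhalf := half_norm hU (fun X ξ => by
    simp only [Sy.ew_jn]
    rw [cR_rz hY (Or.inl rfl) hI.par]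
    ring) (fun X => wN_eqU X) hm
  exact up_odd hD B hc0 hδ hcδ hl.le hm (fun x => Real.sqrt_nonneg _)
    (fun x => wN_rz hY (Or.inl rfl) hI.par B.a x) hhalf hb1 hb2 hM0 hM hweak

/-- even channels -/
theorem channel_even {cg C0 D : ℝ} (hD : 4 ≤ D) {B : OBD cg C0 D} {K lam : ℝ} (S : Sys B K lam)
    (hl : 0 < lam) {σ e gap c δ : ℝ} {Φ : Y2 → ℝ} {dΦ : Y2 → Y2}
    (hI : IonCh D lam σ (-1) e gap Φ dΦ) (hgap : 0 ≤ gap) (hv : VW B.a Φ)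
    {Y : Config3 → ℝ} {dY : Config3 → Config3} (hYS : Y = S.YS ∨ Y = S.YT ∨ Y = S.YB)
    (hY : Chan D lam S.E σ Y dY)
    (hth : ∀ᵐ X : Pos3, (∫ ξ, Φ ξ * (Sy.ew B.a (jn p9 X ξ) * cR (-1) Φ Y (jn p9 X ξ))) ^ 2 ≤
      1 / 5 * ∫ ξ, (Sy.ew B.a (jn p9 X ξ) * cR (-1) Φ Y (jn p9 X ξ)) ^ 2)
    (hc : c ≤ e - S.E + gap * (4 / 5) - 2 * B.a ^ 2) (hc0 : 0 < c) (hδ : 0 < δ)
    (hcδ : δ ≤ c + B.eg) :
    ∀ᵐ x : E3, wN B.a (cR (-1) Φ Y) x ≤ yn √(2 * c) * (18 + 72 / δ) *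
        (3 * (4 * √((3 + 2 * (12 * B.a) ^ 2) * (8 * K)))) * lam := by
  obtain ⟨ha, ha1, -, -⟩ := BD.a_bounds (by linarith) B
  have hwY : ∃ d, H1 (fun x => Sy.ew B.a x * Y x) d := by
    obtain ⟨d, hd, -⟩ := (isWB_Y S hYS).ew ha.le ha.le (by linarith)
    exact ⟨d, hd⟩
  obtain ⟨m, hm, -, hweak⟩ := chan_weak ha.le hl.le (Or.inr rfl) hI hgap hv hY hwY hth hc
  obtain ⟨hb1, hb2⟩ := bW_bound S hYS ha.le (by linarith) ha.le
  exact up_even B hc0 hδ hcδ hl.le hm (fun x => Real.sqrt_nonneg _) hb1 hb2 hweak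

end BSup

open BSup in
/-- (3.7) global smallness -/
theorem sup_small {cg C0 D : ℝ} (hC : 1 ≤ C0) (hD : 4 ≤ D) (B : OBD cg C0 D) (K : ℝ) :
    ∃ K' l' : ℝ, 0 < K' ∧ 0 < l' ∧ ∀ lam, 0 < lam → lam ≤ l' → ∀ S : Sys B K lam,
      ∀ᵐ X : Pos3, S.P X ≤ K' * lam * min 1 |X 2| ∧ S.N X ≤ K' * lam ∧
        |S.F X - B.u X / √2| ≤ K' * lam * min 1 |X 2| ∧ |S.c X - B.g X / 2| ≤ K' * lam ∧
        |S.t S.YT X - B.g X / √2| ≤ K' * lam ∧ |S.t S.YB X - B.g X| ≤ K' * lam ∧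
        ∀ Y, Y = S.YT ∨ Y = S.YB → S.NT Y X ≤ K' * lam ∧ S.PT Y X ≤ K' * lam * min 1 |X 2| := by
  obtain ⟨M, lM, hM, hlM, hMb⟩ := plane_b hD B K
  obtain ⟨KF, lF, hKF, hlF, hFb⟩ := F_plane hC hD B K
  obtain ⟨ha, ha1, hg, hu⟩ := BD.a_bounds (by linarith) B
  have hom : B.om = 1000 * B.a := by unfold OBD.a; ring
  have hom0 : 0 < B.om := by rw [hom]; positivity
  have hcg0 := B.cg0
  have hcg1 := B.cg1
  have homle : B.om ≤ cg / 8 := B.omle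
  have homd : B.om = B.eu - B.eg := rfl
  obtain ⟨hg1, hg2⟩ := abs_le.1 hg
  obtain ⟨hu1, hu2⟩ := abs_le.1 hu
  obtain ⟨c1, hc1⟩ : ∃ c1, c1 = -B.eu + B.om / 2 := ⟨_, rfl⟩
  obtain ⟨c2, hc2⟩ : ∃ c2, c2 = -B.eg + cg / 10 := ⟨_, rfl⟩
  obtain ⟨Bd, hBd⟩ : ∃ Bd, Bd = 4 * √((3 + 2 * (12 * B.a) ^ 2) * (8 * K)) := ⟨_, rfl⟩
  have hBd0 : 0 ≤ Bd := by rw [hBd]; positivity
  obtain ⟨A1, hA1⟩ : ∃ A1, A1 = 20 * (yn √(2 * c1) * (18 + 144 / (B.om / 2)) * (3 * Bd) + 3 * M) :=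
    ⟨_, rfl⟩
  obtain ⟨A2, hA2⟩ : ∃ A2, A2 = yn √(2 * c2) * (18 + 72 / (cg / 10)) * (3 * Bd) := ⟨_, rfl⟩
  obtain ⟨A3, hA3⟩ : ∃ A3, A3 = 20 * (yn √(2 * c2) * (18 + 144 / (cg / 10)) * (3 * Bd) + 3 * M) :=
    ⟨_, rfl⟩
  have hA10 : 0 ≤ A1 := by
    rw [hA1]
    have := yn_nonneg √(2 * c1)
    positivity
  have hA20 : 0 ≤ A2 := by
    rw [hA2]
    have := yn_nonneg √(2 * c2)
    positivity
  have hA30 : 0 ≤ A3 := by
    rw [hA3]
    have := yn_nonneg √(2 * c2)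
    positivity
  refine ⟨A1 + A2 + A3 + |K| + KF, min (min lM lF) (B.om / (100 * (|K| + 1))), by positivity,
    by positivity, ?_⟩
  intro lam hl hl' S
  have l1 : lam ≤ lM := hl'.trans ((min_le_left _ _).trans (min_le_left _ _))
  have l2 : lam ≤ lF := hl'.trans ((min_le_left _ _).trans (min_le_right _ _))
  have l4 : lam ≤ B.om / (100 * (|K| + 1)) := hl'.trans (min_le_right _ _)
  have hKl : K * lam ≤ B.om / 100 := by
    have h4 : lam * (100 * (|K| + 1)) ≤ B.om := (le_div_iff₀ (by positivity)).1 l4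
    have h5 : K * lam ≤ |K| * lam := mul_le_mul_of_nonneg_right (le_abs_self K) hl.le
    nlinarith
  obtain ⟨e01, e02⟩ := abs_le.1 S.e0n
  obtain ⟨e11, e12⟩ := abs_le.1 S.e1n
  obtain ⟨eT1, eT2⟩ := abs_le.1 S.eTn
  obtain ⟨eE1, eE2⟩ := abs_le.1 S.En
  have ha2 : 2 * B.a ^ 2 ≤ B.om / 1000 := by
    have : B.a * B.a ≤ B.a * (1 / 64000) := mul_le_mul_of_nonneg_left ha1 ha.le
    rw [hom]
    nlinarith
  have hc10 : 0 < c1 := by rw [hc1]; linarith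
  have hc20 : 0 < c2 := by rw [hc2]; linarith
  -- the channels
  obtain ⟨dS, hchS⟩ := chan_S S.tb
  have hwYS : ∃ d, H1 (fun x => Sy.ew B.a x * S.YS x) d := by
    obtain ⟨d, hd, -⟩ := (isWB_Y S (Or.inl rfl)).ew ha.le ha.le (by linarith)
    exact ⟨d, hd⟩
  have hPb : ∀ᵐ x : Pos3, S.P x ≤ A1 * lam * min 1 |x 2| := by
    rw [hA1, hBd]
    exact channel_odd hD S hl S.ch0 hom0.le (VW.of_ion ha.le S.w0 S.n0) (Or.inl rfl) hchS
      (th_channel ha S (Or.inl rfl) S.ch0 S.w0 S.n0 hchS hwYS) (by rw [hc1]; linarith) hc10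
      (by positivity) (by rw [hc1]; linarith) hM.le (hMb lam hl l1 S _ (Or.inl rfl))
  have hNb : ∀ᵐ x : Pos3, S.N x ≤ A2 * lam := by
    rw [hA2, hBd]
    exact channel_even hD S hl S.ch1 (by positivity) (VW.of_ion ha.le S.w1 S.n1) (Or.inl rfl) hchS
      (th_channel ha S (Or.inr rfl) S.ch1 S.w1 S.n1 hchS hwYS) (by rw [hc2]; linarith) hc20
      (by positivity) (by rw [hc2]; linarith)
  have hTb : ∀ Y, Y = S.YT ∨ Y = S.YB → ∀ᵐ x : Pos3, S.NT Y x ≤ A2 * lam ∧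
      S.PT Y x ≤ A3 * lam * min 1 |x 2| := by
    intro Y hYT
    obtain ⟨dY, hch⟩ : ∃ dY, Chan D lam S.E (-1) Y dY := by
      rcases hYT with rfl | rfl
      · exact chan_T S.tb
      · exact chan_B S.tb
    have hwY : ∃ d, H1 (fun x => Sy.ew B.a x * Y x) d := by
      obtain ⟨d, hd, -⟩ := (isWB_Y S (Or.inr hYT)).ew ha.le ha.le (by linarith)
      exact ⟨d, hd⟩
    have h1 : ∀ᵐ x : Pos3, S.NT Y x ≤ A2 * lam := by
      rw [hA2, hBd]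
      exact channel_even hD S hl S.chT (by positivity) (VW.of_ion ha.le S.wT S.nT) (Or.inr hYT) hch
        (th_channel ha S (Or.inr rfl) S.chT S.wT S.nT hch hwY) (by rw [hc2]; linarith) hc20
        (by positivity) (by rw [hc2]; linarith)
    have h2 : ∀ᵐ x : Pos3, wN B.a (cR 1 (fun _ => 0) Y) x ≤ A3 * lam * min 1 |x 2| := by
      rw [hA3, hBd]
      exact channel_odd hD S hl S.chZ (by positivity) (VW.zero B.a S.chZ.h1) (Or.inr hYT) hch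
        (Eventually.of_forall fun X => by
          simp only [zero_mul, integral_zero]
          have : 0 ≤ ∫ ξ, (Sy.ew B.a (jn p9 X ξ) * cR 1 (fun _ => 0) Y (jn p9 X ξ)) ^ 2 :=
            integral_nonneg fun _ => sq_nonneg _
          linarith) (by rw [hc2]; linarith) hc20
        (by positivity) (by rw [hc2]; linarith) hM.le (hMb lam hl l1 S _ (Or.inr hYT))
    rw [cR_zero] at h2
    filter_upwards [h1, h2] with x hx hx'
    exact ⟨hx, hx'⟩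
  have mono : ∀ {p q r : ℝ}, p ≤ q → 0 ≤ r → p * lam * r ≤ q * lam * r := fun h hr =>
    mul_le_mul_of_nonneg_right (mul_le_mul_of_nonneg_right h hl.le) hr
  have mono' : ∀ {p q : ℝ}, p ≤ q → p * lam ≤ q * lam := fun h =>
    mul_le_mul_of_nonneg_right h hl.le
  have hK := abs_nonneg K
  have hK' := le_abs_self K
  filter_upwards [hPb, hNb, hFb lam hl l2 S, close_S S hl.le, close_T S hl.le,
    hTb _ (Or.inl rfl), hTb _ (Or.inr rfl)] with X x1 x2 x3 x4 x5 x6 x7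
  have hm : 0 ≤ min 1 |X 2| := by positivity
  refine ⟨x1.trans (mono (by linarith) hm), x2.trans (mono' (by linarith)),
    x3.trans (mono (by linarith) hm), x4.2.trans (mono' (by linarith)),
    x5.1.trans (mono' (by linarith)), x5.2.trans (mono' (by linarith)), ?_⟩
  intro Y hY
  rcases hY with rfl | rfl
  · exact ⟨x6.1.trans (mono' (by linarith)), x6.2.trans (mono (by linarith) hm)⟩
  · exact ⟨x7.1.trans (mono' (by linarith)), x7.2.trans (mono (by linarith) hm)⟩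

end Crest.Agent.R335
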