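import Crest.Agent.R335.OBIms

/-!
Row 335 (S0521), ONE-BODY block: closeness of `g`, `u` to the hydrogen combinations (helper110).
-/

set_option autoImplicit false
set_option linter.unusedSectionVars false

open MeasureTheory Filter Set Crest.MathPhysics.ThreeBody
open scoped ENNReal Topology ContDiff

noncomputable section
namespace Crest.Agent.R335

theorem OC.int6 {F p1 p2 p3 p4 p5 p6 : Pos3 → ℝ} (c2 c3 c4 c5 c6 : ℝ) (h1 : Integrable p1)
    (h2 : Integrable p2) (h3 : Integrable p3) (h4 : Integrable p4) (h5 : Integrable p5)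
    (h6 : Integrable p6)
    (h : ∀ x, F x = p1 x + c2 * p2 x + c3 * p3 x + c4 * p4 x + c5 * p5 x + c6 * p6 x) :
    ∫ x, F x = (∫ x, p1 x) + c2 * (∫ x, p2 x) + c3 * (∫ x, p3 x) + c4 * (∫ x, p4 x) +
      c5 * (∫ x, p5 x) + c6 * ∫ x, p6 x := by
  have k2 : Integrable (fun x => p1 x + c2 * p2 x) := h1.add (h2.const_mul c2)
  have k3 : Integrable (fun x => p1 x + c2 * p2 x + c3 * p3 x) := k2.add (h3.const_mul c3)
  have k4 : Integrable (fun x => p1 x + c2 * p2 x + c3 * p3 x + c4 * p4 x) :=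
    k3.add (h4.const_mul c4)
  have k5 : Integrable (fun x => p1 x + c2 * p2 x + c3 * p3 x + c4 * p4 x + c5 * p5 x) :=
    k4.add (h5.const_mul c5)
  have e : F = fun x => p1 x + c2 * p2 x + c3 * p3 x + c4 * p4 x + c5 * p5 x + c6 * p6 x :=
    funext h
  rw [e, integral_add k5 (h6.const_mul c6), integral_add k4 (h5.const_mul c5),
    integral_add k3 (h4.const_mul c4), integral_add k2 (h3.const_mul c3),
    integral_add h1 (h2.const_mul c2)]
  simp only [integral_const_mul]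

theorem Jphyd_memLp (D : ℝ) (a : Pos3) : MemLp (fun x => Jp D x * hyd a x) 2 volume := by
  refine (hyd_memLp a).mono ((continuous_Jp D).mul (continuous_hyd a)).aestronglyMeasurable
    (Eventually.of_forall fun x => ?_)
  rw [norm_mul, Real.norm_eq_abs, abs_of_nonneg (Jp_nonneg D x)]
  exact mul_le_of_le_one_left (norm_nonneg _) (Jp_le_one D x)

theorem Jmhyd_memLp (D : ℝ) (a : Pos3) : MemLp (fun x => Jm D x * hyd a x) 2 volume := by
  refine (hyd_memLp a).mono ((continuous_Jm D).mul (continuous_hyd a)).aestronglyMeasurable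
    (Eventually.of_forall fun x => ?_)
  rw [norm_mul, Real.norm_eq_abs, abs_of_nonneg (Jm_nonneg D x)]
  exact mul_le_of_le_one_left (norm_nonneg _) (Jm_le_one D x)

theorem tail_m {D : ℝ} (hD : 0 < D) {θ : Pos3 → ℝ} (h0 : ∀ x, 0 ≤ θ x) (h1 : ∀ x, θ x ≤ 1)
    (hθ : ∀ x, θ x ≠ 0 → x 2 ≤ D / 2) : ∫ x, θ x * hyd (nuc D) x ^ 2 ≤ 16 / D :=
  hyd_tail hD h0 h1 fun x hx => by
    have t1 := hθ x hx
    have t2 := (norm_sub_nuc_ge D x).2
    linarith

theorem tail_p {D : ℝ} (hD : 0 < D) {θ : Pos3 → ℝ} (h0 : ∀ x, 0 ≤ θ x) (h1 : ∀ x, θ x ≤ 1)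
    (hθ : ∀ x, θ x ≠ 0 → -(D / 2) ≤ x 2) : ∫ x, θ x * hyd (nuc (-D)) x ^ 2 ≤ 16 / D :=
  hyd_tail hD h0 h1 fun x hx => by
    have t1 := hθ x hx
    have t2 := (norm_sub_nuc_ge D x).1
    linarith

set_option maxHeartbeats 1000000 in
theorem close_exists : ∃ D₀ : ℝ, 1 ≤ D₀ ∧ ∀ C₁ : ℝ, ∃ C₂ : ℝ, ∀ D : ℝ, D₀ ≤ D →
    ∀ (f : Pos3 → ℝ) (g : Pos3 → Pos3), H1 f g → ∫ x, f x ^ 2 = 1 → Q2 D f g ≤ -(1 / 2) + C₁ / D →
    ∀ ε : ℝ, ε ^ 2 = 1 →
      (∫ x, Jm D x * hyd (nuc (-D)) x * f x) = ε * (∫ x, Jp D x * hyd (nuc D) x * f x) →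
      0 ≤ ∫ x, Jp D x * hyd (nuc D) x * f x →
      ∫ x, (f x - (hyd (nuc D) x + ε * hyd (nuc (-D)) x) / √2) ^ 2 ≤ C₂ / D := by
  obtain ⟨c, C, D₀, hc0, hc1, hC, hD₀, hG⟩ := two_gap
  refine ⟨D₀, hD₀, fun C₁ => ⟨4 * ((C + |C₁|) / c) + 96, fun D hD f g hf hn hQ ε hε hm ha => ?_⟩⟩
  have hD0 : 0 < D := by linarith
  have hg := hG D hD f g hf
  rw [hn, hm] at hg
  set a := ∫ x, Jp D x * hyd (nuc D) x * f x with hadef
  set δ := (C + |C₁|) / c / D with hδ
  have hδ0 : 0 ≤ δ := by positivity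
  have s2 : √2 ^ 2 = (2 : ℝ) := Real.sq_sqrt (by norm_num)
  have s0 : 0 < √2 := by positivity
  -- the overlap
  have ht : 1 - δ ≤ √2 * a := by
    have h1 : C₁ / D ≤ |C₁| / D := div_le_div_of_nonneg_right (le_abs_self _) hD0.le
    have h2 : c * (2 * a ^ 2) ≥ c - C / D - |C₁| / D := by
      have h3 : a ^ 2 + (ε * a) ^ 2 = 2 * a ^ 2 := by
        rw [mul_pow, hε]; ring
      rw [h3] at hg
      linarith
    have h4 : c * δ = C / D + |C₁| / D := by
      rw [hδ]; field_simp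
    have h5 : 1 - δ ≤ 2 * a ^ 2 := by
      have h6 : c * (1 - δ) ≤ c * (2 * a ^ 2) := by nlinarith
      exact le_of_mul_le_mul_left h6 hc0
    have h7 : 0 ≤ √2 * a := by positivity
    have h8 : (√2 * a) ^ 2 = 2 * a ^ 2 := by rw [mul_pow, s2]
    by_cases h9 : 1 ≤ √2 * a
    · linarith
    · push Not at h9
      nlinarith
  -- abbreviations
  have mP := Jphyd_memLp D (nuc D)
  have mM := Jmhyd_memLp D (nuc (-D))
  have mP0 := hyd_memLp (nuc D)
  have mM0 := hyd_memLp (nuc (-D))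
  have mf := hf.memf
  have iP : Integrable (fun x => (Jp D x * hyd (nuc D) x) ^ 2) := mP.integrable_sq
  have iM : Integrable (fun x => (Jm D x * hyd (nuc (-D)) x) ^ 2) := mM.integrable_sq
  have iPM : Integrable (fun x => (Jp D x * hyd (nuc D) x) * (Jm D x * hyd (nuc (-D)) x)) :=
    mP.integrable_mul mM
  have ifP : Integrable (fun x => Jp D x * hyd (nuc D) x * f x) := mP.integrable_mul mf
  have ifM : Integrable (fun x => Jm D x * hyd (nuc (-D)) x * f x) := mM.integrable_mul mf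
  have iff : Integrable (fun x => f x ^ 2) := mf.integrable_sq
  have iP0 : Integrable (fun x => hyd (nuc D) x ^ 2) := mP0.integrable_sq
  have iM0 : Integrable (fun x => hyd (nuc (-D)) x ^ 2) := mM0.integrable_sq
  -- norms of the pieces
  have nP : ∫ x, (Jp D x * hyd (nuc D) x) ^ 2 ≤ 1 := by
    rw [← hyd_norm (nuc D)]
    refine integral_mono iP iP0 fun x => ?_
    show (Jp D x * hyd (nuc D) x) ^ 2 ≤ hyd (nuc D) x ^ 2
    rw [mul_pow]
    have h1 : Jp D x ^ 2 ≤ 1 := pow_le_one₀ (Jp_nonneg D x) (Jp_le_one D x)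
    nlinarith [sq_nonneg (hyd (nuc D) x)]
  have nM : ∫ x, (Jm D x * hyd (nuc (-D)) x) ^ 2 ≤ 1 := by
    rw [← hyd_norm (nuc (-D))]
    refine integral_mono iM iM0 fun x => ?_
    show (Jm D x * hyd (nuc (-D)) x) ^ 2 ≤ hyd (nuc (-D)) x ^ 2
    rw [mul_pow]
    have h1 : Jm D x ^ 2 ≤ 1 := pow_le_one₀ (Jm_nonneg D x) (Jm_le_one D x)
    nlinarith [sq_nonneg (hyd (nuc (-D)) x)]
  -- overlap of the two pieces
  have jm2 : ∫ x, Jm D x ^ 2 * hyd (nuc D) x ^ 2 ≤ 16 / D :=
    tail_m hD0 (fun x => sq_nonneg _) (fun x => pow_le_one₀ (Jm_nonneg D x) (Jm_le_one D x))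
      fun x hx => by
        by_contra hcon
        exact hx (by rw [(Jp_one hD0 (not_le.1 hcon).le).2]; norm_num)
  have jp2 : ∫ x, Jp D x ^ 2 * hyd (nuc (-D)) x ^ 2 ≤ 16 / D :=
    tail_p hD0 (fun x => sq_nonneg _) (fun x => pow_le_one₀ (Jp_nonneg D x) (Jp_le_one D x))
      fun x hx => by
        by_contra hcon
        exact hx (by rw [(Jm_one hD0 (not_le.1 hcon).le).1]; norm_num)
  have ijm : Integrable (fun x => Jm D x ^ 2 * hyd (nuc D) x ^ 2) := by
    have := (Jmhyd_memLp D (nuc D)).integrable_sq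
    simpa only [mul_pow] using this
  have ijp : Integrable (fun x => Jp D x ^ 2 * hyd (nuc (-D)) x ^ 2) := by
    have := (Jphyd_memLp D (nuc (-D))).integrable_sq
    simpa only [mul_pow] using this
  have cross : ε * (∫ x, (Jp D x * hyd (nuc D) x) * (Jm D x * hyd (nuc (-D)) x)) ≤ 16 / D := by
    have habs : |ε| = 1 := by
      have : |ε| ^ 2 = 1 := by rw [sq_abs, hε]
      nlinarith [abs_nonneg ε]
    have h0 : 0 ≤ ∫ x, (Jp D x * hyd (nuc D) x) * (Jm D x * hyd (nuc (-D)) x) :=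
      integral_nonneg fun x => mul_nonneg (mul_nonneg (Jp_nonneg D x) (hyd_pos _ _).le)
        (mul_nonneg (Jm_nonneg D x) (hyd_pos _ _).le)
    have h1 : ∫ x, (Jp D x * hyd (nuc D) x) * (Jm D x * hyd (nuc (-D)) x) ≤
        ∫ x, (1 / 2 * (Jm D x ^ 2 * hyd (nuc D) x ^ 2) +
          1 / 2 * (Jp D x ^ 2 * hyd (nuc (-D)) x ^ 2)) := by
      refine integral_mono iPM ((ijm.const_mul _).add (ijp.const_mul _)) fun x => ?_
      show (Jp D x * hyd (nuc D) x) * (Jm D x * hyd (nuc (-D)) x) ≤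
        1 / 2 * (Jm D x ^ 2 * hyd (nuc D) x ^ 2) + 1 / 2 * (Jp D x ^ 2 * hyd (nuc (-D)) x ^ 2)
      nlinarith [sq_nonneg (Jm D x * hyd (nuc D) x - Jp D x * hyd (nuc (-D)) x)]
    rw [integral_add (ijm.const_mul _) (ijp.const_mul _), integral_const_mul,
      integral_const_mul] at h1
    have h2 : ε ≤ 1 := (le_abs_self ε).trans habs.le
    nlinarith
  -- first approximation
  set P : Pos3 → ℝ := fun x => (Jp D x * hyd (nuc D) x + ε * (Jm D x * hyd (nuc (-D)) x)) / √2
    with hP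
  have first : ∫ x, (f x - P x) ^ 2 ≤ 2 * δ + 16 / D := by
    have e : ∀ x, (f x - P x) ^ 2 = f x ^ 2 +
        -√2 * (Jp D x * hyd (nuc D) x * f x) +
        -(√2 * ε) * (Jm D x * hyd (nuc (-D)) x * f x) +
        1 / 2 * (Jp D x * hyd (nuc D) x) ^ 2 +
        1 / 2 * (Jm D x * hyd (nuc (-D)) x) ^ 2 +
        ε * ((Jp D x * hyd (nuc D) x) * (Jm D x * hyd (nuc (-D)) x)) := by
      intro x
      rw [hP]
      have h1 : (1 : ℝ) / √2 = √2 / 2 := by
        rw [div_eq_div_iff s0.ne' (by norm_num)]; linarith [s2]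
      have h2 : ∀ y : ℝ, y / √2 = y * (√2 / 2) := fun y => by rw [← h1]; ring
      simp only [h2]
      have h3 : (√2 / 2) ^ 2 = 1 / 2 := by rw [div_pow, s2]; norm_num
      linear_combination (Jp D x * hyd (nuc D) x + ε * (Jm D x * hyd (nuc (-D)) x)) ^ 2 * h3 +
        (1 / 2 * (Jm D x * hyd (nuc (-D)) x) ^ 2) * hε
    have key := OC.int6 (F := fun x => (f x - P x) ^ 2) (-√2) (-(√2 * ε)) (1 / 2) (1 / 2) ε
      iff ifP ifM iP iM iPM e
    rw [key, hn, hm, ← hadef]
    have h4 : -(√2 * ε) * (ε * a) = -√2 * a := by linear_combination (-√2 * a) * hε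
    rw [h4]
    linarith
  -- second approximation
  have second : ∫ x, (P x - (hyd (nuc D) x + ε * hyd (nuc (-D)) x) / √2) ^ 2 ≤ 32 / D := by
    have q1 : ∫ x, (1 - Jp D x) ^ 2 * hyd (nuc D) x ^ 2 ≤ 16 / D :=
      tail_m hD0 (fun x => sq_nonneg _) (fun x => pow_le_one₀ (by linarith [Jp_le_one D x])
        (by linarith [Jp_nonneg D x])) fun x hx => by
        by_contra hcon
        exact hx (by rw [(Jp_one hD0 (not_le.1 hcon).le).1]; norm_num)
    have q2 : ∫ x, (1 - Jm D x) ^ 2 * hyd (nuc (-D)) x ^ 2 ≤ 16 / D :=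
      tail_p hD0 (fun x => sq_nonneg _) (fun x => pow_le_one₀ (by linarith [Jm_le_one D x])
        (by linarith [Jm_nonneg D x])) fun x hx => by
        by_contra hcon
        exact hx (by rw [(Jm_one hD0 (not_le.1 hcon).le).2]; norm_num)
    have i1 : Integrable (fun x => (1 - Jp D x) ^ 2 * hyd (nuc D) x ^ 2) := by
      have := (mP0.sub mP).integrable_sq
      refine this.congr (Eventually.of_forall fun x => ?_)
      show (hyd (nuc D) x - Jp D x * hyd (nuc D) x) ^ 2 = _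
      ring
    have i2 : Integrable (fun x => (1 - Jm D x) ^ 2 * hyd (nuc (-D)) x ^ 2) := by
      have := (mM0.sub mM).integrable_sq
      refine this.congr (Eventually.of_forall fun x => ?_)
      show (hyd (nuc (-D)) x - Jm D x * hyd (nuc (-D)) x) ^ 2 = _
      ring
    have h1 : ∫ x, (P x - (hyd (nuc D) x + ε * hyd (nuc (-D)) x) / √2) ^ 2 ≤
        ∫ x, ((1 - Jp D x) ^ 2 * hyd (nuc D) x ^ 2 + (1 - Jm D x) ^ 2 * hyd (nuc (-D)) x ^ 2) := by
      refine integral_mono_of_nonneg (Eventually.of_forall fun x => sq_nonneg _)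
        (i1.add i2) (Eventually.of_forall fun x => ?_)
      show (P x - (hyd (nuc D) x + ε * hyd (nuc (-D)) x) / √2) ^ 2 ≤
        (1 - Jp D x) ^ 2 * hyd (nuc D) x ^ 2 + (1 - Jm D x) ^ 2 * hyd (nuc (-D)) x ^ 2
      have h2 : P x - (hyd (nuc D) x + ε * hyd (nuc (-D)) x) / √2 =
          -((1 - Jp D x) * hyd (nuc D) x + ε * ((1 - Jm D x) * hyd (nuc (-D)) x)) / √2 := by
        rw [hP]; ring
      rw [h2, div_pow, neg_sq, s2, div_le_iff₀ (by norm_num)]
      have h3 : (ε * ((1 - Jm D x) * hyd (nuc (-D)) x)) ^ 2 =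
        ((1 - Jm D x) * hyd (nuc (-D)) x) ^ 2 := by rw [mul_pow, hε, one_mul]
      nlinarith [sq_nonneg ((1 - Jp D x) * hyd (nuc D) x -
        ε * ((1 - Jm D x) * hyd (nuc (-D)) x))]
    rw [integral_add i1 i2] at h1
    have h5 : (32 : ℝ) / D = 16 / D + 16 / D := by ring
    rw [h5]
    linarith
  -- conclusion
  have mPP : MemLp P 2 volume := by
    have h1 := (mP.add (mM.const_mul ε)).const_mul (1 / √2)
    refine h1.congr_norm ?_ (Eventually.of_forall fun x => ?_)
    · exact (((continuous_Jp D).mul (continuous_hyd _)).add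
        (continuous_const.mul ((continuous_Jm D).mul (continuous_hyd _)))).div_const _
        |>.aestronglyMeasurable
    · congr 1
      show 1 / √2 * (Jp D x * hyd (nuc D) x + ε * (Jm D x * hyd (nuc (-D)) x)) = P x
      rw [hP]; ring
  have mQQ : MemLp (fun x => (hyd (nuc D) x + ε * hyd (nuc (-D)) x) / √2) 2 volume := by
    have h1 := (mP0.add (mM0.const_mul ε)).const_mul (1 / √2)
    refine h1.congr_norm ?_ (Eventually.of_forall fun x => ?_)
    · exact (((continuous_hyd _)).add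
        (continuous_const.mul ((continuous_hyd _)))).div_const _ |>.aestronglyMeasurable
    · congr 1
      show 1 / √2 * (hyd (nuc D) x + ε * hyd (nuc (-D)) x) = _
      ring
  have j1 : Integrable (fun x => 2 * (f x - P x) ^ 2) := (mf.sub mPP).integrable_sq.const_mul 2
  have j2 : Integrable (fun x => 2 * (P x - (hyd (nuc D) x + ε * hyd (nuc (-D)) x) / √2) ^ 2) :=
    (mPP.sub mQQ).integrable_sq.const_mul 2
  have fin : ∫ x, (f x - (hyd (nuc D) x + ε * hyd (nuc (-D)) x) / √2) ^ 2 ≤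
      ∫ x, (2 * (f x - P x) ^ 2 +
        2 * (P x - (hyd (nuc D) x + ε * hyd (nuc (-D)) x) / √2) ^ 2) := by
    refine integral_mono_of_nonneg (Eventually.of_forall fun x => sq_nonneg _)
      (j1.add j2) (Eventually.of_forall fun x => ?_)
    show (f x - (hyd (nuc D) x + ε * hyd (nuc (-D)) x) / √2) ^ 2 ≤ 2 * (f x - P x) ^ 2 +
        2 * (P x - (hyd (nuc D) x + ε * hyd (nuc (-D)) x) / √2) ^ 2
    set Q := (hyd (nuc D) x + ε * hyd (nuc (-D)) x) / √2
    nlinarith [sq_nonneg ((f x - P x) - (P x - Q))]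
  rw [integral_add j1 j2, integral_const_mul, integral_const_mul] at fin
  have fe : (4 * ((C + |C₁|) / c) + 96) / D = 2 * (2 * δ + 16 / D) + 2 * (32 / D) := by
    rw [hδ]; ring
  rw [fe]
  linarith

theorem Q2_of_eq {D e : ℝ} {f : Pos3 → ℝ} {g : Pos3 → Pos3} (h : H1 f g)
    (heq : ∀ w m, H1 w m → B2 D f g w m = e * ∫ x, f x * w x) (hn : ∫ x, f x ^ 2 = 1) :
    Q2 D f g = e := by
  rw [← B2_self, heq f g h]
  have : (∫ x, f x * f x) = 1 := by
    rw [← hn]; congr 1; funext x; ring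
  rw [this, mul_one]

/-- closeness of the one-body states to the hydrogen combinations -/
theorem oneBody_close : ∃ D₀ : ℝ, 1 ≤ D₀ ∧ ∀ C₁ : ℝ, ∃ C₂ : ℝ, ∀ D : ℝ, D₀ ≤ D →
    ∀ (g u : Pos3 → ℝ) (dg du : Pos3 → Pos3) (eg eu e3 : ℝ), OneBody D g u dg du eg eu e3 →
      eg ≤ -(1 / 2) + C₁ / D → eu ≤ -(1 / 2) + C₁ / D →
      (∫ x, (g x - (hyd (nuc D) x + hyd (nuc (-D)) x) / √2) ^ 2 ≤ C₂ / D) ∧
      (∫ x, (u x - (hyd (nuc D) x - hyd (nuc (-D)) x) / √2) ^ 2 ≤ C₂ / D) := by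
  obtain ⟨D₀, hD₀, hcl⟩ := close_exists
  refine ⟨D₀, hD₀, fun C₁ => ?_⟩
  obtain ⟨C₂, hC₂⟩ := hcl C₁
  refine ⟨C₂, fun D hD g u dg du eg eu e3 hO heg heu => ⟨?_, ?_⟩⟩
  · have h1 := hC₂ D hD g dg hO.hg hO.ng (by rw [Q2_of_eq hO.hg hO.g_eq hO.ng]; exact heg) 1
      (by norm_num) (by
        rw [one_mul, ← ob_integral_rz]
        congr 1
        funext x
        rw [Jm_rz, hO.g_even]
        congr 2
        unfold hyd
        rw [norm_rz_sub, neg_neg]) (integral_nonneg fun x =>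
          mul_nonneg (mul_nonneg (Jp_nonneg D x) (hyd_pos _ _).le) (hO.g_pos x).le)
    simpa only [one_mul] using h1
  · have hm : (∫ x, Jm D x * hyd (nuc (-D)) x * u x) =
        (-1) * ∫ x, Jp D x * hyd (nuc D) x * u x := by
      rw [← ob_integral_rz, ← integral_const_mul]
      congr 1
      funext x
      rw [Jm_rz, hO.u_odd]
      have : hyd (nuc (-D)) (rz x) = hyd (nuc D) x := by
        unfold hyd
        rw [norm_rz_sub, neg_neg]
      rw [this]
      ring
    have iP : Integrable (fun x => Jp D x * hyd (nuc D) x * u x) :=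
      (Jphyd_memLp D (nuc D)).integrable_mul hO.hu.memf
    have iM : Integrable (fun x => Jm D x * hyd (nuc (-D)) x * u x) :=
      (Jmhyd_memLp D (nuc (-D))).integrable_mul hO.hu.memf
    -- sign for z > 0
    have hpos : ∀ x : Pos3, 0 < x 2 →
        0 ≤ (Jp D x * hyd (nuc D) x - Jm D x * hyd (nuc (-D)) x) * u x := fun x hx => by
      have hD0 : 0 < D := by linarith
      have h1 : Jm D x ≤ Jp D x := by
        have h2 : phz D x ≤ Real.pi / 4 := by
          have h3 : 0 ≤ max (-1) (min 1 (2 / D * x 2)) :=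
            le_max_of_le_right (le_min zero_le_one (by positivity))
          unfold phz
          nlinarith [Real.pi_pos]
        unfold Jm Jp
        rw [← Real.sin_pi_div_two_sub]
        refine Real.sin_le_sin_of_le_of_le_pi_div_two ?_ ?_ ?_
        · linarith [(phz_mem D x).1, Real.pi_pos]
        · linarith [(phz_mem D x).1]
        · linarith
      have h4 : hyd (nuc (-D)) x ≤ hyd (nuc D) x := by
        have h5 : ‖x - nuc D‖ ≤ ‖x - nuc (-D)‖ := by
          rw [← abs_of_nonneg (norm_nonneg (x - nuc D)),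
            ← abs_of_nonneg (norm_nonneg (x - nuc (-D))), ← sq_le_sq,
            EuclideanSpace.real_norm_sq_eq, EuclideanSpace.real_norm_sq_eq]
          simp only [Fin.sum_univ_three, PiLp.sub_apply, nuc_apply_two]
          have h6 : (nuc D) 0 = 0 ∧ (nuc D) 1 = 0 ∧ (nuc (-D)) 0 = 0 ∧ (nuc (-D)) 1 = 0 := by
            unfold nuc
            simp
          rw [h6.1, h6.2.1, h6.2.2.1, h6.2.2.2]
          nlinarith [mul_pos hx hD0]
        unfold hyd
        gcongr
      refine mul_nonneg (sub_nonneg.2 ?_) (hO.u_pos x hx).le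
      exact mul_le_mul h1 h4 (hyd_pos _ _).le (Jp_nonneg D x)
    have hall : ∀ x : Pos3, 0 ≤ (Jp D x * hyd (nuc D) x - Jm D x * hyd (nuc (-D)) x) * u x := by
      intro x
      have e : (rz x) 2 = - x 2 := by rw [rz_apply, if_pos rfl]
      rcases lt_trichotomy (x 2) 0 with h | h | h
      · have h1 := hpos (rz x) (by rw [e]; linarith)
        rw [Jp_rz, Jm_rz, hO.u_odd] at h1
        have h2 : hyd (nuc (-D)) (rz x) = hyd (nuc D) x := by
          unfold hyd
          rw [norm_rz_sub, neg_neg]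
        have h3 : hyd (nuc D) (rz x) = hyd (nuc (-D)) x := by
          unfold hyd
          rw [norm_rz_sub]
        rw [h2, h3] at h1
        nlinarith
      · have h1 : rz x = x := by
          ext i
          rw [rz_apply]
          split_ifs with hi
          · rw [hi, h]; norm_num
          · rfl
        have h2 := hO.u_odd x
        rw [h1] at h2
        have h3 : u x = 0 := by linarith
        rw [h3, mul_zero]
      · exact hpos x h
    have ha : 0 ≤ ∫ x, Jp D x * hyd (nuc D) x * u x := by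
      have h1 : 0 ≤ ∫ x, (Jp D x * hyd (nuc D) x - Jm D x * hyd (nuc (-D)) x) * u x :=
        integral_nonneg hall
      have h2 : (∫ x, (Jp D x * hyd (nuc D) x - Jm D x * hyd (nuc (-D)) x) * u x) =
          (∫ x, Jp D x * hyd (nuc D) x * u x) - ∫ x, Jm D x * hyd (nuc (-D)) x * u x := by
        rw [← integral_sub iP iM]
        congr 1
        funext x
        ring
      rw [h2, hm] at h1
      linarith
    have h1 := hC₂ D hD u du hO.hu hO.nu (by rw [Q2_of_eq hO.hu hO.u_eq hO.nu]; exact heu) (-1)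
      (by norm_num) hm ha
    have e : (fun x => (u x - (hyd (nuc D) x - hyd (nuc (-D)) x) / √2) ^ 2) =
        fun x => (u x - (hyd (nuc D) x + -1 * hyd (nuc (-D)) x) / √2) ^ 2 := by
      funext x
      congr 3
      ring
    rw [e]
    exact h1

end Crest.Agent.R335
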