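import Crest.Agent.R335.OBPot
import Crest.Agent.R335.HProd
import Crest.Agent.R335.HLip
import Crest.Agent.R335.HChain

/-!
Row 335 (S0521), ONE-BODY block: Agmon identity and Agmon decay (helper110).
-/

set_option autoImplicit false
set_option linter.unusedSectionVars false

open MeasureTheory Filter Set Crest.MathPhysics.ThreeBody
open scoped ENNReal Topology ContDiff

noncomputable section
namespace Crest.Agent.R335

/-- Agmon identity -/
theorem agmon_identity {D e : ℝ} {f k : Pos3 → ℝ} {g l : Pos3 → Pos3} (h : H1 f g)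
    (heq : ∀ w m, H1 w m → B2 D f g w m = e * ∫ x, f x * w x) (hk : WG univ k l) {C : ℝ}
    (hkb : ∀ x, |k x| ≤ C) (hlb : ∀ x, ‖l x‖ ≤ C) :
    Q2 D (fun x => k x * f x) (fun x => k x • g x + f x • l x) =
      e * (∫ x, (k x * f x) ^ 2) + (1 / 2) * ∫ x, f x ^ 2 * ‖l x‖ ^ 2 := by
  have h1 := H1.mul_bdd h hk hkb hlb
  have h2 := H1.mul_bdd h1 hk hkb hlb
  have h3 := heq _ _ h2
  have h4 := H1.ims h hk hkb hlb
  unfold B2 at h3
  unfold Q2
  have e1 : (∫ x, inner ℝ (g x) (k x • (k x • g x + f x • l x) + (k x * f x) • l x)) =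
      ∫ x, inner ℝ (g x) ((k x) ^ 2 • g x + (2 * k x * f x) • l x) := by
    congr 1
    funext x
    congr 1
    rw [smul_add, smul_smul, smul_smul, add_assoc, ← add_smul, sq]
    congr 2
    ring
  have e2 : (∫ x, V2 D x * (f x * (k x * (k x * f x)))) = ∫ x, V2 D x * (k x * f x) ^ 2 := by
    congr 1
    funext x
    ring
  have e3 : (∫ x, f x * (k x * (k x * f x))) = ∫ x, (k x * f x) ^ 2 := by
    congr 1
    funext x
    ring
  rw [e1, e2, e3] at h3
  rw [h4]
  linarith

/-- IMS localisation with `cos φ`, `sin φ` -/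
theorem Q2_ims (D : ℝ) {h φ : Pos3 → ℝ} {dh dφ : Pos3 → Pos3} (hh : H1 h dh) (hφ : WG univ φ dφ)
    {C : ℝ} (hC : ∀ x, ‖dφ x‖ ≤ C) :
    H1 (fun x => Real.cos (φ x) * h x)
      (fun x => Real.cos (φ x) • dh x + h x • (-Real.sin (φ x) • dφ x)) ∧
    H1 (fun x => Real.sin (φ x) * h x)
      (fun x => Real.sin (φ x) • dh x + h x • (Real.cos (φ x) • dφ x)) ∧
    Q2 D (fun x => Real.cos (φ x) * h x)
        (fun x => Real.cos (φ x) • dh x + h x • (-Real.sin (φ x) • dφ x)) +
      Q2 D (fun x => Real.sin (φ x) * h x)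
        (fun x => Real.sin (φ x) • dh x + h x • (Real.cos (φ x) • dφ x)) =
    Q2 D h dh + (1 / 2) * ∫ x, h x ^ 2 * ‖dφ x‖ ^ 2 := by
  have hC0 : 0 ≤ C := (norm_nonneg _).trans (hC 0)
  have wc : WG univ (fun x => Real.cos (φ x)) (fun x => -Real.sin (φ x) • dφ x) := by
    have := WG.comp isOpen_univ hφ (F := Real.cos) (Real.contDiff_cos) (C := 1) (fun t => by
      rw [Real.deriv_cos, abs_neg]; exact Real.abs_sin_le_one t)
    simpa only [Real.deriv_cos] using this
  have ws : WG univ (fun x => Real.sin (φ x)) (fun x => Real.cos (φ x) • dφ x) := by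
    have := WG.comp isOpen_univ hφ (F := Real.sin) (Real.contDiff_sin) (C := 1) (fun t => by
      rw [Real.deriv_sin]; exact Real.abs_cos_le_one t)
    simpa only [Real.deriv_sin] using this
  have bc : ∀ x, |Real.cos (φ x)| ≤ max C 1 := fun x =>
    (Real.abs_cos_le_one _).trans (le_max_right _ _)
  have bs : ∀ x, |Real.sin (φ x)| ≤ max C 1 := fun x =>
    (Real.abs_sin_le_one _).trans (le_max_right _ _)
  have bc' : ∀ x, ‖-Real.sin (φ x) • dφ x‖ ≤ max C 1 := fun x => by
    rw [norm_smul, norm_neg, Real.norm_eq_abs]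
    calc |Real.sin (φ x)| * ‖dφ x‖ ≤ 1 * C :=
          mul_le_mul (Real.abs_sin_le_one _) (hC x) (norm_nonneg _) zero_le_one
      _ ≤ max C 1 := by rw [one_mul]; exact le_max_left _ _
  have bs' : ∀ x, ‖Real.cos (φ x) • dφ x‖ ≤ max C 1 := fun x => by
    rw [norm_smul, Real.norm_eq_abs]
    calc |Real.cos (φ x)| * ‖dφ x‖ ≤ 1 * C :=
          mul_le_mul (Real.abs_cos_le_one _) (hC x) (norm_nonneg _) zero_le_one
      _ ≤ max C 1 := by rw [one_mul]; exact le_max_left _ _
  have hc := H1.mul_bdd hh wc bc bc'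
  have hs := H1.mul_bdd hh ws bs bs'
  refine ⟨hc, hs, ?_⟩
  have ic : Integrable (fun x => ‖Real.cos (φ x) • dh x + h x • (-Real.sin (φ x) • dφ x)‖ ^ 2) :=
    hc.memg.integrable_norm_pow two_ne_zero
  have is : Integrable (fun x => ‖Real.sin (φ x) • dh x + h x • (Real.cos (φ x) • dφ x)‖ ^ 2) :=
    hs.memg.integrable_norm_pow two_ne_zero
  have id1 : Integrable (fun x => ‖dh x‖ ^ 2) := hh.memg.integrable_norm_pow two_ne_zero
  have mφ : MemLp (fun x => h x • dφ x) 2 volume := by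
    refine MemLp.of_le_mul (c := C) hh.memf (hh.memf.aestronglyMeasurable.smul (WG.aesm hφ).2)
      (Eventually.of_forall fun x => ?_)
    rw [norm_smul, mul_comm]
    exact mul_le_mul_of_nonneg_right (hC x) (norm_nonneg _)
  have iφ : Integrable (fun x => h x ^ 2 * ‖dφ x‖ ^ 2) := by
    have := mφ.integrable_norm_pow two_ne_zero
    refine this.congr (Eventually.of_forall fun x => ?_)
    show ‖h x • dφ x‖ ^ 2 = _
    rw [norm_smul, mul_pow, Real.norm_eq_abs, sq_abs]
  have vc := V2_integrable_sq D hc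
  have vs := V2_integrable_sq D hs
  unfold Q2
  have key : (∫ x, ‖Real.cos (φ x) • dh x + h x • (-Real.sin (φ x) • dφ x)‖ ^ 2) +
      (∫ x, ‖Real.sin (φ x) • dh x + h x • (Real.cos (φ x) • dφ x)‖ ^ 2) =
      (∫ x, ‖dh x‖ ^ 2) + ∫ x, h x ^ 2 * ‖dφ x‖ ^ 2 := by
    rw [← integral_add ic is, ← integral_add id1 iφ]
    refine integral_congr_ae (Eventually.of_forall fun x => ?_)
    show ‖Real.cos (φ x) • dh x + h x • (-Real.sin (φ x) • dφ x)‖ ^ 2 +
      ‖Real.sin (φ x) • dh x + h x • (Real.cos (φ x) • dφ x)‖ ^ 2 =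
      ‖dh x‖ ^ 2 + h x ^ 2 * ‖dφ x‖ ^ 2
    rw [norm_add_sq_real, norm_add_sq_real]
    simp only [norm_smul, norm_neg, inner_smul_left, inner_smul_right, mul_pow, Real.norm_eq_abs,
      sq_abs, RCLike.conj_to_real]
    have t := Real.sin_sq_add_cos_sq (φ x)
    linear_combination (‖dh x‖ ^ 2 + h x ^ 2 * ‖dφ x‖ ^ 2) * t
  have key2 : (∫ x, V2 D x * (Real.cos (φ x) * h x) ^ 2) +
      (∫ x, V2 D x * (Real.sin (φ x) * h x) ^ 2) = ∫ x, V2 D x * h x ^ 2 := by
    rw [← integral_add vc vs]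
    refine integral_congr_ae (Eventually.of_forall fun x => ?_)
    show V2 D x * (Real.cos (φ x) * h x) ^ 2 + V2 D x * (Real.sin (φ x) * h x) ^ 2 =
      V2 D x * h x ^ 2
    have t := Real.sin_sq_add_cos_sq (φ x)
    linear_combination (V2 D x * h x ^ 2) * t
  linarith

/-- distance to the nearer nucleus -/
def ob_dn (D : ℝ) (x : Pos3) : ℝ := min ‖x - nuc D‖ ‖x - nuc (-D)‖

theorem ob_dn_nonneg (D : ℝ) (x : Pos3) : 0 ≤ ob_dn D x := le_min (norm_nonneg _) (norm_nonneg _)

theorem ob_dn_lip (D : ℝ) (x y : Pos3) : |ob_dn D x - ob_dn D y| ≤ ‖x - y‖ := by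
  unfold ob_dn
  refine (abs_min_sub_min_le_max _ _ _ _).trans (max_le ?_ ?_)
  · refine (abs_norm_sub_norm_le _ _).trans (le_of_eq ?_)
    congr 1; abel
  · refine (abs_norm_sub_norm_le _ _).trans (le_of_eq ?_)
    congr 1; abel

theorem continuous_ob_dn (D : ℝ) : Continuous (ob_dn D) := by
  unfold ob_dn
  fun_prop

theorem V2_ge (D : ℝ) {x : Pos3} {R : ℝ} (hR : 0 < R) (hx : R ≤ ob_dn D x) : -(2 / R) ≤ V2 D x := by
  have h1 : R ≤ ‖x - nuc D‖ := hx.trans (min_le_left _ _)
  have h2 : R ≤ ‖x - nuc (-D)‖ := hx.trans (min_le_right _ _)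
  have e1 : 1 / ‖x - nuc D‖ ≤ 1 / R := one_div_le_one_div_of_le hR h1
  have e2 : 1 / ‖x - nuc (-D)‖ ≤ 1 / R := one_div_le_one_div_of_le hR h2
  have e3 : 2 / R = 1 / R + 1 / R := by ring
  unfold V2
  linarith

/-- the localising angle -/
def ang (D R : ℝ) (x : Pos3) : ℝ := Real.pi / (2 * R) * max 0 (min R (ob_dn D x - R))

theorem ang_lip (D : ℝ) {R : ℝ} (hR : 0 < R) :
    LipschitzWith (Real.toNNReal (Real.pi / (2 * R))) (ang D R) := by
  refine LipschitzWith.of_dist_le_mul fun x y => ?_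
  have hp : 0 ≤ Real.pi / (2 * R) := by positivity
  rw [Real.coe_toNNReal _ hp, Real.dist_eq, dist_eq_norm]
  unfold ang
  rw [← mul_sub, abs_mul, abs_of_nonneg hp]
  refine mul_le_mul_of_nonneg_left ?_ hp
  have e1 : |max 0 (min R (ob_dn D x - R)) - max 0 (min R (ob_dn D y - R))| ≤
      |min R (ob_dn D x - R) - min R (ob_dn D y - R)| := by
    refine (abs_max_sub_max_le_max _ _ _ _).trans (max_le ?_ le_rfl)
    rw [sub_self, abs_zero]
    exact abs_nonneg _
  have e2 : |min R (ob_dn D x - R) - min R (ob_dn D y - R)| ≤ |(ob_dn D x - R) - (ob_dn D y - R)| := by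
    refine (abs_min_sub_min_le_max _ _ _ _).trans (max_le ?_ le_rfl)
    rw [sub_self, abs_zero]
    exact abs_nonneg _
  refine e1.trans (e2.trans ?_)
  have e3 : (ob_dn D x - R) - (ob_dn D y - R) = ob_dn D x - ob_dn D y := by ring
  rw [e3]
  exact ob_dn_lip D x y

theorem ang_zero {D R : ℝ} {x : Pos3} (h : ob_dn D x ≤ R) : ang D R x = 0 := by
  unfold ang
  rw [max_eq_left ((min_le_right _ _).trans (by linarith)), mul_zero]

theorem ang_far {D R : ℝ} (hR : 0 < R) {x : Pos3} (h : 2 * R ≤ ob_dn D x) :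
    ang D R x = Real.pi / 2 := by
  unfold ang
  rw [min_eq_left (by linarith), max_eq_right hR.le]
  field_simp

theorem Q2_lower (D : ℝ) {R : ℝ} (hR : 0 < R) {h : Pos3 → ℝ} {dh : Pos3 → Pos3} (hh : H1 h dh) :
    -(2 / R + 5 / (4 * R ^ 2)) * (∫ x, h x ^ 2) - 16 * (∫ x in {x | ob_dn D x < 2 * R}, h x ^ 2) ≤
      Q2 D h dh := by
  obtain ⟨w1, w2⟩ := WG.of_lipschitz (ang_lip D hR)
  have hp : 0 ≤ Real.pi / (2 * R) := by positivity
  rw [Real.coe_toNNReal _ hp] at w2
  obtain ⟨hc, hs, hQ⟩ := Q2_ims D hh w1 w2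
  have ih : Integrable (fun x => h x ^ 2) := hh.memf.integrable_sq
  -- cos part
  have c1 := Q2_coercive D hc
  have c2 : 0 ≤ ∫ x, ‖Real.cos (ang D R x) • dh x +
      h x • (-Real.sin (ang D R x) • gr (ang D R) x)‖ ^ 2 :=
    integral_nonneg fun x => by positivity
  have mS : MeasurableSet {x | ob_dn D x < 2 * R} :=
    (isOpen_lt (continuous_ob_dn D) continuous_const).measurableSet
  have c3 : ∫ x, (Real.cos (ang D R x) * h x) ^ 2 ≤ ∫ x in {x | ob_dn D x < 2 * R}, h x ^ 2 := by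
    rw [← integral_indicator mS]
    refine integral_mono_of_nonneg (Eventually.of_forall fun x => by positivity)
      (ih.indicator mS) (Eventually.of_forall fun x => ?_)
    show (Real.cos (ang D R x) * h x) ^ 2 ≤ indicator {x | ob_dn D x < 2 * R} (fun x => h x ^ 2) x
    by_cases hx : ob_dn D x < 2 * R
    · rw [indicator_of_mem (show x ∈ {x | ob_dn D x < 2 * R} from hx), mul_pow]
      have := Real.cos_sq_le_one (ang D R x)
      nlinarith [sq_nonneg (h x)]
    · rw [indicator_of_notMem (show x ∉ {x | ob_dn D x < 2 * R} from hx), ang_far hR (not_lt.1 hx),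
        Real.cos_pi_div_two, zero_mul]
      norm_num
  -- sin part
  have s1 : -(2 / R) * (∫ x, h x ^ 2) ≤ Q2 D (fun x => Real.sin (ang D R x) * h x)
      (fun x => Real.sin (ang D R x) • dh x + h x • (Real.cos (ang D R x) • gr (ang D R) x)) := by
    have s2 : 0 ≤ ∫ x, ‖Real.sin (ang D R x) • dh x +
        h x • (Real.cos (ang D R x) • gr (ang D R) x)‖ ^ 2 :=
      integral_nonneg fun x => by positivity
    have s3 : -(2 / R) * (∫ x, h x ^ 2) ≤ ∫ x, V2 D x * (Real.sin (ang D R x) * h x) ^ 2 := by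
      rw [← integral_const_mul]
      refine integral_mono_ae (ih.const_mul _) (V2_integrable_sq D hs)
        (Eventually.of_forall fun x => ?_)
      show -(2 / R) * h x ^ 2 ≤ V2 D x * (Real.sin (ang D R x) * h x) ^ 2
      by_cases hx : ob_dn D x ≤ R
      · rw [ang_zero hx, Real.sin_zero, zero_mul]
        have : 0 ≤ 2 / R * h x ^ 2 := by positivity
        nlinarith
      · have hV := V2_ge D hR (not_le.1 hx).le
        rw [mul_pow]
        have h1 := Real.sin_sq_le_one (ang D R x)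
        have h2 : 0 ≤ Real.sin (ang D R x) ^ 2 * h x ^ 2 := by positivity
        have h3 : Real.sin (ang D R x) ^ 2 * h x ^ 2 ≤ h x ^ 2 := by
          nlinarith [sq_nonneg (h x)]
        have h4 : 0 ≤ 2 / R := by positivity
        nlinarith [mul_le_mul_of_nonneg_right hV h2, mul_le_mul_of_nonneg_left h3 h4]
    unfold Q2
    linarith
  -- the localisation error
  have r1 : ∫ x, h x ^ 2 * ‖gr (ang D R) x‖ ^ 2 ≤ (Real.pi / (2 * R)) ^ 2 * ∫ x, h x ^ 2 := by
    rw [← integral_const_mul]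
    refine integral_mono_of_nonneg (Eventually.of_forall fun x => by positivity)
      (ih.const_mul _) (Eventually.of_forall fun x => ?_)
    show h x ^ 2 * ‖gr (ang D R) x‖ ^ 2 ≤ (Real.pi / (2 * R)) ^ 2 * h x ^ 2
    rw [mul_comm]
    exact mul_le_mul_of_nonneg_right (pow_le_pow_left₀ (norm_nonneg _) (w2 x) 2) (sq_nonneg _)
  have r2 : (Real.pi / (2 * R)) ^ 2 ≤ 5 / (2 * R ^ 2) := by
    have hpi : Real.pi ^ 2 ≤ 10 := by nlinarith [Real.pi_lt_d2, Real.pi_pos]
    rw [div_pow, mul_pow, div_le_div_iff₀ (by positivity) (by positivity)]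
    nlinarith [sq_nonneg R]
  have i0 : 0 ≤ ∫ x, h x ^ 2 := integral_nonneg fun x => by positivity
  have r3 : (Real.pi / (2 * R)) ^ 2 * (∫ x, h x ^ 2) ≤ 5 / (2 * R ^ 2) * ∫ x, h x ^ 2 :=
    mul_le_mul_of_nonneg_right r2 i0
  have r4 : (1 : ℝ) / 2 * (5 / (2 * R ^ 2) * ∫ x, h x ^ 2) = 5 / (4 * R ^ 2) * ∫ x, h x ^ 2 := by
    field_simp
    ring
  have r5 : -(2 / R + 5 / (4 * R ^ 2)) * (∫ x, h x ^ 2) =
    -(2 / R) * (∫ x, h x ^ 2) - 5 / (4 * R ^ 2) * ∫ x, h x ^ 2 := by ring
  rw [r5, ← r4]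
  linarith

/-- the Agmon weight -/
theorem agmon_weight (D : ℝ) {a : ℝ} (ha : 0 < a) (n : ℕ) :
    ∃ l : Pos3 → Pos3, WG univ (fun x => Real.exp (a * min (ob_dn D x) n)) l ∧
      ∀ x, ‖l x‖ ≤ a * Real.exp (a * min (ob_dn D x) n) := by
  have hL : LipschitzWith 1 (fun x => min (ob_dn D x) (n : ℝ)) := by
    refine LipschitzWith.of_dist_le_mul fun x y => ?_
    rw [NNReal.coe_one, one_mul, Real.dist_eq, dist_eq_norm]
    refine (abs_min_sub_min_le_max _ _ _ _).trans (max_le (ob_dn_lip D x y) ?_)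
    rw [sub_self, abs_zero]
    exact norm_nonneg _
  obtain ⟨w1, w2⟩ := WG.of_lipschitz hL
  have h0 : ∀ x, 0 ≤ min (ob_dn D x) (n : ℝ) := fun x => le_min (ob_dn_nonneg D x) (Nat.cast_nonneg n)
  have h1 : ∀ x, min (ob_dn D x) (n : ℝ) ≤ n := fun x => min_le_right _ _
  have w3 := WG.comp_on isOpen_univ w1 (F := fun t => Real.exp (a * t))
    (F' := fun t => a * Real.exp (a * t)) (a := ((0 : ℝ) : EReal)) (b := ((n : ℝ) : EReal))
    (Eventually.of_forall fun x => ⟨EReal.coe_le_coe_iff.2 (h0 x), EReal.coe_le_coe_iff.2 (h1 x)⟩)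
    (fun t _ _ => by
      have := ((hasDerivAt_id t).const_mul a).exp
      simp only [id, mul_one] at this
      rw [mul_comm] at this
      exact this)
    (Continuous.continuousOn (by fun_prop)) (C := a * Real.exp (a * n)) (fun t _ hb => by
      have hb' : t ≤ n := EReal.coe_le_coe_iff.1 hb
      rw [abs_of_nonneg (by positivity)]
      gcongr)
  refine ⟨_, w3, fun x => ?_⟩
  rw [norm_smul, Real.norm_eq_abs, abs_of_nonneg (by positivity)]
  have := w2 x
  rw [NNReal.coe_one] at this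
  exact mul_le_of_le_one_right (by positivity) this

/-- Agmon decay with every rate `a < 1`, for the distance to the two nuclei -/
theorem oneBody_agmon {a : ℝ} (ha : 0 < a) (ha1 : a < 1) : ∃ C η : ℝ, 0 < η ∧ ∀ D : ℝ, 1 ≤ D →
    ∀ (f : Pos3 → ℝ) (g : Pos3 → Pos3) (e : ℝ), H1 f g →
      (∀ w m, H1 w m → B2 D f g w m = e * ∫ x, f x * w x) → e ≤ -(1 / 2) + η →
      Integrable (fun x => (Real.exp (a * min ‖x - nuc D‖ ‖x - nuc (-D)‖) * f x) ^ 2) ∧
      ∫ x, (Real.exp (a * min ‖x - nuc D‖ ‖x - nuc (-D)‖) * f x) ^ 2 ≤ C * ∫ x, f x ^ 2 := by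
  set m : ℝ := (1 - a ^ 2) / 8 with hm
  have ha2 : a ^ 2 < 1 := by nlinarith
  have hm0 : 0 < m := by rw [hm]; linarith
  have hm1 : m ≤ 1 / 8 := by rw [hm]; nlinarith [sq_nonneg a]
  set R : ℝ := 4 / m with hR
  have hR0 : 0 < R := by positivity
  have hRm : 2 / R + 5 / (4 * R ^ 2) ≤ m := by
    have e1 : 2 / R + 5 / (4 * R ^ 2) = m / 2 + 5 * m ^ 2 / 64 := by
      rw [hR]; field_simp; ring
    rw [e1]
    nlinarith
  refine ⟨8 / m * Real.exp (4 * a * R), m, hm0, fun D _ f g e hf heq he => ?_⟩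
  have i0 : 0 ≤ ∫ x, f x ^ 2 := integral_nonneg fun x => by positivity
  have if2 : Integrable (fun x => f x ^ 2) := hf.memf.integrable_sq
  -- bound for the truncated weights
  have step : ∀ n : ℕ, Integrable (fun x => (Real.exp (a * min (ob_dn D x) n) * f x) ^ 2) ∧
      ∫ x, (Real.exp (a * min (ob_dn D x) n) * f x) ^ 2 ≤
        8 / m * Real.exp (4 * a * R) * ∫ x, f x ^ 2 := by
    intro n
    obtain ⟨l, wl, hl⟩ := agmon_weight D ha n
    have hkn : ∀ x, Real.exp (a * min (ob_dn D x) n) ≤ Real.exp (a * n) := fun x =>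
      Real.exp_le_exp.2 (mul_le_mul_of_nonneg_left (min_le_right _ _) ha.le)
    have hkb : ∀ x, |Real.exp (a * min (ob_dn D x) n)| ≤ Real.exp (a * n) := fun x => by
      rw [abs_of_pos (Real.exp_pos _)]; exact hkn x
    have hlb : ∀ x, ‖l x‖ ≤ Real.exp (a * n) := fun x =>
      (hl x).trans (by
        calc a * Real.exp (a * min (ob_dn D x) n) ≤ 1 * Real.exp (a * n) :=
              mul_le_mul ha1.le (hkn x) (Real.exp_pos _).le zero_le_one
          _ = _ := one_mul _)
    have hA := agmon_identity hf heq wl hkb hlb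
    have hk := H1.mul_bdd hf wl hkb hlb
    have hL := Q2_lower D hR0 hk
    have ik : Integrable (fun x => (Real.exp (a * min (ob_dn D x) n) * f x) ^ 2) :=
      hk.memf.integrable_sq
    refine ⟨ik, ?_⟩
    have mS : MeasurableSet {x | ob_dn D x < 2 * R} :=
      (isOpen_lt (continuous_ob_dn D) continuous_const).measurableSet
    have s1 : ∫ x in {x | ob_dn D x < 2 * R}, (Real.exp (a * min (ob_dn D x) n) * f x) ^ 2 ≤
        Real.exp (4 * a * R) * ∫ x, f x ^ 2 := by
      rw [← integral_indicator mS, ← integral_const_mul]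
      refine integral_mono_of_nonneg (Eventually.of_forall fun x =>
        indicator_nonneg (fun y _ => sq_nonneg _) x) (if2.const_mul _)
        (Eventually.of_forall fun x => ?_)
      show indicator {x | ob_dn D x < 2 * R} (fun x => (Real.exp (a * min (ob_dn D x) n) * f x) ^ 2) x ≤
        Real.exp (4 * a * R) * f x ^ 2
      by_cases hx : ob_dn D x < 2 * R
      · rw [indicator_of_mem (show x ∈ {x | ob_dn D x < 2 * R} from hx), mul_pow]
        refine mul_le_mul_of_nonneg_right ?_ (sq_nonneg _)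
        rw [sq, ← Real.exp_add]
        refine Real.exp_le_exp.2 ?_
        have : min (ob_dn D x) n ≤ 2 * R := (min_le_left _ _).trans hx.le
        nlinarith [mul_le_mul_of_nonneg_left this ha.le]
      · rw [indicator_of_notMem (show x ∉ {x | ob_dn D x < 2 * R} from hx)]
        positivity
    have s2 : ∫ x, f x ^ 2 * ‖l x‖ ^ 2 ≤
        a ^ 2 * ∫ x, (Real.exp (a * min (ob_dn D x) n) * f x) ^ 2 := by
      rw [← integral_const_mul]
      refine integral_mono_of_nonneg (Eventually.of_forall fun x => by positivity)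
        (ik.const_mul _) (Eventually.of_forall fun x => ?_)
      show f x ^ 2 * ‖l x‖ ^ 2 ≤ a ^ 2 * (Real.exp (a * min (ob_dn D x) n) * f x) ^ 2
      have := pow_le_pow_left₀ (norm_nonneg _) (hl x) 2
      calc f x ^ 2 * ‖l x‖ ^ 2 ≤ f x ^ 2 * (a * Real.exp (a * min (ob_dn D x) n)) ^ 2 :=
            mul_le_mul_of_nonneg_left this (sq_nonneg _)
        _ = _ := by ring
    rw [hA] at hL
    set I := ∫ x, (Real.exp (a * min (ob_dn D x) n) * f x) ^ 2 with hI
    have I0 : 0 ≤ I := integral_nonneg fun x => by positivity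
    have t1 : (2 / R + 5 / (4 * R ^ 2)) * I ≤ m * I := mul_le_mul_of_nonneg_right hRm I0
    have t2 : e * I ≤ (-(1 / 2) + m) * I := mul_le_mul_of_nonneg_right he I0
    have t3 : 2 * m * I ≤ 16 * (Real.exp (4 * a * R) * ∫ x, f x ^ 2) := by
      have t4 : (1 / 2 : ℝ) * (a ^ 2 * I) = (1 / 2 - 4 * m) * I := by rw [hm]; ring
      nlinarith
    have t5 : I = (2 * m * I) / (2 * m) := by field_simp
    rw [t5]
    rw [div_le_iff₀ (by positivity)]
    refine t3.trans (le_of_eq ?_)
    field_simp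
    ring
  -- limit
  have hmeas : ∀ n : ℕ, AEMeasurable
      (fun x => ENNReal.ofReal ((Real.exp (a * min (ob_dn D x) n) * f x) ^ 2)) volume := fun n =>
    (step n).1.aestronglyMeasurable.aemeasurable.ennreal_ofReal
  have hmono : ∀ᵐ x ∂(volume : Measure Pos3), Monotone
      fun n : ℕ => ENNReal.ofReal ((Real.exp (a * min (ob_dn D x) n) * f x) ^ 2) := by
    refine Eventually.of_forall fun x n n' hn => ENNReal.ofReal_le_ofReal ?_
    rw [mul_pow, mul_pow]
    have hn' : (n : ℝ) ≤ n' := Nat.cast_le.2 hn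
    gcongr
  have hlim : ∀ᵐ x ∂(volume : Measure Pos3), Tendsto
      (fun n : ℕ => ENNReal.ofReal ((Real.exp (a * min (ob_dn D x) n) * f x) ^ 2)) atTop
      (𝓝 (ENNReal.ofReal ((Real.exp (a * ob_dn D x) * f x) ^ 2))) := by
    refine Eventually.of_forall fun x => tendsto_nhds_of_eventually_eq ?_
    obtain ⟨N, hN⟩ := exists_nat_ge (ob_dn D x)
    filter_upwards [eventually_ge_atTop N] with n hn
    rw [min_eq_left (hN.trans (Nat.cast_le.2 hn))]
  have htend := lintegral_tendsto_of_tendsto_of_monotone hmeas hmono hlim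
  have hle : ∫⁻ x, ENNReal.ofReal ((Real.exp (a * ob_dn D x) * f x) ^ 2) ≤
      ENNReal.ofReal (8 / m * Real.exp (4 * a * R) * ∫ x, f x ^ 2) := by
    refine le_of_tendsto' htend fun n => ?_
    rw [← ofReal_integral_eq_lintegral_ofReal (step n).1 (Eventually.of_forall fun x =>
      sq_nonneg _)]
    exact ENNReal.ofReal_le_ofReal (step n).2
  have hm' : AEStronglyMeasurable (fun x => (Real.exp (a * ob_dn D x) * f x) ^ 2) volume := by
    refine AEStronglyMeasurable.pow ?_ 2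
    refine AEStronglyMeasurable.mul ?_ hf.memf.aestronglyMeasurable
    exact (Real.continuous_exp.comp (continuous_const.mul (continuous_ob_dn D))).aestronglyMeasurable
  have hint : Integrable (fun x => (Real.exp (a * ob_dn D x) * f x) ^ 2) := by
    refine ⟨hm', ?_⟩
    rw [hasFiniteIntegral_iff_ofReal (Eventually.of_forall fun x => sq_nonneg _)]
    exact hle.trans_lt ENNReal.ofReal_lt_top
  refine ⟨hint, ?_⟩
  have h3 : (∫ x, (Real.exp (a * ob_dn D x) * f x) ^ 2) =
      (∫⁻ x, ENNReal.ofReal ((Real.exp (a * ob_dn D x) * f x) ^ 2)).toReal :=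
    integral_eq_lintegral_of_nonneg_ae (Eventually.of_forall fun x => sq_nonneg _) hm'
  show (∫ x, (Real.exp (a * ob_dn D x) * f x) ^ 2) ≤ _
  rw [h3]
  refine ENNReal.toReal_le_of_le_ofReal ?_ hle
  positivity

end Crest.Agent.R335
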