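import Crest.Agent.R335.OGLow
import Crest.Agent.R335.OBAgmon

/-!
Row 335 (S0521), ONE-BODY block, section (1.3) of Part B: weighted moments of the one-body states
and the dipole matrix element `μ = ⟨u, x₃ g⟩` (helper696).
-/

set_option autoImplicit false

open MeasureTheory Filter Set Crest.MathPhysics.ThreeBody
open scoped ENNReal Topology ContDiff

noncomputable section
namespace Crest.Agent.R335
namespace OG

/-- distance to the nearer nucleus -/
def rmin (D : ℝ) (x : Pos3) : ℝ := min ‖x - nuc D‖ ‖x - nuc (-D)‖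

theorem rmin_nonneg (D : ℝ) (x : Pos3) : 0 ≤ rmin D x := le_min (norm_nonneg _) (norm_nonneg _)

theorem norm_le_rmin {D : ℝ} (hD : 0 ≤ D) (x : Pos3) : ‖x‖ ≤ D + rmin D x := by
  have h1 := norm_le_rho_add D x
  have h2 := norm_le_rho_add (-D) x
  rw [abs_neg] at h2
  rw [abs_of_nonneg hD] at h1 h2
  unfold rmin
  rcases min_choice ‖x - nuc D‖ ‖x - nuc (-D)‖ with h | h <;> rw [h] <;> linarith

theorem continuous_rmin (D : ℝ) : Continuous (rmin D) := by
  unfold rmin; fun_prop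

theorem weight_le (n : ℕ) {D : ℝ} (hD : 1 ≤ D) (x : Pos3) :
    (1 + ‖x‖) ^ n * Real.exp (‖x‖ / (4 * D)) ≤
      ((4 / 3) ^ n * n.factorial * Real.exp 2) * D ^ n * Real.exp (rmin D x) := by
  set ρ := rmin D x with hρ
  have h0 : 0 ≤ ρ := rmin_nonneg D x
  have h1 := norm_le_rmin (by linarith : (0 : ℝ) ≤ D) x
  rw [← hρ] at h1
  have h2 : 1 + ‖x‖ ≤ D * (2 + ρ) := by nlinarith
  have h3 : Real.exp (‖x‖ / (4 * D)) ≤ Real.exp (1 / 4 + ρ / 4) := by
    apply Real.exp_le_exp.2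
    rw [div_le_iff₀ (by positivity)]
    nlinarith
  have h4 : (2 + ρ) ^ n ≤ (4 / 3) ^ n * n.factorial * Real.exp (3 / 4 * (2 + ρ)) := by
    have h5 := Real.pow_div_factorial_le_exp (3 / 4 * (2 + ρ)) (by positivity) n
    rw [div_le_iff₀ (by positivity), mul_pow] at h5
    calc (2 + ρ) ^ n = (4 / 3) ^ n * ((3 / 4) ^ n * (2 + ρ) ^ n) := by
          rw [← mul_assoc, ← mul_pow]; norm_num
      _ ≤ (4 / 3) ^ n * (Real.exp (3 / 4 * (2 + ρ)) * n.factorial) := by gcongr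
      _ = _ := by ring
  have h6 : (1 + ‖x‖) ^ n ≤ D ^ n * (2 + ρ) ^ n := by
    rw [← mul_pow]
    exact pow_le_pow_left₀ (by positivity) h2 n
  calc (1 + ‖x‖) ^ n * Real.exp (‖x‖ / (4 * D))
      ≤ (D ^ n * ((4 / 3) ^ n * n.factorial * Real.exp (3 / 4 * (2 + ρ)))) *
          Real.exp (1 / 4 + ρ / 4) := by
        gcongr
        exact h6.trans (by gcongr)
    _ = ((4 / 3) ^ n * n.factorial) * D ^ n *
          (Real.exp (3 / 4 * (2 + ρ)) * Real.exp (1 / 4 + ρ / 4)) := by ring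
    _ = ((4 / 3) ^ n * n.factorial) * D ^ n * Real.exp (7 / 4 + ρ) := by
        rw [← Real.exp_add]; ring_nf
    _ ≤ ((4 / 3) ^ n * n.factorial) * D ^ n * Real.exp (2 + ρ) := by
        gcongr; norm_num
    _ = _ := by rw [Real.exp_add]; ring

/-- weighted moments of a bound state of `h` with level near `-1/2` -/
theorem moment : ∃ η : ℝ, 0 < η ∧ ∀ n : ℕ, ∃ C : ℝ, 0 < C ∧ ∀ D : ℝ, 1 ≤ D →
    ∀ (f : Pos3 → ℝ) (g : Pos3 → Pos3) (e : ℝ), H1 f g →
      (∀ w m, H1 w m → B2 D f g w m = e * ∫ x, f x * w x) → e ≤ -(1 / 2) + η →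
      Integrable (fun x => (1 + ‖x‖) ^ n * Real.exp (‖x‖ / (4 * D)) * f x ^ 2) ∧
      ∫ x, (1 + ‖x‖) ^ n * Real.exp (‖x‖ / (4 * D)) * f x ^ 2 ≤ C * D ^ n * ∫ x, f x ^ 2 := by
  obtain ⟨C₀, η, hη, hA⟩ := oneBody_agmon (a := 1 / 2) (by norm_num) (by norm_num)
  refine ⟨η, hη, fun n => ?_⟩
  set K : ℝ := (4 / 3) ^ n * n.factorial * Real.exp 2 with hK
  have hK0 : 0 < K := by positivity
  refine ⟨K * (|C₀| + 1), by positivity, fun D hD f g e hf heq he => ?_⟩
  obtain ⟨hI, hle⟩ := hA D hD f g e hf heq he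
  have hpt : ∀ x, (1 + ‖x‖) ^ n * Real.exp (‖x‖ / (4 * D)) * f x ^ 2 ≤
      (K * D ^ n) * (Real.exp (1 / 2 * min ‖x - nuc D‖ ‖x - nuc (-D)‖) * f x) ^ 2 := fun x => by
    have h1 := weight_le n hD x
    have h2 : Real.exp (rmin D x) = Real.exp (1 / 2 * rmin D x) ^ 2 := by
      rw [← Real.exp_nat_mul]; ring_nf
    rw [h2] at h1
    calc (1 + ‖x‖) ^ n * Real.exp (‖x‖ / (4 * D)) * f x ^ 2
        ≤ (K * D ^ n * Real.exp (1 / 2 * rmin D x) ^ 2) * f x ^ 2 := by
          have := sq_nonneg (f x); gcongr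
      _ = _ := by rw [mul_pow]; unfold rmin; ring
  have hI' : Integrable (fun x => (K * D ^ n) *
      (Real.exp (1 / 2 * min ‖x - nuc D‖ ‖x - nuc (-D)‖) * f x) ^ 2) := hI.const_mul _
  have hmeas : AEStronglyMeasurable
      (fun x : Pos3 => (1 + ‖x‖) ^ n * Real.exp (‖x‖ / (4 * D)) * f x ^ 2) volume := by
    refine AEStronglyMeasurable.mul ?_ (hf.memf.aestronglyMeasurable.pow 2)
    exact (by fun_prop : Continuous fun x : Pos3 =>
      (1 + ‖x‖) ^ n * Real.exp (‖x‖ / (4 * D))).aestronglyMeasurable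
  have hint : Integrable (fun x => (1 + ‖x‖) ^ n * Real.exp (‖x‖ / (4 * D)) * f x ^ 2) := by
    refine hI'.mono' hmeas (Eventually.of_forall fun x => ?_)
    rw [Real.norm_eq_abs, abs_of_nonneg (by positivity)]
    exact hpt x
  refine ⟨hint, ?_⟩
  have hD0 : 0 < D := by linarith
  have hf0 : 0 ≤ ∫ x, f x ^ 2 := integral_nonneg fun x => sq_nonneg _
  calc ∫ x, (1 + ‖x‖) ^ n * Real.exp (‖x‖ / (4 * D)) * f x ^ 2
      ≤ ∫ x, (K * D ^ n) * (Real.exp (1 / 2 * min ‖x - nuc D‖ ‖x - nuc (-D)‖) * f x) ^ 2 :=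
        integral_mono hint hI' hpt
    _ = (K * D ^ n) * ∫ x, (Real.exp (1 / 2 * min ‖x - nuc D‖ ‖x - nuc (-D)‖) * f x) ^ 2 :=
        integral_const_mul _ _
    _ ≤ (K * D ^ n) * ((|C₀| + 1) * ∫ x, f x ^ 2) := by
        gcongr
        refine hle.trans ?_
        gcongr
        linarith [le_abs_self C₀]
    _ = _ := by ring

theorem abs_apply_two_le {D : ℝ} (hD : 0 ≤ D) (x : Pos3) : |x 2| ≤ D + rmin D x :=
  (abs_apply_le x 2).trans (norm_le_rmin hD x)

theorem integrable_sq_of_ob {f : Pos3 → ℝ} {g : Pos3 → Pos3} (hf : H1 f g) :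
    Integrable (fun x => f x ^ 2) := hf.memf.integrable_sq

/-- second moment -/
theorem second_moment : ∃ C η : ℝ, 0 < C ∧ 0 < η ∧ ∀ D : ℝ, 1 ≤ D →
    ∀ (f : Pos3 → ℝ) (g : Pos3 → Pos3) (e : ℝ), H1 f g →
      (∀ w m, H1 w m → B2 D f g w m = e * ∫ x, f x * w x) → e ≤ -(1 / 2) + η →
      Integrable (fun x => ‖x‖ ^ 2 * f x ^ 2) ∧
      ∫ x, ‖x‖ ^ 2 * f x ^ 2 ≤ (D ^ 2 + C * D) * ∫ x, f x ^ 2 := by
  obtain ⟨C₀, η, hη, hA⟩ := oneBody_agmon (a := 1 / 2) (by norm_num) (by norm_num)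
  refine ⟨4 * (|C₀| + 1), η, by positivity, hη, fun D hD f g e hf heq he => ?_⟩
  obtain ⟨hI, hle⟩ := hA D hD f g e hf heq he
  have hD0 : 0 < D := by linarith
  have h2 : Integrable (fun x => f x ^ 2) := hf.memf.integrable_sq
  have hpt : ∀ x, ‖x‖ ^ 2 * f x ^ 2 ≤ D ^ 2 * f x ^ 2 +
      (4 * D) * (Real.exp (1 / 2 * min ‖x - nuc D‖ ‖x - nuc (-D)‖) * f x) ^ 2 := fun x => by
    have h0 := rmin_nonneg D x
    have h1 := norm_le_rmin hD0.le x
    have h3 : ‖x‖ ^ 2 ≤ D ^ 2 + 4 * D * Real.exp (rmin D x) := by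
      have h4 : rmin D x ≤ Real.exp (rmin D x) := by
        linarith [Real.add_one_le_exp (rmin D x)]
      have h5 : rmin D x ^ 2 ≤ 2 * Real.exp (rmin D x) := by
        have := Real.quadratic_le_exp_of_nonneg h0
        nlinarith
      have h6 : ‖x‖ ^ 2 ≤ (D + rmin D x) ^ 2 := pow_le_pow_left₀ (norm_nonneg _) h1 2
      have h7 := Real.exp_pos (rmin D x)
      nlinarith
    have h8 : Real.exp (rmin D x) = Real.exp (1 / 2 * rmin D x) ^ 2 := by
      rw [← Real.exp_nat_mul]; ring_nf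
    rw [h8] at h3
    calc ‖x‖ ^ 2 * f x ^ 2 ≤ (D ^ 2 + 4 * D * Real.exp (1 / 2 * rmin D x) ^ 2) * f x ^ 2 := by
          have := sq_nonneg (f x); gcongr
      _ = _ := by rw [mul_pow]; unfold rmin; ring
  have hI' : Integrable (fun x => D ^ 2 * f x ^ 2 +
      (4 * D) * (Real.exp (1 / 2 * min ‖x - nuc D‖ ‖x - nuc (-D)‖) * f x) ^ 2) :=
    (h2.const_mul _).add (hI.const_mul _)
  have hmeas : AEStronglyMeasurable (fun x : Pos3 => ‖x‖ ^ 2 * f x ^ 2) volume :=
    (by fun_prop : Continuous fun x : Pos3 => ‖x‖ ^ 2).aestronglyMeasurable.mul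
      (hf.memf.aestronglyMeasurable.pow 2)
  have hint : Integrable (fun x => ‖x‖ ^ 2 * f x ^ 2) := by
    refine hI'.mono' hmeas (Eventually.of_forall fun x => ?_)
    rw [Real.norm_eq_abs, abs_of_nonneg (by positivity)]
    exact hpt x
  refine ⟨hint, ?_⟩
  have hf0 : 0 ≤ ∫ x, f x ^ 2 := integral_nonneg fun x => sq_nonneg _
  have h9 : ∫ x, (Real.exp (1 / 2 * min ‖x - nuc D‖ ‖x - nuc (-D)‖) * f x) ^ 2 ≤
      (|C₀| + 1) * ∫ x, f x ^ 2 := by
    refine hle.trans ?_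
    gcongr
    linarith [le_abs_self C₀]
  calc ∫ x, ‖x‖ ^ 2 * f x ^ 2
      ≤ ∫ x, (D ^ 2 * f x ^ 2 +
        (4 * D) * (Real.exp (1 / 2 * min ‖x - nuc D‖ ‖x - nuc (-D)‖) * f x) ^ 2) :=
        integral_mono hint hI' hpt
    _ = D ^ 2 * (∫ x, f x ^ 2) +
        (4 * D) * ∫ x, (Real.exp (1 / 2 * min ‖x - nuc D‖ ‖x - nuc (-D)‖) * f x) ^ 2 := by
        rw [integral_add (h2.const_mul _) (hI.const_mul _), integral_const_mul,
          integral_const_mul]
    _ ≤ D ^ 2 * (∫ x, f x ^ 2) + (4 * D) * ((|C₀| + 1) * ∫ x, f x ^ 2) := by gcongr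
    _ = _ := by ring

/-- the dipole matrix element -/
def mu (g u : Pos3 → ℝ) : ℝ := ∫ x : Pos3, u x * (x 2 * g x)

theorem mu_bounds : ∃ D₁ η : ℝ, 2 ≤ D₁ ∧ 0 < η ∧ ∀ D : ℝ, D₁ ≤ D →
    ∀ (g u : Pos3 → ℝ) (dg du : Pos3 → Pos3) (eg eu e3 : ℝ), OneBody D g u dg du eg eu e3 →
      |eg + 1 / 2| ≤ 1 / 20 → eg ≤ -(1 / 2) + η →
      (∫ x, (g x - (hyd (nuc D) x + hyd (nuc (-D)) x) / √2) ^ 2 ≤ 1 / 100) →
      (∫ x, (u x - (hyd (nuc D) x - hyd (nuc (-D)) x) / √2) ^ 2 ≤ 1 / 100) →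
      Integrable (fun x : Pos3 => u x * (x 2 * g x)) ∧ D / 40000 ≤ mu g u ∧ mu g u ≤ 2 * D := by
  obtain ⟨C, η, hC, hη, hS⟩ := second_moment
  refine ⟨max 2 (4 * C), η, le_max_left _ _, hη,
    fun D hD g u dg du eg eu e3 hob heg heg' hclg hclu => ?_⟩
  have hD2 : 2 ≤ D := (le_max_left _ _).trans hD
  have hDC : 4 * C ≤ D := (le_max_right _ _).trans hD
  have hD0 : 0 < D := by linarith
  obtain ⟨hI, hle⟩ := hS D (by linarith) g dg eg hob.hg hob.g_eq heg'
  rw [hob.ng, mul_one] at hle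
  have hu2 : Integrable (fun x => u x ^ 2) := hob.hu.memf.integrable_sq
  have hpt : ∀ x : Pos3, |u x * (x 2 * g x)| ≤ (D / 2) * u x ^ 2 +
      (1 / (2 * D)) * (‖x‖ ^ 2 * g x ^ 2) := fun x => by
    have h1 := abs_apply_le x 2
    have h2 : (x 2) ^ 2 ≤ ‖x‖ ^ 2 := by rw [← sq_abs]; gcongr
    have h3 : 0 ≤ (D * |u x| - |x 2 * g x|) ^ 2 := sq_nonneg _
    have h4 : |x 2 * g x| ^ 2 ≤ ‖x‖ ^ 2 * g x ^ 2 := by
      rw [sq_abs, mul_pow]
      have := sq_nonneg (g x)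
      gcongr
    have h5 : |u x| ^ 2 = u x ^ 2 := sq_abs _
    have h6 : (D / 2) * u x ^ 2 + (1 / (2 * D)) * (‖x‖ ^ 2 * g x ^ 2) =
        (D ^ 2 * u x ^ 2 + ‖x‖ ^ 2 * g x ^ 2) / (2 * D) := by field_simp
    rw [h6, le_div_iff₀ (by positivity), abs_mul]
    nlinarith
  have hR : Integrable (fun x : Pos3 => (D / 2) * u x ^ 2 +
      (1 / (2 * D)) * (‖x‖ ^ 2 * g x ^ 2)) := (hu2.const_mul _).add (hI.const_mul _)
  have hmeas : AEStronglyMeasurable (fun x : Pos3 => u x * (x 2 * g x)) volume := by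
    have hc : Continuous (fun x : Pos3 => u x * (x 2 * g x)) := by
      have h1 := hob.cg
      have h2 := hob.cu
      fun_prop
    exact hc.aestronglyMeasurable
  have hint : Integrable (fun x : Pos3 => u x * (x 2 * g x)) :=
    hR.mono' hmeas (Eventually.of_forall fun x => by rw [Real.norm_eq_abs]; exact hpt x)
  refine ⟨hint, ?_, ?_⟩
  · -- lower bound
    have hnn : ∀ x : Pos3, 0 ≤ u x * (x 2 * g x) := fun x => by
      have hg := (hob.g_pos x).le
      rcases lt_trichotomy (x 2) 0 with h | h | h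
      · have h1 : 0 < (rz x) 2 := by rw [rz_apply_two]; linarith
        have h2 := (hob.u_pos _ h1).le
        rw [hob.u_odd] at h2
        nlinarith [mul_nonneg (mul_nonneg h2 (by linarith : 0 ≤ - x 2)) hg]
      · rw [h]; simp
      · have h2 := (hob.u_pos _ h).le
        positivity
    have hB : ∫ x in Metric.ball (nuc D) 1, (D / 5000) * u x ≤
        ∫ x in Metric.ball (nuc D) 1, u x * (x 2 * g x) := by
      have huB : Integrable u (volume.restrict (Metric.ball (nuc D) 1)) := by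
        have : IsFiniteMeasure (volume.restrict (Metric.ball (nuc D) 1)) :=
          ⟨by rw [Measure.restrict_apply_univ]; exact Metric.isBounded_ball.measure_lt_top⟩
        exact (hob.hu.memf.mono_measure Measure.restrict_le_self).integrable (by norm_num)
      refine setIntegral_mono_on (huB.const_mul _) hint.restrict measurableSet_ball ?_
      intro x hx
      have hx1 : ‖x - nuc D‖ < 1 := by simpa [dist_eq_norm] using hx
      have hx2 : D - 1 ≤ x 2 := by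
        have := abs_apply_le (x - nuc D) 2
        rw [PiLp.sub_apply, nuc_apply] at this
        simp only [if_true] at this
        have := (abs_le.1 this).1
        linarith
      have hx3 : 0 ≤ u x := (hob.u_pos x (by linarith)).le
      have hgl : 1 / 2500 ≤ g x := by
        refine le_trans ?_ (g_lower hob hD2 heg hclg x)
        obtain ⟨hk1, hk2⟩ := kap_bounds heg
        have h1 : Real.exp (-(11 / 10)) ≤ Real.exp (-(kap eg * ‖x - nuc D‖)) := by
          apply Real.exp_le_exp.2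
          have h3 : 0 ≤ ‖x - nuc D‖ := norm_nonneg _
          nlinarith
        have h2 := exp_neg_eleven_ge
        have h4 : (33 / 200 : ℝ) ≤ Real.exp (-(kap eg * ‖x - nuc D‖)) / (1 + ‖x - nuc D‖) := by
          rw [le_div_iff₀ (by have := norm_nonneg (x - nuc D); linarith)]
          linarith
        linarith
      have h5 : D / 5000 ≤ x 2 * g x := by
        calc D / 5000 = (D / 2) * (1 / 2500) := by ring
          _ ≤ x 2 * g x := by
            have : D / 2 ≤ x 2 := by linarith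
            have h0 : 0 ≤ x 2 := by linarith
            gcongr
      nlinarith
    have h1 : ∫ x in Metric.ball (nuc D) 1, u x * (x 2 * g x) ≤ mu g u :=
      setIntegral_le_integral hint (Eventually.of_forall hnn)
    rw [integral_const_mul] at hB
    have h2 := u_mass hob hD2 hclu
    have h3 : (D / 5000) * (1 / 8) ≤ (D / 5000) * ∫ x in Metric.ball (nuc D) 1, u x := by
      gcongr
    linarith
  · have h1 : mu g u ≤ ∫ x : Pos3, ((D / 2) * u x ^ 2 + (1 / (2 * D)) * (‖x‖ ^ 2 * g x ^ 2)) :=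
      integral_mono hint hR fun x => (le_abs_self _).trans (hpt x)
    rw [integral_add (hu2.const_mul _) (hI.const_mul _), integral_const_mul, integral_const_mul,
      hob.nu] at h1
    have h2 : (1 / (2 * D)) * ∫ x, ‖x‖ ^ 2 * g x ^ 2 ≤ (1 / (2 * D)) * (D ^ 2 + C * D) := by
      gcongr
    have h3 : (1 / (2 * D)) * (D ^ 2 + C * D) = D / 2 + C / 2 := by field_simp
    linarith

end OG
end Crest.Agent.R335
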