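import Crest.Agent.R335.OGLow2
import Crest.Agent.R335.OGMom
import Crest.Agent.R335.OBClose
import Crest.Agent.R335.XTwo
import Crest.Agent.R335.BSys

/-!
Row 335 (S0521), ONE-BODY block, section (1.3) of Part B: the bounds of `g`, `u` for the bundle `OBD`
(helper696).
-/

set_option autoImplicit false

open MeasureTheory Filter Set Crest.MathPhysics.ThreeBody
open scoped ENNReal Topology ContDiff

noncomputable section
namespace Crest.Agent.R335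
namespace OG

theorem TC_eq_Sx (D κ p σ : ℝ) (x : Pos3) : TC D κ p σ 1 x = Sx D κ p σ x := by
  unfold TC Sx; ring

theorem TC_eq_Ox (D κ p σ : ℝ) (x : Pos3) : TC D κ p σ (-1) x = Ox D κ p σ x := by
  unfold TC Ox; ring

/-- everything for the bundle: levels, closeness -/
theorem obd_hyps {C0 : ℝ} (hC : 0 ≤ C0) : ∃ D₀ : ℝ, 3000 ≤ D₀ ∧ ∀ cg D : ℝ, D₀ ≤ D →
    ∀ B : OBD cg C0 D, |B.eg + 1 / 2| ≤ 1 / 20 ∧ |B.eu + 1 / 2| ≤ 1 / 20 ∧
      (∫ x, (B.g x - (hyd (nuc D) x + hyd (nuc (-D)) x) / √2) ^ 2 ≤ 1 / 100) ∧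
      (∫ x, (B.u x - (hyd (nuc D) x - hyd (nuc (-D)) x) / √2) ^ 2 ≤ 1 / 100) := by
  obtain ⟨D₁, hD₁, h⟩ := oneBody_close
  obtain ⟨C₂, hC₂⟩ := h C0
  refine ⟨max 3000 (max D₁ (max (20 * C0) (100 * C₂))), le_max_left _ _, fun cg D hD B => ?_⟩
  have d1 : 3000 ≤ D := (le_max_left _ _).trans hD
  have d2 : D₁ ≤ D := ((le_max_left _ _).trans (le_max_right _ _)).trans hD
  have d3 : 20 * C0 ≤ D :=
    ((le_max_left _ _).trans ((le_max_right _ _).trans (le_max_right _ _))).trans hD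
  have d4 : 100 * C₂ ≤ D :=
    ((le_max_right _ _).trans ((le_max_right _ _).trans (le_max_right _ _))).trans hD
  have hD0 : 0 < D := by linarith
  have e1 : C0 / D ≤ 1 / 20 := by rw [div_le_iff₀ hD0]; linarith
  have e2 : C₂ / D ≤ 1 / 100 := by rw [div_le_iff₀ hD0]; linarith
  have hg := B.eg_near
  have hu := B.eu_near
  have hg' := (abs_le.1 hg).2
  have hu' := (abs_le.1 hu).2
  obtain ⟨c1, c2⟩ := hC₂ D d2 B.g B.u B.dg B.du B.eg B.eu _ B.ob (by linarith) (by linarith)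
  exact ⟨hg.trans e1, hu.trans e1, c1.trans e2, c2.trans e2⟩

/-- **(1.3)** two-sided bounds of the one-body states by the two-centre functions -/
theorem obd_bounds {C0 : ℝ} (hC : 0 ≤ C0) : ∃ C1 D₀ : ℝ, 1 ≤ C1 ∧ 3000 ≤ D₀ ∧
    ∀ cg D : ℝ, D₀ ≤ D → ∀ B : OBD cg C0 D, ∀ x : Pos3, D ^ 3 < ‖x‖ → 0 < x 2 →
      Sx D (kap B.eg) (2 / kap B.eg - 1) (-1) x ≤ C1 * D ^ 7 * B.g x ∧
      B.g x ≤ C1 * Sx D (kap B.eg) (2 / kap B.eg - 1) 1 x ∧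
      Ox D (kap B.eu) (2 / kap B.eu - 1) (-1) x ≤ C1 * D ^ 7 * B.u x ∧
      B.u x ≤ C1 * Ox D (kap B.eu) (2 / kap B.eu - 1) 1 x := by
  obtain ⟨D₀, hD₀, h⟩ := obd_hyps hC
  refine ⟨max (10 ^ 6) (upA C0), D₀, (by norm_num : (1 : ℝ) ≤ 10 ^ 6).trans (le_max_left _ _),
    hD₀, fun cg D hD B x hx hx2 => ?_⟩
  obtain ⟨h1, h2, h3, h4⟩ := h cg D hD B
  have d1 : 3000 ≤ D := hD₀.trans hD
  have hD0 : 0 < D := by linarith
  have hD3 : 3000 ^ 2 * D ≤ D ^ 3 := by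
    have : (3000 : ℝ) ^ 2 ≤ D ^ 2 := pow_le_pow_left₀ (by norm_num) d1 2
    calc 3000 ^ 2 * D ≤ D ^ 2 * D := by gcongr
      _ = D ^ 3 := by ring
  have hF : x ∈ Far D 100 := ExtE_sub_Far hD0.le (by nlinarith : 100 + D ≤ D ^ 3) hx
  have hlo : ∀ {v w : ℝ}, 0 ≤ w → loA D * v ≤ w → v ≤ max (10 ^ 6) (upA C0) * D ^ 7 * w := by
    intro v w hw hvw
    have e1 : v = 10 ^ 6 * D ^ 7 * (loA D * v) := by unfold loA; field_simp
    rw [e1]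
    calc 10 ^ 6 * D ^ 7 * (loA D * v) ≤ 10 ^ 6 * D ^ 7 * w := by gcongr
      _ ≤ max (10 ^ 6) (upA C0) * D ^ 7 * w := by gcongr; exact le_max_left _ _
  obtain ⟨kg1, kg2⟩ := kap_bounds h1
  obtain ⟨ku1, ku2⟩ := kap_bounds h2
  have hMg : MPar (kap B.eg) 2 (2 / kap B.eg - 1) 1 := mpar kg1 kg2 (Or.inl rfl)
  have hMu : MPar (kap B.eu) 2 (2 / kap B.eu - 1) 1 := mpar ku1 ku2 (Or.inl rfl)
  refine ⟨?_, ?_, ?_, ?_⟩
  · rw [← TC_eq_Sx]
    exact hlo (B.ob.g_pos x).le (g_lower_two B.ob d1 h1 h3 hx)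
  · rw [← TC_eq_Sx]
    have h5 := g_upper B.ob h1 B.gb hF
    have h6 : 0 ≤ TC D (kap B.eg) (2 / kap B.eg - 1) 1 1 x := by
      unfold TC
      have := Em_pos hMg hF.1.le
      have := Em_pos hMg hF.2.le
      linarith
    exact h5.trans (mul_le_mul_of_nonneg_right (le_max_right _ _) h6)
  · rw [← TC_eq_Ox]
    exact hlo (B.ob.u_pos x hx2).le (u_lower_two B.ob d1 h2 h4 hx hx2)
  · rw [← TC_eq_Ox]
    have h5 := u_upper B.ob (by linarith) h2 B.ub hF.1 hx2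
    have h6 : 0 ≤ TC D (kap B.eu) (2 / kap B.eu - 1) 1 (-1) x := by
      unfold TC
      have := Em_anti hMu hF.1.le (rho_le hD0.le hx2.le)
      linarith
    exact h5.trans (mul_le_mul_of_nonneg_right (le_max_right _ _) h6)

/-- pointwise lower bounds everywhere (Yukawa) -/
theorem obd_low {C0 : ℝ} (hC : 0 ≤ C0) : ∃ D₀ : ℝ, 3000 ≤ D₀ ∧
    ∀ cg D : ℝ, D₀ ≤ D → ∀ B : OBD cg C0 D, 
      (∀ x : Pos3, (1 / 200) * (Real.exp (-(kap B.eg * ‖x - nuc D‖)) / (1 + ‖x - nuc D‖)) ≤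
        B.g x) ∧
      ∀ x : Pos3, 0 < x 2 →
        (1 / 2000) * (Real.exp (-(kap B.eu * ‖x - nuc D‖)) / (1 + ‖x - nuc D‖)) *
          min 1 (x 2 * D / (‖x‖ + D)) ≤ B.u x := by
  obtain ⟨D₀, hD₀, h⟩ := obd_hyps hC
  refine ⟨D₀, hD₀, fun cg D hD B => ?_⟩
  obtain ⟨h1, h2, h3, h4⟩ := h cg D hD B
  exact ⟨fun x => g_lower B.ob (by linarith) h1 h3 x,
    fun x hx => u_lower B.ob (by linarith) h2 h4 hx⟩

/-- the dipole moment of the bundle -/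
theorem obd_mu {C0 : ℝ} (hC : 0 ≤ C0) : ∃ D₀ : ℝ, 3000 ≤ D₀ ∧
    ∀ cg D : ℝ, D₀ ≤ D → ∀ B : OBD cg C0 D, 
      Integrable (fun x : Pos3 => B.u x * (x 2 * B.g x)) ∧ D / 40000 ≤ mu B.g B.u ∧
        mu B.g B.u ≤ 2 * D := by
  obtain ⟨D₀, hD₀, h⟩ := obd_hyps hC
  obtain ⟨D₁, η, hD₁, hη, h'⟩ := mu_bounds
  refine ⟨max D₀ (max D₁ (C0 / η)), hD₀.trans (le_max_left _ _), fun cg D hD B => ?_⟩
  have d0 : D₀ ≤ D := (le_max_left _ _).trans hD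
  have d1 : D₁ ≤ D := ((le_max_left _ _).trans (le_max_right _ _)).trans hD
  have d2 : C0 / η ≤ D := ((le_max_right _ _).trans (le_max_right _ _)).trans hD
  obtain ⟨h1, h2, h3, h4⟩ := h cg D d0 B
  have hD0 : 0 < D := by linarith
  have e1 : C0 / D ≤ η := by
    rw [div_le_iff₀ hη] at d2
    rw [div_le_iff₀ hD0]; linarith
  have hg' := (abs_le.1 B.eg_near).2
  exact h' D d1 B.g B.u B.dg B.du B.eg B.eu _ B.ob h1 (by linarith) h3 h4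

/-- moments of the one-body states of the bundle -/
theorem obd_moment {C0 : ℝ} (hC : 0 ≤ C0) (n : ℕ) : ∃ C D₀ : ℝ, 0 < C ∧ 3000 ≤ D₀ ∧
    ∀ cg D : ℝ, D₀ ≤ D → ∀ B : OBD cg C0 D, ∀ f, f = B.g ∨ f = B.u →
      Integrable (fun x : Pos3 => (1 + ‖x‖) ^ n * Real.exp (‖x‖ / (4 * D)) * f x ^ 2) ∧
      ∫ x, (1 + ‖x‖) ^ n * Real.exp (‖x‖ / (4 * D)) * f x ^ 2 ≤ C * D ^ n := by
  obtain ⟨η, hη, h⟩ := moment
  obtain ⟨C, hC', h'⟩ := h n
  refine ⟨C, max 3000 (C0 / η), hC', le_max_left _ _, fun cg D hD B f hf => ?_⟩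
  have d1 : 3000 ≤ D := (le_max_left _ _).trans hD
  have d2 : C0 / η ≤ D := (le_max_right _ _).trans hD
  have hD0 : 0 < D := by linarith
  have e1 : C0 / D ≤ η := by
    rw [div_le_iff₀ hη] at d2
    rw [div_le_iff₀ hD0]; linarith
  have hg' := (abs_le.1 B.eg_near).2
  have hu' := (abs_le.1 B.eu_near).2
  rcases hf with rfl | rfl
  · have := h' D (by linarith) B.g B.dg B.eg B.ob.hg B.ob.g_eq (by linarith)
    rwa [B.ob.ng, mul_one] at this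
  · have := h' D (by linarith) B.u B.du B.eu B.ob.hu B.ob.u_eq (by linarith)
    rwa [B.ob.nu, mul_one] at this

end OG
end Crest.Agent.R335
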