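import Crest.Agent.R335.TB

/-!
Row 335 (S0521), TOP: the numbers `κ, κS, κT` (helper783).
-/

set_option autoImplicit false

open MeasureTheory Filter Set Crest.MathPhysics.ThreeBody
open scoped ENNReal Topology ContDiff

noncomputable section
namespace Crest.Agent.R335

namespace TNum

theorem sqrt_rng {a e b d : ℝ} (hd : d ≤ 1 / 50) (hb : |b + 1 / 2| ≤ 1 / 100)
    (ha : |a - e + b| ≤ d) : (9 / 10 ≤ √(2 * (a - e)) ∧ √(2 * (a - e)) ≤ 11 / 10) ∧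
      |√(2 * (a - e)) ^ 2 + 2 * b| ≤ 2 * d := by
  rw [abs_le] at hb ha
  have h0 : 0 ≤ 2 * (a - e) := by linarith [ha.1, hb.2]
  refine ⟨⟨?_, ?_⟩, ?_⟩
  · apply Real.le_sqrt_of_sq_le; linarith [ha.1, hb.2]
  · rw [Real.sqrt_le_left (by norm_num)]; linarith [ha.2, hb.1]
  · rw [Real.sq_sqrt h0, abs_le]; constructor <;> linarith [ha.1, ha.2]

end TNum

theorem numbers {cg C0 D : ℝ} (hC : 1 ≤ C0) (hD : 4 ≤ D) (B : OBD cg C0 D) (K : ℝ) :
    ∃ K' l' : ℝ, 1 ≤ K' ∧ 0 < l' ∧ ∀ lam, 0 < lam → lam ≤ l' → ∀ S : Sys B K lam,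
      (9 / 10 ≤ S.κ ∧ S.κ ≤ 11 / 10) ∧ (9 / 10 ≤ S.κS ∧ S.κS ≤ 11 / 10) ∧
      (9 / 10 ≤ S.κT ∧ S.κT ≤ 11 / 10) ∧
      |S.κ ^ 2 + 2 * B.eu| ≤ K' * lam ∧ |S.κS ^ 2 + 2 * B.eg| ≤ K' * lam ∧
      |S.κT ^ 2 + 2 * B.eg| ≤ K' * lam ∧ B.om ≤ S.q1sq ∧ S.E ≤ S.e0 := by
  have hom : 0 < B.om := by
    have := B.ob.eg_lt
    unfold OBD.om; linarith
  set K0 : ℝ := max K 1 with hK0
  have hK01 : 1 ≤ K0 := le_max_right _ _
  have hK : K ≤ K0 := le_max_left _ _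
  have hCD : C0 / D ≤ 1 / 100 := by
    rw [div_le_iff₀ (by linarith)]; linarith [B.big]
  refine ⟨4 * K0, min (1 / (100 * K0)) (B.om / (4 * K0)), by linarith, by positivity,
    fun lam hl hle S => ?_⟩
  have h1 : K * lam ≤ 1 / 100 := by
    have : lam ≤ 1 / (100 * K0) := hle.trans (min_le_left _ _)
    rw [le_div_iff₀ (by positivity)] at this
    nlinarith
  have h2 : K * lam ≤ B.om / 4 := by
    have : lam ≤ B.om / (4 * K0) := hle.trans (min_le_right _ _)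
    rw [le_div_iff₀ (by positivity)] at this
    nlinarith
  have hKl : K * lam ≤ K0 * lam := mul_le_mul_of_nonneg_right hK hl.le
  have hE := S.En
  have h0 := S.e0n
  have h1' := S.e1n
  have hT := S.eTn
  have hg : |B.eg + 1 / 2| ≤ 1 / 100 := B.eg_near.trans hCD
  have hu : |B.eu + 1 / 2| ≤ 1 / 100 := B.eu_near.trans hCD
  rw [abs_le] at hE h0 h1' hT
  have a0 : |S.e0 - S.E + B.eu| ≤ 2 * (K * lam) := by
    rw [abs_le]; constructor <;> linarith [hE.1, hE.2, h0.1, h0.2]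
  have a1 : |S.e1 - S.E + B.eg| ≤ 2 * (K * lam) := by
    rw [abs_le]; constructor <;> linarith [hE.1, hE.2, h1'.1, h1'.2]
  have a2 : |S.eT - S.E + B.eg| ≤ 2 * (K * lam) := by
    rw [abs_le]; constructor <;> linarith [hE.1, hE.2, hT.1, hT.2]
  obtain ⟨r0, n0⟩ := TNum.sqrt_rng (by linarith) hu a0
  obtain ⟨r1, n1⟩ := TNum.sqrt_rng (by linarith) hg a1
  obtain ⟨r2, n2⟩ := TNum.sqrt_rng (by linarith) hg a2
  refine ⟨r0, r1, r2, n0.trans (by linarith), n1.trans (by linarith), n2.trans (by linarith),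
    ?_, ?_⟩
  · unfold Sys.q1sq OBD.om at *
    have : (B.eu - B.eg) / 2 ≤ min (S.e1 - S.e0) (S.eT - S.e0) :=
      le_min (by linarith [h0.2, h1'.1]) (by linarith [h0.2, hT.1])
    linarith
  · rw [abs_le] at hu a0
    linarith [a0.1, hu.2]

end Crest.Agent.R335
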