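import Crest.Agent.R335.BRMod
import Crest.Agent.R335.OGOut
import Crest.Agent.R335.TNum
import Crest.Agent.R335.BSup

/-!
Row 335 (S0521), Part B sections 5-6 (note 10383): the bounds on the inner shell
`R₁ < |x| < R₁ + 1` (helper284), from (1.3), (3.7) and the closeness of the rates.
-/

set_option autoImplicit false
set_option linter.unusedVariables false

open MeasureTheory Filter Set Crest.MathPhysics.ThreeBody
open scoped ENNReal Topology ContDiff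

noncomputable section
namespace Crest.Agent.R335.BR
open Crest.Agent.R335

/-- close parameters, same sign -/
theorem Em_close {κ κ' Q Q' p p' σ t T δ : ℝ} (h : MPar κ Q p σ) (h' : MPar κ' Q' p' σ)
    (ht : 100 ≤ t) (hT : t ≤ T) (hk : |κ - κ'| ≤ δ) (hp : |p' - p| ≤ δ) (hδ : 4 * δ * T ≤ 1) :
    Em κ' p' σ t ≤ 2 * Em κ p σ t := by
  have h0 : 0 < t := by linarith
  obtain ⟨u0, u1⟩ := XM.u_bounds ht
  rw [Em_eq h0, Em_eq h0]
  have hd : 0 ≤ 1 - σ * (√t)⁻¹ := by rcases h.hσ with rfl | rfl <;> linarith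
  have hδ0 : 0 ≤ δ := (abs_nonneg _).trans hk
  have hδt : δ * t ≤ 1 / 4 := by
    have := mul_le_mul_of_nonneg_left hT hδ0
    linarith
  have e1 : Real.exp (-(κ' * t)) ≤ Real.exp (-(κ * t)) * Real.exp (δ * t) := by
    rw [← Real.exp_add]
    refine Real.exp_le_exp.2 ?_
    have := mul_le_mul_of_nonneg_right (abs_le.1 hk).2 h0.le
    linarith
  have e2 : t ^ p' ≤ t ^ p * Real.exp (δ * t) := by
    have a1 : t ^ p' = t ^ p * t ^ (p' - p) := by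
      rw [← Real.rpow_add h0]; congr 1; ring
    rw [a1]
    refine mul_le_mul_of_nonneg_left ?_ (Real.rpow_nonneg h0.le _)
    rw [Real.rpow_def_of_pos h0]
    refine Real.exp_le_exp.2 ?_
    have l0 : 0 ≤ Real.log t := Real.log_nonneg (by linarith)
    have l1 : Real.log t ≤ t := (Real.log_le_sub_one_of_pos h0).trans (by linarith)
    calc Real.log t * (p' - p) ≤ Real.log t * δ :=
          mul_le_mul_of_nonneg_left ((le_abs_self _).trans hp) l0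
      _ ≤ t * δ := mul_le_mul_of_nonneg_right l1 hδ0
      _ = δ * t := mul_comm _ _
  have e3 : Real.exp (δ * t) * Real.exp (δ * t) ≤ 2 := by
    rw [← Real.exp_add]
    have : Real.exp (δ * t + δ * t) ≤ Real.exp (1 / 2) := Real.exp_le_exp.2 (by linarith)
    refine this.trans ?_
    have h2 : Real.exp (1 / 2) ^ 2 ≤ 2 ^ 2 := by
      rw [← Real.exp_nat_mul]
      norm_num
      linarith [Real.exp_one_lt_d9]
    exact (pow_le_pow_iff_left₀ (Real.exp_pos _).le (by norm_num) (by norm_num)).1 h2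
  have key : ee κ' p' t ≤ 2 * ee κ p t := by
    unfold ee
    have p0 := Real.rpow_nonneg h0.le p
    have p0' := Real.rpow_nonneg h0.le p'
    have x0 := Real.exp_pos (-(κ * t))
    have x1 := Real.exp_pos (δ * t)
    calc Real.exp (-(κ' * t)) * t ^ p' ≤
          (Real.exp (-(κ * t)) * Real.exp (δ * t)) * (t ^ p * Real.exp (δ * t)) :=
          mul_le_mul e1 e2 p0' (by positivity)
      _ = (Real.exp (-(κ * t)) * t ^ p) * (Real.exp (δ * t) * Real.exp (δ * t)) := by ring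
      _ ≤ (Real.exp (-(κ * t)) * t ^ p) * 2 := mul_le_mul_of_nonneg_left e3 (by positivity)
      _ = _ := by ring
  calc ee κ' p' t * (1 - σ * (√t)⁻¹) ≤ 2 * ee κ p t * (1 - σ * (√t)⁻¹) :=
        mul_le_mul_of_nonneg_right key hd
    _ = _ := by ring

/-- `O(κ') ≤ 4.8 D c O(κ)` when `E(κ') ≤ c E(κ)` -/
theorem Ox_compc {D κ κ' Q Q' p p' σ σ' c : ℝ} (h : MPar κ Q p σ) (h' : MPar κ' Q' p' σ')
    {x : Pos3} (hx : XReg D x) (hE : Em κ' p' σ' ‖x - nuc D‖ ≤ c * Em κ p σ ‖x - nuc D‖)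
    (hc : 0 ≤ c) : Ox D κ' p' σ' x ≤ 4.8 * D * c * Ox D κ p σ x := by
  have hD := hx.Dpos
  have h1 := Ox_le h' hx
  have h2 := Ox_ge h hx
  have d0 : 0 ≤ ‖x - nuc (-D)‖ - ‖x - nuc D‖ := by linarith [hx.rp_le_rm]
  generalize ‖x - nuc (-D)‖ - ‖x - nuc D‖ = δ at *
  have h3 : 1.2 * δ * Em κ' p' σ' ‖x - nuc D‖ ≤ 1.2 * δ * (c * Em κ p σ ‖x - nuc D‖) :=
    mul_le_mul_of_nonneg_left hE (by positivity)
  have h4 : 4.8 * D * c * (Em κ p σ ‖x - nuc D‖ * (δ / (4 * D))) ≤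
      4.8 * D * c * Ox D κ p σ x :=
    mul_le_mul_of_nonneg_left h2 (by positivity)
  have h5 : 4.8 * D * c * (Em κ p σ ‖x - nuc D‖ * (δ / (4 * D))) =
      1.2 * δ * (c * Em κ p σ ‖x - nuc D‖) := by
    field_simp; ring
  linarith

/-- closeness of the exponents -/
theorem par_close {κ κ' lam K' p p' σ σ' : ℝ} (h : MPar κ (2 * (1 - lam)) p σ)
    (h' : MPar κ' 2 p' σ') (hl : 0 ≤ lam) (hK : 1 ≤ K') (hk : |κ ^ 2 - κ' ^ 2| ≤ K' * lam) :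
    |κ - κ'| ≤ 5 * K' * lam ∧ |p' - p| ≤ 5 * K' * lam := by
  have k0 := h.k1
  have k0' := h'.k1
  have k2' := h'.k2
  have k2 := h.k2
  have hKl : lam ≤ K' * lam := by nlinarith
  have e1 : |κ - κ'| * 1.8 ≤ K' * lam := by
    have a1 : |κ - κ'| * |κ + κ'| = |κ ^ 2 - κ' ^ 2| := by rw [← abs_mul]; congr 1; ring
    have a2 : (1.8 : ℝ) ≤ |κ + κ'| := by rw [abs_of_pos (by linarith)]; linarith
    have a3 := mul_le_mul_of_nonneg_left a2 (abs_nonneg (κ - κ'))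
    linarith
  have e2 : |p' - p| * 0.81 ≤ 2 * |κ - κ'| + 2.2 * lam := by
    have a1 : (p' - p) * (κ * κ') = 2 * (κ - κ') + 2 * lam * κ' := by
      have b1 := h.hp
      have b2 := h'.hp
      have b3 : (p' - p) * (κ * κ') = κ * (κ' * (p' + 1)) - κ' * (κ * (p + 1)) := by ring
      rw [b3, b1, b2]; ring
    have a2 : |p' - p| * (κ * κ') ≤ 2 * |κ - κ'| + 2 * lam * κ' := by
      rw [← abs_of_pos (show 0 < κ * κ' by nlinarith), ← abs_mul, a1]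
      refine (abs_add_le _ _).trans ?_
      rw [abs_mul, abs_of_pos (by norm_num : (0 : ℝ) < 2),
        abs_of_nonneg (show 0 ≤ 2 * lam * κ' by nlinarith)]
    have a3 : (0.81 : ℝ) ≤ κ * κ' := by nlinarith
    have a4 := mul_le_mul_of_nonneg_left a3 (abs_nonneg (p' - p))
    have a5 : 2 * lam * κ' ≤ 2.2 * lam := by nlinarith
    linarith
  constructor <;> linarith [abs_nonneg (κ - κ'), abs_nonneg (p' - p)]

theorem near_half {C0 D e : ℝ} (hD : 0 < D) (hb : 100 * C0 ≤ D) (h : |e + 1 / 2| ≤ C0 / D) :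
    |e + 1 / 2| ≤ 1 / 20 := by
  refine h.trans ?_
  rw [div_le_iff₀ hD]; linarith

theorem kap_sq {e : ℝ} (h : |e + 1 / 2| ≤ 1 / 20) : OG.kap e ^ 2 = -2 * e := by
  unfold OG.kap
  rw [Real.sq_sqrt]
  linarith [(abs_le.1 h).2]

theorem mpar_lam {k lam σ : ℝ} (h1 : 9 / 10 ≤ k) (h2 : k ≤ 11 / 10) (hl : 0 ≤ lam)
    (hl' : lam ≤ 1 / 20) (hσ : σ = 1 ∨ σ = -1) : MPar k (2 * (1 - lam)) (2 * (1 - lam) / k - 1) σ := by
  refine ⟨by norm_num; linarith, by norm_num; linarith, by norm_num; linarith, by linarith, ?_, hσ⟩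
  have : k ≠ 0 := by linarith
  field_simp
  ring

/-- comparison of the two-centre functions on the shell `|x| ≤ R` -/
theorem shell_par {D k k' lam K' R : ℝ} (hk1 : 9 / 10 ≤ k) (hk2 : k ≤ 11 / 10)
    (hk1' : 9 / 10 ≤ k') (hk2' : k' ≤ 11 / 10) (hl : 0 ≤ lam) (hl' : lam ≤ 1 / 20) (hK : 1 ≤ K')
    (hkk : |k ^ 2 - k' ^ 2| ≤ K' * lam) (hs : 20 * K' * lam * (R + D) ≤ 1) {σ : ℝ}
    (hσ : σ = 1 ∨ σ = -1) {x : Pos3} (hx : XFar D x) (hR : ‖x‖ ≤ R) :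
    Ox D k' (2 / k' - 1) σ x ≤ 9.6 * D * Ox D k (2 * (1 - lam) / k - 1) σ x ∧
    Ox D k (2 * (1 - lam) / k - 1) σ x ≤ 9.6 * D * Ox D k' (2 / k' - 1) σ x ∧
    Sx D k' (2 / k' - 1) σ x ≤ 2 * Sx D k (2 * (1 - lam) / k - 1) σ x ∧
    Sx D k (2 * (1 - lam) / k - 1) σ x ≤ 2 * Sx D k' (2 / k' - 1) σ x := by
  have h := mpar_lam hk1 hk2 hl hl' hσ
  have h' : MPar k' 2 (2 / k' - 1) σ := OG.mpar hk1' hk2' hσ
  obtain ⟨c1, c2⟩ := par_close h h' hl hK hkk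
  have hr := hx.reg
  have t1 : ‖x - nuc D‖ ≤ R + D := (XT.rp_le x hx.Dpos.le).trans (by linarith)
  have t2 : ‖x - nuc (-D)‖ ≤ R + D := (XT.rm_le x hx.Dpos.le).trans (by linarith)
  have hd : 4 * (5 * K' * lam) * (R + D) ≤ 1 := by linarith
  have c1' : |k' - k| ≤ 5 * K' * lam := by rwa [abs_sub_comm]
  have c2' : |(2 * (1 - lam) / k - 1) - (2 / k' - 1)| ≤ 5 * K' * lam := by rwa [abs_sub_comm]
  have a1 := Em_close h h' hr.rp t1 c1 c2 hd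
  have a2 := Em_close h h' hr.rm t2 c1 c2 hd
  have b1 := Em_close h' h hr.rp t1 c1' c2' hd
  have b2 := Em_close h' h hr.rm t2 c1' c2' hd
  refine ⟨?_, ?_, ?_, ?_⟩
  · have := Ox_compc h h' hr a1 (by norm_num)
    linarith
  · have := Ox_compc h' h hr b1 (by norm_num)
    linarith
  · unfold Sx; linarith
  · unfold Sx; linarith

/-- lower bounds on the shell -/
theorem shell_low {D κ Q p σ R : ℝ} (h : MPar κ Q p σ) {x : Pos3} (hx : XFar D x)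
    (hR : ‖x‖ ≤ R) : x 2 ≤ 7 * (R + D) * Real.exp (2 * (R + D)) * Ox D κ p σ x ∧
      1 ≤ 7 * (R + D) * Real.exp (2 * (R + D)) * Sx D κ p σ x := by
  have h1 := Ox_lower h hx
  have h2 := Sx_lower h hx
  have hr0 := hx.rpos
  have hD := hx.Dpos
  have hD1 := hx.D1
  have r1 := hx.r0
  have e1 : Real.exp (-(2 * (R + D))) ≤ Real.exp (-(κ * D)) * Real.exp (-(κ * ‖x‖)) := by
    rw [← Real.exp_add]
    refine Real.exp_le_exp.2 ?_
    have := h.k2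
    nlinarith
  have e2 : Real.exp (2 * (R + D)) * Real.exp (-(2 * (R + D))) = 1 := by
    rw [← Real.exp_add]; simp
  have E0 := Real.exp_pos (2 * (R + D))
  have E1 := Real.exp_pos (-(2 * (R + D)))
  have hz := hx.z0
  have hRD : 0 < R + D := by linarith
  constructor
  · have a1 : 0.15 * (x 2 * ‖x‖⁻¹) * Real.exp (-(2 * (R + D))) ≤ Ox D κ p σ x :=
      (mul_le_mul_of_nonneg_left e1 (by positivity)).trans h1
    have a2 := mul_le_mul_of_nonneg_left a1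
      (show 0 ≤ 7 * (R + D) * Real.exp (2 * (R + D)) by positivity)
    refine le_trans ?_ a2
    have a3 : 7 * (R + D) * Real.exp (2 * (R + D)) *
        (0.15 * (x 2 * ‖x‖⁻¹) * Real.exp (-(2 * (R + D)))) =
        1.05 * x 2 * ((R + D) * ‖x‖⁻¹) * (Real.exp (2 * (R + D)) * Real.exp (-(2 * (R + D)))) := by
      ring
    rw [a3, e2, mul_one]
    have a4 : 1 ≤ (R + D) * ‖x‖⁻¹ := by
      rw [← div_eq_mul_inv, le_div_iff₀ hr0]; linarith
    nlinarith [mul_le_mul_of_nonneg_left a4 hz]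
  · have a1 : 0.9 * Real.exp (-(2 * (R + D))) ≤ Sx D κ p σ x :=
      (mul_le_mul_of_nonneg_left e1 (by norm_num)).trans h2
    have a2 := mul_le_mul_of_nonneg_left a1
      (show 0 ≤ 7 * (R + D) * Real.exp (2 * (R + D)) by positivity)
    refine le_trans ?_ a2
    have a3 : 7 * (R + D) * Real.exp (2 * (R + D)) * (0.9 * Real.exp (-(2 * (R + D)))) =
        6.3 * (R + D) * (Real.exp (2 * (R + D)) * Real.exp (-(2 * (R + D)))) := by
      ring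
    rw [a3, e2, mul_one]
    linarith

/-! ### arithmetic -/

theorem sqrt2_bd : 1 ≤ √2 ∧ √2 ≤ 1.42 := by
  constructor
  · rw [Real.one_le_sqrt]; norm_num
  · rw [Real.sqrt_le_left (by norm_num)]; norm_num

theorem ar_F_up {C1 D u U1 O1 F e η : ℝ} (hC1 : 1 ≤ C1) (hD : 1 ≤ D) (hu : 0 ≤ u) (hO : 0 ≤ O1)
    (b : u ≤ C1 * U1) (q : U1 ≤ 9.6 * D * O1) (sF : |F - u / √2| ≤ e) (he : e ≤ η * O1)
    (hη : η ≤ 1) : |F| ≤ 40 * C1 * D ^ 2 * O1 := by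
  obtain ⟨r1, r2⟩ := sqrt2_bd
  have hu2 : u / √2 ≤ u := div_le_self hu r1
  have a1 : u ≤ 9.6 * C1 * D * O1 := by
    calc u ≤ C1 * U1 := b
      _ ≤ C1 * (9.6 * D * O1) := mul_le_mul_of_nonneg_left q (by linarith)
      _ = _ := by ring
  have a2 : η * O1 ≤ 1 * O1 := mul_le_mul_of_nonneg_right hη hO
  have hD2 : D ≤ D ^ 2 := by nlinarith
  have a4 : C1 * D * O1 ≤ C1 * D ^ 2 * O1 :=
    mul_le_mul_of_nonneg_right (mul_le_mul_of_nonneg_left hD2 (by linarith)) hO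
  have a3 : 1 * O1 ≤ C1 * D * O1 :=
    mul_le_mul_of_nonneg_right (by nlinarith) hO
  have a5 : 0 ≤ u / √2 := by positivity
  have a6 : 0 ≤ C1 * D ^ 2 * O1 := by positivity
  rw [abs_le] at sF ⊢
  constructor <;> linarith [sF.1, sF.2]

theorem ar_F_low {C1 D u U2 O2 F e η : ℝ} (hC1 : 1 ≤ C1) (hD : 1 ≤ D) (hu : 0 ≤ u) (hO : 0 ≤ O2)
    (q : O2 ≤ 9.6 * D * U2) (b : U2 ≤ C1 * D ^ 7 * u) (sF : |F - u / √2| ≤ e) (he : e ≤ η * O2)
    (hη : 40 * C1 * D ^ 8 * η ≤ 1) : O2 ≤ 40 * C1 * D ^ 9 * F := by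
  obtain ⟨r1, r2⟩ := sqrt2_bd
  have hu3 : u / 1.42 ≤ u / √2 := div_le_div_of_nonneg_left hu (by linarith) r2
  have a1 : O2 ≤ 9.6 * (C1 * D ^ 8 * u) := by
    calc O2 ≤ 9.6 * D * U2 := q
      _ ≤ 9.6 * D * (C1 * D ^ 7 * u) := mul_le_mul_of_nonneg_left b (by positivity)
      _ = _ := by ring
  rw [abs_le] at sF
  have a2 : u / 1.42 - η * O2 ≤ F := by linarith [sF.1]
  have c1 := mul_le_mul_of_nonneg_left a2 (show 0 ≤ 40 * C1 * D ^ 8 by positivity)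
  have c2 : 40 * C1 * D ^ 8 * η * O2 ≤ 1 * O2 := mul_le_mul_of_nonneg_right hη hO
  have c3 : 40 * C1 * D ^ 8 * (u / 1.42 - η * O2) =
      40 / 1.42 * (C1 * D ^ 8 * u) - 40 * C1 * D ^ 8 * η * O2 := by ring
  rw [c3] at c1
  have c4 : 0 ≤ C1 * D ^ 8 * u := by positivity
  have c5 : 28 * (C1 * D ^ 8 * u) ≤ 40 / 1.42 * (C1 * D ^ 8 * u) :=
    mul_le_mul_of_nonneg_right (by norm_num) c4
  have a3 : O2 ≤ 40 * C1 * D ^ 8 * F := by linarith
  calc O2 ≤ 1 * (40 * C1 * D ^ 8 * F) := by rw [one_mul]; exact a3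
    _ ≤ D * (40 * C1 * D ^ 8 * F) := mul_le_mul_of_nonneg_right hD (hO.trans a3)
    _ = _ := by ring

theorem ar_c_up {C1 g G1 S1 c e η : ℝ} (hC1 : 1 ≤ C1) (hg : 0 ≤ g) (hS : 0 ≤ S1)
    (b : g ≤ C1 * G1) (q : G1 ≤ 2 * S1) (sc : |c - g / 2| ≤ e) (he : e ≤ η * S1)
    (hη : η ≤ 1) : |c| ≤ 40 * C1 * S1 := by
  have a1 : g ≤ 2 * (C1 * S1) := by
    calc g ≤ C1 * G1 := b
      _ ≤ C1 * (2 * S1) := mul_le_mul_of_nonneg_left q (by linarith)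
      _ = _ := by ring
  have a2 : η * S1 ≤ 1 * S1 := mul_le_mul_of_nonneg_right hη hS
  have a3 : 1 * S1 ≤ C1 * S1 := mul_le_mul_of_nonneg_right hC1 hS
  rw [abs_le] at sc ⊢
  constructor <;> linarith [sc.1, sc.2]

theorem ar_c_low {C1 D g G2 S2 c e η : ℝ} (hC1 : 1 ≤ C1) (hD : 1 ≤ D) (hg : 0 ≤ g) (hS : 0 ≤ S2)
    (q : S2 ≤ 2 * G2) (b : G2 ≤ C1 * D ^ 7 * g) (sc : |c - g / 2| ≤ e) (he : e ≤ η * S2)
    (hη : 40 * C1 * D ^ 8 * η ≤ 1) : S2 ≤ 40 * C1 * D ^ 8 * c := by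
  have a1 : S2 ≤ 2 * (C1 * D ^ 7 * g) := by
    calc S2 ≤ 2 * G2 := q
      _ ≤ 2 * (C1 * D ^ 7 * g) := mul_le_mul_of_nonneg_left b (by norm_num)
  rw [abs_le] at sc
  have a2 : g / 2 - η * S2 ≤ c := by linarith [sc.1]
  have c1 := mul_le_mul_of_nonneg_left a2 (show 0 ≤ 40 * C1 * D ^ 8 by positivity)
  have c2 : 40 * C1 * D ^ 8 * η * S2 ≤ 1 * S2 := mul_le_mul_of_nonneg_right hη hS
  have c3 : 40 * C1 * D ^ 8 * (g / 2 - η * S2) =
      20 * (D * (C1 * D ^ 7 * g)) - 40 * C1 * D ^ 8 * η * S2 := by ring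
  rw [c3] at c1
  have c4 : 1 * (C1 * D ^ 7 * g) ≤ D * (C1 * D ^ 7 * g) :=
    mul_le_mul_of_nonneg_right hD (by positivity)
  linarith

/-- **(3.7) on the inner shell**, S-sector -/
theorem shellS {cg C0 : ℝ} (hcg : 0 < cg) (hC : 1 ≤ C0) : ∃ P0 D0 : ℝ, 1 ≤ P0 ∧ 4 ≤ D0 ∧
    ∀ D : ℝ, D0 ≤ D → ∀ (B : OBD cg C0 D) (K : ℝ), ∃ Ra : ℝ, ∀ R1 : ℝ, Ra ≤ R1 →
      ∃ Cs l' : ℝ, 1 ≤ Cs ∧ 0 < l' ∧ ∀ lam : ℝ, 0 < lam → lam ≤ l' → ∀ S : Sys B K lam,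
        ∀ᵐ x : Pos3, R1 < ‖x‖ → ‖x‖ < R1 + 1 → 0 < x 2 →
          |S.F x| ≤ P0 * D ^ 2 * Ox D S.κ (2 * (1 - lam) / S.κ - 1) 1 x ∧
          Ox D S.κ (2 * (1 - lam) / S.κ - 1) (-1) x ≤ P0 * D ^ 9 * S.F x ∧
          S.P x ≤ Cs * lam * min 1 (x 2) ∧
          |S.c x| ≤ P0 * Sx D S.κS (2 * (1 - lam) / S.κS - 1) 1 x ∧
          Sx D S.κS (2 * (1 - lam) / S.κS - 1) (-1) x ≤ P0 * D ^ 8 * S.c x ∧
          S.N x ≤ Cs * lam := by
  obtain ⟨C1, D1, hC1, hD1, hob⟩ := OG.obd_bounds (C0 := C0) (by linarith)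
  refine ⟨40 * C1, D1, by linarith, by linarith, fun D hD B K => ?_⟩
  have d1 : 3000 ≤ D := hD1.trans hD
  have hD0 : 0 < D := by linarith
  have hD4 : 4 ≤ D := by linarith
  obtain ⟨K1, l1, hK1, hl1, hnum⟩ := numbers hC hD4 B K
  obtain ⟨K2, l2, hK2, hl2, hsup⟩ := sup_small hC hD4 B K
  refine ⟨max (D ^ 3) (6000 * D ^ 2), fun R1 hR1 => ?_⟩
  have hRa : D ^ 3 ≤ R1 := (le_max_left _ _).trans hR1
  have hRb : 6000 * D ^ 2 ≤ R1 := (le_max_right _ _).trans hR1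
  have hR0 : 0 ≤ R1 := le_trans (by positivity) hRb
  obtain ⟨T, hT⟩ : ∃ T, T = R1 + 1 + D := ⟨_, rfl⟩
  have hT0 : 0 < T := by rw [hT]; linarith
  obtain ⟨CR, hCR⟩ : ∃ CR, CR = 7 * T * Real.exp (2 * T) := ⟨_, rfl⟩
  have hCR0 : 0 < CR := by rw [hCR]; positivity
  refine ⟨max 1 K2, min (min l1 l2) (min (1 / 20) (min (1 / (20 * K1 * T))
    (1 / (40 * C1 * D ^ 8 * (K2 * CR))))), le_max_left _ _, ?_, fun lam hl hle S => ?_⟩
  · have : 0 < K1 := by linarith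
    have : 0 < C1 := by linarith
    positivity
  have hle1 : lam ≤ l1 := hle.trans ((min_le_left _ _).trans (min_le_left _ _))
  have hle2 : lam ≤ l2 := hle.trans ((min_le_left _ _).trans (min_le_right _ _))
  have hle' := hle.trans (min_le_right _ _)
  have hle3 : lam ≤ 1 / 20 := hle'.trans (min_le_left _ _)
  have hle4 : lam ≤ 1 / (20 * K1 * T) :=
    hle'.trans ((min_le_right _ _).trans (min_le_left _ _))
  have hle5 : lam ≤ 1 / (40 * C1 * D ^ 8 * (K2 * CR)) :=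
    hle'.trans ((min_le_right _ _).trans (min_le_right _ _))
  obtain ⟨⟨n1, n2⟩, ⟨n3, n4⟩, -, n5, n6, -, -, -⟩ := hnum lam hl hle1 S
  have hK10 : 0 < K1 := by linarith
  have hC10 : 0 < C1 := by linarith
  have hs : 20 * K1 * lam * (R1 + 1 + D) ≤ 1 := by
    rw [le_div_iff₀ (by positivity)] at hle4
    rw [← hT]; linarith
  have hη : 40 * C1 * D ^ 8 * (K2 * lam * CR) ≤ 1 := by
    rw [le_div_iff₀ (by positivity)] at hle5
    linarith
  have eg := near_half hD0 B.big B.eg_near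
  have eu := near_half hD0 B.big B.eu_near
  obtain ⟨kg1, kg2⟩ := OG.kap_bounds eg
  obtain ⟨ku1, ku2⟩ := OG.kap_bounds eu
  have cu : |S.κ ^ 2 - OG.kap B.eu ^ 2| ≤ K1 * lam := by
    rw [kap_sq eu, show S.κ ^ 2 - -2 * B.eu = S.κ ^ 2 + 2 * B.eu by ring]; exact n5
  have cgg : |S.κS ^ 2 - OG.kap B.eg ^ 2| ≤ K1 * lam := by
    rw [kap_sq eg, show S.κS ^ 2 - -2 * B.eg = S.κS ^ 2 + 2 * B.eg by ring]; exact n6
  filter_upwards [hsup lam hl hle2 S] with x hx h1 h2 h3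
  obtain ⟨sP, sN, sF, sc, -, -, -⟩ := hx
  have hX : XFar D x := ⟨by linarith, h3.le, by linarith⟩
  have hRx : ‖x‖ ≤ R1 + 1 := h2.le
  obtain ⟨b1, b2, b3, b4⟩ := hob cg D hD B x (by linarith) h3
  obtain ⟨q1, -, -, -⟩ :=
    shell_par n1 n2 ku1 ku2 hl.le hle3 hK1 cu hs (σ := 1) (Or.inl rfl) hX hRx
  obtain ⟨-, q2, -, -⟩ :=
    shell_par n1 n2 ku1 ku2 hl.le hle3 hK1 cu hs (σ := -1) (Or.inr rfl) hX hRx
  obtain ⟨-, -, q3, -⟩ :=
    shell_par n3 n4 kg1 kg2 hl.le hle3 hK1 cgg hs (σ := 1) (Or.inl rfl) hX hRx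
  obtain ⟨-, -, -, q4⟩ :=
    shell_par n3 n4 kg1 kg2 hl.le hle3 hK1 cgg hs (σ := -1) (Or.inr rfl) hX hRx
  have m1 : MPar S.κ (2 * (1 - lam)) (2 * (1 - lam) / S.κ - 1) 1 :=
    mpar_lam n1 n2 hl.le hle3 (Or.inl rfl)
  have m2 : MPar S.κ (2 * (1 - lam)) (2 * (1 - lam) / S.κ - 1) (-1) :=
    mpar_lam n1 n2 hl.le hle3 (Or.inr rfl)
  have m3 : MPar S.κS (2 * (1 - lam)) (2 * (1 - lam) / S.κS - 1) 1 :=
    mpar_lam n3 n4 hl.le hle3 (Or.inl rfl)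
  have m4 : MPar S.κS (2 * (1 - lam)) (2 * (1 - lam) / S.κS - 1) (-1) :=
    mpar_lam n3 n4 hl.le hle3 (Or.inr rfl)
  obtain ⟨w1, -⟩ := shell_low m1 hX hRx
  obtain ⟨w2, -⟩ := shell_low m2 hX hRx
  obtain ⟨-, w3⟩ := shell_low m3 hX hRx
  obtain ⟨-, w4⟩ := shell_low m4 hX hRx
  have o1 := Ox_nonneg m1 hX.reg
  have o2 := Ox_nonneg m2 hX.reg
  have s1 := (Sx_pos m3 hX.reg).le
  have s2 := (Sx_pos m4 hX.reg).le
  rw [← hT, ← hCR] at w1 w2 w3 w4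
  rw [abs_of_pos h3] at sP sF
  have hu := B.ob.u_pos x h3
  have hg := B.ob.g_pos x
  have hη0 : 0 ≤ K2 * lam * CR := by positivity
  have hη1 : K2 * lam * CR ≤ 1 := by
    have D8 : 1 ≤ D ^ 8 := one_le_pow₀ (by linarith)
    have e1 := mul_le_mul hC1 D8 zero_le_one hC10.le
    have e2 : (1 : ℝ) ≤ 40 * C1 * D ^ 8 := by linarith only [e1]
    have e3 := mul_le_mul_of_nonneg_right e2 hη0
    linarith only [e3, hη]
  have hmin : min 1 (x 2) ≤ x 2 := min_le_right _ _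
  have hKl : 0 ≤ K2 * lam := by positivity
  have er : ∀ y : ℝ, x 2 ≤ CR * y → K2 * lam * min 1 (x 2) ≤ K2 * lam * CR * y := fun y hy => by
    calc K2 * lam * min 1 (x 2) ≤ K2 * lam * (CR * y) :=
          mul_le_mul_of_nonneg_left (hmin.trans hy) hKl
      _ = _ := by ring
  have er' : ∀ y : ℝ, 1 ≤ CR * y → K2 * lam ≤ K2 * lam * CR * y := fun y hy => by
    calc K2 * lam = K2 * lam * 1 := by ring
      _ ≤ K2 * lam * (CR * y) := mul_le_mul_of_nonneg_left hy hKl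
      _ = _ := by ring
  have hD1' : 1 ≤ D := by linarith
  refine ⟨ar_F_up hC1 hD1' hu.le o1 b4 q1 sF (er _ w1) hη1,
    ar_F_low hC1 hD1' hu.le o2 q2 b3 sF (er _ w2) hη, ?_,
    ar_c_up hC1 hg.le s1 b2 q3 sc (er' _ w3) hη1,
    ar_c_low hC1 hD1' hg.le s2 q4 b1 sc (er' _ w4) hη, ?_⟩
  · refine sP.trans (mul_le_mul_of_nonneg_right (mul_le_mul_of_nonneg_right
      (le_max_right _ _) hl.le) (le_min zero_le_one h3.le))
  · exact sN.trans (mul_le_mul_of_nonneg_right (le_max_right _ _) hl.le)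

end Crest.Agent.R335.BR
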