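import Crest.Agent.R335.SyCore
import Crest.Agent.R335.BSys

/-!
Row 335 (S0521), interacting side, section 3.6 (helper759): statements of the coupling bounds
(proved by helper565 in SySrcS.lean, consumed in SySys.lean).
-/

set_option autoImplicit false

open MeasureTheory Filter Set Crest.MathPhysics.ThreeBody
open scoped ENNReal Topology ContDiff

noncomputable section
namespace Crest.Agent.R335
namespace Sy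

/-- coupling bounds, singlet channel -/
def SrcS {cg C0 D : ℝ} (B : OBD cg C0 D) (K : ℝ) : Prop :=
  ∃ K' l' : ℝ, 1 ≤ K' ∧ 0 < l' ∧ ∀ lam, 0 < lam → lam ≤ l' → ∀ S : Sys B K lam,
    ∀ᵐ X : Pos3, K' < ‖X‖ →
      |WY S.Φ0 S.YS X + V2 D X * S.F X| ≤
        K' * (|S.F X| / ‖X‖ ^ 3 + S.P X / ‖X‖ ^ 2 +
          (|X 2| / ‖X‖ ^ 3 + Real.exp (-(B.a / 2) * ‖X‖)) * (|S.c X| + S.N X)) ∧
      |WY S.Φ1 S.YS X + V2 D X * S.c X + S.dip * (X 2 / ‖X‖ ^ 3) * S.F X| ≤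
        K' * (|S.c X| / ‖X‖ ^ 3 + S.N X / ‖X‖ ^ 2 +
          (|X 2| / ‖X‖ ^ 4 + Real.exp (-(B.a / 2) * ‖X‖)) * |S.F X|) +
        (16 * C0 * D * |X 2| / ‖X‖ ^ 3 + K' * Real.exp (-(B.a / 2) * ‖X‖)) * S.P X ∧
      -(K' * S.P X + K' * (|S.F X| / ‖X‖ ^ 2 +
          (|X 2| / ‖X‖ ^ 3 + Real.exp (-(B.a / 2) * ‖X‖)) * |S.c X| +
          (|X 2| / ‖X‖ ^ 2 + Real.exp (-(B.a / 2) * ‖X‖)) * S.N X +
          Real.exp (-(S.κ + B.a / 4) * ‖X‖))) * S.P X ≤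
        Tf B.a S.Φ0 S.YS (fun x => ew B.a x * cR 1 S.Φ0 S.YS x) X ∧
      -(K' * S.N X +
          ((64 * C0 * D * |X 2| / ‖X‖ ^ 3 + K' * Real.exp (-(B.a / 2) * ‖X‖)) * |S.F X| +
          K' * (|S.c X| / ‖X‖ ^ 2 +
          (|X 2| / ‖X‖ ^ 2 + Real.exp (-(B.a / 2) * ‖X‖)) * S.P X +
          Real.exp (-(S.κ + B.a / 4) * ‖X‖)))) * S.N X ≤
        Tf B.a S.Φ1 S.YS (fun x => ew B.a x * cR (-1) S.Φ1 S.YS x) X

/-- coupling bounds, triplet channels -/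
def SrcT {cg C0 D : ℝ} (B : OBD cg C0 D) (K : ℝ) : Prop :=
  ∃ K' l' : ℝ, 1 ≤ K' ∧ 0 < l' ∧ ∀ lam, 0 < lam → lam ≤ l' → ∀ S : Sys B K lam,
    ∀ Y, Y = S.YT ∨ Y = S.YB → ∀ᵐ X : Pos3, K' < ‖X‖ →
      |WY S.ΦT Y X + V2 D X * S.t Y X| ≤
        K' * (|S.t Y X| / ‖X‖ ^ 3 + S.NT Y X / ‖X‖ ^ 2 +
          (|X 2| / ‖X‖ ^ 3 + Real.exp (-(B.a / 2) * ‖X‖)) * S.PT Y X) ∧
      -(K' * S.NT Y X + K' * (|S.t Y X| / ‖X‖ ^ 2 +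
          (|X 2| / ‖X‖ ^ 2 + Real.exp (-(B.a / 2) * ‖X‖)) * S.PT Y X +
          Real.exp (-(S.κT + B.a / 4) * ‖X‖))) * S.NT Y X ≤
        Tf B.a S.ΦT Y (fun x => ew B.a x * cR (-1) S.ΦT Y x) X ∧
      -(K' * S.PT Y X + K' *
          ((|X 2| / ‖X‖ ^ 3 + Real.exp (-(B.a / 2) * ‖X‖)) * |S.t Y X| +
          (|X 2| / ‖X‖ ^ 2 + Real.exp (-(B.a / 2) * ‖X‖)) * S.NT Y X +
          Real.exp (-(S.κT + B.a / 4) * ‖X‖))) * S.PT Y X ≤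
        Tf B.a (fun _ => 0) Y (fun x => ew B.a x * cR 1 (fun _ => 0) Y x) X

end Sy
end Crest.Agent.R335
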