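import Crest.Agent.R335.BSys

/-!
Row 335 (S0521), interacting side, module VecS1 part 3 (helper892): parameters for small `λ`.
-/

set_option autoImplicit false
set_option linter.unusedSectionVars false
set_option linter.unusedVariables false

open MeasureTheory Filter Set Crest.MathPhysics.ThreeBody
open scoped ENNReal Topology ContDiff

noncomputable section
namespace Crest.Agent.R335
namespace VS

/-- numerical facts on the data for small `λ` -/
structure Prm {cg C0 D K lam : ℝ} {B : OBD cg C0 D} (S : Sys B K lam) : Prop where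
  om0 : 0 < B.om
  om1 : B.om ≤ 1 / 64
  a0 : 0 < B.a
  a1 : B.a ≤ 1 / 100
  Klam : K * lam ≤ B.om / 100
  ksq : S.κ ^ 2 = 2 * (S.e0 - S.E)
  kSsq : S.κS ^ 2 = 2 * (S.e1 - S.E)
  kTsq : S.κT ^ 2 = 2 * (S.eT - S.E)
  klow : 97 / 100 ≤ S.κ
  kup : S.κ ≤ 103 / 100
  kSlow : 97 / 100 ≤ S.κS
  kSup : S.κS ≤ 103 / 100
  kTlow : 97 / 100 ≤ S.κT
  kTup : S.κT ≤ 103 / 100
  kkS : S.κ ≤ S.κS
  kkT : S.κ ≤ S.κT
  E0 : S.E ≤ -1
  E2 : -2 ≤ S.E
  e0E : S.E ≤ S.e0
  e0T : S.e0 + 9 / 10 * B.om ≤ S.eT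
  e01 : S.e0 + 9 / 10 * B.om ≤ S.e1
  e0T' : S.eT ≤ S.e0 + 11 / 10 * B.om
  e01' : S.e1 ≤ S.e0 + 11 / 10 * B.om
  gapT : S.e0 + B.om ≤ S.eT + cg / 4

theorem sqrt_near {x : ℝ} (h1 : 98 / 100 * (98 / 100) ≤ x) (h2 : x ≤ 102 / 100 * (102 / 100)) :
    97 / 100 ≤ √x ∧ √x ≤ 103 / 100 := by
  constructor
  · exact Real.le_sqrt_of_sq_le (by linarith)
  · rw [Real.sqrt_le_left (by norm_num)]
    linarith

theorem prm_exists {cg C0 D : ℝ} (hD : 0 < D) (B : OBD cg C0 D) (K : ℝ) :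
    ∃ l' : ℝ, 0 < l' ∧ l' ≤ 1 ∧ ∀ lam, 0 < lam → lam ≤ l' → ∀ S : Sys B K lam, Prm S := by
  have hom : 0 < B.om := sub_pos.2 B.ob.eg_lt
  have hK : 0 < max K 1 := lt_of_lt_of_le one_pos (le_max_right _ _)
  refine ⟨min 1 (B.om / (100 * max K 1)), by positivity, min_le_left _ _, ?_⟩
  intro lam hl0 hl1 S
  have hKpos := S.Kpos
  have hlam : lam ≤ B.om / (100 * K) := by
    refine (hl1.trans (min_le_right _ _)).trans (le_of_eq ?_)
    rw [max_eq_left hKpos]
  have hKlam : K * lam ≤ B.om / 100 := by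
    have h1 : K * lam ≤ K * (B.om / (100 * K)) :=
      mul_le_mul_of_nonneg_left hlam (by linarith)
    have h2 : K * (B.om / (100 * K)) = B.om / 100 := by
      have : K ≠ 0 := by linarith
      field_simp
    linarith
  have hcg := B.cg1
  have homle : B.om ≤ cg / 8 := B.omle
  have hC : C0 / D ≤ 1 / 100 := by
    rw [div_le_div_iff₀ hD (by norm_num)]
    linarith [B.big]
  have h1 := abs_le.1 (B.eg_near.trans hC)
  have h2 := abs_le.1 (B.eu_near.trans hC)
  have h3 := abs_le.1 (S.e0n.trans hKlam)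
  have h4 := abs_le.1 (S.e1n.trans hKlam)
  have h5 := abs_le.1 (S.eTn.trans hKlam)
  have h6 := abs_le.1 (S.En.trans hKlam)
  have homd : B.om = B.eu - B.eg := rfl
  have hom1 : B.om ≤ 1 / 64 := by linarith
  have k0 := sqrt_near (x := 2 * (S.e0 - S.E)) (by norm_num; linarith) (by norm_num; linarith)
  have k1 := sqrt_near (x := 2 * (S.e1 - S.E)) (by norm_num; linarith) (by norm_num; linarith)
  have k2 := sqrt_near (x := 2 * (S.eT - S.E)) (by norm_num; linarith) (by norm_num; linarith)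
  refine ⟨hom, hom1, ?_, ?_, hKlam, Real.sq_sqrt (by linarith), Real.sq_sqrt (by linarith),
    Real.sq_sqrt (by linarith), k0.1, k0.2, k1.1, k1.2, k2.1, k2.2,
    Real.sqrt_le_sqrt (by linarith), Real.sqrt_le_sqrt (by linarith), by linarith, by linarith,
    by linarith, by linarith, by linarith, by linarith, by linarith, by linarith⟩
  · unfold OBD.a; positivity
  · unfold OBD.a; linarith

end VS
end Crest.Agent.R335
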