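import Crest.Agent.R335.SyRem
import Crest.Agent.R335.SyStmt
import Crest.Agent.R335.VSPrm
import Crest.Agent.R335.BChan

/-!
Row 335 (S0521), interacting side, section 3.6 (helper759): assembly of the scalar systems
`sys_S`, `sys_T` from the coupling bounds `SrcS`, `SrcT`.
-/

set_option autoImplicit false
set_option linter.unusedSectionVars false
set_option linter.unusedVariables false

open MeasureTheory Filter Set Crest.MathPhysics.ThreeBody
open scoped ENNReal Topology ContDiff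

noncomputable section
namespace Crest.Agent.R335
namespace Sy

/-! ### local integrability -/

theorem isOpen_Ext (R : ℝ) : IsOpen (Ext R) := isOpen_lt continuous_const continuous_norm

theorem li_mul {R : ℝ} {f c : Pos3 → ℝ} (hf : MemLp f 2 volume) (hc : ContinuousOn c (Ext R)) :
    LocallyIntegrableOn (fun X => c X * f X) (Ext R) volume :=
  (locInt_of_memLp hf _).continuousOn_mul hc (isOpen_Ext R).isLocallyClosed

theorem li_cont {R : ℝ} {c : Pos3 → ℝ} (hc : ContinuousOn c (Ext R)) :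
    LocallyIntegrableOn c (Ext R) volume :=
  hc.locallyIntegrableOn (isOpen_Ext R).measurableSet

theorem cont_inv {R : ℝ} (hR : 0 ≤ R) (n : ℕ) :
    ContinuousOn (fun X : Pos3 => (‖X‖ ^ n)⁻¹) (Ext R) := by
  refine ContinuousOn.inv₀ (continuous_norm.pow n).continuousOn fun X hX => ?_
  have : (0 : ℝ) < ‖X‖ := lt_of_le_of_lt hR hX
  positivity

theorem cont_z (R : ℝ) : ContinuousOn (fun X : Pos3 => |X 2|) (Ext R) := by
  have : Continuous fun X : Pos3 => |X 2| := by fun_prop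
  exact this.continuousOn

theorem cont_e (R b : ℝ) : ContinuousOn (fun X : Pos3 => Real.exp (-b * ‖X‖)) (Ext R) := by
  have : Continuous fun X : Pos3 => Real.exp (-b * ‖X‖) := by fun_prop
  exact this.continuousOn

theorem cont_ze {R : ℝ} (hR : 0 ≤ R) (n : ℕ) (b k : ℝ) :
    ContinuousOn (fun X : Pos3 => k * |X 2| / ‖X‖ ^ n + Real.exp (-b * ‖X‖)) (Ext R) := by
  have h1 := ((continuousOn_const (c := k)).mul (cont_z R)).mul (cont_inv hR n)
  refine (h1.add (cont_e R b)).congr fun X _ => ?_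
  simp only [Pi.add_apply, Pi.mul_apply, div_eq_mul_inv]

/-- `|V2| ≤ 1` -/
theorem abs_V2_le {D : ℝ} (hD : 0 ≤ D) {X : Pos3} (hX : D + 2 < ‖X‖) : |V2 D X| ≤ 1 := by
  have hn : ∀ s : ℝ, |s| = D → 1 / ‖X - nuc s‖ ≤ 1 / 2 := by
    intro s hs
    have h1 : ‖nuc s‖ = D := by
      unfold nuc
      rw [PiLp.norm_single, Real.norm_eq_abs, hs]
    have h2 := norm_sub_norm_le X (nuc s)
    rw [h1] at h2
    exact one_div_le_one_div_of_le (by norm_num) (by linarith)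
  have h1 := hn D (abs_of_nonneg hD)
  have h2 := hn (-D) (by rw [abs_neg, abs_of_nonneg hD])
  have h3 : 0 ≤ 1 / ‖X - nuc D‖ := by positivity
  have h4 : 0 ≤ 1 / ‖X - nuc (-D)‖ := by positivity
  unfold V2
  rw [abs_le]
  constructor <;> linarith

theorem ionW_zero {C0 D K a : ℝ} (hK : 0 ≤ K) : IonW C0 D K a (fun _ => 0) := by
  have h0 : H1 (fun _ : Y2 => (0 : ℝ)) (fun _ => 0) :=
    ⟨MemLp.zero', MemLp.zero', by
      refine ⟨(integrable_zero _ _ _).locallyIntegrable.locallyIntegrableOn _,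
        (integrable_zero _ _ _).locallyIntegrable.locallyIntegrableOn _, fun φ _ i => by simp⟩⟩
  refine ⟨⟨fun _ => 0, ?_, ?_⟩, ⟨?_, ?_⟩, ⟨?_, ?_⟩, ⟨?_, ?_⟩⟩
  · simpa using h0
  · simpa using hK
  · simp
  · simp
  · simp
  · simp; positivity
  · simp
  · simp; positivity

theorem cR_zero (π : ℝ) (Y : Config3 → ℝ) : cR π (fun _ => 0) Y = Yp π Y := by
  funext x; unfold cR; simp

end Sy

open Sy

/-- singlet sector -/
theorem sys_S_of {cg C0 D : ℝ} (hC : 1 ≤ C0) (hD : 4 ≤ D) (B : OBD cg C0 D) (K : ℝ)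
    (hsrc : SrcS B K) :
    ∃ K' l' : ℝ, 1 ≤ K' ∧ 0 < l' ∧ ∀ lam, 0 < lam → lam ≤ l' → ∀ S : Sys B K lam,
      (∃ d src, H1 S.F d ∧ WEq (Ext K') S.F d (mL D lam S.κ) src ∧
        ∀ᵐ X : Pos3, K' < ‖X‖ → |src X| ≤ lam * K' * (|S.F X| / ‖X‖ ^ 3 + S.P X / ‖X‖ ^ 2 +
          (|X 2| / ‖X‖ ^ 3 + Real.exp (-(B.a / 2) * ‖X‖)) * (|S.c X| + S.N X))) ∧
      (∃ d src, H1 S.c d ∧ WEq (Ext K') S.c d (mL D lam S.κS) src ∧
        ∀ᵐ X : Pos3, K' < ‖X‖ → |src X - lam * S.dip * (X 2 / ‖X‖ ^ 3) * S.F X| ≤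
          lam * K' * (|S.c X| / ‖X‖ ^ 3 + S.N X / ‖X‖ ^ 2 +
            (|X 2| / ‖X‖ ^ 4 + Real.exp (-(B.a / 2) * ‖X‖)) * |S.F X|) +
          lam * (16 * C0 * D * |X 2| / ‖X‖ ^ 3 + K' * Real.exp (-(B.a / 2) * ‖X‖)) * S.P X) ∧
      (∃ d, H1 S.P d ∧ WLe (Ext K') S.P d (fun x => mL D lam S.κ x + B.om / 8) (fun X =>
        lam * K' * (|S.F X| / ‖X‖ ^ 2 +
          (|X 2| / ‖X‖ ^ 3 + Real.exp (-(B.a / 2) * ‖X‖)) * |S.c X| +
          (|X 2| / ‖X‖ ^ 2 + Real.exp (-(B.a / 2) * ‖X‖)) * S.N X +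
          Real.exp (-(S.κ + B.a / 4) * ‖X‖)))) ∧
      (∃ d, H1 S.N d ∧ WLe (Ext K') S.N d (fun x => mL D lam S.κS x + cg / 32) (fun X =>
        lam * (64 * C0 * D * |X 2| / ‖X‖ ^ 3 + K' * Real.exp (-(B.a / 2) * ‖X‖)) * |S.F X| +
        lam * K' * (|S.c X| / ‖X‖ ^ 2 +
          (|X 2| / ‖X‖ ^ 2 + Real.exp (-(B.a / 2) * ‖X‖)) * S.P X +
          Real.exp (-(S.κ + B.a / 4) * ‖X‖)))) := by
  obtain ⟨K1, l1, hK1, hl1, hs⟩ := hsrc
  obtain ⟨l2, hl2, -, hprm⟩ := VS.prm_exists (by linarith : 0 < D) B K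
  have hom : 0 < B.om := sub_pos.2 B.ob.eg_lt
  obtain ⟨K', hK'⟩ : ∃ K', K' = K1 + D + 2 := ⟨_, rfl⟩
  have hKK : K1 ≤ K' := by linarith
  have hK'D : D + 2 ≤ K' := by linarith
  have hK'1 : 1 ≤ K' := by linarith
  refine ⟨K', min (min l1 l2) (B.om / (2 * (1 + K'))), hK'1, by positivity, ?_⟩
  intro lam hl0 hl S
  have P := hprm lam hl0 (hl.trans ((min_le_left _ _).trans (min_le_right _ _))) S
  have hsS := hs lam hl0 (hl.trans ((min_le_left _ _).trans (min_le_left _ _))) S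
  have hlK : lam * (1 + K') ≤ B.om / 2 := by
    have h1 : lam ≤ B.om / (2 * (1 + K')) := hl.trans (min_le_right _ _)
    rw [le_div_iff₀ (by positivity)] at h1
    linarith
  have ha0 := P.a0
  have ha2 : 2 * B.a ^ 2 ≤ B.om / 100 := by
    have h1 : B.a = B.om / 1000 := rfl
    have h2 := P.om1
    rw [h1]; nlinarith
  have homle : B.om ≤ cg / 8 := B.omle
  have hcg := B.cg0
  obtain ⟨dY, hY⟩ := chan_S S.tb
  have hY' : Chan D lam S.E 1 S.YS dY := hY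
  have hwY := S.isW_YS.ew ha0.le (b := B.a) (by linarith)
  have hR : ∀ X : Pos3, K' < ‖X‖ → |V2 D X| ≤ 1 := fun X hX =>
    abs_V2_le (by linarith) (lt_of_le_of_lt hK'D hX)
  have hK'0 : (0 : ℝ) ≤ K' := by linarith
  have hF := cF_H1 hY'.h1 S.ch0.h1.memf
  have hc := cF_H1 hY'.h1 S.ch1.h1.memf
  -- membership of the norms
  obtain ⟨dU0, hU0⟩ := U_H1 (π := 1) hY'.h1 S.ch0.h1.memf hwY (ionW_H1 S.w0 (by linarith))
  obtain ⟨mP, hmP⟩ := wN_H1 (Γ := cR 1 S.Φ0 S.YS)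
    (U := fun x => ew B.a x * cR 1 S.Φ0 S.YS x) (fun x => rfl) hU0
  obtain ⟨dU1, hU1⟩ := U_H1 (π := -1) hY'.h1 S.ch1.h1.memf hwY (ionW_H1 S.w1 (by linarith))
  obtain ⟨mN, hmN⟩ := wN_H1 (Γ := cR (-1) S.Φ1 S.YS)
    (U := fun x => ew B.a x * cR (-1) S.Φ1 S.YS x) (fun x => rfl) hU1
  have hP0 : ∀ X, 0 ≤ S.P X := fun X => Real.sqrt_nonneg _
  have hN0 : ∀ X, 0 ≤ S.N X := fun X => Real.sqrt_nonneg _
  have aF : MemLp (fun X => |S.F X|) 2 volume := hF.memf.norm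
  have ac : MemLp (fun X => |S.c X|) 2 volume := hc.memf.norm
  have aP : MemLp S.P 2 volume := hmP.memf
  have aN : MemLp S.N 2 volume := hmN.memf
  refine ⟨?_, ?_, ?_, ?_⟩
  · refine ⟨_, _, hF, proj_WEq hY' S.ch0.h1 S.ch0.eq P.ksq _, ?_⟩
    filter_upwards [hsS] with X hX hXK
    have h1 := (hX (lt_of_le_of_lt hKK hXK)).1
    rw [abs_mul, abs_neg, abs_of_pos hl0, mul_assoc]
    refine mul_le_mul_of_nonneg_left (h1.trans ?_) hl0.le
    have := hP0 X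
    have := hN0 X
    refine mul_le_mul_of_nonneg_right hKK ?_
    positivity
  · refine ⟨_, _, hc, proj_WEq hY' S.ch1.h1 S.ch1.eq P.kSsq _, ?_⟩
    filter_upwards [hsS] with X hX hXK
    have h1 := (hX (lt_of_le_of_lt hKK hXK)).2.1
    have := hP0 X
    have := hN0 X
    have e : -lam * (WY S.Φ1 S.YS X + V2 D X * cF S.Φ1 S.YS X) -
        lam * S.dip * (X 2 / ‖X‖ ^ 3) * S.F X =
        -lam * (WY S.Φ1 S.YS X + V2 D X * S.c X + S.dip * (X 2 / ‖X‖ ^ 3) * S.F X) := by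
      have : S.c X = cF S.Φ1 S.YS X := rfl
      rw [this]; ring
    rw [e, abs_mul, abs_neg, abs_of_pos hl0]
    have e2 : lam * K' * (|S.c X| / ‖X‖ ^ 3 + S.N X / ‖X‖ ^ 2 +
            (|X 2| / ‖X‖ ^ 4 + Real.exp (-(B.a / 2) * ‖X‖)) * |S.F X|) +
          lam * (16 * C0 * D * |X 2| / ‖X‖ ^ 3 + K' * Real.exp (-(B.a / 2) * ‖X‖)) * S.P X =
        lam * (K' * (|S.c X| / ‖X‖ ^ 3 + S.N X / ‖X‖ ^ 2 +
            (|X 2| / ‖X‖ ^ 4 + Real.exp (-(B.a / 2) * ‖X‖)) * |S.F X|) +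
          (16 * C0 * D * |X 2| / ‖X‖ ^ 3 + K' * Real.exp (-(B.a / 2) * ‖X‖)) * S.P X) := by ring
    rw [e2]
    refine mul_le_mul_of_nonneg_left (h1.trans ?_) hl0.le
    gcongr
  · obtain ⟨b, hbd⟩ : ∃ b : Pos3 → ℝ, b = fun X => K' * (|S.F X| / ‖X‖ ^ 2 +
          (|X 2| / ‖X‖ ^ 3 + Real.exp (-(B.a / 2) * ‖X‖)) * |S.c X| +
          (|X 2| / ‖X‖ ^ 2 + Real.exp (-(B.a / 2) * ‖X‖)) * S.N X +
          Real.exp (-(S.κ + B.a / 4) * ‖X‖)) := ⟨_, rfl⟩
    have hb : LocallyIntegrableOn b (Ext K') volume := by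
      have i1 := (li_mul aF (cont_inv hK'0 2)).add
        (li_mul ac (cont_ze hK'0 3 (B.a / 2) 1))
      have i2 := (i1.add (li_mul aN (cont_ze hK'0 2 (B.a / 2) 1))).add
        (li_cont (cont_e K' (S.κ + B.a / 4)))
      refine (i2.smul K').congr (Eventually.of_forall fun X => ?_)
      rw [hbd]
      simp only [Pi.smul_apply, Pi.add_apply, smul_eq_mul, div_eq_mul_inv]
      ring
    have hb0 : ∀ X, 0 ≤ b X := fun X => by
      rw [hbd]
      have := hN0 X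
      positivity
    have h := rem_WLe ha0 hl0.le S.ch0 hom.le S.w0 (Or.inl rfl) hY' hwY P.ksq hR hb hb0
      (c1 := B.om / 8) (C1 := K') (by linarith) ?_
    · obtain ⟨d, h1, h2⟩ := h
      refine ⟨d, h1, ?_⟩
      have e : (fun X => lam * b X) = fun X => lam * K' * (|S.F X| / ‖X‖ ^ 2 +
          (|X 2| / ‖X‖ ^ 3 + Real.exp (-(B.a / 2) * ‖X‖)) * |S.c X| +
          (|X 2| / ‖X‖ ^ 2 + Real.exp (-(B.a / 2) * ‖X‖)) * S.N X +
          Real.exp (-(S.κ + B.a / 4) * ‖X‖)) := by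
        funext X; rw [hbd]; ring
      rw [e] at h2
      exact h2
    · filter_upwards [hsS] with X hX hXK
      have h1 := (hX (lt_of_le_of_lt hKK hXK)).2.2.1
      refine le_trans ?_ h1
      have := hP0 X
      have := hN0 X
      have e : wN B.a (cR 1 S.Φ0 S.YS) X = S.P X := rfl
      rw [e, hbd]
      refine mul_le_mul_of_nonneg_right (neg_le_neg ?_) (hP0 X)
      beta_reduce
      gcongr
  · obtain ⟨b, hbd⟩ : ∃ b : Pos3 → ℝ, b = fun X =>
        ((64 * C0 * D * |X 2| / ‖X‖ ^ 3 + K' * Real.exp (-(B.a / 2) * ‖X‖)) * |S.F X| +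
          K' * (|S.c X| / ‖X‖ ^ 2 +
          (|X 2| / ‖X‖ ^ 2 + Real.exp (-(B.a / 2) * ‖X‖)) * S.P X +
          Real.exp (-(S.κ + B.a / 4) * ‖X‖))) := ⟨_, rfl⟩
    have hb : LocallyIntegrableOn b (Ext K') volume := by
      have hz : ContinuousOn (fun X : Pos3 => 64 * C0 * D * |X 2| / ‖X‖ ^ 3 +
          K' * Real.exp (-(B.a / 2) * ‖X‖)) (Ext K') := by
        have h1 := ((continuousOn_const (c := 64 * C0 * D)).mul (cont_z K')).mul
          (cont_inv hK'0 3)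
        refine (h1.add ((continuousOn_const (c := K')).mul (cont_e K' (B.a / 2)))).congr
          fun X _ => ?_
        simp only [Pi.add_apply, Pi.mul_apply, div_eq_mul_inv]
      have i1 := (li_mul ac (cont_inv hK'0 2)).add
        (li_mul aP (cont_ze hK'0 2 (B.a / 2) 1))
      have i2 := i1.add (li_cont (cont_e K' (S.κ + B.a / 4)))
      refine ((li_mul aF hz).add (i2.smul K')).congr (Eventually.of_forall fun X => ?_)
      rw [hbd]
      simp only [Pi.smul_apply, Pi.add_apply, smul_eq_mul, div_eq_mul_inv]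
      ring
    have hb0 : ∀ X, 0 ≤ b X := fun X => by
      rw [hbd]
      have := hP0 X
      positivity
    have h := rem_WLe ha0 hl0.le S.ch1 (by positivity) S.w1 (Or.inr rfl) hY' hwY P.kSsq hR hb hb0
      (c1 := cg / 32) (C1 := K') (by linarith) ?_
    · obtain ⟨d, h1, h2⟩ := h
      refine ⟨d, h1, ?_⟩
      have e : (fun X => lam * b X) = fun X =>
        lam * (64 * C0 * D * |X 2| / ‖X‖ ^ 3 + K' * Real.exp (-(B.a / 2) * ‖X‖)) * |S.F X| +
        lam * K' * (|S.c X| / ‖X‖ ^ 2 +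
          (|X 2| / ‖X‖ ^ 2 + Real.exp (-(B.a / 2) * ‖X‖)) * S.P X +
          Real.exp (-(S.κ + B.a / 4) * ‖X‖)) := by
        funext X; rw [hbd]; ring
      rw [e] at h2
      exact h2
    · filter_upwards [hsS] with X hX hXK
      have h1 := (hX (lt_of_le_of_lt hKK hXK)).2.2.2
      refine le_trans ?_ h1
      have := hP0 X
      have := hN0 X
      have e : wN B.a (cR (-1) S.Φ1 S.YS) X = S.N X := rfl
      rw [e, hbd]
      refine mul_le_mul_of_nonneg_right (neg_le_neg ?_) (hN0 X)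
      beta_reduce
      gcongr

/-- triplet sector -/
theorem sys_T_of {cg C0 D : ℝ} (hC : 1 ≤ C0) (hD : 4 ≤ D) (B : OBD cg C0 D) (K : ℝ)
    (hsrc : SrcT B K) :
    ∃ K' l' : ℝ, 1 ≤ K' ∧ 0 < l' ∧ ∀ lam, 0 < lam → lam ≤ l' → ∀ S : Sys B K lam,
      ∀ Y, Y = S.YT ∨ Y = S.YB →
      (∃ d src, H1 (S.t Y) d ∧ WEq (Ext K') (S.t Y) d (mL D lam S.κT) src ∧
        ∀ᵐ X : Pos3, K' < ‖X‖ → |src X| ≤ lam * K' * (|S.t Y X| / ‖X‖ ^ 3 + S.NT Y X / ‖X‖ ^ 2 +
          (|X 2| / ‖X‖ ^ 3 + Real.exp (-(B.a / 2) * ‖X‖)) * S.PT Y X)) ∧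
      (∃ d, H1 (S.NT Y) d ∧
        WLe (Ext K') (S.NT Y) d (fun x => mL D lam S.κT x + cg / 32) (fun X =>
          lam * K' * (|S.t Y X| / ‖X‖ ^ 2 +
          (|X 2| / ‖X‖ ^ 2 + Real.exp (-(B.a / 2) * ‖X‖)) * S.PT Y X +
          Real.exp (-(S.κT + B.a / 4) * ‖X‖)))) ∧
      (∃ d, H1 (S.PT Y) d ∧
        WLe (Ext K') (S.PT Y) d (fun x => mL D lam S.κT x + cg / 32) (fun X => lam * K' *
          ((|X 2| / ‖X‖ ^ 3 + Real.exp (-(B.a / 2) * ‖X‖)) * |S.t Y X| +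
          (|X 2| / ‖X‖ ^ 2 + Real.exp (-(B.a / 2) * ‖X‖)) * S.NT Y X +
          Real.exp (-(S.κT + B.a / 4) * ‖X‖)))) := by
  obtain ⟨K1, l1, hK1, hl1, hs⟩ := hsrc
  obtain ⟨l2, hl2, -, hprm⟩ := VS.prm_exists (by linarith : 0 < D) B K
  have hom : 0 < B.om := sub_pos.2 B.ob.eg_lt
  obtain ⟨K', hK'⟩ : ∃ K', K' = K1 + D + 2 := ⟨_, rfl⟩
  have hKK : K1 ≤ K' := by linarith
  have hK'D : D + 2 ≤ K' := by linarith
  have hK'1 : 1 ≤ K' := by linarith
  refine ⟨K', min (min l1 l2) (B.om / (2 * (1 + K'))), hK'1, by positivity, ?_⟩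
  intro lam hl0 hl S Y hYc
  have P := hprm lam hl0 (hl.trans ((min_le_left _ _).trans (min_le_right _ _))) S
  have hsS := hs lam hl0 (hl.trans ((min_le_left _ _).trans (min_le_left _ _))) S Y hYc
  have hlK : lam * (1 + K') ≤ B.om / 2 := by
    have h1 : lam ≤ B.om / (2 * (1 + K')) := hl.trans (min_le_right _ _)
    rw [le_div_iff₀ (by positivity)] at h1
    linarith
  have ha0 := P.a0
  have ha2 : 2 * B.a ^ 2 ≤ B.om / 100 := by
    have h1 : B.a = B.om / 1000 := rfl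
    have h2 := P.om1
    rw [h1]; nlinarith
  have homle : B.om ≤ cg / 8 := B.omle
  have hcg := B.cg0
  obtain ⟨dY, hY⟩ : ∃ dY, Chan D lam S.E (-1) Y dY := by
    rcases hYc with rfl | rfl
    · exact chan_T S.tb
    · exact chan_B S.tb
  have hwY : ∃ d, H1 (fun x => ew B.a x * Y x) d := by
    rcases hYc with rfl | rfl
    · exact S.isW_YT.ew ha0.le (b := B.a) (by linarith)
    · exact S.isW_YB.ew ha0.le (b := B.a) (by linarith)
  have hR : ∀ X : Pos3, K' < ‖X‖ → |V2 D X| ≤ 1 := fun X hX =>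
    abs_V2_le (by linarith) (lt_of_le_of_lt hK'D hX)
  have hK'0 : (0 : ℝ) ≤ K' := by linarith
  have ht := cF_H1 hY.h1 S.chT.h1.memf
  obtain ⟨dU0, hU0⟩ := U_H1 (π := -1) hY.h1 S.chT.h1.memf hwY (ionW_H1 S.wT (by linarith))
  obtain ⟨mN, hmN⟩ := wN_H1 (Γ := cR (-1) S.ΦT Y)
    (U := fun x => ew B.a x * cR (-1) S.ΦT Y x) (fun x => rfl) hU0
  have hWz : IonW C0 D K B.a (fun _ => 0) := ionW_zero (by linarith [S.Kpos])
  obtain ⟨dU1, hU1⟩ := U_H1 (π := 1) hY.h1 S.chZ.h1.memf hwY (ionW_H1 hWz (by linarith))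
  obtain ⟨mP, hmP⟩ := wN_H1 (Γ := cR 1 (fun _ => 0) Y)
    (U := fun x => ew B.a x * cR 1 (fun _ => 0) Y x) (fun x => rfl) hU1
  have ePT : wN B.a (cR 1 (fun _ => 0) Y) = S.PT Y := by
    rw [cR_zero]; rfl
  rw [ePT] at hmP
  have hP0 : ∀ X, 0 ≤ S.PT Y X := fun X => Real.sqrt_nonneg _
  have hN0 : ∀ X, 0 ≤ S.NT Y X := fun X => Real.sqrt_nonneg _
  have at' : MemLp (fun X => |S.t Y X|) 2 volume := ht.memf.norm
  have aP : MemLp (S.PT Y) 2 volume := hmP.memf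
  have aN : MemLp (S.NT Y) 2 volume := hmN.memf
  have hexp : (-(S.κT + B.a / 4)) = -(S.κT + B.a / 4) := rfl
  refine ⟨?_, ?_, ?_⟩
  · refine ⟨_, _, ht, proj_WEq hY S.chT.h1 S.chT.eq P.kTsq _, ?_⟩
    filter_upwards [hsS] with X hX hXK
    have h1 := (hX (lt_of_le_of_lt hKK hXK)).1
    rw [abs_mul, abs_neg, abs_of_pos hl0, mul_assoc]
    refine mul_le_mul_of_nonneg_left (h1.trans ?_) hl0.le
    have := hP0 X
    have := hN0 X
    refine mul_le_mul_of_nonneg_right hKK ?_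
    positivity
  · obtain ⟨b, hbd⟩ : ∃ b : Pos3 → ℝ, b = fun X => K' * (|S.t Y X| / ‖X‖ ^ 2 +
          (|X 2| / ‖X‖ ^ 2 + Real.exp (-(B.a / 2) * ‖X‖)) * S.PT Y X +
          Real.exp (-(S.κT + B.a / 4) * ‖X‖)) := ⟨_, rfl⟩
    have hb : LocallyIntegrableOn b (Ext K') volume := by
      have i1 := (li_mul at' (cont_inv hK'0 2)).add
        (li_mul aP (cont_ze hK'0 2 (B.a / 2) 1))
      have i2 := i1.add (li_cont (cont_e K' (S.κT + B.a / 4)))
      refine (i2.smul K').congr (Eventually.of_forall fun X => ?_)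
      rw [hbd]
      simp only [Pi.smul_apply, Pi.add_apply, smul_eq_mul, div_eq_mul_inv]
      ring
    have hb0 : ∀ X, 0 ≤ b X := fun X => by
      rw [hbd]
      have := hP0 X
      positivity
    have h := rem_WLe ha0 hl0.le S.chT (by positivity) S.wT (Or.inr rfl) hY hwY P.kTsq hR hb hb0
      (c1 := cg / 32) (C1 := K') (by linarith) ?_
    · obtain ⟨d, h1, h2⟩ := h
      refine ⟨d, h1, ?_⟩
      have e : (fun X => lam * b X) = fun X => lam * K' * (|S.t Y X| / ‖X‖ ^ 2 +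
          (|X 2| / ‖X‖ ^ 2 + Real.exp (-(B.a / 2) * ‖X‖)) * S.PT Y X +
          Real.exp (-(S.κT + B.a / 4) * ‖X‖)) := by
        funext X; rw [hbd]; ring
      rw [e] at h2
      exact h2
    · filter_upwards [hsS] with X hX hXK
      have h1 := (hX (lt_of_le_of_lt hKK hXK)).2.1
      refine le_trans ?_ h1
      have := hP0 X
      have := hN0 X
      have e : wN B.a (cR (-1) S.ΦT Y) X = S.NT Y X := rfl
      rw [e, hbd]
      refine mul_le_mul_of_nonneg_right (neg_le_neg ?_) (hN0 X)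
      beta_reduce
      gcongr
  · obtain ⟨b, hbd⟩ : ∃ b : Pos3 → ℝ, b = fun X => K' *
          ((|X 2| / ‖X‖ ^ 3 + Real.exp (-(B.a / 2) * ‖X‖)) * |S.t Y X| +
          (|X 2| / ‖X‖ ^ 2 + Real.exp (-(B.a / 2) * ‖X‖)) * S.NT Y X +
          Real.exp (-(S.κT + B.a / 4) * ‖X‖)) := ⟨_, rfl⟩
    have hb : LocallyIntegrableOn b (Ext K') volume := by
      have i1 := (li_mul at' (cont_ze hK'0 3 (B.a / 2) 1)).add
        (li_mul aN (cont_ze hK'0 2 (B.a / 2) 1))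
      have i2 := i1.add (li_cont (cont_e K' (S.κT + B.a / 4)))
      refine (i2.smul K').congr (Eventually.of_forall fun X => ?_)
      rw [hbd]
      simp only [Pi.smul_apply, Pi.add_apply, smul_eq_mul, div_eq_mul_inv]
      ring
    have hb0 : ∀ X, 0 ≤ b X := fun X => by
      rw [hbd]
      have := hN0 X
      positivity
    have h := rem_WLe ha0 hl0.le S.chZ (by positivity) hWz (Or.inl rfl) hY hwY P.kTsq hR hb hb0
      (c1 := cg / 32) (C1 := K') (by linarith) ?_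
    · obtain ⟨d, h1, h2⟩ := h
      rw [ePT] at h1 h2
      refine ⟨d, h1, ?_⟩
      have e : (fun X => lam * b X) = fun X => lam * K' *
          ((|X 2| / ‖X‖ ^ 3 + Real.exp (-(B.a / 2) * ‖X‖)) * |S.t Y X| +
          (|X 2| / ‖X‖ ^ 2 + Real.exp (-(B.a / 2) * ‖X‖)) * S.NT Y X +
          Real.exp (-(S.κT + B.a / 4) * ‖X‖)) := by
        funext X; rw [hbd]; ring
      rw [e] at h2
      exact h2
    · filter_upwards [hsS] with X hX hXK
      have h1 := (hX (lt_of_le_of_lt hKK hXK)).2.2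
      refine le_trans ?_ h1
      have := hP0 X
      have := hN0 X
      rw [ePT, hbd]
      refine mul_le_mul_of_nonneg_right (neg_le_neg ?_) (hP0 X)
      beta_reduce
      gcongr

end Crest.Agent.R335
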