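import Crest.Agent.R335.SySrcG
import Crest.Agent.R335.SySys
import Crest.Agent.R335.BDecay
import Crest.Agent.R335.BFar
import Crest.Agent.R335.MultD

/-!
Row 335 (S0521), interacting side, section 3.6 (helper759): the coupling bounds `SrcS`, `SrcT` and
the scalar systems `sys_S`, `sys_T`.
-/

set_option autoImplicit false
set_option linter.unusedSectionVars false
set_option linter.unusedVariables false

open MeasureTheory Filter Set Crest.MathPhysics.ThreeBody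
open scoped ENNReal Topology ContDiff

noncomputable section
namespace Crest.Agent.R335
namespace Sy

theorem nuc_neg (D : ℝ) : nuc (-D) = -nuc D := by
  unfold nuc
  ext c
  simp only [PiLp.neg_apply]
  fin_cases c <;> simp

theorem V2_near {D : ℝ} (hD : 0 ≤ D) {X : Pos3} (h0 : 0 < ‖X‖) (hX : 2 * D ≤ ‖X‖) :
    |V2 D X + 2 / ‖X‖| ≤ 12 * D ^ 2 / ‖X‖ ^ 3 := by
  have hn : ‖nuc D‖ = D := by
    unfold nuc
    rw [PiLp.norm_single, Real.norm_eq_abs, abs_of_nonneg hD]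
  have hn' : ‖nuc (-D)‖ = D := by rw [nuc_neg, norm_neg, hn]
  have h1 := Mult.inv4 (X := X) (y := nuc D) rfl h0 (by rw [hn]; linarith)
  have h2 := Mult.inv4 (X := X) (y := nuc (-D)) rfl h0 (by rw [hn']; linarith)
  rw [hn] at h1
  rw [hn', nuc_neg, inner_neg_right] at h2
  rw [← nuc_neg] at h2
  have a1 := abs_le.1 h1
  have a2 := abs_le.1 h2
  have e1 : 2 / ‖X‖ = 1 / ‖X‖ + 1 / ‖X‖ := by ring
  have e2 : 12 * D ^ 2 / ‖X‖ ^ 3 = 6 * D ^ 2 / ‖X‖ ^ 3 + 6 * D ^ 2 / ‖X‖ ^ 3 := by ring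
  unfold V2
  rw [e1, e2]
  have e3 : -inner ℝ X (nuc D) / ‖X‖ ^ 3 = -(inner ℝ X (nuc D) / ‖X‖ ^ 3) := by ring
  rw [e3] at a2
  rw [abs_le]
  constructor
  · linarith [a1.2, a2.2]
  · linarith [a1.1, a2.1]

theorem ew2_H1 {a : ℝ} (ha : 0 ≤ a) {Y : Config3 → ℝ} (h : VecF.IsW a Y) :
    ∃ d, H1 (fun x => Real.exp (2 * a * (jb (elPos 1 x) + jb (elPos 2 x))) * Y x) d := by
  obtain ⟨d, hd⟩ := h.ew ha (b := 2 * a) (by linarith)
  refine ⟨d, ?_⟩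
  have e : (fun x => Real.exp (2 * a * (jb (elPos 1 x) + jb (elPos 2 x))) * Y x) =
      fun x => ew (2 * a) x * Y x := by
    funext x
    unfold ew
    rw [VecF.w9_eq]
  rw [e]; exact hd

/-- diagonal term -/
theorem diag_V2 {D Kd F w r : ℝ} {X : Pos3} (hD : 0 ≤ D) (hr : ‖X‖ = r) (h0 : 0 < r)
    (hX : 2 * D ≤ r) (hw : |w - 2 / r| ≤ Kd / r ^ 3) :
    |F * w + V2 D X * F| ≤ (Kd + 12 * D ^ 2) * (|F| / r ^ 3) := by
  subst hr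
  have h1 := V2_near hD h0 hX
  have h2 : |w + V2 D X| ≤ Kd / ‖X‖ ^ 3 + 12 * D ^ 2 / ‖X‖ ^ 3 := by
    have e : w + V2 D X = (w - 2 / ‖X‖) + (V2 D X + 2 / ‖X‖) := by ring
    rw [e]
    exact (abs_add_le _ _).trans (add_le_add hw h1)
  have e : F * w + V2 D X * F = F * (w + V2 D X) := by ring
  rw [e, abs_mul]
  calc |F| * |w + V2 D X| ≤ |F| * (Kd / ‖X‖ ^ 3 + 12 * D ^ 2 / ‖X‖ ^ 3) :=
        mul_le_mul_of_nonneg_left h2 (abs_nonneg _)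
    _ = _ := by ring

theorem cF_zero (Y : Config3 → ℝ) (X : Pos3) : cF (fun _ => 0) Y X = 0 := by
  unfold cF; simp

theorem a_le {cg C0 D : ℝ} (B : OBD cg C0 D) : 0 < B.a ∧ B.a ≤ 1 / 100 := by
  have hom : 0 < B.om := sub_pos.2 B.ob.eg_lt
  have h1 : B.om ≤ cg / 8 := B.omle
  have h2 := B.cg1
  constructor
  · unfold OBD.a; positivity
  · unfold OBD.a; linarith

/-- far bounds with rate `k + a/4` -/
theorem far_mono {a k Kf : ℝ} (ha : 0 < a) (hKf : 0 < Kf) (X : Pos3) :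
    Kf * Real.exp (-(k + 5 * a / 16) * ‖X‖) ≤ Kf * Real.exp (-(k + a / 4) * ‖X‖) := by
  refine mul_le_mul_of_nonneg_left (Real.exp_le_exp.2 ?_) hKf.le
  have := norm_nonneg X
  nlinarith

/-- triplet channels -/
theorem src_T {cg C0 D : ℝ} (hC : 1 ≤ C0) (hD : 4 ≤ D) (B : OBD cg C0 D) (K : ℝ) :
    SrcT B K := by
  obtain ⟨ha0, ha1⟩ := a_le B
  have hD1 : 1 ≤ D := by linarith
  obtain ⟨l0, hl0, hl01, hprm⟩ := VS.prm_exists (by linarith : 0 < D) B K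
  obtain ⟨K2, l2, hK2, hl2, hdec⟩ := decay_T hD1 B K
  obtain ⟨Kf, hKf, hfc⟩ := far_coupling (K := K2) hD1 ha0 ha1
  obtain ⟨K1, hK1, hpb⟩ := VS.pbw_exists (K := K) hC hD1 ha0 ha1
  obtain ⟨Kd, hKd, hdg⟩ := multipole_diag (K := K) hC hD1 ha0 ha1
  obtain ⟨K', hK'⟩ : ∃ K', K' = 13 + 6 * K1 + Kd + 12 * D ^ 2 + 48 * (C0 * D) + 3 * Kf + 2 * D :=
    ⟨_, rfl⟩
  have hCD : 0 ≤ C0 * D := by positivity
  have hDD : 0 ≤ D ^ 2 := sq_nonneg D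
  refine ⟨K', min l0 l2, by linarith, by positivity, ?_⟩
  intro lam hlam0 hlam S Y hYc
  have P := hprm lam hlam0 (hlam.trans (min_le_left _ _)) S
  have hdY := hdec lam hlam0 (hlam.trans (min_le_right _ _)) S Y hYc
  obtain ⟨dY, hY⟩ : ∃ dY, Chan D lam S.E (-1) Y dY := by
    rcases hYc with rfl | rfl
    · exact chan_T S.tb
    · exact chan_B S.tb
  have hisW : VecF.IsW B.a Y := by
    rcases hYc with rfl | rfl
    · exact S.isW_YT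
    · exact S.isW_YB
  have hwY := hisW.ew ha0.le (b := B.a) (by linarith)
  have hw2 := ew2_H1 ha0.le hisW
  have hlam1 : lam ≤ 1 := (hlam.trans (min_le_left _ _)).trans hl01
  have hfar := hfc lam S.E (-1) S.κT Y dY hlam0.le hlam1 P.E2 (by linarith [P.E0])
    (by linarith [P.kTlow]) (by linarith [P.kTup]) hY hw2 hdY
  have hfar' : ∀ᵐ X : Pos3, Kf ≤ ‖X‖ →
        √(∫ ξ in {ξ | ‖X‖ / 2 < wi ξ}, (Real.exp (B.a * wi ξ) * WX X ξ * Y (jn p9 X ξ)) ^ 2) ≤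
            Kf * Real.exp (-(S.κT + B.a / 4) * ‖X‖) ∧
        √(∫ ξ in {ξ | ‖X‖ / 2 < wi ξ},
            (Real.exp (B.a * wi ξ) * WX (rz X) ξ * Y (jn p9 X ξ)) ^ 2) ≤
            Kf * Real.exp (-(S.κT + B.a / 4) * ‖X‖) := by
    filter_upwards [hfar] with X hX h1
    exact ⟨(hX h1).1.trans (far_mono ha0 hKf X), (hX h1).2.trans (far_mono ha0 hKf X)⟩
  have hWz : IonW C0 D K B.a (fun _ => 0) := ionW_zero (by linarith [S.Kpos])
  have g1 := src_gen (π := -1) ha0 (Or.inr rfl) hY hwY hw2 (Φ := S.ΦT) (Φ' := fun _ => 0)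
    S.chT.h1.memf S.chZ.h1.memf S.wT hWz (hpb _ S.wT) (hpb _ hWz) S.chT.par
    (fun ξ => by simp) (Or.inl S.nT) hfar'
  have g2 := src_gen (π := 1) ha0 (Or.inl rfl) hY hwY hw2 (Φ := fun _ => 0) (Φ' := S.ΦT)
    S.chZ.h1.memf S.chT.h1.memf hWz S.wT (hpb _ hWz) (hpb _ S.wT) (fun ξ => by simp)
    S.chT.par (Or.inr fun _ => rfl) hfar'
  filter_upwards [g1, g2] with X h1 h2 hX
  have r1 : 1 ≤ ‖X‖ := by linarith
  have r0 : 0 < ‖X‖ := by linarith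
  have rf : Kf ≤ ‖X‖ := by linarith
  have rD : 2 * D ≤ ‖X‖ := by linarith
  obtain ⟨h1a, h1b⟩ := h1 r1 rf
  obtain ⟨-, h2b⟩ := h2 r1 rf
  have hNT : wN B.a (cR (-1) S.ΦT Y) X = S.NT Y X := rfl
  have hPT : wN B.a (cR 1 (fun _ => 0) Y) X = S.PT Y X := by rw [cR_zero]; rfl
  have ht : cF S.ΦT Y X = S.t Y X := rfl
  rw [neg_neg, hNT, hPT, ht, cF_zero] at h1a h1b
  rw [hPT, hNT, ht, cF_zero] at h2b
  have hw := hdg S.ΦT S.wT S.sqT X r1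
  rw [S.nT, mul_one] at hw
  have hP0 : 0 ≤ S.PT Y X := Real.sqrt_nonneg _
  have hN0 : 0 ≤ S.NT Y X := Real.sqrt_nonneg _
  obtain ⟨r, hr⟩ : ∃ r, r = ‖X‖ := ⟨_, rfl⟩
  have hdv := diag_V2 (F := S.t Y X) (by linarith : 0 ≤ D) hr.symm (by rw [hr]; exact r0)
    (by rw [hr]; exact rD) (by rw [hr]; exact hw)
  rw [hr] at hdv
  have hE1 := (Real.exp_pos (-(B.a / 2) * ‖X‖)).le
  have hE2 := (Real.exp_pos (-(S.κT + B.a / 4) * ‖X‖)).le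
  obtain ⟨E1, hE1d⟩ : ∃ E, E = Real.exp (-(B.a / 2) * ‖X‖) := ⟨_, rfl⟩
  obtain ⟨E2, hE2d⟩ : ∃ E, E = Real.exp (-(S.κT + B.a / 4) * ‖X‖) := ⟨_, rfl⟩
  rw [← hE1d] at h1a h1b h2b hE1 ⊢
  rw [← hE2d] at h1b h2b hE2 ⊢
  have i2 : K1 / ‖X‖ ^ 2 ≤ K1 := div_le_self hK1.le (one_le_pow₀ r1)
  obtain ⟨z3, hz3⟩ : ∃ z3, z3 = |X 2| / ‖X‖ ^ 3 := ⟨_, rfl⟩
  obtain ⟨z2, hz2⟩ : ∃ z2, z2 = |X 2| / ‖X‖ ^ 2 := ⟨_, rfl⟩
  obtain ⟨q2, hq2⟩ : ∃ q2, q2 = 1 / ‖X‖ ^ 2 := ⟨_, rfl⟩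
  have z30 : 0 ≤ z3 := by rw [hz3]; positivity
  have z20 : 0 ≤ z2 := by rw [hz2]; positivity
  have q20 : 0 ≤ q2 := by rw [hq2]; positivity
  have q21 : q2 ≤ 1 := by
    rw [hq2, div_le_one (by positivity)]; exact one_le_pow₀ r1
  have c1 : 16 * C0 * D * |X 2| / ‖X‖ ^ 3 = 16 * C0 * D * z3 := by rw [hz3]; ring
  have c2 : 4 * |X 2| / ‖X‖ ^ 2 = 4 * z2 := by rw [hz2]; ring
  have c3 : K1 / ‖X‖ ^ 2 = K1 * q2 := by rw [hq2]; ring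
  rw [c1, c3] at h1a
  rw [c1, c2, c3] at h1b h2b
  obtain ⟨T, hT⟩ : ∃ T, T = |S.t Y X| := ⟨_, rfl⟩
  have hT0 : 0 ≤ T := hT ▸ abs_nonneg _
  refine ⟨?_, ?_, ?_⟩
  · have e : WY S.ΦT Y X + V2 D X * S.t Y X =
        (WY S.ΦT Y X - S.t Y X * (∫ ξ, WX X ξ * S.ΦT ξ ^ 2) -
          0 * (∫ ξ, (0 : ℝ) * Wm X ξ * S.ΦT ξ)) +
        (S.t Y X * (∫ ξ, WX X ξ * S.ΦT ξ ^ 2) + V2 D X * S.t Y X) := by ring
    rw [e]
    refine (abs_add_le _ _).trans ((add_le_add h1a hdv).trans ?_)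
    have e1 : S.NT Y X / ‖X‖ ^ 2 = q2 * S.NT Y X := by rw [hq2]; ring
    rw [← hz3, e1, ← hT]
    have m1 : 0 ≤ T / ‖X‖ ^ 3 := by positivity
    have m2 : 0 ≤ q2 * S.NT Y X := by positivity
    have m3 : 0 ≤ z3 * S.PT Y X := by positivity
    have m4 : 0 ≤ E1 * S.PT Y X := by positivity
    have k1 : Kd + 12 * D ^ 2 ≤ K' := by linarith
    have k2 : K1 ≤ K' := by linarith
    have k3 : 16 * (C0 * D) ≤ K' := by linarith
    linarith [mul_le_mul_of_nonneg_right k1 m1, mul_le_mul_of_nonneg_right k2 m2,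
      mul_le_mul_of_nonneg_right k3 m3, mul_le_mul_of_nonneg_right k2 m4]
  · refine le_trans ?_ h1b
    refine mul_le_mul_of_nonneg_right (neg_le_neg ?_) hN0
    have e1 : |S.t Y X| / ‖X‖ ^ 2 = q2 * T := by rw [hq2, hT]; ring
    rw [e1, ← hz2, ← hT, abs_zero]
    have m1 : 0 ≤ q2 * T := by positivity
    have m3 : 0 ≤ z2 * S.PT Y X := by positivity
    have m4 : 0 ≤ E1 * S.PT Y X := by positivity
    have k1 : 2 * K1 ≤ K' := by linarith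
    have k2 : 3 * K1 ≤ K' := by linarith
    have k3 : 12 ≤ K' := by linarith
    have k4 : 3 * Kf ≤ K' := by linarith
    have k5 : 0 ≤ K' := by linarith
    have j1 : 2 * (K1 * q2) * S.NT Y X ≤ K' * S.NT Y X := by
      refine mul_le_mul_of_nonneg_right ?_ hN0
      linarith [mul_le_mul_of_nonneg_left q21 hK1.le]
    linarith [mul_le_mul_of_nonneg_right k2 m1, mul_le_mul_of_nonneg_right k3 m3,
      mul_nonneg k5 m4, mul_le_mul_of_nonneg_right k4 hE2]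
  · refine le_trans ?_ h2b
    refine mul_le_mul_of_nonneg_right (neg_le_neg ?_) hP0
    rw [← hz3, ← hz2, ← hT, abs_zero]
    have m1 : 0 ≤ z3 * T := by positivity
    have m2 : 0 ≤ E1 * T := by positivity
    have m3 : 0 ≤ z2 * S.NT Y X := by positivity
    have m4 : 0 ≤ E1 * S.NT Y X := by positivity
    have k1 : 48 * (C0 * D) ≤ K' := by linarith
    have k2 : 6 * K1 ≤ K' := by linarith
    have k3 : 12 ≤ K' := by linarith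
    have k4 : 3 * Kf ≤ K' := by linarith
    have k5 : 0 ≤ K' := by linarith
    have j1 : 2 * (K1 * q2) * S.PT Y X ≤ K' * S.PT Y X := by
      refine mul_le_mul_of_nonneg_right ?_ hP0
      linarith [mul_le_mul_of_nonneg_left q21 hK1.le]
    linarith [mul_le_mul_of_nonneg_right k1 m1, mul_le_mul_of_nonneg_right k2 m2,
      mul_le_mul_of_nonneg_right k3 m3, mul_nonneg k5 m4, mul_le_mul_of_nonneg_right k4 hE2]

/-- singlet channel -/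
theorem src_S {cg C0 D : ℝ} (hC : 1 ≤ C0) (hD : 4 ≤ D) (B : OBD cg C0 D) (K : ℝ) :
    SrcS B K := by
  obtain ⟨ha0, ha1⟩ := a_le B
  have hD1 : 1 ≤ D := by linarith
  obtain ⟨l0, hl0, hl01, hprm⟩ := VS.prm_exists (by linarith : 0 < D) B K
  obtain ⟨K2, l2, hK2, hl2, hdec⟩ := decay_S hD1 B K
  obtain ⟨Kf, hKf, hfc⟩ := far_coupling (K := K2) hD1 ha0 ha1
  obtain ⟨K1, hK1, hpb⟩ := VS.pbw_exists (K := K) hC hD1 ha0 ha1
  obtain ⟨Kd, hKd, hdg⟩ := multipole_diag (K := K) hC hD1 ha0 ha1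
  obtain ⟨Km, hKm, hmp⟩ := multipole (K := K) hC hD1 ha0 ha1
  obtain ⟨K', hK'⟩ : ∃ K', K' = 13 + 6 * K1 + Kd + 12 * D ^ 2 + 48 * (C0 * D) + 3 * Kf +
      6 * D + Km := ⟨_, rfl⟩
  have hCD : 0 ≤ C0 * D := by positivity
  have hDD : 0 ≤ D ^ 2 := sq_nonneg D
  refine ⟨K', min l0 l2, by linarith, by positivity, ?_⟩
  intro lam hlam0 hlam S
  have P := hprm lam hlam0 (hlam.trans (min_le_left _ _)) S
  have hdY := hdec lam hlam0 (hlam.trans (min_le_right _ _)) S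
  obtain ⟨dY, hY0⟩ := chan_S S.tb
  have hY : Chan D lam S.E 1 S.YS dY := hY0
  have hisW : VecF.IsW B.a S.YS := S.isW_YS
  have hwY := hisW.ew ha0.le (b := B.a) (by linarith)
  have hw2 := ew2_H1 ha0.le hisW
  have hlam1 : lam ≤ 1 := (hlam.trans (min_le_left _ _)).trans hl01
  have hfar := hfc lam S.E 1 S.κ S.YS dY hlam0.le hlam1 P.E2 (by linarith [P.E0])
    (by linarith [P.klow]) (by linarith [P.kup]) hY hw2 hdY
  have hfar' : ∀ᵐ X : Pos3, Kf ≤ ‖X‖ →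
        √(∫ ξ in {ξ | ‖X‖ / 2 < wi ξ}, (Real.exp (B.a * wi ξ) * WX X ξ * S.YS (jn p9 X ξ)) ^ 2) ≤
            Kf * Real.exp (-(S.κ + B.a / 4) * ‖X‖) ∧
        √(∫ ξ in {ξ | ‖X‖ / 2 < wi ξ},
            (Real.exp (B.a * wi ξ) * WX (rz X) ξ * S.YS (jn p9 X ξ)) ^ 2) ≤
            Kf * Real.exp (-(S.κ + B.a / 4) * ‖X‖) := by
    filter_upwards [hfar] with X hX h1
    exact ⟨(hX h1).1.trans (far_mono ha0 hKf X), (hX h1).2.trans (far_mono ha0 hKf X)⟩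
  have g1 := src_gen (π := 1) ha0 (Or.inl rfl) hY hwY hw2 (Φ := S.Φ0) (Φ' := S.Φ1)
    S.ch0.h1.memf S.ch1.h1.memf S.w0 S.w1 (hpb _ S.w0) (hpb _ S.w1) S.ch0.par
    S.ch1.par (Or.inl S.n0) hfar'
  have g2 := src_gen (π := -1) ha0 (Or.inr rfl) hY hwY hw2 (Φ := S.Φ1) (Φ' := S.Φ0)
    S.ch1.h1.memf S.ch0.h1.memf S.w1 S.w0 (hpb _ S.w1) (hpb _ S.w0) S.ch1.par
    (fun ξ => by rw [neg_neg]; exact S.ch0.par ξ) (Or.inl S.n1) hfar'
  filter_upwards [g1, g2] with X h1 h2 hX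
  have r1 : 1 ≤ ‖X‖ := by linarith
  have r0 : 0 < ‖X‖ := by linarith
  have rf : Kf ≤ ‖X‖ := by linarith
  have rD : 2 * D ≤ ‖X‖ := by linarith
  obtain ⟨h1a, h1b⟩ := h1 r1 rf
  obtain ⟨h2a, h2b⟩ := h2 r1 rf
  have hN : wN B.a (cR (-1) S.Φ1 S.YS) X = S.N X := rfl
  have hP : wN B.a (cR 1 S.Φ0 S.YS) X = S.P X := rfl
  have hF : cF S.Φ0 S.YS X = S.F X := rfl
  have hc : cF S.Φ1 S.YS X = S.c X := rfl
  rw [hN, hP, hF, hc] at h1a h1b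
  rw [neg_neg, hN, hP, hF, hc] at h2a h2b
  have hw0 := hdg S.Φ0 S.w0 S.sq0 X r1
  have hw1 := hdg S.Φ1 S.w1 S.sq1 X r1
  rw [S.n0, mul_one] at hw0
  rw [S.n1, mul_one] at hw1
  -- transition element
  obtain ⟨-, -, -, htr⟩ := hmp S.Φ0 S.Φ1 S.w0 S.w1 X r1
  have hdip : (∫ ξ, S.Φ1 ξ * (el 0 ξ 2 + el 1 ξ 2) * S.Φ0 ξ) = -S.dip := by
    unfold Sys.dip; ring
  rw [hdip] at htr
  have hcomm : (∫ ξ, S.Φ0 ξ * Wm X ξ * S.Φ1 ξ) = ∫ ξ, S.Φ1 ξ * Wm X ξ * S.Φ0 ξ :=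
    integral_congr_ae (Eventually.of_forall fun ξ => by simp only; ring)
  rw [hcomm] at h2a
  obtain ⟨tr, htrd⟩ : ∃ t, t = ∫ ξ, S.Φ1 ξ * Wm X ξ * S.Φ0 ξ := ⟨_, rfl⟩
  rw [← htrd] at h1a h2a htr
  have hd1 : 0 ≤ S.dip := by
    have := S.dip_low
    have h0 : 0 < 1 / C0 := by positivity
    unfold Sys.dip; linarith
  have hd2 : S.dip ≤ 4 * D := S.dip_up
  have hP0 : 0 ≤ S.P X := Real.sqrt_nonneg _
  have hN0 : 0 ≤ S.N X := Real.sqrt_nonneg _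
  obtain ⟨r, hr⟩ : ∃ r, r = ‖X‖ := ⟨_, rfl⟩
  have hdv0 := diag_V2 (F := S.F X) (by linarith : 0 ≤ D) hr.symm (by rw [hr]; exact r0)
    (by rw [hr]; exact rD) (by rw [hr]; exact hw0)
  have hdv1 := diag_V2 (F := S.c X) (by linarith : 0 ≤ D) hr.symm (by rw [hr]; exact r0)
    (by rw [hr]; exact rD) (by rw [hr]; exact hw1)
  rw [hr] at hdv0 hdv1
  have hE1 := (Real.exp_pos (-(B.a / 2) * ‖X‖)).le
  have hE2 := (Real.exp_pos (-(S.κ + B.a / 4) * ‖X‖)).le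
  obtain ⟨E1, hE1d⟩ : ∃ E, E = Real.exp (-(B.a / 2) * ‖X‖) := ⟨_, rfl⟩
  obtain ⟨E2, hE2d⟩ : ∃ E, E = Real.exp (-(S.κ + B.a / 4) * ‖X‖) := ⟨_, rfl⟩
  rw [← hE1d] at h1a h1b h2a h2b htr hE1 ⊢
  rw [← hE2d] at h1b h2b hE2 ⊢
  obtain ⟨z4, hz4⟩ : ∃ z4, z4 = |X 2| / ‖X‖ ^ 4 := ⟨_, rfl⟩
  obtain ⟨z3, hz3⟩ : ∃ z3, z3 = |X 2| / ‖X‖ ^ 3 := ⟨_, rfl⟩
  obtain ⟨z2, hz2⟩ : ∃ z2, z2 = |X 2| / ‖X‖ ^ 2 := ⟨_, rfl⟩
  obtain ⟨q2, hq2⟩ : ∃ q2, q2 = 1 / ‖X‖ ^ 2 := ⟨_, rfl⟩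
  have z40 : 0 ≤ z4 := by rw [hz4]; positivity
  have z30 : 0 ≤ z3 := by rw [hz3]; positivity
  have z20 : 0 ≤ z2 := by rw [hz2]; positivity
  have q20 : 0 ≤ q2 := by rw [hq2]; positivity
  have q21 : q2 ≤ 1 := by
    rw [hq2, div_le_one (by positivity)]; exact one_le_pow₀ r1
  have z43 : z4 ≤ z3 := by
    rw [hz4, hz3]
    exact div_le_div_of_nonneg_left (abs_nonneg _) (by positivity)
      (pow_le_pow_right₀ r1 (by norm_num))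
  have c1 : 16 * C0 * D * |X 2| / ‖X‖ ^ 3 = 16 * C0 * D * z3 := by rw [hz3]; ring
  have c1' : 64 * C0 * D * |X 2| / ‖X‖ ^ 3 = 64 * C0 * D * z3 := by rw [hz3]; ring
  have c2 : 4 * |X 2| / ‖X‖ ^ 2 = 4 * z2 := by rw [hz2]; ring
  have c3 : K1 / ‖X‖ ^ 2 = K1 * q2 := by rw [hq2]; ring
  have c4 : Km * |X 2| / ‖X‖ ^ 4 = Km * z4 := by rw [hz4]; ring
  rw [c1, c3] at h1a h2a
  rw [c1, c2, c3] at h1b h2b
  rw [c4] at htr
  rw [c1, c1']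
  have hdz : |X 2 / ‖X‖ ^ 3 * -S.dip| ≤ 4 * D * z3 := by
    rw [abs_mul, abs_neg, abs_of_nonneg hd1, abs_div, abs_of_pos (pow_pos r0 3), ← hz3, mul_comm]
    exact mul_le_mul_of_nonneg_right hd2 z30
  have htr1 : |tr| ≤ (4 * D + Km) * z3 + Km * E1 := by
    have e : tr = (tr - X 2 / ‖X‖ ^ 3 * -S.dip) + X 2 / ‖X‖ ^ 3 * -S.dip := by ring
    have h3 : |tr| ≤ |tr - X 2 / ‖X‖ ^ 3 * -S.dip| + |X 2 / ‖X‖ ^ 3 * -S.dip| := by
      conv_lhs => rw [e]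
      exact abs_add_le _ _
    have h4 := mul_le_mul_of_nonneg_left z43 hKm.le
    linarith
  obtain ⟨T, hT⟩ : ∃ T, T = |S.F X| := ⟨_, rfl⟩
  have hT0 : 0 ≤ T := hT ▸ abs_nonneg _
  obtain ⟨c, hcc⟩ : ∃ c, c = |S.c X| := ⟨_, rfl⟩
  have hc0 : 0 ≤ c := hcc ▸ abs_nonneg _
  have k0 : 0 ≤ K' := by linarith
  refine ⟨?_, ?_, ?_, ?_⟩
  · have e : WY S.Φ0 S.YS X + V2 D X * S.F X =
        (WY S.Φ0 S.YS X - S.F X * (∫ ξ, WX X ξ * S.Φ0 ξ ^ 2) - S.c X * tr) +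
        ((S.F X * (∫ ξ, WX X ξ * S.Φ0 ξ ^ 2) + V2 D X * S.F X) + S.c X * tr) := by ring
    rw [e]
    have h5 : |S.c X * tr| ≤ c * ((4 * D + Km) * z3 + Km * E1) := by
      rw [abs_mul, ← hcc]; exact mul_le_mul_of_nonneg_left htr1 hc0
    refine (abs_add_le _ _).trans ((add_le_add h1a ((abs_add_le _ _).trans
      (add_le_add hdv0 h5))).trans ?_)
    have e1 : S.P X / ‖X‖ ^ 2 = q2 * S.P X := by rw [hq2]; ring
    rw [← hz3, e1, ← hT, ← hcc]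
    have m1 : 0 ≤ T / ‖X‖ ^ 3 := by positivity
    have m2 : 0 ≤ q2 * S.P X := by positivity
    have m3 : 0 ≤ z3 * S.N X := by positivity
    have m4 : 0 ≤ E1 * S.N X := by positivity
    have m5 : 0 ≤ z3 * c := by positivity
    have m6 : 0 ≤ E1 * c := by positivity
    have k1 : Kd + 12 * D ^ 2 ≤ K' := by linarith
    have k2 : K1 ≤ K' := by linarith
    have k3 : 16 * (C0 * D) ≤ K' := by linarith
    have k4 : 4 * D + Km ≤ K' := by linarith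
    have k5 : Km ≤ K' := by linarith
    linarith [mul_le_mul_of_nonneg_right k1 m1, mul_le_mul_of_nonneg_right k2 m2,
      mul_le_mul_of_nonneg_right k3 m3, mul_le_mul_of_nonneg_right k2 m4,
      mul_le_mul_of_nonneg_right k4 m5, mul_le_mul_of_nonneg_right k5 m6]
  · have e : WY S.Φ1 S.YS X + V2 D X * S.c X + S.dip * (X 2 / ‖X‖ ^ 3) * S.F X =
        (WY S.Φ1 S.YS X - S.c X * (∫ ξ, WX X ξ * S.Φ1 ξ ^ 2) - S.F X * tr) +
        ((S.c X * (∫ ξ, WX X ξ * S.Φ1 ξ ^ 2) + V2 D X * S.c X) +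
          S.F X * (tr - X 2 / ‖X‖ ^ 3 * -S.dip)) := by ring
    rw [e]
    have h5 : |S.F X * (tr - X 2 / ‖X‖ ^ 3 * -S.dip)| ≤ T * (Km * z4 + Km * E1) := by
      rw [abs_mul, ← hT]; exact mul_le_mul_of_nonneg_left htr hT0
    refine (abs_add_le _ _).trans ((add_le_add h2a ((abs_add_le _ _).trans
      (add_le_add hdv1 h5))).trans ?_)
    have e1 : S.N X / ‖X‖ ^ 2 = q2 * S.N X := by rw [hq2]; ring
    rw [← hz4, e1, ← hT, ← hcc]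
    have m1 : 0 ≤ c / ‖X‖ ^ 3 := by positivity
    have m2 : 0 ≤ q2 * S.N X := by positivity
    have m3 : 0 ≤ z4 * T := by positivity
    have m4 : 0 ≤ E1 * T := by positivity
    have m5 : 0 ≤ E1 * S.P X := by positivity
    have k1 : Kd + 12 * D ^ 2 ≤ K' := by linarith
    have k2 : K1 ≤ K' := by linarith
    have k5 : Km ≤ K' := by linarith
    linarith [mul_le_mul_of_nonneg_right k1 m1, mul_le_mul_of_nonneg_right k2 m2,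
      mul_le_mul_of_nonneg_right k5 m3, mul_le_mul_of_nonneg_right k5 m4,
      mul_le_mul_of_nonneg_right k2 m5]
  · refine le_trans ?_ h1b
    refine mul_le_mul_of_nonneg_right (neg_le_neg ?_) hP0
    have e1 : |S.F X| / ‖X‖ ^ 2 = q2 * T := by rw [hq2, hT]; ring
    rw [e1, ← hz2, ← hz3, ← hT, ← hcc]
    have m1 : 0 ≤ q2 * T := by positivity
    have m2 : 0 ≤ z3 * c := by positivity
    have m3 : 0 ≤ z2 * S.N X := by positivity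
    have m4 : 0 ≤ E1 * S.N X := by positivity
    have m5 : 0 ≤ E1 * c := by positivity
    have k1 : 3 * K1 ≤ K' := by linarith
    have k2 : 6 * K1 ≤ K' := by linarith
    have k3 : 12 ≤ K' := by linarith
    have k4 : 3 * Kf ≤ K' := by linarith
    have k6 : 48 * (C0 * D) ≤ K' := by linarith
    have j1 : 2 * (K1 * q2) * S.P X ≤ K' * S.P X := by
      refine mul_le_mul_of_nonneg_right ?_ hP0
      linarith [mul_le_mul_of_nonneg_left q21 hK1.le]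
    linarith [mul_le_mul_of_nonneg_right k1 m1, mul_le_mul_of_nonneg_right k6 m2,
      mul_le_mul_of_nonneg_right k3 m3, mul_nonneg k0 m4, mul_le_mul_of_nonneg_right k2 m5,
      mul_le_mul_of_nonneg_right k4 hE2]
  · refine le_trans ?_ h2b
    refine mul_le_mul_of_nonneg_right (neg_le_neg ?_) hN0
    have e1 : |S.c X| / ‖X‖ ^ 2 = q2 * c := by rw [hq2, hcc]; ring
    rw [e1, ← hz2, ← hT, ← hcc]
    have m1 : 0 ≤ q2 * c := by positivity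
    have m2 : 0 ≤ z3 * T := by positivity
    have m3 : 0 ≤ z2 * S.P X := by positivity
    have m4 : 0 ≤ E1 * S.P X := by positivity
    have m5 : 0 ≤ E1 * T := by positivity
    have k1 : 3 * K1 ≤ K' := by linarith
    have k2 : 6 * K1 ≤ K' := by linarith
    have k3 : 12 ≤ K' := by linarith
    have k4 : 3 * Kf ≤ K' := by linarith
    have j1 : 2 * (K1 * q2) * S.N X ≤ K' * S.N X := by
      refine mul_le_mul_of_nonneg_right ?_ hN0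
      linarith [mul_le_mul_of_nonneg_left q21 hK1.le]
    linarith [mul_le_mul_of_nonneg_right k1 m1, mul_nonneg hCD m2,
      mul_le_mul_of_nonneg_right k3 m3, mul_nonneg k0 m4, mul_le_mul_of_nonneg_right k2 m5,
      mul_le_mul_of_nonneg_right k4 hE2]

end Sy

/-- S-sector of (3.6) -/
theorem sys_S {cg C0 D : ℝ} (hC : 1 ≤ C0) (hD : 4 ≤ D) (B : OBD cg C0 D) (K : ℝ) :
    ∃ K' l' : ℝ, 1 ≤ K' ∧ 0 < l' ∧ ∀ lam, 0 < lam → lam ≤ l' → ∀ S : Sys B K lam,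
      (∃ d src, H1 S.F d ∧ WEq (Ext K') S.F d (mL D lam S.κ) src ∧
        ∀ᵐ X : Pos3, K' < ‖X‖ → |src X| ≤ lam * K' * (|S.F X| / ‖X‖ ^ 3 + S.P X / ‖X‖ ^ 2 +
          (|X 2| / ‖X‖ ^ 3 + Real.exp (-(B.a / 2) * ‖X‖)) * (|S.c X| + S.N X))) ∧
      (∃ d src, H1 S.c d ∧ WEq (Ext K') S.c d (mL D lam S.κS) src ∧
        ∀ᵐ X : Pos3, K' < ‖X‖ → |src X - lam * S.dip * (X 2 / ‖X‖ ^ 3) * S.F X| ≤
          lam * K' * (|S.c X| / ‖X‖ ^ 3 + S.N X / ‖X‖ ^ 2 +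
            (|X 2| / ‖X‖ ^ 4 + Real.exp (-(B.a / 2) * ‖X‖)) * |S.F X|) +
          lam * (16 * C0 * D * |X 2| / ‖X‖ ^ 3 + K' * Real.exp (-(B.a / 2) * ‖X‖)) * S.P X) ∧
      (∃ d, H1 S.P d ∧ WLe (Ext K') S.P d (fun x => mL D lam S.κ x + B.om / 8) (fun X =>
        lam * K' * (|S.F X| / ‖X‖ ^ 2 +
          (|X 2| / ‖X‖ ^ 3 + Real.exp (-(B.a / 2) * ‖X‖)) * |S.c X| +
          (|X 2| / ‖X‖ ^ 2 + Real.exp (-(B.a / 2) * ‖X‖)) * S.N X +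
          Real.exp (-(S.κ + B.a / 4) * ‖X‖)))) ∧
      (∃ d, H1 S.N d ∧ WLe (Ext K') S.N d (fun x => mL D lam S.κS x + cg / 32) (fun X =>
        lam * (64 * C0 * D * |X 2| / ‖X‖ ^ 3 + K' * Real.exp (-(B.a / 2) * ‖X‖)) * |S.F X| +
        lam * K' * (|S.c X| / ‖X‖ ^ 2 +
          (|X 2| / ‖X‖ ^ 2 + Real.exp (-(B.a / 2) * ‖X‖)) * S.P X +
          Real.exp (-(S.κ + B.a / 4) * ‖X‖)))) :=
  sys_S_of hC hD B K (Sy.src_S hC hD B K)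

/-- T-sector of (3.6), for each of the two triplet channel functions -/
theorem sys_T {cg C0 D : ℝ} (hC : 1 ≤ C0) (hD : 4 ≤ D) (B : OBD cg C0 D) (K : ℝ) :
    ∃ K' l' : ℝ, 1 ≤ K' ∧ 0 < l' ∧ ∀ lam, 0 < lam → lam ≤ l' → ∀ S : Sys B K lam,
      ∀ Y, Y = S.YT ∨ Y = S.YB →
      (∃ d src, H1 (S.t Y) d ∧ WEq (Ext K') (S.t Y) d (mL D lam S.κT) src ∧
        ∀ᵐ X : Pos3, K' < ‖X‖ → |src X| ≤ lam * K' * (|S.t Y X| / ‖X‖ ^ 3 + S.NT Y X / ‖X‖ ^ 2 +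
          (|X 2| / ‖X‖ ^ 3 + Real.exp (-(B.a / 2) * ‖X‖)) * S.PT Y X)) ∧
      (∃ d, H1 (S.NT Y) d ∧
        WLe (Ext K') (S.NT Y) d (fun x => mL D lam S.κT x + cg / 32) (fun X =>
          lam * K' * (|S.t Y X| / ‖X‖ ^ 2 +
          (|X 2| / ‖X‖ ^ 2 + Real.exp (-(B.a / 2) * ‖X‖)) * S.PT Y X +
          Real.exp (-(S.κT + B.a / 4) * ‖X‖)))) ∧
      (∃ d, H1 (S.PT Y) d ∧
        WLe (Ext K') (S.PT Y) d (fun x => mL D lam S.κT x + cg / 32) (fun X => lam * K' *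
          ((|X 2| / ‖X‖ ^ 3 + Real.exp (-(B.a / 2) * ‖X‖)) * |S.t Y X| +
          (|X 2| / ‖X‖ ^ 2 + Real.exp (-(B.a / 2) * ‖X‖)) * S.NT Y X +
          Real.exp (-(S.κT + B.a / 4) * ‖X‖)))) :=
  sys_T_of hC hD B K (Sy.src_T hC hD B K)

end Crest.Agent.R335
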