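import Crest.Agent.R335.BRDefs
import Crest.Agent.R335.SyEnd
import Crest.Agent.R335.BRPar
import Crest.Agent.R335.TNum
import Crest.Agent.R335.SyEnd

/-!
Row 335 (S0521), Part B sections 4-7, singlet sector: the abstract system of a `Sys` (helper207).
-/

set_option autoImplicit false
set_option linter.unusedVariables false

open MeasureTheory Filter Set Crest.MathPhysics.ThreeBody
open scoped ENNReal Topology ContDiff

noncomputable section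
namespace Crest.Agent.R335.BR
open Crest.Agent.R335

theorem isOpen_Ext' (R : ℝ) : IsOpen (Ext R) := isOpen_lt continuous_const continuous_norm

theorem Ext_mono' {R K : ℝ} (h : K ≤ R) : Ext R ⊆ Ext K := fun _ hx => lt_of_le_of_lt h hx

theorem WEq.mono' {U V : Set Pos3} (hVU : V ⊆ U) {s : Pos3 → ℝ} {ds : Pos3 → Pos3}
    {m f : Pos3 → ℝ} (h : WEq U s ds m f) : WEq V s ds m f :=
  ⟨h.ims.mono_set hVU, h.if'.mono_set hVU, fun φ hφ => h.eq φ (hφ.mono hVU)⟩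

/-- the singlet gap -/
theorem q2_bounds {cg C0 D : ℝ} (hC : 1 ≤ C0) (hD : 4 ≤ D) (B : OBD cg C0 D) (K : ℝ) :
    ∃ l' : ℝ, 0 < l' ∧ ∀ lam, 0 < lam → lam ≤ l' → ∀ S : Sys B K lam,
      (9 / 10 ≤ S.κ ∧ S.κ ≤ 11 / 10) ∧ (9 / 10 ≤ S.κS ∧ S.κS ≤ 11 / 10) ∧
        B.om ≤ S.κS ^ 2 - S.κ ^ 2 ∧ S.κS ^ 2 - S.κ ^ 2 ≤ 3 * B.om := by
  obtain ⟨K', l', hK', hl', H⟩ := numbers hC hD B K
  have hom : 0 < B.om := by
    have := B.ob.eg_lt
    unfold OBD.om; linarith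
  refine ⟨min l' (B.om / (2 * K')), by positivity, fun lam h0 hl S => ?_⟩
  obtain ⟨r0, r1, -, n0, n1, -, -, -⟩ := H lam h0 (hl.trans (min_le_left _ _)) S
  have h1 : lam * (2 * K') ≤ B.om := (le_div_iff₀ (by positivity)).1 (hl.trans (min_le_right _ _))
  rw [abs_le] at n0 n1
  have e : B.om = B.eu - B.eg := rfl
  exact ⟨r0, r1, by linarith [n0.1, n0.2, n1.1, n1.2], by linarith [n0.1, n0.2, n1.1, n1.2]⟩

/-- the system at fixed `λ` -/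
theorem sfn_of_sys {cg C0 D : ℝ} (hC : 1 ≤ C0) (hD : 4 ≤ D) (B : OBD cg C0 D) (K : ℝ) :
    ∃ K' l' : ℝ, 1 ≤ K' ∧ 0 < l' ∧ ∀ A Ac Am an Kp K1 K2 K3 R : ℝ, K' ≤ R →
      ∀ lam, 0 < lam → lam ≤ l' → ∀ S : Sys B K lam,
        SFn ⟨D, lam, S.κ, S.κS, B.om, cg / 32, max K' (16 * C0 * D), K', 64 * C0 * D, S.dip,
          A, Ac, Am, an, Kp, K1, K2, K3, R⟩ S.F S.c S.P S.N ∧
        (9 / 10 ≤ S.κ ∧ S.κ ≤ 11 / 10) ∧ (9 / 10 ≤ S.κS ∧ S.κS ≤ 11 / 10) ∧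
        B.om ≤ S.κS ^ 2 - S.κ ^ 2 ∧ S.κS ^ 2 - S.κ ^ 2 ≤ 3 * B.om ∧
        1 / C0 ≤ S.dip ∧ S.dip ≤ 4 * D := by
  obtain ⟨K', l1, hK', hl1, H⟩ := Crest.Agent.R335.sys_S hC hD B K
  obtain ⟨l2, hl2, H2⟩ := q2_bounds hC hD B K
  refine ⟨K', min l1 l2, hK', lt_min hl1 hl2, fun A Ac Am an Kp K1 K2 K3 R hR lam h0 hl S => ?_⟩
  obtain ⟨r0, r1, q1, q2⟩ := H2 lam h0 (hl.trans (min_le_right _ _)) S
  obtain ⟨⟨dF, sF, hF, wF, bF⟩, ⟨dc, sc, hc, wc, bc⟩, ⟨dP, hP, wP⟩, ⟨dN, hN, wN⟩⟩ :=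
    H lam h0 (hl.trans (min_le_left _ _)) S
  have hCD : K' ≤ max K' (16 * C0 * D) := le_max_left _ _
  have hCD2 : 16 * C0 * D ≤ max K' (16 * C0 * D) := le_max_right _ _
  have hK0 : 0 ≤ K' := by linarith
  have P0 : ∀ x, 0 ≤ S.P x := fun x => Real.sqrt_nonneg _
  have N0 : ∀ x, 0 ≤ S.N x := fun x => Real.sqrt_nonneg _
  refine ⟨?_, r0, r1, q1, q2, S.dip_low, S.dip_up⟩
  refine
    { eF := ⟨dF, sF, hF, WEq.mono' (Ext_mono' hR) wF, ?_⟩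
      ec := ⟨dc, sc, hc, WEq.mono' (Ext_mono' hR) wc, ?_⟩
      eP := ⟨dP, hP, WLe.mono' (isOpen_Ext' R) (Ext_mono' hR) wP⟩
      eN := ⟨dN, hN, WLe.mono' (isOpen_Ext' R) (Ext_mono' hR) wN⟩
      CuD := hCD
      oddF := Eventually.of_forall (Par.F_rfl S)
      evenc := Eventually.of_forall (Par.c_rfl S)
      evenP := Eventually.of_forall (Par.P_rfl S)
      evenN := Eventually.of_forall (Par.N_rfl S)
      P0 := P0
      N0 := N0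
      PD := fun d h => Par.H10_P S h }
  · filter_upwards [bF] with X hX hXR
    refine (hX (lt_of_le_of_lt hR hXR)).trans ?_
    show lam * K' * _ ≤ lam * max K' (16 * C0 * D) * _
    have e1 : 0 ≤ |S.F X| / ‖X‖ ^ 3 + S.P X / ‖X‖ ^ 2 +
      (|X 2| / ‖X‖ ^ 3 + Real.exp (-(B.a / 2) * ‖X‖)) * (|S.c X| + S.N X) := by
      have := P0 X; have := N0 X
      positivity
    refine mul_le_mul_of_nonneg_right ?_ e1
    exact mul_le_mul_of_nonneg_left hCD h0.le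
  · filter_upwards [bc] with X hX hXR
    refine (hX (lt_of_le_of_lt hR hXR)).trans ?_
    show lam * K' * _ + lam * (16 * C0 * D * |X 2| / ‖X‖ ^ 3 +
      K' * Real.exp (-(B.a / 2) * ‖X‖)) * S.P X ≤ lam * max K' (16 * C0 * D) * _ +
      lam * (max K' (16 * C0 * D) * |X 2| / ‖X‖ ^ 3 +
        max K' (16 * C0 * D) * Real.exp (-(B.a / 2) * ‖X‖)) * S.P X
    have e1 : 0 ≤ |S.c X| / ‖X‖ ^ 3 + S.N X / ‖X‖ ^ 2 +
            (|X 2| / ‖X‖ ^ 4 + Real.exp (-(B.a / 2) * ‖X‖)) * |S.F X| := by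
      have := P0 X; have := N0 X
      positivity
    have e2 : lam * K' * (|S.c X| / ‖X‖ ^ 3 + S.N X / ‖X‖ ^ 2 +
            (|X 2| / ‖X‖ ^ 4 + Real.exp (-(B.a / 2) * ‖X‖)) * |S.F X|) ≤
        lam * max K' (16 * C0 * D) * (|S.c X| / ‖X‖ ^ 3 + S.N X / ‖X‖ ^ 2 +
            (|X 2| / ‖X‖ ^ 4 + Real.exp (-(B.a / 2) * ‖X‖)) * |S.F X|) :=
      mul_le_mul_of_nonneg_right (mul_le_mul_of_nonneg_left hCD h0.le) e1
    have e3 : lam * (16 * C0 * D * |X 2| / ‖X‖ ^ 3 +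
        K' * Real.exp (-(B.a / 2) * ‖X‖)) * S.P X ≤
      lam * (max K' (16 * C0 * D) * |X 2| / ‖X‖ ^ 3 +
        max K' (16 * C0 * D) * Real.exp (-(B.a / 2) * ‖X‖)) * S.P X := by
      have := P0 X
      gcongr
    exact add_le_add e2 e3

end Crest.Agent.R335.BR
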