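import Crest.Agent.R335.BIface
import Crest.Agent.R335.BIface2
import Crest.Agent.R335.CDefs

/-!
Row 335 (S0521), TOP: decomposition of `CI.out_of_sys` (Part B ⇒ COut) (helper783).
Statements `BO.xxx` with `sorry`; each is to be proved as `Crest.Agent.R335.xxx` in the module named
with it.  The glue proof is in `TBGlue.lean`.
-/

set_option autoImplicit false
set_option linter.unusedVariables false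

open MeasureTheory Filter Set Crest.MathPhysics.ThreeBody
open scoped ENNReal Topology ContDiff

noncomputable section
namespace Crest.Agent.R335.BO
open Crest.Agent.R335

/-! ### numbers (module TNum, helper783) -/

theorem numbers {cg C0 D : ℝ} (hC : 1 ≤ C0) (hD : 4 ≤ D) (B : OBD cg C0 D) (K : ℝ) :
    ∃ K' l' : ℝ, 1 ≤ K' ∧ 0 < l' ∧ ∀ lam, 0 < lam → lam ≤ l' → ∀ S : Sys B K lam,
      (9 / 10 ≤ S.κ ∧ S.κ ≤ 11 / 10) ∧ (9 / 10 ≤ S.κS ∧ S.κS ≤ 11 / 10) ∧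
      (9 / 10 ≤ S.κT ∧ S.κT ≤ 11 / 10) ∧
      |S.κ ^ 2 + 2 * B.eu| ≤ K' * lam ∧ |S.κS ^ 2 + 2 * B.eg| ≤ K' * lam ∧
      |S.κT ^ 2 + 2 * B.eg| ≤ K' * lam ∧ B.om ≤ S.q1sq ∧ S.E ≤ S.e0 := sorry

/-! ### parity (module TPar, helper783) -/

theorem s1_even {cg C0 D : ℝ} {B : OBD cg C0 D} {K lam : ℝ} (S : Sys B K lam) (x : Pos3) :
    S.s1 (rz x) = S.s1 x := sorry

theorem s2_even {cg C0 D : ℝ} {B : OBD cg C0 D} {K lam : ℝ} (S : Sys B K lam) (x : Pos3) :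
    S.s2 (rz x) = S.s2 x := sorry

theorem F_odd {cg C0 D : ℝ} {B : OBD cg C0 D} {K lam : ℝ} (S : Sys B K lam) (x : Pos3) :
    S.F (rz x) = - S.F x := sorry

/-! ### zero trace of the odd part (module CO1, helper357) -/

theorem half1 {cg C0 D : ℝ} {B : OBD cg C0 D} {K lam : ℝ} (S : Sys B K lam)
    {gs1 : Pos3 → Pos3} (h : H1 S.s1 gs1) :
    H1 (fun x => if 0 < x 2 then S.s1 x else 0) (fun x => if 0 < x 2 then gs1 x else 0) := sorry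

/-! ### Pythagoras for the two parities (module CO3)

`∫ Y_π² = ⟨Φ, Y⟩² + ∫ R²` for a.e. `X`, `e^{aw} ≥ 1` and the weighted norms are finite a.e.
(field `w3`). -/

theorem s1sq_bd {cg C0 D : ℝ} {B : OBD cg C0 D} {K lam : ℝ} (S : Sys B K lam) (hl : 0 ≤ lam) :
    ∀ᵐ X : Pos3, 2 * S.F X ^ 2 ≤ S.s1sq X ∧
      S.s1sq X ≤ 2 * S.F X ^ 2 + 2 * S.P X ^ 2 + S.PT S.YT X ^ 2 + S.PT S.YB X ^ 2 := sorry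

theorem s2sq_bd {cg C0 D : ℝ} {B : OBD cg C0 D} {K lam : ℝ} (S : Sys B K lam) (hl : 0 ≤ lam) :
    ∀ᵐ X : Pos3, 2 * S.c X ^ 2 + S.t S.YT X ^ 2 + S.t S.YB X ^ 2 ≤ S.s2sq X ∧
      S.s2sq X ≤ 2 * S.c X ^ 2 + S.t S.YT X ^ 2 + S.t S.YB X ^ 2 +
        2 * S.N X ^ 2 + S.NT S.YT X ^ 2 + S.NT S.YB X ^ 2 := sorry

/-! ### closeness to `λ = 0` (module CO2) -/

theorem close {cg C0 D : ℝ} (hC : 1 ≤ C0) (hD : 4 ≤ D) (B : OBD cg C0 D) (K : ℝ) :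
    ∃ K' l' : ℝ, 1 ≤ K' ∧ 0 < l' ∧ ∀ lam, 0 < lam → lam ≤ l' → ∀ S : Sys B K lam,
      ∀ᵐ x : Pos3, |√(S.rho x) - √(2 * B.g x ^ 2 + B.u x ^ 2)| ≤ K' * lam ∧
        |S.s1 x - abs (B.u x)| ≤ K' * lam ∧ |S.s2 x - √2 * B.g x| ≤ K' * lam ∧
        |S.Fn x - B.u x| ≤ K' * lam := sorry

theorem mass {cg C0 : ℝ} (hcg : 0 < cg) (hC : 1 ≤ C0) : ∃ D0 : ℝ, 4 ≤ D0 ∧
    ∀ D : ℝ, D0 ≤ D → ∀ (B : OBD cg C0 D) (K : ℝ), ∃ K' l' : ℝ, 1 ≤ K' ∧ 0 < l' ∧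
      ∀ lam, 0 < lam → lam ≤ l' → ∀ S : Sys B K lam,
        |(∫ x, S.s2 x ^ 2) - 2| ≤ K' * lam := sorry

/-- `½ (|∇s₁|² + |∇s₂|²) + ∫ V ρ ≤ ⟨ψ, (H - λ W) ψ⟩ ≤ E` (module CO4) -/
theorem energy {cg C0 D : ℝ} (hC : 1 ≤ C0) (hD : 4 ≤ D) (B : OBD cg C0 D) (K : ℝ) :
    ∃ K' l' : ℝ, 1 ≤ K' ∧ 0 < l' ∧ ∀ lam, 0 < lam → lam ≤ l' → ∀ S : Sys B K lam,
      ∀ gs1 gs2, H1 S.s1 gs1 → H1 S.s2 gs2 →
        (1 / 2) * ((∫ x, ‖gs1 x‖ ^ 2) + ∫ x, ‖gs2 x‖ ^ 2) + ∫ x, V2 D x * S.rho x ≤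
          2 * B.eg + B.eu + K' * lam := sorry

/-- `0 ≤ wc ≤ K' λ` (module CO5) -/
theorem wc_bd {cg C0 D : ℝ} (hC : 1 ≤ C0) (hD : 4 ≤ D) (B : OBD cg C0 D) (K : ℝ) :
    ∃ K' l' : ℝ, 1 ≤ K' ∧ 0 < l' ∧ ∀ lam, 0 < lam → lam ≤ l' → ∀ S : Sys B K lam,
      Measurable S.wc ∧ ∀ x, 0 ≤ S.wc x ∧ S.wc x ≤ K' * lam := sorry

/-! ### the bounds R1-R4 (modules BR*, helper826) -/

/-- upper profile of `c` -/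
def UP (D κ κS lam om : ℝ) (x : Pos3) : ℝ :=
  CX.SS D κS (2 * (1 - lam)) (-1) x +
    lam / om * (x 2 / ‖x‖ ^ 3) * CX.OO D κ (2 * (1 - lam)) (-1) x +
    lam / om ^ 2 / ‖x‖ ^ 4 * CX.SS D κ (2 * (1 - lam)) (-1) x

/-- bounds of the scalar functions at one point, `r = ‖x‖`, `Q = 2 (1 - λ)` -/
structure Scal {cg C0 D : ℝ} {B : OBD cg C0 D} {K lam : ℝ} (S : Sys B K lam) (P K2 : ℝ)
    (x : Pos3) : Prop where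
  Flow : CX.OO D S.κ (2 * (1 - lam)) 1 x ≤ P * S.F x
  Fup : S.F x ≤ P * CX.OO D S.κ (2 * (1 - lam)) (-1) x
  clow : CX.SS D S.κS (2 * (1 - lam)) 1 x +
    lam / B.om ^ 2 / ‖x‖ ^ 4 * CX.SS D S.κ (2 * (1 - lam)) 1 x ≤ P * S.c x
  cup : S.c x ≤ P * UP D S.κ S.κS lam B.om x
  tT0 : 0 ≤ S.t S.YT x
  tB0 : 0 ≤ S.t S.YB x
  tTup : S.t S.YT x ≤ P * CX.SS D S.κT (2 * (1 - lam)) (-1) x
  tBup : S.t S.YB x ≤ P * CX.SS D S.κT (2 * (1 - lam)) (-1) x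
  N : S.N x ≤ K2 * S.c x
  NT : S.NT S.YT x ≤ K2 * S.t S.YT x
  NB : S.NT S.YB x ≤ K2 * S.t S.YB x
  Nup : S.N x ≤ P * UP D S.κ S.κS lam B.om x
  NTup : S.NT S.YT x ≤ P * CX.SS D S.κT (2 * (1 - lam)) (-1) x
  NBup : S.NT S.YB x ≤ P * CX.SS D S.κT (2 * (1 - lam)) (-1) x
  P : S.P x ≤ K2 * lam / ‖x‖ ^ 2 * S.F x
  PT : S.PT S.YT x ≤ K2 * lam / ‖x‖ ^ 2 * S.F x
  PB : S.PT S.YB x ≤ K2 * lam / ‖x‖ ^ 2 * S.F x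

theorem scal {cg C0 : ℝ} (hcg : 0 < cg) (hC : 1 ≤ C0) :
    ∃ P0 D0 : ℝ, 1 ≤ P0 ∧ 4 ≤ D0 ∧ ∀ D : ℝ, D0 ≤ D → ∀ (B : OBD cg C0 D) (K : ℝ),
      ∃ Ra : ℝ, ∀ R1 : ℝ, Ra ≤ R1 → ∃ K2 l' : ℝ, 1 ≤ K2 ∧ 0 < l' ∧
        ∀ lam, 0 < lam → lam ≤ l' → ∀ S : Sys B K lam,
          ∀ᵐ x, x ∈ UpExt R1 → Scal S (P0 * D ^ 20) K2 x := sorry

end Crest.Agent.R335.BO
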