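import Crest.Agent.R335.BRUp
import Crest.Agent.R335.BRPrm
import Crest.Agent.R335.BRLowF
import Crest.Agent.R335.BRShU
import Crest.Agent.R335.BRFin
import Crest.Agent.R335.BRShell
import Crest.Agent.R335.BRLowC
import Crest.Agent.R335.BRSys
import Crest.Agent.R335.TB

/-!
Row 335 (S0521), Part B sections 4-7, singlet sector: assembly of the bounds (singlet fields of
`BO.Scal`).
-/

set_option autoImplicit false
set_option linter.unusedSectionVars false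
set_option linter.unusedVariables false

open MeasureTheory Filter Set Crest.MathPhysics.ThreeBody
open scoped ENNReal Topology ContDiff

noncomputable section
namespace Crest.Agent.R335.BR
open Crest.Agent.R335

/-- the singlet fields of `BO.Scal` -/
structure ScalS {cg C0 D : ℝ} {B : OBD cg C0 D} {K lam : ℝ} (S : Sys B K lam) (P PF K2 : ℝ)
    (x : Pos3) : Prop where
  Flow : CX.OO D S.κ (2 * (1 - lam)) 1 x ≤ P * S.F x
  Fup : S.F x ≤ P * CX.OO D S.κ (2 * (1 - lam)) (-1) x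
  clow : CX.SS D S.κS (2 * (1 - lam)) 1 x +
    lam / B.om ^ 2 / ‖x‖ ^ 4 * CX.SS D S.κ (2 * (1 - lam)) 1 x ≤ P * S.c x
  cup : S.c x ≤ P * BO.UP D S.κ S.κS lam B.om x
  Nc : S.N x ≤ K2 * S.c x
  Nup : S.N x ≤ P * BO.UP D S.κ S.κS lam B.om x
  Pf : S.P x ≤ K2 * lam / ‖x‖ ^ 2 * S.F x
  F0 : 0 ≤ S.F x
  OF : Ox D S.κ (2 * (1 - lam) / S.κ - 1) (-1) x ≤ PF * S.F x

/-- total constant -/
theorem const_le {P0s C0 D cg A Am an : ℝ} (hP : 1 ≤ P0s) (hC : 1 ≤ C0) (hD : 4 ≤ D)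
    (hcg : 0 < cg) (hA : A = P0s * D ^ 2) (hAm : Am = 1 / (P0s * D ^ 9))
    (han : an = 1 / (2 * P0s * D ^ 8)) :
    2 * A + 2 / Am + 1 / an + 80 / (Am * (1 / C0) * D) + P0s + 12 * A * D + 106 * A * D ^ 2 +
      2 * (64 * C0 * D * (A + 1) + 1) / (A * (cg / 32)) * A * (1 + 4.4 * D / (cg / 32)) + 1 ≤
    (P0s * (200 + 80 * C0) + 64 / cg * (128 * C0 * P0s + 1) * (1 + 141 / cg)) * D ^ 20 := by
  have hD1 : 1 ≤ D := by linarith
  have hD0 : 0 < D := by linarith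
  have hA0 : 0 < A := by rw [hA]; positivity
  have hp : ∀ k : ℕ, k ≤ 20 → D ^ k ≤ D ^ 20 := fun k hk => pow_le_pow_right₀ hD1 hk
  have hP0 : 0 < P0s := by linarith
  have e1 : 2 * A ≤ 2 * P0s * D ^ 20 := by
    rw [hA]
    have := mul_le_mul_of_nonneg_left (hp 2 (by norm_num)) hP0.le
    linarith
  have e2 : 2 / Am ≤ 2 * P0s * D ^ 20 := by
    have h1 : 2 / Am = 2 * (P0s * D ^ 9) := by rw [hAm]; field_simp
    rw [h1]
    have := mul_le_mul_of_nonneg_left (hp 9 (by norm_num)) hP0.le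
    linarith
  have e3 : 1 / an ≤ 2 * P0s * D ^ 20 := by
    have h1 : 1 / an = 2 * (P0s * D ^ 8) := by rw [han]; field_simp
    rw [h1]
    have := mul_le_mul_of_nonneg_left (hp 8 (by norm_num)) hP0.le
    linarith
  have e4 : 80 / (Am * (1 / C0) * D) ≤ 80 * C0 * P0s * D ^ 20 := by
    have h1 : 80 / (Am * (1 / C0) * D) = 80 * C0 * (P0s * D ^ 8) := by rw [hAm]; field_simp
    rw [h1]
    have := mul_le_mul_of_nonneg_left (mul_le_mul_of_nonneg_left (hp 8 (by norm_num)) hP0.le)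
      (by positivity : 0 ≤ 80 * C0)
    linarith
  have hone : 1 ≤ D ^ 20 := one_le_pow₀ hD1
  have e5 : P0s ≤ P0s * D ^ 20 := le_mul_of_one_le_right hP0.le hone
  have e6 : 12 * A * D ≤ 12 * P0s * D ^ 20 := by
    have h1 : 12 * A * D = 12 * (P0s * D ^ 3) := by rw [hA]; ring
    rw [h1]
    have := mul_le_mul_of_nonneg_left (hp 3 (by norm_num)) hP0.le
    linarith
  have e7 : 106 * A * D ^ 2 ≤ 106 * P0s * D ^ 20 := by
    have h1 : 106 * A * D ^ 2 = 106 * (P0s * D ^ 4) := by rw [hA]; ring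
    rw [h1]
    have := mul_le_mul_of_nonneg_left (hp 4 (by norm_num)) hP0.le
    linarith
  have e9 : (1 : ℝ) ≤ P0s * D ^ 20 := by nlinarith
  have e8 : 2 * (64 * C0 * D * (A + 1) + 1) / (A * (cg / 32)) * A * (1 + 4.4 * D / (cg / 32)) ≤
      64 / cg * (128 * C0 * P0s + 1) * (1 + 141 / cg) * D ^ 20 := by
    have h1 : 2 * (64 * C0 * D * (A + 1) + 1) / (A * (cg / 32)) * A =
        64 / cg * (64 * C0 * D * (A + 1) + 1) := by field_simp; ring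
    have h2 : 64 * C0 * D * (A + 1) + 1 ≤ (128 * C0 * P0s + 1) * D ^ 3 := by
      rw [hA]
      have a1 : P0s * D ^ 2 + 1 ≤ 2 * P0s * D ^ 2 := by
        have : 1 ≤ P0s * D ^ 2 := by
          have := one_le_pow₀ (n := 2) hD1
          nlinarith
        linarith
      have a2 := mul_le_mul_of_nonneg_left a1 (by positivity : 0 ≤ 64 * C0 * D)
      have a3 : 1 ≤ D ^ 3 := one_le_pow₀ hD1
      nlinarith
    have h3 : 1 + 4.4 * D / (cg / 32) ≤ (1 + 141 / cg) * D := by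
      have a1 : 4.4 * D / (cg / 32) = 140.8 / cg * D := by field_simp; ring
      rw [a1]
      have a2 : 140.8 / cg ≤ 141 / cg := div_le_div_of_nonneg_right (by norm_num) hcg.le
      have a3 := mul_le_mul_of_nonneg_right a2 hD0.le
      nlinarith
    rw [h1]
    have h4 : 0 ≤ 1 + 4.4 * D / (cg / 32) := by positivity
    have h5 : 0 ≤ 64 / cg := by positivity
    calc 64 / cg * (64 * C0 * D * (A + 1) + 1) * (1 + 4.4 * D / (cg / 32)) ≤
          64 / cg * ((128 * C0 * P0s + 1) * D ^ 3) * ((1 + 141 / cg) * D) :=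
          mul_le_mul (mul_le_mul_of_nonneg_left h2 h5) h3 h4 (by positivity)
      _ = 64 / cg * (128 * C0 * P0s + 1) * (1 + 141 / cg) * D ^ 4 := by ring
      _ ≤ _ := mul_le_mul_of_nonneg_left (hp 4 (by norm_num)) (by positivity)
  linarith

theorem UpExt_eq (R : ℝ) (x : Pos3) : x ∈ UpExt R ↔ x ∈ (HExt R 2 : Set Pos3) := Iff.rfl

/-- **the singlet sector** -/
theorem scal_S {cg C0 : ℝ} (hcg : 0 < cg) (hC : 1 ≤ C0) :
    ∃ P0 PF D0 : ℝ, 1 ≤ P0 ∧ 1 ≤ PF ∧ 4 ≤ D0 ∧ ∀ D : ℝ, D0 ≤ D → ∀ (B : OBD cg C0 D) (K : ℝ),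
      ∃ Ra : ℝ, ∀ R1 : ℝ, Ra ≤ R1 → ∃ K2 l' : ℝ, 1 ≤ K2 ∧ 0 < l' ∧
        ∀ lam, 0 < lam → lam ≤ l' → ∀ S : Sys B K lam,
          ∀ᵐ x, x ∈ UpExt R1 → ScalS S (P0 * D ^ 20) (PF * D ^ 9) K2 x := by
  obtain ⟨P0s, D0, hP0, hD0, hsh⟩ := shellS hcg hC
  refine ⟨P0s * (200 + 80 * C0) + 64 / cg * (128 * C0 * P0s + 1) * (1 + 141 / cg), 2 * P0s, D0,
    ?_, by linarith, hD0, fun D hD B K => ?_⟩
  · have : 0 ≤ 64 / cg * (128 * C0 * P0s + 1) * (1 + 141 / cg) := by positivity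
    nlinarith
  have hD4 : 4 ≤ D := hD0.trans hD
  have hD1 : 1 ≤ D := by linarith
  have hDp : 0 < D := by linarith
  obtain ⟨Ra1, hRa1⟩ := hsh D hD B K
  obtain ⟨K', l1, hK', hl1, hsys⟩ := sfn_of_sys hC hD4 B K
  have hom0 : 0 < B.om := by
    unfold OBD.om
    linarith [B.ob.eg_lt]
  have hom1 : B.om ≤ 1 / 8 := by
    have h1 : B.om ≤ cg / 8 := B.omle
    have h2 := B.cg1
    linarith
  have hcg1 := B.cg1
  obtain ⟨A, hA⟩ : ∃ A, A = P0s * D ^ 2 := ⟨_, rfl⟩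
  obtain ⟨Am, hAm⟩ : ∃ Am, Am = 1 / (P0s * D ^ 9) := ⟨_, rfl⟩
  obtain ⟨an, han⟩ : ∃ an, an = 1 / (2 * P0s * D ^ 8) := ⟨_, rfl⟩
  have hA1 : 1 ≤ A := by
    rw [hA]
    have := one_le_pow₀ (n := 2) hD1
    nlinarith
  have hAm0 : 0 < Am := by rw [hAm]; positivity
  have han0 : 0 < an := by rw [han]; positivity
  obtain ⟨Ra2, hRa2⟩ := prm_exists (D := D) (om := B.om) (m2 := cg / 32)
    (CD := max K' (16 * C0 * D)) (Cu := K') (CuD := 64 * C0 * D) (d1 := 1 / C0) (A := A)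
    (Ac := P0s) (Am := Am) (an := an) hD4 hom0 hom1 (by positivity) (by linarith)
    (le_max_of_le_left hK') (by linarith) (by positivity) (by positivity) hA1 hP0 hAm0 han0
  refine ⟨max (max Ra1 Ra2) K', fun R1 hR1 => ?_⟩
  have r1 : Ra1 ≤ R1 := ((le_max_left _ _).trans (le_max_left _ _)).trans hR1
  have r2 : Ra2 ≤ R1 := ((le_max_right _ _).trans (le_max_left _ _)).trans hR1
  have r3 : K' ≤ R1 := (le_max_right _ _).trans hR1
  obtain ⟨Cs, l2, hCs, hl2, hshell⟩ := hRa1 R1 r1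
  obtain ⟨Kp, K1, K2, l3, hK1, hK2, hl3, hl3', hprm⟩ :=
    hRa2 R1 r2 (2 * Cs * Real.exp (1.2 * (R1 + 1)))
  obtain ⟨n0, hn0⟩ : ∃ n0 : Nu, n0 = ⟨D, 0, 0, 0, B.om, cg / 32, max K' (16 * C0 * D), K',
    64 * C0 * D, 0, A, P0s, Am, an, Kp, K1, K2,
    2 * (64 * C0 * D * (A + 1) + 1) / (A * (cg / 32)), R1⟩ := ⟨_, rfl⟩
  rw [← hn0] at hprm
  obtain ⟨l4, hl4, hlc⟩ := shell_lc n0 (by rw [hn0]; exact han0)
  obtain ⟨K2c, l5, hK2c, hl5, hfin⟩ := fin_S n0 (d1 := 1 / C0) (by positivity)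
  refine ⟨K2c, min (min (min l1 l2) (min l3 l4)) l5, hK2c, by positivity, fun lam h0 hlam S => ?_⟩
  have q1 : lam ≤ l1 := hlam.trans ((min_le_left _ _).trans ((min_le_left _ _).trans
    (min_le_left _ _)))
  have q2 : lam ≤ l2 := hlam.trans ((min_le_left _ _).trans ((min_le_left _ _).trans
    (min_le_right _ _)))
  have q3 : lam ≤ l3 := hlam.trans ((min_le_left _ _).trans ((min_le_right _ _).trans
    (min_le_left _ _)))
  have q4 : lam ≤ l4 := hlam.trans ((min_le_left _ _).trans ((min_le_right _ _).trans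
    (min_le_right _ _)))
  have q5 : lam ≤ l5 := hlam.trans (min_le_right _ _)
  obtain ⟨hsfn, hκ, hκS, ho1, ho2, hd1, hd2⟩ := hsys A P0s Am an Kp K1 K2
    (2 * (64 * C0 * D * (A + 1) + 1) / (A * (cg / 32))) R1 r3 lam h0 q1 S
  have pr : Prm (n0.upd lam S.κ S.κS S.dip) :=
    hprm lam S.κ S.κS S.dip h0 q3 hκ.1 hκ.2 hκS.1 hκS.2 ho1 ho2 hd1 hd2
  have hS : SFn (n0.upd lam S.κ S.κS S.dip) S.F S.c S.P S.N := by
    rw [hn0]; exact hsfn
  have hp : (n0.upd lam S.κ S.κS S.dip).p = 2 * (1 - lam) / S.κ - 1 := by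
    rw [hn0]; rfl
  have hpS : (n0.upd lam S.κ S.κS S.dip).pS = 2 * (1 - lam) / S.κS - 1 := by
    rw [hn0]; rfl
  have shA := hshell lam h0 q2 S
  have eR : (n0.upd lam S.κ S.κS S.dip).R = R1 := by rw [hn0]; rfl
  have eR0 : n0.R = R1 := by rw [hn0]
  have eD : (n0.upd lam S.κ S.κS S.dip).D = D := by rw [hn0]; rfl
  have eD0 : n0.D = D := by rw [hn0]
  have eκ : (n0.upd lam S.κ S.κS S.dip).κ = S.κ := rfl
  have eκS : (n0.upd lam S.κ S.κS S.dip).κS = S.κS := rfl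
  have el : (n0.upd lam S.κ S.κS S.dip).lam = lam := rfl
  have eA : (n0.upd lam S.κ S.κS S.dip).A = A := by rw [hn0]; rfl
  have eAc : (n0.upd lam S.κ S.κS S.dip).Ac = P0s := by rw [hn0]; rfl
  have eAm : (n0.upd lam S.κ S.κS S.dip).Am = Am := by rw [hn0]; rfl
  have ean : (n0.upd lam S.κ S.κS S.dip).an = an := by rw [hn0]; rfl
  have eAm0 : n0.Am = Am := by rw [hn0]
  have ean0 : n0.an = an := by rw [hn0]
  have eK1 : (n0.upd lam S.κ S.κS S.dip).K1 = K1 := by rw [hn0]; rfl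
  have eK2 : (n0.upd lam S.κ S.κS S.dip).K2 = K2 := by rw [hn0]; rfl
  have sh : ∀ᵐ x : Pos3, x ∈ (HExt (n0.upd lam S.κ S.κS S.dip).R 2 : Set Pos3) →
      ‖x‖ < (n0.upd lam S.κ S.κS S.dip).R + 1 →
      UpS (n0.upd lam S.κ S.κS S.dip) S.F S.c S.P S.N x := by
    filter_upwards [shA] with x hx hxH hxr
    have hxR : R1 < ‖x‖ := by have := hxH.1; rwa [eR] at this
    obtain ⟨s1, s2, s3, s4, s5, s6⟩ := hx hxR (by rwa [eR] at hxr) hxH.2
    refine shell_up pr (Cs := Cs) (by linarith) (by rw [eR, eK1]; exact hK1)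
      (by rw [eR, eK2]; exact hK2) hxH hxr ?_ (by rw [el]; exact s3) ?_ (by rw [el]; exact s6)
    · rw [eA, eD, eκ, hp, hA]; exact s1
    · rw [eAc, eD, eκS, hpS]; exact s4
  have up := up_S pr hS sh
  have lf := low_F pr hS up (by
    filter_upwards [shA] with x hx hxH hxr
    have hxR : R1 < ‖x‖ := by have := hxH.1; rwa [eR] at this
    obtain ⟨s1, s2, s3, s4, s5, s6⟩ := hx hxR (by rwa [eR] at hxr) hxH.2
    rw [eAm, eD, eκ, hp, hAm, one_div, inv_mul_le_iff₀ (by positivity)]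
    exact s2)
  have lf2 : ∀ᵐ x : Pos3, x ∈ (HExt (n0.upd lam S.κ S.κS S.dip).R 2 : Set Pos3) →
      (n0.upd lam S.κ S.κS S.dip).Am / 2 * Ox (n0.upd lam S.κ S.κS S.dip).D
        (n0.upd lam S.κ S.κS S.dip).κ (n0.upd lam S.κ S.κS S.dip).p (-1) x ≤ S.F x := by
    filter_upwards [lf] with x hx hxH using (hx hxH).2
  have lcc := low_c pr hS up lf2 (by
    filter_upwards [shA] with x hx hxH hxr
    have hxR : R1 < ‖x‖ := by have := hxH.1; rwa [eR] at this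
    obtain ⟨s1, s2, s3, s4, s5, s6⟩ := hx hxR (by rwa [eR] at hxr) hxH.2
    refine hlc lam S.κ S.κS S.dip q4 pr S.c x hxH hxr ?_
    have e1 : 2 * n0.an = (P0s * D ^ 8)⁻¹ := by rw [ean0, han]; field_simp
    rw [e1, eD0, inv_mul_le_iff₀ (by positivity)]
    exact s5)
  have hPc := const_le (P0s := P0s) (C0 := C0) (D := D) (cg := cg) hP0 hC hD4 hcg hA hAm han
  filter_upwards [up, lf2, lcc] with x hu hf hc hx
  have hxH : x ∈ (HExt (n0.upd lam S.κ S.κS S.dip).R 2 : Set Pos3) := by rw [eR]; exact hx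
  have hxH0 : x ∈ (HExt n0.R 2 : Set Pos3) := hxH
  have hF := hf hxH
  have fin := hfin lam S.κ S.κS S.dip q5 hd1 pr S.F S.c S.P S.N x hxH0 (hS.P0 x) (hS.N0 x)
    (hu hxH) hF (hc hxH)
  have hfar := (pr.far2 hxH).far
  have hO0 : 0 ≤ Ox D S.κ (2 * (1 - lam) / S.κ - 1) (-1) x := by
    have := Ox_nonneg (pr.mp (Or.inr rfl)) hfar.reg
    rwa [eD, eκ, hp] at this
  have hF' : Am / 2 * Ox D S.κ (2 * (1 - lam) / S.κ - 1) (-1) x ≤ S.F x := by
    rw [eAm, eD, eκ, hp] at hF; exact hF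
  have hF0 : 0 ≤ S.F x := le_trans (by positivity) hF'
  have hPx : 2 * n0.A + 2 / n0.Am + 1 / n0.an + 80 / (n0.Am * (1 / C0) * n0.D) +
          n0.Ac + 12 * n0.A * n0.D + 106 * n0.A * n0.D ^ 2 +
          n0.K3 * n0.A * (1 + 4.4 * n0.D / n0.m2) + 1 ≤
      (P0s * (200 + 80 * C0) + 64 / cg * (128 * C0 * P0s + 1) * (1 + 141 / cg)) * D ^ 20 := by
    rw [hn0]; exact hPc
  have hUc := hfar.reg.mem
  have hn : ∀ κ : ℝ, (9 / 10 ≤ κ ∧ κ ≤ 11 / 10) → 0 ≤ CX.SS D κ (2 * (1 - lam)) (-1) x ∧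
      0 ≤ CX.SS D κ (2 * (1 - lam)) 1 x ∧ 0 ≤ CX.OO D κ (2 * (1 - lam)) (-1) x ∧
      0 ≤ CX.OO D κ (2 * (1 - lam)) 1 x := by
    intro κ hk
    have hl20 : lam ≤ 1 / 20 := q3.trans hl3'
    have hU : x ∈ XT.Uc D := by have := hUc; rwa [eD] at this
    have hreg : XReg D x := by have := hfar.reg; rwa [eD] at this
    rw [TX.SS_eq hU, TX.SS_eq hU, TX.OO_eq hU, TX.OO_eq hU]
    refine ⟨(Sx_pos (TX.mpar hk.1 hk.2 h0.le hl20 (by left; norm_num)) hreg).le, ?_, ?_, ?_⟩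
    · exact (Sx_pos (TX.mpar hk.1 hk.2 h0.le hl20 (by right; norm_num)) hreg).le
    · exact Ox_nonneg (TX.mpar hk.1 hk.2 h0.le hl20 (by left; norm_num)) hreg
    · exact Ox_nonneg (TX.mpar hk.1 hk.2 h0.le hl20 (by right; norm_num)) hreg
  obtain ⟨n1, n2, n3, n4⟩ := hn S.κ hκ
  obtain ⟨m1, m2, m3, m4⟩ := hn S.κS hκS
  have eQ : (n0.upd lam S.κ S.κS S.dip).Q = 2 * (1 - lam) := rfl
  have eom : (n0.upd lam S.κ S.κS S.dip).om = B.om := by rw [hn0]; rfl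
  generalize 2 * n0.A + 2 / n0.Am + 1 / n0.an + 80 / (n0.Am * (1 / C0) * n0.D) +
          n0.Ac + 12 * n0.A * n0.D + 106 * n0.A * n0.D ^ 2 +
          n0.K3 * n0.A * (1 + 4.4 * n0.D / n0.m2) + 1 = Pc at fin hPx
  generalize (P0s * (200 + 80 * C0) + 64 / cg * (128 * C0 * P0s + 1) * (1 + 141 / cg)) * D ^ 20 = P'
    at hPx ⊢
  have mono : ∀ {v w : ℝ}, 0 ≤ w → v ≤ Pc * w → v ≤ P' * w := fun hw hv =>
    hv.trans (mul_le_mul_of_nonneg_right hPx hw)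
  have g1 := fin.Flow
  have g2 := fin.Fup
  have g3 := fin.clow
  have g4 := fin.cup
  have g5 := fin.Nc
  have g6 := fin.Nup
  have g7 := fin.Pf
  rw [eD, eκ, eQ] at g1 g2
  rw [eD, eκ, eκS, eQ, el, eom] at g3 g4 g6
  rw [el] at g7
  have hx2 : 0 < x 2 := hx.2
  have hr0 : 0 < ‖x‖ := hfar.rpos
  have hUP : 0 ≤ BO.UP D S.κ S.κS lam B.om x := by
    unfold BO.UP
    have := h0.le
    positivity
  have hc0 : 0 ≤ S.c x := by
    have h1 := hc hxH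
    refine le_trans ?_ h1
    have a1 : 0 ≤ Sx (n0.upd lam S.κ S.κS S.dip).D (n0.upd lam S.κ S.κS S.dip).κS
        (n0.upd lam S.κ S.κS S.dip).pS (-1) x := (Sx_pos (pr.mpS (Or.inr rfl)) hfar.reg).le
    have a2 : 0 ≤ Sx (n0.upd lam S.κ S.κS S.dip).D (n0.upd lam S.κ S.κS S.dip).κ
        (n0.upd lam S.κ S.κS S.dip).p (-1) x := (Sx_pos (pr.mp (Or.inr rfl)) hfar.reg).le
    have a3 : 0 ≤ Ox (n0.upd lam S.κ S.κS S.dip).D (n0.upd lam S.κ S.κS S.dip).κ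
        (n0.upd lam S.κ S.κS S.dip).p (-1) x := Ox_nonneg (pr.mp (Or.inr rfl)) hfar.reg
    have a4 := hz_nonneg hfar
    have a5 := (ri_pos 4 hr0).le
    have a6 := pr.an0
    have a7 := pr.Am0
    have a8 := pr.l0
    have a9 := pr.dS0
    have a10 := pr.q20
    have a11 := pr.k1
    have a12 := hfar.Dpos
    have a13 : 0 < (n0.upd lam S.κ S.κS S.dip).κ := by linarith
    unfold Nu.lc Nu.αl Nu.βl
    positivity
  refine ⟨mono hF0 g1, mono n3 g2, mono hc0 g3, mono hUP g4, g5, mono hUP g6, g7, hF0, ?_⟩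
  have h1 : Am = 1 / (P0s * D ^ 9) := hAm
  rw [h1] at hF'
  have h2 : 1 / (P0s * D ^ 9) / 2 = (2 * P0s * D ^ 9)⁻¹ := by field_simp
  rw [h2, inv_mul_le_iff₀ (by positivity)] at hF'
  exact hF'

end Crest.Agent.R335.BR
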