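import Crest.Agent.R335.BRTf
import Crest.Agent.R335.BSup
import Crest.Agent.R335.SyEnd

/-!
Row 335 (S0521), Part B sections 5-6 (note 10383), triplet sector (helper465): **the triplet part
of `BO.scal`**.  `OutT S Y P K2 x` bundles the bounds for `Y = YT`, `YB`.
-/

set_option autoImplicit false
set_option linter.unusedSectionVars false
set_option linter.unusedVariables false

open MeasureTheory Filter Set Crest.MathPhysics.ThreeBody
open scoped ENNReal Topology ContDiff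

noncomputable section
namespace Crest.Agent.R335.BRT
open Crest.Agent.R335

set_option maxHeartbeats 1600000 in
/-- **triplet sector** -/
theorem scalT {cg C0 : ℝ} (hcg : 0 < cg) (hC : 1 ≤ C0) :
    ∃ P0 D0 : ℝ, 1 ≤ P0 ∧ 4 ≤ D0 ∧ ∀ D : ℝ, D0 ≤ D → ∀ (B : OBD cg C0 D) (K : ℝ),
      ∃ Ra : ℝ, ∀ R1 : ℝ, Ra ≤ R1 → ∃ K2 l' : ℝ, 1 ≤ K2 ∧ 0 < l' ∧
        ∀ lam, 0 < lam → lam ≤ l' → ∀ S : Sys B K lam, ∀ Y, Y = S.YT ∨ Y = S.YB →
          ∀ P K2', P0 * D ^ 7 ≤ P → K2 ≤ K2' →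
            ∀ᵐ x : Pos3, x ∈ UpExt R1 → OutT S Y P K2' x := by
  obtain ⟨C1, D₀, hC1, hD₀, hb⟩ := OG.obd_bounds (C0 := C0) (by linarith)
  obtain ⟨D₀', hD₀', hb'⟩ := OG.obd_hyps (C0 := C0) (by linarith)
  refine ⟨4 * C1, max D₀ D₀', by linarith, by linarith [le_max_left D₀ D₀'], ?_⟩
  intro D hD B K
  have hDa : D₀ ≤ D := (le_max_left _ _).trans hD
  have hDb : D₀' ≤ D := (le_max_right _ _).trans hD
  have hD3000 : 3000 ≤ D := hD₀.trans hDa
  have hD1 : 1 ≤ D := by linarith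
  have hD0 : 0 < D := by linarith
  have heg := (hb' cg D hDb B).1
  obtain ⟨CD, l1, hCD, hl1, hT⟩ := Crest.Agent.R335.sys_T hC (by linarith : 4 ≤ D) B K
  obtain ⟨Ks, l2, hKs, hl2, hs⟩ := Crest.Agent.R335.sup_small hC (by linarith : 4 ≤ D) B K
  obtain ⟨Kn, l3, hKn, hl3, hn⟩ := Crest.Agent.R335.numbers hC (by linarith : 4 ≤ D) B K
  have hom : 0 < B.om := by
    have := B.ob.eg_lt
    unfold OBD.om; linarith
  have ha : 0 < B.a := by unfold OBD.a; linarith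
  have hcg1 := B.cg1
  have hom1 := B.omle
  have ham : B.a ≤ cg / 32 := by
    unfold OBD.a
    have : B.om ≤ cg / 8 := hom1
    linarith
  obtain ⟨Rp, hRp1, hRp2, hPt⟩ := XS.Pt (D := D) (a := B.a) hD1 ha
  refine ⟨max (max CD Rp) (max (384 / cg) (D ^ 3)), fun R1 hR1 => ?_⟩
  have r1 : CD ≤ R1 := ((le_max_left _ _).trans (le_max_left _ _)).trans hR1
  have r2 : Rp ≤ R1 := ((le_max_right _ _).trans (le_max_left _ _)).trans hR1
  have r3 : 384 / cg ≤ R1 := ((le_max_left _ _).trans (le_max_right _ _)).trans hR1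
  have r4 : D ^ 3 ≤ R1 := ((le_max_right _ _).trans (le_max_right _ _)).trans hR1
  have hR0 : 0 ≤ R1 := by linarith
  have hs0 : 0 < s0 D R1 := s0_pos hR0
  -- the constants
  obtain ⟨X7, hX7⟩ : ∃ X7, X7 = C1 * D ^ 7 := ⟨_, rfl⟩
  have hX71 : 1 ≤ X7 := by
    rw [hX7]; exact one_le_mul_of_one_le_of_one_le hC1 (one_le_pow₀ hD1)
  have hX72 : C1 ≤ X7 := by
    rw [hX7]; exact le_mul_of_one_le_right (by linarith) (one_le_pow₀ hD1)
  obtain ⟨At, hAt⟩ : ∃ At, At = 2 * C1 + 1 := ⟨_, rfl⟩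
  obtain ⟨aT, haT⟩ : ∃ aT, aT = 1 / (4 * C1 * D ^ 7) := ⟨_, rfl⟩
  have haT' : aT = 1 / (4 * X7) := by rw [haT, hX7]; congr 1; ring
  have hAt0 : 3 ≤ At := by linarith
  have haT0 : 0 < aT := by rw [haT']; positivity
  have haT1 : aT ≤ 1 := by
    rw [haT', div_le_one (by positivity)]; linarith
  have haTX : 4 * X7 * aT = 1 := by rw [haT']; field_simp
  obtain ⟨KT, hKT⟩ : ∃ KT, KT = 384 * CD * (At + 2) / cg + Ks * (R1 + 1) ^ 2 / s0 D R1 := ⟨_, rfl⟩
  have hKTa : 0 < 384 * CD * (At + 2) / cg := by positivity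
  have hKTb : 0 ≤ Ks * (R1 + 1) ^ 2 / s0 D R1 := by positivity
  have hKT0 : 0 < KT := by linarith
  have hKT1 : 6 * CD * (At + 2) ≤ KT * (cg / 32 / 2) := by
    have : 384 * CD * (At + 2) / cg * (cg / 32 / 2) = 6 * CD * (At + 2) := by
      field_simp; norm_num
    rw [← this]
    exact mul_le_mul_of_nonneg_right (by linarith) (by positivity)
  have hKT2 : Ks * (R1 + 1) ^ 2 ≤ KT * s0 D R1 := by
    rw [← div_le_iff₀ hs0]; linarith
  obtain ⟨l4, hl4, c4⟩ := small1 20 one_pos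
  obtain ⟨l5, hl5, c5⟩ := small1 (64 * CD) one_pos
  obtain ⟨l6, hl6, c6⟩ := small1 (8 * KT) one_pos
  obtain ⟨l7, hl7, c7⟩ := small1 (CD * (At + 1) * 20) haT0
  obtain ⟨l8, hl8, c8⟩ := small1 (2 * K) hom
  obtain ⟨l9, hl9, c9⟩ := small1 ((3 * Kn + 3) * (R1 + 1 + D) * 4) one_pos
  obtain ⟨l10, hl10, c10⟩ := small1 (Ks * (10 * C1 * D ^ 7)) hs0
  refine ⟨4 * X7 + 10 * D * KT, min (min (min l1 l2) (min l3 l4))
    (min (min (min l5 l6) (min l7 l8)) (min l9 l10)), ?_, ?_, ?_⟩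
  · have : 0 ≤ 10 * D * KT := by positivity
    linarith
  · simp only [lt_min_iff]
    exact ⟨⟨⟨hl1, hl2⟩, hl3, hl4⟩, ⟨⟨hl5, hl6⟩, hl7, hl8⟩, hl9, hl10⟩
  intro lam hlam hlam' S Y hY P K2 hP hK2
  simp only [le_min_iff] at hlam'
  obtain ⟨⟨⟨m1, m2⟩, m3, m4⟩, ⟨⟨m5, m6⟩, m7, m8⟩, m9, m10⟩ := hlam'
  have C4 := c4 lam hlam m4
  have C5 := c5 lam hlam m5
  have C6 := c6 lam hlam m6
  have C7 := c7 lam hlam m7
  have C8 := c8 lam hlam m8
  have C9 := c9 lam hlam m9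
  have C10 := c10 lam hlam m10
  obtain ⟨⟨k1, k2⟩, -, ⟨kT1, kT2⟩, -, -, hnT, -, -⟩ := hn lam hlam m3 S
  have hKl : KT * lam ≤ 1 / 8 := by linarith
  have hKl0 : 0 ≤ KT * lam := mul_nonneg hKT0.le hlam.le
  have hCD0 : 0 < CD := by linarith
  have hq : lam * (CD * (At + 6 * (KT * lam))) ≤ aT / 20 := by
    have h1 : lam * (CD * (At + 6 * (KT * lam))) ≤ lam * (CD * (At + 1)) :=
      mul_le_mul_of_nonneg_left (mul_le_mul_of_nonneg_left (by linarith) hCD0.le) hlam.le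
    linarith
  have hCA : CD ≤ CD * (At + 2) := le_mul_of_one_le_right hCD0.le (by linarith)
  have hprm : PrmT D lam S.κT (2 * (1 - lam) / S.κT - 1) B.a (cg / 32) CD At KT aT R1 := by
    refine ⟨hD1, hlam, by linarith, kT1, kT2, rfl, ha, ham, by linarith, by linarith, hCD,
      by linarith, hKT0, haT0, hRp1.trans r2, hRp2.trans (mul_le_mul_of_nonneg_left r2 ha.le), ?_,
      fun κ Q p hm x hx hz => hPt κ Q p hm x (r2.trans hx) hz, ?_, ?_, ?_, ?_, ?_, ?_, ?_⟩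
    · rw [div_le_iff₀ hcg] at r3
      linarith
    · -- t1
      have h1 : aT / 20 ≤ At * (S.κT / 8) := by
        have : 3 * (9 / 10 / 8) ≤ At * (S.κT / 8) :=
          mul_le_mul hAt0 (by linarith) (by norm_num) (by linarith)
        linarith
      linarith
    · -- n1
      have h1 : CD * (At + 4 * (KT * lam)) ≤ CD * (At + 2) :=
        mul_le_mul_of_nonneg_left (by linarith) hCD0.le
      linarith
    · linarith
    · -- p1
      have h1 : CD * (At + 2 * (KT * lam)) ≤ CD * (At + 2) :=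
        mul_le_mul_of_nonneg_left (by linarith) hCD0.le
      linarith
    · -- p2
      have h1 : CD * (At + 4 * (KT * lam) + 1) ≤ CD * (At + 2) :=
        mul_le_mul_of_nonneg_left (by linarith) hCD0.le
      linarith
    · linarith
    · have h1 : aT / 20 ≤ aT * (S.κT / 16) := by
        have : aT * (1 / 20) ≤ aT * (S.κT / 16) :=
          mul_le_mul_of_nonneg_left (by linarith) haT0.le
        linarith
      linarith
  have hfn := tfn S hY r1 (hT lam hlam m1 S Y hY)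
  have hsm := hs lam hlam m2 S
  have hsh := shell S hY (C1 := C1) (Kn := Kn) (Ks := Ks) hprm hC1 hAt haT heg r4 hKs.le
    (fun x h1 h2 => ⟨(hb cg D hDa B x h1 h2).1, (hb cg D hDa B x h1 h2).2.1⟩) hnT C9 C10 hKT2
    (by filter_upwards [hsm] with x hx using ⟨hx.2.2.2.2.1, hx.2.2.2.2.2.1, hx.2.2.2.2.2.2⟩)
  have hup := upper hprm hfn (by filter_upwards [hsh] with x hx h1 h2 using (hx h1 h2).1)
  have hlo := lower hprm hfn hup (by filter_upwards [hsh] with x hx h1 h2 using (hx h1 h2).2)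
  have hκκ : S.κ ≤ S.κT := by
    unfold Sys.κ Sys.κT
    refine Real.sqrt_le_sqrt ?_
    have h1 := (abs_le.1 S.e0n).2
    have h2 := (abs_le.1 S.eTn).1
    have h3 : B.eu = B.om + B.eg := by unfold OBD.om; ring
    linarith
  have hD7 : (1 : ℝ) ≤ D ^ 7 := one_le_pow₀ hD1
  have hPX : 4 * X7 ≤ P := by rw [hX7]; linarith
  have hKK : 0 ≤ 10 * D * KT := by positivity
  filter_upwards [hup, hlo] with x hu hl hx
  have hxH : x ∈ (HExt R1 2 : Set Pos3) := ⟨hx.1, hx.2⟩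
  refine out_pt S hprm k1 hκκ hKl (by linarith) ?_ (by linarith) ?_ (by linarith) hxH (hu hxH)
    (hl hxH)
  · rw [← haTX]; exact mul_le_mul_of_nonneg_right hPX haT0.le
  · rw [← haTX]; exact mul_le_mul_of_nonneg_right (by linarith) haT0.le

end Crest.Agent.R335.BRT
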