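import Crest.Agent.R335.BRScS
import Crest.Agent.R335.BRT

/-!
Row 335 (S0521), Part B sections 4-7: `scal` (the bounds R1-R4), of the type of `BO.scal`.
-/

set_option autoImplicit false
set_option linter.unusedSectionVars false
set_option linter.unusedVariables false

open MeasureTheory Filter Set Crest.MathPhysics.ThreeBody
open scoped ENNReal Topology ContDiff

noncomputable section
namespace Crest.Agent.R335
open Crest.Agent.R335.BR

theorem scal {cg C0 : ℝ} (hcg : 0 < cg) (hC : 1 ≤ C0) :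
    ∃ P0 D0 : ℝ, 1 ≤ P0 ∧ 4 ≤ D0 ∧ ∀ D : ℝ, D0 ≤ D → ∀ (B : OBD cg C0 D) (K : ℝ),
      ∃ Ra : ℝ, ∀ R1 : ℝ, Ra ≤ R1 → ∃ K2 l' : ℝ, 1 ≤ K2 ∧ 0 < l' ∧
        ∀ lam, 0 < lam → lam ≤ l' → ∀ S : Sys B K lam,
          ∀ᵐ x, x ∈ UpExt R1 → BO.Scal S (P0 * D ^ 20) K2 x := by
  obtain ⟨P1, PF, D1, hP1, hPF, hD1, HS⟩ := BR.scal_S hcg hC
  obtain ⟨P2, D2, hP2, hD2, HT⟩ := BRT.scalT hcg hC
  refine ⟨P1 + P2, max (max D1 D2) 4, by linarith, le_max_right _ _, fun D hD B K => ?_⟩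
  have d1 : D1 ≤ D := ((le_max_left _ _).trans (le_max_left _ _)).trans hD
  have d2 : D2 ≤ D := ((le_max_right _ _).trans (le_max_left _ _)).trans hD
  have hD4 : 4 ≤ D := (le_max_right _ _).trans hD
  have hD1' : 1 ≤ D := by linarith
  obtain ⟨Ra1, h1⟩ := HS D d1 B K
  obtain ⟨Ra2, h2⟩ := HT D d2 B K
  refine ⟨max (max Ra1 Ra2) (D + 100), fun R1 hR => ?_⟩
  have r1 : Ra1 ≤ R1 := ((le_max_left _ _).trans (le_max_left _ _)).trans hR
  have r2 : Ra2 ≤ R1 := ((le_max_right _ _).trans (le_max_left _ _)).trans hR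
  have r3 : D + 100 ≤ R1 := (le_max_right _ _).trans hR
  obtain ⟨K2S, l1, hK1, hl1, g1⟩ := h1 R1 r1
  obtain ⟨K2T, l2, hK2, hl2, g2⟩ := h2 R1 r2
  obtain ⟨K5, hK5⟩ : ∃ K5, K5 = (K2S + K2T) * ((P1 + P2) * D ^ 20) := ⟨_, rfl⟩
  have hDp : 1 ≤ D ^ 20 := one_le_pow₀ hD1'
  have hPD : 1 ≤ (P1 + P2) * D ^ 20 := by nlinarith
  have hKK : K2S + K2T ≤ K5 := by
    rw [hK5]
    exact le_mul_of_one_le_right (by linarith) hPD
  have hP1D : P1 * D ^ 20 ≤ (P1 + P2) * D ^ 20 :=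
    mul_le_mul_of_nonneg_right (by linarith) (by positivity)
  have hP2D : P2 * D ^ 7 ≤ (P1 + P2) * D ^ 20 := by
    have a1 : D ^ 7 ≤ D ^ 20 := pow_le_pow_right₀ hD1' (by norm_num)
    exact mul_le_mul (by linarith) a1 (by positivity) (by linarith)
  refine ⟨K5, min (min l1 l2) (1 / 20), by linarith, by positivity, fun lam h0 hl S => ?_⟩
  have q1 : lam ≤ l1 := hl.trans ((min_le_left _ _).trans (min_le_left _ _))
  have q2 : lam ≤ l2 := hl.trans ((min_le_left _ _).trans (min_le_right _ _))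
  have q3 : lam ≤ 1 / 20 := hl.trans (min_le_right _ _)
  have t1 := g2 lam h0 q2 S S.YT (Or.inl rfl) ((P1 + P2) * D ^ 20) K2T hP2D le_rfl
  have t2 := g2 lam h0 q2 S S.YB (Or.inr rfl) ((P1 + P2) * D ^ 20) K2T hP2D le_rfl
  filter_upwards [g1 lam h0 q1 S, t1, t2] with x hs ht1 ht2 hx
  have s := hs hx
  have u := ht1 hx
  have v := ht2 hx
  have hr : 0 < ‖x‖ := by
    have h9 : R1 < ‖x‖ := hx.1
    linarith
  obtain ⟨P, hP⟩ : ∃ P, P = (P1 + P2) * D ^ 20 := ⟨_, rfl⟩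
  rw [← hP] at u v hP1D hPD hK5 ⊢
  obtain ⟨s1, s2, s3, s4, s5, s6, s7, s8, s9⟩ := s
  have hN0 : 0 ≤ S.N x := Real.sqrt_nonneg _
  have hPp : 0 < P1 * D ^ 20 := by positivity
  have hP0 : 0 < P := lt_of_lt_of_le hPp hP1D
  have hK0 : 0 ≤ K5 := by linarith
  have c0 : 0 ≤ S.c x := by
    by_contra hc
    have : K2S * S.c x < 0 := mul_neg_of_pos_of_neg (by linarith) (not_le.1 hc)
    linarith
  have up0 : 0 ≤ BO.UP D S.κ S.κS lam B.om x := by
    by_contra hc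
    have : P1 * D ^ 20 * BO.UP D S.κ S.κS lam B.om x < 0 :=
      mul_neg_of_pos_of_neg hPp (not_le.1 hc)
    linarith
  have oo0 : 0 ≤ CX.OO D S.κ (2 * (1 - lam)) (-1) x := by
    by_contra hc
    have : P1 * D ^ 20 * CX.OO D S.κ (2 * (1 - lam)) (-1) x < 0 :=
      mul_neg_of_pos_of_neg hPp (not_le.1 hc)
    linarith
  have mono : ∀ {v w : ℝ}, 0 ≤ w → v ≤ P1 * D ^ 20 * w → v ≤ P * w := fun hw hv =>
    hv.trans (mul_le_mul_of_nonneg_right hP1D hw)
  have hw : 0 ≤ lam / ‖x‖ ^ 2 := by positivity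
  have hPT : ∀ w, w ≤ K2T * lam / ‖x‖ ^ 2 * CX.OO D S.κ (2 * (1 - lam)) 1 x →
      w ≤ K5 * lam / ‖x‖ ^ 2 * S.F x := by
    intro w hw'
    have a1 : 0 ≤ K2T * lam / ‖x‖ ^ 2 := by positivity
    have a2 := mul_le_mul_of_nonneg_left (mono s8 s1) a1
    have a3 : K2T * lam / ‖x‖ ^ 2 * (P * S.F x) = K2T * P * (lam / ‖x‖ ^ 2) * S.F x := by ring
    have a4 : K2T * P * (lam / ‖x‖ ^ 2) * S.F x ≤ K5 * (lam / ‖x‖ ^ 2) * S.F x := by
      refine mul_le_mul_of_nonneg_right (mul_le_mul_of_nonneg_right ?_ hw) s8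
      rw [hK5]
      exact mul_le_mul_of_nonneg_right (by linarith) hP0.le
    have a5 : K5 * (lam / ‖x‖ ^ 2) * S.F x = K5 * lam / ‖x‖ ^ 2 * S.F x := by ring
    linarith
  exact
    { Flow := mono s8 s1
      Fup := mono oo0 s2
      clow := mono c0 s3
      cup := mono up0 s4
      tT0 := u.t0
      tB0 := v.t0
      tTup := u.up
      tBup := v.up
      Nup := mono up0 s6
      NTup := u.NTup
      NBup := v.NTup
      N := s5.trans (mul_le_mul_of_nonneg_right (by linarith) c0)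
      NT := u.NT.trans (mul_le_mul_of_nonneg_right (by linarith) u.t0)
      NB := v.NT.trans (mul_le_mul_of_nonneg_right (by linarith) v.t0)
      P := by
        refine s7.trans (mul_le_mul_of_nonneg_right ?_ s8)
        exact div_le_div_of_nonneg_right (mul_le_mul_of_nonneg_right (by linarith) h0.le)
          (by positivity)
      PT := hPT _ u.PT
      PB := hPT _ v.PT }

end Crest.Agent.R335
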