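import Crest.Agent.R335.BRShell

/-!
Row 335 (S0521), Part B sections 5-6 (note 10383): the bounds on the inner shell
`R₁ < |x| < R₁ + 1`, T-sector (helper284).
-/

set_option autoImplicit false
set_option linter.unusedVariables false

open MeasureTheory Filter Set Crest.MathPhysics.ThreeBody
open scoped ENNReal Topology ContDiff

noncomputable section
namespace Crest.Agent.R335.BR
open Crest.Agent.R335

theorem ar_t_up {C1 g G1 S1 c e η θ : ℝ} (hC1 : 1 ≤ C1) (hg : 0 ≤ g) (hS : 0 ≤ S1)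
    (h1 : 1 / 2 ≤ θ) (h2 : θ ≤ 1)
    (b : g ≤ C1 * G1) (q : G1 ≤ 2 * S1) (sc : |c - θ * g| ≤ e) (he : e ≤ η * S1)
    (hη : η ≤ 1) : |c| ≤ 40 * C1 * S1 := by
  have a1 : g ≤ 2 * (C1 * S1) := by
    calc g ≤ C1 * G1 := b
      _ ≤ C1 * (2 * S1) := mul_le_mul_of_nonneg_left q (by linarith)
      _ = _ := by ring
  have a2 : η * S1 ≤ 1 * S1 := mul_le_mul_of_nonneg_right hη hS
  have a3 : 1 * S1 ≤ C1 * S1 := mul_le_mul_of_nonneg_right hC1 hS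
  have a4 : θ * g ≤ 1 * g := mul_le_mul_of_nonneg_right h2 hg
  have a5 : 0 ≤ θ * g := mul_nonneg (by linarith) hg
  rw [abs_le] at sc ⊢
  constructor <;> linarith [sc.1, sc.2]

theorem ar_t_low {C1 D g G2 S2 c e η θ : ℝ} (hC1 : 1 ≤ C1) (hD : 1 ≤ D) (hg : 0 ≤ g)
    (hS : 0 ≤ S2) (h1 : 1 / 2 ≤ θ) (h2 : θ ≤ 1)
    (q : S2 ≤ 2 * G2) (b : G2 ≤ C1 * D ^ 7 * g) (sc : |c - θ * g| ≤ e) (he : e ≤ η * S2)
    (hη : 40 * C1 * D ^ 8 * η ≤ 1) : S2 ≤ 40 * C1 * D ^ 8 * c := by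
  have a1 : S2 ≤ 2 * (C1 * D ^ 7 * g) := by
    calc S2 ≤ 2 * G2 := q
      _ ≤ 2 * (C1 * D ^ 7 * g) := mul_le_mul_of_nonneg_left b (by norm_num)
  have a0 : 1 / 2 * g ≤ θ * g := mul_le_mul_of_nonneg_right h1 hg
  rw [abs_le] at sc
  have a2 : g / 2 - η * S2 ≤ c := by linarith [sc.1]
  have c1 := mul_le_mul_of_nonneg_left a2 (show 0 ≤ 40 * C1 * D ^ 8 by positivity)
  have c2 : 40 * C1 * D ^ 8 * η * S2 ≤ 1 * S2 := mul_le_mul_of_nonneg_right hη hS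
  have c3 : 40 * C1 * D ^ 8 * (g / 2 - η * S2) =
      20 * (D * (C1 * D ^ 7 * g)) - 40 * C1 * D ^ 8 * η * S2 := by ring
  rw [c3] at c1
  have c4 : 1 * (C1 * D ^ 7 * g) ≤ D * (C1 * D ^ 7 * g) :=
    mul_le_mul_of_nonneg_right hD (by positivity)
  linarith

/-- **(3.7) on the inner shell**, T-sector -/
theorem shellT {cg C0 : ℝ} (hcg : 0 < cg) (hC : 1 ≤ C0) : ∃ P0 D0 : ℝ, 1 ≤ P0 ∧ 4 ≤ D0 ∧
    ∀ D : ℝ, D0 ≤ D → ∀ (B : OBD cg C0 D) (K : ℝ), ∃ Ra : ℝ, ∀ R1 : ℝ, Ra ≤ R1 →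
      ∃ Cs l' : ℝ, 1 ≤ Cs ∧ 0 < l' ∧ ∀ lam : ℝ, 0 < lam → lam ≤ l' → ∀ S : Sys B K lam,
        ∀ᵐ x : Pos3, R1 < ‖x‖ → ‖x‖ < R1 + 1 → 0 < x 2 → ∀ Y, Y = S.YT ∨ Y = S.YB →
          |S.t Y x| ≤ P0 * Sx D S.κT (2 * (1 - lam) / S.κT - 1) 1 x ∧
          Sx D S.κT (2 * (1 - lam) / S.κT - 1) (-1) x ≤ P0 * D ^ 8 * S.t Y x ∧
          S.NT Y x ≤ Cs * lam ∧ S.PT Y x ≤ Cs * lam * min 1 (x 2) := by
  obtain ⟨C1, D1, hC1, hD1, hob⟩ := OG.obd_bounds (C0 := C0) (by linarith)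
  refine ⟨40 * C1, D1, by linarith, by linarith, fun D hD B K => ?_⟩
  have d1 : 3000 ≤ D := hD1.trans hD
  have hD0 : 0 < D := by linarith
  have hD4 : 4 ≤ D := by linarith
  obtain ⟨K1, l1, hK1, hl1, hnum⟩ := numbers hC hD4 B K
  obtain ⟨K2, l2, hK2, hl2, hsup⟩ := sup_small hC hD4 B K
  refine ⟨max (D ^ 3) (6000 * D ^ 2), fun R1 hR1 => ?_⟩
  have hRa : D ^ 3 ≤ R1 := (le_max_left _ _).trans hR1
  have hRb : 6000 * D ^ 2 ≤ R1 := (le_max_right _ _).trans hR1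
  have hR0 : 0 ≤ R1 := le_trans (by positivity) hRb
  obtain ⟨T, hT⟩ : ∃ T, T = R1 + 1 + D := ⟨_, rfl⟩
  have hT0 : 0 < T := by rw [hT]; linarith
  obtain ⟨CR, hCR⟩ : ∃ CR, CR = 7 * T * Real.exp (2 * T) := ⟨_, rfl⟩
  have hCR0 : 0 < CR := by rw [hCR]; positivity
  refine ⟨max 1 K2, min (min l1 l2) (min (1 / 20) (min (1 / (20 * K1 * T))
    (1 / (40 * C1 * D ^ 8 * (K2 * CR))))), le_max_left _ _, ?_, fun lam hl hle S => ?_⟩
  · have : 0 < K1 := by linarith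
    have : 0 < C1 := by linarith
    positivity
  have hle1 : lam ≤ l1 := hle.trans ((min_le_left _ _).trans (min_le_left _ _))
  have hle2 : lam ≤ l2 := hle.trans ((min_le_left _ _).trans (min_le_right _ _))
  have hle' := hle.trans (min_le_right _ _)
  have hle3 : lam ≤ 1 / 20 := hle'.trans (min_le_left _ _)
  have hle4 : lam ≤ 1 / (20 * K1 * T) :=
    hle'.trans ((min_le_right _ _).trans (min_le_left _ _))
  have hle5 : lam ≤ 1 / (40 * C1 * D ^ 8 * (K2 * CR)) :=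
    hle'.trans ((min_le_right _ _).trans (min_le_right _ _))
  obtain ⟨-, -, ⟨n3, n4⟩, -, -, n6, -, -⟩ := hnum lam hl hle1 S
  have hK10 : 0 < K1 := by linarith
  have hC10 : 0 < C1 := by linarith
  have hs : 20 * K1 * lam * (R1 + 1 + D) ≤ 1 := by
    rw [le_div_iff₀ (by positivity)] at hle4
    rw [← hT]; linarith
  have hη : 40 * C1 * D ^ 8 * (K2 * lam * CR) ≤ 1 := by
    rw [le_div_iff₀ (by positivity)] at hle5
    linarith
  have eg := near_half hD0 B.big B.eg_near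
  obtain ⟨kg1, kg2⟩ := OG.kap_bounds eg
  have cgg : |S.κT ^ 2 - OG.kap B.eg ^ 2| ≤ K1 * lam := by
    rw [kap_sq eg, show S.κT ^ 2 - -2 * B.eg = S.κT ^ 2 + 2 * B.eg by ring]; exact n6
  filter_upwards [hsup lam hl hle2 S] with x hx h1 h2 h3 Y hY
  obtain ⟨-, -, -, -, sT, sB, sY⟩ := hx
  obtain ⟨sN, sP⟩ := sY Y hY
  have hX : XFar D x := ⟨by linarith, h3.le, by linarith⟩
  have hRx : ‖x‖ ≤ R1 + 1 := h2.le
  obtain ⟨b1, b2, b3, b4⟩ := hob cg D hD B x (by linarith) h3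
  obtain ⟨-, -, q3, -⟩ :=
    shell_par n3 n4 kg1 kg2 hl.le hle3 hK1 cgg hs (σ := 1) (Or.inl rfl) hX hRx
  obtain ⟨-, -, -, q4⟩ :=
    shell_par n3 n4 kg1 kg2 hl.le hle3 hK1 cgg hs (σ := -1) (Or.inr rfl) hX hRx
  have m3 : MPar S.κT (2 * (1 - lam)) (2 * (1 - lam) / S.κT - 1) 1 :=
    mpar_lam n3 n4 hl.le hle3 (Or.inl rfl)
  have m4 : MPar S.κT (2 * (1 - lam)) (2 * (1 - lam) / S.κT - 1) (-1) :=
    mpar_lam n3 n4 hl.le hle3 (Or.inr rfl)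
  obtain ⟨-, w3⟩ := shell_low m3 hX hRx
  obtain ⟨-, w4⟩ := shell_low m4 hX hRx
  have s1 := (Sx_pos m3 hX.reg).le
  have s2 := (Sx_pos m4 hX.reg).le
  rw [← hT, ← hCR] at w3 w4
  rw [abs_of_pos h3] at sP
  have hg := B.ob.g_pos x
  have hη0 : 0 ≤ K2 * lam * CR := by positivity
  have hη1 : K2 * lam * CR ≤ 1 := by
    have D8 : 1 ≤ D ^ 8 := one_le_pow₀ (by linarith)
    have e1 := mul_le_mul hC1 D8 zero_le_one hC10.le
    have e2 : (1 : ℝ) ≤ 40 * C1 * D ^ 8 := by linarith only [e1]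
    have e3 := mul_le_mul_of_nonneg_right e2 hη0
    linarith only [e3, hη]
  have hKl : 0 ≤ K2 * lam := by positivity
  have er' : ∀ y : ℝ, 1 ≤ CR * y → K2 * lam ≤ K2 * lam * CR * y := fun y hy => by
    calc K2 * lam = K2 * lam * 1 := by ring
      _ ≤ K2 * lam * (CR * y) := mul_le_mul_of_nonneg_left hy hKl
      _ = _ := by ring
  have hD1' : 1 ≤ D := by linarith
  obtain ⟨r1, r2⟩ := sqrt2_bd
  obtain ⟨θ, t1, t2, sc⟩ : ∃ θ : ℝ, 1 / 2 ≤ θ ∧ θ ≤ 1 ∧ |S.t Y x - θ * B.g x| ≤ K2 * lam := by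
    rcases hY with rfl | rfl
    · refine ⟨1 / √2, ?_, ?_, ?_⟩
      · rw [div_le_div_iff₀ (by norm_num) (by linarith)]; linarith
      · rw [div_le_iff₀ (by linarith)]; linarith
      · rw [show 1 / √2 * B.g x = B.g x / √2 by ring]; exact sT
    · exact ⟨1, by norm_num, le_rfl, by rw [one_mul]; exact sB⟩
  refine ⟨ar_t_up hC1 hg.le s1 t1 t2 b2 q3 sc (er' _ w3) hη1,
    ar_t_low hC1 hD1' hg.le s2 t1 t2 q4 b1 sc (er' _ w4) hη, ?_, ?_⟩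
  · exact sN.trans (mul_le_mul_of_nonneg_right (le_max_right _ _) hl.le)
  · refine sP.trans (mul_le_mul_of_nonneg_right (mul_le_mul_of_nonneg_right
      (le_max_right _ _) hl.le) (le_min zero_le_one h3.le))

end Crest.Agent.R335.BR
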