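import Crest.Agent.R335.BRAbs
import Crest.Agent.R335.BRPar
import Crest.Agent.R335.XConv

/-!
Row 335 (S0521), Part B sections 5-6 (note 10383), triplet sector (helper465): parameters, barriers,
symmetries, potentials, jets.
-/

set_option autoImplicit false
set_option linter.unusedSectionVars false
set_option linter.unusedVariables false

open MeasureTheory Filter Set Crest.MathPhysics.ThreeBody
open scoped ENNReal Topology ContDiff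

noncomputable section
namespace Crest.Agent.R335.BRT
open Crest.Agent.R335

/-! ### symmetry -/

theorem rho_rfl (D : ℝ) (x : Pos3) : ‖rfl' 2 x - nuc D‖ = ‖x - nuc (-D)‖ := by
  have e : rfl' 2 x - nuc D = rfl' 2 (x - nuc (-D)) := by
    rw [rfl'_sub]
    congr 1
    ext i
    rw [rfl'_apply]
    by_cases hi : i = 2
    · subst hi; rw [if_pos rfl, XT.nuc_two, XT.nuc_two]; ring
    · rw [if_neg hi, XT.nuc_ne hi, XT.nuc_ne hi]
  rw [e, norm_rfl']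

theorem rho_rfl' (D : ℝ) (x : Pos3) : ‖rfl' 2 x - nuc (-D)‖ = ‖x - nuc D‖ := by
  rw [rho_rfl, neg_neg]

theorem Sx_rfl (D κ p σ : ℝ) (x : Pos3) : Sx D κ p σ (rfl' 2 x) = Sx D κ p σ x := by
  unfold Sx; rw [rho_rfl, rho_rfl']; ring

theorem Ox_rfl (D κ p σ : ℝ) (x : Pos3) : Ox D κ p σ (rfl' 2 x) = - Ox D κ p σ x := by
  unfold Ox; rw [rho_rfl, rho_rfl']; ring

theorem V2_rfl (D : ℝ) (x : Pos3) : V2 D (rfl' 2 x) = V2 D x := by
  unfold V2; rw [rho_rfl, rho_rfl']; ring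

theorem ri_rfl (n : ℕ) (x : Pos3) : ri n (rfl' 2 x) = ri n x := by
  unfold ri; rw [norm_rfl']

theorem exr_rfl (k : ℝ) (x : Pos3) : exr k (rfl' 2 x) = exr k x := by
  unfold exr; rw [norm_rfl']

theorem abs2_rfl (x : Pos3) : |rfl' 2 x 2| = |x 2| := by
  rw [rfl'_apply, if_pos rfl, abs_neg]

theorem mL_rfl (D lam κ : ℝ) (x : Pos3) : mL D lam κ (rfl' 2 x) = mL D lam κ x := by
  unfold mL; rw [V2_rfl]

/-! ### the exterior region -/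

theorem XFar2_of {D R : ℝ} (hD : 1 ≤ D) (hR : 10 ^ 7 * D ^ 2 ≤ R) {x : Pos3}
    (hx : x ∈ (HExt R 2 : Set Pos3)) : XFar2 D x :=
  ⟨hD, le_of_lt hx.2, hR.trans (le_of_lt hx.1)⟩

/-- both nuclei are far -/
theorem rho_far {D R : ℝ} (hD : 1 ≤ D) (hR : 10 ^ 7 * D ^ 2 ≤ R) {x : Pos3}
    (hx : x ∈ (ExtE R : Set Pos3)) : 100 ≤ ‖x - nuc D‖ ∧ 100 ≤ ‖x - nuc (-D)‖ := by
  have h1 : R < ‖x‖ := hx
  have h2 : 10 ^ 7 * D ≤ 10 ^ 7 * D ^ 2 := by nlinarith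
  have h3 := XT.le_rp x (by linarith : 0 ≤ D)
  have h4 := XT.le_rm x (by linarith : 0 ≤ D)
  constructor <;> linarith

theorem ExtE_ne {R : ℝ} (hR : 0 ≤ R) {x : Pos3} (hx : x ∈ (ExtE R : Set Pos3)) : x ≠ 0 := by
  intro h0
  have h1 : R < ‖x‖ := hx
  rw [h0, norm_zero] at h1
  linarith

theorem ExtE_Ud {D R : ℝ} (hD : 1 ≤ D) (hR : 10 ^ 7 * D ^ 2 ≤ R) :
    (ExtE R : Set Pos3) ⊆ XT.Ud D := by
  intro x hx
  have h := rho_far hD hR hx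
  have hR0 : 0 ≤ R := le_trans (by positivity) hR
  refine ⟨⟨?_, ?_⟩, ExtE_ne hR0 hx⟩
  · rintro rfl
    have := h.1
    rw [sub_self, norm_zero] at this
    linarith
  · rintro rfl
    have := h.2
    rw [sub_self, norm_zero] at this
    linarith

/-- the potential -/
theorem mL_bd {D R lam κ : ℝ} (hD : 1 ≤ D) (hR : 10 ^ 7 * D ^ 2 ≤ R) (l0 : 0 ≤ lam)
    (l1 : lam ≤ 1) (k1 : 9 / 10 ≤ κ) (k2 : κ ≤ 11 / 10) {x : Pos3} (hx : x ∈ (ExtE R : Set Pos3)) :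
    3 / 8 ≤ mL D lam κ x ∧ mL D lam κ x ≤ 3 / 4 := by
  have h := rho_far hD hR hx
  have h1 : R < ‖x‖ := hx
  have h2 : 10 ^ 7 * D ≤ 10 ^ 7 * D ^ 2 := by nlinarith
  have h3 := XT.le_rp x (by linarith : 0 ≤ D)
  have h4 := XT.le_rm x (by linarith : 0 ≤ D)
  have b1 : 1 / ‖x - nuc D‖ ≤ 1 / 1000 := one_div_le_one_div_of_le (by norm_num) (by linarith)
  have b2 : 1 / ‖x - nuc (-D)‖ ≤ 1 / 1000 := one_div_le_one_div_of_le (by norm_num) (by linarith)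
  have b3 : 0 ≤ 1 / ‖x - nuc D‖ := by positivity
  have b4 : 0 ≤ 1 / ‖x - nuc (-D)‖ := by positivity
  unfold mL V2
  constructor
  · nlinarith [mul_nonneg l0 b3, mul_nonneg l0 b4]
  · have : 0 ≤ (1 - lam) * (1 / ‖x - nuc D‖ + 1 / ‖x - nuc (-D)‖) :=
      mul_nonneg (by linarith) (by linarith)
    nlinarith

/-! ### parameters -/

/-- conditions on the parameters of the triplet sector -/
structure PrmT (D lam κ p a m2 CD At KT aT R : ℝ) : Prop where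
  D1 : 1 ≤ D
  l0 : 0 < lam
  l1 : lam ≤ 1 / 20
  κ1 : 9 / 10 ≤ κ
  κ2 : κ ≤ 11 / 10
  pe : p = 2 * (1 - lam) / κ - 1
  a0 : 0 < a
  a1 : a ≤ m2
  m20 : 0 < m2
  m21 : m2 ≤ 1 / 8
  CD1 : 1 ≤ CD
  At0 : 0 < At
  KT0 : 0 < KT
  aT0 : 0 < aT
  -- radius
  r0 : 10 ^ 7 * D ^ 2 ≤ R
  ra : 30 ≤ a * R
  r2 : 12 ≤ m2 * R
  pt : ∀ (κ Q p : ℝ), MPar κ Q p 1 → ∀ x : Pos3, R ≤ ‖x‖ → 0 < x 2 →
    BR.Pt (1 / ‖x‖) ((√‖x‖)⁻¹ ^ 3) (x 2) (Ox D κ p 1 x) (Sx D κ p 1 x) (Bz (κ + a / 8) x)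
      (exr (κ + a / 8) x) (Real.exp (-(a / 2 * ‖x‖))) (Real.exp (-((κ + a / 4) * ‖x‖)))
  -- smallness of λ
  t1 : lam * (CD * (At + 6 * (KT * lam))) ≤ At * (κ / 8)
  n1 : CD * (At + 4 * (KT * lam)) ≤ KT * (m2 / 2)
  n2 : CD ≤ KT * (m2 / 2)
  p1 : 6 * (CD * (At + 2 * (KT * lam))) ≤ KT * (m2 / 2)
  p2 : CD * (At + 4 * (KT * lam) + 1) ≤ KT * (m2 / 2)
  s1 : lam * (16 * CD) ≤ 1 / 4
  L1 : lam * (CD * (At + 6 * (KT * lam))) ≤ aT * (κ / 16)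

namespace PrmT
variable {D lam κ p a m2 CD At KT aT R : ℝ} (h : PrmT D lam κ p a m2 CD At KT aT R)
include h

theorem mp {σ : ℝ} (hσ : σ = 1 ∨ σ = -1) : MPar κ (2 * (1 - lam)) p σ := by
  have h1 := MPar.of_Q (κ := κ) (Q := 2 * (1 - lam)) (σ := σ) (by linarith [h.κ1]) (by linarith [h.κ2])
    (by linarith [h.l1]) (by linarith [h.l0]) hσ
  rw [h.pe]; exact h1

theorem R0 : 0 < R := lt_of_lt_of_le (by have := h.D1; positivity) h.r0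

theorem u_le {x : Pos3} (hx : x ∈ (ExtE R : Set Pos3)) : 1 / ‖x‖ ≤ 1 := by
  have h1 : R < ‖x‖ := hx
  have h2 := h.r0
  have h3 := h.D1
  have h4 : 1 ≤ ‖x‖ := by nlinarith
  rw [div_le_one (by linarith)]
  exact h4

end PrmT

/-! ### barriers -/

/-- upper barrier of `|t|` -/
def bt (D κ p At : ℝ) (x : Pos3) : ℝ := At * Sx D κ p 1 x

/-- upper barrier of `N_T` -/
def bN (D lam κ p a KT : ℝ) (x : Pos3) : ℝ :=
  KT * lam * (ri 2 x * Sx D κ p 1 x + exr (κ + a / 8) x)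

/-- upper barrier of `P_T`, even -/
def bP (D lam κ p a KT : ℝ) (x : Pos3) : ℝ :=
  KT * lam * (ri 2 x * |Ox D κ p 1 x| + exr (κ + a / 8) x * (1 - Real.exp (-|x 2|)))

/-- smooth form of `bP` on `z > 0` -/
def bPs (D lam κ p a KT : ℝ) (x : Pos3) : ℝ :=
  KT * lam * (ri 2 x * Ox D κ p 1 x + Bz (κ + a / 8) x)

theorem ri2_eq (x : Pos3) : ri 2 x = (1 / ‖x‖) ^ 2 := by
  unfold ri; rw [one_div, inv_pow]

theorem ri3_eq (x : Pos3) : ri 3 x = (1 / ‖x‖) ^ 3 := by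
  unfold ri; rw [one_div, inv_pow]

theorem bP_eq {D lam κ p a KT Q : ℝ} (h : MPar κ Q p 1) {x : Pos3} (hx : XFar D x) :
    bP D lam κ p a KT x = bPs D lam κ p a KT x := by
  unfold bP bPs Bz fz
  rw [abs_of_nonneg (Ox_nonneg h hx.reg), abs_of_nonneg hx.z0]

theorem bt_rfl (D κ p At : ℝ) (x : Pos3) : bt D κ p At (rfl' 2 x) = bt D κ p At x := by
  unfold bt; rw [Sx_rfl]

theorem bN_rfl (D lam κ p a KT : ℝ) (x : Pos3) :
    bN D lam κ p a KT (rfl' 2 x) = bN D lam κ p a KT x := by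
  unfold bN; rw [Sx_rfl, ri_rfl, exr_rfl]

theorem bP_rfl (D lam κ p a KT : ℝ) (x : Pos3) :
    bP D lam κ p a KT (rfl' 2 x) = bP D lam κ p a KT x := by
  unfold bP; rw [Ox_rfl, ri_rfl, exr_rfl, abs2_rfl, abs_neg]

/-! ### jets -/

/-- gradient of `bt` -/
def gt (D κ p At : ℝ) (x : Pos3) : Pos3 := At • gSx D κ p 1 x

/-- gradient of `bN` -/
def gN (D lam κ p a KT : ℝ) (x : Pos3) : Pos3 :=
  (KT * lam) • ((ri 2 x • gSx D κ p 1 x + Sx D κ p 1 x • ((-((2 : ℕ) * ri (2 + 2) x)) • x)) +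
    (-((κ + a / 8) * exr (κ + a / 8) x / ‖x‖)) • x)

/-- gradient of `bPs` -/
def gP (D lam κ p a KT : ℝ) (x : Pos3) : Pos3 :=
  (KT * lam) • ((ri 2 x • gOx D κ p 1 x + Ox D κ p 1 x • ((-((2 : ℕ) * ri (2 + 2) x)) • x)) +
    (exr (κ + a / 8) x • (Real.exp (-(x 2)) • e3v) +
      fz x • ((-((κ + a / 8) * exr (κ + a / 8) x / ‖x‖)) • x)))

theorem bt_jet (D κ p At : ℝ) : Jet (XT.Ud D) (bt D κ p At) (gt D κ p At)
    (fun x => At * lSx D κ p 1 x) :=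
  ((Sx_jet D κ p 1).mono inter_subset_left).const_mul (XT.isOpen_Ud D) At

theorem bN_jet (D lam κ p a KT : ℝ) : ∃ L, Jet (XT.Ud D) (bN D lam κ p a KT)
    (gN D lam κ p a KT) L :=
  ⟨_, (((riS_jet 2 D κ p 1).add (XT.isOpen_Ud D)
    ((exr_jet (κ + a / 8)).mono inter_subset_right)).const_mul (XT.isOpen_Ud D) (KT * lam))⟩

theorem bPs_jet (D lam κ p a KT : ℝ) : ∃ L, Jet (XT.Ud D) (bPs D lam κ p a KT)
    (gP D lam κ p a KT) L :=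
  ⟨_, (((riO_jet 2 D κ p 1).add (XT.isOpen_Ud D)
    ((Bz_jet (κ + a / 8)).mono inter_subset_right)).const_mul (XT.isOpen_Ud D) (KT * lam))⟩

end Crest.Agent.R335.BRT
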