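import Crest.Agent.R335.BRTa

/-!
Row 335 (S0521), Part B sections 5-6 (note 10383), triplet sector (helper465): pointwise
verification of the barriers.
-/

set_option autoImplicit false
set_option linter.unusedSectionVars false
set_option linter.unusedVariables false

open MeasureTheory Filter Set Crest.MathPhysics.ThreeBody
open scoped ENNReal Topology ContDiff

noncomputable section
namespace Crest.Agent.R335.BRT
open Crest.Agent.R335

theorem Lx_eq (D lam κ : ℝ) (b : Pos3 → ℝ) (x : Pos3) :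
    -(1 / 2) * lap b x + mL D lam κ x * b x = Lx D (2 * (1 - lam)) κ b x := by
  unfold mL Lx
  ring

theorem Lx_eq2 (D lam κ m : ℝ) (b : Pos3 → ℝ) (x : Pos3) :
    -(1 / 2) * lap b x + (mL D lam κ x + m) * b x = Lx D (2 * (1 - lam)) κ b x + m * b x := by
  rw [← Lx_eq]
  ring

theorem Lx_congr {D Q κ : ℝ} {b b' : Pos3 → ℝ} {x : Pos3} (h : b =ᶠ[𝓝 x] b') :
    Lx D Q κ b x = Lx D Q κ b' x := by
  unfold Lx
  rw [lap_congr h, h.eq_of_nhds]

namespace PrmT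
variable {D lam κ p a m2 CD At KT aT R : ℝ} (h : PrmT D lam κ p a m2 CD At KT aT R)
include h

theorem far2 {x : Pos3} (hx : x ∈ (HExt R 2 : Set Pos3)) : XFar2 D x := XFar2_of h.D1 h.r0 hx

theorem far {x : Pos3} (hx : x ∈ (HExt R 2 : Set Pos3)) : XFar D x := (h.far2 hx).far

theorem bP_ev {x : Pos3} (hx : x ∈ (HExt R 2 : Set Pos3)) :
    bP D lam κ p a KT =ᶠ[𝓝 x] bPs D lam κ p a KT := by
  filter_upwards [(isOpen_HExt R 2).mem_nhds hx] with y hy
  exact bP_eq (h.mp (Or.inl rfl)) (h.far hy)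

theorem Ptx {x : Pos3} (hx : x ∈ (HExt R 2 : Set Pos3)) :
    BR.Pt (1 / ‖x‖) ((√‖x‖)⁻¹ ^ 3) (x 2) (Ox D κ p 1 x) (Sx D κ p 1 x) (Bz (κ + a / 8) x)
      (exr (κ + a / 8) x) (Real.exp (-(a / 2 * ‖x‖))) (Real.exp (-((κ + a / 4) * ‖x‖))) :=
  h.pt κ _ p (h.mp (Or.inl rfl)) x (le_of_lt hx.1) hx.2

theorem bt_val (x : Pos3) : bt D κ p At x = At * Sx D κ p 1 x := rfl

theorem bN_val (x : Pos3) : bN D lam κ p a KT x =
    KT * lam * ((1 / ‖x‖) ^ 2 * Sx D κ p 1 x + exr (κ + a / 8) x) := by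
  unfold bN; rw [ri2_eq]

theorem bP_val {x : Pos3} (hx : x ∈ (HExt R 2 : Set Pos3)) : bP D lam κ p a KT x =
    KT * lam * ((1 / ‖x‖) ^ 2 * Ox D κ p 1 x + Bz (κ + a / 8) x) := by
  rw [bP_eq (h.mp (Or.inl rfl)) (h.far hx)]
  unfold bPs; rw [ri2_eq]

theorem hr30 {x : Pos3} (hx : x ∈ (HExt R 2 : Set Pos3)) : 30 ≤ a * ‖x‖ := by
  have h1 : R < ‖x‖ := hx.1
  have h2 := mul_le_mul_of_nonneg_left h1.le h.a0.le
  linarith [h.ra]

theorem hr12 {x : Pos3} (hx : x ∈ (HExt R 2 : Set Pos3)) : 12 / ‖x‖ ≤ m2 := by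
  have h1 : R < ‖x‖ := hx.1
  have h2 := mul_le_mul_of_nonneg_left h1.le h.m20.le
  rw [div_le_iff₀ (h.far hx).rpos]
  linarith [h.r2]

theorem a_le_one : a ≤ 1 := by linarith [h.a1, h.m21]

/-- (V_t) on the barriers -/
theorem hbar_t {x : Pos3} (hx : x ∈ (HExt R 2 : Set Pos3)) :
    BR.srct CD lam (1 / ‖x‖) (x 2) (Real.exp (-(a / 2 * ‖x‖))) (bt D κ p At x)
      (bN D lam κ p a KT x) (bP D lam κ p a KT x) ≤
      -(1 / 2) * lap (bt D κ p At) x + mL D lam κ x * bt D κ p At x := by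
  rw [Lx_eq, bt_val h, bN_val h, bP_val h hx]
  have hm := h.mp (σ := 1) (Or.inl rfl)
  have hU := mem_Ud (h.far hx)
  have e1 : Lx D (2 * (1 - lam)) κ (bt D κ p At) x =
      At * Lx D (2 * (1 - lam)) κ (Sx D κ p 1) x :=
    Lx_const_mul (XT.isOpen_Ud D) ((Sx_jet D κ p 1).mono inter_subset_left) At hU
  rw [e1]
  refine BR.Vt (h.Ptx hx) h.l0.le (by linarith [h.CD1]) h.KT0.le h.At0.le ?_ h.t1
  have := Lx_Sm_ge hm (h.far hx)
  linarith

/-- (V_NT) on the barriers -/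
theorem hbar_N {x : Pos3} (hx : x ∈ (HExt R 2 : Set Pos3)) :
    BR.srcNT CD lam (1 / ‖x‖) (x 2) (Real.exp (-(a / 2 * ‖x‖)))
      (Real.exp (-((κ + a / 4) * ‖x‖))) (bt D κ p At x) (bP D lam κ p a KT x) ≤
      -(1 / 2) * lap (bN D lam κ p a KT) x +
        (mL D lam κ x + m2) * bN D lam κ p a KT x := by
  have hm := h.mp (σ := 1) (Or.inl rfl)
  have hf := h.far hx
  have hU := mem_Ud hf
  have hUo := XT.isOpen_Ud D
  have j1 := riS_jet 2 D κ p 1
  have j2 := (exr_jet (κ + a / 8)).mono (V := XT.Ud D) inter_subset_right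
  have e1 : Lx D (2 * (1 - lam)) κ (bN D lam κ p a KT) x =
      KT * lam * (Lx D (2 * (1 - lam)) κ (fun y => ri 2 y * Sx D κ p 1 y) x +
        Lx D (2 * (1 - lam)) κ (exr (κ + a / 8)) x) := by
    have := Lx_const_mul (D := D) (Q := 2 * (1 - lam)) (κ := κ) hUo (j1.add hUo j2) (KT * lam) hU
    rw [Lx_add hUo j1 j2 hU] at this
    exact this
  rw [Lx_eq2, e1, bt_val h, bP_val h hx]
  have hP := h.Ptx hx
  have k1 := h.κ1
  have k2 := h.κ2
  have hS := hP.S0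
  have he := hP.e0
  have h12 := h.hr12 hx
  have hu : 0 ≤ 1 / ‖x‖ := hP.u0.le
  have h12' : 12 * (1 / ‖x‖) ≤ m2 := by rw [mul_one_div]; exact h12
  have a1 := Lx_riSm_ge (Q := 2 * (1 - lam)) 2 (by norm_num) hm hf
  have a2 := Lx_exr_ge (D := D) (Q := 2 * (1 - lam)) (κ := κ) (a := a) (by linarith) (by linarith)
    (by linarith [h.l1]) (by linarith [h.l0]) h.a0 (a_le_one h) hf (h.hr30 hx)
  have hv := BR.VNT hP (At := At) (KT := KT) (g16 := m2 / 2)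
    (LS := Lx D (2 * (1 - lam)) κ (fun y => ri 2 y * Sx D κ p 1 y) x +
      m2 * ((1 / ‖x‖) ^ 2 * Sx D κ p 1 x))
    (Le := Lx D (2 * (1 - lam)) κ (exr (κ + a / 8)) x + m2 * exr (κ + a / 8) x)
    h.l0.le (by linarith [h.CD1]) h.KT0.le ?_ ?_ h.n1 h.n2
  · refine hv.trans (le_of_eq ?_)
    rw [bN_val h]
    ring
  · rw [ri2_eq] at a1
    have b0 : 0 ≤ (1 / ‖x‖) ^ 2 * Sx D κ p 1 x := by positivity
    have b1 : 1.04 * ((2 : ℕ) : ℝ) * κ / ‖x‖ ≤ m2 / 2 := by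
      have : 1.04 * ((2 : ℕ) : ℝ) * κ / ‖x‖ = 2.08 * κ * (1 / ‖x‖) := by push_cast; ring
      rw [this]
      nlinarith [mul_nonneg hu h.m20.le]
    have b2 := mul_le_mul_of_nonneg_right b1 b0
    linarith
  · have b1 : κ * a / 4 ≤ m2 / 2 := by
      have := h.a1
      have := h.a0
      nlinarith
    have b2 := mul_le_mul_of_nonneg_right b1 he
    linarith

/-- (V_PT) on the barriers -/
theorem hbar_P {x : Pos3} (hx : x ∈ (HExt R 2 : Set Pos3)) :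
    BR.srcPT CD lam (1 / ‖x‖) (x 2) (Real.exp (-(a / 2 * ‖x‖)))
      (Real.exp (-((κ + a / 4) * ‖x‖))) (bt D κ p At x) (bN D lam κ p a KT x) ≤
      -(1 / 2) * lap (bP D lam κ p a KT) x +
        (mL D lam κ x + m2) * bP D lam κ p a KT x := by
  have hm := h.mp (σ := 1) (Or.inl rfl)
  have hf := h.far hx
  have hU := mem_Ud hf
  have hUo := XT.isOpen_Ud D
  have j1 := riO_jet 2 D κ p 1
  have j2 := (Bz_jet (κ + a / 8)).mono (V := XT.Ud D) inter_subset_right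
  have e1 : Lx D (2 * (1 - lam)) κ (bP D lam κ p a KT) x =
      KT * lam * (Lx D (2 * (1 - lam)) κ (fun y => ri 2 y * Ox D κ p 1 y) x +
        Lx D (2 * (1 - lam)) κ (Bz (κ + a / 8)) x) := by
    rw [Lx_congr (h.bP_ev hx)]
    have := Lx_const_mul (D := D) (Q := 2 * (1 - lam)) (κ := κ) hUo (j1.add hUo j2) (KT * lam) hU
    rw [Lx_add hUo j1 j2 hU] at this
    exact this
  rw [Lx_eq2, e1, bt_val h, bN_val h]
  have hP := h.Ptx hx
  have k1 := h.κ1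
  have k2 := h.κ2
  have hO := hP.O0
  have he := hP.e0
  have h12 := h.hr12 hx
  have hu : 0 ≤ 1 / ‖x‖ := hP.u0.le
  have h12' : 12 * (1 / ‖x‖) ≤ m2 := by rw [mul_one_div]; exact h12
  have a1 := Lx_riOm_ge (Q := 2 * (1 - lam)) 2 (by norm_num) hm hf
  have a2 := Lx_Bz_ge (D := D) (Q := 2 * (1 - lam)) (κ := κ) (a := a) (by linarith) (by linarith)
    (by linarith [h.l1]) (by linarith [h.l0]) h.a0 (a_le_one h) hf (h.hr30 hx)
  have hv := BR.VPT hP (At := At) (KT := KT) (g16 := m2 / 2)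
    (LO := Lx D (2 * (1 - lam)) κ (fun y => ri 2 y * Ox D κ p 1 y) x +
      m2 * ((1 / ‖x‖) ^ 2 * Ox D κ p 1 x))
    (LB := Lx D (2 * (1 - lam)) κ (Bz (κ + a / 8)) x + m2 * Bz (κ + a / 8) x)
    h.l0.le (by linarith [h.CD1]) h.KT0.le h.At0.le ?_ ?_ h.p1 h.p2
  · refine hv.trans (le_of_eq ?_)
    rw [bP_val h hx]
    ring
  · rw [ri2_eq] at a1
    have b0 : 0 ≤ (1 / ‖x‖) ^ 2 * Ox D κ p 1 x := by positivity
    have b1 : 1.31 * ((2 : ℕ) : ℝ) * κ / ‖x‖ ≤ m2 / 2 := by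
      have : 1.31 * ((2 : ℕ) : ℝ) * κ / ‖x‖ = 2.62 * κ * (1 / ‖x‖) := by push_cast; ring
      rw [this]
      nlinarith [mul_nonneg hu h.m20.le]
    have b2 := mul_le_mul_of_nonneg_right b1 b0
    linarith
  · have c1 : κ * a / 4 ≤ m2 / 2 := by
      have := h.a1
      have := h.a0
      nlinarith
    have c2 : Bz (κ + a / 8) x = exr (κ + a / 8) x * (1 - Real.exp (-(x 2))) := rfl
    rw [c2]
    have c3 := Real.exp_pos (-(x 2))
    have c4 : 0 ≤ 1 - Real.exp (-(x 2)) := fz_nonneg hf.z0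
    have c5 : m2 / 2 ≤ (Real.exp (-(x 2)) / 2 - κ * a / 4 * (1 - Real.exp (-(x 2)))) +
        m2 * (1 - Real.exp (-(x 2))) := by
      have d1 := mul_le_mul_of_nonneg_right c1 c4
      have d2 : m2 / 2 * Real.exp (-(x 2)) ≤ Real.exp (-(x 2)) / 2 := by
        have := mul_le_mul_of_nonneg_right (show m2 / 2 ≤ 1 / 2 by linarith [h.m21]) c3.le
        linarith
      linarith
    have c6 := mul_le_mul_of_nonneg_right c5 he
    linarith

/-- (L_t) on the barriers -/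
theorem hbar_low {x : Pos3} (hx : x ∈ (HExt R 2 : Set Pos3)) :
    BR.srct CD lam (1 / ‖x‖) (x 2) (Real.exp (-(a / 2 * ‖x‖))) (bt D κ p At x)
      (bN D lam κ p a KT x) (bP D lam κ p a KT x) ≤
      -(1 / 2) * lap (fun y => -(aT * Sx D κ p (-1) y)) x +
        mL D lam κ x * -(aT * Sx D κ p (-1) x) := by
  have hm := h.mp (σ := -1) (Or.inr rfl)
  have hf := h.far hx
  have hU := mem_Ud hf
  have e0 : (fun y => -(aT * Sx D κ p (-1) y)) = fun y => -aT * Sx D κ p (-1) y := by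
    funext y; ring
  have e1 : -(1 / 2) * lap (fun y => -(aT * Sx D κ p (-1) y)) x +
        mL D lam κ x * -(aT * Sx D κ p (-1) x) =
      -(aT * Lx D (2 * (1 - lam)) κ (Sx D κ p (-1)) x) := by
    have h1 := Lx_eq D lam κ (fun y => -(aT * Sx D κ p (-1) y)) x
    rw [h1, e0, Lx_const_mul (XT.isOpen_Ud D) ((Sx_jet D κ p (-1)).mono inter_subset_left)
      (-aT) hU]
    ring
  rw [e1, bt_val h, bN_val h, bP_val h hx]
  have hS : Sx D κ p 1 x ≤ Sx D κ p (-1) x := BR.Sx_sign hf.reg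
  have := BR.Lt (h.Ptx hx) (k16 := κ / 16) (LSp := Lx D (2 * (1 - lam)) κ (Sx D κ p (-1)) x)
    h.l0.le (by linarith [h.CD1]) h.KT0.le h.At0.le h.aT0.le hS ?_ h.L1
  · linarith
  · have := Lx_Sp_le (Q := 2 * (1 - lam)) hm hf
    linarith

end PrmT

end Crest.Agent.R335.BRT
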