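import Crest.Agent.R335.OGLow
import Crest.Agent.R335.OGCut
import Crest.Agent.R335.OBRad
import Crest.Agent.R335.XMod

/-!
Row 335 (S0521), ONE-BODY block, section (1.3) of Part B: the two-centre model functions
`E^∓(ρ₊) ± E^∓(ρ₋)` and their differential inequalities for `h - e` (helper696).
-/

set_option autoImplicit false

open MeasureTheory Filter Set Crest.MathPhysics.ThreeBody
open scoped ENNReal Topology ContDiff

noncomputable section
namespace Crest.Agent.R335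
namespace OG

/-- the region at distance `> t` from both nuclei -/
def Far (D t : ℝ) : Set Pos3 := {x | t < ‖x - nuc D‖ ∧ t < ‖x - nuc (-D)‖}

theorem isOpen_Far (D t : ℝ) : IsOpen (Far D t) := by
  have h1 : IsOpen {x : Pos3 | t < ‖x - nuc D‖} := isOpen_lt continuous_const (by fun_prop)
  have h2 : IsOpen {x : Pos3 | t < ‖x - nuc (-D)‖} := isOpen_lt continuous_const (by fun_prop)
  exact h1.inter h2

theorem Far_ne {D t : ℝ} (ht : 0 ≤ t) {x : Pos3} (hx : x ∈ Far D t) :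
    x ≠ nuc D ∧ x ≠ nuc (-D) := by
  refine ⟨?_, ?_⟩
  · rintro rfl
    have h1 := hx.1
    rw [sub_self, norm_zero] at h1
    linarith
  · rintro rfl
    have h1 := hx.2
    rw [sub_self, norm_zero] at h1
    linarith

theorem mpar {k σ : ℝ} (h1 : 9 / 10 ≤ k) (h2 : k ≤ 11 / 10) (hσ : σ = 1 ∨ σ = -1) :
    MPar k 2 (2 / k - 1) σ := by
  refine ⟨by norm_num; linarith, by norm_num; linarith, by norm_num, le_rfl, ?_, hσ⟩
  have : k ≠ 0 := by linarith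
  field_simp
  ring

/-- two-centre functions `E(ρ₊) + τ E(ρ₋)` -/
def TC (D κ p σ τ : ℝ) (x : Pos3) : ℝ :=
  Em κ p σ ‖x - nuc D‖ + τ * Em κ p σ ‖x - nuc (-D)‖

/-- gradient -/
def dTC (D κ p σ τ : ℝ) (x : Pos3) : Pos3 :=
  (-(Dm κ p σ ‖x - nuc D‖ / ‖x - nuc D‖)) • (x - nuc D) +
    τ • ((-(Dm κ p σ ‖x - nuc (-D)‖ / ‖x - nuc (-D)‖)) • (x - nuc (-D)))

/-- Laplacian -/
def lTC (D κ p σ τ : ℝ) (x : Pos3) : ℝ :=
  ((κ ^ 2 - 2 * (κ * (p + 1)) / ‖x - nuc D‖) * Em κ p σ ‖x - nuc D‖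
      - 2 * XWm κ p σ ‖x - nuc D‖) +
    τ * ((κ ^ 2 - 2 * (κ * (p + 1)) / ‖x - nuc (-D)‖) * Em κ p σ ‖x - nuc (-D)‖
      - 2 * XWm κ p σ ‖x - nuc (-D)‖)

theorem TC_jet (D κ p σ τ : ℝ) {U : Set Pos3} (hU : IsOpen U) {t : ℝ} (ht : 0 ≤ t)
    (hUF : U ⊆ Far D t) : Jet U (TC D κ p σ τ) (dTC D κ p σ τ) (lTC D κ p σ τ) :=
  (Em_jet κ p σ (nuc D) hU fun _ hx => (Far_ne ht (hUF hx)).1).add hU
    ((Em_jet κ p σ (nuc (-D)) hU fun _ hx => (Far_ne ht (hUF hx)).2).const_mul hU τ)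

theorem TC_rz (D κ p σ τ : ℝ) (hτ : τ ^ 2 = 1) (x : Pos3) :
    TC D κ p σ τ (rz x) = τ * TC D κ p σ τ x := by
  unfold TC
  rw [← norm_sub_nuc_neg, norm_sub_nuc_neg D (rz x), rz_rz]
  linear_combination (-Em κ p σ ‖x - nuc (-D)‖) * hτ

/-- the exact formula for `L` applied to the two-centre function -/
theorem two_id {D κ p σ τ : ℝ} (hQ : κ * (p + 1) = 2) {x : Pos3} (h1 : 0 < ‖x - nuc D‖)
    (h2 : 0 < ‖x - nuc (-D)‖) :
    -(1 / 2) * lTC D κ p σ τ x + (κ ^ 2 / 2 + V2 D x) * TC D κ p σ τ x =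
      (1 / ‖x - nuc D‖ - 1 / ‖x - nuc (-D)‖) *
          (Em κ p σ ‖x - nuc D‖ - τ * Em κ p σ ‖x - nuc (-D)‖) +
        (XWm κ p σ ‖x - nuc D‖ + τ * XWm κ p σ ‖x - nuc (-D)‖) := by
  unfold lTC TC V2
  rw [hQ]
  field_simp
  ring

/-! ### size -/

theorem sq_le_exp {t : ℝ} (ht : 0 ≤ t) : t ^ 2 ≤ 32 * Real.exp (t / 4) := by
  have := Real.quadratic_le_exp_of_nonneg (x := t / 4) (by positivity)
  nlinarith

theorem ee_le {κ p t : ℝ} (hκ : 9 / 10 ≤ κ) (hp : p ≤ 2) (ht : 1 ≤ t) :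
    ee κ p t ≤ 32 * Real.exp (-(13 / 20 * t)) := by
  unfold ee
  have h1 : t ^ p ≤ t ^ (2 : ℝ) := Real.rpow_le_rpow_of_exponent_le ht hp
  rw [Real.rpow_two] at h1
  have h2 := sq_le_exp (by linarith : 0 ≤ t)
  have h3 : Real.exp (-(κ * t)) ≤ Real.exp (-(9 / 10 * t)) := by
    apply Real.exp_le_exp.2; nlinarith
  have h4 : 0 ≤ t ^ p := Real.rpow_nonneg (by linarith) _
  calc Real.exp (-(κ * t)) * t ^ p ≤ Real.exp (-(9 / 10 * t)) * (32 * Real.exp (t / 4)) := by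
        gcongr
        exact h1.trans h2
    _ = 32 * (Real.exp (-(9 / 10 * t)) * Real.exp (t / 4)) := by ring
    _ = 32 * Real.exp (-(13 / 20 * t)) := by rw [← Real.exp_add]; ring_nf

theorem Em_le {κ p σ t : ℝ} (h : MPar κ 2 p σ) (ht : 100 ≤ t) :
    Em κ p σ t ≤ 36 * Real.exp (-(13 / 20 * t)) := by
  have h0 : 0 < t := by linarith
  obtain ⟨u0, u1⟩ := XM.u_bounds ht
  rw [Em_eq h0]
  have h1 := ee_le (κ := κ) (p := p) (t := t) (by have := h.k1; norm_num at this ⊢; linarith)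
    (by have := h.p2; norm_num at this ⊢; linarith) (by linarith)
  have h2 : 1 - σ * (√t)⁻¹ ≤ 11 / 10 := by
    rcases h.hσ with rfl | rfl <;> norm_num at u1 ⊢ <;> linarith
  have h3 := ee_pos κ p h0
  have h4 : 0 ≤ 1 - σ * (√t)⁻¹ := by
    rcases h.hσ with rfl | rfl <;> norm_num at u1 ⊢ <;> linarith
  calc ee κ p t * (1 - σ * (√t)⁻¹) ≤ (32 * Real.exp (-(13 / 20 * t))) * (11 / 10) := by gcongr
    _ ≤ _ := by
      have := Real.exp_pos (-(13 / 20 * t))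
      nlinarith

theorem Em_ge {κ p σ t : ℝ} (h : MPar κ 2 p σ) (ht : 100 ≤ t) :
    (9 / 10) * Real.exp (-(κ * t)) ≤ Em κ p σ t := by
  have h0 : 0 < t := by linarith
  obtain ⟨u0, u1⟩ := XM.u_bounds ht
  rw [Em_eq h0]
  have h2 : 9 / 10 ≤ 1 - σ * (√t)⁻¹ := by
    rcases h.hσ with rfl | rfl <;> norm_num at u1 ⊢ <;> linarith
  have h3 : Real.exp (-(κ * t)) ≤ ee κ p t := by
    unfold ee
    have : 1 ≤ t ^ p := Real.one_le_rpow (by linarith) (by have := h.p1; norm_num at this; linarith)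
    have := Real.exp_pos (-(κ * t))
    nlinarith
  have := Real.exp_pos (-(κ * t))
  have h5 := (ee_pos κ p h0).le
  calc (9 / 10) * Real.exp (-(κ * t)) = Real.exp (-(κ * t)) * (9 / 10) := by ring
    _ ≤ ee κ p t * (1 - σ * (√t)⁻¹) := by gcongr

theorem Dm_le' {κ p σ t : ℝ} (h : MPar κ 2 p σ) (ht : 100 ≤ t) :
    |Dm κ p σ t| ≤ 45 * Real.exp (-(13 / 20 * t)) := by
  rw [abs_of_pos (Dm_pos h ht)]
  refine (Dm_le h ht).trans ?_
  have h1 := Em_le h ht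
  have h2 := h.k2
  have h3 := Em_pos h ht
  have h4 := h.kpos
  norm_num at h2
  have h5 : 1.01 * κ ≤ 1.25 := by norm_num; linarith
  calc 1.01 * κ * Em κ p σ t ≤ 1.25 * (36 * Real.exp (-(13 / 20 * t))) := by gcongr
    _ = 45 * Real.exp (-(13 / 20 * t)) := by norm_num; ring

theorem memLp_exp (a : Pos3) {c : ℝ} (hc : 0 < c) :
    MemLp (fun x : Pos3 => Real.exp (-(c * ‖x - a‖))) 2 volume := by
  have hcont : Continuous (fun x : Pos3 => Real.exp (-(c * ‖x - a‖))) := by fun_prop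
  rw [memLp_two_iff_integrable_sq hcont.aestronglyMeasurable]
  refine (ob_integrable_exp (c := 2 * c) (by positivity) a).congr (Eventually.of_forall fun x => ?_)
  show Real.exp (-(2 * c * ‖x - a‖)) = Real.exp (-(c * ‖x - a‖)) ^ 2
  rw [← Real.exp_nat_mul]
  ring_nf

/-- the `L²` majorant -/
def maj (D : ℝ) (x : Pos3) : ℝ :=
  Real.exp (-(13 / 20 * ‖x - nuc D‖)) + Real.exp (-(13 / 20 * ‖x - nuc (-D)‖))

theorem memLp_maj (D : ℝ) : MemLp (maj D) 2 volume :=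
  (memLp_exp _ (by norm_num)).add (memLp_exp _ (by norm_num))

theorem maj_nonneg (D : ℝ) (x : Pos3) : 0 ≤ maj D x := by unfold maj; positivity

theorem TC_abs_le {D κ p σ τ : ℝ} (h : MPar κ 2 p σ) (hτ : |τ| ≤ 1) {x : Pos3}
    (hx : x ∈ Far D 100) : |TC D κ p σ τ x| ≤ 36 * maj D x := by
  unfold TC maj
  have h1 := Em_le h hx.1.le
  have h2 := Em_le h hx.2.le
  have h3 := Em_pos h hx.1.le
  have h4 := Em_pos h hx.2.le
  calc |Em κ p σ ‖x - nuc D‖ + τ * Em κ p σ ‖x - nuc (-D)‖|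
      ≤ |Em κ p σ ‖x - nuc D‖| + |τ * Em κ p σ ‖x - nuc (-D)‖| := abs_add_le _ _
    _ = Em κ p σ ‖x - nuc D‖ + |τ| * Em κ p σ ‖x - nuc (-D)‖ := by
        rw [abs_mul, abs_of_pos h3, abs_of_pos h4]
    _ ≤ Em κ p σ ‖x - nuc D‖ + 1 * Em κ p σ ‖x - nuc (-D)‖ := by gcongr
    _ ≤ _ := by linarith

theorem dTC_norm_le {D κ p σ τ : ℝ} (h : MPar κ 2 p σ) (hτ : |τ| ≤ 1) {x : Pos3}
    (hx : x ∈ Far D 100) : ‖dTC D κ p σ τ x‖ ≤ 45 * maj D x := by
  unfold dTC maj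
  have h1 := Dm_le' h hx.1.le
  have h2 := Dm_le' h hx.2.le
  have key : ∀ a : Pos3, 100 < ‖x - a‖ →
      ‖(-(Dm κ p σ ‖x - a‖ / ‖x - a‖)) • (x - a)‖ = |Dm κ p σ ‖x - a‖| := fun a ha => by
    have h0 : 0 < ‖x - a‖ := by linarith
    rw [norm_smul, norm_neg, norm_div, norm_norm, div_mul_cancel₀ _ h0.ne', Real.norm_eq_abs]
  refine (norm_add_le _ _).trans ?_
  rw [norm_smul τ, key _ hx.1, key _ hx.2, Real.norm_eq_abs τ]
  have h3 := abs_nonneg (Dm κ p σ ‖x - nuc (-D)‖)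
  have h4 : |τ| * |Dm κ p σ ‖x - nuc (-D)‖| ≤ 1 * |Dm κ p σ ‖x - nuc (-D)‖| := by gcongr
  linarith

theorem TC_memLp {D κ p σ τ : ℝ} (h : MPar κ 2 p σ) (hτ : |τ| ≤ 1) {U : Set Pos3} (hU : IsOpen U)
    (hUF : U ⊆ Far D 100) : MemLp (TC D κ p σ τ) 2 (volume.restrict U) := by
  have hj := TC_jet D κ p σ τ hU (by norm_num) hUF
  refine (((memLp_maj D).restrict U).const_mul 36).mono
    (hj.smooth.continuousOn.aestronglyMeasurable hU.measurableSet) ?_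
  filter_upwards [ae_restrict_mem hU.measurableSet] with x hx
  rw [Real.norm_eq_abs, Real.norm_of_nonneg (mul_nonneg (by norm_num) (maj_nonneg D x))]
  exact TC_abs_le h hτ (hUF hx)

theorem dTC_memLp {D κ p σ τ : ℝ} (h : MPar κ 2 p σ) (hτ : |τ| ≤ 1) {U : Set Pos3}
    (hU : IsOpen U) (hUF : U ⊆ Far D 100) : MemLp (dTC D κ p σ τ) 2 (volume.restrict U) := by
  have hj := TC_jet D κ p σ τ hU (by norm_num) hUF
  have hc : ContinuousOn (gr (TC D κ p σ τ)) U := by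
    have := hj.smooth
    refine (PiLp.continuous_toLp 2 _).comp_continuousOn (continuousOn_pi.2 fun i => ?_)
    exact (XL.contDiffOn_pd hU hj.smooth i).continuousOn
  have hm : AEStronglyMeasurable (dTC D κ p σ τ) (volume.restrict U) :=
    (hc.congr fun x hx => (hj.grad x hx).symm).aestronglyMeasurable hU.measurableSet
  refine (((memLp_maj D).restrict U).const_mul 45).mono hm ?_
  filter_upwards [ae_restrict_mem hU.measurableSet] with x hx
  rw [Real.norm_of_nonneg (mul_nonneg (by norm_num) (maj_nonneg D x))]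
  exact dTC_norm_le h hτ (hUF hx)

end OG
end Crest.Agent.R335
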