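import Crest.Agent.R335.BRTa
import Crest.Agent.R335.OGTwo

/-!
Row 335 (S0521), Part B sections 5-6 (note 10383), triplet sector (helper465): `L²` bounds of the
barriers and of their gradients.
-/

set_option autoImplicit false
set_option linter.unusedSectionVars false
set_option linter.unusedVariables false

open MeasureTheory Filter Set Crest.MathPhysics.ThreeBody
open scoped ENNReal Topology ContDiff

noncomputable section
namespace Crest.Agent.R335.BRT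
open Crest.Agent.R335

/-- the majorant -/
def ex (x : Pos3) : ℝ := Real.exp (-(1 / 2 * ‖x‖))

theorem ex_pos (x : Pos3) : 0 < ex x := Real.exp_pos _

theorem memLp_ex : MemLp ex 2 volume := by
  have := OG.memLp_exp (0 : Pos3) (c := 1 / 2) (by norm_num)
  simp only [sub_zero] at this
  exact this

theorem Jet.aesm {U : Set Pos3} (hU : IsOpen U) {b : Pos3 → ℝ} {G : Pos3 → Pos3} {L : Pos3 → ℝ}
    (hj : Jet U b G L) : AEStronglyMeasurable b (volume.restrict U) ∧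
      AEStronglyMeasurable G (volume.restrict U) := by
  refine ⟨hj.smooth.continuousOn.aestronglyMeasurable hU.measurableSet, ?_⟩
  have hc : ContinuousOn (gr b) U := by
    refine (PiLp.continuous_toLp 2 _).comp_continuousOn (continuousOn_pi.2 fun i => ?_)
    exact (XL.contDiffOn_pd hU hj.smooth i).continuousOn
  exact (hc.congr fun x hx => (hj.grad x hx).symm).aestronglyMeasurable hU.measurableSet

theorem memLp_of_ex {F : Type*} [NormedAddCommGroup F] {U : Set Pos3} (hU : MeasurableSet U)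
    {f : Pos3 → F} (hm : AEStronglyMeasurable f (volume.restrict U)) {C : ℝ} (hC : 0 ≤ C)
    (hb : ∀ x ∈ U, ‖f x‖ ≤ C * ex x) : MemLp f 2 (volume.restrict U) := by
  refine ((memLp_ex.restrict U).const_mul C).mono hm ?_
  filter_upwards [ae_restrict_mem hU] with x hx
  rw [Real.norm_of_nonneg (mul_nonneg hC (ex_pos x).le)]
  exact hb x hx

/-! ### pointwise bounds -/

section bd
variable {D κ Q p σ : ℝ}

theorem Em_ex (h : MPar κ Q p σ) {D' : ℝ} (hD : 0 ≤ D) (hD' : |D'| = D) {x : Pos3}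
    (hx : 100 ≤ ‖x - nuc D'‖) :
    0 ≤ Em κ p σ ‖x - nuc D'‖ ∧ Em κ p σ ‖x - nuc D'‖ ≤ 36 * Real.exp (D / 2) * ex x := by
  refine ⟨(Em_pos h hx).le, ?_⟩
  have h1 := BR.Em_upper h hx
  have h2 := OG.sq_le_exp (t := ‖x - nuc D'‖) (norm_nonneg _)
  have h3 : ‖x‖ ≤ ‖x - nuc D'‖ + D := by
    have := norm_sub_norm_le x (nuc D')
    rw [XT.norm_nuc, hD'] at this
    linarith
  have h4 : Real.exp (-(κ * ‖x - nuc D'‖)) * Real.exp (‖x - nuc D'‖ / 4) ≤
      Real.exp (D / 2) * ex x := by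
    unfold ex
    rw [← Real.exp_add, ← Real.exp_add]
    refine Real.exp_le_exp.2 ?_
    have := mul_le_mul_of_nonneg_right h.k1 (norm_nonneg (x - nuc D'))
    linarith [norm_nonneg (x - nuc D')]
  calc Em κ p σ ‖x - nuc D'‖ ≤ 1.1 * Real.exp (-(κ * ‖x - nuc D'‖)) * ‖x - nuc D'‖ ^ 2 := h1
    _ ≤ 1.1 * Real.exp (-(κ * ‖x - nuc D'‖)) * (32 * Real.exp (‖x - nuc D'‖ / 4)) :=
        mul_le_mul_of_nonneg_left h2 (by positivity)
    _ = 35.2 * (Real.exp (-(κ * ‖x - nuc D'‖)) * Real.exp (‖x - nuc D'‖ / 4)) := by ring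
    _ ≤ 35.2 * (Real.exp (D / 2) * ex x) := mul_le_mul_of_nonneg_left h4 (by norm_num)
    _ ≤ _ := by
        have : 0 ≤ Real.exp (D / 2) * ex x := mul_nonneg (Real.exp_pos _).le (ex_pos x).le
        linarith

theorem Dm_ex (h : MPar κ Q p σ) {D' : ℝ} (hD : 0 ≤ D) (hD' : |D'| = D) {x : Pos3}
    (hx : 100 ≤ ‖x - nuc D'‖) :
    ‖(-(Dm κ p σ ‖x - nuc D'‖ / ‖x - nuc D'‖)) • (x - nuc D')‖ ≤
      45 * Real.exp (D / 2) * ex x := by
  have h0 : 0 < ‖x - nuc D'‖ := by linarith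
  rw [norm_smul, norm_neg, norm_div, norm_norm, div_mul_cancel₀ _ h0.ne', Real.norm_eq_abs,
    abs_of_pos (Dm_pos h hx)]
  have h1 := Dm_le h hx
  obtain ⟨h2, h3⟩ := Em_ex h hD hD' hx
  have h4 : 1.01 * κ ≤ 1.25 := by linarith [h.k2]
  calc Dm κ p σ ‖x - nuc D'‖ ≤ 1.01 * κ * Em κ p σ ‖x - nuc D'‖ := h1
    _ ≤ 1.25 * Em κ p σ ‖x - nuc D'‖ := mul_le_mul_of_nonneg_right h4 h2
    _ ≤ 1.25 * (36 * Real.exp (D / 2) * ex x) := mul_le_mul_of_nonneg_left h3 (by norm_num)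
    _ = _ := by ring

/-- constant of the bounds -/
def cM (D : ℝ) : ℝ := 100 * Real.exp (D / 2)

theorem cM_ge (hD : 0 ≤ D) : 100 ≤ cM D := by
  unfold cM
  linarith [Real.one_le_exp (show 0 ≤ D / 2 by linarith)]

theorem four_ex (h : MPar κ Q p σ) (hD : 0 ≤ D) {x : Pos3}
    (hx : 100 ≤ ‖x - nuc D‖ ∧ 100 ≤ ‖x - nuc (-D)‖) :
    |Sx D κ p σ x| ≤ cM D * ex x ∧ |Ox D κ p σ x| ≤ cM D * ex x ∧
      ‖gSx D κ p σ x‖ ≤ cM D * ex x ∧ ‖gOx D κ p σ x‖ ≤ cM D * ex x := by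
  obtain ⟨a1, a2⟩ := Em_ex h hD (abs_of_nonneg hD) hx.1
  obtain ⟨b1, b2⟩ := Em_ex h hD (by rw [abs_neg, abs_of_nonneg hD]) hx.2
  have c1 := Dm_ex h hD (abs_of_nonneg hD) hx.1
  have c2 := Dm_ex h hD (by rw [abs_neg, abs_of_nonneg hD] : |(-D)| = D) hx.2
  have he : 0 ≤ Real.exp (D / 2) * ex x := mul_nonneg (Real.exp_pos _).le (ex_pos x).le
  unfold cM
  refine ⟨?_, ?_, ?_, ?_⟩
  · unfold Sx
    rw [abs_of_nonneg (by linarith)]
    linarith
  · unfold Ox
    rw [abs_le]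
    constructor <;> linarith
  · unfold gSx
    refine (norm_add_le _ _).trans ?_
    linarith
  · unfold gOx
    refine (norm_sub_le _ _).trans ?_
    linarith

end bd

theorem exr_ex {k : ℝ} (hk : 1 / 2 ≤ k) (x : Pos3) : exr k x ≤ ex x := by
  unfold exr ex
  refine Real.exp_le_exp.2 ?_
  have := mul_le_mul_of_nonneg_right hk (norm_nonneg x)
  linarith

theorem ri_le_one (n : ℕ) {x : Pos3} (hx : 1 ≤ ‖x‖) : 0 ≤ ri n x ∧ ri n x ≤ 1 := by
  unfold ri
  exact ⟨by positivity, inv_le_one_of_one_le₀ (one_le_pow₀ hx)⟩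

theorem ri4_smul {x : Pos3} (hx : 1 ≤ ‖x‖) : ‖(-((2 : ℕ) * ri (2 + 2) x)) • x‖ ≤ 2 := by
  have h0 : 0 < ‖x‖ := by linarith
  rw [norm_smul, norm_neg, norm_mul, Real.norm_of_nonneg (ri_le_one _ hx).1]
  have e : ri (2 + 2) x * ‖x‖ = ri 3 x := by
    rw [show (2 + 2 : ℕ) = 3 + 1 from rfl, ri_succ, div_mul_cancel₀ _ h0.ne']
  have h2 : ‖((2 : ℕ) : ℝ)‖ = 2 := by norm_num
  rw [h2, mul_assoc, e]
  linarith [(ri_le_one 3 hx).2]

section bars
variable {D lam κ p a m2 CD At KT aT R : ℝ} (h : PrmT D lam κ p a m2 CD At KT aT R)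
include h

theorem PrmT.norm_ge {x : Pos3} (hx : x ∈ (ExtE R : Set Pos3)) : 1 ≤ ‖x‖ := by
  have h1 : R < ‖x‖ := hx
  have h2 := h.r0
  have h3 := h.D1
  nlinarith

theorem PrmT.D0 : 0 ≤ D := by linarith [h.D1]

theorem PrmT.four {σ : ℝ} (hσ : σ = 1 ∨ σ = -1) {x : Pos3} (hx : x ∈ (ExtE R : Set Pos3)) :
    |Sx D κ p σ x| ≤ cM D * ex x ∧ |Ox D κ p σ x| ≤ cM D * ex x ∧
      ‖gSx D κ p σ x‖ ≤ cM D * ex x ∧ ‖gOx D κ p σ x‖ ≤ cM D * ex x :=
  four_ex (h.mp hσ) h.D0 (rho_far h.D1 h.r0 hx)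

theorem PrmT.sub : (ExtE R : Set Pos3) ⊆ XT.Ud D := ExtE_Ud h.D1 h.r0

theorem PrmT.k_ge : 1 / 2 ≤ κ + a / 8 := by linarith [h.κ1, h.a0]

theorem PrmT.k_le : κ + a / 8 ≤ 2 := by linarith [h.κ2, h.a1, h.m21]

theorem PrmT.exr_bd (x : Pos3) : 0 ≤ exr (κ + a / 8) x ∧ exr (κ + a / 8) x ≤ cM D * ex x := by
  refine ⟨(exr_pos _ _).le, (exr_ex h.k_ge x).trans ?_⟩
  exact le_mul_of_one_le_left (ex_pos x).le (by linarith [cM_ge h.D0])

theorem PrmT.gexr_bd {x : Pos3} (hx : x ∈ (ExtE R : Set Pos3)) :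
    ‖(-((κ + a / 8) * exr (κ + a / 8) x / ‖x‖)) • x‖ ≤ 2 * (cM D * ex x) := by
  have h0 : 0 < ‖x‖ := by linarith [h.norm_ge hx]
  obtain ⟨e1, e2⟩ := h.exr_bd x
  have hk := h.k_ge
  rw [norm_smul, norm_neg, norm_div, norm_norm, div_mul_cancel₀ _ h0.ne',
    Real.norm_of_nonneg (mul_nonneg (by linarith) e1)]
  exact mul_le_mul h.k_le e2 e1 (by norm_num)

theorem PrmT.memLp_Sx {σ : ℝ} (hσ : σ = 1 ∨ σ = -1) :
    MemLp (Sx D κ p σ) 2 (volume.restrict (ExtE R)) ∧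
      MemLp (gSx D κ p σ) 2 (volume.restrict (ExtE R)) := by
  have hU := isOpen_ExtE (ι := Fin 3) R
  have hj := (Sx_jet D κ p σ).mono (h.sub.trans inter_subset_left)
  have hm := Jet.aesm hU hj
  have hc : 0 ≤ cM D := by linarith [cM_ge h.D0]
  exact ⟨memLp_of_ex hU.measurableSet hm.1 hc fun x hx => (h.four hσ hx).1,
    memLp_of_ex hU.measurableSet hm.2 hc fun x hx => (h.four hσ hx).2.2.1⟩

theorem PrmT.memLp_bt : MemLp (bt D κ p At) 2 (volume.restrict (ExtE R)) ∧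
    MemLp (gt D κ p At) 2 (volume.restrict (ExtE R)) := by
  obtain ⟨h1, h2⟩ := h.memLp_Sx (σ := 1) (Or.inl rfl)
  exact ⟨h1.const_mul At, h2.const_smul At⟩

theorem PrmT.memLp_bN : MemLp (bN D lam κ p a KT) 2 (volume.restrict (ExtE R)) ∧
    MemLp (gN D lam κ p a KT) 2 (volume.restrict (ExtE R)) := by
  have hU := isOpen_ExtE (ι := Fin 3) R
  obtain ⟨L, hj⟩ := bN_jet D lam κ p a KT
  have hm := Jet.aesm hU (hj.mono h.sub)
  have hc : 0 ≤ cM D := by linarith [cM_ge h.D0]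
  have hK : 0 ≤ KT * lam := mul_nonneg h.KT0.le h.l0.le
  refine ⟨memLp_of_ex (C := KT * lam * (2 * cM D)) hU.measurableSet hm.1 (by positivity)
    fun x hx => ?_,
    memLp_of_ex (C := KT * lam * (5 * cM D)) hU.measurableSet hm.2 (by positivity)
    fun x hx => ?_⟩
  · obtain ⟨a1, a2, a3, a4⟩ := h.four (σ := 1) (Or.inl rfl) hx
    obtain ⟨e1, e2⟩ := h.exr_bd x
    obtain ⟨r1, r2⟩ := ri_le_one 2 (h.norm_ge hx)
    unfold bN
    rw [norm_mul, Real.norm_of_nonneg hK, mul_assoc (KT * lam)]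
    refine mul_le_mul_of_nonneg_left ?_ hK
    refine (norm_add_le _ _).trans ?_
    rw [norm_mul, Real.norm_of_nonneg r1, Real.norm_of_nonneg e1, Real.norm_eq_abs]
    have := mul_le_mul_of_nonneg_right r2 (abs_nonneg (Sx D κ p 1 x))
    linarith
  · obtain ⟨a1, a2, a3, a4⟩ := h.four (σ := 1) (Or.inl rfl) hx
    obtain ⟨r1, r2⟩ := ri_le_one 2 (h.norm_ge hx)
    have b1 := h.gexr_bd hx
    have b2 := ri4_smul (h.norm_ge hx)
    unfold gN
    rw [norm_smul, Real.norm_of_nonneg hK, mul_assoc (KT * lam)]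
    refine mul_le_mul_of_nonneg_left ?_ hK
    refine (norm_add_le _ _).trans ?_
    have c1 : ‖ri 2 x • gSx D κ p 1 x + Sx D κ p 1 x • ((-((2 : ℕ) * ri (2 + 2) x)) • x)‖ ≤
        3 * (cM D * ex x) := by
      refine (norm_add_le _ _).trans ?_
      rw [norm_smul, norm_smul (Sx D κ p 1 x), Real.norm_of_nonneg r1, Real.norm_eq_abs]
      have d1 := mul_le_mul r2 a3 (norm_nonneg _) zero_le_one
      have d2 := mul_le_mul a1 b2 (norm_nonneg _) (mul_nonneg hc (ex_pos x).le)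
      linarith
    exact (add_le_add c1 b1).trans (le_of_eq (by ring))

theorem PrmT.memLp_bP : MemLp (bP D lam κ p a KT) 2 (volume.restrict (ExtE R)) ∧
    MemLp (gP D lam κ p a KT) 2 (volume.restrict (HExt R 2)) := by
  have hU := isOpen_ExtE (ι := Fin 3) R
  have hV := isOpen_HExt (ι := Fin 3) R 2
  have hVU : (HExt R 2 : Set Pos3) ⊆ ExtE R := inter_subset_left
  obtain ⟨L, hj⟩ := bPs_jet D lam κ p a KT
  have hm := Jet.aesm hV (hj.mono (hVU.trans h.sub))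
  have hc : 0 ≤ cM D := by linarith [cM_ge h.D0]
  have hK : 0 ≤ KT * lam := mul_nonneg h.KT0.le h.l0.le
  refine ⟨memLp_of_ex (C := KT * lam * (2 * cM D)) hU.measurableSet ?_ (by positivity)
    fun x hx => ?_,
    memLp_of_ex (C := KT * lam * (6 * cM D)) hV.measurableSet hm.2 (by positivity)
    fun x hx => ?_⟩
  · have c1 : ContinuousOn (fun x : Pos3 => ri 2 x * |Ox D κ p 1 x|) (ExtE R) := by
      refine ContinuousOn.mul ?_ ?_
      · exact ((ri_jet 2).mono (h.sub.trans inter_subset_right)).smooth.continuousOn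
      · exact ((Ox_jet D κ p 1).mono (h.sub.trans inter_subset_left)).smooth.continuousOn.abs
    have c2 : ContinuousOn (fun x : Pos3 => exr (κ + a / 8) x * (1 - Real.exp (-|x 2|)))
        (ExtE R) := by
      refine Continuous.continuousOn ?_
      unfold exr
      fun_prop
    have c3 : ContinuousOn (bP D lam κ p a KT) (ExtE R) := (c1.add c2).const_mul (KT * lam)
    exact c3.aestronglyMeasurable hU.measurableSet
  · obtain ⟨a1, a2, a3, a4⟩ := h.four (σ := 1) (Or.inl rfl) hx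
    obtain ⟨e1, e2⟩ := h.exr_bd x
    obtain ⟨r1, r2⟩ := ri_le_one 2 (h.norm_ge hx)
    have z1 : 0 ≤ 1 - Real.exp (-|x 2|) := by
      have : Real.exp (-|x 2|) ≤ 1 := Real.exp_le_one_iff.2 (by linarith [abs_nonneg (x 2)])
      linarith
    have z2 : 1 - Real.exp (-|x 2|) ≤ 1 := by linarith [Real.exp_pos (-|x 2|)]
    unfold bP
    rw [norm_mul, Real.norm_of_nonneg hK, mul_assoc (KT * lam)]
    refine mul_le_mul_of_nonneg_left ?_ hK
    refine (norm_add_le _ _).trans ?_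
    rw [norm_mul, Real.norm_of_nonneg r1, norm_mul (exr _ _), Real.norm_of_nonneg e1,
      Real.norm_of_nonneg z1, Real.norm_of_nonneg (abs_nonneg _)]
    have d1 := mul_le_mul_of_nonneg_right r2 (abs_nonneg (Ox D κ p 1 x))
    have d2 := mul_le_mul_of_nonneg_left z2 e1
    linarith
  · have hxE := hVU hx
    obtain ⟨a1, a2, a3, a4⟩ := h.four (σ := 1) (Or.inl rfl) hxE
    obtain ⟨r1, r2⟩ := ri_le_one 2 (h.norm_ge hxE)
    obtain ⟨e1, e2⟩ := h.exr_bd x
    have b1 := h.gexr_bd hxE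
    have b2 := ri4_smul (h.norm_ge hxE)
    have hz : 0 < x 2 := hx.2
    have f1 := fz_nonneg hz.le
    have f2 := fz_le_one x
    have hE : 0 ≤ cM D * ex x := mul_nonneg hc (ex_pos x).le
    unfold gP
    rw [norm_smul, Real.norm_of_nonneg hK, mul_assoc (KT * lam)]
    refine mul_le_mul_of_nonneg_left ?_ hK
    refine (norm_add_le _ _).trans ?_
    have c1 : ‖ri 2 x • gOx D κ p 1 x + Ox D κ p 1 x • ((-((2 : ℕ) * ri (2 + 2) x)) • x)‖ ≤
        3 * (cM D * ex x) := by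
      refine (norm_add_le _ _).trans ?_
      rw [norm_smul, norm_smul (Ox D κ p 1 x), Real.norm_of_nonneg r1, Real.norm_eq_abs]
      have d1 := mul_le_mul r2 a4 (norm_nonneg _) zero_le_one
      have d2 := mul_le_mul a2 b2 (norm_nonneg _) hE
      linarith
    have c2 : ‖exr (κ + a / 8) x • (Real.exp (-(x 2)) • e3v) +
        fz x • ((-((κ + a / 8) * exr (κ + a / 8) x / ‖x‖)) • x)‖ ≤ 3 * (cM D * ex x) := by
      refine (norm_add_le _ _).trans ?_
      rw [norm_smul, norm_smul (Real.exp _), norm_smul (fz x), Real.norm_of_nonneg e1,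
        Real.norm_of_nonneg (Real.exp_pos _).le, Real.norm_of_nonneg f1]
      have d0 : ‖e3v‖ = 1 := by unfold e3v; simp
      have d1 : Real.exp (-(x 2)) ≤ 1 := Real.exp_le_one_iff.2 (by linarith)
      rw [d0, mul_one]
      have d2 := mul_le_mul e2 d1 (Real.exp_pos _).le hE
      have d3 := mul_le_mul f2 b1 (norm_nonneg _) zero_le_one
      linarith
    exact (add_le_add c1 c2).trans (le_of_eq (by ring))

end bars

end Crest.Agent.R335.BRT
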