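import Crest.Agent.R335.BRTb
import Crest.Agent.R335.BRTl

/-!
Row 335 (S0521), Part B sections 5-6 (note 10383), triplet sector (helper465): upper bounds by
comparison.
-/

set_option autoImplicit false
set_option linter.unusedSectionVars false
set_option linter.unusedVariables false

open MeasureTheory Filter Set Crest.MathPhysics.ThreeBody
open scoped ENNReal Topology ContDiff

noncomputable section
namespace Crest.Agent.R335.BRT
open Crest.Agent.R335

/-- the system of the triplet sector on `r > R` -/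
structure TFn (D lam κ a m2 CD R : ℝ) (f N P : Pos3 → ℝ) : Prop where
  ef : ∃ d src, H1 f d ∧ WEq (Ext R) f d (mL D lam κ) src ∧
    ∀ᵐ X : Pos3, R < ‖X‖ → |src X| ≤ lam * CD * (|f X| / ‖X‖ ^ 3 + N X / ‖X‖ ^ 2 +
      (|X 2| / ‖X‖ ^ 3 + Real.exp (-(a / 2) * ‖X‖)) * P X)
  eN : ∃ d, H1 N d ∧ WLe (Ext R) N d (fun x => mL D lam κ x + m2) (fun X =>
    lam * CD * (|f X| / ‖X‖ ^ 2 + (|X 2| / ‖X‖ ^ 2 + Real.exp (-(a / 2) * ‖X‖)) * P X +
      Real.exp (-(κ + a / 4) * ‖X‖)))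
  eP : ∃ d, H1 P d ∧ WLe (Ext R) P d (fun x => mL D lam κ x + m2) (fun X =>
    lam * CD * ((|X 2| / ‖X‖ ^ 3 + Real.exp (-(a / 2) * ‖X‖)) * |f X| +
      (|X 2| / ‖X‖ ^ 2 + Real.exp (-(a / 2) * ‖X‖)) * N X + Real.exp (-(κ + a / 4) * ‖X‖)))
  evf : ∀ x, f (rfl' 2 x) = f x
  evN : ∀ x, N (rfl' 2 x) = N x
  evP : ∀ x, P (rfl' 2 x) = P x
  N0 : ∀ x, 0 ≤ N x
  P0 : ∀ x, 0 ≤ P x
  PD : ∀ d, H1 P d → H10 {x : Pos3 | 0 < x 2} ({x : Pos3 | 0 < x 2}.indicator P)
    ({x : Pos3 | 0 < x 2}.indicator d)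

/-! ### the coefficients -/

/-- `λ C r⁻²` -/
def cA (lam CD : ℝ) (x : Pos3) : ℝ := lam * CD * (1 / ‖x‖) ^ 2
/-- `λ C (|z| r⁻³ + e^{-ar/2})` -/
def cB (lam CD a : ℝ) (x : Pos3) : ℝ :=
  lam * CD * (|x 2| * (1 / ‖x‖) ^ 3 + Real.exp (-(a / 2 * ‖x‖)))
/-- `λ C (|z| r⁻² + e^{-ar/2})` -/
def cC (lam CD a : ℝ) (x : Pos3) : ℝ :=
  lam * CD * (|x 2| * (1 / ‖x‖) ^ 2 + Real.exp (-(a / 2 * ‖x‖)))
/-- `λ C e^{-(κ + a/4) r}` -/
def cY (lam CD κ a : ℝ) (x : Pos3) : ℝ := lam * CD * Real.exp (-((κ + a / 4) * ‖x‖))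

theorem cA_rfl (lam CD : ℝ) (x : Pos3) : cA lam CD (rfl' 2 x) = cA lam CD x := by
  unfold cA; rw [norm_rfl']
theorem cB_rfl (lam CD a : ℝ) (x : Pos3) : cB lam CD a (rfl' 2 x) = cB lam CD a x := by
  unfold cB; rw [norm_rfl', abs2_rfl]
theorem cC_rfl (lam CD a : ℝ) (x : Pos3) : cC lam CD a (rfl' 2 x) = cC lam CD a x := by
  unfold cC; rw [norm_rfl', abs2_rfl]
theorem cY_rfl (lam CD κ a : ℝ) (x : Pos3) : cY lam CD κ a (rfl' 2 x) = cY lam CD κ a x := by
  unfold cY; rw [norm_rfl']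

theorem cA_meas (lam CD : ℝ) : Measurable (cA lam CD) := by unfold cA; fun_prop
theorem cB_meas (lam CD a : ℝ) : Measurable (cB lam CD a) := by
  unfold cB
  have : Measurable fun x : Pos3 => x 2 := by fun_prop
  fun_prop
theorem cC_meas (lam CD a : ℝ) : Measurable (cC lam CD a) := by
  unfold cC
  have : Measurable fun x : Pos3 => x 2 := by fun_prop
  fun_prop
theorem cY_cont (lam CD κ a : ℝ) : Continuous (cY lam CD κ a) := by unfold cY; fun_prop

theorem mL_meas (D lam κ : ℝ) : Measurable (mL D lam κ) := by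
  unfold mL V2; fun_prop

theorem absz_le (x : Pos3) : |x 2| ≤ ‖x‖ := by simpa using PiLp.norm_apply_le x 2

theorem c_bd {lam CD a : ℝ} (hl : 0 ≤ lam) (hC : 0 ≤ CD) (ha : 0 ≤ a) {x : Pos3}
    (hx : 1 ≤ ‖x‖) : (0 ≤ cA lam CD x ∧ cA lam CD x ≤ lam * CD) ∧
    (0 ≤ cB lam CD a x ∧ cB lam CD a x ≤ lam * CD * 2) ∧
    (0 ≤ cC lam CD a x ∧ cC lam CD a x ≤ lam * CD * 2) := by
  have h0 : 0 < ‖x‖ := by linarith
  have hu0 : 0 ≤ 1 / ‖x‖ := by positivity
  have hu1 : 1 / ‖x‖ ≤ 1 := by rw [div_le_one h0]; exact hx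
  have hz : |x 2| * (1 / ‖x‖) ≤ 1 := by
    rw [mul_one_div, div_le_one h0]; exact absz_le x
  have hz0 : 0 ≤ |x 2| * (1 / ‖x‖) := by positivity
  have hK : 0 ≤ lam * CD := mul_nonneg hl hC
  have he : Real.exp (-(a / 2 * ‖x‖)) ≤ 1 := Real.exp_le_one_iff.2 (by
    have : 0 ≤ a / 2 * ‖x‖ := by positivity
    linarith)
  have he0 := (Real.exp_pos (-(a / 2 * ‖x‖))).le
  have p2 : (1 / ‖x‖) ^ 2 ≤ 1 := pow_le_one₀ hu0 hu1
  have b3 : |x 2| * (1 / ‖x‖) ^ 3 ≤ 1 := by
    have : |x 2| * (1 / ‖x‖) ^ 3 = (|x 2| * (1 / ‖x‖)) * (1 / ‖x‖) ^ 2 := by ring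
    rw [this]
    exact mul_le_one₀ hz (by positivity) p2
  have b2 : |x 2| * (1 / ‖x‖) ^ 2 ≤ 1 := by
    have : |x 2| * (1 / ‖x‖) ^ 2 = (|x 2| * (1 / ‖x‖)) * (1 / ‖x‖) := by ring
    rw [this]
    exact mul_le_one₀ hz (by positivity) hu1
  unfold cA cB cC
  refine ⟨⟨by positivity, ?_⟩, ⟨by positivity, ?_⟩, ⟨by positivity, ?_⟩⟩
  · exact mul_le_of_le_one_right hK p2
  · exact mul_le_mul_of_nonneg_left (by linarith) hK
  · exact mul_le_mul_of_nonneg_left (by linarith) hK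

section up
variable {D lam κ p a m2 CD At KT aT R : ℝ} (h : PrmT D lam κ p a m2 CD At KT aT R)
  {f N P : Pos3 → ℝ} (S : TFn D lam κ a m2 CD R f N P)
include h S

/-- **upper bounds** -/
theorem upper (sh : ∀ᵐ x : Pos3, x ∈ (HExt R 2 : Set Pos3) → ‖x‖ < R + 1 →
      |f x| ≤ bt D κ p At x ∧ N x ≤ bN D lam κ p a KT x ∧ P x ≤ bP D lam κ p a KT x) :
    ∀ᵐ x : Pos3, x ∈ (HExt R 2 : Set Pos3) →
      |f x| ≤ bt D κ p At x ∧ N x ≤ bN D lam κ p a KT x ∧ P x ≤ bP D lam κ p a KT x := by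
  obtain ⟨df, src, hf1, hfe, hfs⟩ := S.ef
  obtain ⟨dN, hN1, hNe⟩ := S.eN
  obtain ⟨dP, hP1, hPe⟩ := S.eP
  have hEo : IsOpen (ExtE R : Set Pos3) := isOpen_ExtE R
  have hHo : IsOpen (HExt R 2 : Set Pos3) := isOpen_HExt R 2
  have hHE : (HExt R 2 : Set Pos3) ⊆ ExtE R := inter_subset_left
  have hEU := h.sub
  have hCD : 0 ≤ CD := by linarith [h.CD1]
  have hl := h.l0.le
  obtain ⟨LN, jN⟩ := bN_jet D lam κ p a KT
  obtain ⟨LP, jP⟩ := bPs_jet D lam κ p a KT
  have jt := bt_jet D κ p At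
  have hfa := BR.wle_abs (U := (Ext R : Set Pos3)) hEo hf1 hfe
  have hfa1 := Crest.Agent.R335.H1.abs hf1
  -- lengths
  have mPt : ∀ x : Pos3, x ∈ (HExt R 2 : Set Pos3) → BR.Pt (1 / ‖x‖) ((√‖x‖)⁻¹ ^ 3) (x 2)
      (Ox D κ p 1 x) (Sx D κ p 1 x) (Bz (κ + a / 8) x) (exr (κ + a / 8) x)
      (Real.exp (-(a / 2 * ‖x‖))) (Real.exp (-((κ + a / 4) * ‖x‖))) := fun x hx => h.Ptx hx
  have key := BR.cmp_sys (R := R) (c₀ := 1 / 4) (M := 1) h.R0 (by norm_num) (S := Fin 3)
    (fun i => i = 2)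
    (f := ![fun x => |f x|, N, P])
    (b := ![bt D κ p At, bN D lam κ p a KT, bP D lam κ p a KT])
    (df := ![fun x => if 0 < f x then df x else -df x, dN, dP])
    (G := ![gt D κ p At, gN D lam κ p a KT, gP D lam κ p a KT])
    (L := ![fun x => At * lSx D κ p 1 x, LN, LP]) ?_
    (U := ![mL D lam κ, fun x => mL D lam κ x + m2, fun x => mL D lam κ x + m2])
    (m := ![![cA lam CD, cA lam CD, cB lam CD a], ![cA lam CD, fun _ => 0, cC lam CD a],
      ![cB lam CD a, cC lam CD a, fun _ => 0]])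
    (h := ![fun _ => 0, cY lam CD κ a, cY lam CD κ a])
    (s := ![fun x => |src x|, fun X => lam * CD * (|f X| / ‖X‖ ^ 2 +
      (|X 2| / ‖X‖ ^ 2 + Real.exp (-(a / 2) * ‖X‖)) * P X + Real.exp (-(κ + a / 4) * ‖X‖)),
      fun X => lam * CD * ((|X 2| / ‖X‖ ^ 3 + Real.exp (-(a / 2) * ‖X‖)) * |f X| +
      (|X 2| / ‖X‖ ^ 2 + Real.exp (-(a / 2) * ‖X‖)) * N X + Real.exp (-(κ + a / 4) * ‖X‖))])
    ?_ ?_ ?_ ?_ ?_ ?_ ?_ ?_ ?_ ?_ ?_ ?_ ?_
  · filter_upwards [key 0, key 1, key 2] with x h0 h1 h2 hx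
    exact ⟨h0 hx, h1 hx, h2 hx⟩
  · -- components
    intro i
    fin_cases i
    · refine ⟨hfa1, Eventually.of_forall fun x => ?_, bt_rfl D κ p At, h.memLp_bt.1,
        fun hi => absurd hi (by decide), fun hi => absurd hi (by decide),
        fun hi => absurd hi (by decide), fun _ => h.memLp_bt.2, fun hi => absurd hi (by decide),
        fun _ => jt.mono hEU, ?_⟩
      · show |f (rfl' 2 x)| = |f x|
        rw [S.evf]
      · filter_upwards [sh] with x hx h1 h2 using (hx h1 h2).1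
    · refine ⟨hN1, Eventually.of_forall S.evN, bN_rfl D lam κ p a KT, h.memLp_bN.1,
        fun hi => absurd hi (by decide), fun hi => absurd hi (by decide),
        fun hi => absurd hi (by decide), fun _ => h.memLp_bN.2, fun hi => absurd hi (by decide),
        fun _ => jN.mono hEU, ?_⟩
      filter_upwards [sh] with x hx h1 h2 using (hx h1 h2).2.1
    · refine ⟨hP1, Eventually.of_forall S.evP, bP_rfl D lam κ p a KT, h.memLp_bP.1,
        fun _ => S.PD dP hP1, fun _ => Eventually.of_forall fun x hx => ?_,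
        fun _ => h.memLp_bP.2, fun hi => absurd rfl hi, fun _ => ?_, fun hi => absurd rfl hi, ?_⟩
      · show 0 ≤ bP D lam κ p a KT x
        rw [h.bP_val hx]
        have := (h.Ptx hx).O0
        have := (h.Ptx hx).B0
        have := h.KT0
        have := h.l0
        positivity
      · show Jet (HExt R 2) (bP D lam κ p a KT) (gP D lam κ p a KT) LP
        exact (jP.mono (hHE.trans hEU)).congr hHo fun x hx =>
          bP_eq (h.mp (Or.inl rfl)) (h.far hx)
      · filter_upwards [sh] with x hx h1 h2 using (hx h1 h2).2.2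
  · -- hUm
    intro i
    fin_cases i
    · exact (mL_meas D lam κ).aemeasurable
    · exact ((mL_meas D lam κ).add_const m2).aemeasurable
    · exact ((mL_meas D lam κ).add_const m2).aemeasurable
  · -- hUc
    intro i x hx
    have hb := (mL_bd h.D1 h.r0 hl (by linarith [h.l1]) h.κ1 h.κ2 hx).1
    have hm := h.m20
    fin_cases i
    · show (1 / 4 : ℝ) ≤ mL D lam κ x
      linarith
    · show (1 / 4 : ℝ) ≤ mL D lam κ x + m2
      linarith
    · show (1 / 4 : ℝ) ≤ mL D lam κ x + m2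
      linarith
  · -- hUM
    intro i x hx
    have hb := (mL_bd h.D1 h.r0 hl (by linarith [h.l1]) h.κ1 h.κ2 hx).2
    have hm := h.m21
    fin_cases i
    · show mL D lam κ x ≤ 1
      linarith
    · show mL D lam κ x + m2 ≤ 1
      linarith
    · show mL D lam κ x + m2 ≤ 1
      linarith
  · -- hUe
    intro i x
    fin_cases i
    · exact mL_rfl D lam κ x
    · show mL D lam κ (rfl' 2 x) + m2 = mL D lam κ x + m2
      rw [mL_rfl]
    · show mL D lam κ (rfl' 2 x) + m2 = mL D lam κ x + m2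
      rw [mL_rfl]
  · -- hmm
    intro i j
    have hA := (cA_meas lam CD).aemeasurable (μ := volume.restrict (ExtE R))
    have hB := (cB_meas lam CD a).aemeasurable (μ := volume.restrict (ExtE R))
    have hC := (cC_meas lam CD a).aemeasurable (μ := volume.restrict (ExtE R))
    fin_cases i <;> fin_cases j <;>
      first | exact hA | exact hB | exact hC | exact aemeasurable_const
  · -- hm0
    intro i j x hx
    obtain ⟨⟨a1, -⟩, ⟨a2, -⟩, ⟨a3, -⟩⟩ := c_bd hl hCD h.a0.le (h.norm_ge hx)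
    fin_cases i <;> fin_cases j <;> first | exact a1 | exact a2 | exact a3 | exact le_rfl
  · -- hsum
    intro i x hx
    obtain ⟨⟨a1, b1⟩, ⟨a2, b2⟩, ⟨a3, b3⟩⟩ := c_bd hl hCD h.a0.le (h.norm_ge hx)
    have hs := h.s1
    have hK : 0 ≤ lam * CD := mul_nonneg hl hCD
    rw [Fin.sum_univ_three]
    fin_cases i
    · show (cA lam CD x + cA lam CD x) + (cA lam CD x + cA lam CD x) +
        (cB lam CD a x + cB lam CD a x) ≤ 1 / 4
      linarith
    · show (cA lam CD x + cA lam CD x) + (0 + 0) + (cC lam CD a x + cC lam CD a x) ≤ 1 / 4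
      linarith
    · show (cB lam CD a x + cB lam CD a x) + (cC lam CD a x + cC lam CD a x) + (0 + 0) ≤ 1 / 4
      linarith
  · -- hme
    intro i j x
    have hA := cA_rfl lam CD x
    have hB := cB_rfl lam CD a x
    have hC := cC_rfl lam CD a x
    fin_cases i <;> fin_cases j <;> first | exact hA | exact hB | exact hC | rfl
  · -- hhl
    intro i
    have hY : LocallyIntegrableOn (cY lam CD κ a) (ExtE R) volume :=
      ((cY_cont lam CD κ a).locallyIntegrable).locallyIntegrableOn _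
    fin_cases i
    · exact (locallyIntegrable_zero (μ := volume)).locallyIntegrableOn _
    · exact hY
    · exact hY
  · -- hhe
    intro i x
    have hY := cY_rfl lam CD κ a x
    fin_cases i
    · rfl
    · exact hY
    · exact hY
  · -- hsub
    intro i
    fin_cases i
    · exact hfa
    · exact hNe
    · exact hPe
  · -- hs
    intro i
    have hx3 : ∀ x : Pos3, Real.exp (-(a / 2) * ‖x‖) = Real.exp (-(a / 2 * ‖x‖)) := fun x => by
      congr 1; ring
    have hy3 : ∀ x : Pos3, Real.exp (-(κ + a / 4) * ‖x‖) = Real.exp (-((κ + a / 4) * ‖x‖)) :=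
      fun x => by congr 1; ring
    have hK : 0 ≤ lam * CD := mul_nonneg hl hCD
    fin_cases i
    · filter_upwards [hfs] with x hx hxE
      have hx1 := hx hxE
      have hr := h.norm_ge hxE
      have h0 : 0 < ‖x‖ := by linarith
      show |src x| ≤ (∑ j : Fin 3, (![cA lam CD, cA lam CD, cB lam CD a] : Fin 3 → Pos3 → ℝ) j x *
        (![fun x => |f x|, N, P] : Fin 3 → Pos3 → ℝ) j x) + 0
      rw [Fin.sum_univ_three]
      show |src x| ≤ (cA lam CD x * |f x| + cA lam CD x * N x + cB lam CD a x * P x) + 0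
      refine hx1.trans ?_
      unfold cA cB
      rw [hx3]
      have e1 : |f x| / ‖x‖ ^ 3 ≤ (1 / ‖x‖) ^ 2 * |f x| := by
        have e2 : |f x| / ‖x‖ ^ 3 = (1 / ‖x‖) ^ 2 * |f x| * (1 / ‖x‖) := by
          field_simp
        rw [e2]
        refine mul_le_of_le_one_right (by positivity) ?_
        rw [div_le_one h0]; exact hr
      have e2 : N x / ‖x‖ ^ 2 = (1 / ‖x‖) ^ 2 * N x := by field_simp
      have e3 : |x 2| / ‖x‖ ^ 3 = |x 2| * (1 / ‖x‖) ^ 3 := by field_simp
      rw [e2, e3]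
      have := mul_le_mul_of_nonneg_left e1 hK
      linarith
    · refine Eventually.of_forall fun x hxE => ?_
      show lam * CD * (|f x| / ‖x‖ ^ 2 +
        (|x 2| / ‖x‖ ^ 2 + Real.exp (-(a / 2) * ‖x‖)) * P x + Real.exp (-(κ + a / 4) * ‖x‖)) ≤
        (∑ j : Fin 3, (![cA lam CD, fun _ => 0, cC lam CD a] : Fin 3 → Pos3 → ℝ) j x *
        (![fun x => |f x|, N, P] : Fin 3 → Pos3 → ℝ) j x) + cY lam CD κ a x
      rw [Fin.sum_univ_three]
      show _ ≤ (cA lam CD x * |f x| + 0 * N x + cC lam CD a x * P x) + cY lam CD κ a x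
      unfold cA cC cY
      rw [hx3, hy3]
      have e2 : |f x| / ‖x‖ ^ 2 = (1 / ‖x‖) ^ 2 * |f x| := by field_simp
      have e3 : |x 2| / ‖x‖ ^ 2 = |x 2| * (1 / ‖x‖) ^ 2 := by field_simp
      rw [e2, e3]
      exact le_of_eq (by ring)
    · refine Eventually.of_forall fun x hxE => ?_
      show lam * CD * ((|x 2| / ‖x‖ ^ 3 + Real.exp (-(a / 2) * ‖x‖)) * |f x| +
        (|x 2| / ‖x‖ ^ 2 + Real.exp (-(a / 2) * ‖x‖)) * N x + Real.exp (-(κ + a / 4) * ‖x‖)) ≤
        (∑ j : Fin 3, (![cB lam CD a, cC lam CD a, fun _ => 0] : Fin 3 → Pos3 → ℝ) j x *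
        (![fun x => |f x|, N, P] : Fin 3 → Pos3 → ℝ) j x) + cY lam CD κ a x
      rw [Fin.sum_univ_three]
      show _ ≤ (cB lam CD a x * |f x| + cC lam CD a x * N x + 0 * P x) + cY lam CD κ a x
      unfold cB cC cY
      rw [hx3, hy3]
      have e2 : |x 2| / ‖x‖ ^ 3 = |x 2| * (1 / ‖x‖) ^ 3 := by field_simp
      have e3 : |x 2| / ‖x‖ ^ 2 = |x 2| * (1 / ‖x‖) ^ 2 := by field_simp
      rw [e2, e3]
      exact le_of_eq (by ring)
  · -- hbar
    intro i x hx
    have hz : |x 2| = x 2 := abs_of_nonneg (le_of_lt hx.2)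
    fin_cases i
    · show (∑ j : Fin 3, (![cA lam CD, cA lam CD, cB lam CD a] : Fin 3 → Pos3 → ℝ) j x *
        (![bt D κ p At, bN D lam κ p a KT, bP D lam κ p a KT] : Fin 3 → Pos3 → ℝ) j x) + 0 ≤ _
      rw [Fin.sum_univ_three]
      refine le_trans (le_of_eq ?_) (h.hbar_t hx)
      show (cA lam CD x * bt D κ p At x + cA lam CD x * bN D lam κ p a KT x +
        cB lam CD a x * bP D lam κ p a KT x) + 0 = _
      unfold cA cB BR.srct
      rw [hz]
      ring
    · show (∑ j : Fin 3, (![cA lam CD, fun _ => 0, cC lam CD a] : Fin 3 → Pos3 → ℝ) j x *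
        (![bt D κ p At, bN D lam κ p a KT, bP D lam κ p a KT] : Fin 3 → Pos3 → ℝ) j x) +
          cY lam CD κ a x ≤ _
      rw [Fin.sum_univ_three]
      refine le_trans (le_of_eq ?_) (h.hbar_N hx)
      show (cA lam CD x * bt D κ p At x + 0 * bN D lam κ p a KT x +
        cC lam CD a x * bP D lam κ p a KT x) + cY lam CD κ a x = _
      unfold cA cC cY BR.srcNT
      rw [hz]
      ring
    · show (∑ j : Fin 3, (![cB lam CD a, cC lam CD a, fun _ => 0] : Fin 3 → Pos3 → ℝ) j x *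
        (![bt D κ p At, bN D lam κ p a KT, bP D lam κ p a KT] : Fin 3 → Pos3 → ℝ) j x) +
          cY lam CD κ a x ≤ _
      rw [Fin.sum_univ_three]
      refine le_trans (le_of_eq ?_) (h.hbar_P hx)
      show (cB lam CD a x * bt D κ p At x + cC lam CD a x * bN D lam κ p a KT x +
        0 * bP D lam κ p a KT x) + cY lam CD κ a x = _
      unfold cB cC cY BR.srcPT
      rw [hz]
      ring

omit S in
theorem b_nonneg {x : Pos3} (hx : x ∈ (HExt R 2 : Set Pos3)) :
    0 ≤ bt D κ p At x ∧ 0 ≤ bN D lam κ p a KT x ∧ 0 ≤ bP D lam κ p a KT x := by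
  rw [h.bP_val hx, PrmT.bN_val h, PrmT.bt_val h]
  have hP := h.Ptx hx
  have h1 := hP.O0
  have h2 := hP.B0
  have h3 := hP.S0
  have h4 := hP.e0
  have h5 := h.KT0
  have h6 := h.l0
  have h7 := h.At0
  refine ⟨by positivity, by positivity, by positivity⟩

/-- **lower bound of `t`** -/
theorem lower (up : ∀ᵐ x : Pos3, x ∈ (HExt R 2 : Set Pos3) →
      |f x| ≤ bt D κ p At x ∧ N x ≤ bN D lam κ p a KT x ∧ P x ≤ bP D lam κ p a KT x)
    (sh : ∀ᵐ x : Pos3, x ∈ (HExt R 2 : Set Pos3) → ‖x‖ < R + 1 →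
      aT * Sx D κ p (-1) x ≤ f x) :
    ∀ᵐ x : Pos3, x ∈ (HExt R 2 : Set Pos3) → aT * Sx D κ p (-1) x ≤ f x := by
  obtain ⟨df, src, hf1, hfe, hfs⟩ := S.ef
  have hEo : IsOpen (ExtE R : Set Pos3) := isOpen_ExtE R
  have hHo : IsOpen (HExt R 2 : Set Pos3) := isOpen_HExt R 2
  have hHE : (HExt R 2 : Set Pos3) ⊆ ExtE R := inter_subset_left
  have hEU := h.sub
  have hCD : 0 ≤ CD := by linarith [h.CD1]
  have hl := h.l0.le
  have hK : 0 ≤ lam * CD := mul_nonneg hl hCD
  have hx3 : ∀ x : Pos3, Real.exp (-(a / 2) * ‖x‖) = Real.exp (-(a / 2 * ‖x‖)) := fun x => by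
    congr 1; ring
  -- the negative of `f`
  have hn1 : H1 (fun x => -f x) (fun x => -df x) := by
    refine (Crest.Agent.R335.H1.const_mul hf1 (-1)).congr (Eventually.of_forall fun x => ?_)
      (Eventually.of_forall fun x => ?_)
    · simp only; ring
    · simp only [neg_smul, one_smul]
  have hne : WLe (Ext R) (fun x => -f x) (fun x => -df x) (mL D lam κ) (fun x => -src x) := by
    refine ⟨?_, hfe.if'.neg, fun φ hφ h0 => ?_⟩
    · refine hfe.ims.neg.congr (Eventually.of_forall fun x => ?_)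
      simp only [Pi.neg_apply]; ring
    · have e0 := hfe.eq φ hφ
      have e1 : ∫ x, inner ℝ (-df x) (gr φ x) = -∫ x, inner ℝ (df x) (gr φ x) := by
        rw [← integral_neg]
        exact integral_congr_ae (Eventually.of_forall fun x => inner_neg_left _ _)
      have e2 : ∫ x, mL D lam κ x * -f x * φ x = -∫ x, mL D lam κ x * f x * φ x := by
        rw [← integral_neg]
        exact integral_congr_ae (Eventually.of_forall fun x => by simp only; ring)
      have e3 : ∫ x, -src x * φ x = -∫ x, src x * φ x := by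
        rw [← integral_neg]
        exact integral_congr_ae (Eventually.of_forall fun x => by simp only; ring)
      rw [e1, e2, e3]
      linarith
  obtain ⟨s2, g2⟩ := h.memLp_Sx (σ := -1) (Or.inr rfl)
  have j2 : Jet (ExtE R : Set Pos3) (fun x => -(aT * Sx D κ p (-1) x))
      (fun x => -aT • gSx D κ p (-1) x) (fun x => -aT * lSx D κ p (-1) x) := by
    refine ((((Sx_jet D κ p (-1)).mono (hEU.trans inter_subset_left)).const_mul hEo (-aT)).congr
      hEo fun x hx => ?_)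
    ring
  have hcb : ∀ {c b : Pos3 → ℝ} {M : ℝ}, Measurable c →
      (∀ x, x ∈ (ExtE R : Set Pos3) → 0 ≤ c x ∧ c x ≤ M) →
      MemLp b 2 (volume.restrict (ExtE R)) →
      MemLp (fun x => c x * b x) 2 (volume.restrict (ExtE R)) := fun {c b M} hc hb hm =>
    memLp_bdd_mul (C := M) hc.aemeasurable (by
      filter_upwards [ae_restrict_mem hEo.measurableSet] with x hx
      rw [abs_of_nonneg (hb x hx).1]
      exact (hb x hx).2) hm
  have hc : ∀ x : Pos3, x ∈ (ExtE R : Set Pos3) →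
      (0 ≤ cA lam CD x ∧ cA lam CD x ≤ lam * CD) ∧
      (0 ≤ cB lam CD a x ∧ cB lam CD a x ≤ lam * CD * 2) ∧
      (0 ≤ cC lam CD a x ∧ cC lam CD a x ≤ lam * CD * 2) := fun x hx =>
    c_bd hl hCD h.a0.le (h.norm_ge hx)
  have hH : MemLp (fun x => cA lam CD x * bt D κ p At x + cA lam CD x * bN D lam κ p a KT x +
      cB lam CD a x * bP D lam κ p a KT x) 2 (volume.restrict (ExtE R)) :=
    ((hcb (cA_meas lam CD) (fun x hx => (hc x hx).1) h.memLp_bt.1).add
      (hcb (cA_meas lam CD) (fun x hx => (hc x hx).1) h.memLp_bN.1)).add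
      (hcb (cB_meas lam CD a) (fun x hx => (hc x hx).2.1) h.memLp_bP.1)
  have key := BR.cmp_sys (R := R) (c₀ := 1 / 4) (M := 1) h.R0 (by norm_num) (S := Unit)
    (fun _ => False) (f := fun _ x => -f x) (b := fun _ x => -(aT * Sx D κ p (-1) x))
    (df := fun _ x => -df x) (G := fun _ x => -aT • gSx D κ p (-1) x)
    (L := fun _ x => -aT * lSx D κ p (-1) x)
    (fun _ => ⟨hn1, Eventually.of_forall fun x => by rw [S.evf],
      fun x => by rw [Sx_rfl], (s2.const_mul aT).neg, fun hi => hi.elim, fun hi => hi.elim,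
      fun hi => hi.elim, fun _ => g2.const_smul (-aT), fun hi => hi.elim, fun _ => j2, by
        filter_upwards [sh] with x hx h1 h2
        have := hx h1 h2
        linarith⟩)
    (U := fun _ => mL D lam κ) (m := fun _ _ _ => 0)
    (h := fun _ x => cA lam CD x * bt D κ p At x + cA lam CD x * bN D lam κ p a KT x +
      cB lam CD a x * bP D lam κ p a KT x)
    (s := fun _ x => -src x)
    (fun _ => (mL_meas D lam κ).aemeasurable)
    (fun _ x hx => by
      have := (mL_bd h.D1 h.r0 hl (by linarith [h.l1]) h.κ1 h.κ2 hx).1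
      linarith)
    (fun _ x hx => by
      have := (mL_bd h.D1 h.r0 hl (by linarith [h.l1]) h.κ1 h.κ2 hx).2
      linarith)
    (fun _ x => mL_rfl D lam κ x)
    (fun _ _ => aemeasurable_const) (fun _ _ _ _ => le_rfl)
    (fun _ x _ => by simp) (fun _ _ _ => rfl)
    (fun _ => locallyIntegrableOn_of_locallyIntegrable_restrict
      (hH.locallyIntegrable (by norm_num)))
    (fun _ x => by simp only [cA_rfl, cB_rfl, bt_rfl, bN_rfl, bP_rfl])
    (fun _ => hne) (fun _ => ?_) (fun _ x hx => ?_)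
  · filter_upwards [key ()] with x hx h1
    have := hx h1
    linarith
  · -- source
    have hev : ∀ᵐ x : Pos3, x 2 ≠ 0 := by
      rw [ae_iff]; simpa using volume_coord_eq_zero (2 : Fin 3)
    filter_upwards [hfs, up, ae_comp_rfl' 2 up, hev] with x h1 h2 h3 h4 hxE
    have hx1 := h1 hxE
    have hr := h.norm_ge hxE
    have h0 : 0 < ‖x‖ := by linarith
    obtain ⟨u1, u2, u3⟩ : |f x| ≤ bt D κ p At x ∧ N x ≤ bN D lam κ p a KT x ∧
        P x ≤ bP D lam κ p a KT x := by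
      rcases lt_or_gt_of_ne h4 with hz | hz
      · have hm : rfl' 2 x ∈ (HExt R 2 : Set Pos3) := by
          refine ⟨ExtE_symm R 2 x hxE, ?_⟩
          show 0 < rfl' 2 x 2
          rw [rfl'_apply, if_pos rfl]; linarith
        have := h3 hm
        rwa [S.evf, S.evN, S.evP, bt_rfl, bN_rfl, bP_rfl] at this
      · exact h2 ⟨hxE, hz⟩
    simp only [zero_mul, Finset.sum_const_zero, zero_add]
    refine (neg_le_abs _).trans (hx1.trans ?_)
    obtain ⟨⟨a1, -⟩, ⟨a2, -⟩, -⟩ := hc x hxE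
    have e1 : |f x| / ‖x‖ ^ 3 ≤ (1 / ‖x‖) ^ 2 * |f x| := by
      have e2 : |f x| / ‖x‖ ^ 3 = (1 / ‖x‖) ^ 2 * |f x| * (1 / ‖x‖) := by
        field_simp
      rw [e2]
      refine mul_le_of_le_one_right (by positivity) ?_
      rw [div_le_one h0]; exact hr
    have e2 : N x / ‖x‖ ^ 2 = (1 / ‖x‖) ^ 2 * N x := by field_simp
    have e3 : |x 2| / ‖x‖ ^ 3 = |x 2| * (1 / ‖x‖) ^ 3 := by field_simp
    have e4 : lam * CD * (|f x| / ‖x‖ ^ 3 + N x / ‖x‖ ^ 2 +
        (|x 2| / ‖x‖ ^ 3 + Real.exp (-(a / 2) * ‖x‖)) * P x) ≤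
        cA lam CD x * |f x| + cA lam CD x * N x + cB lam CD a x * P x := by
      unfold cA cB
      rw [e2, e3, hx3]
      have := mul_le_mul_of_nonneg_left e1 hK
      linarith
    refine e4.trans ?_
    have b1 := mul_le_mul_of_nonneg_left u1 a1
    have b2 := mul_le_mul_of_nonneg_left u2 a1
    have b3 := mul_le_mul_of_nonneg_left u3 a2
    linarith
  · have hz : |x 2| = x 2 := abs_of_nonneg (le_of_lt hx.2)
    simp only [zero_mul, Finset.sum_const_zero, zero_add]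
    refine le_trans (le_of_eq ?_) (h.hbar_low hx)
    unfold cA cB BR.srct
    rw [hz]
    ring

end up

end Crest.Agent.R335.BRT
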