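import Crest.Agent.R335.BRTc
import Crest.Agent.R335.OGOut

/-!
Row 335 (S0521), Part B sections 5-6 (note 10383), triplet sector (helper465): closeness of the
profiles on a compact range, bounds on the shell.
-/

set_option autoImplicit false
set_option linter.unusedSectionVars false
set_option linter.unusedVariables false

open MeasureTheory Filter Set Crest.MathPhysics.ThreeBody
open scoped ENNReal Topology ContDiff

noncomputable section
namespace Crest.Agent.R335.BRT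
open Crest.Agent.R335

/-- closeness of the profiles on a compact range -/
theorem Em_close {κ κ' Q Q' p p' σ δ T : ℝ} (h : MPar κ Q p σ) (h' : MPar κ' Q' p' σ)
    (hκ : |κ - κ'| ≤ δ) (hp : |p - p'| ≤ δ) (hT : δ * T ≤ 1 / 4) {t : ℝ} (ht : 100 ≤ t)
    (htT : t ≤ T) : Em κ p σ t ≤ 2 * Em κ' p' σ t := by
  have h0 : 0 < t := by linarith
  have hδ : 0 ≤ δ := (abs_nonneg _).trans hκ
  obtain ⟨u0, u1⟩ := XM.u_bounds ht
  rw [Em_eq h0, Em_eq h0]
  have hσ : 0 ≤ 1 - σ * (√t)⁻¹ := by rcases h.hσ with rfl | rfl <;> linarith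
  rw [← mul_assoc]
  refine mul_le_mul_of_nonneg_right ?_ hσ
  unfold ee
  rw [Real.rpow_def_of_pos h0, Real.rpow_def_of_pos h0, ← Real.exp_add, ← Real.exp_add]
  have hlog0 : 0 ≤ Real.log t := Real.log_nonneg (by linarith)
  have hlog1 : Real.log t ≤ t := by
    have := Real.log_le_sub_one_of_pos h0
    linarith
  have e1 : -(κ * t) + Real.log t * p ≤ 1 / 2 + (-(κ' * t) + Real.log t * p') := by
    have a1 : (κ' - κ) * t ≤ δ * T := by
      have : κ' - κ ≤ δ := by linarith [neg_abs_le (κ - κ')]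
      exact mul_le_mul this htT h0.le hδ
    have a2 : Real.log t * (p - p') ≤ δ * T := by
      have b1 : p - p' ≤ δ := (le_abs_self _).trans hp
      calc Real.log t * (p - p') ≤ Real.log t * δ := mul_le_mul_of_nonneg_left b1 hlog0
        _ ≤ T * δ := mul_le_mul_of_nonneg_right (hlog1.trans htT) hδ
        _ = _ := by ring
    linarith
  have e2 : Real.exp (1 / 2) ≤ 2 := by
    have := Real.exp_one_lt_d9
    have h3 : Real.exp (1 / 2) * Real.exp (1 / 2) = Real.exp 1 := by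
      rw [← Real.exp_add]; norm_num
    have h4 := Real.exp_pos (1 / 2 : ℝ)
    nlinarith
  calc Real.exp (-(κ * t) + Real.log t * p) ≤
      Real.exp (1 / 2 + (-(κ' * t) + Real.log t * p')) := Real.exp_le_exp.2 e1
    _ = Real.exp (1 / 2) * Real.exp (-(κ' * t) + Real.log t * p') := Real.exp_add _ _
    _ ≤ _ := mul_le_mul_of_nonneg_right e2 (Real.exp_pos _).le

theorem Sx_close {D κ κ' Q Q' p p' σ δ R : ℝ} (h : MPar κ Q p σ) (h' : MPar κ' Q' p' σ)
    (hκ : |κ - κ'| ≤ δ) (hp : |p - p'| ≤ δ) (hD : 0 ≤ D) (hT : δ * (R + 1 + D) ≤ 1 / 4)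
    {x : Pos3} (hx : XFar D x) (hxR : ‖x‖ < R + 1) :
    Sx D κ p σ x ≤ 2 * Sx D κ' p' σ x := by
  unfold Sx
  have h1 := XT.rp_le x hD
  have h2 := XT.rm_le x hD
  have a1 := Em_close h h' hκ hp hT hx.reg.rp (by linarith)
  have a2 := Em_close h h' hκ hp hT hx.reg.rm (by linarith)
  linarith

/-- closeness of the parameters -/
theorem par_close {κ κg lam K eg : ℝ} (k1 : 9 / 10 ≤ κ) (k2 : κ ≤ 11 / 10) (g1 : 9 / 10 ≤ κg)
    (g2 : κg ≤ 11 / 10) (hl : 0 ≤ lam) (hg : κg ^ 2 = -2 * eg) (h : |κ ^ 2 + 2 * eg| ≤ K * lam) :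
    |κ - κg| ≤ (3 * K + 3) * lam ∧
      |(2 * (1 - lam) / κ - 1) - (2 / κg - 1)| ≤ (3 * K + 3) * lam := by
  have hK : 0 ≤ K * lam := (abs_nonneg _).trans h
  have e1 : |κ - κg| ≤ K * lam := by
    have h1 : κ ^ 2 + 2 * eg = (κ - κg) * (κ + κg) := by
      have : 2 * eg = -κg ^ 2 := by linarith
      rw [this]; ring
    rw [h1, abs_mul, abs_of_pos (by linarith : 0 < κ + κg)] at h
    have h2 : |κ - κg| * 1 ≤ |κ - κg| * (κ + κg) :=
      mul_le_mul_of_nonneg_left (by linarith) (abs_nonneg _)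
    linarith
  refine ⟨by linarith, ?_⟩
  have hk : 0 < κ := by linarith
  have hkg : 0 < κg := by linarith
  have e2 : (2 * (1 - lam) / κ - 1) - (2 / κg - 1) =
      2 / (κ * κg) * (κg - κ) - 2 / κ * lam := by
    field_simp
    ring
  rw [e2]
  have a1 : 2 / (κ * κg) ≤ 3 := by
    rw [div_le_iff₀ (by positivity)]
    nlinarith
  have a2 : 2 / κ ≤ 3 := by
    rw [div_le_iff₀ hk]; linarith
  have a3 : 0 ≤ 2 / (κ * κg) := by positivity
  have a4 : 0 ≤ 2 / κ := by positivity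
  calc |2 / (κ * κg) * (κg - κ) - 2 / κ * lam| ≤
      |2 / (κ * κg) * (κg - κ)| + |2 / κ * lam| := abs_sub _ _
    _ = 2 / (κ * κg) * |κ - κg| + 2 / κ * lam := by
        rw [abs_mul, abs_mul, abs_of_nonneg a3, abs_of_nonneg a4, abs_of_nonneg hl,
          abs_sub_comm κg κ]
    _ ≤ 3 * (K * lam) + 3 * lam := by
        refine add_le_add ?_ (mul_le_mul_of_nonneg_right a2 hl)
        exact mul_le_mul a1 e1 (abs_nonneg _) (by norm_num)
    _ = _ := by ring

/-- constant of the shell -/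
def s0 (D R : ℝ) : ℝ := 0.44 * Real.exp (-(1.1 * D)) * Real.exp (-(1.1 * (R + 1))) / (R + 1)

theorem s0_pos {D R : ℝ} (hR : 0 ≤ R) : 0 < s0 D R := by unfold s0; positivity

theorem Sx_s0 {D κ Q p σ R : ℝ} (h : MPar κ Q p σ) (hR : 0 ≤ R) {x : Pos3} (hx : XFar D x)
    (hxR : ‖x‖ < R + 1) : s0 D R ≤ Sx D κ p σ x := by
  have h1 := Crest.Agent.R335.Sx_lower h hx
  refine le_trans ?_ h1
  unfold s0
  have e1 : Real.exp (-(1.1 * (R + 1))) ≤ Real.exp (-(κ * ‖x‖)) := by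
    refine Real.exp_le_exp.2 ?_
    have := mul_le_mul h.k2 hxR.le (norm_nonneg x) (by norm_num)
    linarith
  rw [div_le_iff₀ (by linarith)]
  have e2 : 0.44 * Real.exp (-(1.1 * D)) * Real.exp (-(1.1 * (R + 1))) ≤
      0.9 * Real.exp (-(1.1 * D)) * Real.exp (-(κ * ‖x‖)) :=
    mul_le_mul (mul_le_mul_of_nonneg_right (by norm_num) (Real.exp_pos _).le) e1
      (Real.exp_pos _).le (by positivity)
  refine e2.trans ?_
  exact le_mul_of_one_le_right (by positivity) (by linarith)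

theorem Ox_s0 {D κ Q p σ R : ℝ} (h : MPar κ Q p σ) (hR : 0 ≤ R) {x : Pos3} (hx : XFar D x)
    (hxR : ‖x‖ < R + 1) : s0 D R * x 2 ≤ Ox D κ p σ x := by
  have h1 := Crest.Agent.R335.Ox_lower h hx
  refine le_trans ?_ h1
  have hr := hx.rpos
  have hz := hx.z0
  unfold s0
  have e1 : Real.exp (-(1.1 * (R + 1))) ≤ Real.exp (-(κ * ‖x‖)) := by
    refine Real.exp_le_exp.2 ?_
    have := mul_le_mul h.k2 hxR.le (norm_nonneg x) (by norm_num)
    linarith
  have e2 : x 2 / (R + 1) ≤ x 2 / ‖x‖ := div_le_div_of_nonneg_left hz hr hxR.le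
  calc 0.44 * Real.exp (-(1.1 * D)) * Real.exp (-(1.1 * (R + 1))) / (R + 1) * x 2 =
      0.44 * Real.exp (-(1.1 * D)) * Real.exp (-(1.1 * (R + 1))) * (x 2 / (R + 1)) := by ring
    _ ≤ 0.44 * Real.exp (-(1.1 * D)) * Real.exp (-(κ * ‖x‖)) * (x 2 / ‖x‖) :=
      mul_le_mul (mul_le_mul_of_nonneg_left e1 (by positivity)) e2
        (div_nonneg hz (by linarith)) (by positivity)

end Crest.Agent.R335.BRT
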