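import Crest.Agent.R335.BRTe
import Crest.Agent.R335.TNum

/-!
Row 335 (S0521), Part B sections 5-6 (note 10383), triplet sector (helper465): the bounds of the
triplet functions (fields `tT0 … PB` of `BO.Scal`).
-/

set_option autoImplicit false
set_option linter.unusedSectionVars false
set_option linter.unusedVariables false

open MeasureTheory Filter Set Crest.MathPhysics.ThreeBody
open scoped ENNReal Topology ContDiff

noncomputable section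
namespace Crest.Agent.R335.BRT
open Crest.Agent.R335

/-- the bounds of one triplet channel function at a point -/
structure OutT {cg C0 D : ℝ} {B : OBD cg C0 D} {K lam : ℝ} (S : Sys B K lam) (Y : Config3 → ℝ)
    (P K2 : ℝ) (x : Pos3) : Prop where
  t0 : 0 ≤ S.t Y x
  up : S.t Y x ≤ P * CX.SS D S.κT (2 * (1 - lam)) (-1) x
  low : CX.SS D S.κT (2 * (1 - lam)) 1 x ≤ P * S.t Y x
  NT : S.NT Y x ≤ K2 * S.t Y x
  NTup : S.NT Y x ≤ P * CX.SS D S.κT (2 * (1 - lam)) (-1) x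
  PT : S.PT Y x ≤ K2 * lam / ‖x‖ ^ 2 * CX.OO D S.κ (2 * (1 - lam)) 1 x

theorem WEq.mono' {U V : Set Pos3} (hVU : V ⊆ U) {s : Pos3 → ℝ}
    {ds : Pos3 → Pos3} {m f : Pos3 → ℝ} (h : WEq U s ds m f) : WEq V s ds m f :=
  ⟨h.ims.mono_set hVU, h.if'.mono_set hVU, fun φ hφ => h.eq φ (hφ.mono hVU)⟩

theorem Ext_anti {R R' : ℝ} (h : R ≤ R') : (Ext R' : Set Pos3) ⊆ Ext R := fun x hx =>
  lt_of_le_of_lt h hx

section fin
variable {cg C0 D : ℝ} {B : OBD cg C0 D} {K lam : ℝ} (S : Sys B K lam)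

/-- the abstract system, from (3.6) -/
theorem tfn {Y : Config3 → ℝ} (hY : Y = S.YT ∨ Y = S.YB) {K' R : ℝ} (hR : K' ≤ R)
    (h : (∃ d src, H1 (S.t Y) d ∧ WEq (Ext K') (S.t Y) d (mL D lam S.κT) src ∧
        ∀ᵐ X : Pos3, K' < ‖X‖ → |src X| ≤ lam * K' * (|S.t Y X| / ‖X‖ ^ 3 + S.NT Y X / ‖X‖ ^ 2 +
          (|X 2| / ‖X‖ ^ 3 + Real.exp (-(B.a / 2) * ‖X‖)) * S.PT Y X)) ∧
      (∃ d, H1 (S.NT Y) d ∧
        WLe (Ext K') (S.NT Y) d (fun x => mL D lam S.κT x + cg / 32) (fun X =>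
          lam * K' * (|S.t Y X| / ‖X‖ ^ 2 +
          (|X 2| / ‖X‖ ^ 2 + Real.exp (-(B.a / 2) * ‖X‖)) * S.PT Y X +
          Real.exp (-(S.κT + B.a / 4) * ‖X‖)))) ∧
      (∃ d, H1 (S.PT Y) d ∧
        WLe (Ext K') (S.PT Y) d (fun x => mL D lam S.κT x + cg / 32) (fun X => lam * K' *
          ((|X 2| / ‖X‖ ^ 3 + Real.exp (-(B.a / 2) * ‖X‖)) * |S.t Y X| +
          (|X 2| / ‖X‖ ^ 2 + Real.exp (-(B.a / 2) * ‖X‖)) * S.NT Y X +
          Real.exp (-(S.κT + B.a / 4) * ‖X‖))))) :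
    TFn D lam S.κT B.a (cg / 32) K' R (S.t Y) (S.NT Y) (S.PT Y) := by
  obtain ⟨⟨d1, src, h1, h2, h3⟩, ⟨d2, h4, h5⟩, ⟨d3, h6, h7⟩⟩ := h
  have hE : IsOpen (Ext R : Set Pos3) := isOpen_ExtE R
  refine ⟨⟨d1, src, h1, WEq.mono' (Ext_anti hR) h2, ?_⟩,
    ⟨d2, h4, BR.WLe.mono' hE (Ext_anti hR) h5⟩, ⟨d3, h6, BR.WLe.mono' hE (Ext_anti hR) h7⟩,
    BR.Par.t_rfl S hY, BR.Par.NT_rfl S hY, BR.Par.PT_rfl S hY,
    fun x => Real.sqrt_nonneg _, fun x => Real.sqrt_nonneg _,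
    fun d hd => BR.Par.H10_PT S hY hd⟩
  filter_upwards [h3] with x hx hxR
  exact hx (lt_of_le_of_lt hR hxR)

/-- from the comparison to the output -/
theorem out_pt {Y : Config3 → ℝ} {CD At KT aT R P K2 : ℝ}
    (h : PrmT D lam S.κT (2 * (1 - lam) / S.κT - 1) B.a (cg / 32) CD At KT aT R)
    (hκ1 : 9 / 10 ≤ S.κ) (hκ : S.κ ≤ S.κT) (hKT : KT * lam ≤ 1 / 8)
    (hP1 : At ≤ P) (hP2 : 1 ≤ P * aT) (hP3 : 1 ≤ P)
    (hK2 : 1 ≤ K2 * aT) (hK2' : 10 * D * KT ≤ K2) {x : Pos3} (hx : x ∈ (HExt R 2 : Set Pos3))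
    (u : |S.t Y x| ≤ bt D S.κT (2 * (1 - lam) / S.κT - 1) At x ∧
      S.NT Y x ≤ bN D lam S.κT (2 * (1 - lam) / S.κT - 1) B.a KT x ∧
      S.PT Y x ≤ bP D lam S.κT (2 * (1 - lam) / S.κT - 1) B.a KT x)
    (l : aT * Sx D S.κT (2 * (1 - lam) / S.κT - 1) (-1) x ≤ S.t Y x) :
    OutT S Y P K2 x := by
  obtain ⟨u1, u2, u3⟩ := u
  have hm := h.mp (σ := 1) (Or.inl rfl)
  have hm' := h.mp (σ := -1) (Or.inr rfl)
  have hf := h.far hx
  have hP := h.Ptx hx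
  have hmem := hf.reg.mem
  have hmk : MPar S.κ (2 * (1 - lam)) (2 * (1 - lam) / S.κ - 1) (-1) :=
    MPar.of_Q (by linarith) (by linarith [h.κ2]) (by linarith [h.l1]) (by linarith [h.l0])
      (Or.inr rfl)
  have hmk1 : MPar S.κ (2 * (1 - lam)) (2 * (1 - lam) / S.κ - 1) 1 :=
    MPar.of_Q (by linarith) (by linarith [h.κ2]) (by linarith [h.l1]) (by linarith [h.l0])
      (Or.inl rfl)
  have hS0 := hP.S0
  have hSp := Sx_pos hm' hf.reg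
  have hSS := BR.Sx_sign (κ := S.κT) (p := 2 * (1 - lam) / S.κT - 1) hf.reg
  have hKl : 0 ≤ KT * lam := mul_nonneg h.KT0.le h.l0.le
  have haT := h.aT0
  have hP0 : 0 ≤ P := by linarith
  have hK20 : 0 ≤ K2 := by
    have : 0 ≤ 10 * D * KT := by have := h.D0; have := h.KT0; positivity
    linarith
  -- `N_T ≤ 2 K_T λ S^-`
  have hN : S.NT Y x ≤ 1 / 4 * Sx D S.κT (2 * (1 - lam) / S.κT - 1) 1 x := by
    refine u2.trans ?_
    rw [PrmT.bN_val h]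
    have e1 : (1 / ‖x‖) ^ 2 * Sx D S.κT (2 * (1 - lam) / S.κT - 1) 1 x +
        exr (S.κT + B.a / 8) x ≤ 2 * Sx D S.κT (2 * (1 - lam) / S.κT - 1) 1 x := by
      linarith [hP.uS 2, hP.eS]
    calc _ ≤ KT * lam * (2 * Sx D S.κT (2 * (1 - lam) / S.κT - 1) 1 x) :=
          mul_le_mul_of_nonneg_left e1 hKl
      _ ≤ 1 / 8 * (2 * Sx D S.κT (2 * (1 - lam) / S.κT - 1) 1 x) :=
          mul_le_mul_of_nonneg_right hKT (by linarith)
      _ = _ := by ring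
  have ht0 : 0 ≤ S.t Y x := (mul_nonneg haT.le hSp.le).trans l
  refine ⟨ht0, ?_, ?_, ?_, ?_, ?_⟩
  · rw [SS_neg_eq _ _ _ hmem]
    refine (le_abs_self _).trans (u1.trans ?_)
    exact mul_le_mul_of_nonneg_right hP1 hS0
  · rw [SS_eq_Sx _ _ _ _ hmem]
    have e1 := mul_le_mul_of_nonneg_left l hP0
    have e2 := mul_le_mul_of_nonneg_right hP2 hSp.le
    linarith
  · have e1 := mul_le_mul_of_nonneg_left l hK20
    have e2 := mul_le_mul_of_nonneg_right hK2 hSp.le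
    linarith
  · rw [SS_neg_eq _ _ _ hmem]
    refine hN.trans ?_
    have := mul_le_mul_of_nonneg_right hP3 hS0
    linarith
  · rw [OO_eq_Ox _ _ _ _ hmem]
    refine u3.trans ?_
    rw [h.bP_val hx]
    have hO := hP.O0
    have hB2 : Bz (S.κT + B.a / 8) x ≤ (1 / ‖x‖) ^ 2 * Ox D S.κT (2 * (1 - lam) / S.κT - 1) 1 x :=
      hP.B1.trans (mul_le_mul_of_nonneg_right (hP.upow (by norm_num)) hO)
    have hu : 0 ≤ (1 / ‖x‖) ^ 2 := by positivity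
    have hE : Em S.κT (2 * (1 - lam) / S.κT - 1) 1 ‖x - nuc D‖ ≤
        Em S.κ (2 * (1 - lam) / S.κ - 1) (-1) ‖x - nuc D‖ :=
      (BR.Em_mono hmk1 hm hκ hf.reg.rp).trans (BR.Em_sign hf.reg.rp)
    have hOc := BR.Ox_comp hmk hm hf.reg hE
    have hOp := Ox_nonneg hmk hf.reg
    have e1 : (1 / ‖x‖) ^ 2 * Ox D S.κT (2 * (1 - lam) / S.κT - 1) 1 x +
        Bz (S.κT + B.a / 8) x ≤
        2 * ((1 / ‖x‖) ^ 2 * (4.8 * D * Ox D S.κ (2 * (1 - lam) / S.κ - 1) (-1) x)) := by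
      have := mul_le_mul_of_nonneg_left hOc hu
      linarith
    have e2 : K2 * lam / ‖x‖ ^ 2 * Ox D S.κ (2 * (1 - lam) / S.κ - 1) (-1) x =
        K2 * (lam * ((1 / ‖x‖) ^ 2 * Ox D S.κ (2 * (1 - lam) / S.κ - 1) (-1) x)) := by
      rw [one_div, inv_pow]; ring
    rw [e2]
    have hX : 0 ≤ lam * ((1 / ‖x‖) ^ 2 * Ox D S.κ (2 * (1 - lam) / S.κ - 1) (-1) x) :=
      mul_nonneg h.l0.le (mul_nonneg hu hOp)
    have hDK : 0 ≤ D * KT := mul_nonneg h.D0 h.KT0.le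
    calc _ ≤ KT * lam * (2 * ((1 / ‖x‖) ^ 2 * (4.8 * D *
          Ox D S.κ (2 * (1 - lam) / S.κ - 1) (-1) x))) := mul_le_mul_of_nonneg_left e1 hKl
      _ = 9.6 * (D * KT) * (lam * ((1 / ‖x‖) ^ 2 *
          Ox D S.κ (2 * (1 - lam) / S.κ - 1) (-1) x)) := by ring
      _ ≤ K2 * (lam * ((1 / ‖x‖) ^ 2 * Ox D S.κ (2 * (1 - lam) / S.κ - 1) (-1) x)) :=
          mul_le_mul_of_nonneg_right (by linarith) hX

end fin

theorem small1 (X : ℝ) {Y : ℝ} (hY : 0 < Y) :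
    ∃ l : ℝ, 0 < l ∧ ∀ lam, 0 < lam → lam ≤ l → lam * X ≤ Y := by
  have hX : 0 < |X| + 1 := by have := abs_nonneg X; linarith
  refine ⟨Y / (|X| + 1), by positivity, fun lam h0 h => ?_⟩
  rw [le_div_iff₀ hX] at h
  have : lam * X ≤ lam * |X| := mul_le_mul_of_nonneg_left (le_abs_self X) h0.le
  linarith

theorem sqrt2_facts : 0 < √2 ∧ 1 ≤ √2 ∧ √2 ≤ 1.42 := by
  have hsq : √2 * √2 = 2 := Real.mul_self_sqrt (by norm_num)
  have hs2 : 0 < √2 := by positivity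
  exact ⟨hs2, by nlinarith, by nlinarith⟩

set_option maxHeartbeats 800000 in
/-- the shell -/
theorem shell {cg C0 D : ℝ} {B : OBD cg C0 D} {K lam : ℝ} (S : Sys B K lam) {Y : Config3 → ℝ}
    (hY : Y = S.YT ∨ Y = S.YB) {CD At KT aT R C1 Kn Ks : ℝ}
    (h : PrmT D lam S.κT (2 * (1 - lam) / S.κT - 1) B.a (cg / 32) CD At KT aT R)
    (hC1 : 1 ≤ C1) (hAt : At = 2 * C1 + 1) (haT : aT = 1 / (4 * C1 * D ^ 7))
    (heg : |B.eg + 1 / 2| ≤ 1 / 20) (hR : D ^ 3 ≤ R) (hKs : 0 ≤ Ks)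
    (hb : ∀ x : Pos3, D ^ 3 < ‖x‖ → 0 < x 2 →
      Sx D (OG.kap B.eg) (2 / OG.kap B.eg - 1) (-1) x ≤ C1 * D ^ 7 * B.g x ∧
      B.g x ≤ C1 * Sx D (OG.kap B.eg) (2 / OG.kap B.eg - 1) 1 x)
    (hn : |S.κT ^ 2 + 2 * B.eg| ≤ Kn * lam) (hc9 : lam * ((3 * Kn + 3) * (R + 1 + D) * 4) ≤ 1)
    (hc10 : lam * (Ks * (10 * C1 * D ^ 7)) ≤ s0 D R)
    (hKT : Ks * (R + 1) ^ 2 ≤ KT * s0 D R)
    (hs : ∀ᵐ X : Pos3, |S.t S.YT X - B.g X / √2| ≤ Ks * lam ∧ |S.t S.YB X - B.g X| ≤ Ks * lam ∧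
        ∀ Y, Y = S.YT ∨ Y = S.YB → S.NT Y X ≤ Ks * lam ∧ S.PT Y X ≤ Ks * lam * min 1 |X 2|) :
    ∀ᵐ x : Pos3, x ∈ (HExt R 2 : Set Pos3) → ‖x‖ < R + 1 →
      (|S.t Y x| ≤ bt D S.κT (2 * (1 - lam) / S.κT - 1) At x ∧
      S.NT Y x ≤ bN D lam S.κT (2 * (1 - lam) / S.κT - 1) B.a KT x ∧
      S.PT Y x ≤ bP D lam S.κT (2 * (1 - lam) / S.κT - 1) B.a KT x) ∧
      aT * Sx D S.κT (2 * (1 - lam) / S.κT - 1) (-1) x ≤ S.t Y x := by
  filter_upwards [hs] with x hx hxH hxR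
  obtain ⟨x1, x2, x3⟩ := hx
  obtain ⟨x4, x5⟩ := x3 Y hY
  have hf := h.far hxH
  have hP := h.Ptx hxH
  have hR0 := h.R0.le
  have hm := h.mp (σ := 1) (Or.inl rfl)
  have hm' := h.mp (σ := -1) (Or.inr rfl)
  have hD0 := h.D0
  have hD1 := h.D1
  have hl := h.l0
  have hz : 0 < x 2 := hxH.2
  have hxR' : R < ‖x‖ := hxH.1
  obtain ⟨g1, g2⟩ := OG.kap_bounds heg
  have hgm : MPar (OG.kap B.eg) 2 (2 / OG.kap B.eg - 1) 1 := OG.mpar g1 g2 (Or.inl rfl)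
  have hgm' : MPar (OG.kap B.eg) 2 (2 / OG.kap B.eg - 1) (-1) := OG.mpar g1 g2 (Or.inr rfl)
  obtain ⟨d1, d2⟩ := par_close h.κ1 h.κ2 g1 g2 hl.le (OG.kap_sq heg) hn
  have hT : (3 * Kn + 3) * lam * (R + 1 + D) ≤ 1 / 4 := by linarith
  obtain ⟨b1, b2⟩ := hb x (by linarith) hz
  have c1 : Sx D (OG.kap B.eg) (2 / OG.kap B.eg - 1) 1 x ≤
      2 * Sx D S.κT (2 * (1 - lam) / S.κT - 1) 1 x :=
    Sx_close hgm hm (by rw [abs_sub_comm]; exact d1) (by rw [abs_sub_comm]; exact d2) hD0 hT hf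
      hxR
  have c2 : Sx D S.κT (2 * (1 - lam) / S.κT - 1) (-1) x ≤
      2 * Sx D (OG.kap B.eg) (2 / OG.kap B.eg - 1) (-1) x :=
    Sx_close hm' hgm' d1 d2 hD0 hT hf hxR
  have e1 := Sx_s0 hm hR0 hf hxR
  have e2 := Sx_s0 hm' hR0 hf hxR
  have e3 := Ox_s0 hm hR0 hf hxR
  have hs0 := s0_pos (D := D) hR0
  have hg0 := (B.ob.g_pos x).le
  have hC7 : 1 ≤ C1 * D ^ 7 := one_le_mul_of_one_le_of_one_le hC1 (one_le_pow₀ hD1)
  have hKl : Ks * lam ≤ s0 D R / 10 := by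
    have : Ks * lam * (10 * 1) ≤ lam * (Ks * (10 * C1 * D ^ 7)) := by
      have h1 := mul_le_mul_of_nonneg_left hC7 (mul_nonneg hKs hl.le)
      linarith
    linarith
  obtain ⟨hs2, hs2b, hs2a⟩ := sqrt2_facts
  have hgs : B.g x / √2 ≤ B.g x := div_le_self hg0 hs2b
  have hgs' : 0.7 * B.g x ≤ B.g x / √2 := by
    rw [le_div_iff₀ hs2]
    have := mul_le_mul_of_nonneg_left hs2a hg0
    linarith
  have hgs0 : 0 ≤ B.g x / √2 := by positivity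
  have ht : |S.t Y x| ≤ B.g x + Ks * lam ∧ 0.7 * B.g x - Ks * lam ≤ S.t Y x := by
    rcases hY with rfl | rfl
    · have := abs_le.1 x1
      constructor
      · rw [abs_le]; constructor <;> linarith
      · linarith
    · have := abs_le.1 x2
      constructor
      · rw [abs_le]; constructor <;> linarith
      · linarith
  have hr1 : 1 ≤ R + 1 := by linarith
  have hu2 : 1 / (R + 1) ^ 2 ≤ (1 / ‖x‖) ^ 2 := by
    rw [one_div_pow]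
    exact one_div_le_one_div_of_le (by have := hf.rpos; positivity)
      (pow_le_pow_left₀ (norm_nonneg _) hxR.le 2)
  have hKT' : Ks ≤ KT * (1 / (R + 1) ^ 2 * s0 D R) := by
    rw [← le_div_iff₀ (by positivity : 0 < (R + 1) ^ 2)] at hKT
    refine hKT.trans (le_of_eq ?_)
    ring
  have hK0 := h.KT0.le
  refine ⟨⟨?_, ?_, ?_⟩, ?_⟩
  · refine ht.1.trans ?_
    rw [PrmT.bt_val h, hAt]
    have h1 := mul_le_mul_of_nonneg_left c1 (by linarith : 0 ≤ C1)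
    linarith
  · refine x4.trans ?_
    rw [PrmT.bN_val h]
    have h1 : 1 / (R + 1) ^ 2 * s0 D R ≤ (1 / ‖x‖) ^ 2 *
        Sx D S.κT (2 * (1 - lam) / S.κT - 1) 1 x :=
      mul_le_mul hu2 e1 hs0.le (by positivity)
    have h2 := mul_le_mul_of_nonneg_left h1 hK0
    have h3 := hP.e0
    calc Ks * lam ≤ KT * ((1 / ‖x‖) ^ 2 * Sx D S.κT (2 * (1 - lam) / S.κT - 1) 1 x) * lam :=
          mul_le_mul_of_nonneg_right (hKT'.trans h2) hl.le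
      _ = KT * lam * ((1 / ‖x‖) ^ 2 * Sx D S.κT (2 * (1 - lam) / S.κT - 1) 1 x) := by ring
      _ ≤ _ := mul_le_mul_of_nonneg_left (by linarith) (mul_nonneg hK0 hl.le)
  · refine x5.trans ?_
    rw [h.bP_val hxH]
    have h1 : 1 / (R + 1) ^ 2 * (s0 D R * x 2) ≤ (1 / ‖x‖) ^ 2 *
        Ox D S.κT (2 * (1 - lam) / S.κT - 1) 1 x :=
      mul_le_mul hu2 e3 (mul_nonneg hs0.le hz.le) (by positivity)
    have h2 := mul_le_mul_of_nonneg_left h1 hK0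
    have h3 := hP.B0
    have h4 : min 1 |x 2| ≤ x 2 := by rw [abs_of_pos hz]; exact min_le_right _ _
    calc Ks * lam * min 1 |x 2| ≤ Ks * lam * x 2 :=
          mul_le_mul_of_nonneg_left h4 (mul_nonneg hKs hl.le)
      _ = Ks * (lam * x 2) := by ring
      _ ≤ KT * (1 / (R + 1) ^ 2 * s0 D R) * (lam * x 2) :=
          mul_le_mul_of_nonneg_right hKT' (mul_nonneg hl.le hz.le)
      _ = KT * (1 / (R + 1) ^ 2 * (s0 D R * x 2)) * lam := by ring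
      _ ≤ KT * ((1 / ‖x‖) ^ 2 * Ox D S.κT (2 * (1 - lam) / S.κT - 1) 1 x) * lam :=
          mul_le_mul_of_nonneg_right h2 hl.le
      _ = KT * lam * ((1 / ‖x‖) ^ 2 * Ox D S.κT (2 * (1 - lam) / S.κT - 1) 1 x) := by ring
      _ ≤ _ := mul_le_mul_of_nonneg_left (by linarith) (mul_nonneg hK0 hl.le)
  · refine le_trans ?_ ht.2
    rw [haT]
    have hX : 0 < C1 * D ^ 7 := by linarith
    have h1 : Sx D S.κT (2 * (1 - lam) / S.κT - 1) (-1) x ≤ 2 * (C1 * D ^ 7 * B.g x) := by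
      linarith
    have h2 : Ks * lam * (10 * (C1 * D ^ 7)) ≤ Sx D S.κT (2 * (1 - lam) / S.κT - 1) (-1) x := by
      linarith
    have h3 : 1 / (4 * C1 * D ^ 7) * Sx D S.κT (2 * (1 - lam) / S.κT - 1) (-1) x =
        Sx D S.κT (2 * (1 - lam) / S.κT - 1) (-1) x / (4 * (C1 * D ^ 7)) := by
      rw [mul_assoc 4 C1]; ring
    rw [h3, div_le_iff₀ (by positivity)]
    have h4 : (0.7 * B.g x - Ks * lam) * (4 * (C1 * D ^ 7)) =
        2.8 * (C1 * D ^ 7 * B.g x) - 0.4 * (Ks * lam * (10 * (C1 * D ^ 7))) := by ring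
    rw [h4]
    linarith

end Crest.Agent.R335.BRT
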