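import Crest.Agent.R335.BRUpB
import Crest.Agent.R335.BRPar
import Crest.Agent.R335.BRL3

/-!
Row 335 (S0521), Part B sections 5-6, singlet sector: the upper bounds (system comparison).
-/

set_option autoImplicit false
set_option linter.unusedSectionVars false
set_option linter.unusedVariables false

open MeasureTheory Filter Set Crest.MathPhysics.ThreeBody
open scoped ENNReal Topology ContDiff

noncomputable section
namespace Crest.Agent.R335.BR
open Crest.Agent.R335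

theorem H10_abs_odd_ae {f : Pos3 → ℝ} {g m : Pos3 → Pos3} (h : H1 f g)
    (hodd : ∀ᵐ x, f (rfl' 2 x) = - f x) (h' : H1 (fun x => |f x|) m) :
    H10 {x : Pos3 | 0 < x 2} ({x : Pos3 | 0 < x 2}.indicator fun x => |f x|)
      ({x : Pos3 | 0 < x 2}.indicator m) := by
  have h1 := (H10.half_of_odd 2 h hodd).h1
  have h2 := Crest.Agent.R335.H1.abs h1
  refine Par.H10_of_zero h' (h2.congr (Eventually.of_forall fun x => ?_)
    (Filter.EventuallyEq.refl _ _))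
  simp only
  split_ifs <;> simp

theorem rfl'_nuc (D : ℝ) : rfl' 2 (nuc D) = nuc (-D) := by
  rw [← Par.rz_eq', TX.rz_nuc]

theorem norm_rfl_sub (x : Pos3) (D : ℝ) : ‖rfl' 2 x - nuc D‖ = ‖x - nuc (-D)‖ := by
  rw [← Par.rz_eq']
  have := TX.rz_nuc (-D)
  rw [neg_neg] at this
  rw [← this, ← map_sub, LinearIsometryEquiv.norm_map]

theorem V2_rfl (D : ℝ) (x : Pos3) : V2 D (rfl' 2 x) = V2 D x := by
  have h1 := norm_rfl_sub x D
  have h2 := norm_rfl_sub x (-D)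
  rw [neg_neg] at h2
  unfold V2
  rw [h1, h2]; ring

theorem Ox_rfl (D κ p σ : ℝ) (x : Pos3) : Ox D κ p σ (rfl' 2 x) = - Ox D κ p σ x := by
  have h1 := norm_rfl_sub x D
  have h2 := norm_rfl_sub x (-D)
  rw [neg_neg] at h2
  unfold Ox
  rw [h1, h2]; ring

theorem Sx_rfl (D κ p σ : ℝ) (x : Pos3) : Sx D κ p σ (rfl' 2 x) = Sx D κ p σ x := by
  have h1 := norm_rfl_sub x D
  have h2 := norm_rfl_sub x (-D)
  rw [neg_neg] at h2
  unfold Sx
  rw [h1, h2]; ring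

theorem z_rfl (x : Pos3) : rfl' 2 x 2 = - x 2 := by
  rw [rfl'_apply, if_pos rfl]

theorem ri_rfl (m : ℕ) (x : Pos3) : ri m (rfl' 2 x) = ri m x := by
  unfold ri; rw [norm_rfl']

theorem hz_rfl (x : Pos3) : hz (rfl' 2 x) = - hz x := by
  unfold hz; rw [z_rfl, ri_rfl]; ring

theorem exr_rfl (k : ℝ) (x : Pos3) : exr k (rfl' 2 x) = exr k x := by
  unfold exr; rw [norm_rfl']

variable {n : Nu}

theorem bF_rfl (x : Pos3) : n.bF (rfl' 2 x) = n.bF x := by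
  unfold Nu.bF; rw [Ox_rfl, exr_rfl, z_rfl, abs_neg, abs_neg]

theorem bP_rfl (x : Pos3) : n.bP (rfl' 2 x) = n.bP x := by
  unfold Nu.bP; rw [Ox_rfl, exr_rfl, z_rfl, abs_neg, abs_neg, ri_rfl]

theorem bc_rfl (x : Pos3) : n.bc (rfl' 2 x) = n.bc x := by
  unfold Nu.bc; rw [Sx_rfl, Sx_rfl, Ox_rfl, hz_rfl, ri_rfl]; ring

theorem bN_rfl (x : Pos3) : n.bN (rfl' 2 x) = n.bN x := by
  unfold Nu.bN; rw [bc_rfl, Sx_rfl, Ox_rfl, hz_rfl, ri_rfl, ri_rfl, exr_rfl]; ring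

theorem xx_rfl (x : Pos3) : xx n (rfl' 2 x) = xx n x := by unfold xx; rw [norm_rfl']
theorem yy_rfl (x : Pos3) : yy n (rfl' 2 x) = yy n x := by unfold yy; rw [norm_rfl']

theorem mL_rfl (D lam κ : ℝ) (x : Pos3) : mL D lam κ (rfl' 2 x) = mL D lam κ x := by
  unfold mL; rw [V2_rfl]

theorem V2_meas (D : ℝ) : Measurable (V2 D) := by
  unfold V2
  fun_prop

/-- bounds of the potential -/
theorem Prm.V2b (pr : Prm n) {x : Pos3} (hx : x ∈ (ExtE n.R : Set Pos3)) :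
    -(1 / 1000) ≤ V2 n.D x ∧ V2 n.D x ≤ 0 := by
  have hR : n.R < ‖x‖ := hx
  have h7 := pr.R1
  have hD := pr.D1
  have hRD : 10000 * n.D ≤ n.R := by nlinarith [pr.r0]
  have h1 := XT.le_rp x (D := n.D) (by linarith)
  have h2 := XT.le_rm x (D := n.D) (by linarith)
  have p1 : 5000 ≤ ‖x - nuc n.D‖ := by linarith
  have p2 : 5000 ≤ ‖x - nuc (-n.D)‖ := by linarith
  have e1 : 1 / ‖x - nuc n.D‖ ≤ 1 / 5000 := one_div_le_one_div_of_le (by norm_num) p1
  have e2 : 1 / ‖x - nuc (-n.D)‖ ≤ 1 / 5000 := one_div_le_one_div_of_le (by norm_num) p2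
  have e3 : 0 ≤ 1 / ‖x - nuc n.D‖ := by positivity
  have e4 : 0 ≤ 1 / ‖x - nuc (-n.D)‖ := by positivity
  unfold V2
  constructor <;> linarith

theorem Prm.mLb (pr : Prm n) {κ' : ℝ} (h1 : 9 / 10 ≤ κ') (h2 : κ' ≤ 11 / 10) {x : Pos3}
    (hx : x ∈ (ExtE n.R : Set Pos3)) :
    4 / 10 ≤ mL n.D n.lam κ' x ∧ mL n.D n.lam κ' x ≤ 1 := by
  obtain ⟨v1, v2⟩ := pr.V2b hx
  have l0 := pr.l0
  have l1 := pr.l1
  unfold mL
  constructor <;> nlinarith

theorem mL_meas (D lam κ : ℝ) : Measurable (mL D lam κ) := by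
  unfold mL
  exact ((V2_meas D).const_mul _).const_add _

/-- selection of one of four -/
def sel {α : Type} (a b c d : α) : Fin 4 → α
  | 0 => a
  | 1 => b
  | 2 => c
  | 3 => d

theorem all4 {Q : Fin 4 → Prop} (h0 : Q 0) (h1 : Q 1) (h2 : Q 2) (h3 : Q 3) (i : Fin 4) : Q i := by
  fin_cases i <;> assumption

/-- size of the couplings -/
def cc (n : Nu) : ℝ := n.lam * (2 * n.CD + n.Cu + n.CuD + n.dS)

/-- the coupling matrix -/
def mm (n : Nu) : Fin 4 → Fin 4 → Pos3 → ℝ :=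
  sel
    (sel (fun x => n.lam * n.CD * (1 / ‖x‖) ^ 2) (fun x => n.lam * n.CD * (1 / ‖x‖) ^ 2)
      (fun x => n.lam * n.CD * (|x 2| * (1 / ‖x‖) ^ 3 + xx n x))
      (fun x => n.lam * n.CD * (|x 2| * (1 / ‖x‖) ^ 3 + xx n x)))
    (sel (fun x => n.lam * n.CD * (1 / ‖x‖) ^ 2) (fun _ => 0)
      (fun x => n.lam * n.CD * (|x 2| * (1 / ‖x‖) ^ 3 + xx n x))
      (fun x => n.lam * n.CD * (|x 2| * (1 / ‖x‖) ^ 3 + xx n x) +
        n.lam * n.Cu * (|x 2| * (1 / ‖x‖) ^ 2)))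
    (sel (fun x => n.lam * n.dS * (|x 2| * (1 / ‖x‖) ^ 3) +
        n.lam * n.CD * (|x 2| * (1 / ‖x‖) ^ 4 + xx n x))
      (fun x => n.lam * n.CD * (|x 2| * (1 / ‖x‖) ^ 3 + xx n x))
      (fun x => n.lam * n.CD * (1 / ‖x‖) ^ 2) (fun x => n.lam * n.CD * (1 / ‖x‖) ^ 2))
    (sel (fun x => n.lam * (n.CuD * (|x 2| * (1 / ‖x‖) ^ 3) + n.CD * xx n x))
      (fun x => n.lam * (n.CD * (|x 2| * (1 / ‖x‖) ^ 3 + xx n x) +
        n.Cu * (|x 2| * (1 / ‖x‖) ^ 2)))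
      (fun x => n.lam * n.CD * (1 / ‖x‖) ^ 2) (fun _ => 0))

def hh (n : Nu) : Fin 4 → Pos3 → ℝ :=
  sel (fun _ => 0) (fun x => n.lam * n.CD * yy n x) (fun _ => 0)
    (fun x => n.lam * n.CD * yy n x)

theorem xx_meas : Measurable (xx n) := by unfold xx; fun_prop
theorem yy_meas : Measurable (yy n) := by unfold yy; fun_prop

theorem mm_meas (i j : Fin 4) : Measurable (mm n i j) := by
  have hx := xx_meas (n := n)
  have hz : Measurable fun x : Pos3 => |x 2| := by fun_prop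
  have hu : Measurable fun x : Pos3 => 1 / ‖x‖ := by fun_prop
  refine all4 (Q := fun i => ∀ j, Measurable (mm n i j)) ?_ ?_ ?_ ?_ i j <;>
    refine fun j => all4 (Q := fun j => Measurable (mm n _ j)) ?_ ?_ ?_ ?_ j <;>
    (unfold mm sel; simp only; fun_prop)

/-- elementary facts outside the ball -/
theorem Prm.el (pr : Prm n) {x : Pos3} (hx : x ∈ (ExtE n.R : Set Pos3)) :
    0 ≤ 1 / ‖x‖ ∧ 1 / ‖x‖ ≤ 1 ∧ |x 2| * (1 / ‖x‖) ≤ 1 ∧ 0 ≤ xx n x ∧ xx n x ≤ 1 := by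
  have hR : n.R < ‖x‖ := hx
  have h0 : 0 < ‖x‖ := by linarith [pr.R1]
  refine ⟨by positivity, ?_, ?_, (Real.exp_pos _).le, ?_⟩
  · rw [div_le_one h0]; linarith [pr.R1]
  · rw [mul_one_div, div_le_one h0]
    simpa using PiLp.norm_apply_le x 2
  · unfold xx
    refine Real.exp_le_one_iff.2 ?_
    have := pr.a0
    have : 0 ≤ n.a / 2 * ‖x‖ := by positivity
    linarith

theorem mm_bd (pr : Prm n) (i j : Fin 4) {x : Pos3} (hx : x ∈ (ExtE n.R : Set Pos3)) :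
    0 ≤ mm n i j x ∧ mm n i j x ≤ cc n := by
  obtain ⟨u0, u1, zu, x0, x1⟩ := pr.el hx
  have hl := pr.l0.le
  have hC := pr.pos.CD
  have hu := pr.pos.Cu
  have hD := pr.pos.CuD
  have hd := pr.dS0.le
  have hz : 0 ≤ |x 2| := abs_nonneg _
  generalize hU : 1 / ‖x‖ = u at *
  generalize hZ : |x 2| = z at *
  generalize hX : xx n x = e at *
  have u2 : u ^ 2 ≤ 1 := pow_le_one₀ u0 u1
  have zu2 : z * u ^ 2 ≤ 1 := by
    have := mul_le_mul_of_nonneg_right zu u0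
    nlinarith
  have zu3 : z * u ^ 3 ≤ 1 := by
    have := mul_le_mul_of_nonneg_right zu2 u0
    nlinarith
  have zu4 : z * u ^ 4 ≤ 1 := by
    have := mul_le_mul_of_nonneg_right zu3 u0
    nlinarith
  have z2 : 0 ≤ z * u ^ 2 := by positivity
  have z3 : 0 ≤ z * u ^ 3 := by positivity
  have z4 : 0 ≤ z * u ^ 4 := by positivity
  have lC : 0 ≤ n.lam * n.CD := by positivity
  have lu : 0 ≤ n.lam * n.Cu := by positivity
  have lD : 0 ≤ n.lam * n.CuD := by positivity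
  have ld : 0 ≤ n.lam * n.dS := by positivity
  have a1 := mul_le_mul_of_nonneg_left u2 lC
  have a2 := mul_le_mul_of_nonneg_left zu3 lC
  have a3 := mul_le_mul_of_nonneg_left x1 lC
  have a4 := mul_le_mul_of_nonneg_left zu2 lu
  have a5 := mul_le_mul_of_nonneg_left zu3 ld
  have a6 := mul_le_mul_of_nonneg_left zu4 lC
  have a7 := mul_le_mul_of_nonneg_left zu3 lD
  have u20 : 0 ≤ u ^ 2 := by positivity
  have key : ∀ i j, 0 ≤ mm n i j x ∧ mm n i j x ≤ cc n := by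
    refine all4 ?_ ?_ ?_ ?_ <;> refine all4 ?_ ?_ ?_ ?_ <;>
      (unfold mm sel cc; simp only; rw [← hU, ← hZ, ← hX] at *) <;>
      refine ⟨by positivity, by linarith⟩
  exact key i j

/-! ### the components -/

theorem Prm.khalf (pr : Prm n) : 1 / 2 ≤ n.k := by
  have := pr.k1
  have := pr.a0
  unfold Nu.k
  linarith

theorem jl_bF (pr : Prm n) : JL (HExt n.R 2) n.bF := by
  have hU := isOpen_HExt n.R (2 : Fin 3)
  have h1 := (BL.jl_Ox pr.m1 pr.D1 pr.RD).mono (HExt_sub n.R)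
  have h2 := BL.jl_Bz pr.khalf (by linarith [pr.R1] : 1 ≤ n.R)
  exact ((h1.const_mul hU n.A).add hU (h2.const_mul hU (n.K * n.lam))).congr hU
    fun x hx => bF_eq pr hx

theorem jl_bP (pr : Prm n) : JL (HExt n.R 2) n.bP := by
  have hU := isOpen_HExt n.R (2 : Fin 3)
  have h1 := (BL.jl_riO pr.m1 pr.D1 pr.RD 2).mono (HExt_sub n.R)
  have h2 := BL.jl_Bz pr.khalf (by linarith [pr.R1] : 1 ≤ n.R)
  exact (((h1.const_mul hU n.A).add hU h2).const_mul hU (n.K1 * n.lam)).congr hU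
    fun x hx => by rw [bP_eq pr hx, ri_eq]; rfl

theorem jl_T (pr : Prm n) (t : ℝ) : JL (ExtE n.R)
    (fun y => hz y * Ox n.D n.κ n.p 1 y + t * (ri 4 y * Sx n.D n.κ n.p 1 y)) := by
  have hU := isOpen_ExtE (ι := Fin 3) n.R
  exact (BL.jl_hzO pr.m1 pr.D1 pr.RD).add hU ((BL.jl_riS pr.m1 pr.D1 pr.RD 4).const_mul hU t)

theorem jl_bc (pr : Prm n) : JL (ExtE n.R) n.bc := by
  have hU := isOpen_ExtE (ι := Fin 3) n.R
  exact ((BL.jl_Sx pr.mS1 pr.D1 pr.RD).const_mul hU n.Ac).add hU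
    (((jl_T pr n.β).const_mul hU n.α).const_mul hU (n.lam * n.A))

theorem jl_bN (pr : Prm n) : JL (ExtE n.R) n.bN := by
  have hU := isOpen_ExtE (ι := Fin 3) n.R
  have h1 : ∀ x ∈ (ExtE n.R : Set Pos3), 1 ≤ ‖x‖ := fun x hx => by
    have hR : n.R < ‖x‖ := hx
    linarith [pr.R1]
  have h2 := ((jl_bc pr).ri_mul hU h1 2).const_mul hU n.K2
  have h3 := (jl_T pr n.γ).const_mul hU (n.K3 * n.A)
  have h4 := (BL.jl_exr pr.khalf (by linarith [pr.R1] : 1 ≤ n.R)).const_mul hU n.K2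
  exact ((h2.add hU h3).add hU h4).const_mul hU n.lam

theorem memLp_bF (pr : Prm n) : MemLp n.bF 2 (volume.restrict (ExtE n.R)) :=
  ((BL.memLp_Ox_abs pr.m1 pr.D1 pr.RD).const_mul n.A).add
    ((BL.memLp_Bz_abs pr.khalf n.R).const_mul (n.K * n.lam))

theorem memLp_bP (pr : Prm n) : MemLp n.bP 2 (volume.restrict (ExtE n.R)) :=
  (((BL.memLp_riO_abs pr.m1 pr.D1 pr.RD 2).const_mul n.A).add
    (BL.memLp_Bz_abs pr.khalf n.R)).const_mul (n.K1 * n.lam)

theorem bF0 (pr : Prm n) {x : Pos3} (hx : x ∈ (HExt n.R 2 : Set Pos3)) : 0 ≤ n.bF x := by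
  rw [bF_eq pr hx]; exact bF_nonneg (pr.ptx hx) pr.pos

theorem bP0 (pr : Prm n) {x : Pos3} (hx : x ∈ (HExt n.R 2 : Set Pos3)) : 0 ≤ n.bP x := by
  rw [bP_eq pr hx]; exact bP_nonneg (pr.ptx hx) pr.pos

theorem neg_exp_eq (a r : ℝ) : Real.exp (-(a / 2) * r) = Real.exp (-(a / 2 * r)) := by
  rw [neg_mul]

theorem neg_exp_eq' (a r : ℝ) : Real.exp (-a * r) = Real.exp (-(a * r)) := by
  rw [neg_mul]

theorem locInt_const_mul (c : ℝ) : LocallyIntegrableOn (fun x => c * yy n x) (ExtE n.R) volume := by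
  have : Continuous (fun x => c * yy n x) := by unfold yy; fun_prop
  exact this.locallyIntegrable.locallyIntegrableOn _

theorem div_pow_u (a : ℝ) (x : Pos3) (m : ℕ) : a / ‖x‖ ^ m = a * (1 / ‖x‖) ^ m := by
  rw [one_div, inv_pow, div_eq_mul_inv]

/-- **upper bounds in the singlet sector** -/
theorem up_S (pr : Prm n) {F c P N : Pos3 → ℝ} (h : SFn n F c P N)
    (sh : ∀ᵐ x : Pos3, x ∈ (HExt n.R 2 : Set Pos3) → ‖x‖ < n.R + 1 → UpS n F c P N x) :
    ∀ᵐ x : Pos3, x ∈ (HExt n.R 2 : Set Pos3) → UpS n F c P N x := by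
  obtain ⟨dF, sF, hF, eF, bsF⟩ := h.eF
  obtain ⟨dc, sc, hc, ec, bsc⟩ := h.ec
  obtain ⟨dP, hP, eP⟩ := h.eP
  obtain ⟨dN, hN, eN⟩ := h.eN
  have hEo : IsOpen (Ext n.R) := isOpen_ExtE (ι := Fin 3) n.R
  obtain ⟨GF, LF, jF, m1F, m2F⟩ := jl_bF pr
  obtain ⟨GP, LP, jP, m1P, m2P⟩ := jl_bP pr
  obtain ⟨Gc, Lc, jc, m1c, m2c⟩ := jl_bc pr
  obtain ⟨GN, LN, jN, m1N, m2N⟩ := jl_bN pr
  have hR0 : 0 < n.R := by linarith [pr.R1]
  have hl := pr.l0.le
  have hCD := pr.pos.CD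
  have hCu := pr.pos.Cu
  have hCuD := pr.pos.CuD
  have hdS := pr.dS0.le
  have hcuD := h.CuD
  have absF := Crest.Agent.R335.H1.abs hF
  have absc := Crest.Agent.R335.H1.abs hc
  have hm2 := pr.m20
  have hm1 := pr.m21
  have hom := pr.om0
  have hom1 := pr.om1
  have main := cmp_sys (R := n.R) (c₀ := 4 / 10) (M := 2) hR0 (by norm_num)
    (S := Fin 4) (dir := sel True True False False)
    (f := sel (fun x => |F x|) P (fun x => |c x|) N)
    (b := sel n.bF n.bP n.bc n.bN)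
    (df := sel (fun x => if 0 < F x then dF x else -dF x) dP
      (fun x => if 0 < c x then dc x else -dc x) dN)
    (G := sel GF GP Gc GN) (L := sel LF LP Lc LN)
    (all4 ?cF ?cP ?cc ?cN)
    (U := sel (mL n.D n.lam n.κ) (fun x => mL n.D n.lam n.κ x + n.om / 8) (mL n.D n.lam n.κS)
      (fun x => mL n.D n.lam n.κS x + n.m2))
    (m := mm n) (h := hh n)
    (s := sel (fun x => |sF x|) (fun X =>
    n.lam * n.Cu * (|F X| / ‖X‖ ^ 2 +
      (|X 2| / ‖X‖ ^ 3 + Real.exp (-(n.a / 2) * ‖X‖)) * |c X| +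
      (|X 2| / ‖X‖ ^ 2 + Real.exp (-(n.a / 2) * ‖X‖)) * N X +
      Real.exp (-(n.κ + n.a / 4) * ‖X‖))) (fun x => |sc x|) (fun X =>
    n.lam * (n.CuD * |X 2| / ‖X‖ ^ 3 + n.Cu * Real.exp (-(n.a / 2) * ‖X‖)) * |F X| +
    n.lam * n.Cu * (|c X| / ‖X‖ ^ 2 +
      (|X 2| / ‖X‖ ^ 2 + Real.exp (-(n.a / 2) * ‖X‖)) * P X +
      Real.exp (-(n.κ + n.a / 4) * ‖X‖))))
    ?hUm ?hUc ?hUM ?hUe (fun i j => (mm_meas i j).aemeasurable)
    (fun i j x hx => (mm_bd pr i j hx).1) ?hsum ?hme ?hhl ?hhe ?hsub ?hs ?hbar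
  case cF =>
    exact
    { hf := absF
      fe := by filter_upwards [h.oddF] with x hx; show |F (rfl' 2 x)| = |F x|; rw [hx, abs_neg]
      be := bF_rfl
      b2 := memLp_bF pr
      fD := fun _ => H10_abs_odd_ae hF h.oddF absF
      b0 := fun _ => Eventually.of_forall fun x hx => bF0 pr hx
      G2D := fun _ => m2F
      G2E := fun hn => absurd trivial hn
      jD := fun _ => jF
      jE := fun hn => absurd trivial hn
      sh := by filter_upwards [sh] with x hx h1 h2 using (hx h1 h2).uF }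
  case cP =>
    exact
    { hf := hP
      fe := h.evenP
      be := bP_rfl
      b2 := memLp_bP pr
      fD := fun _ => h.PD _ hP
      b0 := fun _ => Eventually.of_forall fun x hx => bP0 pr hx
      G2D := fun _ => m2P
      G2E := fun hn => absurd trivial hn
      jD := fun _ => jP
      jE := fun hn => absurd trivial hn
      sh := by filter_upwards [sh] with x hx h1 h2 using (hx h1 h2).uP }
  case cc =>
    exact
    { hf := absc
      fe := by filter_upwards [h.evenc] with x hx; show |c (rfl' 2 x)| = |c x|; rw [hx]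
      be := bc_rfl
      b2 := m1c
      fD := fun hn => hn.elim
      b0 := fun hn => hn.elim
      G2D := fun hn => hn.elim
      G2E := fun _ => m2c
      jD := fun hn => hn.elim
      jE := fun _ => jc
      sh := by filter_upwards [sh] with x hx h1 h2 using (hx h1 h2).uc }
  case cN =>
    exact
    { hf := hN
      fe := h.evenN
      be := bN_rfl
      b2 := m1N
      fD := fun hn => hn.elim
      b0 := fun hn => hn.elim
      G2D := fun hn => hn.elim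
      G2E := fun _ => m2N
      jD := fun hn => hn.elim
      jE := fun _ => jN
      sh := by filter_upwards [sh] with x hx h1 h2 using (hx h1 h2).uN }
  case hUm =>
    refine all4 ?_ ?_ ?_ ?_
    · exact (mL_meas _ _ _).aemeasurable
    · exact ((mL_meas _ _ _).add_const _).aemeasurable
    · exact (mL_meas _ _ _).aemeasurable
    · exact ((mL_meas _ _ _).add_const _).aemeasurable
  case hUc =>
    refine all4 ?_ ?_ ?_ ?_ <;> intro x hx
    · exact (pr.mLb pr.κ1 pr.κ2 hx).1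
    · show 4 / 10 ≤ mL n.D n.lam n.κ x + n.om / 8
      linarith [(pr.mLb pr.κ1 pr.κ2 hx).1]
    · exact (pr.mLb pr.κS1 pr.κS2 hx).1
    · show 4 / 10 ≤ mL n.D n.lam n.κS x + n.m2
      linarith [(pr.mLb pr.κS1 pr.κS2 hx).1]
  case hUM =>
    refine all4 ?_ ?_ ?_ ?_ <;> intro x hx
    · show mL n.D n.lam n.κ x ≤ 2
      linarith [(pr.mLb pr.κ1 pr.κ2 hx).2]
    · show mL n.D n.lam n.κ x + n.om / 8 ≤ 2
      linarith [(pr.mLb pr.κ1 pr.κ2 hx).2]
    · show mL n.D n.lam n.κS x ≤ 2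
      linarith [(pr.mLb pr.κS1 pr.κS2 hx).2]
    · show mL n.D n.lam n.κS x + n.m2 ≤ 2
      linarith [(pr.mLb pr.κS1 pr.κS2 hx).2]
  case hUe =>
    refine all4 ?_ ?_ ?_ ?_ <;> intro x
    · exact mL_rfl _ _ _ x
    · show mL n.D n.lam n.κ (rfl' 2 x) + n.om / 8 = mL n.D n.lam n.κ x + n.om / 8
      rw [mL_rfl]
    · exact mL_rfl _ _ _ x
    · show mL n.D n.lam n.κS (rfl' 2 x) + n.m2 = mL n.D n.lam n.κS x + n.m2
      rw [mL_rfl]
  case hsum =>
    intro i x hx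
    rw [Fin.sum_univ_four]
    have s1 := pr.s1
    have hcc : 8 * cc n ≤ 4 / 10 := by unfold cc; linarith
    have := fun j => (mm_bd pr i j hx).2
    have := fun j => (mm_bd pr j i hx).2
    linarith [(mm_bd pr i 0 hx).2, (mm_bd pr i 1 hx).2, (mm_bd pr i 2 hx).2, (mm_bd pr i 3 hx).2,
      (mm_bd pr 0 i hx).2, (mm_bd pr 1 i hx).2, (mm_bd pr 2 i hx).2, (mm_bd pr 3 i hx).2]
  case hme =>
    refine all4 ?_ ?_ ?_ ?_ <;> refine all4 ?_ ?_ ?_ ?_ <;> intro x <;>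
      (unfold mm sel; simp only [norm_rfl', z_rfl, abs_neg, xx_rfl])
  case hhl =>
    refine all4 ?_ ?_ ?_ ?_
    · exact (locallyIntegrable_const (0 : ℝ)).locallyIntegrableOn _
    · exact locInt_const_mul _
    · exact (locallyIntegrable_const (0 : ℝ)).locallyIntegrableOn _
    · exact locInt_const_mul _
  case hhe =>
    refine all4 ?_ ?_ ?_ ?_ <;> intro x <;> (unfold hh sel; simp only [yy_rfl])
  case hsub =>
    refine all4 ?_ ?_ ?_ ?_
    · exact wle_abs hEo hF eF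
    · exact eP
    · exact wle_abs hEo hc ec
    · exact eN
  case hs =>
    refine all4 ?_ ?_ ?_ ?_
    · filter_upwards [bsF] with x hx hxE
      rw [Fin.sum_univ_four]
      refine (hx hxE).trans ?_
      obtain ⟨u0, u1, zu, x0, x1⟩ := pr.el hxE
      show _ ≤ n.lam * n.CD * (1 / ‖x‖) ^ 2 * |F x| + n.lam * n.CD * (1 / ‖x‖) ^ 2 * P x +
        n.lam * n.CD * (|x 2| * (1 / ‖x‖) ^ 3 + xx n x) * |c x| +
        n.lam * n.CD * (|x 2| * (1 / ‖x‖) ^ 3 + xx n x) * N x + 0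
      rw [div_pow_u, div_pow_u, div_pow_u, neg_exp_eq]
      change _ * (_ + _ + (_ + xx n x) * _) ≤ _
      have e1 : (1 / ‖x‖) ^ 3 ≤ (1 / ‖x‖) ^ 2 := pow_le_pow_of_le_one u0 u1 (by norm_num)
      have e2 := mul_le_mul_of_nonneg_left e1 (mul_nonneg (mul_nonneg hl hCD) (abs_nonneg (F x)))
      linarith
    · refine Eventually.of_forall fun x hxE => ?_
      rw [Fin.sum_univ_four]
      obtain ⟨u0, u1, zu, x0, x1⟩ := pr.el hxE
      show n.lam * n.Cu * (|F x| / ‖x‖ ^ 2 +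
        (|x 2| / ‖x‖ ^ 3 + Real.exp (-(n.a / 2) * ‖x‖)) * |c x| +
        (|x 2| / ‖x‖ ^ 2 + Real.exp (-(n.a / 2) * ‖x‖)) * N x +
        Real.exp (-(n.κ + n.a / 4) * ‖x‖)) ≤
        n.lam * n.CD * (1 / ‖x‖) ^ 2 * |F x| + 0 * P x +
        n.lam * n.CD * (|x 2| * (1 / ‖x‖) ^ 3 + xx n x) * |c x| +
        (n.lam * n.CD * (|x 2| * (1 / ‖x‖) ^ 3 + xx n x) +
        n.lam * n.Cu * (|x 2| * (1 / ‖x‖) ^ 2)) * N x + n.lam * n.CD * yy n x
      rw [div_pow_u, div_pow_u, div_pow_u, neg_exp_eq, neg_exp_eq']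
      change _ * (_ + (_ + xx n x) * _ + (_ + xx n x) * _ + yy n x) ≤ _
      have hN0 := h.N0 x
      have hy : 0 ≤ yy n x := (Real.exp_pos _).le
      have hc1 : n.lam * n.Cu ≤ n.lam * n.CD := mul_le_mul_of_nonneg_left hcuD hl
      have hz : 0 ≤ |x 2| := abs_nonneg _
      have t1 : 0 ≤ |F x| * (1 / ‖x‖) ^ 2 := by positivity
      have t2 : 0 ≤ (|x 2| * (1 / ‖x‖) ^ 3 + xx n x) * |c x| := by positivity
      have t3 : 0 ≤ xx n x * N x := by positivity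
      have t4 : 0 ≤ n.lam * n.CD * (|x 2| * (1 / ‖x‖) ^ 3) * N x := by positivity
      have a1 := mul_le_mul_of_nonneg_right hc1 t1
      have a2 := mul_le_mul_of_nonneg_right hc1 t2
      have a3 := mul_le_mul_of_nonneg_right hc1 t3
      have a4 := mul_le_mul_of_nonneg_right hc1 hy
      linarith
    · filter_upwards [bsc] with x hx hxE
      rw [Fin.sum_univ_four]
      have hx1 := hx hxE
      obtain ⟨u0, u1, zu, x0, x1⟩ := pr.el hxE
      show |sc x| ≤ (n.lam * n.dS * (|x 2| * (1 / ‖x‖) ^ 3) +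
        n.lam * n.CD * (|x 2| * (1 / ‖x‖) ^ 4 + xx n x)) * |F x| +
        n.lam * n.CD * (|x 2| * (1 / ‖x‖) ^ 3 + xx n x) * P x +
        n.lam * n.CD * (1 / ‖x‖) ^ 2 * |c x| + n.lam * n.CD * (1 / ‖x‖) ^ 2 * N x + 0
      have e0 : |sc x| ≤ |sc x - n.lam * n.dS * (x 2 / ‖x‖ ^ 3) * F x| +
          |n.lam * n.dS * (x 2 / ‖x‖ ^ 3) * F x| := by
        have := abs_add_le (sc x - n.lam * n.dS * (x 2 / ‖x‖ ^ 3) * F x)
          (n.lam * n.dS * (x 2 / ‖x‖ ^ 3) * F x)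
        simpa using this
      have e3 : |n.lam * n.dS * (x 2 / ‖x‖ ^ 3) * F x| =
          n.lam * n.dS * (|x 2| * (1 / ‖x‖) ^ 3) * |F x| := by
        rw [abs_mul, abs_mul, abs_of_nonneg (mul_nonneg hl hdS), abs_div,
          abs_of_nonneg (by positivity : (0 : ℝ) ≤ ‖x‖ ^ 3), div_pow_u]
      rw [e3] at e0
      refine e0.trans ?_
      have e4 : n.CD * |x 2| / ‖x‖ ^ 3 = n.CD * (|x 2| * (1 / ‖x‖) ^ 3) := by
        rw [div_pow_u, mul_assoc]
      rw [div_pow_u (|c x|), div_pow_u (N x), div_pow_u (|x 2|) x 4, neg_exp_eq, e4] at hx1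
      change _ ≤ n.lam * n.CD * (_ + _ + (_ + xx n x) * _) + n.lam * (_ + n.CD * xx n x) * P x
        at hx1
      have e1 : (1 / ‖x‖) ^ 3 ≤ (1 / ‖x‖) ^ 2 := pow_le_pow_of_le_one u0 u1 (by norm_num)
      have e2 := mul_le_mul_of_nonneg_left e1 (mul_nonneg (mul_nonneg hl hCD) (abs_nonneg (c x)))
      linarith
    · refine Eventually.of_forall fun x hxE => ?_
      rw [Fin.sum_univ_four]
      obtain ⟨u0, u1, zu, x0, x1⟩ := pr.el hxE
      show n.lam * (n.CuD * |x 2| / ‖x‖ ^ 3 + n.Cu * Real.exp (-(n.a / 2) * ‖x‖)) * |F x| +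
        n.lam * n.Cu * (|c x| / ‖x‖ ^ 2 +
        (|x 2| / ‖x‖ ^ 2 + Real.exp (-(n.a / 2) * ‖x‖)) * P x +
        Real.exp (-(n.κ + n.a / 4) * ‖x‖)) ≤
        n.lam * (n.CuD * (|x 2| * (1 / ‖x‖) ^ 3) + n.CD * xx n x) * |F x| +
        n.lam * (n.CD * (|x 2| * (1 / ‖x‖) ^ 3 + xx n x) + n.Cu * (|x 2| * (1 / ‖x‖) ^ 2)) * P x +
        n.lam * n.CD * (1 / ‖x‖) ^ 2 * |c x| + 0 * N x + n.lam * n.CD * yy n x
      have e4 : n.CuD * |x 2| / ‖x‖ ^ 3 = n.CuD * (|x 2| * (1 / ‖x‖) ^ 3) := by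
        rw [div_pow_u, mul_assoc]
      rw [div_pow_u (|c x|), div_pow_u (|x 2|) x 2, neg_exp_eq, neg_exp_eq', e4]
      change n.lam * (_ + n.Cu * xx n x) * _ + n.lam * n.Cu * (_ + (_ + xx n x) * P x + yy n x) ≤ _
      have hP0 := h.P0 x
      have hy : 0 ≤ yy n x := (Real.exp_pos _).le
      have hc1 : n.lam * n.Cu ≤ n.lam * n.CD := mul_le_mul_of_nonneg_left hcuD hl
      have hz : 0 ≤ |x 2| := abs_nonneg _
      have t1 : 0 ≤ |c x| * (1 / ‖x‖) ^ 2 := by positivity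
      have t2 : 0 ≤ xx n x * |F x| := by positivity
      have t3 : 0 ≤ xx n x * P x := by positivity
      have t4 : 0 ≤ n.lam * n.CD * (|x 2| * (1 / ‖x‖) ^ 3) * P x := by positivity
      have a1 := mul_le_mul_of_nonneg_right hc1 t1
      have a2 := mul_le_mul_of_nonneg_right hc1 t2
      have a3 := mul_le_mul_of_nonneg_right hc1 t3
      have a4 := mul_le_mul_of_nonneg_right hc1 hy
      linarith
  case hbar =>
    refine all4 ?_ ?_ ?_ ?_ <;> intro x hx <;> rw [Fin.sum_univ_four]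
    · have hz : 0 < x 2 := hx.2
      have h1 := vF pr hx
      show n.lam * n.CD * (1 / ‖x‖) ^ 2 * n.bF x + n.lam * n.CD * (1 / ‖x‖) ^ 2 * n.bP x +
        n.lam * n.CD * (|x 2| * (1 / ‖x‖) ^ 3 + xx n x) * n.bc x +
        n.lam * n.CD * (|x 2| * (1 / ‖x‖) ^ 3 + xx n x) * n.bN x + 0 ≤
        -(1 / 2) * lap n.bF x + mL n.D n.lam n.κ x * n.bF x
      rw [Lx_of_lap, abs_of_pos hz]
      refine le_trans (le_of_eq ?_) h1
      unfold srcF; ring
    · have hz : 0 < x 2 := hx.2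
      have h1 := vP pr hCu hx
      show n.lam * n.CD * (1 / ‖x‖) ^ 2 * n.bF x + 0 * n.bP x +
        n.lam * n.CD * (|x 2| * (1 / ‖x‖) ^ 3 + xx n x) * n.bc x +
        (n.lam * n.CD * (|x 2| * (1 / ‖x‖) ^ 3 + xx n x) +
        n.lam * n.Cu * (|x 2| * (1 / ‖x‖) ^ 2)) * n.bN x + n.lam * n.CD * yy n x ≤
        -(1 / 2) * lap n.bP x + (mL n.D n.lam n.κ x + n.om / 8) * n.bP x
      rw [add_mul (mL n.D n.lam n.κ x), ← add_assoc, Lx_of_lap, abs_of_pos hz]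
      refine le_trans (le_of_eq ?_) h1
      unfold srcP; ring
    · have hz : 0 < x 2 := hx.2
      have h1 := vc pr hx
      show (n.lam * n.dS * (|x 2| * (1 / ‖x‖) ^ 3) +
        n.lam * n.CD * (|x 2| * (1 / ‖x‖) ^ 4 + xx n x)) * n.bF x +
        n.lam * n.CD * (|x 2| * (1 / ‖x‖) ^ 3 + xx n x) * n.bP x +
        n.lam * n.CD * (1 / ‖x‖) ^ 2 * n.bc x + n.lam * n.CD * (1 / ‖x‖) ^ 2 * n.bN x + 0 ≤
        -(1 / 2) * lap n.bc x + mL n.D n.lam n.κS x * n.bc x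
      rw [Lx_of_lap, abs_of_pos hz]
      refine le_trans (le_of_eq ?_) h1
      unfold srcE; ring
    · have hz : 0 < x 2 := hx.2
      have h1 := vN pr hx
      show n.lam * (n.CuD * (|x 2| * (1 / ‖x‖) ^ 3) + n.CD * xx n x) * n.bF x +
        n.lam * (n.CD * (|x 2| * (1 / ‖x‖) ^ 3 + xx n x) +
          n.Cu * (|x 2| * (1 / ‖x‖) ^ 2)) * n.bP x +
        n.lam * n.CD * (1 / ‖x‖) ^ 2 * n.bc x + 0 * n.bN x + n.lam * n.CD * yy n x ≤
        -(1 / 2) * lap n.bN x + (mL n.D n.lam n.κS x + n.m2) * n.bN x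
      rw [add_mul (mL n.D n.lam n.κS x), ← add_assoc, Lx_of_lap, abs_of_pos hz]
      refine le_trans (le_of_eq ?_) h1
      unfold srcN; ring
  filter_upwards [main 0, main 1, main 2, main 3] with x h0 h1 h2 h3 hx
  exact ⟨h0 hx, h1 hx, h2 hx, h3 hx⟩

end Crest.Agent.R335.BR
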