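import Crest.Agent.R335.BRJL
import Crest.Agent.R335.TX

/-!
Row 335 (S0521), Part B sections 5-6, singlet sector: pointwise inequalities for the upper barriers.
-/

set_option autoImplicit false
set_option linter.unusedSectionVars false
set_option linter.unusedVariables false

open MeasureTheory Filter Set Crest.MathPhysics.ThreeBody
open scoped ENNReal Topology ContDiff

noncomputable section
namespace Crest.Agent.R335.BR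
open Crest.Agent.R335

theorem Prm.mp {n : Nu} (pr : Prm n) {σ : ℝ} (hσ : σ = 1 ∨ σ = -1) : MPar n.κ n.Q n.p σ :=
  TX.mpar pr.κ1 pr.κ2 pr.l0.le pr.l1 hσ

theorem Prm.mpS {n : Nu} (pr : Prm n) {σ : ℝ} (hσ : σ = 1 ∨ σ = -1) : MPar n.κS n.Q n.pS σ :=
  TX.mpar pr.κS1 pr.κS2 pr.l0.le pr.l1 hσ

theorem Prm.m1 {n : Nu} (pr : Prm n) : MPar n.κ n.Q n.p 1 := pr.mp (Or.inl rfl)
theorem Prm.mS1 {n : Nu} (pr : Prm n) : MPar n.κS n.Q n.pS 1 := pr.mpS (Or.inl rfl)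

theorem Prm.q20 {n : Nu} (pr : Prm n) : 0 < n.q2 := lt_of_lt_of_le pr.om0 pr.q2lo

theorem Prm.kk {n : Nu} (pr : Prm n) : n.κ ≤ n.κS := by
  have h := pr.q20
  unfold Nu.q2 at h
  have h1 := pr.κ1
  have h2 := pr.κS1
  nlinarith

theorem Prm.R1 {n : Nu} (pr : Prm n) : 10 ^ 7 ≤ n.R := by
  have h1 := pr.r0
  have h2 : 1 ≤ n.D ^ 2 := one_le_pow₀ pr.D1
  linarith

theorem Prm.RD {n : Nu} (pr : Prm n) : n.D + 100 ≤ n.R := by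
  have h1 := pr.r0
  have h2 := pr.D1
  nlinarith

theorem Prm.far2 {n : Nu} (pr : Prm n) {x : Pos3} (hx : x ∈ (HExt n.R 2 : Set Pos3)) :
    XFar2 n.D x := by
  have h1 : n.R < ‖x‖ := hx.1
  have h2 : 0 < x 2 := hx.2
  exact ⟨pr.D1, h2.le, pr.r0.trans h1.le⟩

theorem Prm.sub_Ud {n : Nu} (pr : Prm n) : (ExtE n.R : Set Pos3) ⊆ XT.Ud n.D := fun x hx => by
  have h1 : n.R < ‖x‖ := hx
  have h2 := pr.D1
  have h3 := pr.RD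
  refine ⟨TX.mem_Uc (D := n.D) (R := n.R) (by linarith) (by linarith) h1.le, ?_⟩
  intro h0
  rw [h0, norm_zero] at h1
  linarith

theorem Prm.sub_Uc {n : Nu} (pr : Prm n) : (ExtE n.R : Set Pos3) ⊆ XT.Uc n.D := fun x hx =>
  (pr.sub_Ud hx).1

theorem Prm.a0 {n : Nu} (pr : Prm n) : 0 < n.a := by
  unfold Nu.a; have := pr.om0; positivity

theorem Prm.a1 {n : Nu} (pr : Prm n) : n.a ≤ 1 / 8000 := by
  unfold Nu.a; have := pr.om1; linarith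

theorem HExt_sub (R : ℝ) : (HExt R 2 : Set Pos3) ⊆ ExtE R := inter_subset_left

/-! ### the barriers at a point -/

theorem ri_eq (m : ℕ) (x : Pos3) : ri m x = (1 / ‖x‖) ^ m := by
  unfold ri; rw [one_div, inv_pow]

theorem hz_eq (x : Pos3) : hz x = (1 / ‖x‖) ^ 3 * x 2 := by
  unfold hz; rw [ri_eq]; ring

variable {n : Nu}

theorem Prm.O0 (pr : Prm n) {x : Pos3} (hx : x ∈ (HExt n.R 2 : Set Pos3)) :
    0 ≤ Ox n.D n.κ n.p 1 x := Ox_nonneg pr.m1 (pr.far2 hx).far.reg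

theorem bF_eq (pr : Prm n) {x : Pos3} (hx : x ∈ (HExt n.R 2 : Set Pos3)) :
    n.bF x = bF n.A n.K n.lam (Ox n.D n.κ n.p 1 x) (Bz n.k x) := by
  have hz : 0 < x 2 := hx.2
  unfold Nu.bF bF Bz fz
  rw [abs_of_nonneg (pr.O0 hx), abs_of_pos hz]

theorem bP_eq (pr : Prm n) {x : Pos3} (hx : x ∈ (HExt n.R 2 : Set Pos3)) :
    n.bP x = bP n.A n.K1 n.lam (1 / ‖x‖) (Ox n.D n.κ n.p 1 x) (Bz n.k x) := by
  have hz : 0 < x 2 := hx.2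
  unfold Nu.bP bP Bz fz
  rw [abs_of_nonneg (pr.O0 hx), abs_of_pos hz, ri_eq]

theorem bc_eq (x : Pos3) :
    n.bc x = bc n.A n.Ac n.α n.β n.lam (1 / ‖x‖) (x 2) (Ox n.D n.κ n.p 1 x)
      (Sx n.D n.κ n.p 1 x) (Sx n.D n.κS n.pS 1 x) := by
  unfold Nu.bc bc Tv
  rw [hz_eq, ri_eq]

theorem bN_eq (x : Pos3) :
    n.bN x = bN n.A n.Ac n.α n.β n.γ n.K2 n.K3 n.lam (1 / ‖x‖) (x 2) (Ox n.D n.κ n.p 1 x)
      (Sx n.D n.κ n.p 1 x) (Sx n.D n.κS n.pS 1 x) (exr n.k x) := by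
  unfold Nu.bN bN
  rw [bc_eq, hz_eq, ri_eq, ri_eq]
  rfl

theorem Prm.ptx (pr : Prm n) {x : Pos3} (hx : x ∈ (HExt n.R 2 : Set Pos3)) :
    Pt (1 / ‖x‖) ((√‖x‖)⁻¹ ^ 3) (x 2) (Ox n.D n.κ n.p 1 x) (Sx n.D n.κ n.p 1 x) (Bz n.k x)
      (exr n.k x) (Real.exp (-(n.a / 2 * ‖x‖))) (Real.exp (-((n.κ + n.a / 4) * ‖x‖))) := by
  have h1 : n.R < ‖x‖ := hx.1
  exact pr.pt n.κ n.Q n.p pr.m1 x h1.le hx.2

theorem Prm.SS_le (pr : Prm n) {x : Pos3} (hx : x ∈ (HExt n.R 2 : Set Pos3)) :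
    Sx n.D n.κS n.pS 1 x ≤ Sx n.D n.κ n.p 1 x :=
  Sx_mono pr.m1 pr.mS1 pr.kk (pr.far2 hx).far.reg

theorem Prm.SS0 (pr : Prm n) {x : Pos3} (hx : x ∈ (HExt n.R 2 : Set Pos3)) :
    0 ≤ Sx n.D n.κS n.pS 1 x := (Sx_pos pr.mS1 (pr.far2 hx).far.reg).le

/-! ### jets -/

theorem Prm.jO (pr : Prm n) (σ : ℝ) :
    Jet (ExtE n.R) (Ox n.D n.κ n.p σ) (gOx n.D n.κ n.p σ) (lOx n.D n.κ n.p σ) :=
  (Ox_jet _ _ _ _).mono pr.sub_Uc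

theorem Prm.jBz (pr : Prm n) : Jet (HExt n.R 2) (Bz n.k)
    (fun x => exr n.k x • (Real.exp (-(x 2)) • e3v) + fz x • ((-(n.k * exr n.k x / ‖x‖)) • x))
    (fun x => exr n.k x * (-Real.exp (-(x 2))) +
      2 * inner ℝ ((-(n.k * exr n.k x / ‖x‖)) • x) (Real.exp (-(x 2)) • e3v) +
      fz x * ((n.k ^ 2 - 2 * n.k / ‖x‖) * exr n.k x)) :=
  (Bz_jet _).mono fun x hx => (pr.sub_Ud (HExt_sub _ hx)).2

/-- `L b_F` -/
theorem Lx_bF (pr : Prm n) {x : Pos3} (hx : x ∈ (HExt n.R 2 : Set Pos3)) :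
    Lx n.D n.Q n.κ n.bF x = n.A * Lx n.D n.Q n.κ (Ox n.D n.κ n.p 1) x +
      n.K * n.lam * Lx n.D n.Q n.κ (Bz n.k) x := by
  have hU := isOpen_HExt n.R (2 : Fin 3)
  have j1 := (pr.jO 1).mono (HExt_sub n.R)
  have j2 := pr.jBz
  rw [Lx_congr hU (b := fun y => n.A * Ox n.D n.κ n.p 1 y + n.K * n.lam * Bz n.k y)
    (fun y hy => bF_eq pr hy) hx,
    Lx_add hU (j1.const_mul hU n.A) (j2.const_mul hU (n.K * n.lam)) hx,
    Lx_const_mul hU j1 _ hx, Lx_const_mul hU j2 _ hx]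

/-- the jet of `r⁻² O` -/
theorem Prm.jriO (pr : Prm n) (m : ℕ) (σ : ℝ) :
    Jet (ExtE n.R) (fun x => ri m x * Ox n.D n.κ n.p σ x)
    (fun x => ri m x • gOx n.D n.κ n.p σ x + Ox n.D n.κ n.p σ x • ((-(m * ri (m + 2) x)) • x))
    (fun x => ri m x * lOx n.D n.κ n.p σ x +
      2 * inner ℝ ((-(m * ri (m + 2) x)) • x) (gOx n.D n.κ n.p σ x) +
      Ox n.D n.κ n.p σ x * ((m * (m - 1)) * ri (m + 2) x)) :=
  (riO_jet m _ _ _ _).mono pr.sub_Ud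

theorem Prm.jriS (pr : Prm n) (m : ℕ) (σ : ℝ) :
    Jet (ExtE n.R) (fun x => ri m x * Sx n.D n.κ n.p σ x)
    (fun x => ri m x • gSx n.D n.κ n.p σ x + Sx n.D n.κ n.p σ x • ((-(m * ri (m + 2) x)) • x))
    (fun x => ri m x * lSx n.D n.κ n.p σ x +
      2 * inner ℝ ((-(m * ri (m + 2) x)) • x) (gSx n.D n.κ n.p σ x) +
      Sx n.D n.κ n.p σ x * ((m * (m - 1)) * ri (m + 2) x)) :=
  (riS_jet m _ _ _ _).mono pr.sub_Ud

theorem Prm.jhzO (pr : Prm n) (σ : ℝ) :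
    Jet (ExtE n.R) (fun x => hz x * Ox n.D n.κ n.p σ x)
    (fun x => hz x • gOx n.D n.κ n.p σ x + Ox n.D n.κ n.p σ x • ghz x)
    (fun x => hz x * lOx n.D n.κ n.p σ x + 2 * inner ℝ (ghz x) (gOx n.D n.κ n.p σ x) +
      Ox n.D n.κ n.p σ x * 0) :=
  (hzO_jet _ _ _ _).mono pr.sub_Ud

theorem Prm.jSS (pr : Prm n) (σ : ℝ) :
    Jet (ExtE n.R) (Sx n.D n.κS n.pS σ) (gSx n.D n.κS n.pS σ) (lSx n.D n.κS n.pS σ) :=
  (Sx_jet _ _ _ _).mono pr.sub_Uc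

theorem Prm.jexr (pr : Prm n) : Jet (ExtE n.R) (exr n.k)
    (fun x => (-(n.k * exr n.k x / ‖x‖)) • x)
    (fun x => (n.k ^ 2 - 2 * n.k / ‖x‖) * exr n.k x) :=
  (exr_jet _).mono fun x hx => (pr.sub_Ud hx).2

/-- `L b_P` -/
theorem Lx_bP (pr : Prm n) {x : Pos3} (hx : x ∈ (HExt n.R 2 : Set Pos3)) :
    Lx n.D n.Q n.κ n.bP x = n.K1 * n.lam * (n.A * Lx n.D n.Q n.κ
      (fun y => ri 2 y * Ox n.D n.κ n.p 1 y) x + Lx n.D n.Q n.κ (Bz n.k) x) := by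
  have hU := isOpen_HExt n.R (2 : Fin 3)
  have j1 := (pr.jriO 2 1).mono (HExt_sub n.R)
  have j2 := pr.jBz
  have e1 : ∀ y ∈ (HExt n.R 2 : Set Pos3), n.bP y =
      n.K1 * n.lam * (n.A * (ri 2 y * Ox n.D n.κ n.p 1 y) + Bz n.k y) := fun y hy => by
    rw [bP_eq pr hy, ri_eq]; rfl
  rw [Lx_congr hU e1 hx, Lx_const_mul hU ((j1.const_mul hU n.A).add hU j2) _ hx,
    Lx_add hU (j1.const_mul hU n.A) j2 hx, Lx_const_mul hU j1 _ hx]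

/-- the jet of `T^up` with coefficient `t` -/
theorem Prm.jT (pr : Prm n) (t : ℝ) : ∃ G L, Jet (ExtE n.R)
    (fun y => hz y * Ox n.D n.κ n.p 1 y + t * (ri 4 y * Sx n.D n.κ n.p 1 y)) G L :=
  ⟨_, _, (pr.jhzO 1).add (isOpen_ExtE n.R) ((pr.jriS 4 1).const_mul (isOpen_ExtE n.R) t)⟩

theorem Lx_T (pr : Prm n) (κ' t : ℝ) {x : Pos3} (hx : x ∈ (ExtE n.R : Set Pos3)) :
    Lx n.D n.Q κ' (fun y => hz y * Ox n.D n.κ n.p 1 y + t * (ri 4 y * Sx n.D n.κ n.p 1 y)) x =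
      Lx n.D n.Q κ' (fun y => hz y * Ox n.D n.κ n.p 1 y) x +
        t * Lx n.D n.Q κ' (fun y => ri 4 y * Sx n.D n.κ n.p 1 y) x := by
  have hU := isOpen_ExtE (ι := Fin 3) n.R
  rw [Lx_add hU (pr.jhzO 1) ((pr.jriS 4 1).const_mul hU t) hx, Lx_const_mul hU (pr.jriS 4 1) _ hx]

/-- the jet of `b_c` -/
theorem Prm.jbc (pr : Prm n) : ∃ G L, Jet (ExtE n.R) n.bc G L := by
  obtain ⟨G, L, h⟩ := pr.jT n.β
  exact ⟨_, _, ((pr.jSS 1).const_mul (isOpen_ExtE n.R) n.Ac).add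
    (isOpen_ExtE n.R) ((h.const_mul (isOpen_ExtE n.R) n.α).const_mul (isOpen_ExtE n.R)
      (n.lam * n.A))⟩

theorem Lx_bc (pr : Prm n) {x : Pos3} (hx : x ∈ (ExtE n.R : Set Pos3)) :
    Lx n.D n.Q n.κS n.bc x = n.Ac * Lx n.D n.Q n.κS (Sx n.D n.κS n.pS 1) x +
      n.lam * n.A * (n.α * Lx n.D n.Q n.κS (fun y => hz y * Ox n.D n.κ n.p 1 y +
        n.β * (ri 4 y * Sx n.D n.κ n.p 1 y)) x) := by
  have hU := isOpen_ExtE (ι := Fin 3) n.R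
  obtain ⟨G, L, hj⟩ := pr.jT n.β
  have h := Lx_add (D := n.D) (Q := n.Q) (κ := n.κS) hU ((pr.jSS 1).const_mul hU n.Ac)
    ((hj.const_mul hU n.α).const_mul hU (n.lam * n.A)) hx
  rw [Lx_const_mul hU (pr.jSS 1) _ hx, Lx_const_mul hU (hj.const_mul hU n.α) _ hx,
    Lx_const_mul hU hj _ hx] at h
  exact h

theorem Lx_bN (pr : Prm n) {x : Pos3} (hx : x ∈ (ExtE n.R : Set Pos3)) :
    Lx n.D n.Q n.κS n.bN x = n.lam * (n.K2 * Lx n.D n.Q n.κS (fun y => ri 2 y * n.bc y) x +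
      n.K3 * n.A * Lx n.D n.Q n.κS (fun y => hz y * Ox n.D n.κ n.p 1 y +
        n.γ * (ri 4 y * Sx n.D n.κ n.p 1 y)) x + n.K2 * Lx n.D n.Q n.κS (exr n.k) x) := by
  have hU := isOpen_ExtE (ι := Fin 3) n.R
  obtain ⟨G, L, hj⟩ := pr.jT n.γ
  obtain ⟨G', L', hc⟩ := pr.jbc
  have j0 := ((ri_jet 2).mono fun x hx => (pr.sub_Ud hx).2).mul hU hc
  have j1 := j0.const_mul hU n.K2
  have j2 := hj.const_mul hU (n.K3 * n.A)
  have j3 := pr.jexr.const_mul hU n.K2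
  have h := Lx_const_mul (D := n.D) (Q := n.Q) (κ := n.κS) hU ((j1.add hU j2).add hU j3) n.lam hx
  rw [Lx_add hU (j1.add hU j2) j3 hx, Lx_add hU j1 j2 hx, Lx_const_mul hU pr.jexr _ hx,
    Lx_const_mul hU hj _ hx, Lx_const_mul hU j0 _ hx] at h
  exact h

end Crest.Agent.R335.BR
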