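import Crest.Agent.R335.BRUpA

/-!
Row 335 (S0521), Part B sections 5-6, singlet sector: pointwise inequalities for the upper barriers,
second part (the four supersolution inequalities).
-/

set_option autoImplicit false
set_option linter.unusedSectionVars false
set_option linter.unusedVariables false

open MeasureTheory Filter Set Crest.MathPhysics.ThreeBody
open scoped ENNReal Topology ContDiff

noncomputable section
namespace Crest.Agent.R335.BR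
open Crest.Agent.R335

variable {n : Nu}

/-- `e^{-(a/2) r}` at a point -/
def xx (n : Nu) (x : Pos3) : ℝ := Real.exp (-(n.a / 2 * ‖x‖))
/-- `e^{-(κ+a/4) r}` at a point -/
def yy (n : Nu) (x : Pos3) : ℝ := Real.exp (-((n.κ + n.a / 4) * ‖x‖))

theorem Prm.har (pr : Prm n) {x : Pos3} (hx : x ∈ (HExt n.R 2 : Set Pos3)) : 30 ≤ n.a * ‖x‖ := by
  have h1 : n.R < ‖x‖ := hx.1
  have := mul_le_mul_of_nonneg_left h1.le pr.a0.le
  linarith [pr.ra]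

theorem Prm.k1 (pr : Prm n) : (0.9 : ℝ) ≤ n.κ := pr.m1.k1
theorem Prm.k2 (pr : Prm n) : n.κ ≤ (1.1 : ℝ) := pr.m1.k2

theorem Prm.LBz (pr : Prm n) {x : Pos3} (hx : x ∈ (HExt n.R 2 : Set Pos3)) :
    exr n.k x * (Real.exp (-(x 2)) / 2 - n.κ * n.a / 4 * (1 - Real.exp (-(x 2)))) ≤
      Lx n.D n.Q n.κ (Bz n.k) x :=
  Lx_Bz_ge pr.k1 pr.k2 (by linarith [pr.m1.q1]) pr.m1.q2 pr.a0 (by linarith [pr.a1])
    (pr.far2 hx).far (pr.har hx)

theorem Prm.Lexr (pr : Prm n) {x : Pos3} (hx : x ∈ (HExt n.R 2 : Set Pos3)) :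
    -(n.κ * n.a / 4) * exr n.k x ≤ Lx n.D n.Q n.κ (exr n.k) x :=
  Lx_exr_ge pr.k1 pr.k2 (by linarith [pr.m1.q1]) pr.m1.q2 pr.a0 (by linarith [pr.a1])
    (pr.far2 hx).far (pr.har hx)

theorem exp_z {z : ℝ} (hz : z ≤ 1) : (1 : ℝ) / 3 ≤ Real.exp (-z) := by
  have h1 : Real.exp (-1) ≤ Real.exp (-z) := Real.exp_le_exp.2 (by linarith)
  have h2 : (1 : ℝ) / 3 ≤ Real.exp (-1) := by
    rw [Real.exp_neg, ← one_div]
    exact one_div_le_one_div_of_le (Real.exp_pos 1) (by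
      have := Real.exp_one_lt_d9; linarith)
  linarith

theorem Prm.ka (pr : Prm n) : 0 ≤ n.κ * n.a / 4 ∧ n.κ * n.a / 4 ≤ 1 / 20 := by
  have h1 := pr.k1
  have h2 := pr.k2
  have h3 := pr.a0
  have h4 := pr.a1
  constructor
  · positivity
  · nlinarith

/-- (V_F) -/
theorem vF (pr : Prm n) {x : Pos3} (hx : x ∈ (HExt n.R 2 : Set Pos3)) :
    srcF n.CD n.lam (1 / ‖x‖) (x 2) (xx n x) (n.bF x) (n.bP x) (n.bc x) (n.bN x) ≤
      Lx n.D n.Q n.κ n.bF x := by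
  rw [Lx_bF pr hx, bF_eq pr hx, bP_eq pr hx, bc_eq, bN_eq]
  refine VF (pr.ptx hx) pr.pos (pr.SS_le hx) pr.h1 pr.h2 pr.h3 (k8 := n.κ / 8)
    (ez := Real.exp (-(x 2))) (ka := n.κ * n.a / 4) ?_ ?_ (Real.exp_pos _).le
    (fun h => exp_z h) pr.ka.1 pr.ka.2 pr.F1 pr.F2 pr.F3
  · have := Lx_Om_ge pr.m1 (pr.far2 hx).far
    linarith
  · exact pr.LBz hx

/-- (V_P) -/
theorem vP (pr : Prm n) (hCu : 0 ≤ n.Cu) {x : Pos3} (hx : x ∈ (HExt n.R 2 : Set Pos3)) :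
    srcP n.CD n.Cu n.lam (1 / ‖x‖) (x 2) (xx n x) (yy n x) (n.bF x) (n.bc x) (n.bN x) ≤
      Lx n.D n.Q n.κ n.bP x + n.om / 8 * n.bP x := by
  have hB := bP_eq pr hx
  rw [Lx_bP pr hx]
  have hbP : n.bP x = n.K1 * n.lam * (n.A * (ri 2 x * Ox n.D n.κ n.p 1 x) + Bz n.k x) := by
    rw [hB, ri_eq]; rfl
  rw [hbP, bF_eq pr hx, bc_eq, bN_eq]
  have h0 : 0 < ‖x‖ := (pr.far2 hx).far.rpos
  have hR : n.R < ‖x‖ := hx.1
  have hO := pr.O0 hx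
  have hom := pr.om0
  have hmain := VP (pr.ptx hx) pr.pos (pr.SS_le hx) pr.h1 pr.h2 pr.h3 pr.h4 (g16 := n.om / 16)
    (LO := Lx n.D n.Q n.κ (fun y => ri 2 y * Ox n.D n.κ n.p 1 y) x +
      n.om / 8 * (ri 2 x * Ox n.D n.κ n.p 1 x))
    (LB := Lx n.D n.Q n.κ (Bz n.k) x + n.om / 8 * Bz n.k x) ?_ ?_ pr.P1 pr.P2
  · refine hmain.trans (le_of_eq ?_)
    ring
  · have h1 := Lx_riOm_ge 2 (by norm_num) pr.m1 (pr.far2 hx).far
    have h2 : 0 ≤ ri 2 x * Ox n.D n.κ n.p 1 x := mul_nonneg (ri_pos 2 h0).le hO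
    have h3 : (1.31 * ((2 : ℕ) : ℝ)) * n.κ / ‖x‖ ≤ n.om / 16 := by
      rw [div_le_iff₀ h0]
      have := mul_le_mul_of_nonneg_left hR.le hom.le
      have := pr.r1
      have := pr.k2
      push_cast
      nlinarith
    have h4 := mul_le_mul_of_nonneg_right h3 h2
    rw [← ri_eq]
    linarith
  · have h1 := pr.LBz hx
    have he := exr_pos n.k x
    have h5 : Bz n.k x = exr n.k x * (1 - Real.exp (-(x 2))) := rfl
    rw [h5]
    have hz : 0 < x 2 := hx.2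
    have hE0 := Real.exp_pos (-(x 2))
    have hE1 : Real.exp (-(x 2)) ≤ 1 := Real.exp_le_one_iff.2 (by linarith)
    have h6 : n.κ * n.a / 4 ≤ n.om / 16 := by
      have := pr.k2
      unfold Nu.a
      nlinarith
    have h7 : n.om / 16 ≤ Real.exp (-(x 2)) / 2 - n.κ * n.a / 4 * (1 - Real.exp (-(x 2))) +
        n.om / 8 * (1 - Real.exp (-(x 2))) := by
      have h8 := pr.om1
      have h9 := mul_le_mul_of_nonneg_right h6 (sub_nonneg.2 hE1)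
      nlinarith
    have h10 := mul_le_mul_of_nonneg_left h7 he.le
    linarith

/-- (V_c) -/
theorem vc (pr : Prm n) {x : Pos3} (hx : x ∈ (HExt n.R 2 : Set Pos3)) :
    n.lam * n.dS * (x 2 * (1 / ‖x‖) ^ 3) * n.bF x +
      srcE n.CD n.lam (1 / ‖x‖) (x 2) (xx n x) (n.bF x) (n.bP x) (n.bc x) (n.bN x) ≤
      Lx n.D n.Q n.κS n.bc x := by
  rw [Lx_bc pr (HExt_sub _ hx), bF_eq pr hx, bP_eq pr hx, bc_eq, bN_eq]
  have hR : n.R < ‖x‖ := hx.1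
  have h0 : 0 < ‖x‖ := (pr.far2 hx).far.rpos
  have hu0 : 0 ≤ 1 / ‖x‖ := by positivity
  have hu1 : 1 / ‖x‖ ≤ 1 / n.R := by
    have := pr.R1
    exact one_div_le_one_div_of_le (by linarith) hR.le
  refine Vc (pr.ptx hx) pr.pos (pr.SS0 hx) pr.h3 (k8 := n.κ / 8) (G1 := 0.99 * (n.q2 / 2))
    (G2 := 2.8 * n.κ * n.D) pr.dS0.le ?_ ?_ pr.c1 (pr.c2 _ hu0 hu1) (pr.c3 _ hu0 hu1)
  · have h1 := Lx_Sm_ge pr.mS1 (pr.far2 hx).far
    have h2 := pr.kk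
    have h3 : 0 ≤ (√‖x‖)⁻¹ ^ 3 * Sx n.D n.κS n.pS 1 x := mul_nonneg (by positivity) (pr.SS0 hx)
    nlinarith
  · refine mul_le_mul_of_nonneg_left ?_ pr.pos.α
    have hq := pr.q20
    have hsq : (√n.q2) ^ 2 = n.q2 := Real.sq_sqrt hq.le
    have hrq : 1000 ≤ ‖x‖ * (√n.q2) ^ 2 := by
      rw [hsq]
      have a1 := pr.r1
      have a2 := pr.q2lo
      have a3 := mul_le_mul a2 hR.le (by linarith [pr.R1]) hq.le
      linarith
    have h1 := Lq_Tup_ge (q := √n.q2) pr.m1 (pr.far2 hx).far (Real.sqrt_pos.2 hq) hrq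
    have hT : Tup n.D n.κ n.p (√n.q2) =
        fun y => hz y * Ox n.D n.κ n.p 1 y + n.β * (ri 4 y * Sx n.D n.κ n.p 1 y) := by
      funext y
      unfold Tup Nu.β
      rw [hsq]
    rw [hT, hsq] at h1
    rw [Lx_rate n.D n.Q n.κ n.κS]
    have e1 : (n.κS ^ 2 - n.κ ^ 2) / 2 = n.q2 / 2 := rfl
    rw [e1, ← hz_eq, ← ri_eq]
    exact h1

theorem x_ghzO (pr : Prm n) {x : Pos3} (hx : x ∈ (HExt n.R 2 : Set Pos3)) :
    -(2.3 * ‖x‖ * (hz x * Ox n.D n.κ n.p 1 x)) ≤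
      inner ℝ x (hz x • gOx n.D n.κ n.p 1 x + Ox n.D n.κ n.p 1 x • ghz x) := by
  have h0 : 0 < ‖x‖ := (pr.far2 hx).far.rpos
  have hf := (pr.far2 hx).far
  have hO := pr.O0 hx
  have hz0 := hz_nonneg hf
  rw [inner_add_right, inner_smul_right, inner_smul_right, real_inner_comm (ghz x) x,
    inner_ghz_x h0]
  have h1 := mul_le_mul_of_nonneg_left (x_gOx pr.m1 hf) hz0
  have h2 := pr.k2
  have h3 : 0 ≤ ‖x‖ * (hz x * Ox n.D n.κ n.p 1 x) := by positivity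
  have h4 : 0 ≤ hz x * Ox n.D n.κ n.p 1 x := by positivity
  have h5 : 6000 ≤ ‖x‖ := hf.r0
  nlinarith

theorem x_griS (pr : Prm n) {x : Pos3} (hx : x ∈ (HExt n.R 2 : Set Pos3)) :
    -(2.3 * ‖x‖ * (ri 4 x * Sx n.D n.κ n.p 1 x)) ≤
      inner ℝ x (ri 4 x • gSx n.D n.κ n.p 1 x +
        Sx n.D n.κ n.p 1 x • ((-(((4 : ℕ) : ℝ) * ri (4 + 2) x)) • x)) := by
  have h0 : 0 < ‖x‖ := (pr.far2 hx).far.rpos
  have hf := (pr.far2 hx).far
  have hS := (Sx_pos pr.m1 hf.reg).le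
  have r4 := (ri_pos 4 h0).le
  rw [inner_add_right, inner_smul_right, inner_smul_right, inner_smul_right,
    real_inner_self_eq_norm_sq]
  have h1 := mul_le_mul_of_nonneg_left (x_gSx pr.m1 hf) r4
  have h2 := pr.k2
  have h3 : 0 ≤ ‖x‖ * (ri 4 x * Sx n.D n.κ n.p 1 x) := by positivity
  have h4 : 0 ≤ ri 4 x * Sx n.D n.κ n.p 1 x := by positivity
  have h5 : 6000 ≤ ‖x‖ := hf.r0
  have h6 : ri (4 + 2) x * ‖x‖ ^ 2 = ri 4 x := by
    unfold ri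
    rw [show (4 + 2 : ℕ) = 6 from rfl]
    field_simp
  have h7 : Sx n.D n.κ n.p 1 x * (-(((4 : ℕ) : ℝ) * ri (4 + 2) x) * ‖x‖ ^ 2) =
      -(4 * (ri 4 x * Sx n.D n.κ n.p 1 x)) := by
    rw [← h6]; push_cast; ring
  rw [h7]
  nlinarith

/-- `x·∇b_c ≥ -2.3 r b_c` -/
theorem x_gbc (pr : Prm n) {x : Pos3} (hx : x ∈ (HExt n.R 2 : Set Pos3)) {G : Pos3 → Pos3}
    {L : Pos3 → ℝ} (hj : Jet (ExtE n.R) n.bc G L) :
    -(2.3 * ‖x‖ * n.bc x) ≤ inner ℝ x (G x) := by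
  have hU := isOpen_ExtE (ι := Fin 3) n.R
  have hxE := HExt_sub _ hx
  have hf := (pr.far2 hx).far
  have h0 : 0 < ‖x‖ := hf.rpos
  have j := ((pr.jSS 1).const_mul hU n.Ac).add hU ((((pr.jhzO 1).add hU
    ((pr.jriS 4 1).const_mul hU n.β)).const_mul hU n.α).const_mul hU (n.lam * n.A))
  have e1 : gr n.bc x = G x := hj.grad x hxE
  have e2 := j.grad x hxE
  have e3 : G x = n.Ac • gSx n.D n.κS n.pS 1 x + (n.lam * n.A) • n.α •
      ((hz x • gOx n.D n.κ n.p 1 x + Ox n.D n.κ n.p 1 x • ghz x) + n.β •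
        (ri 4 x • gSx n.D n.κ n.p 1 x +
        Sx n.D n.κ n.p 1 x • ((-(((4 : ℕ) : ℝ) * ri (4 + 2) x)) • x))) := by
    rw [← e1]; exact e2
  rw [e3]
  simp only [inner_add_right x, inner_smul_right]
  have a1 := x_ghzO pr hx
  have a2 := x_griS pr hx
  have a3 := x_gSx pr.mS1 hf
  simp only [inner_add_right x, inner_smul_right] at a1 a2
  have p := pr.pos
  have hS := pr.SS0 hx
  have b3 : -(2.3 * ‖x‖ * Sx n.D n.κS n.pS 1 x) ≤ inner ℝ x (gSx n.D n.κS n.pS 1 x) := by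
    have h2 := pr.mS1.k2
    have h3 : 0 ≤ ‖x‖ * Sx n.D n.κS n.pS 1 x := by positivity
    nlinarith
  have c1 := mul_le_mul_of_nonneg_left b3 p.Ac.le
  have c2 := mul_le_mul_of_nonneg_left a2 p.β
  have c3 := mul_le_mul_of_nonneg_left (add_le_add a1 c2) p.α
  have c4 := mul_le_mul_of_nonneg_left c3 (mul_nonneg p.l p.A.le)
  unfold Nu.bc
  linarith

theorem bc0 (pr : Prm n) {x : Pos3} (hx : x ∈ (HExt n.R 2 : Set Pos3)) : 0 ≤ n.bc x := by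
  rw [bc_eq]; exact bc_nonneg (e := exr n.k x) (pr.ptx hx) pr.pos (pr.SS0 hx)

/-- `L_S b_c ≥ 0` -/
theorem Lbc0 (pr : Prm n) {x : Pos3} (hx : x ∈ (HExt n.R 2 : Set Pos3)) :
    0 ≤ Lx n.D n.Q n.κS n.bc x := by
  refine le_trans ?_ (vc pr hx)
  have p := pr.pos
  have h := pr.ptx hx
  have h1 : 0 ≤ n.bF x := by rw [bF_eq pr hx]; exact bF_nonneg h p
  have h2 : 0 ≤ n.bP x := by rw [bP_eq pr hx]; exact bP_nonneg h p
  have h3 := bc0 pr hx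
  have h4 : 0 ≤ n.bN x := by rw [bN_eq]; exact bN_nonneg h p (pr.SS0 hx)
  have h5 : 0 ≤ xx n x := (Real.exp_pos _).le
  have h6 := p.l
  have h7 := p.CD
  have h8 := pr.dS0
  have h9 := h.z0
  unfold srcE
  positivity

/-- (V_N) -/
theorem vN (pr : Prm n) {x : Pos3} (hx : x ∈ (HExt n.R 2 : Set Pos3)) :
    srcN n.CD n.Cu n.CuD n.lam (1 / ‖x‖) (x 2) (xx n x) (yy n x) (n.bF x) (n.bP x) (n.bc x) ≤
      Lx n.D n.Q n.κS n.bN x + n.m2 * n.bN x := by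
  have hxE := HExt_sub _ hx
  have hf := (pr.far2 hx).far
  have h0 : 0 < ‖x‖ := hf.rpos
  have hR : n.R < ‖x‖ := hx.1
  have hm2 := pr.m20
  have hO := pr.O0 hx
  have hS := (Sx_pos pr.m1 hf.reg).le
  have hb0 := bc0 pr hx
  have hκ := pr.k1
  have hD := hf.Dpos
  have hm : 12 ≤ n.m2 * ‖x‖ := by
    have := mul_le_mul_of_nonneg_left hR.le hm2.le
    linarith [pr.r2]
  obtain ⟨G, L, hj⟩ := pr.jbc
  -- the three pieces
  have p1 : n.m2 / 2 * ((1 / ‖x‖) ^ 2 * n.bc x) ≤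
      Lx n.D n.Q n.κS (fun y => ri 2 y * n.bc y) x + n.m2 * (ri 2 x * n.bc x) := by
    have h1 := Lx_rm2_ge (isOpen_ExtE (ι := Fin 3) n.R) (fun x hx => (pr.sub_Ud hx).2) hj n.D n.Q
      n.κS hxE (c := 2.3) (m := n.m2) hb0 (by linarith [hf.r0]) (x_gbc pr hx hj) (Lbc0 pr hx)
    have e1 : (fun y : Pos3 => ‖y‖⁻¹ ^ 2 * n.bc y) = fun y => ri 2 y * n.bc y := by
      funext y; rw [ri_eq, one_div]
    rw [e1] at h1
    have e2 : ‖x‖⁻¹ ^ 2 = ri 2 x := by rw [ri_eq, one_div]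
    rw [e2] at h1
    rw [← ri_eq]
    have h2 : (2 * 2.3 + 1) / ‖x‖ ≤ n.m2 / 2 := by
      rw [div_le_iff₀ h0]; linarith
    have h3 : 0 ≤ ri 2 x * n.bc x := mul_nonneg (ri_pos 2 h0).le hb0
    have h4 := mul_le_mul_of_nonneg_right h2 h3
    linarith
  have hz0 := hz_nonneg hf
  have hzO : 0 ≤ hz x * Ox n.D n.κ n.p 1 x := mul_nonneg hz0 hO
  have h4S : 0 ≤ ri 4 x * Sx n.D n.κ n.p 1 x := mul_nonneg (ri_pos 4 h0).le hS
  have hq := pr.q20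
  have hγ := pr.pos.γ
  have p2 : n.m2 / 2 * ((1 / ‖x‖) ^ 3 * x 2 * Ox n.D n.κ n.p 1 x) +
      0.9 * n.κ * n.D * ((1 / ‖x‖) ^ 4 * Sx n.D n.κ n.p 1 x) ≤
      Lx n.D n.Q n.κS (fun y => hz y * Ox n.D n.κ n.p 1 y +
        n.γ * (ri 4 y * Sx n.D n.κ n.p 1 y)) x +
        n.m2 * (hz x * Ox n.D n.κ n.p 1 x + n.γ * (ri 4 x * Sx n.D n.κ n.p 1 x)) := by
    rw [Lx_T pr _ _ hxE, ← hz_eq, ← ri_eq, Lx_rate n.D n.Q n.κ n.κS,
      Lx_rate n.D n.Q n.κ n.κS (fun y => ri 4 y * Sx n.D n.κ n.p 1 y)]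
    have e1 : (n.κS ^ 2 - n.κ ^ 2) / 2 = n.q2 / 2 := rfl
    rw [e1]
    have h1 := Lx_hzOm_ge (Q := n.Q) pr.m1 hf
    have h2 := mul_le_mul_of_nonneg_left (Lx_riSm_ge (Q := n.Q) 4 (by norm_num) pr.m1 hf) hγ
    have h3 : 2.6 * n.κ / ‖x‖ ≤ n.m2 / 2 := by
      rw [div_le_iff₀ h0]
      have := pr.k2
      nlinarith
    have h4 := mul_le_mul_of_nonneg_right h3 hzO
    have h5 : 1.04 * ((4 : ℕ) : ℝ) * n.κ / ‖x‖ ≤ n.m2 / 2 := by
      rw [div_le_iff₀ h0]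
      have := pr.k2
      push_cast
      nlinarith
    have h6 := mul_le_mul_of_nonneg_right h5 (mul_nonneg hγ h4S)
    have h7 : n.γ * (n.m2 / 2) = 2 * n.κ * n.D := by
      unfold Nu.γ; field_simp; ring
    have h8 : n.m2 / 2 * (n.γ * (ri 4 x * Sx n.D n.κ n.p 1 x)) =
        2 * n.κ * n.D * (ri 4 x * Sx n.D n.κ n.p 1 x) := by
      rw [← h7]; ring
    have h9 : 0 ≤ n.q2 / 2 * (hz x * Ox n.D n.κ n.p 1 x) := by positivity
    have h10 : 0 ≤ n.γ * (n.q2 / 2 * (ri 4 x * Sx n.D n.κ n.p 1 x)) := by positivity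
    linarith
  have p3 : n.m2 / 2 * exr n.k x ≤ Lx n.D n.Q n.κS (exr n.k) x + n.m2 * exr n.k x := by
    rw [Lx_rate n.D n.Q n.κ n.κS]
    have e1 : (n.κS ^ 2 - n.κ ^ 2) / 2 = n.q2 / 2 := rfl
    rw [e1]
    have h1 := pr.Lexr hx
    have he := exr_pos n.k x
    have h2 : n.κ * n.a / 4 ≤ n.q2 / 2 := by
      have := pr.k2
      have := pr.q2lo
      have := pr.om0
      unfold Nu.a
      nlinarith
    have h3 := mul_le_mul_of_nonneg_right h2 he.le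
    have h4 : 0 ≤ n.m2 / 2 * exr n.k x := by positivity
    linarith
  have hmain := VN (y := yy n x) (x := xx n x) (pr.ptx hx) pr.pos (pr.SS0 hx) pr.h3
    (g16 := n.m2 / 2) (G2 := 0.9 * n.κ * n.D)
    (Lb := Lx n.D n.Q n.κS (fun y => ri 2 y * n.bc y) x + n.m2 * (ri 2 x * n.bc x))
    (LT := Lx n.D n.Q n.κS (fun y => hz y * Ox n.D n.κ n.p 1 y +
        n.γ * (ri 4 y * Sx n.D n.κ n.p 1 y)) x +
        n.m2 * (hz x * Ox n.D n.κ n.p 1 x + n.γ * (ri 4 x * Sx n.D n.κ n.p 1 x)))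
    (Le := Lx n.D n.Q n.κS (exr n.k) x + n.m2 * exr n.k x)
    (by positivity) (by rw [← bc_eq]; exact p1) p2 p3 pr.N1 pr.N2 pr.N3
  rw [Lx_bN pr hxE, bF_eq pr hx, bP_eq pr hx]
  rw [← bc_eq] at hmain
  refine hmain.trans (le_of_eq ?_)
  unfold Nu.bN
  ring

end Crest.Agent.R335.BR
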