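import Crest.Agent.R335.BRegD
import Crest.Agent.R335.BChan

/-!
Row 335 (S0521): module BReg: continuity of the density amplitude and its Kato inequality.
-/

set_option autoImplicit false
set_option linter.unusedSectionVars false

open MeasureTheory Filter Set Crest.MathPhysics.ThreeBody
open scoped ENNReal Topology ContDiff

noncomputable section
namespace Crest.Agent.R335.BR
open Crest.Agent.R335

theorem jn_rz_rxi (X : Pos3) (ξ : Y2) : jn p9 (rz X) (rxi ξ) = r9 (jn p9 X ξ) := by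
  ext ⟨i, c⟩
  rw [r9_apply]
  refine Fin.cases ?_ (fun j => ?_) i
  · show rz X c = if c = 2 then -(X c) else X c
    rw [rz_apply]
  · show rxi ξ (j, c) = if c = 2 then -(ξ (j, c)) else ξ (j, c)
    rw [rxi_apply]

theorem rxi_rxi (ξ : Y2) : rxi (rxi ξ) = ξ := by
  ext jc
  rw [rxi_apply, rxi_apply]
  split_ifs <;> simp

theorem slice_sq_rz {Y : Config3 → ℝ} (h : ∀ x, Y (r9 x) = - Y x) (X : Pos3) :
    ∫ ξ, Y (jn p9 (rz X) ξ) ^ 2 = ∫ ξ, Y (jn p9 X ξ) ^ 2 := by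
  have h1 : ∀ ξ, Y (jn p9 (rz X) ξ) ^ 2 = Y (jn p9 X (rxi ξ)) ^ 2 := fun ξ => by
    have := jn_rz_rxi X (rxi ξ)
    rw [rxi_rxi] at this
    rw [this, h]
    ring
  simp only [h1]
  exact (rxi.measurePreserving).integral_comp rxi.toHomeomorph.measurableEmbedding
    (fun ξ => Y (jn p9 X ξ) ^ 2)

/-- the family `ψ, ψ, ψ_B` -/
theorem fam_of_threeBody {D lam E : ℝ} {ψ : Config3 → ℝ} {dψ : Config3 → Config3}
    (h : ThreeBody D lam E ψ dψ) : ∃ dB : Config3 → Config3,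
      Fam D lam E (![ψ, ψ, GB ψ]) (![dψ, dψ, dB]) ∧ ∀ x, GB ψ (r9 x) = - GB ψ x := by
  obtain ⟨dB, hB⟩ := chan_B h
  refine ⟨dB, ⟨fun s => ?_, fun s => ?_⟩, hB.odd⟩
  · fin_cases s
    · exact h.h1
    · exact h.h1
    · exact hB.h1
  · fin_cases s
    · exact h.eq
    · exact h.eq
    · exact hB.eq

theorem amp_three (ψ χ : Config3 → ℝ) (X : Pos3) : amp (![ψ, ψ, χ]) X =
    √(2 * (∫ ξ, ψ (jn p9 X ξ) ^ 2) + ∫ ξ, χ (jn p9 X ξ) ^ 2) := by
  unfold amp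
  rw [Fin.sum_univ_three]
  simp only [Matrix.cons_val_zero, Matrix.cons_val_one, Matrix.cons_val]
  rw [two_mul]

end Crest.Agent.R335.BR

namespace Crest.Agent.R335
open BR

variable {cg C0 D : ℝ} {B : OBD cg C0 D} {K lam : ℝ}

theorem Sys.amp_eq (S : Sys B K lam) (X : Pos3) :
    amp (![S.ψ, S.ψ, GB S.ψ]) X = √(S.rho X) := amp_three _ _ _

/-- `s` is in `H¹`; Kato inequality with any sign of `e₀ - E` -/
theorem Sys.kato_s' (S : Sys B K lam) (hl : 0 ≤ lam) : ∃ gs, H1 (fun X => √(S.rho X)) gs ∧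
    WLe univ (fun X => √(S.rho X)) gs (fun x => S.e0 - S.E + V2 D x) (fun _ => 0) := by
  obtain ⟨dB, hF, -⟩ := fam_of_threeBody S.tb
  obtain ⟨m, hm, -⟩ := H1.pnorm p9 hF.h1
  change H1 (amp (![S.ψ, S.ψ, GB S.ψ])) m at hm
  have hk := kato_fam hl S.low hF hm
  have e : amp (![S.ψ, S.ψ, GB S.ψ]) = fun X => √(S.rho X) := funext S.amp_eq
  rw [e] at hm hk
  exact ⟨m, hm, hk⟩

/-- `s` is in `H¹`, Kato inequality for the density amplitude: `-½Δ s + (κ²/2 + V) s ≤ 0` -/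
theorem Sys.kato_s {cg C0 D : ℝ} {B : OBD cg C0 D} {K lam : ℝ} (S : Sys B K lam)
    (hl : 0 ≤ lam) (hκ : S.E ≤ S.e0) : ∃ gs, H1 (fun X => √(S.rho X)) gs ∧
      WLe univ (fun X => √(S.rho X)) gs (fun x => S.κ ^ 2 / 2 + V2 D x) (fun _ => 0) := by
  obtain ⟨gs, h1, h2⟩ := S.kato_s' hl
  have hk : S.κ ^ 2 / 2 = S.e0 - S.E := by
    unfold Sys.κ
    rw [Real.sq_sqrt (by linarith)]
    ring
  rw [hk]
  exact ⟨gs, h1, h2⟩

/-- continuous representative of the density amplitude -/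
theorem Sys.amp_cont {cg C0 D : ℝ} {B : OBD cg C0 D} {K lam : ℝ} (S : Sys B K lam)
    (hl : 0 ≤ lam) : ∃ s : Pos3 → ℝ, Continuous s ∧ (∀ x, 0 ≤ s x) ∧
      (∀ᵐ X : Pos3, s X ^ 2 = S.rho X) ∧ (∀ x, s (rz x) = s x) ∧ (∃ C, ∀ x, s x ≤ C) ∧
      (∃ gs, H1 s gs) := by
  obtain ⟨dB, hF, hodd⟩ := fam_of_threeBody S.tb
  obtain ⟨r, hc, h0, hae, ⟨C, hC⟩, m, hm⟩ := hF.cont hl S.low
  have hrho0 : ∀ X, 0 ≤ S.rho X := fun X =>
    add_nonneg (mul_nonneg zero_le_two (integral_nonneg fun ξ => sq_nonneg _))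
      (integral_nonneg fun ξ => sq_nonneg _)
  have hae' : ∀ᵐ X, r X = S.rho X := by
    filter_upwards [hae] with X hX
    rw [hX, S.amp_eq, Real.sq_sqrt (hrho0 X)]
  have hrz : ∀ X, S.rho (rz X) = S.rho X := fun X => by
    unfold Sys.rho
    rw [slice_sq_rz S.tb.odd, slice_sq_rz hodd]
  have hsym : ∀ x, r (rz x) = r x := by
    have h1 : ∀ᵐ X, r (rz X) = S.rho (rz X) :=
      rz.measurePreserving.quasiMeasurePreserving.ae hae'
    have h2 : (fun x => r (rz x)) =ᵐ[volume] r := by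
      filter_upwards [h1, hae'] with X hX hX'
      rw [hX, hrz, hX']
    have h3 := (Continuous.ae_eq_iff_eq volume (hc.comp rz.continuous) hc).1 h2
    exact fun x => congrFun h3 x
  refine ⟨fun x => √(r x), hc.sqrt, fun x => Real.sqrt_nonneg _, ?_, fun x => by simp only []; rw [hsym],
    ⟨√C, fun x => Real.sqrt_le_sqrt (hC x)⟩, m, ?_⟩
  · filter_upwards [hae'] with X hX
    rw [Real.sq_sqrt (h0 X), hX]
  · refine H1.congr hm ?_ (ae_eq_refl _)
    filter_upwards [hae'] with X hX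
    rw [hX, S.amp_eq]

end Crest.Agent.R335
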