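import Crest.Agent.R335.HSob
import Crest.Agent.R335.HReg
import Crest.Agent.R335.HGlob2
import Crest.Agent.R335.HHardy
import Crest.Agent.R335.HNorm
import Crest.Agent.R335.HYuk
import Crest.Agent.R335.BSys

/-!
Row 335 (S0521): regularity of the density amplitude, part A: consequences of Hardy's inequality
for the potentials `V2`, `Vion`, `V9` (module BReg).
-/

set_option autoImplicit false
set_option linter.unusedSectionVars false

open MeasureTheory Filter Set Crest.MathPhysics.ThreeBody
open scoped ENNReal Topology ContDiff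

noncomputable section
namespace Crest.Agent.R335.BR
open Crest.Agent.R335

variable {ι : Type*} [Fintype ι] [DecidableEq ι]

local notation "E" => EuclideanSpace ℝ ι

theorem aesm_div {f : E → ℝ} (hf : AEStronglyMeasurable f volume) (L : E →L[ℝ] Pos3)
    (a : Pos3) : AEStronglyMeasurable (fun x => 1 / ‖L x - a‖ * f x) volume := by
  have h1 : Measurable (fun x : E => 1 / ‖L x - a‖) :=
    ((L.continuous.measurable.sub_const a).norm).const_div 1
  exact h1.aestronglyMeasurable.mul hf

theorem memLp_div {f : E → ℝ} {g : E → E} (h : H1 f g) (L : E →L[ℝ] Pos3) (e : Fin 3 → E)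
    (he : ∀ c, L (e c) = EuclideanSpace.single c (1 : ℝ)) (a : Pos3) :
    MemLp (fun x => 1 / ‖L x - a‖ * f x) 2 volume := by
  rw [memLp_two_iff_integrable_sq (aesm_div h.memf.1 L a)]
  refine (hardy h L e he a).1.congr (Eventually.of_forall fun x => ?_)
  simp only []
  rw [mul_pow, div_pow, one_pow]
  ring

/-! ### electron positions as continuous linear maps -/

/-- electron position -/
def elL (i : Fin 3) : Config3 →L[ℝ] Pos3 :=
  LinearMap.toContinuousLinearMap
    { toFun := elPos i
      map_add' := fun x y => by ext c; simp [elPos]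
      map_smul' := fun c x => by ext d; simp [elPos] }

@[simp] theorem elL_apply (i : Fin 3) (x : Config3) : elL i x = elPos i x := rfl

/-- electron position in the ion -/
def elY (i : Fin 2) : Y2 →L[ℝ] Pos3 :=
  LinearMap.toContinuousLinearMap
    { toFun := el i
      map_add' := fun x y => by ext c; simp [el]
      map_smul' := fun c x => by ext d; simp [el] }

@[simp] theorem elY_apply (i : Fin 2) (x : Y2) : elY i x = el i x := rfl

theorem elL_single (i : Fin 3) (c : Fin 3) :
    elL i (EuclideanSpace.single (i, c) (1 : ℝ)) = EuclideanSpace.single c (1 : ℝ) := by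
  ext d
  simp [elPos, Prod.ext_iff]

theorem elL_single_ne {i j : Fin 3} (hij : i ≠ j) (c : Fin 3) :
    elL i (EuclideanSpace.single (j, c) (1 : ℝ)) = 0 := by
  ext d
  simp [elPos, Prod.ext_iff, hij]

theorem elY_single (i : Fin 2) (c : Fin 3) :
    elY i (EuclideanSpace.single (i, c) (1 : ℝ)) = EuclideanSpace.single c (1 : ℝ) := by
  ext d
  simp [el, Prod.ext_iff]

theorem elY_single_ne {i j : Fin 2} (hij : i ≠ j) (c : Fin 3) :
    elY i (EuclideanSpace.single (j, c) (1 : ℝ)) = 0 := by
  ext d
  simp [el, Prod.ext_iff, hij]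

theorem memLp_el {f : Config3 → ℝ} {g : Config3 → Config3} (h : H1 f g) (i : Fin 3) (a : Pos3) :
    MemLp (fun x => 1 / ‖elPos i x - a‖ * f x) 2 volume :=
  memLp_div h (elL i) (fun c => EuclideanSpace.single (i, c) 1) (elL_single i) a

theorem memLp_elel {f : Config3 → ℝ} {g : Config3 → Config3} (h : H1 f g) {i j : Fin 3}
    (hij : i ≠ j) : MemLp (fun x => 1 / ‖elPos i x - elPos j x‖ * f x) 2 volume := by
  have := memLp_div h (elL i - elL j)
    (fun c => (1 / 2 : ℝ) • (EuclideanSpace.single (i, c) 1 - EuclideanSpace.single (j, c) 1))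
    (fun c => by
      rw [sub_apply, map_smul, map_smul, map_sub, map_sub, elL_single,
        elL_single, elL_single_ne hij, elL_single_ne (Ne.symm hij), sub_zero, zero_sub, smul_neg,
        sub_neg_eq_add, ← add_smul]
      norm_num) 0
  simpa using this

theorem memLp_elY {f : Y2 → ℝ} {g : Y2 → Y2} (h : H1 f g) (i : Fin 2) (a : Pos3) :
    MemLp (fun x => 1 / ‖el i x - a‖ * f x) 2 volume :=
  memLp_div h (elY i) (fun c => EuclideanSpace.single (i, c) 1) (elY_single i) a

theorem memLp_elelY {f : Y2 → ℝ} {g : Y2 → Y2} (h : H1 f g) :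
    MemLp (fun x => 1 / ‖el 0 x - el 1 x‖ * f x) 2 volume := by
  have h01 : (0 : Fin 2) ≠ 1 := by decide
  have := memLp_div h (elY 0 - elY 1)
    (fun c => (1 / 2 : ℝ) • (EuclideanSpace.single (0, c) 1 - EuclideanSpace.single (1, c) 1))
    (fun c => by
      rw [sub_apply, map_smul, map_smul, map_sub, map_sub, elY_single,
        elY_single, elY_single_ne h01, elY_single_ne (Ne.symm h01), sub_zero, zero_sub, smul_neg,
        sub_neg_eq_add, ← add_smul]
      norm_num) 0
  simpa using this

/-! ### the potentials map `H¹` into `L²` -/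

theorem memLp_V2 (D : ℝ) {f : Pos3 → ℝ} {g : Pos3 → Pos3} (h : H1 f g) :
    MemLp (fun x => V2 D x * f x) 2 volume := by
  have h1 := memLp_div h (ContinuousLinearMap.id ℝ Pos3) (fun c => EuclideanSpace.single c 1)
    (fun c => rfl) (nuc D)
  have h2 := memLp_div h (ContinuousLinearMap.id ℝ Pos3) (fun c => EuclideanSpace.single c 1)
    (fun c => rfl) (nuc (-D))
  refine (h1.neg.sub h2).ae_eq (Eventually.of_forall fun x => ?_)
  simp only [V2, Pi.sub_apply, Pi.neg_apply, ContinuousLinearMap.id_apply]
  ring

theorem memLp_V2el (D : ℝ) {f : Config3 → ℝ} {g : Config3 → Config3} (h : H1 f g) (i : Fin 3) :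
    MemLp (fun x => V2 D (elPos i x) * f x) 2 volume := by
  have h1 := memLp_el h i (nuc D)
  have h2 := memLp_el h i (nuc (-D))
  refine (h1.neg.sub h2).ae_eq (Eventually.of_forall fun x => ?_)
  simp only [V2, Pi.sub_apply, Pi.neg_apply]
  ring

theorem memLp_V2elY (D : ℝ) {f : Y2 → ℝ} {g : Y2 → Y2} (h : H1 f g) (i : Fin 2) :
    MemLp (fun x => V2 D (el i x) * f x) 2 volume := by
  have h1 := memLp_elY h i (nuc D)
  have h2 := memLp_elY h i (nuc (-D))
  refine (h1.neg.sub h2).ae_eq (Eventually.of_forall fun x => ?_)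
  simp only [V2, Pi.sub_apply, Pi.neg_apply]
  ring

theorem memLp_V9 (D lam : ℝ) {f : Config3 → ℝ} {g : Config3 → Config3} (h : H1 f g) :
    MemLp (fun x => V9 D lam x * f x) 2 volume := by
  have h0 := memLp_V2el D h 0
  have h1 := memLp_V2el D h 1
  have h2 := memLp_V2el D h 2
  have h3 := (memLp_elel h (i := 0) (j := 1) (by decide)).const_mul lam
  have h4 := (memLp_elel h (i := 0) (j := 2) (by decide)).const_mul lam
  have h5 := (memLp_elel h (i := 1) (j := 2) (by decide)).const_mul lam
  refine (((((h0.add h1).add h2).add h3).add h4).add h5).ae_eq (Eventually.of_forall fun x => ?_)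
  simp only [V9, Pi.add_apply]
  ring

theorem memLp_Vion (D lam : ℝ) {f : Y2 → ℝ} {g : Y2 → Y2} (h : H1 f g) :
    MemLp (fun x => Vion D lam x * f x) 2 volume := by
  have h0 := memLp_V2elY D h 0
  have h1 := memLp_V2elY D h 1
  have h3 := (memLp_elelY h).const_mul lam
  refine ((h0.add h1).add h3).ae_eq (Eventually.of_forall fun x => ?_)
  simp only [Vion, Pi.add_apply]
  ring

end Crest.Agent.R335.BR
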