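import Crest.Agent.R335.BRegA

/-!
Row 335 (S0521): regularity of the density amplitude, part B: Kato's inequality for finite families
of solutions of the three-body equation (module BReg).
-/

set_option autoImplicit false
set_option linter.unusedSectionVars false

open MeasureTheory Filter Set Crest.MathPhysics.ThreeBody
open scoped ENNReal Topology ContDiff

noncomputable section
namespace Crest.Agent.R335.BR
open Crest.Agent.R335

variable {T : Type*} [Fintype T] {D lam E : ℝ}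

/-- a finite family of solutions of the three-body equation -/
structure Fam (D lam E : ℝ) (f : T → Config3 → ℝ) (g : T → Config3 → Config3) : Prop where
  h1 : ∀ s, H1 (f s) (g s)
  eq : ∀ s k dk, H1 k dk → q3 D lam (f s) (g s) k dk = E * ∫ x, f s x * k x

/-- amplitude of the family -/
def amp (f : T → Config3 → ℝ) (X : Pos3) : ℝ := √(∑ s, ∫ ξ, f s (jn p9 X ξ) ^ 2)

theorem elPos_zero_jn (X : Pos3) (ξ : Y2) : elPos 0 (jn p9 X ξ) = X := by
  ext c; simp [elPos, p9]

theorem elPos_one_jn (X : Pos3) (ξ : Y2) : elPos 1 (jn p9 X ξ) = el 0 ξ := by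
  ext c
  show (jn p9 X ξ) (1, c) = ξ (0, c)
  rfl

theorem elPos_two_jn (X : Pos3) (ξ : Y2) : elPos 2 (jn p9 X ξ) = el 1 ξ := by
  ext c
  show (jn p9 X ξ) (2, c) = ξ (1, c)
  rfl

theorem V9_jn (D lam : ℝ) (X : Pos3) (ξ : Y2) :
    V9 D lam (jn p9 X ξ) = V2 D X + Vion D lam ξ + lam * WX X ξ := by
  unfold V9 Vion WX
  rw [elPos_zero_jn, elPos_one_jn, elPos_two_jn]
  ring

theorem WX_nonneg (X : Pos3) (ξ : Y2) : 0 ≤ WX X ξ := by unfold WX; positivity

theorem integrable_V9_mul (D lam : ℝ) {f k : Config3 → ℝ} {g : Config3 → Config3} (h : H1 f g)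
    (hk : MemLp k 2 volume) : Integrable (fun x => V9 D lam x * f x * k x) :=
  (memLp_V9 D lam h).integrable_mul hk

theorem integrable_V9_sq (D lam e : ℝ) {f : Config3 → ℝ} {g : Config3 → Config3} (h : H1 f g) :
    Integrable (fun x => (V9 D lam x - e) * f x ^ 2) := by
  have h1 := integrable_V9_mul D lam h h.memf
  have h2 := (h.memf.integrable_sq).const_mul e
  refine (h1.sub h2).congr (Eventually.of_forall fun x => ?_)
  simp only [Pi.sub_apply]
  ring

theorem Fam.el {f : T → Config3 → ℝ} {g : T → Config3 → Config3} (hF : Fam D lam E f g) (s : T)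
    {k : Config3 → ℝ} {dk : Config3 → Config3} (hk : H1 k dk) :
    (1 / 2) * (∫ x, inner ℝ (g s x) (dk x)) + ∫ x, (V9 D lam x - E) * f s x * k x = 0 := by
  have h := hF.eq s k dk hk
  unfold q3 at h
  have h1 := integrable_V9_mul D lam (hF.h1 s) hk.memf
  have h2 : Integrable (fun x => f s x * k x) := (hF.h1 s).memf.integrable_mul hk.memf
  have h3 : ∫ x, (V9 D lam x - E) * f s x * k x =
      (∫ x, V9 D lam x * f s x * k x) - E * ∫ x, f s x * k x := by
    rw [← integral_const_mul, ← integral_sub h1 (h2.const_mul E)]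
    exact integral_congr_ae (Eventually.of_forall fun x => by ring)
  rw [h3]
  linarith

/-- fibre energies are bounded below -/
theorem fibre_low {e0 : ℝ} (hl : 0 ≤ lam)
    (hlow : ∀ k dk, H1 k dk → e0 * (∫ ξ, k ξ ^ 2) ≤ k2 D lam k dk k dk)
    {f : Config3 → ℝ} {g : Config3 → Config3} (h : H1 f g) :
    ∀ᵐ X : Pos3, (e0 - E + V2 D X) * (∫ ξ, f (jn p9 X ξ) ^ 2) ≤
      (1 / 2) * (∫ ξ, ‖pr2 p9 (g (jn p9 X ξ))‖ ^ 2) +
        ∫ ξ, (V9 D lam (jn p9 X ξ) - E) * f (jn p9 X ξ) ^ 2 := by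
  filter_upwards [H1.slice_right p9 h, HS.ae_integrable_slice p9 (integrable_V9_sq D lam E h)]
    with X hX hI
  have h1 := hlow _ _ hX
  unfold k2 at h1
  have hV : Integrable (fun ξ => Vion D lam ξ * f (jn p9 X ξ) * f (jn p9 X ξ)) :=
    (memLp_Vion D lam hX).integrable_mul hX.memf
  have h2 : Integrable (fun ξ => f (jn p9 X ξ) ^ 2) := hX.memf.integrable_sq
  have h3 : (V2 D X - E) * (∫ ξ, f (jn p9 X ξ) ^ 2) +
      ∫ ξ, Vion D lam ξ * f (jn p9 X ξ) * f (jn p9 X ξ) ≤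
      ∫ ξ, (V9 D lam (jn p9 X ξ) - E) * f (jn p9 X ξ) ^ 2 := by
    rw [← integral_const_mul, ← integral_add (h2.const_mul _) hV]
    refine integral_mono ((h2.const_mul _).add hV) hI fun ξ => ?_
    simp only []
    rw [V9_jn]
    have : 0 ≤ lam * WX X ξ * f (jn p9 X ξ) ^ 2 :=
      mul_nonneg (mul_nonneg hl (WX_nonneg X ξ)) (sq_nonneg _)
    nlinarith
  have h4 : (∫ ξ, inner ℝ (pr2 p9 (g (jn p9 X ξ))) (pr2 p9 (g (jn p9 X ξ)))) =
      ∫ ξ, ‖pr2 p9 (g (jn p9 X ξ))‖ ^ 2 :=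
    integral_congr_ae (Eventually.of_forall fun ξ => real_inner_self_eq_norm_sq _)
  rw [h4] at h1
  nlinarith

theorem amp_sq (f : T → Config3 → ℝ) (X : Pos3) :
    amp f X ^ 2 = ∑ s, ∫ ξ, f s (jn p9 X ξ) ^ 2 :=
  Real.sq_sqrt (Finset.sum_nonneg fun s _ => integral_nonneg fun ξ => sq_nonneg _)

theorem amp_nonneg (f : T → Config3 → ℝ) (X : Pos3) : 0 ≤ amp f X := Real.sqrt_nonneg _

/-- `-½Δ s + (e₀ - E + V2) s ≤ 0` -/
theorem kato_fam {e0 : ℝ} (hl : 0 ≤ lam)
    (hlow : ∀ k dk, H1 k dk → e0 * (∫ ξ, k ξ ^ 2) ≤ k2 D lam k dk k dk)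
    {f : T → Config3 → ℝ} {g : T → Config3 → Config3} (hF : Fam D lam E f g)
    {m : Pos3 → Pos3} (hm : H1 (amp f) m) :
    WLe univ (amp f) m (fun x => e0 - E + V2 D x) (fun _ => 0) := by
  have hL : LocallyIntegrableOn (fun x => (e0 - E + V2 D x) * amp f x) univ volume := by
    have h1 : LocallyIntegrable (fun x => (e0 - E) * amp f x + V2 D x * amp f x) volume :=
      ((hm.memf.const_mul _).locallyIntegrable (by norm_num)).add
        ((memLp_V2 D hm).locallyIntegrable (by norm_num))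
    rw [locallyIntegrableOn_univ]
    refine h1.congr (Eventually.of_forall fun x => by ring)
  refine ⟨hL, ?_, ?_⟩
  · rw [locallyIntegrableOn_univ]
    exact locallyIntegrable_const 0
  · intro φ hφ hφ0
    have hEL : ∀ (k : Pos3 → ℝ) (l : Pos3 → Pos3) (C : ℝ),
      WG univ k l → (∀ x, |k x| ≤ C) → (∀ s, H1 (fun X => k (pr1 p9 X) * f s X)
        (fun X => k (pr1 p9 X) • g s X + f s X • jn p9 (l (pr1 p9 X)) 0)) →
        (∀ x, x ∉ (univ : Set Pos3) → k x = 0) →
      (1 / 2) * (∑ s, ∫ X, inner ℝ (g s X)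
          (k (pr1 p9 X) • g s X + f s X • jn p9 (l (pr1 p9 X)) 0)) +
        ∑ s, ∫ X, (V9 D lam X - E) * k (pr1 p9 X) * f s X ^ 2 = 0 := by
      intro k l C _ _ hk _
      rw [Finset.mul_sum, ← Finset.sum_add_distrib]
      refine Finset.sum_eq_zero fun s _ => ?_
      have := hF.el s (hk s)
      rw [← this]
      congr 1
      exact integral_congr_ae (Eventually.of_forall fun x => by ring)
    have ha : ∀ᵐ x ∂(volume.restrict (univ : Set Pos3)), (e0 - E + V2 D x) * amp f x ^ 2 ≤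
      (1 / 2) * (∑ s, ∫ y, ‖pr2 p9 (g s (jn p9 x y))‖ ^ 2) + ∑ s, ∫ y,
        (V9 D lam (jn p9 x y) - E) * f s (jn p9 x y) ^ 2 := by
      rw [Measure.restrict_univ]
      have hall : ∀ᵐ X : Pos3, ∀ s, (e0 - E + V2 D X) * (∫ ξ, f s (jn p9 X ξ) ^ 2) ≤
          (1 / 2) * (∫ ξ, ‖pr2 p9 (g s (jn p9 X ξ))‖ ^ 2) +
            ∫ ξ, (V9 D lam (jn p9 X ξ) - E) * f s (jn p9 X ξ) ^ 2 :=
        ae_all_iff.2 fun s => fibre_low hl hlow (hF.h1 s)
      filter_upwards [hall] with X hX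
      rw [amp_sq, Finset.mul_sum, Finset.mul_sum, ← Finset.sum_add_distrib]
      exact Finset.sum_le_sum fun s _ => hX s
    have key := kato_pnorm p9 (f := f) (g := g) hF.h1 (N := amp f) (m := m) (fun x => rfl) hm
      (W := fun _ X => V9 D lam X - E) (fun s => integrable_V9_sq D lam E (hF.h1 s))
      isOpen_univ hEL (a := fun x => e0 - E + V2 D x) hL ha hφ hφ0
    simpa using key

end Crest.Agent.R335.BR
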