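import Crest.Agent.R335.BRegB

/-!
Row 335 (S0521): regularity of the density amplitude, part C: the amplitude is bounded, the density
solves a Poisson equation with `L²` right side (module BReg).
-/

set_option autoImplicit false
set_option linter.unusedSectionVars false

open MeasureTheory Filter Set Crest.MathPhysics.ThreeBody
open scoped ENNReal Topology ContDiff

noncomputable section
namespace Crest.Agent.R335.BR
open Crest.Agent.R335

/-- subsolutions of `-½Δ + c + V2` are bounded -/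
theorem bdd_of_WLe {D c : ℝ} {s : Pos3 → ℝ} {m : Pos3 → Pos3} (hs : H1 s m)
    (h : WLe univ s m (fun x => c + V2 D x) (fun _ => 0)) : ∃ C : ℝ, ∀ᵐ x, s x ≤ C := by
  have hV := memLp_V2 D hs
  set f : Pos3 → ℝ := fun x => (1 - 2 * c) * s x - 2 * (V2 D x * s x) with hf
  have hfL : MemLp f 2 volume := (hs.memf.const_mul (1 - 2 * c)).sub (hV.const_mul 2)
  have hk : (0 : ℝ) < 1 := one_pos
  have hcomp := Yuk_comparison hk hfL hs (fun φ hφ hφ0 => by
    have h1 := h.le φ hφ hφ0
    have hφ2 : MemLp φ 2 volume := HS.test_memLp hφ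
    have i1 : Integrable (fun x => s x * φ x) := hs.memf.integrable_mul hφ2
    have i2 : Integrable (fun x => V2 D x * s x * φ x) := hV.integrable_mul hφ2
    have e1 : ∫ x, (c + V2 D x) * s x * φ x = c * (∫ x, s x * φ x) + ∫ x, V2 D x * s x * φ x := by
      rw [← integral_const_mul, ← integral_add (i1.const_mul c) i2]
      exact integral_congr_ae (Eventually.of_forall fun x => by ring)
    have e2 : ∫ x, f x * φ x = (1 - 2 * c) * (∫ x, s x * φ x) - 2 * ∫ x, V2 D x * s x * φ x := by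
      rw [← integral_const_mul, ← integral_const_mul, ← integral_sub (i1.const_mul _)
        (i2.const_mul 2)]
      exact integral_congr_ae (Eventually.of_forall fun x => by simp only [hf]; ring)
    rw [e2]
    rw [e1] at h1
    simp only [zero_mul, integral_zero] at h1
    linarith)
  obtain ⟨_, hb, _, _⟩ := YukC_solves hk hfL
  refine ⟨(∫ y, Yuk 1 y ^ 2) ^ (1 / 2 : ℝ) * (∫ y, f y ^ 2) ^ (1 / 2 : ℝ), ?_⟩
  filter_upwards [hcomp] with x hx
  exact hx.trans ((le_abs_self _).trans (hb x))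

variable {T : Type*} [Fintype T] {D lam E : ℝ} {f : T → Config3 → ℝ} {g : T → Config3 → Config3}

/-- all first derivatives of solutions are in `H¹` -/
theorem Fam.H2 (hF : Fam D lam E f g) (s : T) :
    ∃ H : Fin 3 × Fin 3 → Config3 → Config3, ∀ i, H1 (fun x => g s x i) (H i) := by
  have hq : MemLp (fun x => 2 * E * f s x - 2 * (V9 D lam x * f s x)) 2 volume :=
    ((hF.h1 s).memf.const_mul (2 * E)).sub ((memLp_V9 D lam (hF.h1 s)).const_mul 2)
  obtain ⟨H, hH, _⟩ := H2_of_weak (hF.h1 s) hq (fun φ hφ => by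
    have h := hF.el s (H1.of_test hφ)
    have hφ2 : MemLp φ 2 volume := HS.test_memLp hφ
    have i1 : Integrable (fun x => f s x * φ x) := (hF.h1 s).memf.integrable_mul hφ2
    have i2 : Integrable (fun x => V9 D lam x * f s x * φ x) :=
      (memLp_V9 D lam (hF.h1 s)).integrable_mul hφ2
    have e1 : ∫ x, (V9 D lam x - E) * f s x * φ x =
        (∫ x, V9 D lam x * f s x * φ x) - E * ∫ x, f s x * φ x := by
      rw [← integral_const_mul, ← integral_sub i2 (i1.const_mul E)]
      exact integral_congr_ae (Eventually.of_forall fun x => by ring)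
    have e2 : ∫ x, (2 * E * f s x - 2 * (V9 D lam x * f s x)) * φ x =
        2 * E * (∫ x, f s x * φ x) - 2 * ∫ x, V9 D lam x * f s x * φ x := by
      rw [← integral_const_mul, ← integral_const_mul, ← integral_sub (i1.const_mul _)
        (i2.const_mul 2)]
      exact integral_congr_ae (Eventually.of_forall fun x => by ring)
    rw [e2]
    rw [e1] at h
    linarith)
  exact ⟨H, hH⟩

/-- square of the gradient of the family -/
def gsq (g : T → Config3 → Config3) (X : Pos3) : ℝ := ∑ s, ∫ ξ, ‖g s (jn p9 X ξ)‖ ^ 2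

/-- potential energy density of the family -/
def vsq (D lam E : ℝ) (f : T → Config3 → ℝ) (X : Pos3) : ℝ :=
  ∑ s, ∫ ξ, (V9 D lam (jn p9 X ξ) - E) * f s (jn p9 X ξ) ^ 2

theorem memLp_gsq (hF : Fam D lam E f g) : MemLp (gsq g) 2 volume := by
  choose H hH using hF.H2
  obtain ⟨m, hm, _⟩ := H1.pnorm (S := T × (Fin 3 × Fin 3)) p9
    (f := fun si x => g si.1 x si.2) (g := fun si => H si.1 si.2) (fun si => hH si.1 si.2)
  obtain ⟨C, hC, hS⟩ := sobolev6
  obtain ⟨h6, -⟩ := hS _ _ hm
  set M : Pos3 → ℝ := fun x => √(∑ si : T × (Fin 3 × Fin 3), ∫ y, g si.1 (jn p9 x y) si.2 ^ 2)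
    with hM
  have hM2 : MemLp M 2 volume := hm.memf
  have hsq : gsq g =ᵐ[volume] fun x => M x ^ 2 := by
    have hall : ∀ᵐ X : Pos3, ∀ si : T × (Fin 3 × Fin 3),
        MemLp (fun y => g si.1 (jn p9 X y) si.2) 2 volume :=
      ae_all_iff.2 fun si => MemLp.slice_right p9 (hH si.1 si.2).memf
    filter_upwards [hall] with X hX
    have h1 : M X ^ 2 = ∑ si : T × (Fin 3 × Fin 3), ∫ y, g si.1 (jn p9 X y) si.2 ^ 2 :=
      Real.sq_sqrt (Finset.sum_nonneg fun s _ => integral_nonneg fun ξ => sq_nonneg _)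
    rw [h1, Fintype.sum_prod_type]
    unfold gsq
    refine Finset.sum_congr rfl fun s _ => ?_
    rw [← integral_finsetSum _ (fun i _ => (hX (s, i)).integrable_sq)]
    refine integral_congr_ae (Eventually.of_forall fun y => ?_)
    simp only []
    rw [EuclideanSpace.norm_sq_eq]
    exact Finset.sum_congr rfl fun i _ => by rw [Real.norm_eq_abs, sq_abs]
  refine MemLp.ae_eq hsq.symm ?_
  have hmeas : AEStronglyMeasurable M volume := hM2.1
  have hm2 : AEStronglyMeasurable (fun x => M x ^ 2) volume := hmeas.pow 2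
  rw [memLp_two_iff_integrable_sq hm2]
  have h2 : Integrable (fun x => M x ^ 2) := hM2.integrable_sq
  have h6' : Integrable (fun x => ‖M x‖ ^ 6) := by
    have := h6.integrable_norm_pow (p := 6) (by norm_num)
    simpa using this
  refine (h2.add h6').mono' (hm2.pow 2) (Eventually.of_forall fun x => ?_)
  simp only [Pi.add_apply, Real.norm_eq_abs]
  have hpow : |M x| ^ 6 = (M x ^ 2) ^ 3 := by rw [← sq_abs (M x)]; ring
  rw [abs_of_nonneg (sq_nonneg _), hpow]
  set t := M x ^ 2 with ht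
  have ht0 : 0 ≤ t := sq_nonneg _
  nlinarith [mul_nonneg ht0 (sq_nonneg (t - 1)), sq_nonneg t]

theorem memLp_vsq (hF : Fam D lam E f g) {C : ℝ} (hC : ∀ᵐ X, amp f X ≤ C) :
    MemLp (vsq D lam E f) 2 volume := by
  unfold vsq
  refine memLp_finsetSum _ fun s _ => ?_
  have hVf : MemLp (fun x => (V9 D lam x - E) * f s x) 2 volume := by
    refine ((memLp_V9 D lam (hF.h1 s)).sub ((hF.h1 s).memf.const_mul E)).ae_eq
      (Eventually.of_forall fun x => ?_)
    simp only [Pi.sub_apply]
    ring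
  have hint := integrable_V9_sq D lam E (hF.h1 s)
  have hmeas : AEStronglyMeasurable
      (fun X : Pos3 => ∫ ξ, (V9 D lam (jn p9 X ξ) - E) * f s (jn p9 X ξ) ^ 2) volume :=
    (HS.integrable_slice p9 hint).1
  rw [memLp_two_iff_integrable_sq hmeas]
  have hI := (HS.integrable_slice p9 hVf.integrable_sq).const_mul (C ^ 2)
  refine hI.mono' (hmeas.pow 2) ?_
  filter_upwards [hC, MemLp.slice_right p9 hVf, MemLp.slice_right p9 (hF.h1 s).memf]
    with X hX h1 h2
  rw [Real.norm_eq_abs, abs_of_nonneg (sq_nonneg _)]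
  have hcs := HS.cs h1 h2
  have e1 : ∫ ξ, (V9 D lam (jn p9 X ξ) - E) * f s (jn p9 X ξ) ^ 2 =
      ∫ ξ, ((V9 D lam (jn p9 X ξ) - E) * f s (jn p9 X ξ)) • f s (jn p9 X ξ) :=
    integral_congr_ae (Eventually.of_forall fun ξ => by simp only [smul_eq_mul]; ring)
  rw [e1]
  have e2 : ∫ ξ, f s (jn p9 X ξ) ^ 2 ≤ C ^ 2 := by
    calc ∫ ξ, f s (jn p9 X ξ) ^ 2 ≤ ∑ s, ∫ ξ, f s (jn p9 X ξ) ^ 2 :=
          Finset.single_le_sum (f := fun s => ∫ ξ, f s (jn p9 X ξ) ^ 2)
            (fun s _ => integral_nonneg fun ξ => sq_nonneg _) (Finset.mem_univ s)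
      _ = amp f X ^ 2 := (amp_sq f X).symm
      _ ≤ C ^ 2 := by
          have := amp_nonneg f X
          nlinarith
  have e3 : ∫ ξ, ‖f s (jn p9 X ξ)‖ ^ 2 = ∫ ξ, f s (jn p9 X ξ) ^ 2 :=
    integral_congr_ae (Eventually.of_forall fun ξ => by simp)
  rw [Real.norm_eq_abs, sq_abs, e3] at hcs
  refine hcs.trans ?_
  rw [mul_comm (C ^ 2)]
  exact mul_le_mul_of_nonneg_left e2 (integral_nonneg fun ξ => sq_nonneg _)

end Crest.Agent.R335.BR
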