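import Crest.Agent.R335.BRegC

/-!
Row 335 (S0521): regularity of the density amplitude, part D: the density has a continuous
bounded representative (module BReg).
-/

set_option autoImplicit false
set_option linter.unusedSectionVars false

open MeasureTheory Filter Set Crest.MathPhysics.ThreeBody
open scoped ENNReal Topology ContDiff

noncomputable section
namespace Crest.Agent.R335.BR
open Crest.Agent.R335

section general
variable {ι κ κ' : Type*} [Fintype ι] [DecidableEq ι] [Fintype κ] [DecidableEq κ]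
  [Fintype κ'] [DecidableEq κ']

theorem inner_jn_zero (p : ι ≃ κ ⊕ κ') (v : EuclideanSpace ℝ ι) (a : EuclideanSpace ℝ κ) :
    inner ℝ v (jn p a 0) = inner ℝ (pr1 p v) a := by
  rw [PiLp.inner_apply, PiLp.inner_apply, ← Equiv.sum_comp p.symm, Fintype.sum_sum_type]
  simp [jn_apply]

/-- square of a bounded `H¹` function -/
theorem H1_sq {s : EuclideanSpace ℝ ι → ℝ} {m : EuclideanSpace ℝ ι → EuclideanSpace ℝ ι}
    (h : H1 s m) {C : ℝ} (h0 : ∀ x, 0 ≤ s x) (hC : ∀ᵐ x, s x ≤ C) :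
    H1 (fun x => s x ^ 2) (fun x => (2 * s x) • m x) := by
  have hae : s =ᵐ[volume] fun x => min (s x) |C| := by
    filter_upwards [hC] with x hx
    rw [min_eq_left (hx.trans (le_abs_self C))]
  have h1 : H1 (fun x => min (s x) |C|) m := H1.congr h hae (ae_eq_refl _)
  have hb : ∀ x, |min (s x) (|C|)| ≤ |C| := fun x => by
    rw [abs_of_nonneg (le_min (h0 x) (abs_nonneg C))]
    exact min_le_right _ _
  have h2 := H1.mul h1 h1 hb hb
  refine H1.congr h2 ?_ ?_
  · filter_upwards [hae] with x hx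
    rw [← hx]; ring
  · filter_upwards [hae] with x hx
    rw [← hx, ← add_smul]; ring_nf

end general

variable {T : Type*} [Fintype T] {D lam E : ℝ} {f : T → Config3 → ℝ} {g : T → Config3 → Config3}

/-- the source term of the density -/
def src (D lam E : ℝ) (f : T → Config3 → ℝ) (g : T → Config3 → Config3) (X : Pos3) : ℝ :=
  -2 * gsq g X - 4 * vsq D lam E f X

/-- local energy identity -/
theorem Fam.local_energy (hF : Fam D lam E f g) (s : T) {φ : Pos3 → ℝ} (hφ : Test univ φ) :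
    ∫ X, f s X * inner ℝ (pr1 p9 (g s X)) (gr φ (pr1 p9 X)) =
      -(∫ X, φ (pr1 p9 X) * ‖g s X‖ ^ 2) -
        2 * ∫ X, φ (pr1 p9 X) * ((V9 D lam X - E) * f s X ^ 2) := by
  obtain ⟨C1, hC1⟩ := hφ.cpt.exists_bound_of_continuous hφ.smooth.continuous
  obtain ⟨C2, hC2⟩ := (hasCompactSupport_gr hφ.cpt).exists_bound_of_continuous
    (contDiff_gr hφ.smooth).continuous
  have hwg : WG univ (fun X : Config3 => φ (pr1 p9 X))
      (fun X => jn p9 (gr φ (pr1 p9 X)) 0) := WG.comp_pr1 p9 (H1.of_test hφ).wg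
  have hk := H1.mul_bdd (hF.h1 s) hwg (C := max C1 C2)
    (fun x => (hC1 _).trans (le_max_left _ _))
    (fun x => by
      have h1 := norm_sq_jn' p9 (gr φ (pr1 p9 x)) (0 : Y2)
      rw [norm_zero] at h1
      have h2 : ‖jn p9 (gr φ (pr1 p9 x)) (0 : Y2)‖ = ‖gr φ (pr1 p9 x)‖ := by
        have : ‖jn p9 (gr φ (pr1 p9 x)) (0 : Y2)‖ ^ 2 = ‖gr φ (pr1 p9 x)‖ ^ 2 := by
          rw [h1]; ring
        exact (pow_left_inj₀ (norm_nonneg _) (norm_nonneg _) two_ne_zero).1 this
      rw [h2]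
      exact (hC2 _).trans (le_max_right _ _))
  have hel := hF.el s hk
  have hg2 : Integrable (fun X => ‖g s X‖ ^ 2) := HS.integrable_norm_sq (hF.h1 s).memg
  have hφm : AEStronglyMeasurable (fun X : Config3 => φ (pr1 p9 X)) volume :=
    (hφ.smooth.continuous.comp (continuous_pr1 p9)).aestronglyMeasurable
  have i1 : Integrable (fun X => φ (pr1 p9 X) * ‖g s X‖ ^ 2) :=
    hg2.bdd_mul (c := C1) hφm (Eventually.of_forall fun X => hC1 _)
  have i2 : Integrable (fun X => φ (pr1 p9 X) * ((V9 D lam X - E) * f s X ^ 2)) :=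
    (integrable_V9_sq D lam E (hF.h1 s)).bdd_mul (c := C1) hφm (Eventually.of_forall fun X => hC1 _)
  have hgrm : AEStronglyMeasurable (fun X : Config3 => gr φ (pr1 p9 X)) volume :=
    ((contDiff_gr hφ.smooth).continuous.comp (continuous_pr1 p9)).aestronglyMeasurable
  have hpg : MemLp (fun X => pr1 p9 (g s X)) 2 volume := memLp_pr1 p9 (hF.h1 s).memg
  have i3 : Integrable (fun X => f s X * inner ℝ (pr1 p9 (g s X)) (gr φ (pr1 p9 X))) := by
    have i30 : Integrable (fun X => ‖f s X‖ * ‖pr1 p9 (g s X)‖) :=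
      (hF.h1 s).memf.norm.integrable_mul hpg.norm
    refine (i30.const_mul C2).mono' ((hF.h1 s).memf.1.mul (hpg.1.inner hgrm))
      (Eventually.of_forall fun X => ?_)
    rw [norm_mul]
    calc ‖f s X‖ * ‖inner ℝ (pr1 p9 (g s X)) (gr φ (pr1 p9 X))‖
        ≤ ‖f s X‖ * (‖pr1 p9 (g s X)‖ * ‖gr φ (pr1 p9 X)‖) :=
          mul_le_mul_of_nonneg_left (norm_inner_le_norm _ _) (norm_nonneg _)
      _ ≤ ‖f s X‖ * (‖pr1 p9 (g s X)‖ * C2) := by gcongr; exact hC2 _
      _ = C2 * (‖f s X‖ * ‖pr1 p9 (g s X)‖) := by ring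
  have e1 : ∫ X, inner ℝ (g s X) (φ (pr1 p9 X) • g s X + f s X • jn p9 (gr φ (pr1 p9 X)) 0) =
      (∫ X, φ (pr1 p9 X) * ‖g s X‖ ^ 2) +
        ∫ X, f s X * inner ℝ (pr1 p9 (g s X)) (gr φ (pr1 p9 X)) := by
    rw [← integral_add i1 i3]
    refine integral_congr_ae (Eventually.of_forall fun X => ?_)
    simp only []
    rw [inner_add_right, inner_smul_right, inner_smul_right, real_inner_self_eq_norm_sq,
      inner_jn_zero]
  have e2 : ∫ X, (V9 D lam X - E) * f s X * (φ (pr1 p9 X) * f s X) =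
      ∫ X, φ (pr1 p9 X) * ((V9 D lam X - E) * f s X ^ 2) :=
    integral_congr_ae (Eventually.of_forall fun X => by ring)
  rw [e1, e2] at hel
  linarith

/-- weak equation of the density -/
theorem Fam.density_eq (hF : Fam D lam E f g) {m : Pos3 → Pos3}
    (hm : ∀ᵐ x, amp f x • m x = ∑ s, ∫ y, f s (jn p9 x y) • pr1 p9 (g s (jn p9 x y)))
    {φ : Pos3 → ℝ} (hφ : Test univ φ) :
    ∫ x, inner ℝ ((2 * amp f x) • m x) (gr φ x) = ∫ x, src D lam E f g x * φ x := by
  obtain ⟨C1, hC1⟩ := hφ.cpt.exists_bound_of_continuous hφ.smooth.continuous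
  obtain ⟨C2, hC2⟩ := (hasCompactSupport_gr hφ.cpt).exists_bound_of_continuous
    (contDiff_gr hφ.smooth).continuous
  have hφm : AEStronglyMeasurable (fun X : Config3 => φ (pr1 p9 X)) volume :=
    (hφ.smooth.continuous.comp (continuous_pr1 p9)).aestronglyMeasurable
  have hgrm : AEStronglyMeasurable (fun X : Config3 => gr φ (pr1 p9 X)) volume :=
    ((contDiff_gr hφ.smooth).continuous.comp (continuous_pr1 p9)).aestronglyMeasurable
  have i1 : ∀ s, Integrable (fun X => φ (pr1 p9 X) * ‖g s X‖ ^ 2) := fun s =>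
    (HS.integrable_norm_sq (hF.h1 s).memg).bdd_mul (c := C1) hφm
      (Eventually.of_forall fun X => hC1 _)
  have i2 : ∀ s, Integrable (fun X => φ (pr1 p9 X) * ((V9 D lam X - E) * f s X ^ 2)) := fun s =>
    (integrable_V9_sq D lam E (hF.h1 s)).bdd_mul (c := C1) hφm (Eventually.of_forall fun X => hC1 _)
  have i3 : ∀ s, Integrable (fun X => f s X * inner ℝ (pr1 p9 (g s X)) (gr φ (pr1 p9 X))) := by
    intro s
    have hpg : MemLp (fun X => pr1 p9 (g s X)) 2 volume := memLp_pr1 p9 (hF.h1 s).memg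
    have i30 : Integrable (fun X => ‖f s X‖ * ‖pr1 p9 (g s X)‖) :=
      (hF.h1 s).memf.norm.integrable_mul hpg.norm
    refine (i30.const_mul C2).mono' ((hF.h1 s).memf.1.mul (hpg.1.inner hgrm))
      (Eventually.of_forall fun X => ?_)
    rw [norm_mul]
    calc ‖f s X‖ * ‖inner ℝ (pr1 p9 (g s X)) (gr φ (pr1 p9 X))‖
        ≤ ‖f s X‖ * (‖pr1 p9 (g s X)‖ * ‖gr φ (pr1 p9 X)‖) :=
          mul_le_mul_of_nonneg_left (norm_inner_le_norm _ _) (norm_nonneg _)
      _ ≤ ‖f s X‖ * (‖pr1 p9 (g s X)‖ * C2) := by gcongr; exact hC2 _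
      _ = C2 * (‖f s X‖ * ‖pr1 p9 (g s X)‖) := by ring
  -- left side
  have hsl : ∀ s, ∀ᵐ x : Pos3, Integrable (fun y => f s (jn p9 x y) • pr1 p9 (g s (jn p9 x y))) := by
    intro s
    have h1 : Integrable (fun X => f s X • pr1 p9 (g s X)) :=
      HS.integrable_smul (hF.h1 s).memf (memLp_pr1 p9 (hF.h1 s).memg)
    exact HS.ae_integrable_slice p9 h1
  have hL : ∀ᵐ x : Pos3, inner ℝ ((2 * amp f x) • m x) (gr φ x) =
      ∑ s, 2 * ∫ y, f s (jn p9 x y) *
        inner ℝ (pr1 p9 (g s (jn p9 x y))) (gr φ (pr1 p9 (jn p9 x y))) := by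
    filter_upwards [hm, ae_all_iff.2 hsl] with x hx hi
    rw [mul_smul, hx, inner_smul_left, sum_inner, Finset.mul_sum]
    refine Finset.sum_congr rfl fun s _ => ?_
    congr 1
    rw [real_inner_comm, ← integral_inner (hi s)]
    refine integral_congr_ae (Eventually.of_forall fun y => ?_)
    simp only []
    rw [inner_smul_right, pr1_jn, real_inner_comm]
  have hR : ∀ᵐ x : Pos3, src D lam E f g x * φ x =
      ∑ s, (-2 * (∫ y, φ (pr1 p9 (jn p9 x y)) * ‖g s (jn p9 x y)‖ ^ 2) -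
        4 * ∫ y, φ (pr1 p9 (jn p9 x y)) *
          ((V9 D lam (jn p9 x y) - E) * f s (jn p9 x y) ^ 2)) := by
    refine Eventually.of_forall fun x => ?_
    unfold src gsq vsq
    rw [Finset.mul_sum, Finset.mul_sum, ← Finset.sum_sub_distrib, Finset.sum_mul]
    refine Finset.sum_congr rfl fun s _ => ?_
    simp only [pr1_jn]
    rw [integral_const_mul, integral_const_mul]
    ring
  have i4 : ∀ s, Integrable (fun x : Pos3 =>
      -2 * (∫ y, φ (pr1 p9 (jn p9 x y)) * ‖g s (jn p9 x y)‖ ^ 2) -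
        4 * ∫ y, φ (pr1 p9 (jn p9 x y)) *
          ((V9 D lam (jn p9 x y) - E) * f s (jn p9 x y) ^ 2)) := fun s =>
    ((HS.integrable_slice p9 (i1 s)).const_mul (-2)).sub
      ((HS.integrable_slice p9 (i2 s)).const_mul 4)
  rw [integral_congr_ae hL, integral_congr_ae hR]
  rw [integral_finsetSum _ (fun s _ => (HS.integrable_slice p9 (i3 s)).const_mul 2),
    integral_finsetSum _ (fun s _ => i4 s)]
  refine Finset.sum_congr rfl fun s _ => ?_
  rw [integral_const_mul, integral_sub ((HS.integrable_slice p9 (i1 s)).const_mul (-2))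
      ((HS.integrable_slice p9 (i2 s)).const_mul 4), integral_const_mul, integral_const_mul]
  rw [← integral_jn p9 (i3 s), ← integral_jn p9 (i1 s), ← integral_jn p9 (i2 s),
    hF.local_energy s hφ]
  ring

/-- the amplitude of a family of solutions: `H¹`, bounded, continuous representative -/
theorem Fam.cont {e0 : ℝ} (hl : 0 ≤ lam)
    (hlow : ∀ k dk, H1 k dk → e0 * (∫ ξ, k ξ ^ 2) ≤ k2 D lam k dk k dk)
    (hF : Fam D lam E f g) : ∃ r : Pos3 → ℝ, Continuous r ∧ (∀ x, 0 ≤ r x) ∧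
      (∀ᵐ x, r x = amp f x ^ 2) ∧ (∃ C, ∀ x, r x ≤ C) ∧ ∃ m, H1 (amp f) m := by
  obtain ⟨m, hm, hmp⟩ := H1.pnorm p9 hF.h1
  change H1 (amp f) m at hm
  obtain ⟨C, hC⟩ := bdd_of_WLe hm (kato_fam hl hlow hF hm)
  have hr : H1 (fun x => amp f x ^ 2) (fun x => (2 * amp f x) • m x) :=
    H1_sq hm (amp_nonneg f) hC
  have hsrc : MemLp (src D lam E f g) 2 volume :=
    ((memLp_gsq hF).const_mul (-2)).sub ((memLp_vsq hF hC).const_mul 4)
  have hf2 : MemLp (fun x => src D lam E f g x + amp f x ^ 2) 2 volume := hsrc.add hr.memf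
  have huniq := Yuk_unique one_pos hf2 hr (fun φ hφ => by
    have hφ2 : MemLp φ 2 volume := HS.test_memLp hφ
    have j1 : Integrable (fun x => src D lam E f g x * φ x) := hsrc.integrable_mul hφ2
    have j2 : Integrable (fun x => amp f x ^ 2 * φ x) := hr.memf.integrable_mul hφ2
    rw [hF.density_eq (hmp.mono fun x hx => hx.1) hφ, one_pow, one_mul, ← integral_add j1 j2]
    exact integral_congr_ae (Eventually.of_forall fun x => by ring))
  obtain ⟨hc, hb, -, -⟩ := YukC_solves one_pos hf2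
  refine ⟨YukC 1 (fun x => src D lam E f g x + amp f x ^ 2), hc, ?_, ?_, ?_, m, hm⟩
  · -- nonnegative everywhere
    have hae : ∀ᵐ x, 0 ≤ YukC 1 (fun x => src D lam E f g x + amp f x ^ 2) x := by
      filter_upwards [huniq] with x hx
      rw [← hx]; exact sq_nonneg _
    by_contra hcon
    push Not at hcon
    obtain ⟨x0, hx0⟩ := hcon
    have hopen : IsOpen {x | YukC 1 (fun x => src D lam E f g x + amp f x ^ 2) x < 0} :=
      isOpen_lt hc continuous_const
    have hpos : 0 < volume {x | YukC 1 (fun x => src D lam E f g x + amp f x ^ 2) x < 0} :=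
      hopen.measure_pos volume ⟨x0, hx0⟩
    have hzero : volume {x | YukC 1 (fun x => src D lam E f g x + amp f x ^ 2) x < 0} = 0 := by
      rw [ae_iff] at hae
      simpa only [not_le] using hae
    exact absurd hzero hpos.ne'
  · filter_upwards [huniq] with x hx
    exact hx.symm
  · exact ⟨_, fun x => (le_abs_self _).trans (hb x)⟩

end Crest.Agent.R335.BR
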