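import Crest.Agent.R335.SGb
import Crest.Agent.R335.HHalf
import Crest.Agent.R335.BSys

/-!
Row 335 (S0521), interacting side, (3.7), part A: scalar consequences of a weak inequality
`-½Δ s + (c + V2) s ≤ f` on `ℝ³` (helper182).
-/

set_option autoImplicit false
set_option linter.unusedSectionVars false

open MeasureTheory Filter Set Crest.MathPhysics.ThreeBody
open scoped ENNReal Topology ContDiff

noncomputable section
namespace Crest.Agent.R335.BSup
open Crest.Agent.R335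

local notation "E3" => EuclideanSpace ℝ (Fin 3)

theorem rz_eq (x : Pos3) : rz x = rfl' 2 x := by
  ext i
  rw [rz_apply, rfl'_apply]

theorem integral_rz (f : Pos3 → ℝ) : ∫ x, f (rz x) = ∫ x, f x :=
  (rz.measurePreserving).integral_comp rz.toHomeomorph.measurableEmbedding f

theorem integral_odd {f : Pos3 → ℝ} (h : ∀ x, f (rz x) = - f x) : ∫ x, f x = 0 := by
  have h1 := integral_rz f
  simp only [h, integral_neg] at h1
  linarith

section OB
variable {cg C0 D : ℝ} (B : OBD cg C0 D)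

theorem orth : ∫ x, B.g x * B.u x = 0 :=
  integral_odd fun x => by rw [B.ob.g_even, B.ob.u_odd]; ring

theorem bessel {f : Pos3 → ℝ} (hf : MemLp f 2 volume) :
    (∫ x, B.g x * f x) ^ 2 + (∫ x, B.u x * f x) ^ 2 ≤ ∫ x, f x ^ 2 := by
  set a := ∫ x, B.g x * f x with ha
  set b := ∫ x, B.u x * f x with hb
  have hg := B.ob.hg.memf
  have hu := B.ob.hu.memf
  have i1 : Integrable (fun x => f x ^ 2) := memLp_two_integrable_sq hf
  have i2 : Integrable (fun x => B.g x * f x) := memLp_two_integrable_mul hg hf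
  have i3 : Integrable (fun x => B.u x * f x) := memLp_two_integrable_mul hu hf
  have i4 : Integrable (fun x => B.g x ^ 2) := memLp_two_integrable_sq hg
  have i5 : Integrable (fun x => B.u x ^ 2) := memLp_two_integrable_sq hu
  have i6 : Integrable (fun x => B.g x * B.u x) := memLp_two_integrable_mul hg hu
  have h0 : 0 ≤ ∫ x, (f x - a * B.g x - b * B.u x) ^ 2 := integral_nonneg fun x => sq_nonneg _
  have j1 : Integrable (fun x => f x ^ 2 - 2 * a * (B.g x * f x)) := i1.sub (i2.const_mul _)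
  have j2 : Integrable (fun x => f x ^ 2 - 2 * a * (B.g x * f x) - 2 * b * (B.u x * f x)) :=
    j1.sub (i3.const_mul _)
  have j3 : Integrable (fun x => f x ^ 2 - 2 * a * (B.g x * f x) - 2 * b * (B.u x * f x) +
    a ^ 2 * B.g x ^ 2) := j2.add (i4.const_mul _)
  have j4 : Integrable (fun x => f x ^ 2 - 2 * a * (B.g x * f x) - 2 * b * (B.u x * f x) +
    a ^ 2 * B.g x ^ 2 + b ^ 2 * B.u x ^ 2) := j3.add (i5.const_mul _)
  have e : ∫ x, (f x - a * B.g x - b * B.u x) ^ 2 =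
      (∫ x, f x ^ 2) - 2 * a * (∫ x, B.g x * f x) - 2 * b * (∫ x, B.u x * f x) +
        a ^ 2 * (∫ x, B.g x ^ 2) + b ^ 2 * (∫ x, B.u x ^ 2) +
        2 * a * b * ∫ x, B.g x * B.u x := by
    have e0 : (fun x => (f x - a * B.g x - b * B.u x) ^ 2) = fun x =>
        (f x ^ 2 - 2 * a * (B.g x * f x) - 2 * b * (B.u x * f x) +
        a ^ 2 * B.g x ^ 2 + b ^ 2 * B.u x ^ 2) + 2 * a * b * (B.g x * B.u x) := by
      funext x; ring
    rw [e0, integral_add j4 (i6.const_mul _), integral_add j3 (i5.const_mul _),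
      integral_add j2 (i4.const_mul _), integral_sub j1 (i3.const_mul _),
      integral_sub i1 (i2.const_mul _)]
    simp only [integral_const_mul]
  rw [e, B.ob.ng, B.ob.nu, orth B, ← ha, ← hb] at h0
  nlinarith

theorem form_ge {f : Pos3 → ℝ} {l : Pos3 → Pos3} (h : H1 f l) :
    B.eg * (∫ x, f x ^ 2) ≤ Q2 D f l := by
  have h1 := B.ob.gap f l h
  have h2 := bessel B h.memf
  have h3 := B.ob.eg_lt
  have h4 := B.ob.eu_lt
  have h5 : 0 ≤ (∫ x, B.u x * f x) ^ 2 := sq_nonneg _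
  have h6 : 0 ≤ (B.eu - B.eg) * (∫ x, B.u x * f x) ^ 2 := mul_nonneg (by linarith) h5
  have h7 : 0 ≤ ((-(1 / 2) + cg) - B.eg) * ((∫ x, f x ^ 2) - (∫ x, B.g x * f x) ^ 2 -
      (∫ x, B.u x * f x) ^ 2) := mul_nonneg (by linarith) (by linarith)
  nlinarith

theorem form_ge_odd {f : Pos3 → ℝ} {l : Pos3 → Pos3} (h : H1 f l)
    (hodd : ∀ x, f (rz x) = - f x) : B.eu * (∫ x, f x ^ 2) ≤ Q2 D f l := by
  have h1 := B.ob.gap f l h
  have h2 := bessel B h.memf
  have h3 := B.ob.eg_lt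
  have h4 := B.ob.eu_lt
  have h0 : ∫ x, B.g x * f x = 0 :=
    integral_odd fun x => by rw [B.ob.g_even, hodd]; ring
  rw [h0] at h1 h2
  have h7 : 0 ≤ ((-(1 / 2) + cg) - B.eu) * ((∫ x, f x ^ 2) -
      (∫ x, B.u x * f x) ^ 2) := mul_nonneg (by linarith) (by nlinarith)
  nlinarith

/-- Dirichlet functions of the half space -/
theorem form_ge_half {f : Pos3 → ℝ} {l : Pos3 → Pos3}
    (h : H10 {x : E3 | 0 < x 2} (fun x => if 0 < x 2 then f x else 0)
      (fun x => if 0 < x 2 then l x else 0)) :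
    B.eu * (∫ x, (if 0 < x 2 then f x else 0) ^ 2) ≤
      Q2 D (fun x => if 0 < x 2 then f x else 0) (fun x => if 0 < x 2 then l x else 0) := by
  set F : E3 → ℝ := fun x => if 0 < x 2 then f x else 0 with hF
  set G : E3 → E3 := fun x => if 0 < x 2 then l x else 0 with hG
  have hodd := H1.odd_ext 2 h
  have h2 : ∀ x : E3, rfl' 2 x 2 = - x 2 := fun x => by simp
  have hdis : ∀ x : E3, F x = 0 ∨ F (rfl' 2 x) = 0 := by
    intro x
    by_cases hx : 0 < x 2
    · right; simp only [hF, h2]; rw [if_neg (by linarith)]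
    · left; simp only [hF]; rw [if_neg hx]
  have hdis' : ∀ x : E3, G x = 0 ∨ G (rfl' 2 x) = 0 := by
    intro x
    by_cases hx : 0 < x 2
    · right; simp only [hG, h2]; rw [if_neg (by linarith)]
    · left; simp only [hG]; rw [if_neg hx]
  have h3 := form_ge_odd B hodd (fun x => by
    rw [rz_eq, rfl'_rfl']; ring)
  have hFm := h.h1.memf
  have hGm := h.h1.memg
  have i1 : Integrable (fun x => F x ^ 2) := memLp_two_integrable_sq hFm
  have i2 : Integrable (fun x => ‖G x‖ ^ 2) := memLp_two_integrable_norm_sq hGm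
  have i3 : Integrable (fun x => V2 D x * F x ^ 2) := V2_integrable_sq D h.h1
  have e1 : ∫ x, (F x - F (rfl' 2 x)) ^ 2 = 2 * ∫ x, F x ^ 2 := by
    have : ∀ x, (F x - F (rfl' 2 x)) ^ 2 = F x ^ 2 + F (rfl' 2 x) ^ 2 := by
      intro x
      rcases hdis x with h | h <;> rw [h] <;> ring
    simp only [this]
    have j : Integrable (fun x => F (rfl' 2 x) ^ 2) :=
      (measurePreserving_rfl' 2).integrable_comp_of_integrable i1
    rw [integral_add i1 j, integral_rfl' 2 (fun x => F x ^ 2)]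
    ring
  have e2 : ∫ x, ‖G x - rfl' 2 (G (rfl' 2 x))‖ ^ 2 = 2 * ∫ x, ‖G x‖ ^ 2 := by
    have : ∀ x, ‖G x - rfl' 2 (G (rfl' 2 x))‖ ^ 2 = ‖G x‖ ^ 2 + ‖G (rfl' 2 x)‖ ^ 2 := by
      intro x
      rcases hdis' x with h | h
      · rw [h, zero_sub, norm_neg, norm_rfl', norm_zero]; ring
      · rw [h, rfl'_zero, sub_zero, norm_zero]; ring
    simp only [this]
    have j : Integrable (fun x => ‖G (rfl' 2 x)‖ ^ 2) :=
      (measurePreserving_rfl' 2).integrable_comp_of_integrable i2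
    rw [integral_add i2 j, integral_rfl' 2 (fun x => ‖G x‖ ^ 2)]
    ring
  have e3 : ∫ x, V2 D x * (F x - F (rfl' 2 x)) ^ 2 = 2 * ∫ x, V2 D x * F x ^ 2 := by
    have : ∀ x, V2 D x * (F x - F (rfl' 2 x)) ^ 2 =
        V2 D x * F x ^ 2 + V2 D (rfl' 2 x) * F (rfl' 2 x) ^ 2 := by
      intro x
      rw [← rz_eq x, V2_rz, rz_eq]
      rcases hdis x with h | h <;> rw [h] <;> ring
    simp only [this]
    have j : Integrable (fun x => V2 D (rfl' 2 x) * F (rfl' 2 x) ^ 2) :=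
      (measurePreserving_rfl' 2).integrable_comp_of_integrable i3
    rw [integral_add i3 j, integral_rfl' 2 (fun x => V2 D x * F x ^ 2)]
    ring
  unfold Q2 at h3 ⊢
  rw [e1, e2, e3] at h3
  linarith

end OB

/-- sup bound in an even sector -/
theorem sup_even {cg C0 D : ℝ} (B : OBD cg C0 D) {c δ : ℝ} (hc : 0 < c) (hδ : 0 < δ) 
    (hcδ : δ ≤ c + B.eg) {s f : E3 → ℝ} {ds : E3 → E3} (hs : H1 s ds) (hs0 : ∀ᵐ x, 0 ≤ s x)
    (hf : MemLp f 2 volume)
    (h : ∀ φ : E3 → ℝ, Test univ φ → (∀ x, 0 ≤ φ x) →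
      (1 / 2) * (∫ x, inner ℝ (ds x) (gr φ x)) + ∫ x, (c + V2 D x) * s x * φ x ≤
        ∫ x, f x * φ x) :
    √(∫ x, s x ^ 2) ≤ √(∫ x, f x ^ 2) / δ ∧
    ∀ᵐ x, s x ≤ yn √(2 * c) * (18 + 72 / δ) * √(∫ x, f x ^ 2) := by
  have h1 := sub_energy hs hs0 hf h
  have h2 := form_ge B hs
  have h3 := integral_mul_le hf hs.memf
  have h4 := sub_grad hc.le hs hs0 hf h
  have hs2 : 0 ≤ ∫ x, s x ^ 2 := integral_nonneg fun _ => sq_nonneg _
  set A := √(∫ x, f x ^ 2) with hA
  set S := √(∫ x, s x ^ 2) with hS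
  set T := √(∫ x, ‖ds x‖ ^ 2) with hT
  have hA0 : 0 ≤ A := Real.sqrt_nonneg _
  have hS0 : 0 ≤ S := Real.sqrt_nonneg _
  have hS2 : S ^ 2 = ∫ x, s x ^ 2 := Real.sq_sqrt hs2
  have h5 : δ * S ^ 2 ≤ A * S := by
    rw [← hS2] at h1 h2
    nlinarith [mul_le_mul_of_nonneg_right hcδ (sq_nonneg S)]
  have h6 : δ * S ≤ A := by
    rcases hS0.eq_or_lt with h | h
    · rw [← h]; simpa using hA0
    · have : (δ * S) * S ≤ A * S := by nlinarith
      exact le_of_mul_le_mul_right this h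
  have h7 : S ≤ A / δ := by rw [le_div_iff₀ hδ]; linarith
  refine ⟨h7, ?_⟩
  have hk : 0 < √(2 * c) := Real.sqrt_pos.2 (by linarith)
  have hk2 : √(2 * c) ^ 2 / 2 = c := by rw [Real.sq_sqrt (by linarith)]; ring
  have h8 := sup_of_sub (k := √(2 * c)) hk hs hf (by rw [hk2]; exact h)
  filter_upwards [h8] with x hx
  refine hx.trans ?_
  rw [mul_assoc]
  refine mul_le_mul_of_nonneg_left ?_ (yn_nonneg _)
  have h9 : (72 / δ) * A = 72 * (A / δ) := by ring
  rw [add_mul, h9]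
  linarith

/-- sup bound in an odd sector: `s` even, vanishing on the plane -/
theorem sup_odd {cg C0 D : ℝ} (B : OBD cg C0 D) {c δ : ℝ} (hc : 0 < c) (hδ : 0 < δ) 
    (hcδ : δ ≤ c + B.eu) {s f : E3 → ℝ} {ds : E3 → E3} (hs : H1 s ds) (hs0 : ∀ x, 0 ≤ s x)
    (heven : ∀ x, s (rz x) = s x)
    (hhalf : H10 {x : E3 | 0 < x 2} (fun x => if 0 < x 2 then s x else 0)
      (fun x => if 0 < x 2 then ds x else 0))
    (hf : MemLp f 2 volume)
    (h : ∀ φ : E3 → ℝ, Test univ φ → (∀ x, 0 ≤ φ x) →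
      (1 / 2) * (∫ x, inner ℝ (ds x) (gr φ x)) + ∫ x, (c + V2 D x) * s x * φ x ≤
        ∫ x, f x * φ x) :
    √(∫ x, s x ^ 2) ≤ 2 * √(∫ x, f x ^ 2) / δ ∧
    ∀ᵐ x, s x ≤ yn √(2 * c) * (18 + 144 / δ) * √(∫ x, f x ^ 2) := by
  set w : E3 → ℝ := fun x => if 0 < x 2 then s x else 0 with hw
  set l : E3 → E3 := fun x => if 0 < x 2 then ds x else 0 with hl
  have h1 := sub_test hs hf h hhalf.h1 (Eventually.of_forall fun x => by
    show 0 ≤ w x
    simp only [hw]; split_ifs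
    · exact hs0 x
    · exact le_refl _)
  have e1 : ∫ x, inner ℝ (ds x) (l x) = ∫ x, ‖l x‖ ^ 2 := by
    congr 1; funext x; simp only [hl]; split_ifs
    · exact real_inner_self_eq_norm_sq _
    · simp
  have e2 : ∀ x, s x * w x = w x ^ 2 := by
    intro x; simp only [hw]; split_ifs <;> ring
  have e3 : ∫ x, V2 D x * (s x * w x) = ∫ x, V2 D x * w x ^ 2 := by
    congr 1; funext x; rw [e2]
  have h2 := form_ge_half B hhalf
  have hsm : Integrable (fun x => s x ^ 2) := memLp_two_integrable_sq hs.memf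
  have hwm : Integrable (fun x => w x ^ 2) := memLp_two_integrable_sq hhalf.h1.memf
  -- `∫ s² = 2 ∫ w²`
  have e4 : ∫ x, s x ^ 2 = 2 * ∫ x, w x ^ 2 := by
    have h5 : ∀ᵐ x : E3, s x ^ 2 = w x ^ 2 + w (rz x) ^ 2 := by
      filter_upwards [ae_coord_ne_zero (2 : Fin 3)] with x hx
      have hr : (rz x) 2 = - x 2 := by rw [rz_eq]; simp
      simp only [hw, hr, heven]
      rcases lt_or_gt_of_ne hx with h | h
      · rw [if_neg (by linarith), if_pos (by linarith)]; ring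
      · rw [if_pos h, if_neg (by linarith)]; ring
    have j : Integrable (fun x => w (rz x) ^ 2) :=
      (rz.measurePreserving).integrable_comp_of_integrable hwm
    rw [integral_congr_ae h5, integral_add hwm j, integral_rz (fun x => w x ^ 2)]
    ring
  have h3 := integral_mul_le hf hhalf.h1.memf
  have h4 := sub_grad hc.le hs (Eventually.of_forall hs0) hf h
  simp only [e2] at h1
  rw [e1] at h1
  have hs2 : 0 ≤ ∫ x, w x ^ 2 := integral_nonneg fun _ => sq_nonneg _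
  set A := √(∫ x, f x ^ 2) with hA
  set S := √(∫ x, w x ^ 2) with hS
  set T := √(∫ x, ‖ds x‖ ^ 2) with hT
  have hA0 : 0 ≤ A := Real.sqrt_nonneg _
  have hS0 : 0 ≤ S := Real.sqrt_nonneg _
  have hS2 : S ^ 2 = ∫ x, w x ^ 2 := Real.sq_sqrt hs2
  have h5 : δ * S ^ 2 ≤ A * S := by
    unfold Q2 at h2
    rw [← hS2] at h1 h2
    nlinarith [mul_le_mul_of_nonneg_right hcδ (sq_nonneg S)]
  have h6 : δ * S ≤ A := by
    rcases hS0.eq_or_lt with h | h
    · rw [← h]; simpa using hA0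
    · have : (δ * S) * S ≤ A * S := by nlinarith
      exact le_of_mul_le_mul_right this h
  have h7 : S ≤ A / δ := by rw [le_div_iff₀ hδ]; linarith
  have h7' : √(∫ x, s x ^ 2) ≤ 2 * A / δ := by
    rw [e4, Real.sqrt_mul (by norm_num)]
    have : √2 ≤ 2 := by
      rw [Real.sqrt_le_left (by norm_num)]; norm_num
    calc √2 * √(∫ x, w x ^ 2) ≤ 2 * (A / δ) := by
          apply mul_le_mul this h7 hS0 (by norm_num)
      _ = 2 * A / δ := by ring
  refine ⟨h7', ?_⟩
  have hk : 0 < √(2 * c) := Real.sqrt_pos.2 (by linarith)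
  have hk2 : √(2 * c) ^ 2 / 2 = c := by rw [Real.sq_sqrt (by linarith)]; ring
  have h8 := sup_of_sub (k := √(2 * c)) hk hs hf (by rw [hk2]; exact h)
  filter_upwards [h8] with x hx
  refine hx.trans ?_
  rw [mul_assoc]
  refine mul_le_mul_of_nonneg_left ?_ (yn_nonneg _)
  have h9 : (144 / δ) * A = 72 * (2 * A / δ) := by ring
  rw [add_mul, h9]
  linarith

end Crest.Agent.R335.BSup
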