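import Crest.Agent.R335.BSupA
import Crest.Agent.R335.SyId
import Crest.Agent.R335.BChan
import Crest.Agent.R335.HNorm

/-!
Row 335 (S0521), interacting side, (3.7), part B: the `L²` bound of the coupling, and partial norms
of functions odd in the first electron (helper182).
-/

set_option autoImplicit false
set_option linter.unusedSectionVars false

open MeasureTheory Filter Set Crest.MathPhysics.ThreeBody
open scoped ENNReal Topology ContDiff

noncomputable section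
namespace Crest.Agent.R335.BSup
open Crest.Agent.R335

local notation "E3" => EuclideanSpace ℝ (Fin 3)

/-- the coupling norm `|W_X f(X)|` -/
def bW (f : Config3 → ℝ) (X : Pos3) : ℝ := √(∫ ξ, (WX X ξ * f (jn p9 X ξ)) ^ 2)

theorem bW_nonneg (f : Config3 → ℝ) (X : Pos3) : 0 ≤ bW f X := Real.sqrt_nonneg _

theorem bW_sq (f : Config3 → ℝ) (X : Pos3) : bW f X ^ 2 = ∫ ξ, (WX X ξ * f (jn p9 X ξ)) ^ 2 :=
  Real.sq_sqrt (integral_nonneg fun _ => sq_nonneg _)

theorem bW_memLp {f : Config3 → ℝ} {g : Config3 → Config3} (h : H1 f g) :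
    MemLp (bW f) 2 volume ∧ ∫ X, bW f X ^ 2 ≤ 16 * ∫ x, ‖g x‖ ^ 2 := by
  have h1 := Sy.memLp_W h
  have h2 : Integrable (fun x => (WX (pr1 p9 x) (pr2 p9 x) * f x) ^ 2) :=
    memLp_two_integrable_sq h1
  have h3 : Integrable (fun X : Pos3 => ∫ ξ, (WX X ξ * f (jn p9 X ξ)) ^ 2) := by
    have := Sy.int_jn_left p9 h2
    simpa only [pr1_jn, pr2_jn] using this
  have h4 : ∫ X : Pos3, ∫ ξ, (WX X ξ * f (jn p9 X ξ)) ^ 2 =
      ∫ x, (WX (pr1 p9 x) (pr2 p9 x) * f x) ^ 2 := by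
    rw [I.integral_jn p9 h2]
    simp only [pr1_jn, pr2_jn]
  have hm : AEStronglyMeasurable (bW f) volume :=
    Real.continuous_sqrt.comp_aestronglyMeasurable h3.aestronglyMeasurable
  have h5 : Integrable (fun X => bW f X ^ 2) := by
    simp only [bW_sq]; exact h3
  refine ⟨(memLp_two_iff_integrable_sq hm).2 h5, ?_⟩
  simp only [bW_sq]
  have h6 : Integrable (fun x => ‖pr2 p9 (g x)‖ ^ 2) :=
    memLp_two_integrable_norm_sq (Sy.memLp_pr2 p9 h.memg)
  have h7 : Integrable (fun X : Pos3 => ∫ ξ, ‖pr2 p9 (g (jn p9 X ξ))‖ ^ 2) :=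
    Sy.int_jn_left p9 h6
  calc ∫ X : Pos3, ∫ ξ, (WX X ξ * f (jn p9 X ξ)) ^ 2
      ≤ ∫ X : Pos3, 16 * ∫ ξ, ‖pr2 p9 (g (jn p9 X ξ))‖ ^ 2 := by
        refine integral_mono_ae h3 (h7.const_mul 16) ?_
        filter_upwards [I.H1.slice_right p9 h] with X hX
        exact Sy.int_WX_sq_le hX X
    _ = 16 * ∫ x, ‖pr2 p9 (g x)‖ ^ 2 := by
        rw [integral_const_mul, ← I.integral_jn p9 h6]
    _ ≤ 16 * ∫ x, ‖g x‖ ^ 2 := by
        refine mul_le_mul_of_nonneg_left ?_ (by norm_num)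
        refine integral_mono h6 (memLp_two_integrable_norm_sq h.memg) fun x => ?_
        exact pow_le_pow_left₀ (norm_nonneg _) (Sy.norm_pr2_le p9 _) 2

theorem bW_norm {f : Config3 → ℝ} {g : Config3 → Config3} (h : H1 f g) :
    √(∫ X, bW f X ^ 2) ≤ 4 * √(∫ x, ‖g x‖ ^ 2) := by
  have h1 := Real.sqrt_le_sqrt (bW_memLp h).2
  rw [Real.sqrt_mul (by norm_num)] at h1
  rwa [show (16 : ℝ) = 4 ^ 2 by norm_num, Real.sqrt_sq (by norm_num)] at h1

/-- reflection of the electron `0` -/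
theorem rfl_jn (X : Pos3) (ξ : Y2) : rfl' ((0 : Fin 3), (2 : Fin 3)) (jn p9 X ξ) =
    jn p9 (rz X) ξ := by
  ext ⟨i, c⟩
  rw [rfl'_apply]
  refine Fin.cases ?_ (fun j => ?_) i
  · rw [jn9_zero, jn9_zero, rz_apply]
    by_cases hc : c = 2
    · simp [hc]
    · rw [if_neg hc, if_neg]
      intro h; exact hc (Prod.ext_iff.1 h).2
  · rw [jn9_succ, jn9_succ, if_neg]
    intro h
    exact absurd (Prod.ext_iff.1 h).1 (Fin.succ_ne_zero j)

/-- partial norm of a function odd in the first electron -/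
theorem half_norm {f : Config3 → ℝ} {g : Config3 → Config3} (h : H1 f g)
    (hodd : ∀ X ξ, f (jn p9 (rz X) ξ) = - f (jn p9 X ξ)) {N : Pos3 → ℝ} {m : Pos3 → Pos3}
    (hN : ∀ X, N X = √(∫ ξ, f (jn p9 X ξ) ^ 2)) (hm : H1 N m) :
    H10 {x : E3 | 0 < x 2} (fun x => if 0 < x 2 then N x else 0)
      (fun x => if 0 < x 2 then m x else 0) := by
  have hodd9 : ∀ x, f (rfl' ((0 : Fin 3), (2 : Fin 3)) x) = - f x := by
    intro x
    have := hodd (pr1 p9 x) (pr2 p9 x)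
    rw [← rfl_jn, jn_pr] at this
    exact this
  have h1 := (H10.half_of_odd ((0 : Fin 3), (2 : Fin 3)) h (Eventually.of_forall hodd9)).h1
  obtain ⟨m9, hm9, -⟩ := H1.pnorm (S := Unit) p9 (f := fun _ x =>
    if 0 < x ((0 : Fin 3), (2 : Fin 3)) then f x else 0) (fun _ => h1)
  set N1 : Pos3 → ℝ := fun X => if 0 < X 2 then N X else 0 with hN1
  have e1 : (fun x : Pos3 => √(∑ _s : Unit, ∫ y, (if 0 < (jn p9 x y) ((0 : Fin 3), (2 : Fin 3))
      then f (jn p9 x y) else 0) ^ 2)) = N1 := by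
    funext X
    simp only [Finset.univ_unique, Finset.sum_singleton, jn9_zero, hN1]
    by_cases hX : 0 < X 2
    · simp only [if_pos hX, hN]
    · simp only [if_neg hX]
      simp
  rw [e1] at hm9
  have h2 := hm9.comp_rfl' 2
  have h3 := hm9.sub h2
  set Kf : Pos3 → ℝ := fun x => N1 x - N1 (rfl' 2 x) with hKf
  set Km : Pos3 → Pos3 := fun x => m9 x - rfl' 2 (m9 (rfl' 2 x)) with hKm
  have h3' : H1 Kf Km := h3
  have h4 := H10.half_of_odd 2 h3' (Eventually.of_forall fun x => by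
    simp only [hKf, rfl'_rfl']; ring)
  have hKN : ∀ x : Pos3, 0 < x 2 → Kf x = N x := by
    intro x hx
    have : ¬ 0 < (rfl' 2 x) 2 := by simp; linarith
    simp only [hKf, hN1]
    rw [if_pos hx, if_neg this, sub_zero]
  have hU : IsOpen {x : E3 | 0 < x 2} := isOpen_half 2
  have hae : ∀ᵐ x : E3, 0 < x 2 → Km x = m x := by
    have w1 : WG {x : E3 | 0 < x 2} Kf Km := h3'.wg.mono (subset_univ _)
    have w2 : WG {x : E3 | 0 < x 2} N m := hm.wg.mono (subset_univ _)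
    have w3 : WG {x : E3 | 0 < x 2} N Km := by
      refine w1.congr hU ?_ (ae_eq_refl _)
      rw [Filter.EventuallyEq, ae_restrict_iff' (measurableSet_half 2)]
      exact Eventually.of_forall fun x hx => hKN x hx
    have := WG.unique hU w3 w2
    rwa [Filter.EventuallyEq, ae_restrict_iff' (measurableSet_half 2)] at this
  refine h4.congr (Eventually.of_forall fun x => ?_) ?_
  · show (if 0 < x 2 then Kf x else 0) = if 0 < x 2 then N x else 0
    by_cases hx : 0 < x 2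
    · rw [if_pos hx, if_pos hx]; exact hKN x hx
    · rw [if_neg hx, if_neg hx]
  · filter_upwards [hae] with x hx
    by_cases hx' : 0 < x 2
    · simp only [if_pos hx']; exact hx hx'
    · simp only [if_neg hx']

/-- `⟨Φ, Y(X)⟩` is odd / even -/
theorem cF_rz {D lam E σ : ℝ} {Y : Config3 → ℝ} {dY : Config3 → Config3}
    (h : Chan D lam E σ Y dY) {Φ : Y2 → ℝ} {π : ℝ} (hp : ∀ ξ, Φ (rxi ξ) = π * Φ ξ) (X : Pos3) :
    cF Φ Y (rz X) = -π * cF Φ Y X := by
  unfold cF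
  have e : ∀ ξ, Φ ξ * Y (jn p9 (rz X) ξ) =
      (fun η => -π * (Φ η * Y (jn p9 X η))) (rxi ξ) := by
    intro ξ
    have h1 : Y (jn p9 (rz X) ξ) = - Y (jn p9 X (rxi ξ)) := by
      rw [← h.odd, ← jn_rz_rxi, rxi_rxi]
    have h2 : Φ ξ = π * Φ (rxi ξ) := by
      have := hp (rxi ξ); rwa [rxi_rxi] at this
    simp only
    rw [h1]
    nth_rewrite 1 [h2]
    ring
  simp only [e]
  rw [integral_isom rxi (fun η => -π * (Φ η * Y (jn p9 X η))), integral_const_mul]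

theorem cR_rz {D lam E σ : ℝ} {Y : Config3 → ℝ} {dY : Config3 → Config3}
    (h : Chan D lam E σ Y dY) {Φ : Y2 → ℝ} {π : ℝ} (hπ : π = 1 ∨ π = -1)
    (hp : ∀ ξ, Φ (rxi ξ) = π * Φ ξ) (X : Pos3) (ξ : Y2) :
    cR π Φ Y (jn p9 (rz X) ξ) = -π * cR π Φ Y (jn p9 X ξ) := by
  unfold cR
  rw [(h.part hπ).2.2.2, pr1_jn, pr2_jn, pr1_jn, pr2_jn, cF_rz h hp]
  ring

theorem wN_rz {D lam E σ : ℝ} {Y : Config3 → ℝ} {dY : Config3 → Config3}
    (h : Chan D lam E σ Y dY) {Φ : Y2 → ℝ} {π : ℝ} (hπ : π = 1 ∨ π = -1)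
    (hp : ∀ ξ, Φ (rxi ξ) = π * Φ ξ) (a : ℝ) (X : Pos3) :
    wN a (cR π Φ Y) (rz X) = wN a (cR π Φ Y) X := by
  unfold wN
  congr 1
  refine integral_congr_ae (Eventually.of_forall fun ξ => ?_)
  simp only [cR_rz h hπ hp]
  rcases hπ with h | h <;> rw [h] <;> ring

end Crest.Agent.R335.BSup
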