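import Crest.Agent.R335.Cmp1

import Crest.Agent.R335.HZero
import Crest.Agent.R335.HChain
import Crest.Agent.R335.HGlob2

/-!
Row 335 (S0521): comparison principle, the test functions `(s - b)₊` (helper543).
-/

set_option autoImplicit false
set_option linter.unusedSectionVars false
set_option linter.unusedVariables false

open MeasureTheory Filter Set
open scoped ENNReal Topology ContDiff

noncomputable section
namespace Crest.Agent.R335

variable {ι : Type*} [Fintype ι] [DecidableEq ι]

local notation "E" => EuclideanSpace ℝ ι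

theorem WG.epos {U : Set E} (hU : IsOpen U) {s b : E → ℝ} {ds db : E → E} (hs : WG U s ds)
    (hb : WG U b db) : WG U (ep s b) (dep s b ds db) := by
  have h := WG.pos hU (hs.sub hb hU)
  refine h.congr hU (Eventually.of_forall fun x => rfl) (Eventually.of_forall fun x => ?_)
  show (if 0 < s x - b x then ds x - db x else 0) = if b x < s x then ds x - db x else 0
  simp only [sub_pos]

theorem ep_eq_zero {s b : E → ℝ} {x : E} (h : s x ≤ b x) : ep s b x = 0 :=
  max_eq_right (sub_nonpos.2 h)

theorem dep_eq_zero {s b : E → ℝ} {ds db : E → E} {x : E} (h : s x ≤ b x) :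
    dep s b ds db x = 0 := if_neg (not_lt.2 h)

/-- `(s - b)₊ 1_V` is weakly differentiable on `P ⊇ V`, if it vanishes near the relative boundary -/
theorem WG.ep_rel {P V : Set E} (hP : IsOpen P) (hV : IsOpen V) (hVP : V ⊆ P) {s b : E → ℝ}
    {ds db : E → E} (hs : WG V s ds) (hb : WG V b db) {δ : ℝ} (hδ : 0 < δ)
    (hle : ∀ᵐ x, x ∈ V → Metric.infDist x (P \ V) < δ → s x ≤ b x) :
    WG P (V.indicator (ep s b)) (V.indicator (dep s b ds db)) := by
  refine WG.of_local hP fun x hx => ?_
  by_cases hxV : x ∈ V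
  · refine ⟨V, hV, hxV, (WG.epos hV hs hb).congr hV ?_ ?_⟩
    · filter_upwards [ae_restrict_mem hV.measurableSet] with y hy
      rw [indicator_of_mem hy]
    · filter_upwards [ae_restrict_mem hV.measurableSet] with y hy
      rw [indicator_of_mem hy]
  · have hO : IsOpen (Metric.ball x δ) := Metric.isOpen_ball
    have h0 : WG (Metric.ball x δ) (fun _ : E => (0 : ℝ)) (fun _ => (0 : E)) := by
      refine ⟨?_, ?_, fun φ _ i => by simp⟩
      · exact (integrable_zero _ _ _).integrableOn.locallyIntegrableOn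
      · exact (integrable_zero _ _ _).integrableOn.locallyIntegrableOn
    have hkey : ∀ᵐ y ∂(volume.restrict (Metric.ball x δ)), y ∈ V → s y ≤ b y := by
      rw [ae_restrict_iff' hO.measurableSet]
      filter_upwards [hle] with y hy hyb hyV
      refine hy hyV (lt_of_le_of_lt (Metric.infDist_le_dist_of_mem (⟨hx, hxV⟩ : x ∈ P \ V)) hyb)
    refine ⟨Metric.ball x δ, hO, Metric.mem_ball_self hδ, h0.congr hO ?_ ?_⟩
    · filter_upwards [hkey] with y hy
      by_cases hyV : y ∈ V
      · rw [indicator_of_mem hyV, ep_eq_zero (hy hyV)]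
      · rw [indicator_of_notMem hyV]
    · filter_upwards [hkey] with y hy
      by_cases hyV : y ∈ V
      · rw [indicator_of_mem hyV, dep_eq_zero (hy hyV)]
      · rw [indicator_of_notMem hyV]

/-- (A) exterior problems: `(s - b)₊ 1_U ∈ H¹₀(U)` if `s ≤ b` near the boundary -/
theorem H10.ep_ext {U : Set E} (hU : IsOpen U) {s b : E → ℝ} {ds db : E → E}
    (hs : WG U s ds) (hb : WG U b db) (hs2 : MemLp s 2 (volume.restrict U))
    (hb2 : MemLp b 2 (volume.restrict U)) (hds : MemLp ds 2 (volume.restrict U))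
    (hdb : MemLp db 2 (volume.restrict U)) {δ : ℝ} (hδ : 0 < δ)
    (hle : ∀ᵐ x, x ∈ U → Metric.infDist x Uᶜ < δ → s x ≤ b x) :
    H10 U (U.indicator (ep s b)) (U.indicator (dep s b ds db)) := by
  have hc : (univ : Set E) \ U = Uᶜ := by rw [compl_eq_univ_sdiff]
  have h1 : H1 (U.indicator (ep s b)) (U.indicator (dep s b ds db)) := by
    refine ⟨?_, ?_, ?_⟩
    · rw [memLp_indicator_iff_restrict hU.measurableSet]
      exact memLp_ep hs2 hb2
    · rw [memLp_indicator_iff_restrict hU.measurableSet]
      exact memLp_dep hs2.aestronglyMeasurable.aemeasurable hb2.aestronglyMeasurable.aemeasurable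
        hds hdb
    · exact WG.ep_rel isOpen_univ hU (subset_univ _) hs hb hδ (by rw [hc]; exact hle)
  refine H10.of_vanish isOpen_univ hU (subset_univ _) (H10.of_univ h1) hδ ?_
  filter_upwards [hle] with x hx _ hx2
  rcases hx2 with hx2 | hx2
  · rw [indicator_of_notMem hx2]
  · by_cases hxU : x ∈ U
    · rw [indicator_of_mem hxU, ep_eq_zero (hx hxU (by rwa [hc] at hx2))]
    · rw [indicator_of_notMem hxU]

/-- (B) half exterior problems: `s ∈ H¹₀(P)`, `b ≥ 0` on `V ⊆ P`: `(s - b)₊ 1_V ∈ H¹₀(V)` if
`s ≤ b` near the boundary of `V` relative to `P` -/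
theorem H10.ep_half {P V : Set E} (hP : IsOpen P) (hV : IsOpen V) (hVP : V ⊆ P)
    {s b : E → ℝ} {ds db : E → E} (hs : H10 P s ds) (hb : WG V b db)
    (hb2 : MemLp b 2 (volume.restrict V)) (hdb : MemLp db 2 (volume.restrict V))
    (hb0 : ∀ᵐ x, x ∈ V → 0 ≤ b x) {δ : ℝ} (hδ : 0 < δ)
    (hle : ∀ᵐ x, x ∈ V → Metric.infDist x (P \ V) < δ → s x ≤ b x) :
    H10 V (V.indicator (ep s b)) (V.indicator (dep s b ds db)) := by
  have hsV : WG V s ds := hs.h1.wg.mono (subset_univ _)
  have hm1 : MemLp (V.indicator (ep s b)) 2 volume := by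
    rw [memLp_indicator_iff_restrict hV.measurableSet]
    exact memLp_ep (hs.h1.memf.restrict V) hb2
  have hm2 : MemLp (V.indicator (dep s b ds db)) 2 volume := by
    rw [memLp_indicator_iff_restrict hV.measurableSet]
    exact memLp_dep hs.h1.memf.aestronglyMeasurable.aemeasurable.restrict
      hb2.aestronglyMeasurable.aemeasurable (hs.h1.memg.restrict V) hdb
  have hw0 : ∀ x, 0 ≤ V.indicator (ep s b) x := fun x => indicator_nonneg
    (fun x _ => ep_nonneg _ _ _) x
  have hwP : WG P (V.indicator (ep s b)) (V.indicator (dep s b ds db)) :=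
    WG.ep_rel hP hV hVP hsV hb hδ hle
  -- `w ≤ s₊`
  have hws : ∀ᵐ x, V.indicator (ep s b) x ≤ max (s x) 0 := by
    filter_upwards [hb0] with x hx
    by_cases hxV : x ∈ V
    · rw [indicator_of_mem hxV]
      unfold ep
      exact max_le_max (by linarith [hx hxV]) le_rfl
    · rw [indicator_of_notMem hxV]
      exact le_max_right _ _
  have hsp := H10.pos hP hs
  obtain ⟨φ, hφT, hφ0, hφt⟩ := H10.approx_nonneg hP hsp (Eventually.of_forall fun x =>
    le_max_right _ _)
  -- truncations
  have hn : ∀ n, H1 (fun x => min (V.indicator (ep s b) x) (φ n x))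
      (fun x => if V.indicator (ep s b) x < φ n x then V.indicator (dep s b ds db) x
        else gr (φ n) x) := by
    intro n
    have hφ1 : H1 (φ n) (gr (φ n)) := H1.of_test (hφT n)
    have hmeas1 : AEMeasurable (V.indicator (ep s b)) volume :=
      hm1.aestronglyMeasurable.aemeasurable
    have hmeas2 : AEMeasurable (φ n) volume := hφ1.memf.aestronglyMeasurable.aemeasurable
    refine ⟨?_, ?_, ?_⟩
    · refine hm1.mono (hmeas1.min hmeas2).aestronglyMeasurable (Eventually.of_forall fun x => ?_)
      rw [Real.norm_of_nonneg (hw0 x), Real.norm_of_nonneg (le_min (hw0 x) (hφ0 n x))]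
      exact min_le_left _ _
    · have hg : MemLp (fun x => ‖V.indicator (dep s b ds db) x‖ + ‖gr (φ n) x‖) 2 volume :=
        hm2.norm.add hφ1.memg.norm
      refine hg.mono ?_ (Eventually.of_forall fun x => ?_)
      · obtain ⟨p, hp, hp'⟩ := hmeas1
        obtain ⟨q, hq, hq'⟩ := hmeas2
        have h1 : AEStronglyMeasurable ({x | p x < q x}.piecewise
            (V.indicator (dep s b ds db)) (gr (φ n))) volume :=
          AEStronglyMeasurable.piecewise (measurableSet_lt hp hq)
            hm2.aestronglyMeasurable.restrict hφ1.memg.aestronglyMeasurable.restrict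
        refine h1.congr ?_
        filter_upwards [hp', hq'] with x hx hx'
        by_cases hlt : p x < q x
        · rw [piecewise_eq_of_mem _ _ _ (show x ∈ {x | p x < q x} from hlt), hx, hx', if_pos hlt]
        · rw [piecewise_eq_of_notMem _ _ _ (show x ∉ {x | p x < q x} from hlt), hx, hx',
            if_neg hlt]
      · rw [Real.norm_of_nonneg (add_nonneg (norm_nonneg _) (norm_nonneg _))]
        split_ifs
        · exact le_add_of_nonneg_right (norm_nonneg _)
        · exact le_add_of_nonneg_left (norm_nonneg _)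
    · have h2 := WG.min hP hwP (hφ1.wg.mono (subset_univ P))
      refine h2.extend_zero hP (hφT n).cpt (hφT n).sub (fun x hx => ?_) (fun x hx => ?_)
      · rw [image_eq_zero_of_notMem_tsupport hx]
        exact min_eq_right (hw0 x)
      · rw [image_eq_zero_of_notMem_tsupport hx, if_neg (not_lt.2 (hw0 x)),
          gr_eq_zero_of_notMem' hx]
  -- convergence and bound
  have hconv : Tendsto (fun n => eLpNorm (fun x => min (V.indicator (ep s b) x) (φ n x) -
      V.indicator (ep s b) x) 2 volume) atTop (𝓝 0) := by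
    refine tendsto_of_tendsto_of_tendsto_of_le_of_le tendsto_const_nhds hφt.1
      (fun n => bot_le) (fun n => ?_)
    refine eLpNorm_mono_ae ?_
    filter_upwards [hws] with x hx
    rw [Real.norm_eq_abs, Real.norm_eq_abs]
    rcases le_total (V.indicator (ep s b) x) (φ n x) with h | h
    · rw [min_eq_left h, sub_self, abs_zero]
      exact abs_nonneg _
    · rw [min_eq_right h, abs_sub_comm, abs_of_nonneg (sub_nonneg.2 h), abs_sub_comm]
      exact (sub_le_sub_right hx _).trans (le_abs_self _)
  obtain ⟨C, hC⟩ : ∃ C : ℝ, ∀ n, ∫ x, ‖(if V.indicator (ep s b) x < φ n x then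
      V.indicator (dep s b ds db) x else gr (φ n) x : E)‖ ^ 2 ≤ C := by
    obtain ⟨C, hC⟩ := g2_bdd_of_tendsto_L2 (fun n => (H1.of_test (hφT n)).memg) hsp.h1.memg hφt.2
    refine ⟨(∫ x, ‖V.indicator (dep s b ds db) x‖ ^ 2) + C, fun n => ?_⟩
    have i1 : Integrable (fun x => ‖V.indicator (dep s b ds db) x‖ ^ 2) :=
      (memLp_two_iff_integrable_sq_norm hm2.1).1 hm2
    have i2 : Integrable (fun x => ‖gr (φ n) x‖ ^ 2) :=
      (memLp_two_iff_integrable_sq_norm (H1.of_test (hφT n)).memg.1).1
        (H1.of_test (hφT n)).memg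
    have i3 := (memLp_two_iff_integrable_sq_norm (hn n).memg.1).1 (hn n).memg
    refine le_trans (integral_mono i3 (i1.add i2) fun x => ?_) ((integral_add i1 i2).le.trans
      (add_le_add le_rfl (hC n)))
    show ‖(if V.indicator (ep s b) x < φ n x then
      V.indicator (dep s b ds db) x else gr (φ n) x : E)‖ ^ 2 ≤
        ‖V.indicator (dep s b ds db) x‖ ^ 2 + ‖gr (φ n) x‖ ^ 2
    split_ifs
    · exact le_add_of_nonneg_right (sq_nonneg _)
    · exact le_add_of_nonneg_left (sq_nonneg _)
  obtain ⟨g', hg', -⟩ := H1.of_bounded hn hm1 hconv hC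
  have hgeq : g' =ᵐ[volume] V.indicator (dep s b ds db) := by
    have h1 : g' =ᵐ[volume.restrict P] V.indicator (dep s b ds db) :=
      (hg'.wg.mono (subset_univ P)).unique hP hwP
    have h2 := WG.zero_of_level isOpen_univ hg'.wg 0
    rw [Measure.restrict_univ] at h2
    rw [EventuallyEq, ae_restrict_iff' hP.measurableSet] at h1
    filter_upwards [h1, h2] with x hx1 hx2
    by_cases hxP : x ∈ P
    · exact hx1 hxP
    · have hxV : x ∉ V := fun h => hxP (hVP h)
      rw [indicator_of_notMem hxV]
      exact hx2 (by rw [indicator_of_notMem hxV])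
  have hH1 : H1 (V.indicator (ep s b)) (V.indicator (dep s b ds db)) :=
    H1.congr hg' (EventuallyEq.refl _ _) hgeq
  have hH10 : H10 P (V.indicator (ep s b)) (V.indicator (dep s b ds db)) :=
    H10.of_le hP hsp hH1 (Eventually.of_forall hw0) hws
  refine H10.of_vanish hP hV hVP hH10 hδ ?_
  filter_upwards [hle] with x hx _ hx2
  rcases hx2 with hx2 | hx2
  · rw [indicator_of_notMem hx2]
  · by_cases hxU : x ∈ V
    · rw [indicator_of_mem hxU, ep_eq_zero (hx hxU hx2)]
    · rw [indicator_of_notMem hxU]

end Crest.Agent.R335
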