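import Crest.Agent.R335.HWeak

/-!
Row 335 (S0521): elementary `L²` inequalities written with Bochner integrals (helper947).
-/

set_option autoImplicit false
set_option linter.unusedSectionVars false

open MeasureTheory Filter Set
open scoped ENNReal Topology ContDiff

noncomputable section
namespace Crest.Agent.R335

section
variable {α : Type*} [MeasurableSpace α] {μ : Measure α}
variable {F : Type*} [NormedAddCommGroup F] [InnerProductSpace ℝ F]

theorem norm_toLp_eq_sqrt {a : α → F} (ha : MemLp a 2 μ) :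
    ‖ha.toLp a‖ = √(∫ x, ‖a x‖ ^ 2 ∂μ) := by
  rw [← norm_toLp_sq ha, Real.sqrt_sq (norm_nonneg _)]

/-- Cauchy–Schwarz, vector form -/
theorem abs_integral_inner_le {a b : α → F} (ha : MemLp a 2 μ) (hb : MemLp b 2 μ) :
    |∫ x, inner ℝ (a x) (b x) ∂μ| ≤ √(∫ x, ‖a x‖ ^ 2 ∂μ) * √(∫ x, ‖b x‖ ^ 2 ∂μ) := by
  rw [← inner_toLp ha hb, ← norm_toLp_eq_sqrt ha, ← norm_toLp_eq_sqrt hb]
  exact abs_real_inner_le_norm _ _

/-- Cauchy–Schwarz, scalar form -/
theorem abs_integral_mul_le {a b : α → ℝ} (ha : MemLp a 2 μ) (hb : MemLp b 2 μ) :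
    |∫ x, a x * b x ∂μ| ≤ √(∫ x, a x ^ 2 ∂μ) * √(∫ x, b x ^ 2 ∂μ) := by
  have h := abs_integral_inner_le ha hb
  simp only [Real.norm_eq_abs, sq_abs] at h
  have e : ∫ x, inner ℝ (a x) (b x) ∂μ = ∫ x, a x * b x ∂μ := by
    refine integral_congr_ae (Eventually.of_forall fun x => ?_)
    simp [mul_comm]
  rwa [e] at h

theorem integral_mul_le {a b : α → ℝ} (ha : MemLp a 2 μ) (hb : MemLp b 2 μ) :
    ∫ x, a x * b x ∂μ ≤ √(∫ x, a x ^ 2 ∂μ) * √(∫ x, b x ^ 2 ∂μ) :=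
  (le_abs_self _).trans (abs_integral_mul_le ha hb)

/-- Minkowski, vector form -/
theorem sqrt_integral_add_le {a b : α → F} (ha : MemLp a 2 μ) (hb : MemLp b 2 μ) :
    √(∫ x, ‖a x + b x‖ ^ 2 ∂μ) ≤ √(∫ x, ‖a x‖ ^ 2 ∂μ) + √(∫ x, ‖b x‖ ^ 2 ∂μ) := by
  have e : √(∫ x, ‖a x + b x‖ ^ 2 ∂μ) = ‖(ha.add hb).toLp (a + b)‖ := by
    rw [norm_toLp_eq_sqrt (ha.add hb)]; rfl
  rw [e, MemLp.toLp_add ha hb, ← norm_toLp_eq_sqrt ha, ← norm_toLp_eq_sqrt hb]
  exact norm_add_le _ _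

/-- Minkowski, scalar form -/
theorem sqrt_integral_add_le' {a b : α → ℝ} (ha : MemLp a 2 μ) (hb : MemLp b 2 μ) :
    √(∫ x, (a x + b x) ^ 2 ∂μ) ≤ √(∫ x, a x ^ 2 ∂μ) + √(∫ x, b x ^ 2 ∂μ) := by
  have h := sqrt_integral_add_le ha hb
  simpa only [Real.norm_eq_abs, sq_abs] using h

theorem memLp_two_integrable_sq {a : α → ℝ} (ha : MemLp a 2 μ) :
    Integrable (fun x => a x ^ 2) μ := by
  have := ha.integrable_norm_pow (by norm_num)
  simpa using this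

theorem memLp_two_integrable_norm_sq {a : α → F} (ha : MemLp a 2 μ) :
    Integrable (fun x => ‖a x‖ ^ 2) μ := by
  have := ha.integrable_norm_pow (by norm_num)
  simpa using this

theorem memLp_two_integrable_mul {a b : α → ℝ} (ha : MemLp a 2 μ) (hb : MemLp b 2 μ) :
    Integrable (fun x => a x * b x) μ := MemLp.integrable_mul ha hb

theorem rpow_half_eq_sqrt (t : ℝ) : t ^ (1 / 2 : ℝ) = √t := (Real.sqrt_eq_rpow t).symm

end

end Crest.Agent.R335
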