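import Crest.Agent.R335.HSob
import Crest.Agent.R335.XLap
import Crest.Agent.R335.Cmp2
import Crest.Agent.R335.SGl2

/-!
Row 335 (S0521), part B (helper947): the slab lemma.

`slab_sub` : `s ∈ H¹`, `s 1_{z>0} ∈ H¹₀(z>0)`, `s ≤ A` and `-½Δ s ≤ f ≤ 4A` weakly on the slab
`0 < z < 1` imply `s ≤ 20 A z` on the slab.
-/

set_option autoImplicit false
set_option linter.unusedSectionVars false

open MeasureTheory Filter Set
open scoped ENNReal Topology ContDiff

noncomputable section
namespace Crest.Agent.R335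

local notation "E3" => EuclideanSpace ℝ (Fin 3)

/-- `H¹` functions with vanishing gradient vanish -/
theorem H1.eq_zero_of_grad {f : E3 → ℝ} {g : E3 → E3} (h : H1 f g) (hg : ∫ x, ‖g x‖ ^ 2 ≤ 0) :
    f =ᵐ[volume] 0 := by
  obtain ⟨C, hC, hs⟩ := sobolev6
  obtain ⟨h1, h2⟩ := hs f g h
  have h3 : (eLpNorm f 6 volume).toReal ^ 2 ≤ 0 := h2.trans (by nlinarith)
  have h4 : (eLpNorm f 6 volume).toReal = 0 := by nlinarith [sq_nonneg (eLpNorm f 6 volume).toReal]
  have h5 : eLpNorm f 6 volume = 0 := by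
    rcases (ENNReal.toReal_eq_zero_iff _).1 h4 with h | h
    · exact h
    · exact absurd h h1.eLpNorm_ne_top
  exact (eLpNorm_eq_zero_iff h1.aestronglyMeasurable (by norm_num)).1 h5

/-- the slab -/
def SGSlab : Set E3 := {x | 0 < x 2 ∧ x 2 < 1}

/-- the cylinder over the unit disc centred at `y` -/
def Cyl (y : E3) : Set E3 := {x | 0 < x 2 ∧ x 2 < 1 ∧ (x 0 - y 0) ^ 2 + (x 1 - y 1) ^ 2 < 1}

theorem continuous_coord (i : Fin 3) : Continuous fun x : E3 => x i :=
  (EuclideanSpace.proj (𝕜 := ℝ) i).continuous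

theorem isOpen_SGSlab : IsOpen SGSlab := by
  have h1 : IsOpen {x : E3 | 0 < x 2} := isOpen_lt continuous_const (continuous_coord 2)
  have h2 : IsOpen {x : E3 | x 2 < 1} := isOpen_lt (continuous_coord 2) continuous_const
  exact h1.inter h2

theorem isOpen_Cyl (y : E3) : IsOpen (Cyl y) := by
  have h1 : IsOpen {x : E3 | 0 < x 2} := isOpen_lt continuous_const (continuous_coord 2)
  have h2 : IsOpen {x : E3 | x 2 < 1} := isOpen_lt (continuous_coord 2) continuous_const
  have h3 : IsOpen {x : E3 | (x 0 - y 0) ^ 2 + (x 1 - y 1) ^ 2 < 1} :=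
    isOpen_lt ((((continuous_coord 0).sub continuous_const).pow 2).add
      (((continuous_coord 1).sub continuous_const).pow 2)) continuous_const
  exact h1.inter (h2.inter h3)

theorem Cyl_subset (y : E3) : Cyl y ⊆ {x : E3 | 0 < x 2} := fun _ hx => hx.1

theorem Cyl_subset_SGSlab (y : E3) : Cyl y ⊆ SGSlab := fun _ hx => ⟨hx.1, hx.2.1⟩

/-- squared norm by coordinates -/
theorem norm_sq_three (x : E3) : ‖x‖ ^ 2 = x 0 ^ 2 + x 1 ^ 2 + x 2 ^ 2 := by
  rw [EuclideanSpace.norm_sq_eq, Fin.sum_univ_three]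
  simp

theorem Cyl_bounded (y : E3) : Cyl y ⊆ Metric.closedBall y (2 + |y 2|) := by
  intro x hx
  rw [mem_closedBall_iff_norm]
  have h1 : ‖x - y‖ ^ 2 ≤ (2 + |y 2|) ^ 2 := by
    rw [norm_sq_three]
    have e : ∀ i : Fin 3, (x - y) i = x i - y i := fun i => rfl
    rw [e, e, e]
    have h2 := hx.2.2
    have h3 : (x 2 - y 2) ^ 2 ≤ (1 + |y 2|) ^ 2 := by
      have h4 : |x 2 - y 2| ≤ 1 + |y 2| := by
        have h5 : |x 2| ≤ 1 := by rw [abs_of_pos hx.1]; exact hx.2.1.le
        calc |x 2 - y 2| ≤ |x 2| + |y 2| := abs_sub _ _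
          _ ≤ _ := by linarith
      calc (x 2 - y 2) ^ 2 = |x 2 - y 2| ^ 2 := (sq_abs _).symm
        _ ≤ _ := pow_le_pow_left₀ (abs_nonneg _) h4 2
    nlinarith [abs_nonneg (y 2)]
  exact abs_le_of_sq_le_sq' h1 (by positivity) |>.2

/-- the barrier -/
def bar (A : ℝ) (y x : E3) : ℝ :=
  A * (10 * (x 2 * (2 - x 2)) + 2 * ((x 0 - y 0) * (x 0 - y 0) + (x 1 - y 1) * (x 1 - y 1)))

theorem bar_jet (A : ℝ) (y : E3) (U : Set E3) (hU : IsOpen U) :
    ∃ G : E3 → E3, Continuous G ∧ Jet U (bar A y) G (fun _ => -12 * A) := by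
  have j0 : Jet U (fun x : E3 => x 0 - y 0) _ _ := (Jet.coord (0 : Fin 3)).sub hU (Jet.const (y 0))
  have j1 : Jet U (fun x : E3 => x 1 - y 1) _ _ := (Jet.coord (1 : Fin 3)).sub hU (Jet.const (y 1))
  have j2 : Jet U (fun x : E3 => 2 - x 2) _ _ := (Jet.const 2).sub hU (Jet.coord (2 : Fin 3))
  have j3 := (((((Jet.coord (2 : Fin 3)).mul hU j2).const_mul hU 10).add hU
    (((j0.mul hU j0).add hU (j1.mul hU j1)).const_mul hU 2))).const_mul hU A
  refine ⟨_, ?_, j3.of_eq (fun x _ => rfl) (fun x _ => ?_)⟩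
  · have c := continuous_coord
    have c0 := c 0
    have c1 := c 1
    have c2 := c 2
    fun_prop
  · simp only [inner_sub_left, inner_sub_right, inner_zero_left, inner_zero_right,
      EuclideanSpace.inner_single_left, PiLp.single_apply]
    simp
    ring

theorem slab_cyl {s f : E3 → ℝ} {ds : E3 → E3} {A : ℝ} (hA : 0 ≤ A) (hs : H1 s ds)
    (h10 : H10 {x : E3 | 0 < x 2} (fun x => if 0 < x 2 then s x else 0)
      (fun x => if 0 < x 2 then ds x else 0))
    (hsA : ∀ᵐ x : E3, 0 < x 2 → s x ≤ A) (hf : MemLp f 2 (volume.restrict SGSlab))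
    (hfA : ∀ᵐ x : E3, x ∈ SGSlab → f x ≤ 4 * A)
    (hsub : ∀ φ : E3 → ℝ, Test SGSlab φ → (∀ x, 0 ≤ φ x) →
      (1 / 2) * (∫ x, inner ℝ (ds x) (gr φ x)) ≤ ∫ x, f x * φ x) (y : E3) :
    ∀ᵐ x : E3, x ∈ Cyl y → s x ≤ bar A y x := by
  have hV := isOpen_Cyl y
  have hP : IsOpen {x : E3 | 0 < x 2} := isOpen_lt continuous_const (continuous_coord 2)
  obtain ⟨G, hG, hj⟩ := bar_jet A y (Cyl y) hV
  have hcb : Continuous (bar A y) := by
    unfold bar
    have c0 := continuous_coord 0
    have c1 := continuous_coord 1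
    have c2 := continuous_coord 2
    fun_prop
  have hcomp : IsCompact (Metric.closedBall y (2 + |y 2|)) := isCompact_closedBall _ _
  have hVfin : volume (Cyl y) < ⊤ := (measure_mono (Cyl_bounded y)).trans_lt hcomp.measure_lt_top
  have hfin : IsFiniteMeasure (volume.restrict (Cyl y)) := ⟨by
    rw [Measure.restrict_apply_univ]; exact hVfin⟩
  -- bounded continuous functions are in `L²` of the cylinder
  have hbdd : ∀ {F : Type} [NormedAddCommGroup F] [SecondCountableTopology F] (k : E3 → F), Continuous k →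
      MemLp k 2 (volume.restrict (Cyl y)) := by
    intro F _ _ k hk
    obtain ⟨C, hC⟩ := hcomp.exists_bound_of_continuousOn (f := k) hk.continuousOn
    refine MemLp.of_bound hk.aestronglyMeasurable C ?_
    filter_upwards [self_mem_ae_restrict hV.measurableSet] with x hx using hC x (Cyl_bounded y hx)
  have hb2 : MemLp (bar A y) 2 (volume.restrict (Cyl y)) := hbdd _ hcb
  have hG2 : MemLp G 2 (volume.restrict (Cyl y)) := hbdd _ hG
  have hb0 : ∀ x ∈ Cyl y, 0 ≤ bar A y x := by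
    intro x hx
    have h1 := hx.1
    have h2 := hx.2.1
    unfold bar
    have : 0 ≤ x 2 * (2 - x 2) := mul_nonneg h1.le (by linarith)
    exact mul_nonneg hA (by nlinarith [mul_self_nonneg (x 0 - y 0), mul_self_nonneg (x 1 - y 1)])
  have hle : ∀ᵐ x : E3, x ∈ Cyl y → Metric.infDist x ({x : E3 | 0 < x 2} \ Cyl y) < 1 / 4 →
      (fun x : E3 => if 0 < x 2 then s x else 0) x ≤ bar A y x := by
    filter_upwards [hsA] with x hx hxV hd
    have hx2 := hxV.1
    have hne : ({x : E3 | 0 < x 2} \ Cyl y).Nonempty := by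
      refine ⟨EuclideanSpace.single 2 2, ?_, ?_⟩
      · simp
      · intro h
        have := h.2.1
        norm_num at this
    obtain ⟨p, hp, hxp⟩ := (Metric.infDist_lt_iff hne).1 hd
    rw [dist_eq_norm] at hxp
    have hco : ∀ i : Fin 3, |x i - p i| < 1 / 4 := fun i =>
      lt_of_le_of_lt (by simpa using PiLp.norm_apply_le (x - p) i) hxp
    have h3 : 1 ≤ 10 * (x 2 * (2 - x 2)) + 2 * ((x 0 - y 0) * (x 0 - y 0) +
        (x 1 - y 1) * (x 1 - y 1)) := by
      have hx21 := hxV.2.1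
      by_cases hp1 : 1 ≤ p 2
      · have h4 : 3 / 4 < x 2 := by have := (abs_lt.1 (hco 2)).1; linarith
        nlinarith [mul_self_nonneg (x 0 - y 0), mul_self_nonneg (x 1 - y 1)]
      · have hp2 : 1 ≤ (p 0 - y 0) ^ 2 + (p 1 - y 1) ^ 2 := by
          by_contra hcon
          exact hp.2 ⟨hp.1, by linarith, by linarith⟩
        have h5 : (x 0 - p 0) ^ 2 + (x 1 - p 1) ^ 2 < 1 / 16 := by
          have h6 : ‖x - p‖ ^ 2 < (1 / 4) ^ 2 := pow_lt_pow_left₀ hxp (norm_nonneg _) two_ne_zero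
          rw [norm_sq_three] at h6
          have e : ∀ i : Fin 3, (x - p) i = x i - p i := fun i => rfl
          rw [e, e, e] at h6
          nlinarith [sq_nonneg (x 2 - p 2)]
        have h7 : 0 ≤ x 2 * (2 - x 2) := mul_nonneg hx2.le (by linarith)
        -- `|p - y| ≤ |x - y| + |x - p|` in the plane
        nlinarith [sq_nonneg (3 * (x 0 - p 0) + (x 0 - y 0)), sq_nonneg (3 * (x 1 - p 1) + (x 1 - y 1)),
          sq_nonneg (x 0 - p 0 + 3 * (x 0 - y 0)), sq_nonneg ((x 0 - y 0) + 2 * (x 0 - p 0)),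
          sq_nonneg ((x 1 - y 1) + 2 * (x 1 - p 1))]
    show (if 0 < x 2 then s x else 0) ≤ bar A y x
    rw [if_pos hx2]
    calc s x ≤ A := hx hx2
      _ = A * 1 := (mul_one A).symm
      _ ≤ _ := mul_le_mul_of_nonneg_left h3 hA
  have hw := H10.ep_half hP hV (Cyl_subset y) h10 (Jet.wg hV hj) hb2 hG2
    (Eventually.of_forall fun x hx => hb0 x hx) (by norm_num : (0 : ℝ) < 1 / 4) hle
  set sp : E3 → ℝ := fun x => if 0 < x 2 then s x else 0 with hsp
  set dsp : E3 → E3 := fun x => if 0 < x 2 then ds x else 0 with hdsp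
  have hfV : MemLp f 2 (volume.restrict (Cyl y)) :=
    hf.mono_measure (Measure.restrict_mono (Cyl_subset_SGSlab y) le_rfl)
  have hdsV : MemLp ds 2 (volume.restrict (Cyl y)) := hs.memg.restrict _
  have hq : MemLp (fun x => 6 * A - f x) 2 (volume.restrict (Cyl y)) :=
    (hbdd (fun _ => 6 * A) continuous_const).sub hfV
  have hGG : MemLp (fun x => (1 / 2 : ℝ) • (ds x - G x)) 2 (volume.restrict (Cyl y)) :=
    (hdsV.sub hG2).const_smul (1 / 2 : ℝ)
  have key := test_extend hV hq hGG (fun φ hφ hφ0 => ?_) hw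
    (Eventually.of_forall fun x => indicator_nonneg (fun x _ => ep_nonneg _ _ _) x)
  · -- conclusion
    have e1 : ∫ x in Cyl y, inner ℝ ((1 / 2 : ℝ) • (ds x - G x))
        ((Cyl y).indicator (dep sp (bar A y) dsp G) x) =
        (1 / 2) * ∫ x in Cyl y, ‖(Cyl y).indicator (dep sp (bar A y) dsp G) x‖ ^ 2 := by
      rw [← integral_const_mul]
      refine setIntegral_congr_fun hV.measurableSet fun x hx => ?_
      have h1 : ds x = dsp x := by simp only [hdsp]; rw [if_pos hx.1]
      show inner ℝ ((1 / 2 : ℝ) • (ds x - G x)) ((Cyl y).indicator (dep sp (bar A y) dsp G) x) =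
        (1 / 2) * ‖(Cyl y).indicator (dep sp (bar A y) dsp G) x‖ ^ 2
      rw [indicator_of_mem hx, real_inner_smul_left, h1, inner_dep]
    have e2 : 0 ≤ ∫ x in Cyl y, (6 * A - f x) * (Cyl y).indicator (ep sp (bar A y)) x := by
      refine setIntegral_nonneg_of_ae_restrict ?_
      filter_upwards [ae_restrict_of_ae hfA, self_mem_ae_restrict hV.measurableSet] with x hx hxV
      have h1 := hx (Cyl_subset_SGSlab y hxV)
      exact mul_nonneg (by linarith) (indicator_nonneg (fun x _ => ep_nonneg _ _ _) x)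
    rw [e1] at key
    have e3 : ∫ x, ‖(Cyl y).indicator (dep sp (bar A y) dsp G) x‖ ^ 2 =
        ∫ x in Cyl y, ‖(Cyl y).indicator (dep sp (bar A y) dsp G) x‖ ^ 2 := by
      symm
      refine setIntegral_eq_integral_of_forall_compl_eq_zero fun x hx => ?_
      rw [indicator_of_notMem hx]; simp
    have h0 := hw.h1.eq_zero_of_grad (by rw [e3]; linarith)
    filter_upwards [h0] with x hx hxV
    rw [indicator_of_mem hxV] at hx
    have h2 : sp x - bar A y x ≤ 0 := by
      have h3 : ep sp (bar A y) x = 0 := hx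
      unfold ep at h3
      exact (le_max_left _ _).trans h3.le
    have h4 : sp x = s x := by simp only [hsp]; rw [if_pos hxV.1]
    linarith
  · -- test functions
    have hφS : Test SGSlab φ := hφ.mono (Cyl_subset_SGSlab y)
    have h1 := hsub φ hφS hφ0
    have h2 := hj.ibp hV hφ
    have hφ1 := H1.of_test hφ
    have i1 : Integrable (fun x => inner ℝ (ds x) (gr φ x)) := XL.integrable_inner_gr hs.wg
      (hφ.mono (subset_univ _))
    have i2 : Integrable (fun x => inner ℝ (G x) (gr φ x)) := XL.integrable_inner_gr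
      (Jet.wg hV hj) hφ
    have hφc : Continuous φ := hφ.smooth.continuous
    have i3 : Integrable φ := hφc.integrable_of_hasCompactSupport hφ.cpt
    have i4 : Integrable (fun x => f x * φ x) := by
      have h5 : IntegrableOn (fun x => f x * φ x) (Cyl y) :=
        MemLp.integrable_mul hfV (hφ1.memf.restrict _)
      refine (integrableOn_iff_integrable_of_support_subset ?_).1 h5
      intro x hx
      by_contra hxV
      apply hx
      show f x * φ x = 0
      rw [XL.eq_zero hφ hxV, mul_zero]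
    have e1 : ∫ x in Cyl y, inner ℝ ((1 / 2 : ℝ) • (ds x - G x)) (gr φ x) =
        (1 / 2) * (∫ x, inner ℝ (ds x) (gr φ x)) - (1 / 2) * ∫ x, inner ℝ (G x) (gr φ x) := by
      rw [setIntegral_eq_integral_of_forall_compl_eq_zero fun x hx => by
        rw [XL.gr_eq_zero hφ hx, inner_zero_right]]
      rw [← mul_sub, ← integral_sub i1 i2, ← integral_const_mul]
      refine integral_congr_ae (Eventually.of_forall fun x => ?_)
      show inner ℝ ((1 / 2 : ℝ) • (ds x - G x)) (gr φ x) =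
        (1 / 2) * (inner ℝ (ds x) (gr φ x) - inner ℝ (G x) (gr φ x))
      rw [real_inner_smul_left, inner_sub_left]
    have e2 : ∫ x in Cyl y, (6 * A - f x) * φ x = 6 * A * (∫ x, φ x) - ∫ x, f x * φ x := by
      rw [setIntegral_eq_integral_of_forall_compl_eq_zero fun x hx => by
        rw [XL.eq_zero hφ hx, mul_zero]]
      rw [← integral_const_mul, ← integral_sub (i3.const_mul _) i4]
      refine integral_congr_ae (Eventually.of_forall fun x => ?_)
      ring
    have e3 : ∫ x, -12 * A * φ x = -12 * A * ∫ x, φ x := integral_const_mul _ _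
    rw [e3] at h2
    rw [e1, e2]
    linarith

/-- **slab lemma** -/
theorem slab_sub {s f : E3 → ℝ} {ds : E3 → E3} {A : ℝ} (hA : 0 ≤ A) (hs : H1 s ds)
    (h10 : H10 {x : E3 | 0 < x 2} (fun x => if 0 < x 2 then s x else 0)
      (fun x => if 0 < x 2 then ds x else 0))
    (hsA : ∀ᵐ x : E3, 0 < x 2 → s x ≤ A) (hf : MemLp f 2 (volume.restrict SGSlab))
    (hfA : ∀ᵐ x : E3, x ∈ SGSlab → f x ≤ 4 * A)
    (hsub : ∀ φ : E3 → ℝ, Test SGSlab φ → (∀ x, 0 ≤ φ x) →
      (1 / 2) * (∫ x, inner ℝ (ds x) (gr φ x)) ≤ ∫ x, f x * φ x) :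
    ∀ᵐ x : E3, 0 < x 2 → s x ≤ 20 * A * min 1 (x 2) := by
  have h1 : ∀ᵐ x : E3, ∀ n : ℕ, x ∈ Cyl (TopologicalSpace.denseSeq E3 n) → s x ≤ bar A (TopologicalSpace.denseSeq E3 n) x :=
    ae_all_iff.2 fun n => slab_cyl hA hs h10 hsA hf hfA hsub _
  filter_upwards [h1, hsA] with x hx hxA hx2
  by_cases hx1 : x 2 < 1
  · have hmin : min 1 (x 2) = x 2 := min_eq_right hx1.le
    rw [hmin]
    refine le_of_forall_pos_le_add fun ε hε => ?_
    -- a dense point close to `x`
    set δ : ℝ := min (1 / 2) (ε / (4 * A + 1)) with hδ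
    have hδ0 : 0 < δ := by
      have : 0 < ε / (4 * A + 1) := div_pos hε (by linarith)
      exact lt_min (by norm_num) this
    obtain ⟨n, hn⟩ := (TopologicalSpace.denseRange_denseSeq E3).exists_dist_lt x hδ0
    rw [dist_eq_norm] at hn
    set y := TopologicalSpace.denseSeq E3 n with hy
    have h2 : (x 0 - y 0) ^ 2 + (x 1 - y 1) ^ 2 ≤ ‖x - y‖ ^ 2 := by
      rw [norm_sq_three]
      have e : ∀ i : Fin 3, (x - y) i = x i - y i := fun i => rfl
      rw [e, e, e]
      nlinarith [sq_nonneg (x 2 - y 2)]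
    have h3 : ‖x - y‖ ^ 2 ≤ δ * (1 / 2) := by
      have h4 : ‖x - y‖ ≤ 1 / 2 := hn.le.trans (min_le_left _ _)
      nlinarith [norm_nonneg (x - y)]
    have h5 : x ∈ Cyl y := ⟨hx2, hx1, by
      have : δ ≤ 1 / 2 := min_le_left _ _
      linarith⟩
    have h6 := hx n h5
    have h7 : bar A y x ≤ 20 * A * x 2 + A * δ := by
      unfold bar
      have h8 : 10 * (x 2 * (2 - x 2)) + 2 * ((x 0 - y 0) * (x 0 - y 0) +
          (x 1 - y 1) * (x 1 - y 1)) ≤ 20 * x 2 + δ := by nlinarith [sq_nonneg (x 2)]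
      nlinarith [mul_le_mul_of_nonneg_left h8 hA]
    have h9 : A * δ ≤ ε := by
      have h10' : δ ≤ ε / (4 * A + 1) := min_le_right _ _
      have h11 : δ * (4 * A + 1) ≤ ε := (le_div_iff₀ (by linarith)).1 h10'
      nlinarith
    linarith
  · have hmin : min 1 (x 2) = 1 := min_eq_left (not_lt.1 hx1)
    rw [hmin]
    have := hxA hx2
    linarith

end Crest.Agent.R335
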