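import Crest.Agent.R335.SyId
import Crest.Agent.R335.KWave
import Crest.Agent.R335.BSys

/-!
Row 335 (S0521), interacting side: exponential weights of the channel functions, from `Sys.w3`
(helper732).
-/

set_option autoImplicit false
set_option linter.unusedVariables false

open MeasureTheory Filter Set Crest.MathPhysics.ThreeBody
open scoped ENNReal Topology ContDiff

noncomputable section
namespace Crest.Agent.R335.VecF

/-- `jb x₀ + jb x₁ + jb x₂` -/
def J3 (x : Config3) : ℝ := jb (elPos 0 x) + jb (elPos 1 x) + jb (elPos 2 x)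

theorem w9_eq (x : Config3) : Sy.w9 x = jb (elPos 1 x) + jb (elPos 2 x) := by
  unfold Sy.w9 wi
  rw [Sy.el0_pr2, Sy.el1_pr2]

theorem w9_perm12 (x : Config3) : Sy.w9 (permConfig (Equiv.swap 1 2) x) = Sy.w9 x := by
  rw [w9_eq, w9_eq]
  simp only [elPos_permConfig]
  rw [Equiv.swap_apply_left, Equiv.swap_apply_right, add_comm]

theorem J3_perm (σ : Equiv.Perm (Fin 3)) (x : Config3) : J3 (permConfig σ x) = J3 x := by
  have h : ∀ x : Config3, J3 x = ∑ i : Fin 3, jb (elPos i x) := fun x => by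
    rw [Fin.sum_univ_three]; rfl
  rw [h, h]
  simp only [elPos_permConfig]
  exact Equiv.sum_comp σ (fun i => jb (elPos i x))

/-- all exponential weights -/
def IsW (a : ℝ) (Y : Config3 → ℝ) : Prop :=
  ∃ d : Config3 → Config3, H1 (fun x => Real.exp (4 * a * J3 x) * Y x) d

theorem IsW.add {a : ℝ} {Y Z : Config3 → ℝ} (h : IsW a Y) (h' : IsW a Z) :
    IsW a (fun x => Y x + Z x) := by
  obtain ⟨d, hd⟩ := h
  obtain ⟨d', hd'⟩ := h'
  refine ⟨_, (Crest.Agent.R335.H1.add hd hd').congr (ae_of_all _ fun x => ?_)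
    (Filter.EventuallyEq.refl _ _)⟩
  simp only
  ring

theorem IsW.const_mul {a : ℝ} {Y : Config3 → ℝ} (h : IsW a Y) (c : ℝ) :
    IsW a (fun x => c * Y x) := by
  obtain ⟨d, hd⟩ := h
  refine ⟨_, (hd.const_mul c).congr (ae_of_all _ fun x => ?_) (Filter.EventuallyEq.refl _ _)⟩
  simp only
  ring

theorem H1_perm {f : Config3 → ℝ} {g : Config3 → Config3} (h : H1 f g)
    (σ : Equiv.Perm (Fin 3)) : ∃ d, H1 (fun x => f (permConfig σ x)) d := by
  have := Crest.Agent.R335.H1.comp_isometry h (permL σ) 0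
  simp only [add_zero, permL_apply] at this
  exact ⟨_, this⟩

theorem IsW.perm {a : ℝ} {Y : Config3 → ℝ} (h : IsW a Y) (σ : Equiv.Perm (Fin 3)) :
    IsW a (fun x => Y (permConfig σ x)) := by
  obtain ⟨d, hd⟩ := h
  obtain ⟨d', hd'⟩ := H1_perm hd σ
  refine ⟨d', ?_⟩
  simp only [J3_perm] at hd'
  exact hd'

theorem lip_elPos0 : LipschitzWith 1 (fun x : Config3 => elPos 0 x) := by
  refine LipschitzWith.of_dist_le_mul fun x y => ?_
  rw [NNReal.coe_one, one_mul, dist_eq_norm, dist_eq_norm]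
  have h : elPos 0 x - elPos 0 y = pr1 p9 (x - y) := by ext c; simp [elPos]; rfl
  rw [h]
  exact Sy.norm_pr1_le p9 _

theorem exp_neg_lip {ι : Type*} [Fintype ι] {G : EuclideanSpace ℝ ι → ℝ} {C : NNReal}
    (hG : LipschitzWith C G) (h0 : ∀ x, 0 ≤ G x) : LipschitzWith C (fun x => Real.exp (-G x)) := by
  refine LipschitzWith.of_dist_le_mul fun x y => ?_
  have h1 := hG.dist_le_mul x y
  rw [Real.dist_eq] at h1 ⊢
  refine le_trans ?_ h1
  have key : ∀ s t : ℝ, 0 ≤ s → 0 ≤ t → Real.exp (-s) - Real.exp (-t) ≤ |s - t| := by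
    intro s t hs ht
    rcases le_total s t with h | h
    · have e1 : Real.exp (-t) = Real.exp (-s) * Real.exp (-(t - s)) := by
        rw [← Real.exp_add]; congr 1; ring
      have e2 : 1 - (t - s) ≤ Real.exp (-(t - s)) := by
        have := Real.add_one_le_exp (-(t - s)); linarith
      have e3 : Real.exp (-s) ≤ 1 := Real.exp_le_one_iff.2 (by linarith)
      have e4 := Real.exp_pos (-s)
      rw [abs_of_nonpos (by linarith), e1]
      nlinarith [mul_le_mul_of_nonneg_left e2 e4.le]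
    · have e1 : Real.exp (-s) ≤ Real.exp (-t) := Real.exp_le_exp.2 (by linarith)
      have := abs_nonneg (s - t)
      linarith
  rw [abs_le]
  constructor
  · have := key (G y) (G x) (h0 y) (h0 x)
    rw [abs_sub_comm] at this
    linarith
  · exact key (G x) (G y) (h0 x) (h0 y)

/-- partial weights -/
theorem IsW.ew {a b : ℝ} (ha : 0 ≤ a) (hb : b ≤ 4 * a) {Y : Config3 → ℝ} (h : IsW a Y) :
    ∃ d, H1 (fun x => Sy.ew b x * Y x) d := by
  obtain ⟨d, hd⟩ := h
  obtain ⟨G, hG⟩ : ∃ G : Config3 → ℝ, G = fun x => (4 * a - b) * Sy.w9 x + 4 * a * jb (elPos 0 x) :=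
    ⟨_, rfl⟩
  have hab : 0 ≤ 4 * a - b := by linarith
  have hG0 : ∀ x, 0 ≤ G x := fun x => by
    rw [hG]
    have := Sy.w9_nonneg x
    have := (Sy.jb_pos (elPos 0 x)).le
    positivity
  have hGl : ∃ C, LipschitzWith C G := by
    have h1 : LipschitzWith (‖(4 * a - b)‖₊ * 2) (fun x => (4 * a - b) * Sy.w9 x) := by
      refine LipschitzWith.of_dist_le_mul fun x y => ?_
      have := Sy.w9_lip.dist_le_mul x y
      rw [Real.dist_eq] at this ⊢
      rw [← mul_sub, abs_mul, NNReal.coe_mul, coe_nnnorm, Real.norm_eq_abs, mul_assoc]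
      exact mul_le_mul_of_nonneg_left this (abs_nonneg _)
    have h2 : LipschitzWith (‖(4 * a)‖₊ * 1) (fun x : Config3 => 4 * a * jb (elPos 0 x)) := by
      refine LipschitzWith.of_dist_le_mul fun x y => ?_
      have := (Sy.jb_lip.comp lip_elPos0).dist_le_mul x y
      rw [Real.dist_eq, mul_one] at this
      rw [Real.dist_eq, ← mul_sub, abs_mul, NNReal.coe_mul, coe_nnnorm, Real.norm_eq_abs,
        mul_assoc]
      exact mul_le_mul_of_nonneg_left this (abs_nonneg _)
    rw [hG]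
    exact ⟨_, h1.add h2⟩
  obtain ⟨C, hC⟩ := hGl
  have hm := Crest.Agent.R335.WG.of_lipschitz (exp_neg_lip hC hG0)
  have h1 := Crest.Agent.R335.H1.mul_bdd (C := max 1 (C : ℝ)) hd hm.1 (fun x => ?_)
    (fun x => (hm.2 x).trans (le_max_right _ _))
  · refine ⟨_, h1.congr (ae_of_all _ fun x => ?_) (Filter.EventuallyEq.refl _ _)⟩
    simp only
    rw [← mul_assoc, ← Real.exp_add]
    unfold Sy.ew
    congr 2
    rw [hG]
    simp only
    rw [w9_eq]
    unfold J3
    ring
  · rw [abs_of_pos (Real.exp_pos _)]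
    exact (Real.exp_le_one_iff.2 (by linarith [hG0 x])).trans (le_max_left _ _)

end VecF

namespace Sys
variable {cg C0 D : ℝ} {B : OBD cg C0 D} {K lam : ℝ} (S : Sys B K lam)

theorem isW_psi : VecF.IsW B.a S.ψ := by
  obtain ⟨d, hd, -⟩ := S.w3
  exact ⟨d, hd⟩

theorem isW_YS : VecF.IsW B.a S.YS := by
  have h := (S.isW_psi.add (S.isW_psi.perm (Equiv.swap 1 2))).const_mul (1 / 2)
  refine (show (fun x => 1 / 2 * (S.ψ x + S.ψ (permConfig (Equiv.swap 1 2) x))) = S.YS from ?_) ▸ h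
  funext x
  unfold YS GS
  ring

theorem isW_YT : VecF.IsW B.a S.YT := by
  have h := (S.isW_psi.add ((S.isW_psi.perm (Equiv.swap 1 2)).const_mul (-1))).const_mul (-√2 / 2)
  refine (show (fun x => -√2 / 2 * (S.ψ x + -1 * S.ψ (permConfig (Equiv.swap 1 2) x))) = S.YT
    from ?_) ▸ h
  funext x
  unfold YT GT
  ring

theorem isW_YB : VecF.IsW B.a S.YB := S.isW_psi.perm (finRotate 3)

end Sys
end Crest.Agent.R335
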