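import Crest.Agent.R335.BSupB
import Crest.Agent.R335.SGc
import Crest.Agent.R335.VecFW

/-!
Row 335 (S0521), interacting side, (3.7), part C: weights with bounds, behaviour near the plane
(helper182).
-/

set_option autoImplicit false
set_option linter.unusedSectionVars false

open MeasureTheory Filter Set Crest.MathPhysics.ThreeBody
open scoped ENNReal Topology ContDiff

noncomputable section
namespace Crest.Agent.R335.BSup
open Crest.Agent.R335

local notation "E3" => EuclideanSpace ℝ (Fin 3)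

/-! ### near the plane -/

theorem abs_apply_le (x : Pos3) (i : Fin 3) : |x i| ≤ ‖x‖ := by
  rw [← Real.norm_eq_abs]
  exact PiLp.norm_apply_le x i

theorem neg_V2_plane {D : ℝ} (hD : 4 ≤ D) {x : Pos3} (hx : |x 2| ≤ 1) : - V2 D x ≤ 1 := by
  have h0 : ∀ a : ℝ, |a| = D → 3 ≤ ‖x - nuc a‖ := by
    intro a ha
    have h1 := abs_apply_le (x - nuc a) 2
    have h2 : (x - nuc a) 2 = x 2 - a := by simp [nuc]
    rw [h2] at h1
    have h3 : |a| - |x 2| ≤ |x 2 - a| := by
      have := abs_sub_abs_le_abs_sub a (x 2)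
      rwa [abs_sub_comm] at this
    linarith
  have h1 := h0 D (abs_of_nonneg (by linarith))
  have h2 := h0 (-D) (by rw [abs_neg]; exact abs_of_nonneg (by linarith))
  unfold V2
  have h3 : 1 / ‖x - nuc D‖ ≤ 1 / 3 := one_div_le_one_div_of_le (by norm_num) h1
  have h4 : 1 / ‖x - nuc (-D)‖ ≤ 1 / 3 := one_div_le_one_div_of_le (by norm_num) h2
  linarith

/-- linear vanishing at the plane -/
theorem plane_bound {D c : ℝ} (hD : 4 ≤ D) (hc : 0 ≤ c) {s b : E3 → ℝ} {ds : E3 → E3}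
    (hs : H1 s ds) (hs0 : ∀ x, 0 ≤ s x) (hb : MemLp b 2 volume)
    (h10 : H10 {x : E3 | 0 < x 2} (fun x => if 0 < x 2 then s x else 0)
      (fun x => if 0 < x 2 then ds x else 0))
    {M1 M2 : ℝ} (hM10 : 0 ≤ M1) (hM20 : 0 ≤ M2) (hM1 : ∀ᵐ x, s x ≤ M1)
    (hM2 : ∀ᵐ x : E3, |x 2| ≤ 1 → b x ≤ M2)
    (h : ∀ φ : E3 → ℝ, Test univ φ → (∀ x, 0 ≤ φ x) →
      (1 / 2) * (∫ x, inner ℝ (ds x) (gr φ x)) + ∫ x, (c + V2 D x) * s x * φ x ≤
        ∫ x, b x * φ x) :
    ∀ᵐ x : E3, 0 < x 2 → s x ≤ 20 * (M1 + M2) * min 1 (x 2) := by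
  have hVs := (V2_memLp D hs).1
  have hf : MemLp (fun x => b x - c * s x - V2 D x * s x) 2 volume :=
    (hb.sub (hs.memf.const_mul c)).sub hVs
  refine slab_sub (A := M1 + M2) (by linarith) hs h10 ?_
    (hf.mono_measure Measure.restrict_le_self) ?_ ?_
  · filter_upwards [hM1] with x hx _
    linarith
  · filter_upwards [hM1, hM2] with x hx hx' hS
    have h2 : |x 2| ≤ 1 := by rw [abs_of_pos hS.1]; exact hS.2.le
    have h3 := hx' h2
    have h4 := neg_V2_plane hD h2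
    have h5 := hs0 x
    nlinarith [mul_nonneg hc h5, mul_nonneg h5 (sub_nonneg.2 h4)]
  · intro φ hφ h0
    have hφ' : Test univ φ := hφ.mono (subset_univ _)
    have h1 := h φ hφ' h0
    have hφ2 : MemLp φ 2 volume := (H1.of_test hφ').memf
    have i1 : Integrable (fun x => s x * φ x) := memLp_two_integrable_mul hs.memf hφ2
    have i2 : Integrable (fun x => V2 D x * s x * φ x) := memLp_two_integrable_mul hVs hφ2
    have i3 : Integrable (fun x => b x * φ x) := memLp_two_integrable_mul hb hφ2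
    have i4 : Integrable (fun x => (c + V2 D x) * s x * φ x) := by
      refine ((i1.const_mul c).add i2).congr (Eventually.of_forall fun x => ?_)
      simp only [Pi.add_apply]; ring
    have e : ∫ x, (b x - c * s x - V2 D x * s x) * φ x =
        (∫ x, b x * φ x) - ∫ x, (c + V2 D x) * s x * φ x := by
      rw [← integral_sub i3 i4]
      congr 1; funext x; ring
    rw [e]
    linarith

/-! ### weights with bounds -/

/-- all exponential weights, with a bound -/
def IsWB (a M : ℝ) (Y : Config3 → ℝ) : Prop :=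
  ∃ d : Config3 → Config3, H1 (fun x => Real.exp (4 * a * VecF.J3 x) * Y x) d ∧
    (∫ x, (Real.exp (4 * a * VecF.J3 x) * Y x) ^ 2) + (∫ x, ‖d x‖ ^ 2) ≤ M

theorem IsWB.perm {a M : ℝ} {Y : Config3 → ℝ} (h : IsWB a M Y) (σ : Equiv.Perm (Fin 3)) :
    IsWB a M (fun x => Y (permConfig σ x)) := by
  obtain ⟨d, hd, hM⟩ := h
  have h1 := H1.comp_isometry hd (permL σ) 0
  simp only [add_zero, permL_apply, VecF.J3_perm] at h1
  refine ⟨_, h1, ?_⟩
  have e1 : ∫ x, (Real.exp (4 * a * VecF.J3 x) * Y (permConfig σ x)) ^ 2 =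
      ∫ x, (Real.exp (4 * a * VecF.J3 x) * Y x) ^ 2 := by
    have := integral_isom (permL σ) (fun x => (Real.exp (4 * a * VecF.J3 x) * Y x) ^ 2)
    simpa only [permL_apply, VecF.J3_perm] using this
  have e2 : ∫ x, ‖(permL σ).symm (d (permConfig σ x))‖ ^ 2 = ∫ x, ‖d x‖ ^ 2 := by
    have := integral_isom (permL σ) (fun x => ‖d x‖ ^ 2)
    simpa only [permL_apply, LinearIsometryEquiv.norm_map] using this
  rw [e1, e2]
  exact hM

theorem IsWB.const_mul {a M : ℝ} {Y : Config3 → ℝ} (h : IsWB a M Y) (c : ℝ) :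
    IsWB a (c ^ 2 * M) (fun x => c * Y x) := by
  obtain ⟨d, hd, hM⟩ := h
  have h1 := hd.const_mul c
  have e0 : (fun x => c * (Real.exp (4 * a * VecF.J3 x) * Y x)) =
      fun x => Real.exp (4 * a * VecF.J3 x) * (c * Y x) := by funext x; ring
  rw [e0] at h1
  refine ⟨_, h1, ?_⟩
  have e1 : ∫ x, (Real.exp (4 * a * VecF.J3 x) * (c * Y x)) ^ 2 =
      c ^ 2 * ∫ x, (Real.exp (4 * a * VecF.J3 x) * Y x) ^ 2 := by
    rw [← integral_const_mul]; congr 1; funext x; ring
  have e2 : ∫ x, ‖c • d x‖ ^ 2 = c ^ 2 * ∫ x, ‖d x‖ ^ 2 := by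
    rw [← integral_const_mul]; congr 1; funext x
    rw [norm_smul, mul_pow, Real.norm_eq_abs, sq_abs]
  rw [e1, e2, ← mul_add]
  exact mul_le_mul_of_nonneg_left hM (sq_nonneg _)

theorem IsWB.add {a M M' : ℝ} {Y Z : Config3 → ℝ} (h : IsWB a M Y) (h' : IsWB a M' Z) :
    IsWB a (2 * (M + M')) (fun x => Y x + Z x) := by
  obtain ⟨d, hd, hM⟩ := h
  obtain ⟨d', hd', hM'⟩ := h'
  have h1 := hd.add hd'
  have e0 : (fun x => Real.exp (4 * a * VecF.J3 x) * Y x + Real.exp (4 * a * VecF.J3 x) * Z x) =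
      fun x => Real.exp (4 * a * VecF.J3 x) * (Y x + Z x) := by funext x; ring
  rw [e0] at h1
  refine ⟨_, h1, ?_⟩
  have i1 := memLp_two_integrable_sq hd.memf
  have i2 := memLp_two_integrable_sq hd'.memf
  have j1 := memLp_two_integrable_norm_sq hd.memg
  have j2 := memLp_two_integrable_norm_sq hd'.memg
  have e1 : ∫ x, (Real.exp (4 * a * VecF.J3 x) * (Y x + Z x)) ^ 2 ≤
      2 * (∫ x, (Real.exp (4 * a * VecF.J3 x) * Y x) ^ 2) +
        2 * ∫ x, (Real.exp (4 * a * VecF.J3 x) * Z x) ^ 2 := by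
    rw [← integral_const_mul, ← integral_const_mul, ← integral_add (i1.const_mul _)
      (i2.const_mul _)]
    refine integral_mono_of_nonneg (Eventually.of_forall fun _ => sq_nonneg _)
      ((i1.const_mul _).add (i2.const_mul _)) (Eventually.of_forall fun x => ?_)
    simp only
    nlinarith [sq_nonneg (Real.exp (4 * a * VecF.J3 x) * Y x -
      Real.exp (4 * a * VecF.J3 x) * Z x)]
  have e2 : ∫ x, ‖d x + d' x‖ ^ 2 ≤ 2 * (∫ x, ‖d x‖ ^ 2) + 2 * ∫ x, ‖d' x‖ ^ 2 := by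
    rw [← integral_const_mul, ← integral_const_mul, ← integral_add (j1.const_mul _)
      (j2.const_mul _)]
    refine integral_mono_of_nonneg (Eventually.of_forall fun _ => sq_nonneg _)
      ((j1.const_mul _).add (j2.const_mul _)) (Eventually.of_forall fun x => ?_)
    simp only
    have := norm_add_le (d x) (d' x)
    have h3 := norm_nonneg (d x + d' x)
    nlinarith [sq_nonneg (‖d x‖ - ‖d' x‖)]
  linarith

/-- partial weights, with a bound -/
theorem IsWB.ew {a b M : ℝ} (ha : 0 ≤ a) (hb0 : 0 ≤ b) (hb : b ≤ 4 * a) {Y : Config3 → ℝ}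
    (h : IsWB a M Y) :
    ∃ d, H1 (fun x => Sy.ew b x * Y x) d ∧
      (∫ x, (Sy.ew b x * Y x) ^ 2) + (∫ x, ‖d x‖ ^ 2) ≤ (3 + 2 * (12 * a) ^ 2) * M := by
  obtain ⟨d, hd, hM⟩ := h
  obtain ⟨G, hG⟩ : ∃ G : Config3 → ℝ, G = fun x => (4 * a - b) * Sy.w9 x + 4 * a * jb (elPos 0 x) :=
    ⟨_, rfl⟩
  have hab : 0 ≤ 4 * a - b := by linarith
  have hG0 : ∀ x, 0 ≤ G x := fun x => by
    rw [hG]
    have := Sy.w9_nonneg x
    have := (Sy.jb_pos (elPos 0 x)).le
    positivity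
  have hGl : LipschitzWith (Real.toNNReal (12 * a)) G := by
    refine LipschitzWith.of_dist_le_mul fun x y => ?_
    rw [Real.coe_toNNReal _ (by linarith), hG]
    have h1 := Sy.w9_lip.dist_le_mul x y
    have h2 := (Sy.jb_lip.comp VecF.lip_elPos0).dist_le_mul x y
    have hxy : 0 ≤ dist x y := dist_nonneg
    simp only [Function.comp_apply, mul_one, NNReal.coe_one, one_mul, NNReal.coe_ofNat] at h1 h2
    rw [Real.dist_eq] at h1 h2 ⊢
    have e : (4 * a - b) * Sy.w9 x + 4 * a * jb (elPos 0 x) -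
        ((4 * a - b) * Sy.w9 y + 4 * a * jb (elPos 0 y)) =
        (4 * a - b) * (Sy.w9 x - Sy.w9 y) + 4 * a * (jb (elPos 0 x) - jb (elPos 0 y)) := by ring
    rw [e]
    refine (abs_add_le _ _).trans ?_
    rw [abs_mul, abs_mul, abs_of_nonneg hab, abs_of_nonneg (by linarith : (0 : ℝ) ≤ 4 * a)]
    have h3 := mul_le_mul_of_nonneg_left h1 hab
    have h4 := mul_le_mul_of_nonneg_left h2 (by linarith : (0 : ℝ) ≤ 4 * a)
    nlinarith [mul_nonneg hb0 hxy]
  have hm := WG.of_lipschitz (VecF.exp_neg_lip hGl hG0)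
  have hm1 : ∀ x, |Real.exp (-G x)| ≤ 1 := fun x => by
    rw [abs_of_pos (Real.exp_pos _)]
    exact Real.exp_le_one_iff.2 (by linarith [hG0 x])
  have hm2 : ∀ x, ‖gr (fun x => Real.exp (-G x)) x‖ ≤ 12 * a := fun x => by
    have := hm.2 x
    rwa [Real.coe_toNNReal _ (by linarith)] at this
  have h1 := H1.mul_bdd (C := max 1 (12 * a)) hd hm.1 (fun x => (hm1 x).trans (le_max_left _ _))
    (fun x => (hm2 x).trans (le_max_right _ _))
  have e0 : ∀ x, Real.exp (-G x) * (Real.exp (4 * a * VecF.J3 x) * Y x) = Sy.ew b x * Y x := by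
    intro x
    rw [← mul_assoc, ← Real.exp_add]
    unfold Sy.ew
    congr 2
    rw [hG]
    simp only
    rw [VecF.w9_eq]
    unfold VecF.J3
    ring
  simp only [e0] at h1
  refine ⟨_, h1, ?_⟩
  set f : Config3 → ℝ := fun x => Real.exp (4 * a * VecF.J3 x) * Y x with hf
  have i1 : Integrable (fun x => f x ^ 2) := memLp_two_integrable_sq hd.memf
  have j1 : Integrable (fun x => ‖d x‖ ^ 2) := memLp_two_integrable_norm_sq hd.memg
  have e1 : ∫ x, (Sy.ew b x * Y x) ^ 2 ≤ ∫ x, f x ^ 2 := by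
    refine integral_mono_of_nonneg (Eventually.of_forall fun _ => sq_nonneg _) i1
      (Eventually.of_forall fun x => ?_)
    simp only
    rw [← e0 x, mul_pow]
    have h2 : Real.exp (-G x) ^ 2 ≤ 1 := by
      have := hm1 x
      rw [← sq_abs]; exact pow_le_one₀ (abs_nonneg _) this
    exact mul_le_of_le_one_left (sq_nonneg _) h2
  have e2 : ∫ x, ‖Real.exp (-G x) • d x + f x • gr (fun x => Real.exp (-G x)) x‖ ^ 2 ≤
      2 * (∫ x, ‖d x‖ ^ 2) + (2 * (12 * a) ^ 2) * ∫ x, f x ^ 2 := by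
    rw [← integral_const_mul, ← integral_const_mul, ← integral_add (j1.const_mul _)
      (i1.const_mul _)]
    refine integral_mono_of_nonneg (Eventually.of_forall fun _ => sq_nonneg _)
      ((j1.const_mul _).add (i1.const_mul _)) (Eventually.of_forall fun x => ?_)
    simp only
    have h2 : ‖Real.exp (-G x) • d x + f x • gr (fun x => Real.exp (-G x)) x‖ ≤
        ‖d x‖ + |f x| * (12 * a) := by
      refine (norm_add_le _ _).trans (add_le_add ?_ ?_)
      · rw [norm_smul, Real.norm_eq_abs]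
        exact mul_le_of_le_one_left (norm_nonneg _) (hm1 x)
      · rw [norm_smul, Real.norm_eq_abs]
        exact mul_le_mul_of_nonneg_left (hm2 x) (abs_nonneg _)
    have h3 := pow_le_pow_left₀ (norm_nonneg _) h2 2
    have h4 : |f x| ^ 2 = f x ^ 2 := sq_abs _
    nlinarith [sq_nonneg (‖d x‖ - |f x| * (12 * a))]
  have hn1 : 0 ≤ ∫ x, f x ^ 2 := integral_nonneg fun _ => sq_nonneg _
  have hn2 : 0 ≤ ∫ x, ‖d x‖ ^ 2 := integral_nonneg fun _ => sq_nonneg _
  have ha2 : 0 ≤ (12 * a) ^ 2 := sq_nonneg _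
  nlinarith [mul_nonneg ha2 hn2]

section
variable {cg C0 D : ℝ} {B : OBD cg C0 D} {K lam : ℝ} (S : Sys B K lam)

theorem isWB_psi : IsWB B.a K S.ψ := by
  obtain ⟨d, hd, hM⟩ := S.w3
  exact ⟨d, hd, hM⟩

theorem isWB_Y {Y : Config3 → ℝ} (hY : Y = S.YS ∨ Y = S.YT ∨ Y = S.YB) :
    IsWB B.a (8 * K) Y := by
  have hK : 0 ≤ K := by linarith [S.Kpos]
  have mono : ∀ {M : ℝ} {Z : Config3 → ℝ}, IsWB B.a M Z → M ≤ 8 * K → IsWB B.a (8 * K) Z := by
    intro M Z ⟨d, hd, hM⟩ h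
    exact ⟨d, hd, hM.trans h⟩
  rcases hY with rfl | rfl | rfl
  · have h := ((isWB_psi S).add ((isWB_psi S).perm (Equiv.swap 1 2))).const_mul (1 / 2)
    have e : (fun x => 1 / 2 * (S.ψ x + S.ψ (permConfig (Equiv.swap 1 2) x))) = S.YS := by
      funext x
      unfold Sys.YS GS
      ring
    rw [e] at h
    exact mono h (by linarith)
  · have h := ((isWB_psi S).add (((isWB_psi S).perm (Equiv.swap 1 2)).const_mul (-1))).const_mul
      (-√2 / 2)
    have e : (fun x => -√2 / 2 * (S.ψ x + -1 * S.ψ (permConfig (Equiv.swap 1 2) x))) = S.YT := by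
      funext x
      unfold Sys.YT GT
      ring
    rw [e] at h
    refine mono h ?_
    have : (-√2 / 2) ^ 2 = 1 / 2 := by
      rw [div_pow, neg_sq, Real.sq_sqrt (by norm_num)]; norm_num
    rw [this]
    linarith
  · exact mono ((isWB_psi S).perm (finRotate 3)) (by linarith)

/-- the coupling is in `L²` -/
theorem bW_bound {Y : Config3 → ℝ} (hY : Y = S.YS ∨ Y = S.YT ∨ Y = S.YB) {b : ℝ} (hb0 : 0 ≤ b)
    (hb : b ≤ 4 * B.a) (ha : 0 ≤ B.a) :
    MemLp (bW (fun x => Sy.ew b x * Y x)) 2 volume ∧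
      √(∫ X, bW (fun x => Sy.ew b x * Y x) X ^ 2) ≤
        4 * √((3 + 2 * (12 * B.a) ^ 2) * (8 * K)) := by
  obtain ⟨d, hd, hM⟩ := (isWB_Y S hY).ew ha hb0 hb
  refine ⟨(bW_memLp hd).1, (bW_norm hd).trans ?_⟩
  refine mul_le_mul_of_nonneg_left (Real.sqrt_le_sqrt ?_) (by norm_num)
  have : 0 ≤ ∫ x, (Sy.ew b x * Y x) ^ 2 := integral_nonneg fun _ => sq_nonneg _
  linarith

end

end Crest.Agent.R335.BSup
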