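import Crest.Agent.R335.SyKc
import Crest.Agent.R335.BDecay
import Crest.Agent.R335.VecFB
import Crest.Agent.R335.BSupC

/-!
Row 335 (S0521), interacting side, (3.7), part D: weak inequality of the weighted norm of the
remainders, with the source `3 λ |W_X e^{aw} Y(X)|` (helper182).
-/

set_option autoImplicit false
set_option linter.unusedSectionVars false

open MeasureTheory Filter Set Crest.MathPhysics.ThreeBody
open scoped ENNReal Topology ContDiff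

noncomputable section
namespace Crest.Agent.R335.BSup
open Crest.Agent.R335

local notation "E3" => EuclideanSpace ℝ (Fin 3)

/-- weights of the ion states in `H¹` -/
theorem ion_H1 {C0 D K a b : ℝ} (hb : b ≤ 4 * a) {Φ : Y2 → ℝ} (h : IonW C0 D K a Φ) :
    ∃ d, H1 (fun ξ => Real.exp (b * wi ξ) * Φ ξ) d := by
  obtain ⟨d, hd, -⟩ := h.w4
  obtain ⟨G, hG⟩ : ∃ G : Y2 → ℝ, G = fun x => (4 * a - b) * wi x := ⟨_, rfl⟩
  have hab : 0 ≤ 4 * a - b := by linarith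
  have hG0 : ∀ x, 0 ≤ G x := fun x => by
    rw [hG]
    have := Sy.two_le_wi x
    have h2 : 0 ≤ wi x := by linarith
    positivity
  have hGl : LipschitzWith (‖(4 * a - b)‖₊ * 2) G := by
    rw [hG]
    refine LipschitzWith.of_dist_le_mul fun x y => ?_
    have := Sy.wi_lip.dist_le_mul x y
    rw [Real.dist_eq] at this ⊢
    rw [← mul_sub, abs_mul, NNReal.coe_mul, coe_nnnorm, Real.norm_eq_abs, mul_assoc]
    exact mul_le_mul_of_nonneg_left this (abs_nonneg _)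
  have hm := Crest.Agent.R335.WG.of_lipschitz (VecF.exp_neg_lip hGl hG0)
  have h1 := Crest.Agent.R335.H1.mul_bdd
    (C := max 1 ((‖(4 * a - b)‖₊ * 2 : NNReal) : ℝ)) hd hm.1 (fun x => ?_)
    (fun x => (hm.2 x).trans (le_max_right _ _))
  · refine ⟨_, h1.congr (ae_of_all _ fun x => ?_) (Filter.EventuallyEq.refl _ _)⟩
    simp only
    rw [← mul_assoc, ← Real.exp_add]
    congr 2
    rw [hG]
    ring
  · rw [abs_of_pos (Real.exp_pos _)]
    exact (Real.exp_le_one_iff.2 (by linarith [hG0 x])).trans (le_max_left _ _)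

/-- what is needed about the vector of a channel -/
structure VW (a : ℝ) (Φ : Y2 → ℝ) : Prop where
  h1 : ∃ d, H1 (Sy.wΦ a Φ) d
  w : ∫ ξ, (Real.exp (a * wi ξ) * Φ ξ) ^ 2 ≤ 4
  n : ∫ ξ, Φ ξ ^ 2 ≤ 1

theorem VW.of_ion {C0 D K a : ℝ} (ha : 0 ≤ a) {Φ : Y2 → ℝ} (h : IonW C0 D K a Φ)
    (hn : ∫ ξ, Φ ξ ^ 2 = 1) : VW a Φ where
  h1 := ion_H1 (by linarith) h
  w := by
    refine (integral_mono_of_nonneg (Eventually.of_forall fun _ => sq_nonneg _) h.m0.1
      (Eventually.of_forall fun ξ => ?_)).trans h.m0.2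
    simp only
    rw [mul_pow, mul_pow]
    refine mul_le_mul_of_nonneg_right ?_ (sq_nonneg _)
    refine pow_le_pow_left₀ (Real.exp_pos _).le (Real.exp_le_exp.2 ?_) 2
    have := Sy.two_le_wi ξ
    nlinarith
  n := hn.le

theorem VW.zero (a : ℝ) {d : Y2 → Y2} (h : H1 (fun _ : Y2 => (0 : ℝ)) d) :
    VW a (fun _ => 0) where
  h1 := by
    refine ⟨d, ?_⟩
    have e : Sy.wΦ a (fun _ => 0) = fun _ => (0 : ℝ) := by
      funext ξ; unfold Sy.wΦ; ring
    rw [e]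
    exact h
  w := by simp
  n := by simp

section core
variable {a : ℝ} {π : ℝ} {Φ : Y2 → ℝ} {Y : Config3 → ℝ}

theorem wN_eqU (X : Pos3) :
    wN a (cR π Φ Y) X = √(∫ ξ, (fun x => Sy.ew a x * cR π Φ Y x) (jn p9 X ξ) ^ 2) := by
  unfold wN
  simp only [Sy.ew_jn]

theorem bW_ew (X : Pos3) : bW (fun x => Sy.ew a x * Y x) X =
    √(∫ ξ, (WX X ξ * (Real.exp (a * wi ξ) * Y (jn p9 X ξ))) ^ 2) := by
  unfold bW
  simp only [Sy.ew_jn]

/-- the coupling of one fibre -/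
theorem Tf_bound (ha : 0 ≤ a) (hΦ : MemLp Φ 2 volume) (hv : VW a Φ)
    (hwY : ∃ d, H1 (fun x => Sy.ew a x * Y x) d)
    {U : Config3 → ℝ} {dU : Config3 → Config3} (hUd : ∀ x, U x = Sy.ew a x * cR π Φ Y x)
    (hU : H1 U dU) :
    ∀ᵐ X : Pos3, |Sy.Tf a Φ Y U X| ≤
      3 * bW (fun x => Sy.ew a x * Y x) X * wN a (cR π Φ Y) X := by
  obtain ⟨dwY, hwY⟩ := hwY
  obtain ⟨dw, hw⟩ := hv.h1
  filter_upwards [I.H1.slice_right p9 hwY, I.H1.slice_right p9 hU] with X hX1 hX2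
  have eN : wN a (cR π Φ Y) X = √(∫ ξ, U (jn p9 X ξ) ^ 2) := by
    rw [wN_eqU]
    simp only [hUd]
  set N := wN a (cR π Φ Y) X with hN
  set b := bW (fun x => Sy.ew a x * Y x) X with hb
  have hN0 : 0 ≤ N := by rw [hN]; exact Real.sqrt_nonneg _
  have hb0 : 0 ≤ b := bW_nonneg _ _
  have hm1 : MemLp (fun ξ => WX X ξ * (Real.exp (a * wi ξ) * Y (jn p9 X ξ))) 2 volume := by
    have := Sy.memLp_WX hX1 X
    simpa only [Sy.ew_jn] using this
  have hm2 : MemLp (fun ξ => U (jn p9 X ξ)) 2 volume := hX2.memf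
  have hm3 : MemLp (fun ξ => WX X ξ * Y (jn p9 X ξ)) 2 volume := by
    refine VecF.memLp_of_ew ha (hm1.ae_eq (ae_of_all _ fun ξ => ?_))
    simp only; ring
  -- first part
  have h1 : |∫ ξ, WX X ξ * (Real.exp (a * wi ξ) * Y (jn p9 X ξ) * U (jn p9 X ξ))| ≤ b * N := by
    have := VecF.cs_abs hm1 hm2
    rw [← eN, ← bW_ew, ← hb] at this
    refine le_trans (le_of_eq ?_) this
    congr 2
    funext ξ; ring
  -- second part
  have h2 : |cF (Sy.wΦ a Φ) U X| ≤ 2 * N := by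
    have := VecF.cs_abs hw.memf hm2
    rw [← eN] at this
    refine this.trans (mul_le_mul_of_nonneg_right ?_ hN0)
    rw [Real.sqrt_le_left (by norm_num)]
    refine le_trans (le_of_eq rfl) (hv.w.trans (by norm_num))
  have h3 : |Sy.WY Φ Y X| ≤ b := by
    have h4 := VecF.cs_abs hΦ hm3
    have h5 : √(∫ ξ, Φ ξ ^ 2) ≤ 1 := by
      rw [Real.sqrt_le_left (by norm_num)]
      linarith [hv.n]
    have h6 : √(∫ ξ, (WX X ξ * Y (jn p9 X ξ)) ^ 2) ≤ b := by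
      rw [hb, bW_ew]
      refine VecF.sqrt_int_mono hm1 (ae_of_all _ fun ξ => ?_)
      have h7 : WX X ξ * (Real.exp (a * wi ξ) * Y (jn p9 X ξ)) =
          Real.exp (a * wi ξ) * (WX X ξ * Y (jn p9 X ξ)) := by ring
      rw [h7, abs_mul (Real.exp _), abs_of_pos (Real.exp_pos _)]
      exact le_mul_of_one_le_left (abs_nonneg _) (VecF.one_le_ew ha ξ)
    have e : Sy.WY Φ Y X = ∫ ξ, Φ ξ * (WX X ξ * Y (jn p9 X ξ)) := by
      unfold Sy.WY
      congr 1; funext ξ; ring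
    rw [e]
    refine h4.trans ?_
    calc √(∫ ξ, Φ ξ ^ 2) * √(∫ ξ, (WX X ξ * Y (jn p9 X ξ)) ^ 2) ≤ 1 * b :=
          mul_le_mul h5 h6 (Real.sqrt_nonneg _) (by norm_num)
      _ = b := one_mul b
  unfold Sy.Tf
  refine (abs_sub _ _).trans ?_
  rw [abs_mul]
  have h8 : |cF (Sy.wΦ a Φ) U X| * |Sy.WY Φ Y X| ≤ (2 * N) * b :=
    mul_le_mul h2 h3 (abs_nonneg _) (by positivity)
  nlinarith

end core

/-- weak inequality of the weighted norm of a remainder -/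
theorem chan_weak {D lam En σ e gap π a c : ℝ} (ha : 0 ≤ a) (hl : 0 ≤ lam)
    (hπ : π = 1 ∨ π = -1) {Φ : Y2 → ℝ} {dΦ : Y2 → Y2}
    (hI : IonCh D lam σ π e gap Φ dΦ) (hgap : 0 ≤ gap) (hv : VW a Φ)
    {Y : Config3 → ℝ} {dY : Config3 → Config3}
    (hY : Chan D lam En σ Y dY) (hwY : ∃ d, H1 (fun x => Sy.ew a x * Y x) d)
    (hth : ∀ᵐ X : Pos3, (∫ ξ, Φ ξ * (Sy.ew a (jn p9 X ξ) * cR π Φ Y (jn p9 X ξ))) ^ 2 ≤
      1 / 5 * ∫ ξ, (Sy.ew a (jn p9 X ξ) * cR π Φ Y (jn p9 X ξ)) ^ 2)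
    (hc : c ≤ e - En + gap * (4 / 5) - 2 * a ^ 2) :
    ∃ m, H1 (wN a (cR π Φ Y)) m ∧ (∃ dU, H1 (fun x => Sy.ew a x * cR π Φ Y x) dU) ∧
      ∀ φ : E3 → ℝ, Test univ φ → (∀ x, 0 ≤ φ x) →
      (1 / 2) * (∫ x, inner ℝ (m x) (gr φ x)) +
        ∫ x, (c + V2 D x) * wN a (cR π Φ Y) x * φ x ≤
        ∫ x, (lam * 3 * bW (fun x => Sy.ew a x * Y x) x) * φ x := by
  obtain ⟨dU, hU⟩ := Sy.U_H1 (π := π) hY.h1 hI.h1.memf hwY hv.h1
  obtain ⟨m, hm, -⟩ := H1.pnorm (S := Unit) p9 (f := fun _ x => Sy.ew a x * cR π Φ Y x)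
    (fun _ => hU)
  have eN : (fun X : Pos3 => √(∑ _s : Unit, ∫ y, (Sy.ew a (jn p9 X y) * cR π Φ Y (jn p9 X y)) ^ 2))
      = wN a (cR π Φ Y) := by
    funext X
    rw [wN_eqU, Finset.univ_unique, Finset.sum_singleton]
  rw [eN] at hm
  obtain ⟨dwY, hwY'⟩ := hwY
  have hbm := (bW_memLp hwY').1
  have hA : MemLp (fun x => (c + V2 D x) * wN a (cR π Φ Y) x) 2 volume := by
    refine ((hm.memf.const_mul c).add (V2_memLp D hm).1).ae_eq (ae_of_all _ fun x => ?_)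
    simp only [Pi.add_apply]; ring
  have hB : MemLp (fun x => lam * 3 * bW (fun x => Sy.ew a x * Y x) x) 2 volume :=
    hbm.const_mul (lam * 3)
  have hT := Tf_bound (π := π) ha hI.h1.memf hv ⟨dwY, hwY'⟩ (fun x => rfl) hU
  have hk := Sy.kato_core ha hI hgap hπ hY ⟨dwY, hwY'⟩ hv.h1 (fun x => rfl) hU (th := 1 / 5)
    hth hm isOpen_univ (A := fun x => c + V2 D x)
    (b := fun x => lam * 3 * bW (fun x => Sy.ew a x * Y x) x)
    ((hA.locallyIntegrable (by norm_num)).locallyIntegrableOn _)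
    ((hB.locallyIntegrable (by norm_num)).locallyIntegrableOn _)
    (Eventually.of_forall fun x _ => by
      have := bW_nonneg (fun x => Sy.ew a x * Y x) x
      positivity)
    (by
      filter_upwards [hT] with X hX _
      have h1 := (abs_le.1 hX).1
      have h2 := mul_le_mul_of_nonneg_left h1 hl
      have h3 : 0 ≤ wN a (cR π Φ Y) X ^ 2 := sq_nonneg _
      have h4 := mul_le_mul_of_nonneg_right hc h3
      nlinarith)
  exact ⟨m, hm, ⟨dU, hU⟩, hk.le⟩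

end Crest.Agent.R335.BSup
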