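import Crest.Agent.R335.BSupD
import Crest.Agent.R335.BFar

/-!
Row 335 (S0521), interacting side, (3.7), part E: closeness of the projections, sup bounds of the
remainders in the four channels (helper182).
-/

set_option autoImplicit false
set_option linter.unusedSectionVars false

open MeasureTheory Filter Set Crest.MathPhysics.ThreeBody
open scoped ENNReal Topology ContDiff

noncomputable section
namespace Crest.Agent.R335.BSup
open Crest.Agent.R335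

local notation "E3" => EuclideanSpace ℝ (Fin 3)

section close
variable {cg C0 D : ℝ} {B : OBD cg C0 D} {K lam : ℝ} (S : Sys B K lam)

theorem orth01 : ∫ ξ, S.Φ0 ξ * S.Φ1 ξ = 0 :=
  VecF.int_odd fun ξ => by rw [S.ch0.par, S.ch1.par]; ring

/-- closeness of a projection -/
theorem proj_close {Φ y s : Y2 → ℝ} {t M : ℝ} (hM : 0 ≤ M) (hΦ : MemLp Φ 2 volume)
    (hy : MemLp y 2 volume) (hs : MemLp s 2 volume) (n : ∫ ξ, Φ ξ ^ 2 = 1)
    (hst : ∫ ξ, Φ ξ * s ξ = t) (h : ∫ ξ, (y ξ - s ξ) ^ 2 ≤ M ^ 2) :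
    |(∫ ξ, Φ ξ * y ξ) - t| ≤ M := by
  have i1 : Integrable (fun ξ => Φ ξ * y ξ) := hΦ.integrable_mul hy
  have i2 : Integrable (fun ξ => Φ ξ * s ξ) := hΦ.integrable_mul hs
  have h1 := VecF.cs_abs hΦ (hy.sub hs)
  rw [n, Real.sqrt_one, one_mul] at h1
  have e : ∫ ξ, Φ ξ * (y - s) ξ = (∫ ξ, Φ ξ * y ξ) - t := by
    rw [← hst, ← integral_sub i1 i2]
    congr 1; funext ξ; simp only [Pi.sub_apply]; ring
  rw [e] at h1
  refine h1.trans ?_
  rw [Real.sqrt_le_left hM]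
  exact h

theorem close_S (hl : 0 ≤ lam) : ∀ᵐ X : Pos3, |S.F X - B.u X / √2| ≤ K * lam ∧
    |S.c X - B.g X / 2| ≤ K * lam := by
  obtain ⟨dY, hY⟩ := chan_S S.tb
  have hK : 0 ≤ K * lam := mul_nonneg (by linarith [S.Kpos]) hl
  filter_upwards [S.clS, I.H1.slice_right p9 hY.h1] with X h1 h2
  have hy : MemLp (fun ξ => S.YS (jn p9 X ξ)) 2 volume := h2.memf
  have u0 := S.ch0.h1.memf
  have u1 := S.ch1.h1.memf
  have hs : MemLp (fun ξ => B.u X / √2 * S.Φ0 ξ + B.g X / 2 * S.Φ1 ξ) 2 volume :=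
    (u0.const_mul _).add (u1.const_mul _)
  have i0 : Integrable (fun ξ => S.Φ0 ξ ^ 2) := u0.integrable_sq
  have i1 : Integrable (fun ξ => S.Φ1 ξ ^ 2) := u1.integrable_sq
  have i01 : Integrable (fun ξ => S.Φ0 ξ * S.Φ1 ξ) := u0.integrable_mul u1
  refine ⟨proj_close hK u0 hy hs S.n0 ?_ h1, proj_close hK u1 hy hs S.n1 ?_ h1⟩
  · have e : ∀ ξ, S.Φ0 ξ * (B.u X / √2 * S.Φ0 ξ + B.g X / 2 * S.Φ1 ξ) =
        B.u X / √2 * S.Φ0 ξ ^ 2 + B.g X / 2 * (S.Φ0 ξ * S.Φ1 ξ) := fun ξ => by ring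
    simp only [e]
    rw [integral_add (i0.const_mul _) (i01.const_mul _), integral_const_mul, integral_const_mul,
      S.n0, orth01]
    ring
  · have e : ∀ ξ, S.Φ1 ξ * (B.u X / √2 * S.Φ0 ξ + B.g X / 2 * S.Φ1 ξ) =
        B.u X / √2 * (S.Φ0 ξ * S.Φ1 ξ) + B.g X / 2 * S.Φ1 ξ ^ 2 := fun ξ => by ring
    simp only [e]
    rw [integral_add (i01.const_mul _) (i1.const_mul _), integral_const_mul, integral_const_mul,
      S.n1, orth01]
    ring

theorem close_T (hl : 0 ≤ lam) : ∀ᵐ X : Pos3, |S.t S.YT X - B.g X / √2| ≤ K * lam ∧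
    |S.t S.YB X - B.g X| ≤ K * lam := by
  obtain ⟨dY, hY⟩ := chan_T S.tb
  obtain ⟨dZ, hZ⟩ := chan_B S.tb
  have hK : 0 ≤ K * lam := mul_nonneg (by linarith [S.Kpos]) hl
  filter_upwards [S.clT, S.clB, I.H1.slice_right p9 hY.h1, I.H1.slice_right p9 hZ.h1] with
    X h1 h1' h2 h3
  have hy : MemLp (fun ξ => S.YT (jn p9 X ξ)) 2 volume := h2.memf
  have hz : MemLp (fun ξ => S.YB (jn p9 X ξ)) 2 volume := h3.memf
  have uT := S.chT.h1.memf
  have e : ∀ q : ℝ, ∫ ξ, S.ΦT ξ * (q * S.ΦT ξ) = q := by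
    intro q
    have : ∀ ξ, S.ΦT ξ * (q * S.ΦT ξ) = q * S.ΦT ξ ^ 2 := fun ξ => by ring
    simp only [this]
    rw [integral_const_mul, S.nT, mul_one]
  exact ⟨proj_close hK uT hy (uT.const_mul _) S.nT (e _) h1,
    proj_close hK uT hz (uT.const_mul _) S.nT (e _) h1'⟩

end close

/-! ### sup bounds -/

theorem sqrt_const {f : E3 → ℝ} {q : ℝ} (hq : 0 ≤ q) :
    √(∫ x, (q * f x) ^ 2) = q * √(∫ x, f x ^ 2) := by
  simp only [mul_pow]
  rw [integral_const_mul, Real.sqrt_mul (sq_nonneg q), Real.sqrt_sq hq]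

theorem up_even {cg C0 D : ℝ} (B : OBD cg C0 D) {c δ lam Bd : ℝ} (hc : 0 < c) (hδ : 0 < δ)
    (hcδ : δ ≤ c + B.eg) (hl : 0 ≤ lam) {s b : E3 → ℝ} {ds : E3 → E3} (hs : H1 s ds)
    (hs0 : ∀ x, 0 ≤ s x) (hb : MemLp b 2 volume) (hbB : √(∫ x, b x ^ 2) ≤ Bd)
    (h : ∀ φ : E3 → ℝ, Test univ φ → (∀ x, 0 ≤ φ x) →
      (1 / 2) * (∫ x, inner ℝ (ds x) (gr φ x)) + ∫ x, (c + V2 D x) * s x * φ x ≤
        ∫ x, (lam * 3 * b x) * φ x) :
    ∀ᵐ x, s x ≤ yn √(2 * c) * (18 + 72 / δ) * (3 * Bd) * lam := by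
  have h1 := (sup_even B hc hδ hcδ hs (Eventually.of_forall hs0) (hb.const_mul (lam * 3)) h).2
  rw [sqrt_const (by positivity)] at h1
  filter_upwards [h1] with x hx
  refine hx.trans ?_
  have h2 : 0 ≤ yn √(2 * c) * (18 + 72 / δ) := mul_nonneg (yn_nonneg _) (by positivity)
  have h3 : lam * 3 * √(∫ x, b x ^ 2) ≤ 3 * Bd * lam := by
    have := mul_le_mul_of_nonneg_left hbB (by positivity : 0 ≤ lam * 3)
    linarith
  have h4 := mul_le_mul_of_nonneg_left h3 h2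
  linarith

theorem up_odd {cg C0 D : ℝ} (hD : 4 ≤ D) (B : OBD cg C0 D) {c δ lam Bd M2 : ℝ} (hc : 0 < c)
    (hδ : 0 < δ)
    (hcδ : δ ≤ c + B.eu) (hl : 0 ≤ lam) {s b : E3 → ℝ} {ds : E3 → E3} (hs : H1 s ds)
    (hs0 : ∀ x, 0 ≤ s x) (heven : ∀ x, s (rz x) = s x)
    (hhalf : H10 {x : E3 | 0 < x 2} (fun x => if 0 < x 2 then s x else 0)
      (fun x => if 0 < x 2 then ds x else 0))
    (hb : MemLp b 2 volume) (hbB : √(∫ x, b x ^ 2) ≤ Bd) (hM20 : 0 ≤ M2)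
    (hM2 : ∀ᵐ x : E3, |x 2| ≤ 1 → b x ≤ M2)
    (h : ∀ φ : E3 → ℝ, Test univ φ → (∀ x, 0 ≤ φ x) →
      (1 / 2) * (∫ x, inner ℝ (ds x) (gr φ x)) + ∫ x, (c + V2 D x) * s x * φ x ≤
        ∫ x, (lam * 3 * b x) * φ x) :
    ∀ᵐ x, s x ≤ 20 * (yn √(2 * c) * (18 + 144 / δ) * (3 * Bd) + 3 * M2) * lam * min 1 |x 2| := by
  have hBd : 0 ≤ Bd := (Real.sqrt_nonneg _).trans hbB
  have h1 := (sup_odd B hc hδ hcδ hs hs0 heven hhalf (hb.const_mul (lam * 3)) h).2
  rw [sqrt_const (by positivity)] at h1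
  have h2 : 0 ≤ yn √(2 * c) * (18 + 144 / δ) := mul_nonneg (yn_nonneg _) (by positivity)
  set M1 := yn √(2 * c) * (18 + 144 / δ) * (3 * Bd) with hM1
  have hM1' : ∀ᵐ x, s x ≤ M1 * lam := by
    filter_upwards [h1] with x hx
    refine hx.trans ?_
    have h3 : lam * 3 * √(∫ x, b x ^ 2) ≤ 3 * Bd * lam := by
      have := mul_le_mul_of_nonneg_left hbB (by positivity : 0 ≤ lam * 3)
      linarith
    have h4 := mul_le_mul_of_nonneg_left h3 h2
    rw [hM1]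
    linarith
  have hM10 : 0 ≤ M1 := by rw [hM1]; positivity
  have h5 := plane_bound hD hc.le hs hs0 (hb.const_mul (lam * 3)) hhalf
    (M1 := M1 * lam) (M2 := 3 * M2 * lam) (by positivity) (by positivity) hM1'
    (by
      filter_upwards [hM2] with x hx hx'
      have := mul_le_mul_of_nonneg_left (hx hx') (by positivity : 0 ≤ lam * 3)
      linarith) h
  have h6 := (rz.measurePreserving).quasiMeasurePreserving.ae h5
  filter_upwards [h5, h6, ae_coord_ne_zero (2 : Fin 3)] with x hx hx' hne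
  have hr : (rz x) 2 = - x 2 := by rw [rz_eq]; simp
  rcases lt_or_gt_of_ne hne with hneg | hpos
  · have h7 := hx' (by rw [hr]; linarith)
    rw [heven, hr] at h7
    rw [abs_of_neg hneg]
    refine h7.trans (le_of_eq ?_)
    ring
  · have h7 := hx hpos
    rw [abs_of_pos hpos]
    refine h7.trans (le_of_eq ?_)
    ring

/-- the bound of the couplings near the plane -/
theorem plane_b {cg C0 D : ℝ} (hD : 4 ≤ D) (B : OBD cg C0 D) (K : ℝ) :
    ∃ M l' : ℝ, 0 < M ∧ 0 < l' ∧ ∀ lam, 0 < lam → lam ≤ l' → ∀ S : Sys B K lam,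
      ∀ Y, Y = S.YS ∨ Y = S.YT ∨ Y = S.YB → ∀ᵐ x : E3, |x 2| ≤ 1 →
        bW (fun x => Sy.ew B.a x * Y x) x ≤ M := by
  obtain ⟨ha, ha1, hg, hu⟩ := BD.a_bounds (by linarith) B
  obtain ⟨KS, lS, hKS, hlS, hS⟩ := decay_S (by linarith) B K
  obtain ⟨KT, lT, hKT, hlT, hT⟩ := decay_T (by linarith) B K
  obtain ⟨M, hM, hpc⟩ := plane_coupling (D := D) (a := B.a) (K := max KS KT) hD ha
    (by linarith)
  refine ⟨M, min (min lS lT) (min 1 (1 / (100 * (|K| + 1)))), hM, by positivity, ?_⟩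
  intro lam hl hl' S Y hY
  have l1 : lam ≤ lS := hl'.trans ((min_le_left _ _).trans (min_le_left _ _))
  have l2 : lam ≤ lT := hl'.trans ((min_le_left _ _).trans (min_le_right _ _))
  have l3 : lam ≤ 1 := hl'.trans ((min_le_right _ _).trans (min_le_left _ _))
  have l4 : lam ≤ 1 / (100 * (|K| + 1)) :=
    hl'.trans ((min_le_right _ _).trans (min_le_right _ _))
  have hKl : K * lam ≤ 1 / 100 := by
    have h4 : lam * (100 * (|K| + 1)) ≤ 1 := (le_div_iff₀ (by positivity)).1 l4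
    have h5 : K * lam ≤ |K| * lam := mul_le_mul_of_nonneg_right (le_abs_self K) hl.le
    nlinarith
  have e0 := abs_le.1 S.e0n
  have eT := abs_le.1 S.eTn
  have eE := abs_le.1 S.En
  obtain ⟨hg1, hg2⟩ := abs_le.1 hg
  obtain ⟨hu1, hu2⟩ := abs_le.1 hu
  have hκ : B.a / 16 ≤ S.κ := by
    refine Real.le_sqrt_of_sq_le ?_
    nlinarith
  have hκT : B.a / 16 ≤ S.κT := by
    refine Real.le_sqrt_of_sq_le ?_
    nlinarith
  obtain ⟨σ, dY, hch⟩ : ∃ σ dY, Chan D lam S.E σ Y dY := by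
    rcases hY with rfl | rfl | rfl
    · obtain ⟨d, hd⟩ := chan_S S.tb; exact ⟨_, d, hd⟩
    · obtain ⟨d, hd⟩ := chan_T S.tb; exact ⟨_, d, hd⟩
    · obtain ⟨d, hd⟩ := chan_B S.tb; exact ⟨_, d, hd⟩
  have hIW : VecF.IsW B.a Y := by
    rcases hY with rfl | rfl | rfl
    · exact S.isW_YS
    · exact S.isW_YT
    · exact S.isW_YB
  have hdec : ∀ᵐ X : Pos3, wN (2 * B.a) Y X ≤ max KS KT := by
    have key : ∀ {k C : ℝ} {X : Pos3}, 0 < C → B.a / 16 ≤ k → C ≤ max KS KT →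
        wN (2 * B.a) Y X ≤ C * Real.exp (-(k - B.a / 16) * ‖X‖) →
        wN (2 * B.a) Y X ≤ max KS KT := by
      intro k C X hC hk hCm h
      refine (h.trans ?_).trans hCm
      refine mul_le_of_le_one_right hC.le (Real.exp_le_one_iff.2 ?_)
      have := mul_nonneg (sub_nonneg.2 hk) (norm_nonneg X)
      linarith
    rcases hY with rfl | hY'
    · filter_upwards [hS lam hl l1 S] with X hX
      exact key hKS hκ (le_max_left _ _) hX
    · filter_upwards [hT lam hl l2 S Y hY'] with X hX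
      exact key hKT hκT (le_max_right _ _) hX
  have hw2 : ∃ d, H1 (fun x => Real.exp (2 * B.a * (jb (elPos 1 x) + jb (elPos 2 x))) * Y x) d := by
    obtain ⟨d, hd⟩ := hIW.ew ha.le (b := 2 * B.a) (by linarith)
    refine ⟨d, ?_⟩
    simpa only [Sy.ew, VecF.w9_eq] using hd
  have h1 := hpc lam S.E σ Y dY hl.le l3 (by linarith) (by linarith) hch hw2 hdec
  filter_upwards [h1] with X hX hX'
  refine le_trans (le_of_eq ?_) (hX hX').1
  rw [bW_ew]
  congr 2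
  funext ξ
  ring


end Crest.Agent.R335.BSup
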