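import Crest.Agent.R335.GAgmon
import Crest.Agent.R335.BSys
import Crest.Agent.R335.HSlice
import Crest.Agent.R335.HIface2
import Crest.Agent.R335.OBPot

/-!
Row 335 (S0521): exponential weights of the three-body function (module BThreeW, `three_weight`).
-/

set_option autoImplicit false
set_option linter.unusedSectionVars false

open MeasureTheory Filter Set Crest.MathPhysics.ThreeBody
open scoped ENNReal Topology ContDiff

noncomputable section
namespace Crest.Agent.R335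
namespace BW

/-! ### the form of the three-body potential -/

/-- position of the electron `i` as a linear map -/
def eLl (i : Fin 3) : Config3 →ₗ[ℝ] Pos3 where
  toFun := elPos i
  map_add' x y := by ext c; simp [elPos]
  map_smul' a x := by ext c; simp [elPos]

def eL (i : Fin 3) : Config3 →L[ℝ] Pos3 := LinearMap.toContinuousLinearMap (eLl i)

theorem eL_apply (i : Fin 3) (x : Config3) : eL i x = elPos i x := rfl

theorem elPos_single (i j : Fin 3) (c : Fin 3) :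
    elPos i (EuclideanSpace.single (j, c) (1 : ℝ)) =
      if i = j then EuclideanSpace.single c (1 : ℝ) else 0 := by
  ext d
  by_cases h : i = j
  · subst h
    simp only [elPos, if_true]
    by_cases hd : d = c
    · subst hd; simp
    · simp [hd]
  · simp [elPos, h]

theorem sum_inner_single_le (i : Fin 3) (v : Config3) :
    ∑ c : Fin 3, (inner ℝ v (EuclideanSpace.single (i, c) (1 : ℝ))) ^ 2 ≤ ‖v‖ ^ 2 := by
  have h1 : ∀ c : Fin 3, inner ℝ v (EuclideanSpace.single (i, c) (1 : ℝ)) = v (i, c) := by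
    intro c
    simp [EuclideanSpace.inner_single_right]
  simp only [h1]
  rw [EuclideanSpace.norm_sq_eq, Fintype.sum_prod_type]
  have h2 : ∑ c : Fin 3, v (i, c) ^ 2 = ∑ c : Fin 3, ‖v (i, c)‖ ^ 2 := by
    simp [Real.norm_eq_abs, sq_abs]
  rw [h2]
  exact Finset.single_le_sum (f := fun j => ∑ c : Fin 3, ‖v (j, c)‖ ^ 2)
    (fun j _ => Finset.sum_nonneg fun c _ => sq_nonneg _) (Finset.mem_univ i)

/-- attraction terms -/
theorem coul_att (i : Fin 3) (a : Pos3) {f : Config3 → ℝ} {g : Config3 → Config3} (h : H1 f g)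
    {ε : ℝ} (hε : 0 < ε) : Integrable (fun x => f x ^ 2 / ‖elPos i x - a‖) ∧
      ∫ x, f x ^ 2 / ‖elPos i x - a‖ ≤ ε * (∫ x, ‖g x‖ ^ 2) + ε⁻¹ * ∫ x, f x ^ 2 := by
  obtain ⟨h1, h2⟩ := I.coulomb_le h (eL i) (fun c => EuclideanSpace.single (i, c) (1 : ℝ))
    (fun c => by rw [eL_apply, elPos_single, if_pos rfl]) a hε
  refine ⟨h1, h2.trans ?_⟩
  have h3 : ∫ x, ∑ c : Fin 3, (inner ℝ (g x) (EuclideanSpace.single (i, c) (1 : ℝ))) ^ 2 ≤
      ∫ x, ‖g x‖ ^ 2 :=
    integral_mono_of_nonneg (Eventually.of_forall fun x => Finset.sum_nonneg fun c _ => sq_nonneg _)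
      h.integrable_normsq (Eventually.of_forall fun x => sum_inner_single_le i (g x))
  have := mul_le_mul_of_nonneg_left h3 hε.le
  linarith

/-- repulsion terms -/
theorem coul_pair {i j : Fin 3} (hij : i ≠ j) {f : Config3 → ℝ} {g : Config3 → Config3}
    (h : H1 f g) : Integrable (fun x => f x ^ 2 / ‖elPos i x - elPos j x‖) := by
  obtain ⟨h1, -⟩ := I.coulomb_le h (eL i - eL j)
    (fun c => (1 / 2 : ℝ) • (EuclideanSpace.single (i, c) (1 : ℝ) -
      EuclideanSpace.single (j, c) (1 : ℝ)))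
    (fun c => by
      simp only [map_smul, map_sub, sub_apply, eL_apply, elPos_single, if_true,
        if_neg hij, if_neg hij.symm]
      module) 0 one_pos
  refine h1.congr (Eventually.of_forall fun x => ?_)
  simp only [sub_apply, eL_apply, sub_zero]

theorem V9_int (D lam : ℝ) {f : Config3 → ℝ} {g : Config3 → Config3} (h : H1 f g) :
    Integrable (fun x => V9 D lam x * f x ^ 2) := by
  have a1 := fun (i : Fin 3) (a : Pos3) => (coul_att i a h one_pos).1
  have h01 := coul_pair (i := 0) (j := 1) (by decide) h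
  have h02 := coul_pair (i := 0) (j := 2) (by decide) h
  have h12 := coul_pair (i := 1) (j := 2) (by decide) h
  have key := ((((((a1 0 (nuc D)).add (a1 0 (nuc (-D)))).add (a1 1 (nuc D))).add
    (a1 1 (nuc (-D)))).add (a1 2 (nuc D))).add (a1 2 (nuc (-D)))).neg.add
    (((h01.add h02).add h12).const_mul lam)
  refine key.congr (Eventually.of_forall fun x => ?_)
  simp only [Pi.add_apply, Pi.neg_apply, V9, V2]
  ring

theorem att_sum {D : ℝ} {f : Config3 → ℝ} {g : Config3 → Config3} (h : H1 f g) :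
    Integrable (fun x => ∑ i : Fin 3, (f x ^ 2 / ‖elPos i x - nuc D‖ +
      f x ^ 2 / ‖elPos i x - nuc (-D)‖)) ∧
    ∫ x, ∑ i : Fin 3, (f x ^ 2 / ‖elPos i x - nuc D‖ + f x ^ 2 / ‖elPos i x - nuc (-D)‖) ≤
      (1 / 4) * (∫ x, ‖g x‖ ^ 2) + 144 * ∫ x, f x ^ 2 := by
  have a1 := fun (i : Fin 3) (a : Pos3) => (coul_att i a h (ε := 1 / 24) (by norm_num))
  have hi : ∀ i : Fin 3, Integrable (fun x => f x ^ 2 / ‖elPos i x - nuc D‖ +
      f x ^ 2 / ‖elPos i x - nuc (-D)‖) := fun i => (a1 i (nuc D)).1.add (a1 i (nuc (-D))).1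
  refine ⟨integrable_finsetSum _ fun i _ => hi i, ?_⟩
  rw [integral_finsetSum _ fun i _ => hi i]
  have hb : ∀ i : Fin 3, ∫ x, (f x ^ 2 / ‖elPos i x - nuc D‖ +
      f x ^ 2 / ‖elPos i x - nuc (-D)‖) ≤ (1 / 12) * (∫ x, ‖g x‖ ^ 2) + 48 * ∫ x, f x ^ 2 := by
    intro i
    rw [integral_add (a1 i (nuc D)).1 (a1 i (nuc (-D))).1]
    have b1 := (a1 i (nuc D)).2
    have b2 := (a1 i (nuc (-D))).2
    norm_num at b1 b2
    linarith
  have h0 := hb 0
  have h1 := hb 1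
  have h2 := hb 2
  rw [Fin.sum_univ_three]
  linarith

theorem V9_low {D lam : ℝ} (hl : 0 ≤ lam) {f : Config3 → ℝ} {g : Config3 → Config3}
    (h : H1 f g) : (1 / 4) * (∫ x, ‖g x‖ ^ 2) ≤ QF (V9 D lam) f g + 144 * ∫ x, f x ^ 2 := by
  obtain ⟨hs, hb⟩ := att_sum (D := D) h
  have h1 : - (∫ x, ∑ i : Fin 3, (f x ^ 2 / ‖elPos i x - nuc D‖ +
      f x ^ 2 / ‖elPos i x - nuc (-D)‖)) ≤ ∫ x, V9 D lam x * f x ^ 2 := by
    rw [← integral_neg]
    refine integral_mono hs.neg (V9_int D lam h) fun x => ?_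
    have hp : 0 ≤ lam * (1 / ‖elPos 0 x - elPos 1 x‖ + 1 / ‖elPos 0 x - elPos 2 x‖ +
        1 / ‖elPos 1 x - elPos 2 x‖) * f x ^ 2 := by positivity
    simp only [V9, V2, Fin.sum_univ_three]
    have e : (-(1 / ‖elPos 0 x - nuc D‖) - 1 / ‖elPos 0 x - nuc (-D)‖ +
        (-(1 / ‖elPos 1 x - nuc D‖) - 1 / ‖elPos 1 x - nuc (-D)‖) +
        (-(1 / ‖elPos 2 x - nuc D‖) - 1 / ‖elPos 2 x - nuc (-D)‖) +
        lam * (1 / ‖elPos 0 x - elPos 1 x‖ + 1 / ‖elPos 0 x - elPos 2 x‖ +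
          1 / ‖elPos 1 x - elPos 2 x‖)) * f x ^ 2 =
        -(f x ^ 2 / ‖elPos 0 x - nuc D‖ + f x ^ 2 / ‖elPos 0 x - nuc (-D)‖ +
          (f x ^ 2 / ‖elPos 1 x - nuc D‖ + f x ^ 2 / ‖elPos 1 x - nuc (-D)‖) +
          (f x ^ 2 / ‖elPos 2 x - nuc D‖ + f x ^ 2 / ‖elPos 2 x - nuc (-D)‖)) +
        lam * (1 / ‖elPos 0 x - elPos 1 x‖ +
        1 / ‖elPos 0 x - elPos 2 x‖ + 1 / ‖elPos 1 x - elPos 2 x‖) * f x ^ 2 := by ring
    rw [e]
    linarith
  unfold QF
  linarith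

/-! ### the weight -/

theorem jb_lip : LipschitzWith 1 jb := by
  refine LipschitzWith.of_dist_le_mul fun x y => ?_
  rw [Real.dist_eq, NNReal.coe_one, one_mul, dist_eq_norm]
  unfold jb
  have hx : 0 < √(1 + ‖x‖ ^ 2) := Real.sqrt_pos.2 (by positivity)
  have hy : 0 < √(1 + ‖y‖ ^ 2) := Real.sqrt_pos.2 (by positivity)
  have hx1 : ‖x‖ ≤ √(1 + ‖x‖ ^ 2) := Real.le_sqrt_of_sq_le (by linarith)
  have hy1 : ‖y‖ ≤ √(1 + ‖y‖ ^ 2) := Real.le_sqrt_of_sq_le (by linarith)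
  have h1 : (√(1 + ‖x‖ ^ 2) - √(1 + ‖y‖ ^ 2)) * (√(1 + ‖x‖ ^ 2) + √(1 + ‖y‖ ^ 2)) =
      (‖x‖ - ‖y‖) * (‖x‖ + ‖y‖) := by
    have h2 := Real.sq_sqrt (show 0 ≤ 1 + ‖x‖ ^ 2 by positivity)
    have h3 := Real.sq_sqrt (show 0 ≤ 1 + ‖y‖ ^ 2 by positivity)
    nlinarith
  have h4 : |√(1 + ‖x‖ ^ 2) - √(1 + ‖y‖ ^ 2)| * (√(1 + ‖x‖ ^ 2) + √(1 + ‖y‖ ^ 2)) ≤
      |‖x‖ - ‖y‖| * (√(1 + ‖x‖ ^ 2) + √(1 + ‖y‖ ^ 2)) := by
    have h5 : |√(1 + ‖x‖ ^ 2) - √(1 + ‖y‖ ^ 2)| * (√(1 + ‖x‖ ^ 2) + √(1 + ‖y‖ ^ 2)) =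
        |‖x‖ - ‖y‖| * (‖x‖ + ‖y‖) := by
      rw [← abs_of_pos (add_pos hx hy), ← abs_mul, h1, abs_mul,
        abs_of_nonneg (add_nonneg (norm_nonneg x) (norm_nonneg y))]
    rw [h5]
    exact mul_le_mul_of_nonneg_left (add_le_add hx1 hy1) (abs_nonneg _)
  exact (le_of_mul_le_mul_right h4 (add_pos hx hy)).trans (abs_norm_sub_norm_le x y)

theorem elPos_norm_le (i : Fin 3) (x : Config3) : ‖elPos i x‖ ≤ ‖x‖ := by
  refine le_of_sq_le_sq ?_ (norm_nonneg _)
  rw [EuclideanSpace.norm_sq_eq, EuclideanSpace.norm_sq_eq, Fintype.sum_prod_type]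
  exact Finset.single_le_sum (f := fun j => ∑ c : Fin 3, ‖x (j, c)‖ ^ 2)
    (fun j _ => Finset.sum_nonneg fun c _ => sq_nonneg _) (Finset.mem_univ i)

theorem elPos_lip (i : Fin 3) : LipschitzWith 1 (elPos i) := by
  refine LipschitzWith.of_dist_le_mul fun x y => ?_
  rw [NNReal.coe_one, one_mul, dist_eq_norm, dist_eq_norm]
  have : elPos i x - elPos i y = elPos i (x - y) := ((eLl i).map_sub x y).symm
  rw [this]
  exact elPos_norm_le i _

/-- the weight of the three electrons -/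
def w9 (x : Config3) : ℝ := jb (elPos 0 x) + jb (elPos 1 x) + jb (elPos 2 x)

theorem w9_lip : LipschitzWith 3 w9 := by
  have h := fun i => (jb_lip.comp (elPos_lip i))
  have := ((h 0).add (h 1)).add (h 2)
  refine this.weaken ?_
  norm_num

theorem w9_perm (σ : Equiv.Perm (Fin 3)) (hσ : σ = Equiv.swap 0 1) (x : Config3) :
    w9 (permConfig σ x) = w9 x := by
  subst hσ
  have e : ∀ i, elPos i (permConfig (Equiv.swap 0 1) x) = elPos (Equiv.swap 0 1 i) x := fun i => rfl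
  unfold w9
  rw [e, e, e, Equiv.swap_apply_left, Equiv.swap_apply_right,
    Equiv.swap_apply_of_ne_of_ne (by decide) (by decide)]
  ring

theorem jb_le (y : Pos3) : jb y ≤ 1 + ‖y‖ := by
  unfold jb
  refine Real.sqrt_le_iff.2 ⟨by positivity, ?_⟩
  nlinarith [norm_nonneg y]

theorem w9_le (x : Config3) : w9 x ≤ 3 * (1 + ‖x‖) := by
  unfold w9
  have h := fun i => (jb_le (elPos i x)).trans (add_le_add_right (elPos_norm_le i x) 1)
  linarith [h 0, h 1, h 2]

/-! ### the unperturbed function -/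

theorem el_pr2 (j : Fin 2) (x : Config3) : el j (pr2 p9 x) = elPos j.succ x := rfl

theorem elPos_pr1 (x : Config3) : pr1 p9 x = elPos 0 x := rfl

theorem psi0_H1 {g u : Pos3 → ℝ} {dg du : Pos3 → Pos3} (hg : H1 g dg) (hu : H1 u du) :
    ∃ d, H1 (psi0 g u) d := by
  have h1 := H1.tensor p9 hu (H1.tensor p6 hg hg)
  have h2 := H1.tensor p9 hg (H1.tensor p6 hu hg)
  have h3 := (h1.sub h2).const_mul (1 / √2)
  refine ⟨_, h3.congr (Eventually.of_forall fun x => ?_) ae_eq_rfl⟩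
  have e1 : pr1 p6 (pr2 p9 x) = elPos 1 x := rfl
  have e2 : pr2 p6 (pr2 p9 x) = elPos 2 x := rfl
  have e3 : pr1 p9 x = elPos 0 x := rfl
  simp only [psi0, e1, e2, e3]
  ring

theorem exists_tail {ι : Type*} [Fintype ι] {f : EuclideanSpace ℝ ι → ℝ} (hf : Integrable f)
    {ε : ℝ} (hε : 0 < ε) : ∃ R : ℝ, 0 ≤ R ∧
      ∫ x in (Metric.closedBall (0 : EuclideanSpace ℝ ι) R)ᶜ, f x ≤ ε := by
  have h1 := tendsto_setIntegral_of_antitone (μ := volume) (f := f)
    (s := fun n : ℕ => (Metric.closedBall (0 : EuclideanSpace ℝ ι) n)ᶜ)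
    (fun n => Metric.isClosed_closedBall.measurableSet.compl)
    (fun a b hab => compl_subset_compl.2 (Metric.closedBall_subset_closedBall (by exact_mod_cast hab)))
    ⟨0, hf.integrableOn⟩
  have h2 : ⋂ n : ℕ, (Metric.closedBall (0 : EuclideanSpace ℝ ι) n)ᶜ = ∅ := by
    rw [← compl_iUnion, Metric.iUnion_closedBall_nat, compl_univ]
  rw [h2, Measure.restrict_empty, integral_zero_measure] at h1
  obtain ⟨n, hn⟩ := (h1.eventually_lt_const hε).exists
  exact ⟨n, Nat.cast_nonneg n, hn.le⟩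

theorem om_lt {cg C0 D : ℝ} (B : OBD cg C0 D) : B.om ≤ 16 ∧ 0 < B.om := by
  have h1 := Q2_coercive D B.ob.hg
  have h2 : Q2 D B.g B.dg = B.eg := by
    have h3 := B.ob.g_eq B.g B.dg B.ob.hg
    have h4 : B2 D B.g B.dg B.g B.dg = Q2 D B.g B.dg := by
      unfold B2 Q2
      simp only [real_inner_self_eq_norm_sq, sq]
    rw [← h4, h3]
    have h5 : ∫ x, B.g x * B.g x = 1 := by
      rw [← B.ob.ng]
      simp only [sq]
    rw [h5, mul_one]
  rw [h2, B.ob.ng] at h1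
  have h6 : 0 ≤ ∫ x, ‖B.dg x‖ ^ 2 := integral_nonneg fun x => sq_nonneg _
  have h7 := B.ob.eu_lt
  have h8 := B.cg1
  have h9 := B.ob.eg_lt
  unfold OBD.om
  constructor <;> linarith

end BW

open BW in
/-- exponential weights of the three-body function (module BThreeW) -/
theorem three_weight {cg C0 D : ℝ} (hD : 4 ≤ D) (B : OBD cg C0 D) (K : ℝ) :
    ∃ K' l' : ℝ, 1 ≤ K' ∧ 0 < l' ∧ ∀ lam, 0 ≤ lam → lam ≤ l' →
      ∀ (E : ℝ) (ψ : Config3 → ℝ) (dψ : Config3 → Config3), ThreeBody D lam E ψ dψ →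
        |E - (2 * B.eg + B.eu)| ≤ K * lam →
        (∀ k dk, H1 k dk → (∀ᵐ x, k (permConfig (Equiv.swap 0 1) x) = - k x) →
          E * (∫ x, k x ^ 2) + B.om / 2 * ((∫ x, k x ^ 2) - (∫ x, ψ x * k x) ^ 2) ≤
            q3 D lam k dk k dk) →
        ∫ x, (ψ x - psi0 B.g B.u x) ^ 2 ≤ (K * lam) ^ 2 →
        ∃ d : Config3 → Config3,
          H1 (fun x => Real.exp (4 * B.a * (jb (elPos 0 x) + jb (elPos 1 x) + jb (elPos 2 x))) *
            ψ x) d ∧
          (∫ x, (Real.exp (4 * B.a * (jb (elPos 0 x) + jb (elPos 1 x) + jb (elPos 2 x))) *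
            ψ x) ^ 2) + (∫ x, ‖d x‖ ^ 2) ≤ K' := by
  obtain ⟨hom4, hom0⟩ := om_lt B
  obtain ⟨d0, hd0⟩ := psi0_H1 B.ob.hg B.ob.hu
  obtain ⟨R, hR0, hR⟩ := exists_tail hd0.integrable_sq (ε := 1 / 64) (by norm_num)
  set M : ℝ := 3 * (1 + R) with hM
  set X : ℝ := (16 / 3) * Real.exp (4 * B.a * M) ^ 2 with hX
  have hX0 : 0 ≤ X := by positivity
  set Y : ℝ := (|2 * B.eg + B.eu| + |K| + B.om / 4 + 144) / (1 / 4) with hY
  have hY0 : 0 ≤ Y := by positivity
  refine ⟨1 + (X + Y * X), min 1 (1 / (8 * (|K| + 1))), ?_, ?_, ?_⟩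
  · have := mul_nonneg hY0 hX0
    linarith
  · positivity
  intro lam hl0 hl E ψ dψ tb hE hgap hcl
  have hl1 : lam ≤ 1 := hl.trans (min_le_left _ _)
  have hl2 : |K| * lam ≤ 1 / 8 := by
    have h1 : lam ≤ 1 / (8 * (|K| + 1)) := hl.trans (min_le_right _ _)
    calc |K| * lam ≤ (|K| + 1) * (1 / (8 * (|K| + 1))) :=
          mul_le_mul (by linarith) h1 hl0 (by positivity)
      _ = 1 / 8 := by field_simp
  have hKl : (K * lam) ^ 2 ≤ 1 / 64 := by
    have h1 : |K * lam| ≤ 1 / 8 := by rw [abs_mul, abs_of_nonneg hl0]; exact hl2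
    calc (K * lam) ^ 2 = |K * lam| ^ 2 := (sq_abs _).symm
      _ ≤ (1 / 8) ^ 2 := pow_le_pow_left₀ (abs_nonneg _) h1 2
      _ = 1 / 64 := by norm_num
  obtain ⟨hW, hWb⟩ := WG.of_lipschitz w9_lip
  have hL : ∀ x, ‖gr w9 x‖ ≤ (3 : ℝ) := fun x => by simpa using hWb x
  have ha : 0 ≤ 4 * B.a := by
    unfold OBD.a
    positivity
  have H : GapEig (V9 D lam) ψ dψ E (B.om / 2) w9 (gr w9) (4 * B.a) 3 := by
    refine ⟨tb.h1, tb.nrm, by positivity, hW, hL, ha, ?_, ?_, ?_⟩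
    · unfold OBD.a
      nlinarith
    · intro n
      obtain ⟨C, h1, h2⟩ := exists_ew_bound (w := w9) hL ha n
      have h3 := tb.eq _ _ (tb.h1.sq_mul_bdd (hW.ew (4 * B.a) n) h1 h2)
      unfold q3 at h3
      rw [← h3]
      congr 1
      refine integral_congr_ae (Eventually.of_forall fun x => ?_)
      simp only
      ring
    · intro n
      obtain ⟨C, h1, h2⟩ := exists_ew_bound (w := w9) hL ha n
      have h3 := hgap _ _ (tb.h1.mul_bdd (hW.ew (4 * B.a) n) h1 h2)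
        (Eventually.of_forall fun x => by
          simp only [ew]
          rw [w9_perm _ rfl, tb.anti]
          ring)
      have h4 : q3 D lam (fun x => ew (4 * B.a) w9 n x * ψ x)
          (fun x => ew (4 * B.a) w9 n x • dψ x + ψ x • dew (4 * B.a) w9 (gr w9) n x)
          (fun x => ew (4 * B.a) w9 n x * ψ x)
          (fun x => ew (4 * B.a) w9 n x • dψ x + ψ x • dew (4 * B.a) w9 (gr w9) n x) =
          QF (V9 D lam) (fun x => ew (4 * B.a) w9 n x * ψ x)
          (fun x => ew (4 * B.a) w9 n x • dψ x + ψ x • dew (4 * B.a) w9 (gr w9) n x) := by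
        unfold q3 QF
        simp only [real_inner_self_eq_norm_sq]
        congr 1
        refine integral_congr_ae (Eventually.of_forall fun x => ?_)
        simp only
        ring
      rw [h4] at h3
      linarith
  have hKc : ∫ x in (Metric.closedBall (0 : Config3) R)ᶜ, ψ x ^ 2 ≤ 1 / 16 := by
    have i1 : Integrable (fun x => (ψ x - psi0 B.g B.u x) ^ 2) :=
      (tb.h1.memf.sub hd0.memf).integrable_sq
    have i2 : Integrable (fun x => 2 * (ψ x - psi0 B.g B.u x) ^ 2 + 2 * psi0 B.g B.u x ^ 2) :=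
      (i1.const_mul 2).add (hd0.integrable_sq.const_mul 2)
    have h1 : ∫ x in (Metric.closedBall (0 : Config3) R)ᶜ, ψ x ^ 2 ≤
        ∫ x in (Metric.closedBall (0 : Config3) R)ᶜ,
          (2 * (ψ x - psi0 B.g B.u x) ^ 2 + 2 * psi0 B.g B.u x ^ 2) := by
      refine integral_mono tb.h1.integrable_sq.integrableOn i2.integrableOn fun x => ?_
      simp only
      nlinarith [sq_nonneg (ψ x - psi0 B.g B.u x - psi0 B.g B.u x)]
    have h2 : ∫ x in (Metric.closedBall (0 : Config3) R)ᶜ,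
          (2 * (ψ x - psi0 B.g B.u x) ^ 2 + 2 * psi0 B.g B.u x ^ 2) =
        2 * (∫ x in (Metric.closedBall (0 : Config3) R)ᶜ, (ψ x - psi0 B.g B.u x) ^ 2) +
        2 * ∫ x in (Metric.closedBall (0 : Config3) R)ᶜ, psi0 B.g B.u x ^ 2 := by
      rw [integral_add (i1.const_mul 2).integrableOn
        (hd0.integrable_sq.const_mul 2).integrableOn, integral_const_mul, integral_const_mul]
    have h3 : ∫ x in (Metric.closedBall (0 : Config3) R)ᶜ, (ψ x - psi0 B.g B.u x) ^ 2 ≤ 1 / 64 :=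
      (setIntegral_le_integral i1 (Eventually.of_forall fun x => sq_nonneg _)).trans
        (hcl.trans hKl)
    linarith
  have hKw : ∀ x ∈ Metric.closedBall (0 : Config3) R, w9 x ≤ M := by
    intro x hx
    have h1 := w9_le x
    have h2 : ‖x‖ ≤ R := by simpa using hx
    rw [hM]
    linarith
  have hmeas : MeasurableSet (Metric.closedBall (0 : Config3) R) :=
    Metric.isClosed_closedBall.measurableSet
  obtain ⟨hm1, hm2⟩ := H.exp_bound hmeas hKw hKc
  obtain ⟨hg1, hg2⟩ := H.h1_exp hmeas hKw hKc (c := 1 / 4) (C0 := 144) (by norm_num)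
    (by norm_num) (fun n => V9_low hl0 (H.h1m n))
  refine ⟨_, hg1, ?_⟩
  have hE' : |E| ≤ |2 * B.eg + B.eu| + |K| := by
    have h1 : |E| ≤ |E - (2 * B.eg + B.eu)| + |2 * B.eg + B.eu| := by
      have := abs_add_le (E - (2 * B.eg + B.eu)) (2 * B.eg + B.eu)
      simpa using this
    have h2 : K * lam ≤ |K| := by
      calc K * lam ≤ |K| * lam := mul_le_mul_of_nonneg_right (le_abs_self K) hl0
        _ ≤ |K| * 1 := mul_le_mul_of_nonneg_left hl1 (abs_nonneg K)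
        _ = |K| := mul_one _
    linarith
  have hfin : (|E| + B.om / 2 / 2 + 144) / (1 / 4) * X ≤ Y * X := by
    refine mul_le_mul_of_nonneg_right ?_ hX0
    rw [hY]
    refine div_le_div_of_nonneg_right ?_ (by norm_num)
    linarith
  have hm3 : ∫ x, (Real.exp (4 * B.a * (jb (elPos 0 x) + jb (elPos 1 x) + jb (elPos 2 x))) *
      ψ x) ^ 2 ≤ X := hm2
  linarith [hg2.trans hfin]

end Crest.Agent.R335
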