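import Crest.Agent.R335.OBPos
import Crest.Agent.R335.OBClose
import Crest.Agent.R335.OBTun
import Crest.Agent.R335.BSys

/-!
Row 335 (S0521), ONE-BODY block: final assembly `oneBody_exists`, `obd_exists` (helper733).
-/

set_option autoImplicit false
set_option linter.unusedSectionVars false

open MeasureTheory Filter Set Crest.MathPhysics.ThreeBody
open scoped ENNReal Topology ContDiff

noncomputable section
namespace Crest.Agent.R335
namespace OM

theorem hyd_rz (D : ℝ) (x : Pos3) : hyd (nuc D) (rz x) = hyd (nuc (-D)) x := by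
  unfold hyd
  rw [norm_rz_sub]

theorem twoC_exists : ∃ c C D₀ : ℝ, 0 < c ∧ c ≤ 1 / 4 ∧ 0 ≤ C ∧ 1 ≤ D₀ ∧ ∀ D : ℝ, D₀ ≤ D →
    TwoC D c (C / D) (fun x => Jp D x * hyd (nuc D) x) := by
  obtain ⟨c, C, D₁, hc0, hc1, hC, hD₁, hG⟩ := two_gap
  obtain ⟨C', D₂, hD₂, hT⟩ := trial_exists
  refine ⟨c, max C C', max D₁ D₂, hc0, hc1, hC.trans (le_max_left _ _),
    hD₁.trans (le_max_left _ _), fun D hD => ?_⟩
  have h1 : D₁ ≤ D := (le_max_left _ _).trans hD
  have h2 : D₂ ≤ D := (le_max_right _ _).trans hD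
  have hD0 : 0 < D := by linarith
  have m1 : C / D ≤ max C C' / D := div_le_div_of_nonneg_right (le_max_left _ _) hD0.le
  have m2 : C' / D ≤ max C C' / D := div_le_div_of_nonneg_right (le_max_right _ _) hD0.le
  have hgap : ∀ (f : Pos3 → ℝ) (g : Pos3 → Pos3), H1 f g →
      (-(1 / 2) + c - max C C' / D) * (∫ x, f x ^ 2) -
      c * ((∫ x, Jp D x * hyd (nuc D) x * f x) ^ 2 +
        (∫ x, Jm D x * hyd (nuc (-D)) x * f x) ^ 2) ≤ Q2 D f g := by
    intro f g h
    have h3 := hG D h1 f g h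
    have h4 : 0 ≤ ∫ x, f x ^ 2 := integral_nonneg fun x => sq_nonneg _
    nlinarith
  have hrz : ∀ f : Pos3 → ℝ, ∫ x, Jp D (rz x) * hyd (nuc D) (rz x) * f x =
      ∫ x, Jm D x * hyd (nuc (-D)) x * f x := by
    intro f
    refine integral_congr_ae (ae_of_all _ fun x => ?_)
    simp only [Jp_rz, hyd_rz]
  refine ⟨Jphyd_memLp D _, fun f g h => ?_, fun f g h => ?_, ?_, ?_⟩
  · rw [hrz]; exact hgap f g h
  · have h3 := hgap f g h
    have hJp : MemLp (fun x => Jp D x * f x) 2 volume := by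
      refine h.memf.mono ((continuous_Jp D).aestronglyMeasurable.mul h.memf.1)
        (ae_of_all _ fun x => ?_)
      rw [norm_mul, Real.norm_eq_abs, abs_of_nonneg (Jp_nonneg D x)]
      exact mul_le_of_le_one_left (norm_nonneg _) (Jp_le_one D x)
    have hJm : MemLp (fun x => Jm D x * f x) 2 volume := by
      refine h.memf.mono ((continuous_Jm D).aestronglyMeasurable.mul h.memf.1)
        (ae_of_all _ fun x => ?_)
      rw [norm_mul, Real.norm_eq_abs, abs_of_nonneg (Jm_nonneg D x)]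
      exact mul_le_of_le_one_left (norm_nonneg _) (Jm_le_one D x)
    have c1 := ob_cauchy_sq hJp (hyd_memLp (nuc D)) (hyd_norm _)
    have c2 := ob_cauchy_sq hJm (hyd_memLp (nuc (-D))) (hyd_norm _)
    have e1 : ∫ x, hyd (nuc D) x * (Jp D x * f x) = ∫ x, Jp D x * hyd (nuc D) x * f x :=
      integral_congr_ae (ae_of_all _ fun x => by simp only; ring)
    have e2 : ∫ x, hyd (nuc (-D)) x * (Jm D x * f x) = ∫ x, Jm D x * hyd (nuc (-D)) x * f x :=
      integral_congr_ae (ae_of_all _ fun x => by simp only; ring)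
    rw [e1] at c1
    rw [e2] at c2
    have e3 : (∫ x, (Jp D x * f x) ^ 2) + ∫ x, (Jm D x * f x) ^ 2 = ∫ x, f x ^ 2 := by
      rw [← integral_add hJp.integrable_sq hJm.integrable_sq]
      refine integral_congr_ae (ae_of_all _ fun x => ?_)
      simp only
      linear_combination (f x ^ 2) * Jp_sq_add D x
    have h4 : 0 ≤ ∫ x, f x ^ 2 := integral_nonneg fun x => sq_nonneg _
    nlinarith
  · obtain ⟨w, dw, a1, a2, a3, a4⟩ := hT D h2 1 (by norm_num)
    exact ⟨w, dw, a1, ae_of_all _ fun x => by rw [a3, one_mul], a2, by linarith⟩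
  · obtain ⟨w, dw, a1, a2, a3, a4⟩ := hT D h2 (-1) (by norm_num)
    exact ⟨w, dw, a1, ae_of_all _ fun x => by rw [a3]; ring, a2, by linarith⟩

end OM

/-- existence of the one-body states, universal gap `c`, level bounds, tunnelling bound -/
theorem oneBody_exists : ∃ c C D₀ : ℝ, 0 < c ∧ c ≤ 1 / 8 ∧ 1 ≤ D₀ ∧ ∀ D : ℝ, D₀ ≤ D →
    ∃ (g u : Pos3 → ℝ) (dg du : Pos3 → Pos3) (eg eu : ℝ),
      OneBody D g u dg du eg eu (-(1 / 2) + c) ∧
      |eg + 1 / 2| ≤ C / D ∧ |eu + 1 / 2| ≤ C / D ∧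
      eu - eg ≤ C * Real.exp (-(3 * D / 2)) ∧
      (∀ x, g x ≤ C) ∧ (∀ x, |u x| ≤ C) ∧
      (∫ x, ‖dg x‖ ^ 2 ≤ C) ∧ (∫ x, ‖du x‖ ^ 2 ≤ C) ∧
      (∫ x, (g x - (hyd (nuc D) x + hyd (nuc (-D)) x) / √2) ^ 2 ≤ C / D) ∧
      (∫ x, (u x - (hyd (nuc D) x - hyd (nuc (-D)) x) / √2) ^ 2 ≤ C / D) := by
  obtain ⟨c, M, D₁, hc0, hc1, hM, hD₁, hT⟩ := OM.twoC_exists
  obtain ⟨Ct, D₂, η, hη, hD₂, hTun⟩ := oneBody_tunnel
  obtain ⟨D₃, hD₃, hcl⟩ := oneBody_close
  obtain ⟨C₂, hC₂⟩ := hcl M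
  set C : ℝ := max (max (max M Ct) (max OM.supC 64)) C₂ with hC
  have k1 : M ≤ C := ((le_max_left _ _).trans (le_max_left _ _)).trans (le_max_left _ _)
  have k2 : Ct ≤ C := ((le_max_right _ _).trans (le_max_left _ _)).trans (le_max_left _ _)
  have k3 : OM.supC ≤ C := ((le_max_left _ _).trans (le_max_right _ _)).trans (le_max_left _ _)
  have k4 : 64 ≤ C := ((le_max_right _ _).trans (le_max_right _ _)).trans (le_max_left _ _)
  have k5 : C₂ ≤ C := le_max_right _ _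
  set D₀ : ℝ := max (max (max D₁ D₂) (max D₃ (M / η))) (4 * M / c + 1) with hD₀
  refine ⟨c / 2, C, D₀, by linarith, by linarith, ?_, fun D hD => ?_⟩
  · exact hD₁.trans (((le_max_left _ _).trans (le_max_left _ _)).trans (le_max_left _ _))
  have d1 : D₁ ≤ D := ((le_max_left _ _).trans ((le_max_left _ _).trans (le_max_left _ _))).trans hD
  have d2 : D₂ ≤ D := ((le_max_right _ _).trans ((le_max_left _ _).trans (le_max_left _ _))).trans hD
  have d3 : D₃ ≤ D := ((le_max_left _ _).trans ((le_max_right _ _).trans (le_max_left _ _))).trans hD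
  have d4 : M / η ≤ D :=
    ((le_max_right _ _).trans ((le_max_right _ _).trans (le_max_left _ _))).trans hD
  have d5 : 4 * M / c + 1 ≤ D := (le_max_right _ _).trans hD
  have hD0 : 0 < D := by linarith
  have e1 : M / D ≤ η := by
    rw [div_le_iff₀ hη] at d4
    rw [div_le_iff₀ hD0]
    linarith
  have e2 : 2 * (M / D) < c := by
    have h1 : 4 * M / c < D := by linarith
    rw [div_lt_iff₀ hc0] at h1
    have h2 : 2 * (M / D) = 2 * M / D := by ring
    rw [h2, div_lt_iff₀ hD0]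
    nlinarith
  obtain ⟨g, u, dg, du, eg, eu, hO, b1, b2, b3, b4, b5, b6⟩ :=
    OM.oneBody_of_twoC (hT D d1) (div_nonneg hM hD0.le) e2 hc1
  have hMC : M / D ≤ C / D := div_le_div_of_nonneg_right k1 hD0.le
  have hg1 : eg ≤ -(1 / 2) + M / D := by have := (abs_le.1 b1).2; linarith
  have hu1 : eu ≤ -(1 / 2) + M / D := by have := (abs_le.1 b2).2; linarith
  have ht := hTun D d2 g u dg du eg eu _ hO (by linarith)
  have hcl' := hC₂ D d3 g u dg du eg eu _ hO hg1 hu1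
  have h2C : C₂ / D ≤ C / D := div_le_div_of_nonneg_right k5 hD0.le
  refine ⟨g, u, dg, du, eg, eu, hO, b1.trans hMC, b2.trans hMC, ?_, fun x => (b3 x).trans k3,
    fun x => (b4 x).trans k3, b5.trans k4, b6.trans k4, hcl'.1.trans h2C, hcl'.2.trans h2C⟩
  exact ht.trans (mul_le_mul_of_nonneg_right k2 (Real.exp_pos _).le)

/-- from `oneBody_exists` -/
theorem obd_exists : ∃ cg C0 D₀ : ℝ, 0 < cg ∧ 1 ≤ C0 ∧ 4 ≤ D₀ ∧ ∀ D : ℝ, D₀ ≤ D →
    Nonempty (OBD cg C0 D) := by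
  obtain ⟨c, C, D₀, hc0, hc1, hD₀, h⟩ := oneBody_exists
  set C0 : ℝ := max C 1 with hC0
  have hC1 : 1 ≤ C0 := le_max_right _ _
  have hCC : C ≤ C0 := le_max_left _ _
  refine ⟨c, C0, max (max D₀ 4) (max (100 * C0) (16 * C0 / c)), hc0, hC1,
    (le_max_right _ _).trans (le_max_left _ _), fun D hD => ?_⟩
  have d1 : D₀ ≤ D := ((le_max_left _ _).trans (le_max_left _ _)).trans hD
  have d2 : 4 ≤ D := ((le_max_right _ _).trans (le_max_left _ _)).trans hD
  have d3 : 100 * C0 ≤ D := ((le_max_left _ _).trans (le_max_right _ _)).trans hD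
  have d4 : 16 * C0 / c ≤ D := ((le_max_right _ _).trans (le_max_right _ _)).trans hD
  have hD0 : 0 < D := by linarith
  obtain ⟨g, u, dg, du, eg, eu, hO, a1, a2, a3, a4, a5, a6, a7, -, -⟩ := h D d1
  have hCD : C / D ≤ C0 / D := div_le_div_of_nonneg_right hCC hD0.le
  have hE : C0 / D ≤ c / 16 := by
    rw [div_le_iff₀ hc0] at d4
    rw [div_le_div_iff₀ hD0 (by norm_num)]
    linarith
  refine ⟨⟨g, u, dg, du, eg, eu, hO, hc0, hc1, a1.trans hCD, a2.trans hCD,
    a3.trans (mul_le_mul_of_nonneg_right hCC (Real.exp_pos _).le), fun x => (a4 x).trans hCC,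
    fun x => (a5 x).trans hCC, a6.trans hCC, a7.trans hCC, d3, ?_⟩⟩
  have := (abs_le.1 a1).1
  have := (abs_le.1 a2).2
  linarith

end Crest.Agent.R335
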