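import Crest.Agent.R335.HGap

/-!
Row 335 (S0521), ION BLOCK (helper517): ground state of a symmetry sector, abstract Hilbert space
version.
-/

set_option autoImplicit false
set_option linter.unusedSectionVars false

open Filter Set
open scoped Topology

noncomputable section
namespace Crest.Agent.R335
namespace Sec

variable {H : Type*} [NormedAddCommGroup H] [InnerProductSpace ℝ H] [CompleteSpace H]

/-- the sector -/
def asec (C₁ C₂ : H →L[ℝ] H) (σ π : ℝ) : Submodule ℝ H :=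
  (C₁ - σ • ContinuousLinearMap.id ℝ H).ker ⊓ (C₂ - π • ContinuousLinearMap.id ℝ H).ker

theorem mem_asec (C₁ C₂ : H →L[ℝ] H) (σ π : ℝ) (P : H) :
    P ∈ asec C₁ C₂ σ π ↔ C₁ P = σ • P ∧ C₂ P = π • P := by
  unfold asec
  rw [Submodule.mem_inf, LinearMap.mem_ker, LinearMap.mem_ker]
  simp only [ContinuousLinearMap.coe_coe, sub_apply, smul_apply, ContinuousLinearMap.id_apply]
  rw [sub_eq_zero, sub_eq_zero]

theorem isClosed_asec (C₁ C₂ : H →L[ℝ] H) (σ π : ℝ) :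
    IsClosed (asec C₁ C₂ σ π : Set H) :=
  (ContinuousLinearMap.isClosed_ker _).inter (ContinuousLinearMap.isClosed_ker _)

/-- symmetrisation -/
def asym (C₁ C₂ : H →L[ℝ] H) (σ π : ℝ) (P : H) : H :=
  (1 / 4 : ℝ) • (P + σ • C₁ P + (π • C₂ P + (σ * π) • C₁ (C₂ P)))

theorem asym_mem {C₁ C₂ : H →L[ℝ] H} (h11 : ∀ x, C₁ (C₁ x) = x) (h22 : ∀ x, C₂ (C₂ x) = x)
    (h12 : ∀ x, C₁ (C₂ x) = C₂ (C₁ x)) {σ π : ℝ} (hσ : σ = 1 ∨ σ = -1) (hπ : π = 1 ∨ π = -1)
    (P : H) : asym C₁ C₂ σ π P ∈ asec C₁ C₂ σ π := by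
  rw [mem_asec]
  have e5 : C₂ (C₁ (C₂ P)) = C₁ P := by rw [← h12, h22]
  constructor
  · unfold asym
    simp only [map_smul, map_add, h11]
    rcases hσ with rfl | rfl <;> module
  · unfold asym
    simp only [map_smul, map_add, h22, e5, ← h12 P]
    rcases hπ with rfl | rfl <;> module

/-- a form invariant under `C₁`, `C₂` does not see the symmetrisation of the other factor -/
theorem form_asym {C₁ C₂ : H →L[ℝ] H} {σ π : ℝ} (hσ : σ = 1 ∨ σ = -1) (hπ : π = 1 ∨ π = -1)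
    (q : H →L[ℝ] H →L[ℝ] ℝ) (hq1 : ∀ P Q, q (C₁ P) (C₁ Q) = q P Q)
    (hq2 : ∀ P Q, q (C₂ P) (C₂ Q) = q P Q) {P : H} (hP : P ∈ asec C₁ C₂ σ π)
    (Q : H) : q P (asym C₁ C₂ σ π Q) = q P Q := by
  rw [mem_asec] at hP
  have a1 : ∀ Q, q P (C₁ Q) = σ * q P Q := by
    intro Q
    have := hq1 P Q
    rw [hP.1] at this
    simp only [map_smul, smul_apply, smul_eq_mul] at this
    rw [← this]
    rcases hσ with rfl | rfl <;> ring
  have a2 : ∀ Q, q P (C₂ Q) = π * q P Q := by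
    intro Q
    have := hq2 P Q
    rw [hP.2] at this
    simp only [map_smul, smul_apply, smul_eq_mul] at this
    rw [← this]
    rcases hπ with rfl | rfl <;> ring
  unfold asym
  simp only [map_smul, map_add, smul_eq_mul, a1, a2]
  rcases hσ with rfl | rfl <;> rcases hπ with rfl | rfl <;> ring

/-- expansion of a symmetric form -/
theorem form_expand (q : H →L[ℝ] H →L[ℝ] ℝ) (hq : ∀ u v, q u v = q v u) (a b : ℝ) (u v : H) :
    q (a • u + b • v) (a • u + b • v) = a ^ 2 * q u u + 2 * a * b * q u v + b ^ 2 * q v v := by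
  simp only [map_add, map_smul, add_apply, smul_apply, smul_eq_mul]
  rw [hq v u]; ring

/-- abstract sector theorem -/
theorem abs_sector (q n : H →L[ℝ] H →L[ℝ] ℝ) (hq : ∀ u v, q u v = q v u)
    (hn : ∀ u v, n u v = n v u) (hn0 : ∀ u, 0 ≤ n u u) (hn1 : ∀ u, n u u = 0 → u = 0)
    {c M : ℝ} (hc : 0 < c) (hco : ∀ u, c * ‖u‖ ^ 2 ≤ q u u + M * n u u)
    {C₁ C₂ : H →L[ℝ] H} (h11 : ∀ x, C₁ (C₁ x) = x) (h22 : ∀ x, C₂ (C₂ x) = x)
    (h12 : ∀ x, C₁ (C₂ x) = C₂ (C₁ x)) (hq1 : ∀ P Q, q (C₁ P) (C₁ Q) = q P Q)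
    (hq2 : ∀ P Q, q (C₂ P) (C₂ Q) = q P Q) (hn1' : ∀ P Q, n (C₁ P) (C₁ Q) = n P Q)
    (hn2' : ∀ P Q, n (C₂ P) (C₂ Q) = n P Q) {σ π : ℝ} (hσ : σ = 1 ∨ σ = -1)
    (hπ : π = 1 ∨ π = -1) {φ : H} (hφ1 : C₁ φ = σ • φ) (hφ2 : C₂ φ = π • φ) (hφn : n φ φ = 1)
    {E₁ K : ℝ} (hφE : q φ φ < E₁) (ℓ : H →L[ℝ] ℝ)
    (hgap : ∀ u, C₁ u = σ • u → C₂ u = π • u → E₁ * n u u - K * (ℓ u) ^ 2 ≤ q u u) :
    ∃ (u : H) (e : ℝ), C₁ u = σ • u ∧ C₂ u = π • u ∧ n u u = 1 ∧ 0 < ℓ u ∧ e ≤ q φ φ ∧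
      (∀ v, q u v = e * n u v) ∧
      (∀ v, C₁ v = σ • v → C₂ v = π • v →
        e * n v v + (E₁ - e) * (n v v - (n u v) ^ 2) ≤ q v v) := by
  classical
  set S : Submodule ℝ H := asec C₁ C₂ σ π with hS
  have : CompleteSpace S := (isClosed_asec C₁ C₂ σ π).completeSpace_coe
  set qS : S →L[ℝ] S →L[ℝ] ℝ := q.bilinearComp S.subtypeL S.subtypeL with hqS
  set nS : S →L[ℝ] S →L[ℝ] ℝ := n.bilinearComp S.subtypeL S.subtypeL with hnS
  set ℓS : S →L[ℝ] ℝ := ℓ.comp S.subtypeL with hℓS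
  have qSa : ∀ u v : S, qS u v = q (u : H) (v : H) := fun u v => rfl
  have nSa : ∀ u v : S, nS u v = n (u : H) (v : H) := fun u v => rfl
  have ℓSa : ∀ u : S, ℓS u = ℓ (u : H) := fun u => rfl
  have φS : φ ∈ S := (mem_asec _ _ _ _ _).2 ⟨hφ1, hφ2⟩
  -- the infimum
  set A : Set ℝ := {t | ∃ u : S, nS u u = 1 ∧ t = qS u u} with hA
  have hAne : A.Nonempty := ⟨q φ φ, ⟨φ, φS⟩, by rw [nSa]; exact hφn, rfl⟩
  have hAbd : BddBelow A := by
    refine ⟨-M, ?_⟩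
    rintro t ⟨u, hu, rfl⟩
    have := hco (u : H)
    rw [nSa] at hu
    rw [hu] at this
    have h2 : 0 ≤ c * ‖(u : H)‖ ^ 2 := by positivity
    rw [qSa]; linarith
  set E₀ : ℝ := sInf A with hE₀
  have hE0φ : E₀ ≤ q φ φ := csInf_le hAbd ⟨⟨φ, φS⟩, by rw [nSa]; exact hφn, rfl⟩
  have hlow : ∀ u : S, E₀ * nS u u ≤ qS u u := by
    intro u
    by_cases h0 : nS u u = 0
    · have : (u : H) = 0 := hn1 _ h0
      rw [h0, qSa, this]; simp
    · have hpos : 0 < nS u u := lt_of_le_of_ne (by rw [nSa]; exact hn0 _) (Ne.symm h0)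
      set r : ℝ := √(nS u u) with hr
      have hr0 : 0 < r := Real.sqrt_pos.2 hpos
      have hr2 : r ^ 2 = nS u u := Real.sq_sqrt hpos.le
      have hmem : r⁻¹ ^ 2 * qS u u ∈ A := by
        refine ⟨r⁻¹ • u, ?_, ?_⟩
        · simp only [map_smul, smul_apply, smul_eq_mul]
          rw [← hr2]; field_simp
        · simp only [map_smul, smul_apply, smul_eq_mul]
          ring
      have := csInf_le hAbd hmem
      rw [← hE₀] at this
      have h3 : E₀ * r ^ 2 ≤ r⁻¹ ^ 2 * qS u u * r ^ 2 :=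
        mul_le_mul_of_nonneg_right this (by positivity)
      have h4 : r⁻¹ ^ 2 * qS u u * r ^ 2 = qS u u := by field_simp
      rw [h4, hr2] at h3
      exact h3
  have hsharp : ∀ ε > 0, ∃ u : S, nS u u = 1 ∧ qS u u < E₀ + ε := by
    intro ε hε
    obtain ⟨t, ⟨u, hu, rfl⟩, ht⟩ := exists_lt_of_csInf_lt hAne (lt_add_of_pos_right E₀ hε)
    exact ⟨u, hu, ht⟩
  have hE : E₀ < E₁ := lt_of_le_of_lt hE0φ hφE
  have hco' : ∀ u : S, c * ‖u‖ ^ 2 ≤ qS u u + M * nS u u := fun u => hco (u : H)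
  have hgap' : ∀ u : S, E₁ * nS u u - K * (ℓS u) ^ 2 ≤ qS u u := by
    intro u
    have hu := (mem_asec _ _ _ _ _).1 u.2
    exact hgap (u : H) hu.1 hu.2
  obtain ⟨u, hun, -, hueq⟩ := Crest.Agent.R335.gap_exists (q := qS) (n := nS) (fun u v => hq _ _)
    (fun u v => hn _ _) (fun u => hn0 _) hc hco' hE hlow hsharp (J := Unit)
    (ℓ := fun _ => ℓS) (K := K) (fun u => by simpa using hgap' u)
  obtain ⟨hℓ, hperp⟩ := Crest.Agent.R335.gap_simple (q := qS) (n := nS) (fun u v => hq _ _)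
    (fun u v => hn _ _) (fun u => hn0 _)
    (fun u h => Subtype.ext (hn1 _ h)) hE hun hueq (ℓ := ℓS) (K := K) hgap'
  -- sign
  obtain ⟨s, hs, hsℓ⟩ : ∃ s : ℝ, s ^ 2 = 1 ∧ 0 < ℓ (s • (u : H)) := by
    rcases lt_or_gt_of_ne hℓ with h | h
    · refine ⟨-1, by norm_num, ?_⟩
      rw [map_smul, smul_eq_mul]
      have : ℓ (u : H) < 0 := h
      linarith
    · exact ⟨1, by norm_num, by simpa using (show 0 < ℓ (u : H) from h)⟩
  have hu := (mem_asec _ _ _ _ _).1 u.2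
  have heq : ∀ v : H, q (u : H) v = E₀ * n (u : H) v := by
    intro v
    have h1 := hueq ⟨asym C₁ C₂ σ π v, asym_mem h11 h22 h12 hσ hπ v⟩
    rw [qSa, nSa] at h1
    rw [form_asym hσ hπ q hq1 hq2 u.2 v, form_asym hσ hπ n hn1' hn2' u.2 v] at h1
    exact h1
  have hun' : n (u : H) (u : H) = 1 := hun
  refine ⟨s • (u : H), E₀, ?_, ?_, ?_, hsℓ, hE0φ, ?_, ?_⟩
  · rw [map_smul, hu.1, smul_comm]
  · rw [map_smul, hu.2, smul_comm]
  · simp only [map_smul, smul_apply, smul_eq_mul, hun']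
    rw [mul_one, ← sq, hs]
  · intro v
    simp only [map_smul, smul_apply, smul_eq_mul]
    rw [heq v]; ring
  · intro v hv1 hv2
    have hvS : v ∈ S := (mem_asec _ _ _ _ _).2 ⟨hv1, hv2⟩
    set a : ℝ := n (u : H) v with ha
    -- decomposition `v = a u + w`
    set w : H := v - a • (u : H) with hw
    have hwS : w ∈ S := S.sub_mem hvS (S.smul_mem _ u.2)
    have hnuw : n (u : H) w = 0 := by
      rw [hw, map_sub, map_smul, smul_eq_mul, hun', ← ha]; ring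
    have hp := hperp ⟨w, hwS⟩ hnuw
    rw [qSa, nSa] at hp
    simp only at hp
    have hvd : v = a • (u : H) + (1 : ℝ) • w := by rw [hw]; module
    have hqv : q v v = a ^ 2 * q (u : H) (u : H) + 2 * a * 1 * q (u : H) w + 1 ^ 2 * q w w := by
      conv_lhs => rw [hvd]
      exact form_expand q hq a 1 _ _
    have hnv : n v v = a ^ 2 * n (u : H) (u : H) + 2 * a * 1 * n (u : H) w + 1 ^ 2 * n w w := by
      conv_lhs => rw [hvd]
      exact form_expand n hn a 1 _ _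
    have hsa : (n (s • (u : H)) v) ^ 2 = a ^ 2 := by
      simp only [map_smul, smul_apply, smul_eq_mul]
      rw [← ha, mul_pow, hs, one_mul]
    rw [hsa, hqv, hnv, heq (u : H), heq w, hnuw, hun']
    nlinarith [hp]

end Sec
end Crest.Agent.R335
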