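import Crest.Agent.R335.IonSec
import Crest.Agent.R335.IonAbs

/-!
Row 335 (S0521), ION BLOCK (helper517): ground state of a symmetry sector (generic), final form.
-/

set_option autoImplicit false
set_option linter.unusedSectionVars false

open MeasureTheory Filter Set
open scoped ENNReal Topology ContDiff

noncomputable section
namespace Crest.Agent.R335
open H1S Sec

variable {ι : Type*} [Fintype ι] [DecidableEq ι]

local notation "E" => EuclideanSpace ℝ ι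

theorem Sec.compC_eq_iff (L : E ≃ₗᵢ[ℝ] E) (σ : ℝ) (P : H1S ι) :
    compC L P = σ • P ↔ ∀ᵐ x, fn P (L x) = σ * fn P x := by
  constructor
  · intro a
    have h2 := compC_fn L P
    rw [a] at h2
    filter_upwards [h2, smul_fn σ P] with x h3 h4
    rw [← h3, h4]
  · intro a
    apply ext'
    filter_upwards [compC_fn L P, smul_fn σ P, a] with x h2 h3 h4
    rw [h2, h3, h4]

theorem Sec.ae_sym_of {L : E ≃ₗᵢ[ℝ] E} {σ : ℝ} {f k : E → ℝ} (h : f =ᵐ[volume] k)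
    (hk : ∀ᵐ x, k (L x) = σ * k x) : ∀ᵐ x, f (L x) = σ * f x := by
  filter_upwards [h, ae_comp L h, hk] with x a b c
  rw [a, b, c]

/-- GROUND STATE OF A SECTOR. -/
theorem sector_exists {V : E → ℝ} {C c M : ℝ} (hV : H1S.FB V C) (hc : 0 < c)
    (hco : ∀ (f : E → ℝ) (g : E → E), H1 f g → c * ((∫ x, f x ^ 2) + ∫ x, ‖g x‖ ^ 2) ≤
      (1 / 2) * (∫ x, ‖g x‖ ^ 2) + (∫ x, V x * f x ^ 2) + M * ∫ x, f x ^ 2)
    {L₁ L₂ : E ≃ₗᵢ[ℝ] E} (h11 : ∀ x, L₁ (L₁ x) = x) (h22 : ∀ x, L₂ (L₂ x) = x)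
    (h12 : ∀ x, L₁ (L₂ x) = L₂ (L₁ x)) {σ π : ℝ} (hσ : σ = 1 ∨ σ = -1) (hπ : π = 1 ∨ π = -1)
    (hV1 : ∀ x, V (L₁ x) = V x) (hV2 : ∀ x, V (L₂ x) = V x)
    {φ : E → ℝ} {dφ : E → E} (hφ : H1 φ dφ) (hn : ∫ x, φ x ^ 2 = 1)
    (hφ1 : ∀ᵐ x, φ (L₁ x) = σ * φ x) (hφ2 : ∀ᵐ x, φ (L₂ x) = π * φ x) {E₁ K : ℝ}
    (hφE : (1 / 2) * (∫ x, ‖dφ x‖ ^ 2) + (∫ x, V x * φ x ^ 2) < E₁)
    (hgap : ∀ (k : E → ℝ) (dk : E → E), H1 k dk → (∀ᵐ x, k (L₁ x) = σ * k x) →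
      (∀ᵐ x, k (L₂ x) = π * k x) → E₁ * (∫ x, k x ^ 2) - K * (∫ x, φ x * k x) ^ 2 ≤
        (1 / 2) * (∫ x, ‖dk x‖ ^ 2) + ∫ x, V x * k x ^ 2) :
    ∃ (Φ : E → ℝ) (dΦ : E → E) (e : ℝ), H1 Φ dΦ ∧ (∫ x, Φ x ^ 2 = 1) ∧
      (∀ x, Φ (L₁ x) = σ * Φ x) ∧ (∀ x, Φ (L₂ x) = π * Φ x) ∧ 0 < ∫ x, φ x * Φ x ∧
      e ≤ (1 / 2) * (∫ x, ‖dφ x‖ ^ 2) + (∫ x, V x * φ x ^ 2) ∧
      (∀ (k : E → ℝ) (dk : E → E), H1 k dk →
        (1 / 2) * (∫ x, inner ℝ (dΦ x) (dk x)) + (∫ x, V x * (Φ x * k x)) = e * ∫ x, Φ x * k x) ∧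
      (∀ (k : E → ℝ) (dk : E → E), H1 k dk → (∀ᵐ x, k (L₁ x) = σ * k x) →
        (∀ᵐ x, k (L₂ x) = π * k x) →
        e * (∫ x, k x ^ 2) + (E₁ - e) * ((∫ x, k x ^ 2) - (∫ x, Φ x * k x) ^ 2) ≤
          (1 / 2) * (∫ x, ‖dk x‖ ^ 2) + ∫ x, V x * k x ^ 2) := by
  have hcoP : ∀ P : H1S ι, c * ‖P‖ ^ 2 ≤ qF hV P P + M * nF ι P P := by
    intro P
    have h1' := hco (fn P) (gd P) (h1 P)
    have h2 := norm_sq_eq P
    have h3 := qF_self hV P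
    have h4 := nF_self P
    refine le_of_eq_of_le (congrArg (fun t => c * t) h2) (le_of_le_of_eq h1' ?_)
    exact (congrArg₂ (fun a b => a + b) h3 (congrArg (fun t => M * t) h4)).symm
  have hφ1' : compC L₁ (of hφ) = σ • of hφ :=
    (Sec.compC_eq_iff L₁ σ _).2 (Sec.ae_sym_of (of_fn hφ) hφ1)
  have hφ2' : compC L₂ (of hφ) = π • of hφ :=
    (Sec.compC_eq_iff L₂ π _).2 (Sec.ae_sym_of (of_fn hφ) hφ2)
  have hqφ := qF_of_self hV hφ
  have hnφ : nF ι (of hφ) (of hφ) = 1 := (nF_of_self hφ).trans hn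
  have hgapP : ∀ u : H1S ι, compC L₁ u = σ • u → compC L₂ u = π • u →
      E₁ * nF ι u u - K * (ell hφ.memf u) ^ 2 ≤ qF hV u u := by
    intro u hu1 hu2
    have a1 := hgap (fn u) (gd u) (h1 u) ((Sec.compC_eq_iff L₁ σ u).1 hu1)
      ((Sec.compC_eq_iff L₂ π u).1 hu2)
    have h3 := qF_self hV u
    have h4 := nF_self u
    have h5 := ell_apply hφ.memf u
    refine le_of_eq_of_le ?_ (le_of_le_of_eq a1 h3.symm)
    exact congrArg₂ (fun a b => E₁ * a - K * b ^ 2) h4 h5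
  obtain ⟨u, e, hu1, hu2, hun, hℓ, he, heq, hsp⟩ := Sec.abs_sector (qF hV) (nF ι)
    (qF_symm hV) nF_symm nF_nonneg (fun u h => nF_eq_zero h) hc hcoP
    (compC_invol h11) (compC_invol h22) (compC_comm h12) (qF_comp hV L₁ hV1) (qF_comp hV L₂ hV2)
    (nF_comp L₁) (nF_comp L₂) hσ hπ hφ1' hφ2' hnφ (hqφ.trans_lt hφE) (ell hφ.memf) hgapP
  have hs1 := (Sec.compC_eq_iff L₁ σ u).1 hu1
  have hs2 := (Sec.compC_eq_iff L₂ π u).1 hu2
  have hsym : ∀ᵐ x, Sec.sym L₁ L₂ σ π (fn u) x = fn u x := Sec.sym_of_sec hσ hπ hs1 hs2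
  have hH : H1 (Sec.sym L₁ L₂ σ π (fn u)) (gd u) :=
    (h1 u).congr (by filter_upwards [hsym] with x hx; exact hx.symm) (EventuallyEq.refl _ _)
  refine ⟨Sec.sym L₁ L₂ σ π (fn u), gd u, e, hH, ?_, Sec.sym_L1 h11 h12 hσ _,
    Sec.sym_L2 h22 hπ _, ?_, ?_, ?_, ?_⟩
  · have h4 := nF_self u
    refine Eq.trans ?_ (h4.symm.trans hun)
    exact integral_congr_ae (by filter_upwards [hsym] with x hx; rw [hx])
  · have h5 := ell_apply hφ.memf u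
    refine lt_of_lt_of_eq (lt_of_lt_of_eq hℓ h5) ?_
    exact integral_congr_ae (by filter_upwards [hsym] with x hx; rw [hx])
  · exact he.trans_eq hqφ
  · intro k dk hk
    have h1' := heq (of hk)
    have h2 := qF_left_of hV u hk
    have h3 := nF_left_of u hk
    have h4 := (h2.symm.trans h1').trans (congrArg (fun t => e * t) h3)
    have e1 : ∫ x, V x * (Sec.sym L₁ L₂ σ π (fn u) x * k x) = ∫ x, V x * (fn u x * k x) :=
      integral_congr_ae (by filter_upwards [hsym] with x hx; rw [hx])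
    have e2 : ∫ x, Sec.sym L₁ L₂ σ π (fn u) x * k x = ∫ x, fn u x * k x :=
      integral_congr_ae (by filter_upwards [hsym] with x hx; rw [hx])
    rw [e1, e2]; exact h4
  · intro k dk hk hk1 hk2
    have b1 : compC L₁ (of hk) = σ • of hk :=
      (Sec.compC_eq_iff L₁ σ _).2 (Sec.ae_sym_of (of_fn hk) hk1)
    have b2 : compC L₂ (of hk) = π • of hk :=
      (Sec.compC_eq_iff L₂ π _).2 (Sec.ae_sym_of (of_fn hk) hk2)
    have h1' := hsp (of hk) b1 b2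
    have h2 := qF_of_self hV hk
    have h3 := nF_of_self hk
    have h4 := nF_left_of u hk
    have h5 : e * (∫ x, k x ^ 2) + (E₁ - e) * ((∫ x, k x ^ 2) - (∫ x, fn u x * k x) ^ 2) ≤
        (1 / 2) * (∫ x, ‖dk x‖ ^ 2) + ∫ x, V x * k x ^ 2 := by
      refine le_of_eq_of_le ?_ (le_of_le_of_eq h1' h2)
      exact (congrArg₂ (fun a b => e * a + (E₁ - e) * (a - b ^ 2)) h3 h4).symm
    have e2 : ∫ x, Sec.sym L₁ L₂ σ π (fn u) x * k x = ∫ x, fn u x * k x :=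
      integral_congr_ae (by filter_upwards [hsym] with x hx; rw [hx])
    rw [e2]; exact h5

/-- equality in Cauchy–Schwarz -/
theorem Sec.sq_eq_of_pair {f k : E → ℝ} (hf : MemLp f 2 volume) (hk : MemLp k 2 volume)
    (nf : ∫ x, f x ^ 2 = 1) (nk : ∫ x, k x ^ 2 = 1) (h : 1 ≤ (∫ x, f x * k x) ^ 2) :
    ∀ᵐ x, f x ^ 2 = k x ^ 2 := by
  set a : ℝ := ∫ x, f x * k x with ha
  have hfk : Integrable (fun x => f x * k x) := hf.integrable_mul hk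
  have hf2 : Integrable (fun x => f x ^ 2) := hf.integrable_sq
  have hk2 : Integrable (fun x => k x ^ 2) := hk.integrable_sq
  have e1 : ∫ x, (f x - a * k x) ^ 2 = 1 - a ^ 2 := by
    have : (fun x => (f x - a * k x) ^ 2) =
        fun x => f x ^ 2 - 2 * a * (f x * k x) + a ^ 2 * k x ^ 2 := by
      funext x; ring
    have i1 : Integrable (fun x => f x ^ 2 - 2 * a * (f x * k x)) := hf2.sub (hfk.const_mul _)
    rw [this, integral_add i1 (hk2.const_mul _),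
      integral_sub hf2 (hfk.const_mul _), integral_const_mul, integral_const_mul, nf, nk, ← ha]
    ring
  have h0 : 0 ≤ ∫ x, (f x - a * k x) ^ 2 := integral_nonneg fun x => sq_nonneg _
  have ha2 : a ^ 2 = 1 := le_antisymm (by linarith) h
  have h1 : ∫ x, (f x - a * k x) ^ 2 = 0 := by rw [e1, ha2]; ring
  have hI : Integrable (fun x => (f x - a * k x) ^ 2) := (hf.sub (hk.const_mul a)).integrable_sq
  rw [integral_eq_zero_iff_of_nonneg (fun x => sq_nonneg _) hI] at h1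
  filter_upwards [h1] with x hx
  have : f x = a * k x := by
    have hx' : (f x - a * k x) ^ 2 = 0 := hx
    have := pow_eq_zero_iff (two_ne_zero) |>.1 hx'
    linarith
  rw [this, mul_pow, ha2, one_mul]

theorem sector_sq_inv {V : E → ℝ} {C : ℝ} (hV : H1S.FB V C) {L₁ L₂ L : E ≃ₗᵢ[ℝ] E} {σ π : ℝ}
    (hc1 : ∀ x, L (L₁ x) = L₁ (L x)) (hc2 : ∀ x, L (L₂ x) = L₂ (L x)) (hVL : ∀ x, V (L x) = V x)
    {Φ : E → ℝ} {dΦ : E → E} {e g : ℝ} (hg : 0 < g) (hΦ : H1 Φ dΦ) (hn : ∫ x, Φ x ^ 2 = 1)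
    (h1 : ∀ x, Φ (L₁ x) = σ * Φ x) (h2 : ∀ x, Φ (L₂ x) = π * Φ x)
    (heq : ∀ (k : E → ℝ) (dk : E → E), H1 k dk →
      (1 / 2) * (∫ x, inner ℝ (dΦ x) (dk x)) + (∫ x, V x * (Φ x * k x)) = e * ∫ x, Φ x * k x)
    (hsp : ∀ (k : E → ℝ) (dk : E → E), H1 k dk → (∀ᵐ x, k (L₁ x) = σ * k x) →
        (∀ᵐ x, k (L₂ x) = π * k x) →
        e * (∫ x, k x ^ 2) + g * ((∫ x, k x ^ 2) - (∫ x, Φ x * k x) ^ 2) ≤
          (1 / 2) * (∫ x, ‖dk x‖ ^ 2) + ∫ x, V x * k x ^ 2) :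
    ∀ᵐ x, Φ (L x) ^ 2 = Φ x ^ 2 := by
  have hk := Sec.H1.compL hΦ L
  have e1 : ∫ x, Φ (L x) ^ 2 = 1 := (Sec.integral_comp L (fun x => Φ x ^ 2)).trans hn
  have e2 : ∫ x, ‖L.symm (dΦ (L x))‖ ^ 2 = ∫ x, ‖dΦ x‖ ^ 2 := by
    have : (fun x => ‖L.symm (dΦ (L x))‖ ^ 2) = fun x => ‖dΦ (L x)‖ ^ 2 := by
      funext x; rw [LinearIsometryEquiv.norm_map]
    rw [this]
    exact Sec.integral_comp L (fun x => ‖dΦ x‖ ^ 2)
  have e3 : ∫ x, V x * Φ (L x) ^ 2 = ∫ x, V x * Φ x ^ 2 := by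
    rw [← Sec.integral_comp L (fun x => V x * Φ x ^ 2)]
    exact integral_congr_ae (Eventually.of_forall fun x => by simp only [hVL])
  have hs := hsp _ _ hk (Eventually.of_forall fun x => by simp only [hc1, h1])
    (Eventually.of_forall fun x => by simp only [hc2, h2])
  have hq := heq Φ dΦ hΦ
  have e4 : ∫ x, inner ℝ (dΦ x) (dΦ x) = ∫ x, ‖dΦ x‖ ^ 2 :=
    integral_congr_ae (Eventually.of_forall fun x => by simp)
  have e5 : ∫ x, V x * (Φ x * Φ x) = ∫ x, V x * Φ x ^ 2 :=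
    integral_congr_ae (Eventually.of_forall fun x => by simp [sq])
  have e6 : ∫ x, Φ x * Φ x = 1 := by
    rw [← hn]; exact integral_congr_ae (Eventually.of_forall fun x => by simp [sq])
  rw [e4, e5, e6] at hq
  rw [e1, e2, e3, hq] at hs
  have h3 : 1 ≤ (∫ x, Φ x * Φ (L x)) ^ 2 := by nlinarith
  have := Sec.sq_eq_of_pair hΦ.memf hk.memf hn e1 h3
  filter_upwards [this] with x hx
  exact hx.symm

end Crest.Agent.R335
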