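import Crest.Agent.R335.HHardy
import Crest.Agent.R335.HSpace
import Crest.Agent.R335.BDefs

/-!
Row 335 (S0521), THREE-BODY BLOCK: form bounds of the scaled Coulomb potential `V9 D lam`.
-/

set_option autoImplicit false
set_option linter.unusedSectionVars false

open MeasureTheory Filter Set Crest.MathPhysics.ThreeBody
open scoped ENNReal Topology ContDiff

noncomputable section
namespace Crest.Agent.R335.Th
open Crest.Agent.R335

theorem integral_add3 {α : Type*} [MeasurableSpace α] {μ : Measure α} {a b c : α → ℝ}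
    (ha : Integrable a μ) (hb : Integrable b μ) (hc : Integrable c μ) :
    ∫ x, (a x + b x + c x) ∂μ = (∫ x, a x ∂μ) + (∫ x, b x ∂μ) + ∫ x, c x ∂μ := by
  have h1 := integral_add (f := fun x => a x + b x) (ha.add hb) hc
  rw [integral_add ha hb] at h1
  exact h1

/-- electron repulsion of the three electrons (without the coupling) -/
def W9 (x : Config3) : ℝ :=
  1 / ‖elPos 0 x - elPos 1 x‖ + 1 / ‖elPos 0 x - elPos 2 x‖ + 1 / ‖elPos 1 x - elPos 2 x‖

theorem V9_eq (D lam : ℝ) (x : Config3) : V9 D lam x = V9 D 0 x + lam * W9 x := by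
  unfold V9 W9
  ring

theorem W9_nonneg (x : Config3) : 0 ≤ W9 x := by
  unfold W9
  positivity

/-- `elPos i` as a continuous linear map -/
def elL (i : Fin 3) : Config3 →L[ℝ] Pos3 :=
  LinearMap.toContinuousLinearMap
    { toFun := fun x => elPos i x
      map_add' := fun x y => by ext c; simp [elPos]
      map_smul' := fun r x => by ext c; simp [elPos] }

theorem elL_apply (i : Fin 3) (x : Config3) : elL i x = elPos i x := rfl

theorem elPos_apply (i : Fin 3) (x : Config3) (c : Fin 3) : elPos i x c = x (i, c) := rfl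

theorem elL_single (i c : Fin 3) :
    elL i (EuclideanSpace.single (i, c) (1 : ℝ)) = EuclideanSpace.single c (1 : ℝ) := by
  ext d
  rw [elL_apply, elPos_apply]
  simp [Pi.single_apply]

theorem elL_single_ne {i j : Fin 3} (hij : i ≠ j) (c : Fin 3) :
    elL j (EuclideanSpace.single (i, c) (1 : ℝ)) = 0 := by
  ext d
  rw [elL_apply, elPos_apply]
  have : ¬ (j = i ∧ d = c) := fun h => hij h.1.symm
  simp [Pi.single_apply, this]

/-- squared partial gradient of the electron `i` -/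
def gi (i : Fin 3) (g : Config3 → Config3) (x : Config3) : ℝ :=
  ∑ c, (inner ℝ (g x) (EuclideanSpace.single (i, c) (1 : ℝ))) ^ 2

theorem gi_eq (i : Fin 3) (g : Config3 → Config3) (x : Config3) :
    gi i g x = ∑ c, (g x (i, c)) ^ 2 := by
  unfold gi
  refine Finset.sum_congr rfl fun c _ => ?_
  rw [EuclideanSpace.inner_single_right]
  simp

theorem sum_gi (g : Config3 → Config3) (x : Config3) : ∑ i, gi i g x = ‖g x‖ ^ 2 := by
  simp_rw [gi_eq]
  rw [EuclideanSpace.real_norm_sq_eq, Fintype.sum_prod_type]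

theorem gi_nonneg (i : Fin 3) (g : Config3 → Config3) (x : Config3) : 0 ≤ gi i g x := by
  rw [gi_eq]
  exact Finset.sum_nonneg fun c _ => sq_nonneg _

theorem gi_integrable (i : Fin 3) {g : Config3 → Config3} (hg : MemLp g 2 volume) :
    Integrable (gi i g) := Hd.integrable_gsq (e := fun c => EuclideanSpace.single (i, c) (1 : ℝ)) hg

theorem integral_gi (g : Config3 → Config3) (hg : MemLp g 2 volume) :
    (∫ x, gi 0 g x) + (∫ x, gi 1 g x) + (∫ x, gi 2 g x) = ∫ x, ‖g x‖ ^ 2 := by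
  rw [← integral_add3 (gi_integrable 0 hg) (gi_integrable 1 hg) (gi_integrable 2 hg)]
  refine integral_congr_ae (Eventually.of_forall fun x => ?_)
  show gi 0 g x + gi 1 g x + gi 2 g x = ‖g x‖ ^ 2
  rw [← sum_gi g x, Fin.sum_univ_three]

theorem gi_integral_le (i : Fin 3) (g : Config3 → Config3) (hg : MemLp g 2 volume) :
    ∫ x, gi i g x ≤ ∫ x, ‖g x‖ ^ 2 := by
  rw [← integral_gi g hg]
  have h : ∀ j, 0 ≤ ∫ x, gi j g x := fun j => integral_nonneg fun x => gi_nonneg j g x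
  fin_cases i
  · have := h 1; have := h 2; simp only [Fin.zero_eta]; linarith
  · have := h 0; have := h 2; simp only [Fin.mk_one]; linarith
  · have := h 0; have := h 1; simp only [Fin.reduceFinMk]; linarith

/-- one nucleus, one electron -/
theorem nuc_le (i : Fin 3) {f : Config3 → ℝ} {g : Config3 → Config3} (h : H1 f g) (a : Pos3)
    {ε : ℝ} (hε : 0 < ε) : Integrable (fun x => f x ^ 2 / ‖elPos i x - a‖) ∧
      ∫ x, f x ^ 2 / ‖elPos i x - a‖ ≤ ε * (∫ x, gi i g x) + ε⁻¹ * ∫ x, f x ^ 2 :=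
  coulomb_le h (elL i) (fun c => EuclideanSpace.single (i, c) (1 : ℝ)) (elL_single i) a hε

theorem nuc_hardy (i : Fin 3) {f : Config3 → ℝ} {g : Config3 → Config3} (h : H1 f g) (a : Pos3) :
    Integrable (fun x => f x ^ 2 / ‖elPos i x - a‖ ^ 2) ∧
      ∫ x, f x ^ 2 / ‖elPos i x - a‖ ^ 2 ≤ 4 * ∫ x, gi i g x :=
  hardy h (elL i) (fun c => EuclideanSpace.single (i, c) (1 : ℝ)) (elL_single i) a

theorem pair_single {i j : Fin 3} (hij : i ≠ j) (c : Fin 3) :
    (elL i - elL j) (EuclideanSpace.single (i, c) (1 : ℝ)) = EuclideanSpace.single c (1 : ℝ) := by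
  rw [_root_.sub_apply, elL_single, elL_single_ne hij, sub_zero]

/-- a pair of electrons -/
theorem pair_le {i j : Fin 3} (hij : i ≠ j) {f : Config3 → ℝ} {g : Config3 → Config3} (h : H1 f g)
    {ε : ℝ} (hε : 0 < ε) : Integrable (fun x => f x ^ 2 / ‖elPos i x - elPos j x‖) ∧
      ∫ x, f x ^ 2 / ‖elPos i x - elPos j x‖ ≤ ε * (∫ x, gi i g x) + ε⁻¹ * ∫ x, f x ^ 2 := by
  have := coulomb_le h (elL i - elL j) (fun c => EuclideanSpace.single (i, c) (1 : ℝ))
    (pair_single hij) 0 hε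
  simp only [_root_.sub_apply, elL_apply, sub_zero] at this
  exact this

theorem pair_hardy {i j : Fin 3} (hij : i ≠ j) {f : Config3 → ℝ} {g : Config3 → Config3}
    (h : H1 f g) : Integrable (fun x => f x ^ 2 / ‖elPos i x - elPos j x‖ ^ 2) ∧
      ∫ x, f x ^ 2 / ‖elPos i x - elPos j x‖ ^ 2 ≤ 4 * ∫ x, gi i g x := by
  have := hardy h (elL i - elL j) (fun c => EuclideanSpace.single (i, c) (1 : ℝ))
    (pair_single hij) 0
  simp only [_root_.sub_apply, elL_apply, sub_zero] at this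
  exact this

theorem V2_electron (D : ℝ) (i : Fin 3) {f : Config3 → ℝ} {g : Config3 → Config3} (h : H1 f g)
    {ε : ℝ} (hε : 0 < ε) : Integrable (fun x => V2 D (elPos i x) * f x ^ 2) ∧
      - (2 * ε * (∫ x, gi i g x) + 2 * ε⁻¹ * ∫ x, f x ^ 2) ≤ ∫ x, V2 D (elPos i x) * f x ^ 2 ∧
      ∫ x, V2 D (elPos i x) * f x ^ 2 ≤ 0 := by
  obtain ⟨h1, h2⟩ := nuc_le i h (nuc D) hε
  obtain ⟨h3, h4⟩ := nuc_le i h (nuc (-D)) hε
  have e : ∀ x, V2 D (elPos i x) * f x ^ 2 =
      - (f x ^ 2 / ‖elPos i x - nuc D‖ + f x ^ 2 / ‖elPos i x - nuc (-D)‖) := by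
    intro x; unfold V2; ring
  have h5 : 0 ≤ ∫ x, f x ^ 2 / ‖elPos i x - nuc D‖ := integral_nonneg fun x => by positivity
  have h6 : 0 ≤ ∫ x, f x ^ 2 / ‖elPos i x - nuc (-D)‖ := integral_nonneg fun x => by positivity
  simp_rw [e]
  refine ⟨(h1.add h3).neg, ?_, ?_⟩
  · rw [integral_neg, integral_add h1 h3]; linarith
  · rw [integral_neg, integral_add h1 h3]; linarith

theorem V90_eq (D : ℝ) (f : Config3 → ℝ) (x : Config3) : V9 D 0 x * f x ^ 2 =
    V2 D (elPos 0 x) * f x ^ 2 + V2 D (elPos 1 x) * f x ^ 2 + V2 D (elPos 2 x) * f x ^ 2 := by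
  unfold V9; ring

theorem V90_int (D : ℝ) {f : Config3 → ℝ} {g : Config3 → Config3} (h : H1 f g) {ε : ℝ}
    (hε : 0 < ε) : Integrable (fun x => V9 D 0 x * f x ^ 2) ∧
      - (2 * ε * (∫ x, ‖g x‖ ^ 2) + 6 * ε⁻¹ * ∫ x, f x ^ 2) ≤ ∫ x, V9 D 0 x * f x ^ 2 ∧
      ∫ x, V9 D 0 x * f x ^ 2 ≤ 0 := by
  obtain ⟨a0, b0, c0⟩ := V2_electron D 0 h hε
  obtain ⟨a1, b1, c1⟩ := V2_electron D 1 h hε
  obtain ⟨a2, b2, c2⟩ := V2_electron D 2 h hε
  simp_rw [V90_eq]
  refine ⟨(a0.add a1).add a2, ?_, ?_⟩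
  · rw [integral_add3 a0 a1 a2, ← integral_gi g h.memg]
    linarith
  · rw [integral_add3 a0 a1 a2]
    linarith

theorem W9_int {f : Config3 → ℝ} {g : Config3 → Config3} (h : H1 f g) :
    Integrable (fun x => W9 x * f x ^ 2) ∧ 0 ≤ ∫ x, W9 x * f x ^ 2 ∧
      ∫ x, W9 x * f x ^ 2 ≤ 3 * ((∫ x, f x ^ 2) + ∫ x, ‖g x‖ ^ 2) := by
  obtain ⟨a0, b0⟩ := pair_le (show (0 : Fin 3) ≠ 1 by decide) h one_pos
  obtain ⟨a1, b1⟩ := pair_le (show (0 : Fin 3) ≠ 2 by decide) h one_pos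
  obtain ⟨a2, b2⟩ := pair_le (show (1 : Fin 3) ≠ 2 by decide) h one_pos
  have e : ∀ x, W9 x * f x ^ 2 = f x ^ 2 / ‖elPos 0 x - elPos 1 x‖ +
      f x ^ 2 / ‖elPos 0 x - elPos 2 x‖ + f x ^ 2 / ‖elPos 1 x - elPos 2 x‖ := by
    intro x; unfold W9; ring
  have h0 := gi_integral_le 0 g h.memg
  have h1 := gi_integral_le 1 g h.memg
  refine ⟨?_, integral_nonneg fun x => mul_nonneg (W9_nonneg x) (sq_nonneg _), ?_⟩
  · simp_rw [e]
    exact (a0.add a1).add a2
  · simp_rw [e]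
    rw [integral_add3 a0 a1 a2]
    norm_num at b0 b1 b2
    linarith

theorem V90_FB (D : ℝ) : H1S.FB (V9 D 0) 6 where
  int := fun f g h => (V90_int D h one_pos).1
  le := fun f g h => by
    obtain ⟨-, h2, h3⟩ := V90_int D h one_pos
    have h4 : 0 ≤ ∫ x, f x ^ 2 := integral_nonneg fun x => sq_nonneg _
    have h5 : 0 ≤ ∫ x, ‖g x‖ ^ 2 := integral_nonneg fun x => sq_nonneg _
    norm_num at h2
    rw [abs_le]
    constructor <;> linarith

theorem W9_FB : H1S.FB W9 3 where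
  int := fun f g h => (W9_int h).1
  le := fun f g h => by
    obtain ⟨-, h2, h3⟩ := W9_int h
    rw [abs_of_nonneg h2]
    exact h3

theorem V9_FB (D : ℝ) {lam : ℝ} (h0 : 0 ≤ lam) (h1 : lam ≤ 1) : H1S.FB (V9 D lam) 9 where
  int := fun f g h => by
    have := ((V90_int D h one_pos).1).add ((W9_int h).1.const_mul lam)
    refine this.congr (Eventually.of_forall fun x => ?_)
    simp only [Pi.add_apply]
    rw [V9_eq D lam]; ring
  le := fun f g h => by
    have h2 := (V90_FB D).le f g h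
    have h3 := W9_FB.le f g h
    have e : ∫ x, V9 D lam x * f x ^ 2 = (∫ x, V9 D 0 x * f x ^ 2) + lam * ∫ x, W9 x * f x ^ 2 := by
      rw [← integral_const_mul, ← integral_add ((V90_int D h one_pos).1) ((W9_int h).1.const_mul lam)]
      refine integral_congr_ae (Eventually.of_forall fun x => ?_)
      simp only
      rw [V9_eq D lam]; ring
    rw [e]
    have h4 : 0 ≤ ∫ x, f x ^ 2 := integral_nonneg fun x => sq_nonneg _
    have h5 : 0 ≤ ∫ x, ‖g x‖ ^ 2 := integral_nonneg fun x => sq_nonneg _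
    have h6 : |lam * ∫ x, W9 x * f x ^ 2| ≤ 3 * ((∫ x, f x ^ 2) + ∫ x, ‖g x‖ ^ 2) := by
      rw [abs_mul, abs_of_nonneg h0]
      calc lam * |∫ x, W9 x * f x ^ 2| ≤ 1 * |∫ x, W9 x * f x ^ 2| :=
            mul_le_mul_of_nonneg_right h1 (abs_nonneg _)
        _ ≤ _ := by rw [one_mul]; exact h3
    calc |(∫ x, V9 D 0 x * f x ^ 2) + lam * ∫ x, W9 x * f x ^ 2| ≤
        |∫ x, V9 D 0 x * f x ^ 2| + |lam * ∫ x, W9 x * f x ^ 2| := abs_add_le _ _
      _ ≤ _ := by linarith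

theorem V90_coercive (D : ℝ) {f : Config3 → ℝ} {g : Config3 → Config3} (h : H1 f g) :
    1 / 4 * ((∫ x, f x ^ 2) + ∫ x, ‖g x‖ ^ 2) ≤
      (1 / 2) * (∫ x, ‖g x‖ ^ 2) + (∫ x, V9 D 0 x * f x ^ 2) + 49 * ∫ x, f x ^ 2 := by
  obtain ⟨-, h2, -⟩ := V90_int D h (show (0 : ℝ) < 1 / 8 by norm_num)
  have h4 : 0 ≤ ∫ x, f x ^ 2 := integral_nonneg fun x => sq_nonneg _
  norm_num at h2
  linarith

theorem V9_split (D : ℝ) {lam : ℝ} {f : Config3 → ℝ} {g : Config3 → Config3}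
    (h : H1 f g) : ∫ x, V9 D lam x * f x ^ 2 =
      (∫ x, V9 D 0 x * f x ^ 2) + lam * ∫ x, W9 x * f x ^ 2 := by
  rw [← integral_const_mul, ← integral_add ((V90_int D h one_pos).1) ((W9_int h).1.const_mul lam)]
  refine integral_congr_ae (Eventually.of_forall fun x => ?_)
  simp only
  rw [V9_eq D lam]; ring

theorem V9_coercive (D : ℝ) {lam : ℝ} (h0 : 0 ≤ lam) {f : Config3 → ℝ} {g : Config3 → Config3}
    (h : H1 f g) : 1 / 4 * ((∫ x, f x ^ 2) + ∫ x, ‖g x‖ ^ 2) ≤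
      (1 / 2) * (∫ x, ‖g x‖ ^ 2) + (∫ x, V9 D lam x * f x ^ 2) + 49 * ∫ x, f x ^ 2 := by
  rw [V9_split D h]
  have := V90_coercive D h
  have := mul_nonneg h0 (W9_int h).2.1
  linarith

end Crest.Agent.R335.Th
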