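import Crest.Agent.R335.BIonC
import Crest.Agent.R335.BPar

/-!
Row 335 (S0521), THREE-BODY BLOCK: the product state `ψ₀ = (u ∧ g) ⊗ g` at `λ = 0` (helper870).
-/

set_option autoImplicit false
set_option linter.unusedSectionVars false
set_option linter.unusedVariables false

open MeasureTheory Filter Set Crest.MathPhysics.ThreeBody
open scoped ENNReal Topology ContDiff

noncomputable section
namespace Crest.Agent.R335
namespace ThP

section gen
variable {ι κ κ' : Type*} [Fintype ι] [DecidableEq ι] [Fintype κ] [DecidableEq κ]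
  [Fintype κ'] [DecidableEq κ']

local notation "E" => EuclideanSpace ℝ ι

/-- half of a product equation: `(h f)(x) k(y)` tested with `w`; `G` is "`V f`" -/
theorem half {e : ℝ} (p : ι ≃ κ ⊕ κ') {f G : EuclideanSpace ℝ κ → ℝ}
    {k : EuclideanSpace ℝ κ' → ℝ}
    {df : EuclideanSpace ℝ κ → EuclideanSpace ℝ κ} (hf : H1 f df) (hG : MemLp G 2 volume)
    (hk : MemLp k 2 volume)
    (heq : ∀ w m, H1 w m → (1 / 2) * (∫ x, inner ℝ (df x) (m x)) + (∫ x, G x * w x) =
      e * ∫ x, f x * w x)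
    {w : E → ℝ} {dw : E → E} (hw : H1 w dw) :
    Integrable (fun X : E => inner ℝ (k (pr2 p X) • df (pr1 p X)) (pr1 p (dw X))) ∧
    Integrable (fun X : E => (G (pr1 p X) * k (pr2 p X)) * w X) ∧
    (1 / 2) * (∫ X : E, inner ℝ (k (pr2 p X) • df (pr1 p X)) (pr1 p (dw X))) +
      (∫ X : E, (G (pr1 p X) * k (pr2 p X)) * w X) =
      e * ∫ X : E, f (pr1 p X) * k (pr2 p X) * w X := by
  have m1 : MemLp (fun X : E => k (pr2 p X) • df (pr1 p X)) 2 volume :=
    HS.memLp_tensor_smul' p hf.memg hk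
  have m2 : MemLp (fun X : E => pr1 p (dw X)) 2 volume := memLp_pr1 p hw.memg
  have i1 : Integrable (fun X : E => inner ℝ (k (pr2 p X) • df (pr1 p X)) (pr1 p (dw X))) :=
    (m1.norm.integrable_mul m2.norm).mono' (m1.1.inner m2.1)
      (Eventually.of_forall fun X => norm_inner_le_norm _ _)
  have m3 : MemLp (fun X : E => G (pr1 p X) * k (pr2 p X)) 2 volume :=
    HS.memLp_tensor p hG hk
  have i2 : Integrable (fun X : E => (G (pr1 p X) * k (pr2 p X)) * w X) :=
    m3.integrable_mul hw.memf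
  have m4 : MemLp (fun X : E => f (pr1 p X) * k (pr2 p X)) 2 volume :=
    HS.memLp_tensor p hf.memf hk
  have i3 : Integrable (fun X : E => f (pr1 p X) * k (pr2 p X) * w X) :=
    m4.integrable_mul hw.memf
  refine ⟨i1, i2, ?_⟩
  rw [integral_jn' p i1, integral_jn' p i2, integral_jn' p i3, ← integral_const_mul,
    ← integral_const_mul]
  have j1 : Integrable (fun y : EuclideanSpace ℝ κ' => ∫ x, inner ℝ (k (pr2 p (jn p x y)) •
      df (pr1 p (jn p x y))) (pr1 p (dw (jn p x y)))) :=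
    ((integrable_jn p).2 i1).integral_prod_right
  have j2 : Integrable (fun y : EuclideanSpace ℝ κ' => ∫ x, (G (pr1 p (jn p x y)) *
      k (pr2 p (jn p x y))) * w (jn p x y)) :=
    ((integrable_jn p).2 i2).integral_prod_right
  rw [← integral_add (j1.const_mul _) j2]
  refine integral_congr_ae ?_
  filter_upwards [H1.slice_left p hw] with y hy
  simp only [pr1_jn, pr2_jn]
  have h := heq _ _ hy
  calc _ = k y * ((1 / 2) * (∫ x, inner ℝ (df x) (pr1 p (dw (jn p x y)))) +
        ∫ x, G x * w (jn p x y)) := by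
        rw [mul_add, ← integral_const_mul (k y) (fun x => G x * w (jn p x y)),
          mul_left_comm, ← integral_const_mul (k y)]
        congr 1
        · congr 2
          funext x
          rw [real_inner_smul_left]
        · congr 1
          funext x
          ring
    _ = k y * (e * ∫ x, f x * w (jn p x y)) := by rw [h]
    _ = _ := by
      rw [mul_left_comm, ← integral_const_mul (k y)]
      congr 2
      funext x
      ring

/-- product of two eigenfunctions -/
theorem prod {e e' : ℝ} (p : ι ≃ κ ⊕ κ') {f G : EuclideanSpace ℝ κ → ℝ}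
    {k K : EuclideanSpace ℝ κ' → ℝ}
    {df : EuclideanSpace ℝ κ → EuclideanSpace ℝ κ}
    {dk : EuclideanSpace ℝ κ' → EuclideanSpace ℝ κ'}
    (hf : H1 f df) (hG : MemLp G 2 volume) (hk : H1 k dk) (hK : MemLp K 2 volume)
    (heq : ∀ w m, H1 w m → (1 / 2) * (∫ x, inner ℝ (df x) (m x)) + (∫ x, G x * w x) =
      e * ∫ x, f x * w x)
    (heq' : ∀ w m, H1 w m → (1 / 2) * (∫ x, inner ℝ (dk x) (m x)) + (∫ x, K x * w x) =
      e' * ∫ x, k x * w x)
    {w : E → ℝ} {dw : E → E} (hw : H1 w dw) :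
    (1 / 2) * (∫ X : E, inner ℝ (jn p (k (pr2 p X) • df (pr1 p X)) (f (pr1 p X) • dk (pr2 p X)))
      (dw X)) + (∫ X : E, (G (pr1 p X) * k (pr2 p X) + K (pr2 p X) * f (pr1 p X)) * w X) =
      (e + e') * ∫ X : E, f (pr1 p X) * k (pr2 p X) * w X := by
  obtain ⟨a1, a2, a3⟩ := half p hf hG hk.memf heq hw
  obtain ⟨b1, b2, b3⟩ := half (p.trans (Equiv.sumComm _ _)) hk hK hf.memf heq' hw
  have c1 : ∀ X : E, pr1 (p.trans (Equiv.sumComm _ _)) X = pr2 p X := fun X => by
    ext c; simp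
  have c2 : ∀ X : E, pr2 (p.trans (Equiv.sumComm _ _)) X = pr1 p X := fun X => by
    ext c; simp
  simp only [c1, c2] at b1 b2 b3
  have j1 : (∫ X : E, inner ℝ (jn p (k (pr2 p X) • df (pr1 p X)) (f (pr1 p X) • dk (pr2 p X)))
      (dw X)) = (∫ X : E, inner ℝ (k (pr2 p X) • df (pr1 p X)) (pr1 p (dw X))) +
        ∫ X : E, inner ℝ (f (pr1 p X) • dk (pr2 p X)) (pr2 p (dw X)) := by
    rw [← integral_add a1 b1]
    congr 1; funext x; rw [inner_jn_pr]
  have j2 : (∫ X : E, (G (pr1 p X) * k (pr2 p X) + K (pr2 p X) * f (pr1 p X)) * w X) =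
      (∫ X : E, (G (pr1 p X) * k (pr2 p X)) * w X) +
        ∫ X : E, (K (pr2 p X) * f (pr1 p X)) * w X := by
    rw [← integral_add a2 b2]
    congr 1; funext x; ring
  have j4 : (∫ X : E, k (pr2 p X) * f (pr1 p X) * w X) =
      ∫ X : E, f (pr1 p X) * k (pr2 p X) * w X := by
    congr 1; funext x; ring
  rw [j1, j2]
  rw [j4] at b3
  linarith

theorem integral_tensor (p : ι ≃ κ ⊕ κ') (F : EuclideanSpace ℝ κ → ℝ)
    (G : EuclideanSpace ℝ κ' → ℝ) :
    ∫ X : E, F (pr1 p X) * G (pr2 p X) = (∫ x, F x) * ∫ y, G y := by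
  have h := (measurePreserving_jn p).integral_comp (measurableEmbedding_jn p)
    (fun X : E => F (pr1 p X) * G (pr2 p X))
  rw [← h]
  simp only [pr1_jn, pr2_jn]
  exact integral_prod_mul F G

end gen

/-- splitting: electron `2` / electrons `0, 1` -/
def pc : Fin 3 × Fin 3 ≃ Fin 3 ⊕ (Fin 2 × Fin 3) :=
  (Equiv.prodCongr (finRotate 3) (Equiv.refl _)).trans p9

theorem pr1_pc (x : Config3) : pr1 pc x = elPos 2 x := by
  ext c
  rfl

theorem el0_pc (x : Config3) : el 0 (pr2 pc x) = elPos 0 x := by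
  ext c
  rfl

theorem el1_pc (x : Config3) : el 1 (pr2 pc x) = elPos 1 x := by
  ext c
  rfl

theorem psi0_eq (g u : Pos3 → ℝ) (x : Config3) :
    psi0 g u x = g (pr1 pc x) * phT g u (pr2 pc x) := by
  unfold psi0 phT
  rw [pr1_pc, el0_pc, el1_pc]
  ring

theorem phT_V {D : ℝ} {g u : Pos3 → ℝ} {dg du : Pos3 → Pos3} (hg : H1 g dg) (hu : H1 u du) :
    MemLp (fun ξ => Vion D 0 ξ * phT g u ξ) 2 volume := by
  have vg := (V2_memLp D hg).1
  have vu := (V2_memLp D hu).1
  have a1 := memLp_el vu hg.memf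
  have a2 := memLp_el vg hu.memf
  have a3 := memLp_el hu.memf vg
  have a4 := memLp_el hg.memf vu
  have := (((a1.add a3).sub (a2.add a4)).const_mul (1 / √2))
  refine this.ae_eq (Eventually.of_forall fun ξ => ?_)
  simp only [Pi.add_apply, Pi.sub_apply]
  unfold Vion phT
  rw [zero_div]
  ring

end ThP

open ThP in
/-- the product state `ψ₀ = (u ∧ g) ⊗ g` at `λ = 0` -/
theorem psi0_state {D : ℝ} {g u : Pos3 → ℝ} {dg du : Pos3 → Pos3} {eg eu e3 : ℝ}
    (ob : OneBody D g u dg du eg eu e3) :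
    ∃ d0 : Config3 → Config3, H1 (psi0 g u) d0 ∧ (∫ x, psi0 g u x ^ 2 = 1) ∧
      (∀ x, psi0 g u (permConfig (Equiv.swap 0 1) x) = - psi0 g u x) ∧
      (∀ x, psi0 g u (r9 x) = - psi0 g u x) ∧
      (∀ k dk, H1 k dk → q3 D 0 (psi0 g u) d0 k dk = (2 * eg + eu) * ∫ x, psi0 g u x * k x) := by
  obtain ⟨dT, hT⟩ := ob.phT_prod
  have hten := H1.tensor pc ob.hg hT.h1
  have he : psi0 g u = fun X => g (pr1 pc X) * phT g u (pr2 pc X) := by
    funext x; exact psi0_eq g u x
  refine ⟨_, he ▸ hten, ?_, ?_, ?_, ?_⟩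
  · rw [he]
    have h := integral_tensor pc (fun x => g x ^ 2) (fun ξ => phT g u ξ ^ 2)
    rw [ob.ng, hT.nrm, mul_one] at h
    rw [← h]
    congr 1
    funext x
    ring
  · intro x
    have e : ∀ i, elPos i (permConfig (Equiv.swap 0 1) x) = elPos (Equiv.swap 0 1 i) x :=
      fun i => rfl
    unfold psi0
    rw [e, e, e, Equiv.swap_apply_left, Equiv.swap_apply_right,
      Equiv.swap_apply_of_ne_of_ne (by decide) (by decide)]
    ring
  · intro x
    unfold psi0
    simp only [elPos_r9, ob.g_even, ob.u_odd]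
    ring
  · intro k dk hk
    have h1 : ∀ w m, H1 w m → (1 / 2) * (∫ x, inner ℝ (dg x) (m x)) +
        (∫ x, (V2 D x * g x) * w x) = eg * ∫ x, g x * w x := fun w m hw => by
      have := ob.g_eq w m hw
      unfold B2 at this
      rw [← this]
      congr 2
      funext x
      ring
    have h2 : ∀ w m, H1 w m → (1 / 2) * (∫ x, inner ℝ (dT x) (m x)) +
        (∫ x, (Vion D 0 x * phT g u x) * w x) = (eg + eu) * ∫ x, phT g u x * w x := fun w m hw => by
      have := hT.eq w m hw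
      unfold k2 at this
      exact this
    have key := ThP.prod pc ob.hg (V2_memLp D ob.hg).1 hT.h1 (phT_V (D := D) ob.hg ob.hu) h1 h2 hk
    unfold q3
    have e1 : (∫ x, V9 D 0 x * psi0 g u x * k x) = ∫ X : Config3, ((V2 D (pr1 pc X) *
        g (pr1 pc X)) * phT g u (pr2 pc X) + (Vion D 0 (pr2 pc X) * phT g u (pr2 pc X)) *
        g (pr1 pc X)) * k X := by
      congr 1
      funext x
      rw [psi0_eq]
      unfold V9 Vion
      rw [pr1_pc, el0_pc, el1_pc]
      ring
    have e2 : (∫ x, psi0 g u x * k x) = ∫ X : Config3, g (pr1 pc X) * phT g u (pr2 pc X) * k X := by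
      rw [he]
    rw [e1, e2]
    have e3 : 2 * eg + eu = eg + (eg + eu) := by ring
    rw [e3]
    exact key

end Crest.Agent.R335
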