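import Crest.Agent.R335.IonLow
import Crest.Agent.R335.ThProd
import Crest.Agent.R335.ThForm

/-!
Row 335 (S0521), THREE-BODY BLOCK: `H_0 ≥ E₀ + ω (1 - |ψ₀⟩⟨ψ₀|)` on the antisymmetric sector
(helper192).  Splitting `pc`: electron `2` / electrons `0, 1`.
-/

set_option autoImplicit false
set_option linter.unusedSectionVars false

open MeasureTheory Filter Set Crest.MathPhysics.ThreeBody
open scoped ENNReal Topology ContDiff

noncomputable section
namespace Crest.Agent.R335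
namespace Th
open IonL ThP

/-! ### `L²` inequalities for one splitting -/

section gen
variable {ι κ κ' : Type*} [Fintype ι] [DecidableEq ι] [Fintype κ] [DecidableEq κ]
  [Fintype κ'] [DecidableEq κ']

local notation "E" => EuclideanSpace ℝ ι
local notation "E1" => EuclideanSpace ℝ κ
local notation "E2" => EuclideanSpace ℝ κ'

/-- Bessel in the second variable, one vector, integrated -/
theorem bessel_R1 (p : ι ≃ κ ⊕ κ') {h : E2 → ℝ} {f : E → ℝ} (hh : MemLp h 2 volume)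
    (hf : MemLp f 2 volume) (nh : ∫ x, h x ^ 2 = 1) :
    (∫ x, IonL.cR p h f x ^ 2) ≤ ∫ X, f X ^ 2 := by
  rw [integral_jn p hf.integrable_sq]
  refine integral_mono_ae (cR_memLp p hh hf).integrable_sq (slice_sq_int p hf) ?_
  filter_upwards [MemLp.slice_right p hf] with x hx
  exact bessel1 hh hx nh

/-- `A_g + A_h ≤ n + ⟨g ⊗ h, f⟩²` -/
theorem two_le (p : ι ≃ κ ⊕ κ') {g : E1 → ℝ} {h : E2 → ℝ} {f : E → ℝ} (hg : MemLp g 2 volume)
    (hh : MemLp h 2 volume) (hf : MemLp f 2 volume) (ng : ∫ x, g x ^ 2 = 1)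
    (nh : ∫ x, h x ^ 2 = 1) :
    (∫ y, cL p g f y ^ 2) + (∫ x, IonL.cR p h f x ^ 2) ≤ (∫ X, f X ^ 2) + cc p g h f ^ 2 := by
  have h1 := bessel_R1 p hh (rem1_memLp p hg hf) nh
  rw [rem1_norm p hg hf ng] at h1
  have key : ∫ x, IonL.cR p h (rem1 p g f) x ^ 2 =
      (∫ x, IonL.cR p h f x ^ 2) - cc p g h f ^ 2 := by
    have := oneD1 hg (cR_memLp p hh hf) ng
    rw [pair_cR p hg hh hf] at this
    rw [← this]
    refine integral_congr_ae ?_
    filter_upwards [cR_rem1 p hg hh hf] with x hx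
    rw [hx]
  rw [key] at h1
  linarith

/-- Bessel in the first variable -/
theorem bessel_L (p : ι ≃ κ ⊕ κ') {g u : E1 → ℝ} {f : E → ℝ} (hg : MemLp g 2 volume)
    (hu : MemLp u 2 volume) (hf : MemLp f 2 volume) (ng : ∫ x, g x ^ 2 = 1)
    (nu : ∫ x, u x ^ 2 = 1) (gu : ∫ x, g x * u x = 0) :
    (∫ y, cL p g f y ^ 2) + (∫ y, cL p u f y ^ 2) ≤ ∫ X, f X ^ 2 := by
  have h1 := rem2_norm p hg hu hf ng nu gu
  have h2 : 0 ≤ ∫ X, rem2 p g u f X ^ 2 := integral_nonneg fun x => sq_nonneg _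
  linarith

/-- lower bound of the form in the second group of coordinates, from a lower bound for (almost)
every slice -/
theorem slice_form (p : ι ≃ κ ⊕ κ') {V : E2 → ℝ} {h : E2 → ℝ} (hh : MemLp h 2 volume)
    {a b : ℝ} {k : E → ℝ} {dk : E → E} (hk : H1 k dk)
    (hV : Integrable (fun X : E => V (pr2 p X) * k X ^ 2))
    (hs : ∀ᵐ x : E1, a * (∫ y, k (jn p x y) ^ 2) - b * (∫ y, h y * k (jn p x y)) ^ 2 ≤
      (1 / 2) * (∫ y, ‖pr2 p (dk (jn p x y))‖ ^ 2) + ∫ y, V y * k (jn p x y) ^ 2) :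
    a * (∫ X, k X ^ 2) - b * (∫ x, IonL.cR p h k x ^ 2) ≤
      (1 / 2) * (∫ X, ‖pr2 p (dk X)‖ ^ 2) + ∫ X, V (pr2 p X) * k X ^ 2 := by
  have m1 := memLp_pr2 p hk.memg
  have i1 : Integrable (fun X => ‖pr2 p (dk X)‖ ^ 2) := m1.norm.integrable_sq
  have iN := slice_sq_int p hk.memf
  have iG := (cR_memLp p hh hk.memf).integrable_sq
  have j1 : Integrable (fun x => ∫ y, ‖pr2 p (dk (jn p x y))‖ ^ 2) :=
    ((integrable_jn p).2 i1).integral_prod_left
  have j2 : Integrable (fun x => ∫ y, V (pr2 p (jn p x y)) * k (jn p x y) ^ 2) :=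
    ((integrable_jn p).2 hV).integral_prod_left
  have j3 : Integrable (fun x => (1 / 2) * ∫ y, ‖pr2 p (dk (jn p x y))‖ ^ 2) := j1.const_mul _
  have a1 : Integrable (fun x => a * ∫ y, k (jn p x y) ^ 2) := iN.const_mul _
  have a2 : Integrable (fun x => b * IonL.cR p h k x ^ 2) := iG.const_mul _
  have hL : ∫ x, (a * (∫ y, k (jn p x y) ^ 2) - b * IonL.cR p h k x ^ 2) =
      a * (∫ x, ∫ y, k (jn p x y) ^ 2) - b * ∫ x, IonL.cR p h k x ^ 2 := by
    rw [integral_sub a1 a2, integral_const_mul, integral_const_mul]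
  have hR : ∫ x, ((1 / 2) * (∫ y, ‖pr2 p (dk (jn p x y))‖ ^ 2) +
      ∫ y, V (pr2 p (jn p x y)) * k (jn p x y) ^ 2) =
      (1 / 2) * (∫ x, ∫ y, ‖pr2 p (dk (jn p x y))‖ ^ 2) +
      ∫ x, ∫ y, V (pr2 p (jn p x y)) * k (jn p x y) ^ 2 := by
    rw [integral_add j3 j2, integral_const_mul]
  rw [integral_jn p i1, integral_jn p hV, integral_jn p hk.memf.integrable_sq, ← hL, ← hR]
  refine integral_mono_ae (a1.sub a2) (j3.add j2) ?_
  filter_upwards [hs] with x hx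
  simp only [pr2_jn]
  exact hx

end gen

/-! ### two electrons, antisymmetric -/

variable {D eg eu e3 : ℝ} {g u : Pos3 → ℝ} {dg du : Pos3 → Pos3}

theorem gu_zero (ob : OneBody D g u dg du eg eu e3) : ∫ x, g x * u x = 0 := by
  have h : ∫ x, g (rz x) * u (rz x) = ∫ x, g x * u x :=
    (rz.measurePreserving).integral_comp rz.toHomeomorph.measurableEmbedding
      (fun x => g x * u x)
  have h2 : ∫ x, g (rz x) * u (rz x) = - ∫ x, g x * u x := by
    rw [← integral_neg]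
    congr 1
    ext x
    rw [ob.g_even, ob.u_odd]; ring
  linarith

theorem low0_anti (ob : OneBody D g u dg du eg eu e3)
    {k : Y2 → ℝ} {dk : Y2 → Y2} (hk : H1 k dk) (hex : ∀ᵐ ξ, k (sxi ξ) = (-1) * k ξ) :
    (eg + e3) * (∫ X, k X ^ 2) - (e3 - eu) * (∫ ξ, phT g u ξ * k ξ) ^ 2 ≤ k2 D 0 k dk k dk := by
  have h := IonF.low0 ob (gu_zero ob) hk
  have c1 := IonF.cc_ex (f := g) (h := g) hex
  have c2 := IonF.cc_ex (f := u) (h := u) hex
  have c3 := IonF.cc_ex (f := g) (h := u) hex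
  have d1 : cc p6 g g k = 0 := by linarith
  have d2 : cc p6 u u k = 0 := by linarith
  have d3 : cc p6 g u k = - cc p6 u g k := by linarith
  have hP : (∫ ξ, phT g u ξ * k ξ) ^ 2 = 2 * cc p6 u g k ^ 2 := by
    rw [IonF.pair_phT ob hk.memf, div_pow, Real.sq_sqrt (by norm_num : (0 : ℝ) ≤ 2), d3]
    ring
  rw [d1, d2, d3] at h
  rw [hP]
  linarith

theorem jn_pc_swap (X : Pos3) (ξ : Y2) :
    permConfig (Equiv.swap 0 1) (jn pc X ξ) = jn pc X (sxi ξ) := by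
  have h1 : pr1 pc (permConfig (Equiv.swap 0 1) (jn pc X ξ)) = X := by
    rw [pr1_pc, elPos_permConfig]
    have : (Equiv.swap (0 : Fin 3) 1) 2 = 2 := by decide
    rw [this, ← pr1_pc, pr1_jn]
  have h2 : pr2 pc (permConfig (Equiv.swap 0 1) (jn pc X ξ)) = sxi ξ := by
    ext ⟨j, c⟩
    rw [sxi_apply]
    have e : ∀ y : Config3, ∀ j c, pr2 pc y (j, c) = el j (pr2 pc y) c := fun _ _ _ => rfl
    fin_cases j
    · show pr2 pc (permConfig (Equiv.swap 0 1) (jn pc X ξ)) (0, c) = ξ (Equiv.swap 0 1 0, c)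
      rw [e, el0_pc, elPos_permConfig]
      have : (Equiv.swap (0 : Fin 3) 1) 0 = 1 := by decide
      rw [this, ← el1_pc, pr2_jn]
      rfl
    · show pr2 pc (permConfig (Equiv.swap 0 1) (jn pc X ξ)) (1, c) = ξ (Equiv.swap 0 1 1, c)
      rw [e, el1_pc, elPos_permConfig]
      have : (Equiv.swap (0 : Fin 3) 1) 1 = 0 := by decide
      rw [this, ← el0_pc, pr2_jn]
      rfl
  rw [← jn_pr pc (permConfig (Equiv.swap 0 1) (jn pc X ξ)), h1, h2]

theorem V9_pc (D : ℝ) (x : Config3) : V9 D 0 x = V2 D (pr1 pc x) + Vion D 0 (pr2 pc x) := by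
  unfold V9 Vion
  rw [pr1_pc, el0_pc, el1_pc]
  ring

theorem V2_pc_int (D : ℝ) {k : Config3 → ℝ} {dk : Config3 → Config3} (hk : H1 k dk) :
    Integrable (fun X : Config3 => V2 D (pr1 pc X) * k X ^ 2) := by
  simp only [pr1_pc]
  exact (V2_electron D 2 hk one_pos).1

theorem Vion_pc_int (D : ℝ) {k : Config3 → ℝ} {dk : Config3 → Config3} (hk : H1 k dk) :
    Integrable (fun X : Config3 => Vion D 0 (pr2 pc X) * k X ^ 2) := by
  refine ((V90_int D hk one_pos).1.sub (V2_pc_int D hk)).congr (Eventually.of_forall fun x => ?_)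
  simp only [Pi.sub_apply]
  rw [V9_pc]; ring

/-- `H_0 ≥ E₀ + ω (1 - |ψ₀⟩⟨ψ₀|)` on the antisymmetric sector -/
theorem H0_low' (ob : OneBody D g u dg du eg eu e3) (hom : eu - eg ≤ e3 - eu)
    {k : Config3 → ℝ} {dk : Config3 → Config3} (h : H1 k dk)
    (ha : ∀ᵐ x, k (permConfig (Equiv.swap 0 1) x) = - k x) :
    (2 * eg + eu) * (∫ x, k x ^ 2) +
      (eu - eg) * ((∫ x, k x ^ 2) - (∫ x, psi0 g u x * k x) ^ 2) ≤ q3 D 0 k dk k dk := by
  obtain ⟨dT, hT⟩ := ob.phT_prod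
  have hgu := gu_zero ob
  -- electron 2
  have h1 := IonF.slice_gap pc ob h (V2_pc_int D h)
  -- electrons 0, 1
  have hae : ∀ᵐ X : Pos3, ∀ᵐ ξ : Y2, k (jn pc X (sxi ξ)) = (-1) * k (jn pc X ξ) := by
    have h2 : ∀ᵐ q : Pos3 × Y2 ∂(volume.prod volume),
        k (permConfig (Equiv.swap 0 1) (jn pc q.1 q.2)) = - k (jn pc q.1 q.2) :=
      (measurePreserving_jn pc).quasiMeasurePreserving.ae ha
    have h3 := Measure.ae_ae_of_ae_prod h2
    filter_upwards [h3] with X hX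
    filter_upwards [hX] with ξ hξ
    rw [← jn_pc_swap, hξ]; ring
  have h2 := slice_form pc (V := Vion D 0) (h := phT g u) hT.h1.memf (a := eg + e3) (b := e3 - eu)
    h (Vion_pc_int D h) (by
      filter_upwards [hae, H1.slice_right pc h] with X hX hS
      have := low0_anti ob hS hX
      unfold k2 at this
      simp only [real_inner_self_eq_norm_sq, mul_assoc, ← sq] at this
      exact this)
  have e1 : ∫ X, ‖dk X‖ ^ 2 = (∫ X, ‖pr1 pc (dk X)‖ ^ 2) + ∫ X, ‖pr2 pc (dk X)‖ ^ 2 := by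
    rw [← integral_add (memLp_pr1 pc h.memg).norm.integrable_sq
      (memLp_pr2 pc h.memg).norm.integrable_sq]
    congr 1; funext X
    exact norm_sq_jn pc (dk X)
  have e2 : ∫ X, V9 D 0 X * k X ^ 2 = (∫ X, V2 D (pr1 pc X) * k X ^ 2) +
      ∫ X, Vion D 0 (pr2 pc X) * k X ^ 2 := by
    rw [← integral_add (V2_pc_int D h) (Vion_pc_int D h)]
    congr 1; funext X
    rw [V9_pc]; ring
  have e3' : q3 D 0 k dk k dk = (1 / 2) * (∫ X, ‖dk X‖ ^ 2) + ∫ X, V9 D 0 X * k X ^ 2 := by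
    unfold q3
    simp only [real_inner_self_eq_norm_sq, mul_assoc, ← sq]
  have e4 : ∫ x, psi0 g u x * k x = cc pc g (phT g u) k := by
    unfold cc
    simp only [psi0_eq]
  have b1 := bessel_L pc ob.hg.memf ob.hu.memf h.memf ob.ng ob.nu hgu
  have b2 := bessel_R1 pc hT.h1.memf h.memf hT.nrm
  have b3 := two_le pc ob.hg.memf hT.h1.memf h.memf ob.ng hT.nrm
  rw [e3', e1, e2, e4]
  have hw : 0 ≤ eu - eg := by linarith [ob.eg_lt]
  have hb : 0 ≤ e3 - eu := by linarith [ob.eu_lt]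
  obtain ⟨n, hn⟩ : ∃ n : ℝ, n = ∫ x, k x ^ 2 := ⟨_, rfl⟩
  obtain ⟨Ag, hAg⟩ : ∃ n : ℝ, n = ∫ y, cL pc g k y ^ 2 := ⟨_, rfl⟩
  obtain ⟨Au, hAu⟩ : ∃ n : ℝ, n = ∫ y, cL pc u k y ^ 2 := ⟨_, rfl⟩
  obtain ⟨AT, hAT⟩ : ∃ n : ℝ, n = ∫ x, IonL.cR pc (phT g u) k x ^ 2 := ⟨_, rfl⟩
  obtain ⟨c, hc⟩ : ∃ n : ℝ, n = cc pc g (phT g u) k := ⟨_, rfl⟩
  rw [← hn, ← hAg, ← hAu] at h1
  rw [← hn, ← hAT] at h2
  rw [← hAg, ← hAu, ← hn] at b1
  rw [← hAT, ← hn] at b2
  rw [← hAg, ← hAT, ← hn, ← hc] at b3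
  rw [← hn, ← hc]
  have s1 : 0 ≤ (e3 - eu) * (n - Ag - Au) := mul_nonneg hb (by linarith)
  have s2 : (eu - eg) * (n - AT) ≤ (e3 - eu) * (n - AT) :=
    mul_le_mul_of_nonneg_right hom (by linarith)
  have s3 : 0 ≤ (eu - eg) * (n + c ^ 2 - AT - Ag) := mul_nonneg hw (by linarith)
  nlinarith [s1, s2, s3, h1, h2]

end Th

theorem H0_low {D : ℝ} {g u : Pos3 → ℝ} {dg du : Pos3 → Pos3} {eg eu e3 : ℝ}
    (ob : OneBody D g u dg du eg eu e3) (hom : eu - eg ≤ e3 - eu)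
    {k : Config3 → ℝ} {dk : Config3 → Config3} (h : H1 k dk)
    (ha : ∀ᵐ x, k (permConfig (Equiv.swap 0 1) x) = - k x) :
    (2 * eg + eu) * (∫ x, k x ^ 2) +
      (eu - eg) * ((∫ x, k x ^ 2) - (∫ x, psi0 g u x * k x) ^ 2) ≤ q3 D 0 k dk k dk :=
  Th.H0_low' ob hom h ha

end Crest.Agent.R335
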