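import Crest.Agent.R335.ThForm
import Crest.Agent.R335.ThGap
import Crest.Agent.R335.TClose
import Crest.Agent.R335.IonSec2
import Crest.Agent.R335.BPar
import Crest.Agent.R335.ThProd

/-!
Row 335 (S0521), THREE-BODY BLOCK: the theorem `three_exists` (helper192).
-/

set_option autoImplicit false
set_option linter.unusedSectionVars false
set_option maxHeartbeats 1000000

open MeasureTheory Filter Set Crest.MathPhysics.ThreeBody
open scoped ENNReal Topology ContDiff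

noncomputable section
namespace Crest.Agent.R335.Th
open Crest.Agent.R335

/-! ### abstract algebra -/

/-- shift of a form by an eigenvector -/
theorem shift_form {H : Type*} [NormedAddCommGroup H] [InnerProductSpace ℝ H]
    (q n : H →L[ℝ] H →L[ℝ] ℝ) (hq : ∀ u v, q u v = q v u) (hn : ∀ u v, n u v = n v u)
    {P : H} (hP1 : n P P = 1) {e : ℝ} (hP : ∀ v, q P v = e * n P v) (k h : H) (t : ℝ)
    (hh : h = k - t • P) {qh nh qk nk pk : ℝ} (r1 : q h h = qh) (r2 : n h h = nh)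
    (r3 : q k k = qk) (r4 : n k k = nk) (r5 : n P k = pk) :
    qh - e * nh = qk - e * nk ∧ nk - pk ^ 2 ≤ nh := by
  subst r1 r2 r3 r4 r5
  have hsm : ∀ (F : H →L[ℝ] H →L[ℝ] ℝ) (u : H), F u h = F u k - t * F u P := by
    intro F u
    rw [hh, map_sub, map_smul, smul_eq_mul]
  have hsm2 : ∀ (F : H →L[ℝ] H →L[ℝ] ℝ) (u : H), F h u = F k u - t * F P u := by
    intro F u
    rw [hh, map_sub, map_smul]
    rfl
  have e1 : q h h = q k k - 2 * t * (e * n P k) + t ^ 2 * e := by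
    rw [hsm2, hsm, hsm, hq k P, hP k, hP P, hP1]
    ring
  have e2 : n h h = n k k - 2 * t * n P k + t ^ 2 := by
    rw [hsm2, hsm, hsm, hn k P, hP1]
    ring
  constructor
  · rw [e1, e2]; ring
  · rw [e2]; nlinarith [sq_nonneg (t - n P k)]

variable {ι : Type*} [Fintype ι] [DecidableEq ι]
local notation "E" => EuclideanSpace ℝ ι

theorem qF_symm' {V : E → ℝ} {C : ℝ} (hV : H1S.FB V C) (P Q : H1S ι) :
    H1S.qF hV P Q = H1S.qF hV Q P := by
  have a1 : H1S.dF ι P Q = H1S.dF ι Q P := H1S.dF_symm P Q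
  have a2 : H1S.VF hV P Q = H1S.VF hV Q P := H1S.VF_symm hV P Q
  have a3 : H1S.qF hV P Q = (1 / 2) * H1S.dF ι P Q + H1S.VF hV P Q := H1S.qF_apply hV P Q
  have a4 : H1S.qF hV Q P = (1 / 2) * H1S.dF ι Q P + H1S.VF hV Q P := H1S.qF_apply hV Q P
  exact a3.trans ((congrArg₂ (fun a b => (1 / 2) * a + b) a1 a2).trans a4.symm)

/-- the same for functions -/
theorem shift_fun {V : E → ℝ} {C : ℝ} (hV : H1S.FB V C) {Φ : E → ℝ} {dΦ : E → E}
    (hΦ : H1 Φ dΦ) (hn : ∫ x, Φ x ^ 2 = 1) {e : ℝ}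
    (heq : ∀ (k : E → ℝ) (dk : E → E), H1 k dk →
      (1 / 2) * (∫ x, inner ℝ (dΦ x) (dk x)) + (∫ x, V x * (Φ x * k x)) = e * ∫ x, Φ x * k x)
    {k : E → ℝ} {dk : E → E} (hk : H1 k dk) (t : ℝ) :
    ((1 / 2) * (∫ x, ‖dk x - t • dΦ x‖ ^ 2) + (∫ x, V x * (k x - t * Φ x) ^ 2)) -
        e * (∫ x, (k x - t * Φ x) ^ 2) =
      ((1 / 2) * (∫ x, ‖dk x‖ ^ 2) + (∫ x, V x * k x ^ 2)) - e * (∫ x, k x ^ 2) ∧
    (∫ x, k x ^ 2) - (∫ x, Φ x * k x) ^ 2 ≤ ∫ x, (k x - t * Φ x) ^ 2 := by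
  have hX : H1S.of (hk.sub (hΦ.const_mul t)) = H1S.of hk - t • H1S.of hΦ := by
    have b1 := H1S.sub_of hk (hΦ.const_mul t)
    have b2 := H1S.smul_of hΦ t
    rw [b1, b2]
  have t2 : ∀ u v : H1S ι, H1S.nF ι u v = H1S.nF ι v u := H1S.nF_symm
  have hP1 : H1S.nF ι (H1S.of hΦ) (H1S.of hΦ) = 1 := (H1S.nF_of_self hΦ).trans hn
  have hP : ∀ v, H1S.qF hV (H1S.of hΦ) v = e * H1S.nF ι (H1S.of hΦ) v := fun v => by
    have a1 := H1S.qF_of_left hV hΦ v
    have a2 := H1S.nF_of_left hΦ v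
    rw [a1, a2]
    exact heq _ _ (H1S.h1 v)
  have d1 : H1S.qF hV (H1S.of (hk.sub (hΦ.const_mul t))) (H1S.of (hk.sub (hΦ.const_mul t))) =
      (1 / 2) * (∫ x, ‖dk x - t • dΦ x‖ ^ 2) + ∫ x, V x * (k x - t * Φ x) ^ 2 :=
    H1S.qF_of_self hV (hk.sub (hΦ.const_mul t))
  have d2 : H1S.nF ι (H1S.of (hk.sub (hΦ.const_mul t))) (H1S.of (hk.sub (hΦ.const_mul t))) =
      ∫ x, (k x - t * Φ x) ^ 2 := H1S.nF_of_self (hk.sub (hΦ.const_mul t))
  have d3 : H1S.qF hV (H1S.of hk) (H1S.of hk) =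
      (1 / 2) * (∫ x, ‖dk x‖ ^ 2) + ∫ x, V x * k x ^ 2 := H1S.qF_of_self hV hk
  have d4 : H1S.nF ι (H1S.of hk) (H1S.of hk) = ∫ x, k x ^ 2 := H1S.nF_of_self hk
  have d5 : H1S.nF ι (H1S.of hΦ) (H1S.of hk) = ∫ x, Φ x * k x := H1S.nF_of hΦ hk
  have t1 : ∀ u v : H1S ι, H1S.qF hV u v = H1S.qF hV v u := qF_symm' hV
  exact shift_form (H1S.qF hV) (H1S.nF ι) t1 t2 hP1 hP (H1S.of hk)
    (H1S.of (hk.sub (hΦ.const_mul t))) t hX d1 d2 d3 d4 d5

theorem cs_one {f k : E → ℝ} (hf : MemLp f 2 volume) (hk : MemLp k 2 volume)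
    (hn : ∫ x, f x ^ 2 = 1) : (∫ x, f x * k x) ^ 2 ≤ ∫ x, k x ^ 2 := by
  obtain ⟨t, ht⟩ : ∃ t : ℝ, t = ∫ x, f x * k x := ⟨_, rfl⟩
  have h0 : 0 ≤ ∫ x, (k x - t * f x) ^ 2 := integral_nonneg fun x => sq_nonneg _
  have hI1 : Integrable (fun x => k x ^ 2) := hk.integrable_sq
  have hI2 : Integrable (fun x => f x ^ 2) := hf.integrable_sq
  have hI3 : Integrable (fun x => f x * k x) := hf.integrable_mul hk
  have e1 : (fun x => (k x - t * f x) ^ 2) =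
      fun x => k x ^ 2 + (-(2 * t)) * (f x * k x) + t ^ 2 * f x ^ 2 := by
    ext x; ring
  rw [e1, integral_add3 hI1 (hI3.const_mul _) (hI2.const_mul _), integral_const_mul,
    integral_const_mul, ← ht, hn] at h0
  rw [← ht]
  nlinarith

theorem q3_eq (D lam : ℝ) (f : Config3 → ℝ) (df : Config3 → Config3) (k : Config3 → ℝ)
    (dk : Config3 → Config3) : q3 D lam f df k dk =
      (1 / 2) * (∫ x, inner ℝ (df x) (dk x)) + ∫ x, V9 D lam x * (f x * k x) := by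
  unfold q3
  simp only [mul_assoc]

theorem q3_self (D lam : ℝ) (f : Config3 → ℝ) (df : Config3 → Config3) : q3 D lam f df f df =
      (1 / 2) * (∫ x, ‖df x‖ ^ 2) + ∫ x, V9 D lam x * f x ^ 2 := by
  rw [q3_eq]
  simp only [real_inner_self_eq_norm_sq, ← sq]

end Crest.Agent.R335.Th

namespace Crest.Agent.R335
open Th

/-- the three-body ground state: existence, minimality, energy, `H¹` closeness -/
theorem three_exists {cg C0 : ℝ} (hcg : 0 < cg) (hC : 1 ≤ C0) : ∃ D₀ : ℝ, 4 ≤ D₀ ∧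
    ∀ D : ℝ, D₀ ≤ D → ∀ B : OBD cg C0 D, ∃ K l' : ℝ, 1 ≤ K ∧ 0 < l' ∧
      ∀ lam, 0 ≤ lam → lam ≤ l' → ∃ (E : ℝ) (ψ : Config3 → ℝ) (dψ d0 : Config3 → Config3),
        ThreeBody D lam E ψ dψ ∧ |E - (2 * B.eg + B.eu)| ≤ K * lam ∧
        (∀ k dk, H1 k dk → (∀ᵐ x, k (permConfig (Equiv.swap 0 1) x) = - k x) →
          E * (∫ x, k x ^ 2) + B.om / 2 * ((∫ x, k x ^ 2) - (∫ x, ψ x * k x) ^ 2) ≤
            q3 D lam k dk k dk) ∧
        H1 (psi0 B.g B.u) d0 ∧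
        ∫ x, (ψ x - psi0 B.g B.u x) ^ 2 ≤ (K * lam) ^ 2 ∧
        ∫ x, ‖dψ x - d0 x‖ ^ 2 ≤ (K * lam) ^ 2 := by
  refine ⟨max 4 (2 * C0 / cg), le_max_left _ _, ?_⟩
  intro D hD B
  have hD4 : 4 ≤ D := (le_max_left _ _).trans hD
  have hD2 : 2 * C0 / cg ≤ D := (le_max_right _ _).trans hD
  have hD0 : 0 < D := by linarith
  obtain ⟨d0, hd0, hn0, anti0, odd0, eq0⟩ := psi0_state B.ob
  have hom0 : 0 < B.om := sub_pos.2 B.ob.eg_lt
  have homdef : B.om = B.eu - B.eg := rfl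
  have hom : B.eu - B.eg ≤ (-(1 / 2) + cg) - B.eu := by
    have h1 := B.omle
    have h2 := abs_le.1 B.eu_near
    have h3 : C0 / D ≤ cg / 2 := by
      rw [div_le_iff₀ hcg] at hD2
      rw [div_le_iff₀ hD0]
      linarith
    linarith
  have hlow0 : ∀ (k : Config3 → ℝ) (dk : Config3 → Config3), H1 k dk →
      (∀ᵐ x, k (permConfig (Equiv.swap 0 1) x) = - k x) →
      (2 * B.eg + B.eu) * (∫ x, k x ^ 2) +
      B.om * ((∫ x, k x ^ 2) - (∫ x, psi0 B.g B.u x * k x) ^ 2) ≤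
        (1 / 2) * (∫ x, ‖dk x‖ ^ 2) + ∫ x, V9 D 0 x * k x ^ 2 := by
    intro k dk hk ha
    have := H0_low B.ob hom hk ha
    rw [Th.q3_self] at this
    exact this
  set w0 : ℝ := ∫ x, W9 x * psi0 B.g B.u x ^ 2 with hw0
  have hw00 : 0 ≤ w0 := (W9_int hd0).2.1
  have heq0 : ∀ (k : Config3 → ℝ) (dk : Config3 → Config3), H1 k dk →
      (1 / 2) * (∫ x, inner ℝ (d0 x) (dk x)) + (∫ x, V9 D 0 x * (psi0 B.g B.u x * k x)) =
        (2 * B.eg + B.eu) * ∫ x, psi0 B.g B.u x * k x := by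
    intro k dk hk
    rw [← Th.q3_eq]
    exact eq0 k dk hk
  have hE0 : (1 / 2) * (∫ x, ‖d0 x‖ ^ 2) + ∫ x, V9 D 0 x * psi0 B.g B.u x ^ 2 =
      2 * B.eg + B.eu := by
    have := eq0 _ _ hd0
    rw [Th.q3_self] at this
    rw [this]
    simp only [← sq]
    rw [hn0, mul_one]
  obtain ⟨K2, l2, hK2, hl2, hcl⟩ := first_order_close (V90_FB D) W9_FB (c := 1 / 4) (M := 49)
    (by norm_num) (by norm_num) (fun f g h => V90_coercive D h) hd0 hn0 heq0 hom0 hw00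
  set l' : ℝ := min (min 1 l2) (B.om / (2 * (w0 + 1))) with hl'
  have hl0 : 0 < l' := lt_min (lt_min one_pos hl2) (by positivity)
  refine ⟨K2 + w0, l', by linarith, hl0, ?_⟩
  intro lam h0 hlam
  have hlam1 : lam ≤ 1 := hlam.trans ((min_le_left _ _).trans (min_le_left _ _))
  have hlam2 : lam ≤ l2 := hlam.trans ((min_le_left _ _).trans (min_le_right _ _))
  have hlam3 : w0 * lam ≤ B.om / 2 := by
    have h1 : lam ≤ B.om / (2 * (w0 + 1)) := hlam.trans (min_le_right _ _)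
    rw [le_div_iff₀ (by positivity)] at h1
    nlinarith
  have hVle : ∀ (k : Config3 → ℝ) (dk : Config3 → Config3), H1 k dk →
      (∫ x, V9 D 0 x * k x ^ 2) ≤ ∫ x, V9 D lam x * k x ^ 2 := by
    intro k dk hk
    rw [V9_split D hk (lam := lam)]
    have := mul_nonneg h0 (W9_int hk).2.1
    linarith
  have hEψ0 : (1 / 2) * (∫ x, ‖d0 x‖ ^ 2) + (∫ x, V9 D lam x * psi0 B.g B.u x ^ 2) =
      2 * B.eg + B.eu + lam * w0 := by
    rw [V9_split D hd0 (lam := lam), ← hE0]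
    ring
  have hE1 : (1 / 2) * (∫ x, ‖d0 x‖ ^ 2) + (∫ x, V9 D lam x * psi0 B.g B.u x ^ 2) <
      2 * B.eg + B.eu + B.om := by
    rw [hEψ0]; nlinarith
  have hperm : ∀ x, permL (Equiv.swap 0 1) x = permConfig (Equiv.swap 0 1) x :=
    fun x => permL_apply _ x
  obtain ⟨Φ, dΦ, e, hΦ, hΦn, hΦ1, hΦ2, hΦp, hΦe, hΦeq, -⟩ := sector_exists (V := V9 D lam)
    (V9_FB D h0 hlam1) (c := 1 / 4) (M := 49) (by norm_num) (fun f g h => V9_coercive D h0 h)
    (L₁ := permL (Equiv.swap 0 1)) (L₂ := r9)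
    (fun x => by
      rw [hperm, hperm, permConfig_permConfig, Equiv.swap_mul_self, permConfig_one])
    (fun x => by ext jc; simp only [r9_apply]; split_ifs <;> simp)
    (fun x => by
      rw [hperm, hperm]
      ext ⟨i, c⟩
      simp only [r9_apply, permConfig_apply])
    (σ := -1) (π := -1) (Or.inr rfl) (Or.inr rfl)
    (fun x => by rw [hperm]; exact V9_perm D lam _ x) (fun x => V9_r9 D lam x)
    hd0 hn0 (Eventually.of_forall fun x => by rw [hperm, anti0]; ring)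
    (Eventually.of_forall fun x => by rw [odd0]; ring) (K := B.om) hE1
    (fun k dk hk h1 h2 => by
      have a1 := hlow0 k dk hk (h1.mono fun x hx => by rw [hperm] at hx; rw [hx]; ring)
      have a2 := hVle k dk hk
      nlinarith)
  have hΦa : ∀ x, Φ (permConfig (Equiv.swap 0 1) x) = - Φ x := by
    intro x
    have := hΦ1 x
    rw [hperm] at this
    rw [this]; ring
  have hΦo : ∀ x, Φ (r9 x) = - Φ x := by
    intro x
    rw [hΦ2]; ring
  -- energy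
  have hele : e ≤ 2 * B.eg + B.eu + lam * w0 := by rw [← hEψ0]; exact hΦe
  have heself : (1 / 2) * (∫ x, ‖dΦ x‖ ^ 2) + (∫ x, V9 D lam x * Φ x ^ 2) = e := by
    have := hΦeq _ _ hΦ
    simp only [real_inner_self_eq_norm_sq, ← sq] at this
    rw [this, hΦn, mul_one]
  have hege : 2 * B.eg + B.eu ≤ e := by
    have a1 := hlow0 Φ dΦ hΦ (Eventually.of_forall hΦa)
    have a2 := hVle Φ dΦ hΦ
    have a3 := cs_one hd0.memf hΦ.memf hn0
    rw [hΦn] at a1 a3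
    have a4 : 0 ≤ B.om * (1 - (∫ x, psi0 B.g B.u x * Φ x) ^ 2) :=
      mul_nonneg hom0.le (by linarith)
    linarith
  have habs : |e - (2 * B.eg + B.eu)| ≤ w0 * lam := by
    rw [abs_of_nonneg (by linarith)]
    nlinarith
  have hb0 : (∫ x, psi0 B.g B.u x * Φ x) ≠ 0 := hΦp.ne'
  have hI : ∀ {f k : Config3 → ℝ}, MemLp f 2 volume → MemLp k 2 volume →
      Integrable (fun x => f x * k x) := fun hf hk => hf.integrable_mul hk
  -- closeness
  have hgapX : (2 * B.eg + B.eu + B.om) * (∫ x, (Φ x - (∫ x, psi0 B.g B.u x * Φ x) *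
      psi0 B.g B.u x) ^ 2) ≤ (1 / 2) * (∫ x, ‖dΦ x - (∫ x, psi0 B.g B.u x * Φ x) • d0 x‖ ^ 2) +
          ∫ x, V9 D 0 x * (Φ x - (∫ x, psi0 B.g B.u x * Φ x) * psi0 B.g B.u x) ^ 2 := by
    set a : ℝ := ∫ x, psi0 B.g B.u x * Φ x with ha
    have a1 := hlow0 _ _ (hΦ.sub (hd0.const_mul a)) (Eventually.of_forall fun x => by
      rw [hΦa, anti0]; ring)
    have a2 : ∫ x, psi0 B.g B.u x * (Φ x - a * psi0 B.g B.u x) = 0 := by
      have e1 : (fun x => psi0 B.g B.u x * (Φ x - a * psi0 B.g B.u x)) =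
        fun x => psi0 B.g B.u x * Φ x - a * psi0 B.g B.u x ^ 2 := by
        ext x; ring
      rw [e1, integral_sub (hI hd0.memf hΦ.memf) (hd0.memf.integrable_sq.const_mul a),
        integral_const_mul, hn0, ← ha]
      ring
    rw [a2] at a1
    have a3 : (2 * B.eg + B.eu) * (∫ x, (Φ x - a * psi0 B.g B.u x) ^ 2) +
        B.om * ((∫ x, (Φ x - a * psi0 B.g B.u x) ^ 2) - 0 ^ 2) =
        (2 * B.eg + B.eu + B.om) * ∫ x, (Φ x - a * psi0 B.g B.u x) ^ 2 := by ring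
    rw [a3] at a1
    exact a1
  have hEq' : ∀ (k : Config3 → ℝ) (dk : Config3 → Config3), H1 k dk →
      (1 / 2) * (∫ x, inner ℝ (dΦ x) (dk x)) + (∫ x, V9 D 0 x * (Φ x * k x)) +
        lam * (∫ x, W9 x * (Φ x * k x)) = e * ∫ x, Φ x * k x := by
    intro k dk hk
    rw [← hΦeq k dk hk]
    have e1 : ∫ x, V9 D lam x * (Φ x * k x) = (∫ x, V9 D 0 x * (Φ x * k x)) +
        lam * ∫ x, W9 x * (Φ x * k x) := by
      rw [← integral_const_mul, ← integral_add ((V90_FB D).int2 hΦ hk)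
        ((W9_FB.int2 hΦ hk).const_mul lam)]
      congr 1
      ext x
      rw [Th.V9_eq D lam]; ring
    rw [e1]; ring
  obtain ⟨hc1, hc2⟩ := hcl lam h0 hlam2 Φ dΦ e hΦ hΦn hΦp hEq' habs hgapX
  have hKK : (K2 * lam) ^ 2 ≤ ((K2 + w0) * lam) ^ 2 := by
    apply pow_le_pow_left₀ (by positivity)
    nlinarith
  refine ⟨e, Φ, dΦ, d0, ⟨hΦ, hΦn, hΦa, hΦo, ?_⟩, ?_, ?_, hd0, hc1.trans hKK, hc2.trans hKK⟩
  · intro k dk hk
    rw [Th.q3_eq]
    exact hΦeq k dk hk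
  · refine habs.trans ?_
    nlinarith
  · intro k dk hk ha
    rw [Th.q3_self]
    obtain ⟨b, hb⟩ : ∃ b : ℝ, b = ∫ x, psi0 B.g B.u x * Φ x := ⟨_, rfl⟩
    rw [← hb] at hb0
    obtain ⟨t, ht⟩ : ∃ t : ℝ, t = (∫ x, psi0 B.g B.u x * k x) / b := ⟨_, rfl⟩
    obtain ⟨s1, s2⟩ := shift_fun (V9_FB D h0 hlam1) hΦ hΦn hΦeq hk t
    have a1 := hlow0 _ _ (hk.sub (hΦ.const_mul t)) (ha.mono fun x hx => by
      rw [hx, hΦa]; ring)
    have a2 := hVle _ _ (hk.sub (hΦ.const_mul t))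
    have a3 : ∫ x, psi0 B.g B.u x * (k x - t * Φ x) = 0 := by
      have e1 : (fun x => psi0 B.g B.u x * (k x - t * Φ x)) =
        fun x => psi0 B.g B.u x * k x - t * (psi0 B.g B.u x * Φ x) := by
        ext x; ring
      rw [e1, integral_sub (hI hd0.memf hk.memf) ((hI hd0.memf hΦ.memf).const_mul t),
        integral_const_mul, ← hb, ht]
      field_simp
      ring
    rw [a3] at a1
    obtain ⟨N, hN⟩ : ∃ N : ℝ, N = ∫ x, (k x - t * Φ x) ^ 2 := ⟨_, rfl⟩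
    have hN0 : 0 ≤ N := by rw [hN]; exact integral_nonneg fun x => sq_nonneg _
    rw [← hN] at a1 s1 s2
    have a4 : (B.om / 2) * N ≤ (2 * B.eg + B.eu + B.om - e) * N :=
      mul_le_mul_of_nonneg_right (by nlinarith) hN0
    have a5 : (B.om / 2) * ((∫ x, k x ^ 2) - (∫ x, Φ x * k x) ^ 2) ≤ (B.om / 2) * N :=
      mul_le_mul_of_nonneg_left s2 (by positivity)
    nlinarith

end Crest.Agent.R335
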