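import Crest.Agent.R335.KTest
import Crest.Agent.R335.HLip
import Crest.Agent.R335.HProd
import Crest.Agent.R335.HChain

/-!
Row 335 (S0521), family G: exterior estimate for the Poincaré inequality of `U²` (note of helper737).
-/

set_option autoImplicit false
set_option linter.unusedVariables false
set_option linter.unusedSectionVars false

open MeasureTheory Filter Set Crest.MathPhysics.ThreeBody
open scoped ENNReal Topology ContDiff NNReal

noncomputable section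
namespace Crest.Agent.R335

theorem BT.grad_zero {f : Pos3 → ℝ} {g : Pos3 → Pos3} (hf : BT f g) :
    ∀ᵐ x, f x = 0 → g x = 0 := by
  have h0 := WG.zero_of_level isOpen_univ hf.h1.wg 0
  rwa [Measure.restrict_univ] at h0

theorem BT.int_mul {f : Pos3 → ℝ} {g : Pos3 → Pos3} (hf : BT f g) {c : Pos3 → ℝ}
    (hc : AEStronglyMeasurable c volume) (hb : ∀ r : ℝ, ∃ M : ℝ, ∀ᵐ x, ‖x‖ ≤ r → |c x| ≤ M) :
    Integrable (fun x => c x * f x ^ 2) ∧ Integrable (fun x => c x * ‖g x‖ ^ 2) := by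
  obtain ⟨r, hr⟩ := hf.cpt
  obtain ⟨M, hM⟩ := hb r
  have i1 : Integrable (fun x => f x ^ 2) := hf.h1.memf.integrable_sq
  have i2 : Integrable (fun x => ‖g x‖ ^ 2) := hf.h1.memg.integrable_norm_pow (by norm_num)
  constructor
  · refine (i1.const_mul (max M 0)).mono' (hc.mul i1.aestronglyMeasurable) ?_
    filter_upwards [hr, hM] with x h1 h2
    rw [norm_mul, Real.norm_eq_abs, Real.norm_eq_abs, abs_of_nonneg (sq_nonneg (f x))]
    by_cases hx : r ≤ ‖x‖
    · simp [h1 hx]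
    · exact mul_le_mul_of_nonneg_right ((h2 (le_of_not_ge hx)).trans (le_max_left _ _))
        (sq_nonneg _)
  · refine (i2.const_mul (max M 0)).mono' (hc.mul i2.aestronglyMeasurable) ?_
    filter_upwards [hr, hM, hf.grad_zero] with x h1 h2 h3
    rw [norm_mul, Real.norm_eq_abs, Real.norm_eq_abs, abs_of_nonneg (sq_nonneg ‖g x‖)]
    by_cases hx : r ≤ ‖x‖
    · simp [h3 (h1 hx)]
    · exact mul_le_mul_of_nonneg_right ((h2 (le_of_not_ge hx)).trans (le_max_left _ _))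
        (sq_nonneg _)

theorem Amp.int_mul {s : Pos3 → ℝ} {gs : Pos3 → Pos3} (hs : Amp s gs) {f : Pos3 → ℝ}
    {g : Pos3 → Pos3} (hf : BT f g) :
    Integrable (fun x => s x ^ 2 * f x ^ 2) ∧ Integrable (fun x => s x ^ 2 * ‖g x‖ ^ 2) := by
  obtain ⟨C, hC⟩ := hs.bdd
  refine hf.int_mul (hs.cont.pow 2).aestronglyMeasurable fun r => ⟨C ^ 2, ?_⟩
  filter_upwards with x _
  rw [abs_of_nonneg (sq_nonneg _)]
  exact pow_le_pow_left₀ (hs.pos x).le (hC x) 2

section pair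
variable {s U w : Pos3 → ℝ} {gs gU gw : Pos3 → Pos3} {om : ℝ}

theorem PairAdm.U_le (hs : Amp s gs) (hp : PairAdm s U gU w gw) :
    ∃ C : ℝ, 0 ≤ C ∧ (∀ x, |U x| ≤ C) ∧ ∀ x, |w x| ≤ C := by
  obtain ⟨C, hC⟩ := hs.bdd
  have h0 : 0 ≤ C := (hs.pos 0).le.trans (hC 0)
  refine ⟨C, h0, fun x => ?_, fun x => ?_⟩
  · refine abs_le_of_sq_le_sq ?_ h0
    have := hp.sq x
    nlinarith [sq_nonneg (w x), hC x, (hs.pos x).le]
  · refine abs_le_of_sq_le_sq ?_ h0
    have := hp.sq x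
    nlinarith [sq_nonneg (U x), hC x, (hs.pos x).le]

theorem PairAdm.int_mulU (hs : Amp s gs) (hp : PairAdm s U gU w gw) {f : Pos3 → ℝ}
    {g : Pos3 → Pos3} (hf : BT f g) :
    Integrable (fun x => U x ^ 2 * f x ^ 2) ∧ Integrable (fun x => U x ^ 2 * ‖g x‖ ^ 2) := by
  obtain ⟨C, h0, hC, -⟩ := hp.U_le hs
  refine hf.int_mul (hp.hU.memf.1.pow 2) fun r => ⟨C ^ 2, ?_⟩
  filter_upwards with x _
  rw [abs_of_nonneg (sq_nonneg _), ← sq_abs]
  exact pow_le_pow_left₀ (abs_nonneg _) (hC x) 2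

end pair

/-- the slab `|z| < 1` -/
def Slab : Set Pos3 := {x : Pos3 | |x 2| < 1}

theorem measurableSet_Slab : MeasurableSet Slab := by
  have : Continuous fun x : Pos3 => |x 2| := by fun_prop
  exact measurableSet_lt this.measurable measurable_const

/-- exterior hypotheses -/
structure ExtHyp (s U w : Pos3 → ℝ) (e2 : Pos3 → ℝ) (R a cl cu cs κ0 : ℝ) : Prop where
  R1 : 1 ≤ R
  a0 : 0 < a
  cl0 : 0 < cl
  cu0 : 0 < cu
  cs0 : 0 < cs
  k0 : 0 < κ0
  e2c : Continuous e2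
  e2p : ∀ x, 0 ≤ e2 x
  slab : ∀ f g, BT f g → (∀ᵐ x : Pos3, ‖x‖ < R → f x = 0) →
    a ^ 2 * (∫ x in Slab, e2 x * f x ^ 2) ≤ ∫ x in Slab, e2 x * ‖g x‖ ^ 2
  lo : ∀ᵐ x : Pos3, |x 2| < 1 → R ≤ ‖x‖ → cl * e2 x ≤ U x ^ 2
  up : ∀ᵐ x : Pos3, |x 2| < 1 → R ≤ ‖x‖ → U x ^ 2 ≤ cu * e2 x
  bulk : ∀ᵐ x : Pos3, 1 / 2 ≤ |x 2| → R ≤ ‖x‖ → cs * s x ≤ |w x|
  hardy : ∀ f g, BT f g → (∀ᵐ x : Pos3, ‖x‖ < R → f x = 0) →
    κ0 * (∫ x, s x ^ 2 * f x ^ 2) ≤ ∫ x, s x ^ 2 * ‖g x‖ ^ 2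

/-- Lipschitz bounded compactly supported functions -/
theorem BT.of_lip {χ : Pos3 → ℝ} {K : ℝ≥0} (hχ : LipschitzWith K χ) {r : ℝ}
    (h0 : ∀ x, r ≤ ‖x‖ → χ x = 0) : BT χ (gr χ) ∧ ∀ x, ‖gr χ x‖ ≤ K := by
  obtain ⟨h1, h2⟩ := WG.of_lipschitz hχ
  have hcs : HasCompactSupport χ := by
    refine HasCompactSupport.of_support_subset_isCompact (isCompact_closedBall (0 : Pos3) r) ?_
    intro x hx
    rw [mem_closedBall_zero_iff]
    by_contra h
    exact hx (h0 x (le_of_not_ge h))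
  have hb : ∃ C : ℝ, ∀ x, ‖χ x‖ ≤ C := hχ.continuous.bounded_above_of_compact_support hcs
  obtain ⟨C, hC⟩ := hb
  refine ⟨⟨⟨hχ.continuous.memLp_of_hasCompactSupport hcs, ?_, h1⟩, ⟨C, ?_⟩, ⟨r, ?_⟩⟩, h2⟩
  · have hz := WG.zero_of_level isOpen_univ h1 0
    rw [Measure.restrict_univ] at hz
    have hm : AEStronglyMeasurable (gr χ) volume := (HL.measurable_gr χ).aestronglyMeasurable
    have hae : gr χ =ᵐ[volume] (Metric.closedBall (0 : Pos3) r).indicator (gr χ) := by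
      filter_upwards [hz] with x hx
      by_cases hxr : x ∈ Metric.closedBall (0 : Pos3) r
      · rw [indicator_of_mem hxr]
      · rw [indicator_of_notMem hxr]
        refine hx (h0 x ?_)
        rw [mem_closedBall_zero_iff] at hxr
        exact le_of_not_ge hxr
    rw [memLp_congr_ae hae, memLp_indicator_iff_restrict Metric.isClosed_closedBall.measurableSet]
    haveI : IsFiniteMeasure (volume.restrict (Metric.closedBall (0 : Pos3) r)) :=
      ⟨by rw [Measure.restrict_apply_univ]; exact measure_closedBall_lt_top⟩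
    exact MemLp.of_bound hm.restrict (K : ℝ) (ae_of_all _ h2)
  · exact ae_of_all _ fun x => by simpa using hC x
  · exact ae_of_all _ fun x hx => h0 x hx

/-- vertical cutoff -/
def zt (x : Pos3) : ℝ := max 0 (min 1 (2 * |x 2| - 1))

theorem zt_lip : LipschitzWith 2 zt := by
  have h1 : LipschitzWith 1 (fun x : Pos3 => x 2) := by
    refine LipschitzWith.of_dist_le_mul fun x y => ?_
    simp only [NNReal.coe_one, one_mul]
    rw [dist_eq_norm, dist_eq_norm]
    have := EuclideanSpace.norm_sq_eq (x - y)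
    have h2 : ‖x 2 - y 2‖ ^ 2 ≤ ‖x - y‖ ^ 2 := by
      rw [this]
      have : ‖(x - y) 2‖ ^ 2 ≤ ∑ i, ‖(x - y) i‖ ^ 2 :=
        Finset.single_le_sum (f := fun i => ‖(x - y) i‖ ^ 2) (fun i _ => sq_nonneg _)
          (Finset.mem_univ 2)
      simpa using this
    exact le_of_sq_le_sq h2 (norm_nonneg _)
  have h2 : LipschitzWith 2 (fun t : ℝ => max 0 (min 1 (2 * |t| - 1))) := by
    have a1 : LipschitzWith 1 (fun t : ℝ => |t|) := by
      refine LipschitzWith.of_dist_le_mul fun x y => ?_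
      rw [Real.dist_eq, Real.dist_eq]
      simpa using abs_abs_sub_abs_le x y
    have a2 : LipschitzWith 2 (fun t : ℝ => 2 * t - 1) := by
      refine LipschitzWith.of_dist_le_mul fun x y => ?_
      rw [Real.dist_eq, Real.dist_eq]
      have : (2 * x - 1 - (2 * y - 1)) = 2 * (x - y) := by ring
      rw [this, abs_mul]
      simp
    have a3 := a2.comp a1
    have a4 : LipschitzWith 2 (fun t : ℝ => min 1 (2 * |t| - 1)) := by
      have := a3.const_min 1
      simpa [Function.comp_def] using this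
    exact a4.const_max 0
  have h3 := h2.comp h1
  have h4 : (fun t : ℝ => max 0 (min 1 (2 * |t| - 1))) ∘ (fun x : Pos3 => x 2) = zt := by
    funext x; rfl
  rw [h4, mul_one] at h3
  exact h3

theorem zt_mem (x : Pos3) : 0 ≤ zt x ∧ zt x ≤ 1 := by
  unfold zt
  refine ⟨le_max_left _ _, ?_⟩
  exact max_le zero_le_one (min_le_left _ _)

theorem zt_one {x : Pos3} (h : 1 ≤ |x 2|) : zt x = 1 := by
  unfold zt
  rw [min_eq_left (by linarith), max_eq_right zero_le_one]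

theorem zt_zero {x : Pos3} (h : |x 2| ≤ 1 / 2) : zt x = 0 := by
  unfold zt
  rw [max_eq_left]
  exact (min_le_right _ _).trans (by linarith)

end Crest.Agent.R335
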