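import Crest.Agent.R335.PG1
import Crest.Agent.R335.GU1

/-!
Row 335 (S0521), part C.7: Hardy inequality in the slab `|z| < 1` for a radial decreasing weight,
by a horizontal vector field.
-/

set_option autoImplicit false

open MeasureTheory Filter Set Crest.MathPhysics.ThreeBody
open scoped ENNReal Topology ContDiff NNReal

noncomputable section
namespace Crest.Agent.R335

/-- composition with a `C¹` function on `[R, ∞)` -/
theorem LL.comp_Ici {k : Pos3 → ℝ} {l : Pos3 → Pos3} (h : LL k l) {R : ℝ} (hR : ∀ x, R ≤ k x)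
    {F F' : ℝ → ℝ} (hF : ∀ t, R ≤ t → HasDerivAt F (F' t) t) (hc : ContinuousOn F' (Ici R)) :
    LL (fun x => F (k x)) (fun x => F' (k x) • l x) := by
  have hFc : ContinuousOn F (Ici R) := fun t ht => (hF t ht).continuousAt.continuousWithinAt
  have key : ∀ {G : ℝ → ℝ}, ContinuousOn G (Ici R) → LocBdd (fun x => G (k x)) := by
    intro G hG ρ
    obtain ⟨C, hC⟩ := h.bdd ρ
    obtain ⟨M, hM⟩ := (isCompact_Icc (a := R) (b := C)).exists_bound_of_continuousOn
      (hG.mono Icc_subset_Ici_self)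
    exact ⟨M, fun x hx => by simpa using hM (k x) ⟨hR x, (le_abs_self _).trans (hC x hx)⟩⟩
  have hmeas : ∀ {G : ℝ → ℝ}, ContinuousOn G (Ici R) →
      AEStronglyMeasurable (fun x => G (k x)) volume := by
    intro G hG
    have h1 : Continuous (fun t : ℝ => G (max t R)) :=
      hG.comp_continuous (by fun_prop) (fun t => mem_Ici.2 (le_max_right t R))
    have h2 : (fun x => G (k x)) = fun x => G (max (k x) R) := by
      funext x
      rw [max_eq_left (hR x)]
    rw [h2]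
    exact h1.comp_aestronglyMeasurable h.aesm
  refine ⟨?_, key hFc, L2locV.pg_smul (hmeas hc) (key hc) h.loc⟩
  refine WG.of_local isOpen_univ fun x _ => ?_
  refine ⟨Metric.ball x 1, Metric.isOpen_ball, Metric.mem_ball_self one_pos, ?_⟩
  obtain ⟨C, hC⟩ := h.bdd (‖x‖ + 1)
  obtain ⟨M, hM⟩ := (isCompact_Icc (a := R) (b := C)).exists_bound_of_continuousOn
      (hc.mono Icc_subset_Ici_self)
  have hmem : ∀ y ∈ Metric.ball x 1, ‖y‖ ≤ ‖x‖ + 1 := by
    intro y hy
    have : ‖y - x‖ < 1 := by rwa [← dist_eq_norm]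
    calc ‖y‖ = ‖x + (y - x)‖ := by congr 1; abel
      _ ≤ ‖x‖ + ‖y - x‖ := norm_add_le _ _
      _ ≤ _ := by linarith
  refine WG.comp_on Metric.isOpen_ball (h.wg.mono (subset_univ (Metric.ball x 1)))
      (a := (R : EReal)) (b := (C : EReal)) (C := M) ?_ ?_ ?_ ?_
  · refine (ae_restrict_iff' measurableSet_ball).2 (Eventually.of_forall fun y hy => ⟨?_, ?_⟩)
    · exact_mod_cast hR y
    · exact_mod_cast (le_abs_self _).trans (hC y (hmem y hy))
  · intro t ht _
    exact hF t (by exact_mod_cast ht)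
  · refine hc.mono fun t ht => ?_
    exact_mod_cast ht.1
  · intro t ht ht'
    exact hM t ⟨by exact_mod_cast ht, by exact_mod_cast ht'⟩

/-- the integral of the gradient of a `BT` function vanishes -/
theorem BT.int_grad {φ : Pos3 → ℝ} {g : Pos3 → Pos3} (h : BT φ g) (i : Fin 3) :
    ∫ x, g x i = 0 := by
  obtain ⟨R, hR⟩ := h.cpt
  obtain ⟨C, _, hC⟩ := exists_cutoff_ball (ι := Fin 3)
  obtain ⟨χ, hχ, _, h1, _, _⟩ := hC (max R 0 + 2) (by
    have := le_max_right R 0; linarith)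
  have h2 := h.h1.wg.ibp χ hχ i
  have hpd : ∀ x : Pos3, ‖x‖ ≤ R → pd i χ x = 0 := by
    intro x hx
    have h3 : χ =ᶠ[𝓝 x] fun _ => (1 : ℝ) := by
      have h4 : ∀ᶠ y in 𝓝 x, ‖y‖ < max R 0 + 2 :=
        (continuous_norm.tendsto x).eventually (gt_mem_nhds (by
          have := le_max_left R 0; linarith))
      filter_upwards [h4] with y hy using h1 y hy.le
    unfold pd
    rw [h3.fderiv_eq]
    simp
  have h3 : ∫ x, φ x * pd i χ x = 0 := by
    refine integral_eq_zero_of_ae ?_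
    filter_upwards [hR] with x hx
    by_cases h4 : R ≤ ‖x‖
    · simp [hx h4]
    · simp [hpd x (not_le.1 h4).le]
  have h4 : ∫ x, g x i * χ x = ∫ x, g x i := by
    refine integral_congr_ae ?_
    filter_upwards [hR, h.gr_zero] with x hx hx'
    by_cases h4 : R ≤ ‖x‖
    · simp [hx' (hx h4)]
    · rw [h1 x (by have := le_max_left R 0; linarith [not_le.1 h4]), mul_one]
  rw [h3, h4] at h2
  linarith

theorem PG.pd_zero_of_line {h : Pos3 → ℝ} {i : Fin 3} {x : Pos3}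
    (hc : ∀ t : ℝ, h (x + t • EuclideanSpace.single i (1 : ℝ)) = h x) : pd i h x = 0 := by
  unfold pd
  by_cases hd : DifferentiableAt ℝ h x
  · have h1 : HasDerivAt (fun t : ℝ => x + t • EuclideanSpace.single i (1 : ℝ))
        (EuclideanSpace.single i (1 : ℝ)) 0 := by
      have := ((hasDerivAt_id (0 : ℝ)).smul_const (EuclideanSpace.single i (1 : ℝ))).const_add x
      simpa using this
    have h2 : HasFDerivAt h (fderiv ℝ h x) (x + (0 : ℝ) • EuclideanSpace.single i (1 : ℝ)) := by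
      simpa using hd.hasFDerivAt
    have h3 := h2.comp_hasDerivAt 0 h1
    have h4 : (h ∘ fun t : ℝ => x + t • EuclideanSpace.single i (1 : ℝ)) = fun _ => h x := by
      funext t
      exact hc t
    rw [h4] at h3
    exact h3.unique (hasDerivAt_const 0 (h x))
  · rw [fderiv_zero_of_not_differentiableAt hd]
    simp

theorem PG.coord_lip (i : Fin 3) : LipschitzWith 1 (fun x : Pos3 => x i) := by
  refine LipschitzWith.of_dist_le_mul fun x y => ?_
  simp only [NNReal.coe_one, one_mul]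
  rw [dist_eq_norm, dist_eq_norm]
  exact PiLp.norm_apply_le (x - y) i

theorem PG.gr_coord (i : Fin 3) (x : Pos3) :
    gr (fun x : Pos3 => x i) x = EuclideanSpace.single i (1 : ℝ) := by
  have h1 : HasFDerivAt (fun x : Pos3 => x i)
      (EuclideanSpace.proj i : Pos3 →L[ℝ] ℝ) x :=
    (EuclideanSpace.proj i : Pos3 →L[ℝ] ℝ).hasFDerivAt
  ext j
  rw [gr_apply]
  unfold pd
  rw [h1.fderiv]
  simp [eq_comm]

theorem LL.coord (i : Fin 3) :
    LL (fun x : Pos3 => x i) (fun _ => EuclideanSpace.single i (1 : ℝ)) :=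
  (LL.of_lipschitz (PG.coord_lip i)).congr (fun _ => rfl) (ae_of_all _ fun x => PG.gr_coord i x)

theorem PG.maxnorm_lip (R : ℝ) : LipschitzWith 1 (fun x : Pos3 => max ‖x‖ R) := by
  simpa using (lipschitzWith_one_norm (E := Pos3)).max_const R

theorem gr_maxnorm {R : ℝ} (hR : 0 ≤ R) {x : Pos3} (hx : R < ‖x‖) :
    gr (fun x : Pos3 => max ‖x‖ R) x = (1 / ‖x‖) • x := by
  have hx0 : x ≠ 0 := by
    intro h
    rw [h, norm_zero] at hx
    exact absurd hx (not_lt.2 hR)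
  have h1 : (fun x : Pos3 => max ‖x‖ R) =ᶠ[𝓝 x] fun x => ‖x‖ := by
    filter_upwards [(continuous_norm.tendsto x).eventually (lt_mem_nhds hx)] with y hy
    exact max_eq_left hy.le
  have h2 : HasFDerivAt (fun x : Pos3 => ‖x‖) (‖x‖⁻¹ • innerSL ℝ x) x := by
    have h3 : HasStrictFDerivAt (fun x : Pos3 => ‖x‖ ^ 2) (2 • (innerSL ℝ x)) x :=
      hasStrictFDerivAt_norm_sq x
    have h4 := h3.hasFDerivAt.sqrt (by positivity)
    have h5 : (fun y : Pos3 => √(‖y‖ ^ 2)) = fun y => ‖y‖ := by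
      funext y
      exact Real.sqrt_sq (norm_nonneg _)
    rw [h5] at h4
    refine h4.congr_fderiv ?_
    ext v
    simp only [_root_.smul_apply, smul_eq_mul, nsmul_eq_mul, Nat.cast_ofNat]
    rw [Real.sqrt_sq (norm_nonneg _)]
    field_simp
  ext j
  rw [gr_apply]
  unfold pd
  rw [h1.fderiv_eq, h2.fderiv]
  simp [EuclideanSpace.inner_single_right, one_div]

theorem BT.int_gi {φ : Pos3 → ℝ} {g : Pos3 → Pos3} (h : BT φ g) (i : Fin 3) :
    Integrable (fun x => g x i) := by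
  obtain ⟨R, hR⟩ := h.cpt
  obtain ⟨C, _, hC⟩ := exists_cutoff_ball (ι := Fin 3)
  obtain ⟨χ, hχ, _, h1, _, _⟩ := hC (max R 0 + 2) (by
    have := le_max_right R 0; linarith)
  have h2 : MemLp χ 2 (volume : Measure Pos3) :=
    hχ.smooth.continuous.memLp_of_hasCompactSupport hχ.cpt
  have h3 : MemLp (fun x => g x i) 2 volume := g2_coord h.h1.memg i
  refine (h3.integrable_mul h2).congr ?_
  filter_upwards [hR, h.gr_zero] with x hx hx'
  simp only [Pi.mul_apply]
  by_cases h4 : R ≤ ‖x‖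
  · simp [hx' (hx h4)]
  · rw [h1 x (by have := le_max_left R 0; linarith [not_le.1 h4]), mul_one]

/-- slab cutoff -/
def PG.hzc (n : ℕ) (x : Pos3) : ℝ := max 0 (min 1 ((n : ℝ) * (1 - |x 2|)))

theorem PG.hzc_lip (n : ℕ) : LipschitzWith n (PG.hzc n) := by
  have a1 : LipschitzWith 1 (fun t : ℝ => |t|) := by
    refine LipschitzWith.of_dist_le_mul fun x y => ?_
    rw [Real.dist_eq, Real.dist_eq]
    simpa using abs_abs_sub_abs_le x y
  have a2 : LipschitzWith n (fun t : ℝ => (n : ℝ) * (1 - t)) := by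
    refine LipschitzWith.of_dist_le_mul fun x y => ?_
    rw [Real.dist_eq, Real.dist_eq]
    have : (n : ℝ) * (1 - x) - n * (1 - y) = n * -(x - y) := by ring
    rw [this, abs_mul, abs_neg]
    simp
  have a3 := (a2.comp a1).comp (PG.coord_lip 2)
  have a4 := (a3.const_min 1).const_max 0
  have e1 : PG.hzc n = fun x : Pos3 => max 0 (min 1 (((fun t : ℝ => (n : ℝ) * (1 - t)) ∘
      (fun t : ℝ => |t|)) ∘ (fun x : Pos3 => x 2)) x) := rfl
  rw [e1]
  simpa using a4

theorem PG.hzc_mem (n : ℕ) (x : Pos3) : 0 ≤ PG.hzc n x ∧ PG.hzc n x ≤ 1 :=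
  ⟨le_max_left _ _, max_le zero_le_one (min_le_left _ _)⟩

theorem PG.hzc_pd (n : ℕ) {i : Fin 3} (hi : i ≠ 2) (x : Pos3) : gr (PG.hzc n) x i = 0 := by
  rw [gr_apply]
  refine PG.pd_zero_of_line fun t => ?_
  unfold PG.hzc
  have : (x + t • EuclideanSpace.single i (1 : ℝ)) 2 = x 2 := by
    simp [Ne.symm hi]
  rw [this]

theorem PG.hzc_tendsto (x : Pos3) :
    Tendsto (fun n : ℕ => PG.hzc n x) atTop (𝓝 (Slab.indicator (fun _ => (1 : ℝ)) x)) := by
  by_cases hx : x ∈ Slab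
  · rw [indicator_of_mem hx]
    have h1 : |x 2| < 1 := hx
    have h2 : 0 < 1 - |x 2| := by linarith
    refine tendsto_nhds_of_eventually_eq ?_
    filter_upwards [(tendsto_natCast_atTop_atTop (R := ℝ)).eventually_ge_atTop (1 / (1 - |x 2|))]
      with n hn
    unfold PG.hzc
    have h3 : 1 ≤ (n : ℝ) * (1 - |x 2|) := by
      rw [div_le_iff₀ h2] at hn
      exact hn
    rw [min_eq_left h3, max_eq_right zero_le_one]
  · rw [indicator_of_notMem hx]
    have h1 : ¬ |x 2| < 1 := hx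
    refine tendsto_nhds_of_eventually_eq (Eventually.of_forall fun n => ?_)
    unfold PG.hzc
    refine max_eq_left ((min_le_right _ _).trans ?_)
    exact mul_nonpos_of_nonneg_of_nonpos (Nat.cast_nonneg n) (by linarith [not_lt.1 h1])

/-- vertical cutoffs do not see horizontal derivatives -/
theorem BT.int_slab {φ : Pos3 → ℝ} {g : Pos3 → Pos3} (h : BT φ g) {i : Fin 3} (hi : i ≠ 2) :
    ∫ x in Slab, g x i = 0 := by
  have h1 : ∀ n : ℕ, ∫ x, PG.hzc n x * g x i = 0 := by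
    intro n
    have h2 := (h.mul_LL (LL.of_lipschitz (PG.hzc_lip n))).int_grad i
    rw [← h2]
    refine integral_congr_ae (ae_of_all _ fun x => ?_)
    have h5 := PG.hzc_pd n hi x
    simp only [PiLp.add_apply, PiLp.smul_apply, smul_eq_mul, h5]
    ring
  have h3 : Tendsto (fun n : ℕ => ∫ x, PG.hzc n x * g x i) atTop
      (𝓝 (∫ x, Slab.indicator (fun _ => (1 : ℝ)) x * g x i)) := by
    refine tendsto_integral_of_dominated_convergence (fun x => ‖g x i‖)
      (fun n => ((PG.hzc_lip n).continuous.aestronglyMeasurable).mul (h.int_gi i).1)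
      (h.int_gi i).norm ?_ ?_
    · intro n
      refine ae_of_all _ fun x => ?_
      rw [norm_mul, Real.norm_eq_abs, abs_of_nonneg (PG.hzc_mem n x).1]
      exact mul_le_of_le_one_left (norm_nonneg _) (PG.hzc_mem n x).2
    · exact ae_of_all _ fun x => (PG.hzc_tendsto x).mul_const _
  simp only [h1] at h3
  have h4 := tendsto_nhds_unique h3 tendsto_const_nhds
  rw [← integral_indicator measurableSet_Slab, ← h4]
  refine integral_congr_ae (ae_of_all _ fun x => ?_)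
  by_cases hx : x ∈ Slab
  · simp [hx]
  · simp [hx]

theorem slab_pt {e e' a b r f g0 g1 x0 x1 z G : ℝ} (hr : 1 ≤ r) (ha : 0 < a) (he : 0 ≤ e)
    (hd : e' ≤ -b * e) (hab : 2 * a ≤ b * (1 - 1 / r ^ 2) - 2 / r) (hb : 0 ≤ b)
    (hx : x0 ^ 2 + x1 ^ 2 + z ^ 2 = r ^ 2) (hz : z ^ 2 ≤ 1)
    (hg : g0 ^ 2 + g1 ^ 2 ≤ G ^ 2) :
    ((e / r * x0) * (2 * f * g0) + f ^ 2 * (e / r + x0 * ((e' / r - e / r ^ 2) * (1 / r * x0)))) +
      ((e / r * x1) * (2 * f * g1) + f ^ 2 * (e / r + x1 * ((e' / r - e / r ^ 2) * (1 / r * x1))))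
      ≤ -a * (e * f ^ 2) + a⁻¹ * (e * G ^ 2) := by
  have hr0 : 0 < r := by linarith
  have h1 : ((e / r * x0) * (2 * f * g0) + f ^ 2 * (e / r + x0 * ((e' / r - e / r ^ 2) *
      (1 / r * x0)))) + ((e / r * x1) * (2 * f * g1) + f ^ 2 * (e / r + x1 * ((e' / r - e / r ^ 2) *
      (1 / r * x1)))) = 2 * f * e * ((x0 * g0 + x1 * g1) / r) +
        f ^ 2 * (2 * e / r + e' * ((x0 ^ 2 + x1 ^ 2) / r ^ 2) - e * (x0 ^ 2 + x1 ^ 2) / r ^ 3) := by
    field_simp
    ring
  rw [h1]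
  set q := (x0 * g0 + x1 * g1) / r with hq
  have hq2 : q ^ 2 ≤ G ^ 2 := by
    rw [hq, div_pow, div_le_iff₀ (by positivity)]
    calc (x0 * g0 + x1 * g1) ^ 2 ≤ (x0 ^ 2 + x1 ^ 2) * (g0 ^ 2 + g1 ^ 2) := by
          nlinarith [sq_nonneg (x0 * g1 - x1 * g0)]
      _ ≤ r ^ 2 * G ^ 2 := by
          refine mul_le_mul ?_ hg (by positivity) (by positivity)
          nlinarith [sq_nonneg z]
      _ = _ := by ring
  have h2 : 2 * f * e * q ≤ a * (e * f ^ 2) + a⁻¹ * (e * G ^ 2) := by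
    have h3 : 2 * f * q ≤ a * f ^ 2 + a⁻¹ * q ^ 2 := by
      have h4 : 0 ≤ a⁻¹ * (a * f - q) ^ 2 := by positivity
      have h5 : a⁻¹ * (a * f - q) ^ 2 = a * f ^ 2 - 2 * f * q + a⁻¹ * q ^ 2 := by
        field_simp
        ring
      linarith
    have h6 : a⁻¹ * q ^ 2 ≤ a⁻¹ * G ^ 2 := mul_le_mul_of_nonneg_left hq2 (by positivity)
    calc 2 * f * e * q = e * (2 * f * q) := by ring
      _ ≤ e * (a * f ^ 2 + a⁻¹ * G ^ 2) := mul_le_mul_of_nonneg_left (by linarith) he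
      _ = _ := by ring
  have h3 : 2 * e / r + e' * ((x0 ^ 2 + x1 ^ 2) / r ^ 2) - e * (x0 ^ 2 + x1 ^ 2) / r ^ 3
      ≤ -(2 * a) * e := by
    have h4 : e' * ((x0 ^ 2 + x1 ^ 2) / r ^ 2) ≤ -b * e * ((x0 ^ 2 + x1 ^ 2) / r ^ 2) :=
      mul_le_mul_of_nonneg_right hd (by positivity)
    have h5 : 1 - 1 / r ^ 2 ≤ (x0 ^ 2 + x1 ^ 2) / r ^ 2 := by
      rw [le_div_iff₀ (by positivity), sub_mul, one_mul, div_mul_cancel₀ _ (by positivity)]
      linarith
    have h6 : b * e * (1 - 1 / r ^ 2) ≤ b * e * ((x0 ^ 2 + x1 ^ 2) / r ^ 2) :=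
      mul_le_mul_of_nonneg_left h5 (by positivity)
    have h7 : 0 ≤ e * (x0 ^ 2 + x1 ^ 2) / r ^ 3 := by positivity
    have h8 : 2 * e / r = e * (2 / r) := by ring
    have h9 : e * (2 * a) ≤ e * (b * (1 - 1 / r ^ 2) - 2 / r) :=
      mul_le_mul_of_nonneg_left hab he
    nlinarith
  have h4 : f ^ 2 * (2 * e / r + e' * ((x0 ^ 2 + x1 ^ 2) / r ^ 2) -
      e * (x0 ^ 2 + x1 ^ 2) / r ^ 3) ≤ f ^ 2 * (-(2 * a) * e) :=
    mul_le_mul_of_nonneg_left h3 (sq_nonneg _)
  nlinarith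

/-- Hardy inequality in the slab for a radial decreasing weight: field `slab` of `ExtHyp` -/
theorem slabHardy {e e' : ℝ → ℝ} {R a b : ℝ} (hR : 1 ≤ R) (ha : 0 < a) (hb : 0 ≤ b)
    (hab : 2 * a ≤ b * (1 - 1 / R ^ 2) - 2 / R) (he : ∀ t, R ≤ t → HasDerivAt e (e' t) t)
    (hc : ContinuousOn e' (Ici R)) (he0 : ∀ t, R ≤ t → 0 ≤ e t)
    (hdec : ∀ t, R ≤ t → e' t ≤ -b * e t) {e2 : Pos3 → ℝ} (h2 : ∀ x, R ≤ ‖x‖ → e2 x = e ‖x‖)
    {f : Pos3 → ℝ} {g : Pos3 → Pos3} (hf : BT f g) (h0 : ∀ᵐ x : Pos3, ‖x‖ < R → f x = 0) :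
    a ^ 2 * (∫ x in Slab, e2 x * f x ^ 2) ≤ ∫ x in Slab, e2 x * ‖g x‖ ^ 2 := by
  have hR0 : 0 < R := by linarith
  set m : Pos3 → ℝ := fun x => max ‖x‖ R with hm
  have hmR : ∀ x, R ≤ m x := fun x => le_max_right _ _
  have hmL : LL m (gr m) := LL.of_lipschitz (PG.maxnorm_lip R)
  have hk : ∀ t, R ≤ t → HasDerivAt (fun t => e t / t) (e' t / t - e t / t ^ 2) t := by
    intro t ht
    have ht0 : t ≠ 0 := by linarith
    have := (he t ht).div (hasDerivAt_id t) ht0
    refine this.congr_deriv ?_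
    simp only [id]
    field_simp
  have hec : ContinuousOn e (Ici R) := fun t ht => (he t ht).continuousAt.continuousWithinAt
  have hid : ∀ t ∈ Ici R, t ≠ 0 := fun t ht => by
    have : R ≤ t := ht
    linarith
  have hkc : ContinuousOn (fun t => e' t / t - e t / t ^ 2) (Ici R) :=
    (hc.div continuousOn_id hid).sub (hec.div (continuousOn_id.pow 2)
      fun t ht => pow_ne_zero 2 (hid t ht))
  have hK := hmL.comp_Ici hmR hk hkc
  have hE := hmL.comp_Ici hmR he hc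
  have hB : ∀ i : Fin 3, BT _ _ := fun i => (hf.sq).mul_LL (hK.mul (LL.coord i))
  have z0 := (hB 0).int_slab (i := 0) (by decide)
  have z1 := (hB 1).int_slab (i := 1) (by decide)
  have i0 := ((hB 0).int_gi 0).integrableOn (s := Slab)
  have i1 := ((hB 1).int_gi 1).integrableOn (s := Slab)
  have z2 := integral_add i0 i1
  rw [z0, z1, add_zero] at z2
  have hsph : ∀ᵐ x : Pos3, ‖x‖ ≠ R := by
    have h3 : (volume : Measure Pos3) (Metric.sphere 0 R) = 0 := Measure.addHaar_sphere _ _ _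
    have h4 := measure_eq_zero_iff_ae_notMem.1 h3
    filter_upwards [h4] with x hx
    simpa using hx
  -- integrability of the two weights
  obtain ⟨j1, j2⟩ := hf.int_mul (c := fun x => e (m x)) hE.aesm (by
    intro r
    obtain ⟨C, hC⟩ := hE.bdd r
    exact ⟨C, ae_of_all _ hC⟩)
  have hE2 : ∀ᵐ x, (e (m x) * f x ^ 2 = e2 x * f x ^ 2) ∧
      (e (m x) * ‖g x‖ ^ 2 = e2 x * ‖g x‖ ^ 2) := by
    filter_upwards [h0, hf.gr_zero] with x hx hx'
    by_cases h5 : ‖x‖ < R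
    · simp [hx h5, hx' (hx h5)]
    · have h6 : R ≤ ‖x‖ := not_lt.1 h5
      rw [h2 x h6, hm]
      simp only
      rw [max_eq_left h6]
      exact ⟨rfl, rfl⟩
  have k1 : Integrable (fun x => e2 x * f x ^ 2) := j1.congr (by
    filter_upwards [hE2] with x hx using hx.1)
  have k2 : Integrable (fun x => e2 x * ‖g x‖ ^ 2) := j2.congr (by
    filter_upwards [hE2] with x hx using hx.2)
  have hle : (0 : ℝ) ≤ ∫ x in Slab, (-a * (e2 x * f x ^ 2) + a⁻¹ * (e2 x * ‖g x‖ ^ 2)) := by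
    rw [← z2]
    refine setIntegral_mono_on_ae (i0.add i1)
      ((k1.const_mul _).add (k2.const_mul _)).integrableOn measurableSet_Slab ?_
    filter_upwards [h0, hf.gr_zero, hsph] with x hx hx' hxs hxS
    by_cases h5 : ‖x‖ < R
    · have e1 := hx h5
      have e3 := hx' e1
      simp [e1, e3]
    · have h6 : R ≤ ‖x‖ := not_lt.1 h5
      have h7 : R < ‖x‖ := lt_of_le_of_ne h6 (Ne.symm hxs)
      have hmx : m x = ‖x‖ := max_eq_left h6
      have hgm : gr m x = (1 / ‖x‖) • x := gr_maxnorm hR0.le h7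
      have hnx : ‖x‖ ^ 2 = x 0 ^ 2 + x 1 ^ 2 + x 2 ^ 2 := by
        rw [EuclideanSpace.norm_sq_eq, Fin.sum_univ_three]
        simp
      have hng : ‖g x‖ ^ 2 = g x 0 ^ 2 + g x 1 ^ 2 + g x 2 ^ 2 := by
        rw [EuclideanSpace.norm_sq_eq, Fin.sum_univ_three]
        simp
      have hxS' : |x 2| < 1 := hxS
      have key := slab_pt (e := e ‖x‖) (e' := e' ‖x‖) (a := a) (b := b) (r := ‖x‖) (f := f x)
        (g0 := g x 0) (g1 := g x 1) (x0 := x 0) (x1 := x 1) (z := x 2) (G := ‖g x‖)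
        (hR.trans h6) ha (he0 _ h6) (hdec _ h6) (by
          have q1 : 1 / ‖x‖ ^ 2 ≤ 1 / R ^ 2 :=
            one_div_le_one_div_of_le (by positivity) (pow_le_pow_left₀ hR0.le h6 2)
          have q2 : 2 / ‖x‖ ≤ 2 / R := div_le_div_of_nonneg_left (by norm_num) hR0 h6
          have q3 : b * (1 - 1 / R ^ 2) ≤ b * (1 - 1 / ‖x‖ ^ 2) :=
            mul_le_mul_of_nonneg_left (by linarith) hb
          linarith) hb hnx.symm (by
          have := sq_abs (x 2)
          nlinarith [abs_nonneg (x 2)]) (by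
          rw [hng]; nlinarith [sq_nonneg (g x 2)])
      rw [h2 x h6]
      simp only [PiLp.add_apply, PiLp.smul_apply, smul_eq_mul, hmx, hgm]
      refine le_trans (le_of_eq ?_) key
      simp
  rw [integral_add (k1.const_mul _).integrableOn (k2.const_mul _).integrableOn,
    integral_const_mul, integral_const_mul] at hle
  have ha0 : a ≠ 0 := ha.ne'
  have h9 : a * (∫ x in Slab, e2 x * f x ^ 2) ≤ a⁻¹ * ∫ x in Slab, e2 x * ‖g x‖ ^ 2 := by
    linarith
  have h10 := mul_le_mul_of_nonneg_left h9 ha.le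
  rw [← mul_assoc, ← mul_assoc, mul_inv_cancel₀ ha0, one_mul] at h10
  rw [pow_two]
  exact h10

end Crest.Agent.R335
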