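import Crest.Agent.R335.CHardy
import Crest.Agent.R335.GSlab

/-!
Row 335 (S0521), part C: the exterior hypotheses `ExtHyp` of GU1 (helper737) from `COut` and the
bounds (U), (L).
-/

set_option autoImplicit false

open MeasureTheory Filter Set Crest.MathPhysics.ThreeBody
open scoped ENNReal Topology ContDiff NNReal

noncomputable section
namespace Crest.Agent.R335

/-- nonnegative `C¹` functions on `[R, ∞)` with `f' ≤ -β f` -/
structure Dec (R β : ℝ) (f f' : ℝ → ℝ) : Prop where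
  d : ∀ t, R ≤ t → HasDerivAt f (f' t) t
  c : ContinuousOn f' (Ici R)
  p : ∀ t, R ≤ t → 0 ≤ f t
  m : ∀ t, R ≤ t → f' t ≤ -β * f t

namespace Dec
variable {R β β' : ℝ} {f f' g g' : ℝ → ℝ}

theorem cont (h : Dec R β f f') : ContinuousOn f (Ici R) :=
  fun t ht => (h.d t ht).continuousAt.continuousWithinAt

theorem add (h : Dec R β f f') (k : Dec R β g g') :
    Dec R β (fun t => f t + g t) (fun t => f' t + g' t) where
  d t ht := (h.d t ht).add (k.d t ht)
  c := h.c.add k.c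
  p t ht := add_nonneg (h.p t ht) (k.p t ht)
  m t ht := by
    have := h.m t ht
    have := k.m t ht
    linarith

theorem mul (h : Dec R β f f') (k : Dec R β' g g') :
    Dec R (β + β') (fun t => f t * g t) (fun t => f' t * g t + f t * g' t) where
  d t ht := (h.d t ht).mul (k.d t ht)
  c := (h.c.mul k.cont).add (h.cont.mul k.c)
  p t ht := mul_nonneg (h.p t ht) (k.p t ht)
  m t ht := by
    have h1 := mul_le_mul_of_nonneg_right (h.m t ht) (k.p t ht)
    have h2 := mul_le_mul_of_nonneg_left (k.m t ht) (h.p t ht)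
    linarith

theorem mono (h : Dec R β f f') (hb : β' ≤ β) : Dec R β' f f' where
  d := h.d
  c := h.c
  p := h.p
  m t ht := by
    have h1 := mul_le_mul_of_nonneg_right hb (h.p t ht)
    have := h.m t ht
    linarith

theorem powr (hR : 0 < R) {c : ℝ} (hc : 0 ≤ c) :
    Dec R 0 (fun t => c / t ^ 4) (fun t => -(4 * c / t ^ 5)) where
  d t ht := by
    have ht0 : t ≠ 0 := by linarith
    have := (hasDerivAt_const t c).div (hasDerivAt_pow 4 t) (pow_ne_zero 4 ht0)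
    refine this.congr_deriv ?_
    field_simp
    norm_num
    ring
  c := by
    refine (continuousOn_const.div (continuousOn_pow 5) fun t ht => ?_).neg
    have h1 : R ≤ t := ht
    have h2 : 0 < t := by linarith
    exact (pow_pos h2 5).ne'
  p t ht := by
    have : 0 < t := by linarith
    positivity
  m t ht := by
    have : 0 < t := by linarith
    have : 0 ≤ 4 * c / t ^ 5 := by positivity
    linarith

end Dec

/-- derivative of `EE` -/
def dEE (κ Q ρ : ℝ) : ℝ :=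
  (Real.exp (-κ * ρ) * (-κ) * ρ ^ (Q / κ - 1) +
    Real.exp (-κ * ρ) * ((Q / κ - 1) * ρ ^ (Q / κ - 1 - 1))) * (1 + 1 * ρ ^ (-(1 / 2) : ℝ)) +
    Real.exp (-κ * ρ) * ρ ^ (Q / κ - 1) * (1 * (-(1 / 2) * ρ ^ (-(1 / 2) - 1 : ℝ)))

theorem dec_EE {κ Q R : ℝ} (hκ : 9 / 10 ≤ κ) (hQ : Q ≤ 2) (hR : 40 ≤ R) :
    Dec R (4 / 5) (fun t => CX.EE κ Q 1 t) (fun t => dEE κ Q t) where
  d t ht := by
    have ht0 : t ≠ 0 := by linarith
    have h1 : HasDerivAt (fun ρ : ℝ => Real.exp (-κ * ρ)) (Real.exp (-κ * t) * (-κ)) t := by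
      have := ((hasDerivAt_id t).const_mul (-κ)).exp
      simpa using this
    have h2 : HasDerivAt (fun ρ : ℝ => ρ ^ (Q / κ - 1)) ((Q / κ - 1) * t ^ (Q / κ - 1 - 1)) t :=
      Real.hasDerivAt_rpow_const (Or.inl ht0)
    have h3 : HasDerivAt (fun ρ : ℝ => ρ ^ (-(1 / 2) : ℝ)) (-(1 / 2) * t ^ (-(1 / 2) - 1 : ℝ)) t :=
      Real.hasDerivAt_rpow_const (Or.inl ht0)
    have h4 := (h1.mul h2).mul ((h3.const_mul 1).const_add 1)
    exact h4
  c := by
    have h0 : ∀ t ∈ Ici R, t ≠ 0 := fun t ht => by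
      have : R ≤ t := ht
      linarith
    have hr : ∀ p : ℝ, ContinuousOn (fun t : ℝ => t ^ p) (Ici R) := fun p t ht =>
      (Real.continuousAt_rpow_const t p (Or.inl (h0 t ht))).continuousWithinAt
    have he : ContinuousOn (fun t : ℝ => Real.exp (-κ * t)) (Ici R) := by fun_prop
    unfold dEE
    exact (((he.mul continuousOn_const).mul (hr _)).add (he.mul (continuousOn_const.mul (hr _)))
      |>.mul (continuousOn_const.add (continuousOn_const.mul (hr _)))).add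
      ((he.mul (hr _)).mul (continuousOn_const.mul (continuousOn_const.mul (hr _))))
  p t ht := by
    have : 0 < t := by linarith
    unfold CX.EE
    positivity
  m t ht := by
    have ht0 : 0 < t := by linarith
    have hκ0 : 0 < κ := by linarith
    have hp : Q / κ - 1 ≤ 11 / 9 := by
      have : Q / κ ≤ 20 / 9 := by
        rw [div_le_iff₀ hκ0]
        linarith
      linarith
    have e1 : t ^ (Q / κ - 1 - 1) = t ^ (Q / κ - 1) / t := by
      rw [Real.rpow_sub_one ht0.ne']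
    unfold dEE CX.EE
    rw [e1]
    set A := Real.exp (-κ * t) with hA
    set T := t ^ (Q / κ - 1) with hT
    set S := t ^ (-(1 / 2) : ℝ) with hS
    set W := t ^ (-(1 / 2) - 1 : ℝ) with hW
    have hA0 : 0 < A := Real.exp_pos _
    have hT0 : 0 < T := Real.rpow_pos_of_pos ht0 _
    have hS0 : 0 < S := Real.rpow_pos_of_pos ht0 _
    have hW0 : 0 < W := Real.rpow_pos_of_pos ht0 _
    have h1 : (Q / κ - 1) / t ≤ 1 / 20 := by
      rw [div_le_iff₀ ht0]
      linarith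
    have h2 : 0 < A * T * (1 + 1 * S) := by positivity
    have h3 : 0 ≤ A * T * (1 / 2 * W) := by positivity
    have h4 : A * T * (1 + 1 * S) * ((Q / κ - 1) / t) ≤ A * T * (1 + 1 * S) * (1 / 20) :=
      mul_le_mul_of_nonneg_left h1 h2.le
    have h5 : A * T * (1 + 1 * S) * (9 / 10) ≤ A * T * (1 + 1 * S) * κ :=
      mul_le_mul_of_nonneg_left hκ h2.le
    have e2 : (A * -κ * T + A * ((Q / κ - 1) * (T / t))) * (1 + 1 * S) +
        A * T * (1 * (-(1 / 2) * W)) =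
        -(A * T * (1 + 1 * S) * κ) + A * T * (1 + 1 * S) * ((Q / κ - 1) / t) -
          A * T * (1 / 2 * W) := by
      ring
    rw [e2]
    nlinarith

theorem dec_eLow {κS κ Q lam om R : ℝ} (hκS : 9 / 10 ≤ κS) (hκ : 9 / 10 ≤ κ) (hQ : Q ≤ 2)
    (hR : 40 ≤ R) (hlam : 0 ≤ lam) :
    ∃ e' : ℝ → ℝ, Dec R (4 / 5) (fun t => CX.eLow κS κ Q lam om t) e' := by
  have h1 := dec_EE hκS hQ hR
  have h2 := (Dec.powr (R := R) (by linarith) (c := lam / om ^ 2) (by positivity)).mul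
    (dec_EE hκ hQ hR)
  have h3 := h1.add (h2.mono (by norm_num : (4 / 5 : ℝ) ≤ 0 + 4 / 5))
  exact ⟨_, h3⟩

/-- the exterior hypotheses -/
theorem extHyp_of {cg C0 D : ℝ} {B : OBD cg C0 D} {P K1 K2 R1 lam κ κS κT : ℝ}
    {s s1 s2 F w0 X sig : Pos3 → ℝ} {gs gs1 gs2 gF : Pos3 → Pos3} (hR : D + 40 ≤ R1)
    (h : COut B P K1 K2 R1 lam κ κS κT s s1 s2 F w0 X sig gs gs1 gs2 gF)
    {U w : Pos3 → ℝ} {gU gw : Pos3 → Pos3} {om : ℝ} (hp : Pair s U gU w gw om)
    {Pl Pu : ℝ} (hPl : 0 < Pl) (hPu : 0 < Pu)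
    (hlow : ∀ᵐ x : Pos3, R1 + 1 ≤ ‖x‖ → |x 2| ≤ 1 →
      CX.eLow κS κ (2 * (1 - lam)) lam B.om ‖x‖ ≤ Pl * U x)
    (hup : ∀ᵐ x : Pos3, R1 + 1 ≤ ‖x‖ → |x 2| ≤ 1 →
      U x ≤ Pu * CX.eLow κS κ (2 * (1 - lam)) lam B.om ‖x‖)
    (hbulk : ∀ᵐ x : Pos3, R1 + 1 ≤ ‖x‖ → 1 / 2 ≤ |x 2| → s x ≤ 2 * |w x|) :
    ∃ e2 : Pos3 → ℝ, ExtHyp s U w e2 (R1 + 1) (1 / 2) (1 / Pl ^ 2) (Pu ^ 2) (1 / 2) (1 / 2) := by
  have hD := B.D_pos
  have hR40 : (40 : ℝ) ≤ R1 + 1 := by linarith
  obtain ⟨e', he⟩ := dec_eLow (om := B.om) h.κS_rng.1 h.κ_rng.1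
    (Q := 2 * (1 - lam)) (by linarith [h.lam_pos]) hR40 h.lam_pos.le
  set e : ℝ → ℝ := fun t => CX.eLow κS κ (2 * (1 - lam)) lam B.om t with hed
  have he2 := he.mul he
  set e2 : Pos3 → ℝ := fun x => e (max ‖x‖ (R1 + 1)) * e (max ‖x‖ (R1 + 1)) with he2d
  have hval : ∀ x : Pos3, R1 + 1 ≤ ‖x‖ → e2 x = e ‖x‖ * e ‖x‖ := fun x hx => by
    rw [he2d]
    simp only
    rw [max_eq_left hx]
  refine ⟨e2, ?_⟩
  refine
    { R1 := by linarith
      a0 := by norm_num
      cl0 := by positivity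
      cu0 := by positivity
      cs0 := by norm_num
      k0 := by norm_num
      e2c := ?_
      e2p := fun x => mul_self_nonneg _
      slab := fun f g hf h0 => ?_
      lo := ?_
      up := ?_
      bulk := ?_
      hardy := fun f g hf h0 => ?_ }
  · have h1 : Continuous (fun x : Pos3 => e (max ‖x‖ (R1 + 1))) :=
      he.cont.comp_continuous (by fun_prop) (fun x => mem_Ici.2 (le_max_right _ _))
    exact h1.mul h1
  · refine slabHardy (R := R1 + 1) (b := 4 / 5 + 4 / 5) (by linarith) (by norm_num) (by norm_num)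
      ?_ he2.d he2.c he2.p he2.m hval hf h0
    have h1 : 2 / (R1 + 1) ≤ 2 / 40 := div_le_div_of_nonneg_left (by norm_num) (by norm_num) hR40
    have h2 : 1 / (R1 + 1) ^ 2 ≤ 1 / 40 ^ 2 :=
      one_div_le_one_div_of_le (by norm_num) (pow_le_pow_left₀ (by norm_num) hR40 2)
    nlinarith
  · filter_upwards [hlow] with x hx h1 h2
    rw [hval x h2]
    have h3 := hx h2 h1.le
    have h4 : 0 ≤ e ‖x‖ := he.p _ h2
    have h5 : e ‖x‖ * e ‖x‖ ≤ (Pl * U x) * (Pl * U x) := mul_self_le_mul_self h4 h3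
    rw [div_mul_eq_mul_div, one_mul, div_le_iff₀ (by positivity)]
    calc e ‖x‖ * e ‖x‖ ≤ (Pl * U x) * (Pl * U x) := h5
      _ = U x ^ 2 * Pl ^ 2 := by ring
  · filter_upwards [hup] with x hx h1 h2
    rw [hval x h2]
    have h3 := hx h2 h1.le
    have h5 : U x * U x ≤ (Pu * e ‖x‖) * (Pu * e ‖x‖) := mul_self_le_mul_self (hp.U0 x) h3
    calc U x ^ 2 = U x * U x := by ring
      _ ≤ (Pu * e ‖x‖) * (Pu * e ‖x‖) := h5
      _ = _ := by ring
  · filter_upwards [hbulk] with x hx h1 h2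
    have := hx h2 h1
    linarith
  · refine hardyS hR h hf ?_
    filter_upwards [h0] with x hx h1
    exact hx (by linarith)

end Crest.Agent.R335
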