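import Crest.Agent.R335.CDefs

/-!
Row 335 (S0521), PART C, INTERFACE (all statements with `sorry`, namespace `...R335.CI`).
Each `CI.xxx` is to be proved as `Crest.Agent.R335.xxx` in the module named with it.
Mathematics: notes 10568, 10569, 10754 (helper720), 10764 (helper783).

`P = P0 * D ^ 20`.  Everything for one fixed large `D`; `R1` is chosen by part C after `K1`;
`K2` and `l'` may depend on `R1`.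
-/

set_option autoImplicit false
set_option linter.unusedVariables false

open MeasureTheory Filter Set Crest.MathPhysics.ThreeBody
open scoped ENNReal Topology ContDiff

noncomputable section
namespace Crest.Agent.R335.CI
open Crest.Agent.R335

/-! ### input from part B (783, 565, 759, 947, 406, 826, 866) -/

/-- `s² = ρ` for the amplitude of `COut` -/
theorem out_of_sys {cg C0 : ℝ} (hcg : 0 < cg) (hC : 1 ≤ C0) :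
    ∃ P0 D0 : ℝ, 1 ≤ P0 ∧ 4 ≤ D0 ∧ ∀ D : ℝ, D0 ≤ D → ∀ (B : OBD cg C0 D) (K : ℝ),
      ∃ K1 Ra : ℝ, 1 ≤ K1 ∧ ∀ R1 : ℝ, Ra ≤ R1 → ∃ K2 l' : ℝ, 1 ≤ K2 ∧ 0 < l' ∧
        ∀ lam, 0 < lam → lam ≤ l' → ∀ S : Sys B K lam,
          ∃ (s s1 s2 F w0 X sig : Pos3 → ℝ) (gs gs1 gs2 gF : Pos3 → Pos3),
            (∀ᵐ x, s x ^ 2 = S.rho x) ∧
            COut B (P0 * D ^ 20) K1 K2 R1 lam S.κ S.κS S.κT s s1 s2 F w0 X sig gs gs1 gs2 gF :=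
  sorry

section
variable {cg C0 D : ℝ} {B : OBD cg C0 D} {P K1 K2 R1 lam κ κS κT : ℝ}
  {s s1 s2 F w0 X sig : Pos3 → ℝ} {gs gs1 gs2 gF : Pos3 → Pos3}

/-! ### consequences of `COut` for the Kohn-Sham side (module CLow) -/

theorem katoInf (h : COut B P K1 K2 R1 lam κ κS κT s s1 s2 F w0 X sig gs gs1 gs2 gF) :
    KatoInf s gs κ := sorry

theorem planeLow (hD : 1 ≤ D) (hP : 1 ≤ P) (hl : lam ≤ 1 / 100)
    (h : COut B P K1 K2 R1 lam κ κS κT s s1 s2 F w0 X sig gs gs1 gs2 gF) :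
    PlaneLow s κ := sorry

/-- Hardy inequality (H1), from Kato (465: GHardy) -/
theorem hardyS (hR : D + 40 ≤ R1)
    (h : COut B P K1 K2 R1 lam κ κS κT s s1 s2 F w0 X sig gs gs1 gs2 gF)
    {f : Pos3 → ℝ} {g : Pos3 → Pos3} (hf : BT f g) (h0 : ∀ᵐ x : Pos3, ‖x‖ ≤ R1 → f x = 0) :
    (1 / 2) * (∫ x, s x ^ 2 * f x ^ 2) ≤ ∫ x, s x ^ 2 * ‖g x‖ ^ 2 := sorry

end

/-! ### closeness of the pair (801 : modules PAng, PClose, PMult, PInner) -/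

/-- C.1, C.2 multiplier, C.5: `om → B.om` with rate `√λ`, `U → √2 g`, `w → u` uniformly on balls -/
theorem inner {cg C0 : ℝ} (hcg : 0 < cg) (hC : 1 ≤ C0) {D : ℝ} (hD : 4 ≤ D) (B : OBD cg C0 D)
    (P K1 K2 R1 : ℝ) :
    ∃ K3 : ℝ, 0 < K3 ∧ ∀ Rb δ : ℝ, 0 < δ → ∃ l' : ℝ, 0 < l' ∧ ∀ lam, 0 < lam → lam ≤ l' →
      ∀ (κ κS κT : ℝ) (s s1 s2 F w0 X sig : Pos3 → ℝ) (gs gs1 gs2 gF : Pos3 → Pos3),
        COut B P K1 K2 R1 lam κ κS κT s s1 s2 F w0 X sig gs gs1 gs2 gF →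
        ∀ (U w : Pos3 → ℝ) (gU gw : Pos3 → Pos3) (om : ℝ), Pair s U gU w gw om →
          |om - B.om| ≤ K3 * √lam ∧
          ∀ᵐ x : Pos3, ‖x‖ ≤ Rb → |U x - √2 * B.g x| ≤ δ ∧ |w x - B.u x| ≤ δ := sorry

/-! ### upper bound (U) (helper4 : modules PU*) -/

theorem upper {cg C0 P0 : ℝ} (hcg : 0 < cg) (hC : 1 ≤ C0) (hP : 1 ≤ P0) :
    ∃ P1 D0 : ℝ, 1 ≤ P1 ∧ 4 ≤ D0 ∧ ∀ D : ℝ, D0 ≤ D → ∀ (B : OBD cg C0 D) (K1 : ℝ),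
      ∃ R0 : ℝ, ∀ R1 : ℝ, R0 ≤ R1 → ∀ K2 : ℝ, ∃ l' : ℝ, 0 < l' ∧ ∀ lam, 0 < lam → lam ≤ l' →
      ∀ (κ κS κT : ℝ) (s s1 s2 F w0 X sig : Pos3 → ℝ) (gs gs1 gs2 gF : Pos3 → Pos3),
        COut B (P0 * D ^ 20) K1 K2 R1 lam κ κS κT s s1 s2 F w0 X sig gs gs1 gs2 gF →
        ∀ (U w : Pos3 → ℝ) (gU gw : Pos3 → Pos3) (om : ℝ), Pair s U gU w gw om →
          (∀ᵐ x : Pos3, R1 + 1 ≤ ‖x‖ → |x 2| ≤ 1 →
            U x ≤ P1 * D ^ 60 * CX.eLow κS κ (2 * (1 - lam)) lam B.om ‖x‖) ∧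
          (∀ᵐ x : Pos3, R1 + 1 ≤ ‖x‖ → 1 / 2 ≤ |x 2| → s x ≤ 2 * |w x|) ∧
          SmallU s U := sorry

/-! ### lower bound (L) (297, 16 : modules PL*) -/

theorem lower {cg C0 P0 : ℝ} (hcg : 0 < cg) (hC : 1 ≤ C0) (hP : 1 ≤ P0) :
    ∃ P1 D0 : ℝ, 1 ≤ P1 ∧ 4 ≤ D0 ∧ ∀ D : ℝ, D0 ≤ D → ∀ (B : OBD cg C0 D) (K1 : ℝ),
      ∃ R0 : ℝ, ∀ R1 : ℝ, R0 ≤ R1 → ∀ K2 : ℝ, ∃ l' : ℝ, 0 < l' ∧ ∀ lam, 0 < lam → lam ≤ l' →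
      ∀ (κ κS κT : ℝ) (s s1 s2 F w0 X sig : Pos3 → ℝ) (gs gs1 gs2 gF : Pos3 → Pos3),
        COut B (P0 * D ^ 20) K1 K2 R1 lam κ κS κT s s1 s2 F w0 X sig gs gs1 gs2 gF →
        ∀ (U w : Pos3 → ℝ) (gU gw : Pos3 → Pos3) (om : ℝ), Pair s U gU w gw om →
          ∀ᵐ x : Pos3, R1 + 1 ≤ ‖x‖ → |x 2| ≤ 1 →
            CX.eLow κS κ (2 * (1 - lam)) lam B.om ‖x‖ ≤ P1 * D ^ 20 * U x := sorry

/-! ### Poincaré (G) (737, 465 : modules GU*, GSlab, GHardy) -/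

/-- abstract exterior hypotheses at fixed `D`; `c = cu/cl` is polynomial in `D`, `2 om` exponentially
small.  (final form to be fixed by helper737) -/
theorem poin {cg C0 P0 : ℝ} (hcg : 0 < cg) (hC : 1 ≤ C0) (hP : 1 ≤ P0) :
    ∃ D0 : ℝ, 4 ≤ D0 ∧ ∀ D : ℝ, D0 ≤ D → ∀ (B : OBD cg C0 D) (K1 : ℝ),
      ∃ R0 : ℝ, ∀ R1 : ℝ, R0 ≤ R1 → ∀ K2 : ℝ, ∃ l' : ℝ, 0 < l' ∧ ∀ lam, 0 < lam → lam ≤ l' →
      ∀ (κ κS κT : ℝ) (s s1 s2 F w0 X sig : Pos3 → ℝ) (gs gs1 gs2 gF : Pos3 → Pos3),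
        COut B (P0 * D ^ 20) K1 K2 R1 lam κ κS κT s s1 s2 F w0 X sig gs gs1 gs2 gF →
        ∀ (U w : Pos3 → ℝ) (gU gw : Pos3 → Pos3) (om : ℝ), Pair s U gU w gw om →
          PoinG U om := sorry

/-! ### OUTPUT of part C (module CFinal) -/

theorem partC {cg C0 P0 : ℝ} (hcg : 0 < cg) (hC : 1 ≤ C0) (hP : 1 ≤ P0) :
    ∃ D0 : ℝ, 4 ≤ D0 ∧ ∀ D : ℝ, D0 ≤ D → ∀ (B : OBD cg C0 D) (K1 : ℝ),
      ∃ R0 : ℝ, ∀ R1 : ℝ, R0 ≤ R1 → ∀ K2 : ℝ, ∃ l' : ℝ, 0 < l' ∧ ∀ lam, 0 < lam → lam ≤ l' →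
      ∀ (κ κS κT : ℝ) (s s1 s2 F w0 X sig : Pos3 → ℝ) (gs gs1 gs2 gF : Pos3 → Pos3),
        COut B (P0 * D ^ 20) K1 K2 R1 lam κ κS κT s s1 s2 F w0 X sig gs gs1 gs2 gF →
        ∀ (U w : Pos3 → ℝ) (gU gw : Pos3 → Pos3) (om : ℝ), Pair s U gU w gw om →
          PoinG U om ∧ SmallU s U ∧ 0 < κ ∧ KatoInf s gs κ ∧ PlaneLow s κ := by
  obtain ⟨D0, hD0, h1⟩ := poin (P0 := P0) hcg hC hP
  obtain ⟨P1, D1, hP1, hD1, h2⟩ := upper (P0 := P0) hcg hC hP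
  refine ⟨max D0 D1, le_max_of_le_left hD0, fun D hD B K1 => ?_⟩
  obtain ⟨R0, h3⟩ := h1 D (le_trans (le_max_left _ _) hD) B K1
  obtain ⟨R0', h4⟩ := h2 D (le_trans (le_max_right _ _) hD) B K1
  refine ⟨max R0 R0', fun R1 hR K2 => ?_⟩
  obtain ⟨l1, hl1, h5⟩ := h3 R1 (le_trans (le_max_left _ _) hR) K2
  obtain ⟨l2, hl2, h6⟩ := h4 R1 (le_trans (le_max_right _ _) hR) K2
  refine ⟨min (min l1 l2) (1 / 100), by positivity, fun lam hlam hl κ κS κT s s1 s2 F w0 X sig gs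
    gs1 gs2 gF h U w gU gw om hp => ?_⟩
  have e1 : lam ≤ l1 := le_trans hl (le_trans (min_le_left _ _) (min_le_left _ _))
  have e2 : lam ≤ l2 := le_trans hl (le_trans (min_le_left _ _) (min_le_right _ _))
  have e3 : lam ≤ 1 / 100 := le_trans hl (min_le_right _ _)
  have hD' : (1 : ℝ) ≤ D := by
    have := le_trans (le_max_left _ _) hD
    linarith
  have hPP : (1 : ℝ) ≤ P0 * D ^ 20 := by
    have : (1 : ℝ) ≤ D ^ 20 := one_le_pow₀ hD'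
    nlinarith
  exact ⟨h5 lam hlam e1 κ κS κT s s1 s2 F w0 X sig gs gs1 gs2 gF h U w gU gw om hp,
    (h6 lam hlam e2 κ κS κT s s1 s2 F w0 X sig gs gs1 gs2 gF h U w gU gw om hp).2.2,
    by linarith [h.κ_rng.1], katoInf h, planeLow hD' hPP e3 h⟩

end Crest.Agent.R335.CI
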