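import Crest.Agent.R335.GU2
import Crest.Agent.R335.KIface2

/-!
Row 335 (S0521), family G: interior estimate and the Poincaré inequality `PoinG` for `U²`
(note of helper737).
-/

set_option autoImplicit false
set_option linter.unusedVariables false
set_option linter.unusedSectionVars false

open MeasureTheory Filter Set Crest.MathPhysics.ThreeBody
open scoped ENNReal Topology ContDiff NNReal

noncomputable section
namespace Crest.Agent.R335

/-- Cauchy-Schwarz -/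
theorem GU.cs {a b : Pos3 → ℝ} (ha : Integrable (fun x => a x ^ 2))
    (hb : Integrable (fun x => b x ^ 2)) (hab : Integrable (fun x => a x * b x)) :
    (∫ x, a x * b x) ^ 2 ≤ (∫ x, a x ^ 2) * ∫ x, b x ^ 2 := by
  have key : ∀ t : ℝ, 0 ≤ (∫ x, b x ^ 2) * (t * t) + (2 * ∫ x, a x * b x) * t +
      ∫ x, a x ^ 2 := by
    intro t
    have h1 : 0 ≤ ∫ x, (a x + t * b x) ^ 2 := integral_nonneg fun x => sq_nonneg _
    have h2 : ∫ x, (a x + t * b x) ^ 2 =
        (∫ x, b x ^ 2) * (t * t) + (2 * ∫ x, a x * b x) * t + ∫ x, a x ^ 2 := by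
      have e : (fun x => (a x + t * b x) ^ 2) =
          fun x => (a x ^ 2 + 2 * t * (a x * b x)) + t ^ 2 * b x ^ 2 := by
        funext x; ring
      have i1 : Integrable (fun x => a x ^ 2 + 2 * t * (a x * b x)) := ha.add (hab.const_mul _)
      have i2 : Integrable (fun x => t ^ 2 * b x ^ 2) := hb.const_mul _
      have i3 : Integrable (fun x => 2 * t * (a x * b x)) := hab.const_mul _
      rw [e, integral_add i1 i2, integral_add ha i3, integral_const_mul, integral_const_mul]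
      ring
    rw [h2] at h1
    exact h1
  have h := discrim_le_zero key
  unfold discrim at h
  nlinarith

theorem BT.cut {f : Pos3 → ℝ} {g : Pos3 → Pos3} (hf : BT f g) {χ : Pos3 → ℝ} {K : ℝ≥0}
    (hχ : LipschitzWith K χ) (hb : ∀ x, 0 ≤ χ x ∧ χ x ≤ 1) {r : ℝ}
    (h0 : ∀ x, r ≤ ‖x‖ → χ x = 0) (c : ℝ) :
    BT (fun x => χ x * (f x - c)) (fun x => χ x • g x + (f x - c) • gr χ x) := by
  have h1 := hf.lip_mul hχ (fun x => by rw [abs_of_nonneg (hb x).1]; exact (hb x).2)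
  obtain ⟨h2, h2'⟩ := BT.of_lip hχ h0
  obtain ⟨C, hC⟩ := h1.bdd
  obtain ⟨r1, hr1⟩ := h1.cpt
  have h3 := H1.sub h1.h1 (H1.const_mul h2.h1 c)
  have e1 : (fun x => χ x * f x - c * χ x) = fun x => χ x * (f x - c) := by
    funext x; ring
  have e2 : (fun x => χ x • g x + f x • gr χ x - c • gr χ x) =
      fun x => χ x • g x + (f x - c) • gr χ x := by
    funext x; rw [sub_smul]; abel
  rw [e1, e2] at h3
  refine ⟨h3, ⟨C + |c|, ?_⟩, ⟨max r r1, ?_⟩⟩
  · filter_upwards [hC] with x hx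
    have : χ x * (f x - c) = χ x * f x - χ x * c := by ring
    rw [this]
    refine (abs_sub _ _).trans (add_le_add hx ?_)
    rw [abs_mul, abs_of_nonneg (hb x).1]
    exact mul_le_of_le_one_left (abs_nonneg _) (hb x).2
  · refine ae_of_all _ fun x hx => ?_
    rw [h0 x (le_trans (le_max_left _ _) hx), zero_mul]

section cutoffs

/-- inner cutoff -/
def cin (R : ℝ) (x : Pos3) : ℝ := max 0 (min 1 ((3 * R - ‖x‖) / R))

/-- outer cutoff -/
def cout (R n : ℝ) (x : Pos3) : ℝ :=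
  max 0 (min 1 (min ((‖x‖ - R) / R) ((2 * n - ‖x‖) / n)))

theorem lip_lin {a b : ℝ} (K : ℝ≥0) (h : |a| ≤ K) :
    LipschitzWith K (fun x : Pos3 => a * ‖x‖ + b) := by
  refine LipschitzWith.of_dist_le_mul fun x y => ?_
  rw [Real.dist_eq]
  have e : a * ‖x‖ + b - (a * ‖y‖ + b) = a * (‖x‖ - ‖y‖) := by ring
  rw [e, abs_mul]
  have h1 : |‖x‖ - ‖y‖| ≤ dist x y := by
    rw [dist_eq_norm]; exact abs_norm_sub_norm_le x y
  exact mul_le_mul h h1 (abs_nonneg _) K.2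

theorem cin_lip {R : ℝ} (hR : 0 < R) : LipschitzWith (Real.toNNReal R⁻¹) (cin R) := by
  have h1 : LipschitzWith (Real.toNNReal R⁻¹) (fun x : Pos3 => (-R⁻¹) * ‖x‖ + 3) :=
    lip_lin _ (by rw [abs_neg, abs_of_nonneg (inv_nonneg.2 hR.le), Real.coe_toNNReal _
      (inv_nonneg.2 hR.le)])
  have h2 := (h1.const_min 1).const_max 0
  have e : (fun x : Pos3 => max 0 (min 1 ((-R⁻¹) * ‖x‖ + 3))) = cin R := by
    funext x
    unfold cin
    congr 2
    field_simp
    ring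
  rwa [e] at h2

theorem cin_mem (R : ℝ) (x : Pos3) : 0 ≤ cin R x ∧ cin R x ≤ 1 :=
  ⟨le_max_left _ _, max_le zero_le_one (min_le_left _ _)⟩

theorem cin_one {R : ℝ} (hR : 0 < R) {x : Pos3} (h : ‖x‖ ≤ 2 * R) : cin R x = 1 := by
  unfold cin
  rw [min_eq_left, max_eq_right zero_le_one]
  rw [le_div_iff₀ hR]
  linarith

theorem cin_zero {R : ℝ} (hR : 0 < R) {x : Pos3} (h : 3 * R ≤ ‖x‖) : cin R x = 0 := by
  unfold cin
  rw [max_eq_left]
  refine (min_le_right _ _).trans ?_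
  exact div_nonpos_of_nonpos_of_nonneg (by linarith) hR.le

theorem cout_lip {R n : ℝ} (hR : 0 < R) (hn : R ≤ n) :
    LipschitzWith (Real.toNNReal R⁻¹) (cout R n) := by
  have hn0 : 0 < n := hR.trans_le hn
  have h1 : LipschitzWith (Real.toNNReal R⁻¹) (fun x : Pos3 => R⁻¹ * ‖x‖ + (-1)) :=
    lip_lin _ (by rw [abs_of_nonneg (inv_nonneg.2 hR.le), Real.coe_toNNReal _
      (inv_nonneg.2 hR.le)])
  have h2 : LipschitzWith (Real.toNNReal R⁻¹) (fun x : Pos3 => (-n⁻¹) * ‖x‖ + 2) :=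
    lip_lin _ (by
      rw [abs_neg, abs_of_nonneg (inv_nonneg.2 hn0.le), Real.coe_toNNReal _
        (inv_nonneg.2 hR.le)]
      exact inv_anti₀ hR hn)
  have h3 := (h1.min h2)
  rw [max_self] at h3
  have h4 := (h3.const_min 1).const_max 0
  have e : (fun x : Pos3 => max 0 (min 1 (min (R⁻¹ * ‖x‖ + (-1)) ((-n⁻¹) * ‖x‖ + 2)))) =
      cout R n := by
    funext x
    unfold cout
    have e1 : R⁻¹ * ‖x‖ + (-1) = (‖x‖ - R) / R := by field_simp; ring
    have e2 : (-n⁻¹) * ‖x‖ + 2 = (2 * n - ‖x‖) / n := by field_simp; ring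
    rw [e1, e2]
  rwa [e] at h4

theorem cout_mem (R n : ℝ) (x : Pos3) : 0 ≤ cout R n x ∧ cout R n x ≤ 1 :=
  ⟨le_max_left _ _, max_le zero_le_one (min_le_left _ _)⟩

theorem cout_one {R n : ℝ} (hR : 0 < R) (hn : R ≤ n) {x : Pos3} (h : 2 * R ≤ ‖x‖)
    (h' : ‖x‖ ≤ n) : cout R n x = 1 := by
  have hn0 : 0 < n := hR.trans_le hn
  unfold cout
  rw [min_eq_left, max_eq_right zero_le_one]
  refine le_min ?_ ?_
  · rw [le_div_iff₀ hR]; linarith
  · rw [le_div_iff₀ hn0]; linarith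

theorem cout_zero {R n : ℝ} (hR : 0 < R) {x : Pos3} (h : ‖x‖ ≤ R) : cout R n x = 0 := by
  unfold cout
  rw [max_eq_left]
  refine (min_le_right _ _).trans ((min_le_left _ _).trans ?_)
  exact div_nonpos_of_nonpos_of_nonneg (by linarith) hR.le

theorem cout_zero' {R n : ℝ} (hn : 0 < n) {x : Pos3} (h : 2 * n ≤ ‖x‖) : cout R n x = 0 := by
  unfold cout
  rw [max_eq_left]
  refine (min_le_right _ _).trans ((min_le_right _ _).trans ?_)
  exact div_nonpos_of_nonpos_of_nonneg (by linarith) hn.le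

end cutoffs

/-- hypotheses of the interior estimate -/
structure IntHyp (U u0 : Pos3 → ℝ) (R η g0 : ℝ) : Prop where
  g0p : 0 < g0
  η0 : 0 ≤ η
  η1 : η ≤ 1 / 16
  u0c : Continuous u0
  u0i : Integrable (fun x => u0 x ^ 2)
  u0n : ∫ x, u0 x ^ 2 = 2
  poinc : ∀ (K : Pos3 → ℝ) (m : Pos3 → Pos3), BT K m → (∀ x, K (rz x) = K x) →
    g0 * ((∫ x, u0 x ^ 2 * K x ^ 2) - (1 / 2) * (∫ x, u0 x ^ 2 * K x) ^ 2) ≤
      (1 / 2) * ∫ x, u0 x ^ 2 * ‖m x‖ ^ 2
  lo : ∀ᵐ x : Pos3, ‖x‖ ≤ 3 * R → (1 - η) * u0 x ^ 2 ≤ U x ^ 2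
  up : ∀ᵐ x : Pos3, ‖x‖ ≤ 3 * R → U x ^ 2 ≤ (1 + η) * u0 x ^ 2
  tail : ∫ x in {x : Pos3 | 2 * R ≤ ‖x‖}, U x ^ 2 ≤ η

section main
variable {s U w : Pos3 → ℝ} {gs gU gw : Pos3 → Pos3} {om : ℝ}

/-- gradient term of a cut function -/
theorem cut_energy (hs : Amp s gs) (hp : PairAdm s U gU w gw) {f : Pos3 → ℝ} {g : Pos3 → Pos3}
    (hf : BT f g) {χ : Pos3 → ℝ} {K : ℝ≥0} (hχ : LipschitzWith K χ)
    (hb : ∀ x, 0 ≤ χ x ∧ χ x ≤ 1) {r : ℝ} (h0 : ∀ x, r ≤ ‖x‖ → χ x = 0) (c : ℝ)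
    (hi : Integrable (fun x => U x ^ 2 * (f x - c) ^ 2)) :
    ∫ x, U x ^ 2 * ‖χ x • g x + (f x - c) • gr χ x‖ ^ 2 ≤
      2 * (∫ x, U x ^ 2 * ‖g x‖ ^ 2) + 2 * (K : ℝ) ^ 2 * ∫ x, U x ^ 2 * (f x - c) ^ 2 := by
  have h1 := hf.cut hχ hb h0 c
  have h2 := (WG.of_lipschitz hχ).2
  have i1 := hp.int_mulU hs hf
  rw [← integral_const_mul, ← integral_const_mul,
    ← integral_add (i1.2.const_mul 2) (hi.const_mul _)]
  refine integral_mono (hp.int_mulU hs h1).2 ((i1.2.const_mul 2).add (hi.const_mul _)) fun x => ?_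
  have b1 : ‖χ x • g x + (f x - c) • gr χ x‖ ≤ ‖g x‖ + |f x - c| * K := by
    refine (norm_add_le _ _).trans (add_le_add ?_ ?_)
    · rw [norm_smul, Real.norm_eq_abs, abs_of_nonneg (hb x).1]
      exact mul_le_of_le_one_left (norm_nonneg _) (hb x).2
    · rw [norm_smul, Real.norm_eq_abs]
      exact mul_le_mul_of_nonneg_left (h2 x) (abs_nonneg _)
  have b2 := pow_le_pow_left₀ (norm_nonneg _) b1 2
  have b3 : (f x - c) ^ 2 = |f x - c| ^ 2 := (sq_abs _).symm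
  have b4 : ‖χ x • g x + (f x - c) • gr χ x‖ ^ 2 ≤
      2 * ‖g x‖ ^ 2 + 2 * (K : ℝ) ^ 2 * (f x - c) ^ 2 := by
    rw [b3]
    nlinarith [sq_nonneg (‖g x‖ - |f x - c| * K)]
  have := mul_le_mul_of_nonneg_left b4 (sq_nonneg (U x))
  show U x ^ 2 * ‖χ x • g x + (f x - c) • gr χ x‖ ^ 2 ≤
    2 * (U x ^ 2 * ‖g x‖ ^ 2) + 2 * (K : ℝ) ^ 2 * (U x ^ 2 * (f x - c) ^ 2)
  linarith

/-- exterior part -/
theorem outer_part (hs : Amp s gs) (hp : Pair s U gU w gw om) {e2 : Pos3 → ℝ}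
    {R a cl cu cs κ0 : ℝ} (he : ExtHyp s U w e2 R a cl cu cs κ0) {f : Pos3 → ℝ}
    {g : Pos3 → Pos3} (hf : BT f g) (c : ℝ)
    (hi : Integrable (fun x => U x ^ 2 * (f x - c) ^ 2)) :
    ∫ x in {x : Pos3 | 2 * R ≤ ‖x‖}, U x ^ 2 * (f x - c) ^ 2 ≤
      K0of a cl cu cs κ0 * (2 * (∫ x, U x ^ 2 * ‖g x‖ ^ 2) +
        2 * R⁻¹ ^ 2 * ∫ x, U x ^ 2 * (f x - c) ^ 2) := by
  have hR : 0 < R := zero_lt_one.trans_le he.R1
  have hK0 : 0 ≤ K0of a cl cu cs κ0 := by
    unfold K0of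
    have := he.a0; have := he.cl0; have := he.cu0; have := he.cs0; have := he.k0
    positivity
  set S : ℕ → Set Pos3 := fun n => {x : Pos3 | 2 * R ≤ ‖x‖ ∧ ‖x‖ ≤ R + n} with hS
  have hSm : ∀ n, MeasurableSet (S n) := fun n =>
    (measurableSet_le measurable_const measurable_norm).inter
      (measurableSet_le measurable_norm measurable_const)
  have hmono : Monotone S := by
    intro n m hnm x hx
    refine ⟨hx.1, hx.2.trans ?_⟩
    have : (n : ℝ) ≤ m := by exact_mod_cast hnm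
    linarith
  have hU : (⋃ n, S n) = {x : Pos3 | 2 * R ≤ ‖x‖} := by
    ext x
    simp only [hS, mem_iUnion, mem_ofPred_eq]
    constructor
    · rintro ⟨n, h, -⟩; exact h
    · intro h
      obtain ⟨n, hn⟩ := exists_nat_ge (‖x‖ - R)
      exact ⟨n, h, by linarith⟩
  have hlim : Tendsto (fun n => ∫ x in S n, U x ^ 2 * (f x - c) ^ 2) atTop
      (𝓝 (∫ x in {x : Pos3 | 2 * R ≤ ‖x‖}, U x ^ 2 * (f x - c) ^ 2)) := by
    have := tendsto_setIntegral_of_monotone (f := fun x => U x ^ 2 * (f x - c) ^ 2) hSm hmono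
      (μ := volume) (by rw [hU]; exact hi.integrableOn)
    rwa [hU] at this
  refine le_of_tendsto' hlim fun n => ?_
  have hn : R ≤ R + n := by linarith [Nat.cast_nonneg (α := ℝ) n]
  have hn0 : (0 : ℝ) < R + n := hR.trans_le hn
  have hlip := cout_lip hR hn
  have h0 : ∀ x : Pos3, 2 * (R + n) ≤ ‖x‖ → cout R (R + n) x = 0 := fun x hx =>
    cout_zero' hn0 hx
  have hF := hf.cut hlip (cout_mem R (R + n)) h0 c
  have hE := cut_energy hs hp.adm hf hlip (cout_mem R (R + n)) h0 c hi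
  rw [Real.coe_toNNReal _ (inv_nonneg.2 hR.le)] at hE
  have hx := ext_est hs hp he hF (ae_of_all _ fun x hx => by
    rw [cout_zero hR hx.le, zero_mul])
  refine le_trans ?_ (hx.trans (mul_le_mul_of_nonneg_left hE hK0))
  have iF := (hp.adm.int_mulU hs hF).1
  rw [← integral_indicator (hSm n)]
  refine integral_mono (hi.indicator (hSm n)) iF fun x => ?_
  by_cases hxS : x ∈ S n
  · simp only [indicator_of_mem hxS]
    rw [cout_one hR hn hxS.1 hxS.2, one_mul]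
  · simp only [indicator_of_notMem hxS]
    positivity

/-- interior part -/
theorem inner_part (hs : Amp s gs) (hp : PairAdm s U gU w gw) {u0 : Pos3 → ℝ} {R η g0 : ℝ}
    (hR : 0 < R) (hI : IntHyp U u0 R η g0) {f : Pos3 → ℝ} {g : Pos3 → Pos3} (hf : BT f g)
    (heven : ∀ x, f (rz x) = f x) (c : ℝ)
    (hi : Integrable (fun x => U x ^ 2 * (f x - c) ^ 2))
    (hi1 : Integrable (fun x => U x ^ 2 * (f x - c)))
    (hc : ∫ x, U x ^ 2 * (f x - c) = 0) :
    ∫ x in {x : Pos3 | ‖x‖ < 2 * R}, U x ^ 2 * (f x - c) ^ 2 ≤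
      (5 / 4) * η * (∫ x, U x ^ 2 * (f x - c) ^ 2) +
      2 / g0 * ((∫ x, U x ^ 2 * ‖g x‖ ^ 2) + R⁻¹ ^ 2 * ∫ x, U x ^ 2 * (f x - c) ^ 2) := by
  obtain ⟨hη0, hη1, hg0⟩ := And.intro hI.η0 (And.intro hI.η1 hI.g0p)
  set N : ℝ := ∫ x, U x ^ 2 * (f x - c) ^ 2 with hN
  set E : ℝ := ∫ x, U x ^ 2 * ‖g x‖ ^ 2 with hE
  have hN0 : 0 ≤ N := integral_nonneg fun x => by positivity
  have hE0 : 0 ≤ E := integral_nonneg fun x => by positivity
  have h0 : ∀ x : Pos3, 3 * R ≤ ‖x‖ → cin R x = 0 := fun x hx => cin_zero hR hx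
  have hK := hf.cut (cin_lip hR) (cin_mem R) h0 c
  have hKE := cut_energy hs hp hf (cin_lip hR) (cin_mem R) h0 c hi
  rw [Real.coe_toNNReal _ (inv_nonneg.2 hR.le), ← hE, ← hN] at hKE
  set K : Pos3 → ℝ := fun x => cin R x * (f x - c) with hKdef
  set m : Pos3 → Pos3 := fun x => cin R x • g x + (f x - c) • gr (cin R) x with hm
  have hKeven : ∀ x, K (rz x) = K x := by
    intro x
    have : cin R (rz x) = cin R x := by unfold cin; rw [LinearIsometryEquiv.norm_map]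
    simp only [hKdef, this, heven]
  have hpo := hI.poinc K m hK hKeven
  have hub : ∀ r : ℝ, ∃ M : ℝ, ∀ᵐ x : Pos3, ‖x‖ ≤ r → |u0 x ^ 2| ≤ M := by
    intro r
    obtain ⟨M, hM⟩ := (isCompact_closedBall (0 : Pos3) r).exists_bound_of_continuousOn
      (hI.u0c.pow 2).continuousOn
    exact ⟨M, ae_of_all _ fun x hx => hM x (by rwa [mem_closedBall_zero_iff])⟩
  have iu := hK.int_mul (hI.u0c.pow 2).aestronglyMeasurable hub
  have iU := hp.int_mulU hs hK
  have hK0 : ∀ x : Pos3, ¬ ‖x‖ ≤ 3 * R → K x = 0 := by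
    intro x hx
    simp only [hKdef]
    rw [cin_zero hR (le_of_not_ge hx), zero_mul]
  -- comparison of the squares
  have A1 : ∫ x, U x ^ 2 * K x ^ 2 ≤ (1 + η) * ∫ x, u0 x ^ 2 * K x ^ 2 := by
    rw [← integral_const_mul]
    refine integral_mono_ae iU.1 (iu.1.const_mul _) ?_
    filter_upwards [hI.up] with x hx
    by_cases h : ‖x‖ ≤ 3 * R
    · have := mul_le_mul_of_nonneg_right (hx h) (sq_nonneg (K x))
      show U x ^ 2 * K x ^ 2 ≤ (1 + η) * (u0 x ^ 2 * K x ^ 2)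
      linarith
    · simp [hK0 x h]
  have A2 : (1 - η) * ∫ x, u0 x ^ 2 * K x ^ 2 ≤ ∫ x, U x ^ 2 * K x ^ 2 := by
    rw [← integral_const_mul]
    refine integral_mono_ae (iu.1.const_mul _) iU.1 ?_
    filter_upwards [hI.lo] with x hx
    by_cases h : ‖x‖ ≤ 3 * R
    · have := mul_le_mul_of_nonneg_right (hx h) (sq_nonneg (K x))
      show (1 - η) * (u0 x ^ 2 * K x ^ 2) ≤ U x ^ 2 * K x ^ 2
      linarith
    · simp [hK0 x h]
  have A3 : (1 - η) * ∫ x, u0 x ^ 2 * ‖m x‖ ^ 2 ≤ ∫ x, U x ^ 2 * ‖m x‖ ^ 2 := by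
    rw [← integral_const_mul]
    refine integral_mono_ae (iu.2.const_mul _) iU.2 ?_
    filter_upwards [hI.lo, hK.grad_zero] with x hx hz
    by_cases h : ‖x‖ ≤ 3 * R
    · have := mul_le_mul_of_nonneg_right (hx h) (sq_nonneg ‖m x‖)
      show (1 - η) * (u0 x ^ 2 * ‖m x‖ ^ 2) ≤ U x ^ 2 * ‖m x‖ ^ 2
      linarith
    · simp [hz (hK0 x h)]
  have A4 : ∫ x, U x ^ 2 * K x ^ 2 ≤ N := by
    refine integral_mono iU.1 hi fun x => ?_
    show U x ^ 2 * K x ^ 2 ≤ U x ^ 2 * (f x - c) ^ 2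
    refine mul_le_mul_of_nonneg_left ?_ (sq_nonneg _)
    have := cin_mem R x
    simp only [hKdef]
    rw [mul_pow]
    exact mul_le_of_le_one_left (sq_nonneg _) (pow_le_one₀ this.1 this.2)
  set B0 : ℝ := ∫ x, u0 x ^ 2 * K x ^ 2 with hB0
  have hB0n : 0 ≤ B0 := integral_nonneg fun x => by positivity
  have hB0N : B0 ≤ (16 / 15) * N := by nlinarith
  -- the mean
  have iU2 : Integrable (fun x => U x ^ 2) := hp.hU.memf.integrable_sq
  obtain ⟨CK, hCK0, hCK⟩ := hK.bound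
  have iu1 : Integrable (fun x => u0 x ^ 2 * K x) := by
    refine (hI.u0i.mul_const CK).mono'
      ((hI.u0c.pow 2).aestronglyMeasurable.mul hK.h1.memf.1) ?_
    filter_upwards [hCK] with x hx
    rw [norm_mul, Real.norm_eq_abs, Real.norm_eq_abs, abs_of_nonneg (sq_nonneg _)]
    exact mul_le_mul_of_nonneg_left hx (sq_nonneg _)
  have iU1 : Integrable (fun x => U x ^ 2 * K x) := by
    refine (iU2.mul_const CK).mono' ((hp.hU.memf.1.pow 2).mul hK.h1.memf.1) ?_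
    filter_upwards [hCK] with x hx
    rw [norm_mul, Real.norm_eq_abs, Real.norm_eq_abs, abs_of_nonneg (sq_nonneg _)]
    exact mul_le_mul_of_nonneg_left hx (sq_nonneg _)
  -- first difference
  have D1 : (∫ x, (u0 x ^ 2 - U x ^ 2) * K x) ^ 2 ≤ 2 * η ^ 2 * B0 := by
    have iabs : Integrable (fun x => |u0 x| * (|u0 x| * |K x|)) := by
      refine iu1.norm.congr (ae_of_all _ fun x => ?_)
      show ‖u0 x ^ 2 * K x‖ = |u0 x| * (|u0 x| * |K x|)
      rw [norm_mul, Real.norm_eq_abs, Real.norm_eq_abs, abs_pow]; ring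
    have c1 := GU.cs (a := fun x => |u0 x|) (b := fun x => |u0 x| * |K x|)
      (by simpa [sq_abs] using hI.u0i)
      (iu.1.congr (ae_of_all _ fun x => by
        show u0 x ^ 2 * K x ^ 2 = (|u0 x| * |K x|) ^ 2
        rw [mul_pow |u0 x| |K x| 2, sq_abs, sq_abs])) iabs
    have c2 : ∫ x, |u0 x| ^ 2 = 2 := by simpa [sq_abs] using hI.u0n
    have c3 : ∫ x, (|u0 x| * |K x|) ^ 2 = B0 := by
      rw [hB0]
      congr 1
      funext x
      rw [mul_pow |u0 x| |K x| 2, sq_abs, sq_abs]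
    rw [c2, c3] at c1
    have c4 : |∫ x, (u0 x ^ 2 - U x ^ 2) * K x| ≤ η * ∫ x, |u0 x| * (|u0 x| * |K x|) := by
      rw [← integral_const_mul, ← Real.norm_eq_abs]
      refine norm_integral_le_of_norm_le (iabs.const_mul η) ?_
      filter_upwards [hI.lo, hI.up] with x h1 h2
      by_cases h : ‖x‖ ≤ 3 * R
      · rw [norm_mul, Real.norm_eq_abs, Real.norm_eq_abs]
        have : |u0 x ^ 2 - U x ^ 2| ≤ η * u0 x ^ 2 := by
          rw [abs_le]
          constructor <;> nlinarith [h1 h, h2 h]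
        calc |u0 x ^ 2 - U x ^ 2| * |K x| ≤ η * u0 x ^ 2 * |K x| :=
              mul_le_mul_of_nonneg_right this (abs_nonneg _)
          _ = η * (|u0 x| * (|u0 x| * |K x|)) := by rw [← sq_abs (u0 x)]; ring
      · simp [hK0 x h]
    have c5 := pow_le_pow_left₀ (abs_nonneg _) c4 2
    rw [sq_abs, mul_pow] at c5
    calc _ ≤ η ^ 2 * (∫ x, |u0 x| * (|u0 x| * |K x|)) ^ 2 := c5
      _ ≤ η ^ 2 * (2 * B0) := mul_le_mul_of_nonneg_left c1 (sq_nonneg _)
      _ = _ := by ring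
  -- second difference
  have D2 : (∫ x, U x ^ 2 * K x) ^ 2 ≤ η * N := by
    have e1 : ∫ x, U x ^ 2 * K x = - ∫ x, U x ^ 2 * ((1 - cin R x) * (f x - c)) := by
      have i3 : Integrable (fun x => U x ^ 2 * ((1 - cin R x) * (f x - c))) := by
        refine (hi1.sub iU1).congr (ae_of_all _ fun x => ?_)
        show U x ^ 2 * (f x - c) - U x ^ 2 * (cin R x * (f x - c)) = _
        ring
      have : ∫ x, U x ^ 2 * ((1 - cin R x) * (f x - c)) =
          (∫ x, U x ^ 2 * (f x - c)) - ∫ x, U x ^ 2 * K x := by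
        rw [← integral_sub hi1 iU1]
        congr 1
        funext x
        simp only [hKdef]
        ring
      rw [this, hc]
      ring
    set T : Set Pos3 := {x : Pos3 | 2 * R ≤ ‖x‖} with hT
    have hTm : MeasurableSet T := measurableSet_le measurable_const measurable_norm
    set A : Pos3 → ℝ := T.indicator (fun x => |U x|) with hA
    have hA2 : (fun x => A x ^ 2) = T.indicator (fun x => U x ^ 2) := by
      funext x
      by_cases hx : x ∈ T
      · simp [hA, hx, sq_abs]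
      · simp [hA, hx]
    have iAB : Integrable (fun x => A x * (|U x| * |f x - c|)) := by
      refine (hi1.norm.indicator hTm).congr (ae_of_all _ fun x => ?_)
      by_cases hx : x ∈ T
      · simp only [indicator_of_mem hx, hA]
        rw [norm_mul, Real.norm_eq_abs, Real.norm_eq_abs, abs_pow]; ring
      · simp [hA, hx]
    have c1 := GU.cs (a := A) (b := fun x => |U x| * |f x - c|)
      (by rw [hA2]; exact iU2.indicator hTm)
      (hi.congr (ae_of_all _ fun x => by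
        show U x ^ 2 * (f x - c) ^ 2 = (|U x| * |f x - c|) ^ 2
        rw [mul_pow, sq_abs, sq_abs])) iAB
    have c2 : ∫ x, A x ^ 2 ≤ η := by
      rw [hA2, integral_indicator hTm]
      exact hI.tail
    have c3 : ∫ x, (|U x| * |f x - c|) ^ 2 = N := by
      rw [hN]
      congr 1
      funext x
      rw [mul_pow, sq_abs, sq_abs]
    have c4 : |∫ x, U x ^ 2 * K x| ≤ ∫ x, A x * (|U x| * |f x - c|) := by
      rw [e1, abs_neg, ← Real.norm_eq_abs]
      refine norm_integral_le_of_norm_le iAB (ae_of_all _ fun x => ?_)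
      have hcm := cin_mem R x
      by_cases hx : x ∈ T
      · simp only [hA, indicator_of_mem hx]
        rw [norm_mul, norm_mul, Real.norm_eq_abs, Real.norm_eq_abs, Real.norm_eq_abs,
          abs_of_nonneg (by linarith [hcm.2] : 0 ≤ 1 - cin R x), abs_pow]
        have : (1 - cin R x) * |f x - c| ≤ |f x - c| :=
          mul_le_of_le_one_left (abs_nonneg _) (by linarith [hcm.1])
        calc |U x| ^ 2 * ((1 - cin R x) * |f x - c|) ≤ |U x| ^ 2 * |f x - c| :=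
              mul_le_mul_of_nonneg_left this (sq_nonneg _)
          _ = _ := by ring
      · have : cin R x = 1 := cin_one hR (by
          simp only [hT, mem_ofPred_eq] at hx
          exact le_of_not_ge hx)
        simp [hA, hx, this]
    have c5 := pow_le_pow_left₀ (abs_nonneg _) c4 2
    rw [sq_abs] at c5
    calc _ ≤ _ := c5
      _ ≤ (∫ x, A x ^ 2) * ∫ x, (|U x| * |f x - c|) ^ 2 := c1
      _ ≤ η * N := by rw [c3]; exact mul_le_mul_of_nonneg_right c2 hN0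
  have D3 : (∫ x, u0 x ^ 2 * K x) ^ 2 ≤ (7 / 3) * η * N := by
    have e1 : ∫ x, u0 x ^ 2 * K x =
        (∫ x, (u0 x ^ 2 - U x ^ 2) * K x) + ∫ x, U x ^ 2 * K x := by
      have : (fun x => (u0 x ^ 2 - U x ^ 2) * K x) =
          fun x => u0 x ^ 2 * K x - U x ^ 2 * K x := by funext x; ring
      rw [this, integral_sub iu1 iU1]
      ring
    rw [e1]
    set p := ∫ x, (u0 x ^ 2 - U x ^ 2) * K x
    set q := ∫ x, U x ^ 2 * K x
    have q1 : (p + q) ^ 2 ≤ 2 * p ^ 2 + 2 * q ^ 2 := by nlinarith [sq_nonneg (p - q)]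
    have q2 : 2 * η ^ 2 * B0 ≤ 2 * η * (1 / 16) * (16 / 15 * N) := by
      have : η ^ 2 * B0 ≤ η * (1 / 16) * (16 / 15 * N) := by
        calc η ^ 2 * B0 = η * (η * B0) := by ring
          _ ≤ η * ((1 / 16) * (16 / 15 * N)) := by
            refine mul_le_mul_of_nonneg_left ?_ hη0
            exact mul_le_mul hη1 hB0N hB0n (by norm_num)
          _ = _ := by ring
      linarith
    have q3 : 0 ≤ η * N := mul_nonneg hη0 hN0
    have q4 : 2 * η * (1 / 16) * (16 / 15 * N) = (2 / 15) * (η * N) := by ring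
    rw [q4] at q2
    have q5 : (7 / 3) * η * N = (7 / 3) * (η * N) := by ring
    rw [q5]
    linarith [D1, D2]
  -- conclusion
  have G1 : g0 * B0 ≤ g0 * ((7 / 6) * η * N) + (16 / 15) * (E + R⁻¹ ^ 2 * N) := by
    have h1 : (1 / 2) * ∫ x, u0 x ^ 2 * ‖m x‖ ^ 2 ≤ (16 / 15) * (E + R⁻¹ ^ 2 * N) := by
      have hn : 0 ≤ ∫ x, u0 x ^ 2 * ‖m x‖ ^ 2 := integral_nonneg fun x => by positivity
      nlinarith
    have h2 : g0 * (1 / 2 * (∫ x, u0 x ^ 2 * K x) ^ 2) ≤ g0 * ((7 / 6) * η * N) :=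
      mul_le_mul_of_nonneg_left (by linarith) hg0.le
    have h3 : g0 * (B0 - 1 / 2 * (∫ x, u0 x ^ 2 * K x) ^ 2) ≤
        (1 / 2) * ∫ x, u0 x ^ 2 * ‖m x‖ ^ 2 := hpo
    have h4 : g0 * B0 = g0 * (B0 - 1 / 2 * (∫ x, u0 x ^ 2 * K x) ^ 2) +
      g0 * (1 / 2 * (∫ x, u0 x ^ 2 * K x) ^ 2) := by ring
    linarith
  have G2 : B0 ≤ (7 / 6) * η * N + (16 / 15) / g0 * (E + R⁻¹ ^ 2 * N) := by
    have : g0 * ((7 / 6) * η * N + (16 / 15) / g0 * (E + R⁻¹ ^ 2 * N)) =
        g0 * ((7 / 6) * η * N) + (16 / 15) * (E + R⁻¹ ^ 2 * N) := by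
      field_simp
    refine le_of_mul_le_mul_left ?_ hg0
    rw [this]
    exact G1
  have G3 : ∫ x in {x : Pos3 | ‖x‖ < 2 * R}, U x ^ 2 * (f x - c) ^ 2 ≤
      ∫ x, U x ^ 2 * K x ^ 2 := by
    have hm1 : MeasurableSet {x : Pos3 | ‖x‖ < 2 * R} :=
      measurableSet_lt measurable_norm measurable_const
    rw [← integral_indicator hm1]
    refine integral_mono (hi.indicator hm1) iU.1 fun x => ?_
    by_cases hx : x ∈ {x : Pos3 | ‖x‖ < 2 * R}
    · simp only [indicator_of_mem hx, hKdef]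
      rw [cin_one hR (le_of_lt hx), one_mul]
    · simp only [indicator_of_notMem hx]
      positivity
  have hEN : 0 ≤ E + R⁻¹ ^ 2 * N := by positivity
  have G4 : (1 + η) * B0 ≤ (17 / 16) * ((7 / 6) * η * N + (16 / 15) / g0 * (E + R⁻¹ ^ 2 * N)) :=
    mul_le_mul (by linarith) G2 hB0n (by norm_num)
  have G5 : (17 / 16) * ((7 / 6) * η * N) ≤ (5 / 4) * η * N := by
    have := mul_nonneg hη0 hN0
    linarith
  have G6 : (17 / 16) * ((16 / 15) / g0 * (E + R⁻¹ ^ 2 * N)) ≤ 2 / g0 * (E + R⁻¹ ^ 2 * N) := by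
    have e : (17 / 16) * ((16 / 15) / g0 * (E + R⁻¹ ^ 2 * N)) =
        (17 / 15) / g0 * (E + R⁻¹ ^ 2 * N) := by ring
    rw [e]
    refine mul_le_mul_of_nonneg_right ?_ hEN
    exact div_le_div_of_nonneg_right (by norm_num) hg0.le
  calc _ ≤ _ := G3
    _ ≤ _ := A1
    _ ≤ _ := G4
    _ = (17 / 16) * ((7 / 6) * η * N) +
        (17 / 16) * ((16 / 15) / g0 * (E + R⁻¹ ^ 2 * N)) := by ring
    _ ≤ _ := add_le_add G5 G6

/-- the Poincaré inequality (G) -/
theorem poinG_of (hs : Amp s gs) (hp : Pair s U gU w gw om) {e2 u0 : Pos3 → ℝ}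
    {R a cl cu cs κ0 η g0 : ℝ} (he : ExtHyp s U w e2 R a cl cu cs κ0)
    (hI : IntHyp U u0 R η g0)
    (hR : 8 * (2 * K0of a cl cu cs κ0 + 2 / g0) ≤ R ^ 2)
    (hom : 8 * om * (2 * K0of a cl cu cs κ0 + 2 / g0) ≤ 3) : PoinG U om := by
  intro f g hf heven
  have hR0 : 0 < R := zero_lt_one.trans_le he.R1
  have hg0 := hI.g0p
  have hK0 : 0 ≤ K0of a cl cu cs κ0 := by
    unfold K0of
    have := he.a0; have := he.cl0; have := he.cu0; have := he.cs0; have := he.k0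
    positivity
  obtain ⟨B, hB0, hB⟩ := hf.bound
  have iU2 : Integrable (fun x => U x ^ 2) := hp.adm.hU.memf.integrable_sq
  have iUf : Integrable (fun x => U x ^ 2 * f x) := by
    refine (iU2.mul_const B).mono' ((hp.adm.hU.memf.1.pow 2).mul hf.h1.memf.1) ?_
    filter_upwards [hB] with x hx
    rw [norm_mul, Real.norm_eq_abs, Real.norm_eq_abs, abs_of_nonneg (sq_nonneg _)]
    exact mul_le_mul_of_nonneg_left hx (sq_nonneg _)
  have iUff := (hp.adm.int_mulU hs hf).1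
  set M : ℝ := ∫ x, U x ^ 2 * f x with hM
  set c : ℝ := M / 2 with hc
  have i1 : Integrable (fun x => U x ^ 2 * (f x - c)) := by
    refine (iUf.sub (iU2.const_mul c)).congr (ae_of_all _ fun x => ?_)
    show U x ^ 2 * f x - c * U x ^ 2 = _
    ring
  have i2 : Integrable (fun x => U x ^ 2 * (f x - c) ^ 2) := by
    refine ((iUff.sub (iUf.const_mul (2 * c))).add (iU2.const_mul (c ^ 2))).congr
      (ae_of_all _ fun x => ?_)
    show U x ^ 2 * f x ^ 2 - 2 * c * (U x ^ 2 * f x) + c ^ 2 * U x ^ 2 = _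
    ring
  have hmean : ∫ x, U x ^ 2 * (f x - c) = 0 := by
    have e : (fun x => U x ^ 2 * (f x - c)) = fun x => U x ^ 2 * f x - c * U x ^ 2 := by
      funext x; ring
    rw [e, integral_sub iUf (iU2.const_mul c), integral_const_mul, hp.adm.nU, hc, ← hM]
    ring
  have hNeq : ∫ x, U x ^ 2 * (f x - c) ^ 2 =
      (∫ x, U x ^ 2 * f x ^ 2) - (1 / 2) * M ^ 2 := by
    have e : (fun x => U x ^ 2 * (f x - c) ^ 2) =
        fun x => (U x ^ 2 * f x ^ 2 - 2 * c * (U x ^ 2 * f x)) + c ^ 2 * U x ^ 2 := by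
      funext x; ring
    have j1 : Integrable (fun x => 2 * c * (U x ^ 2 * f x)) := iUf.const_mul _
    have j2 : Integrable (fun x => U x ^ 2 * f x ^ 2 - 2 * c * (U x ^ 2 * f x)) := iUff.sub j1
    have j3 : Integrable (fun x => c ^ 2 * U x ^ 2) := iU2.const_mul _
    rw [e, integral_add j2 j3, integral_sub iUff j1, integral_const_mul, integral_const_mul,
      hp.adm.nU, ← hM, hc]
    ring
  have h1 := inner_part hs hp.adm hR0 hI hf heven c i2 i1 hmean
  have h2 := outer_part hs hp he hf c i2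
  rw [← hNeq]
  set N : ℝ := ∫ x, U x ^ 2 * (f x - c) ^ 2 with hN
  set E : ℝ := ∫ x, U x ^ 2 * ‖g x‖ ^ 2 with hE
  have hN0 : 0 ≤ N := integral_nonneg fun x => by positivity
  have hE0 : 0 ≤ E := integral_nonneg fun x => by positivity
  have hsplit : N = (∫ x in {x : Pos3 | ‖x‖ < 2 * R}, U x ^ 2 * (f x - c) ^ 2) +
      ∫ x in {x : Pos3 | 2 * R ≤ ‖x‖}, U x ^ 2 * (f x - c) ^ 2 := by
    have hm1 : MeasurableSet {x : Pos3 | ‖x‖ < 2 * R} :=
      measurableSet_lt measurable_norm measurable_const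
    have hcompl : {x : Pos3 | 2 * R ≤ ‖x‖} = {x : Pos3 | ‖x‖ < 2 * R}ᶜ := by
      ext x; simp
    rw [hN, hcompl, integral_add_compl hm1 i2]
  have hη0 := hI.η0
  have hη1 := hI.η1
  set K0 : ℝ := K0of a cl cu cs κ0
  set A : ℝ := 2 * K0 + 2 / g0 with hA
  have hA0 : 0 ≤ A := by positivity
  have t1 : N ≤ (5 / 4) * η * N + A * (E + R⁻¹ ^ 2 * N) := by
    calc N = _ := hsplit
      _ ≤ _ := add_le_add h1 h2
      _ = _ := by rw [hA]; ring
  have t2 : A * R⁻¹ ^ 2 ≤ 1 / 8 := by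
    rw [inv_pow, ← div_eq_mul_inv, div_le_iff₀ (by positivity)]
    linarith
  have t3 : (5 / 4) * η * N ≤ (5 / 64) * N := by
    refine mul_le_mul_of_nonneg_right ?_ hN0
    linarith
  have t4 : A * (R⁻¹ ^ 2 * N) ≤ (1 / 8) * N := by
    rw [← mul_assoc]
    exact mul_le_mul_of_nonneg_right t2 hN0
  have t5 : N ≤ (4 / 3) * (A * E) := by
    have : A * (E + R⁻¹ ^ 2 * N) = A * E + A * (R⁻¹ ^ 2 * N) := by ring
    have hAE : 0 ≤ A * E := mul_nonneg hA0 hE0
    linarith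
  have hom0 := hp.om_pos.le
  have t6 : 2 * om * N ≤ 2 * om * ((4 / 3) * (A * E)) :=
    mul_le_mul_of_nonneg_left t5 (by positivity)
  have t7 : 2 * om * ((4 / 3) * (A * E)) ≤ E := by
    have : 2 * om * ((4 / 3) * (A * E)) = (8 * om * A) / 3 * E := by ring
    rw [this]
    have h3 : (8 * om * A) / 3 ≤ 1 := by linarith
    exact mul_le_of_le_one_left hE0 h3
  exact t6.trans t7

end main

end Crest.Agent.R335
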