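import Crest.Agent.R335.GHardy
import Crest.Agent.R335.CDefs
import Crest.Agent.R335.HZero

/-!
Row 335 (S0521), part C: the Hardy inequality (H1) for the amplitude of `COut` (task C:CHardy), and
the extension of weak inequalities `WLe` to `BT` test functions.
-/

set_option autoImplicit false

open MeasureTheory Filter Set Crest.MathPhysics.ThreeBody
open scoped ENNReal Topology ContDiff NNReal

noncomputable section
namespace Crest.Agent.R335

/-- a weak inequality on `U` may be tested with `BT` functions with compact support in `U` -/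
theorem WLe.test_bt {U : Set Pos3} (hU : IsOpen U) {s m F : Pos3 → ℝ} {ds : Pos3 → Pos3}
    (h : WLe U s ds m F) (hds : MemLp ds 2 (volume.restrict U))
    (hq : MemLp (fun x => m x * s x) 2 (volume.restrict U)) (hF : MemLp F 2 (volume.restrict U))
    {φ : Pos3 → ℝ} {g : Pos3 → Pos3} (hφ : BT φ g) (h0 : ∀ᵐ x, 0 ≤ φ x) {K : Set Pos3}
    (hK : IsCompact K) (hKU : K ⊆ U) (hs : ∀ᵐ x, x ∉ K → φ x = 0) :
    (1 / 2) * (∫ x, inner ℝ (ds x) (g x)) + ∫ x, m x * s x * φ x ≤ ∫ x, F x * φ x := by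
  have hUm := hU.measurableSet
  set φ' : Pos3 → ℝ := K.indicator φ with hφ'
  have he : φ =ᵐ[volume] φ' := by
    filter_upwards [hs] with x hx
    by_cases hxK : x ∈ K
    · rw [hφ', indicator_of_mem hxK]
    · rw [hφ', indicator_of_notMem hxK, hx hxK]
  have hφ1 : H1 φ' g := hφ.h1.congr he ae_eq_rfl
  have h10 : H10 U φ' g := H10.of_supp hU hφ1 hK hKU fun x hx => indicator_of_notMem hx _
  have hpos : ∀ᵐ x, 0 ≤ φ' x := by
    filter_upwards [h0, he] with x h1 h2
    rwa [← h2]
  have key := test_extend hU (q := fun x => 2 * (m x * s x - F x)) (G := ds)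
    ((hq.sub hF).const_mul 2) hds (fun ψ hψ hψ0 => ?_) h10 hpos
  · -- translate the result
    have hg0 : ∀ᵐ x, x ∉ U → g x = 0 := by
      filter_upwards [hφ.gr_zero, hs] with x h1 h2 h3
      exact h1 (h2 fun h4 => h3 (hKU h4))
    have e1 : ∫ x in U, inner ℝ (ds x) (g x) = ∫ x, inner ℝ (ds x) (g x) := by
      rw [← integral_indicator hUm]
      refine integral_congr_ae ?_
      filter_upwards [hg0] with x hx
      by_cases hxU : x ∈ U
      · rw [indicator_of_mem hxU]
      · rw [indicator_of_notMem hxU, hx hxU, inner_zero_right]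
    have e2 : ∀ {a : Pos3 → ℝ}, ∫ x in U, a x * φ' x = ∫ x, a x * φ x := by
      intro a
      rw [← integral_indicator hUm]
      refine integral_congr_ae ?_
      filter_upwards [he] with x hx
      by_cases hxU : x ∈ U
      · rw [indicator_of_mem hxU, hx]
      · rw [indicator_of_notMem hxU, hx, hφ', indicator_of_notMem (fun h4 => hxU (hKU h4)),
          mul_zero]
    have i1 : Integrable (fun x => m x * s x * φ' x) (volume.restrict U) :=
      hq.integrable_mul (hφ1.memf.restrict U)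
    have i2 : Integrable (fun x => F x * φ' x) (volume.restrict U) :=
      hF.integrable_mul (hφ1.memf.restrict U)
    have e3 : ∫ x in U, 2 * (m x * s x - F x) * φ' x =
        2 * ((∫ x in U, m x * s x * φ' x) - ∫ x in U, F x * φ' x) := by
      rw [← integral_sub i1 i2, ← integral_const_mul]
      refine integral_congr_ae (ae_of_all _ fun x => ?_)
      simp only
      ring
    rw [e3, e1, e2 (a := fun x => m x * s x), e2] at key
    linarith
  · have h1 := h.le ψ hψ hψ0
    have z1 : ∀ x, x ∉ U → ψ x = 0 := fun x hx =>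
      image_eq_zero_of_notMem_tsupport fun h2 => hx (hψ.sub h2)
    have z2 : ∀ x, x ∉ U → gr ψ x = 0 := fun x hx => by
      ext i
      rw [gr_apply, HC.pd_eq_zero_of_notMem i fun h2 => hx (hψ.sub h2)]
      rfl
    have e1 : ∫ x in U, inner ℝ (ds x) (gr ψ x) = ∫ x, inner ℝ (ds x) (gr ψ x) :=
      setIntegral_eq_integral_of_forall_compl_eq_zero fun x hx => by
        rw [z2 x hx, inner_zero_right]
    have e2 : ∀ {a : Pos3 → ℝ}, ∫ x in U, a x * ψ x = ∫ x, a x * ψ x := fun {a} =>
      setIntegral_eq_integral_of_forall_compl_eq_zero fun x hx => by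
        rw [z1 x hx, mul_zero]
    have hψ2 : MemLp ψ 2 (volume.restrict U) :=
      (hψ.smooth.continuous.memLp_of_hasCompactSupport hψ.cpt).restrict U
    have i1 : Integrable (fun x => m x * s x * ψ x) (volume.restrict U) := hq.integrable_mul hψ2
    have i2 : Integrable (fun x => F x * ψ x) (volume.restrict U) := hF.integrable_mul hψ2
    have e3 : ∫ x in U, 2 * (m x * s x - F x) * ψ x =
        2 * ((∫ x in U, m x * s x * ψ x) - ∫ x in U, F x * ψ x) := by
      rw [← integral_sub i1 i2, ← integral_const_mul]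
      refine integral_congr_ae (ae_of_all _ fun x => ?_)
      simp only
      ring
    rw [e3, e1, e2 (a := fun x => m x * s x), e2]
    linarith

theorem PG.measurable_V2 (D : ℝ) : Measurable (V2 D) := by
  unfold V2
  fun_prop

theorem PG.norm_nuc (D : ℝ) : ‖nuc D‖ = |D| := by
  unfold nuc
  simp

theorem PG.V2_nonpos (D : ℝ) (x : Pos3) : V2 D x ≤ 0 := by
  unfold V2
  have h1 : 0 ≤ 1 / ‖x - nuc D‖ := by positivity
  have h2 : 0 ≤ 1 / ‖x - nuc (-D)‖ := by positivity
  linarith

theorem PG.V2_lower {D T : ℝ} (hD : 0 ≤ D) (hT : 0 < T) {x : Pos3} (hx : D + T ≤ ‖x‖) :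
    -(2 / T) ≤ V2 D x := by
  have h1 : T ≤ ‖x - nuc D‖ := by
    have := norm_sub_norm_le x (nuc D)
    rw [PG.norm_nuc, abs_of_nonneg hD] at this
    linarith
  have h2 : T ≤ ‖x - nuc (-D)‖ := by
    have := norm_sub_norm_le x (nuc (-D))
    rw [PG.norm_nuc, abs_neg, abs_of_nonneg hD] at this
    linarith
  unfold V2
  have h3 := one_div_le_one_div_of_le hT h1
  have h4 := one_div_le_one_div_of_le hT h2
  have h5 : 2 / T = 1 / T + 1 / T := by ring
  linarith

theorem OBD.C0_pos {cg C0 D : ℝ} (B : OBD cg C0 D) : 0 < C0 :=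
  (B.ob.g_pos 0).trans_le (B.gb 0)

theorem OBD.D_pos {cg C0 D : ℝ} (B : OBD cg C0 D) : 0 < D := by
  have := B.C0_pos
  have := B.big
  linarith

/-- (H1) : task C:CHardy -/
theorem hardyS {cg C0 D : ℝ} {B : OBD cg C0 D} {P K1 K2 R1 lam κ κS κT : ℝ}
    {s s1 s2 F w0 X sig : Pos3 → ℝ} {gs gs1 gs2 gF : Pos3 → Pos3} (hR : D + 40 ≤ R1)
    (h : COut B P K1 K2 R1 lam κ κS κT s s1 s2 F w0 X sig gs gs1 gs2 gF)
    {f : Pos3 → ℝ} {g : Pos3 → Pos3} (hf : BT f g) (h0 : ∀ᵐ x : Pos3, ‖x‖ ≤ R1 → f x = 0) :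
    (1 / 2) * (∫ x, s x ^ 2 * f x ^ 2) ≤ ∫ x, s x ^ 2 * ‖g x‖ ^ 2 := by
  have hD := B.D_pos
  have hUo : IsOpen (Ext (R1 - 1)) := isOpen_lt continuous_const continuous_norm
  have hV : ∀ x ∈ Ext (R1 - 1), -(2 / 39) ≤ V2 D x := fun x hx => by
    have hx' : R1 - 1 < ‖x‖ := hx
    exact PG.V2_lower hD.le (by norm_num) (by linarith)
  have hκ := h.κ_rng
  have hκ2 : (81 : ℝ) / 100 ≤ κ ^ 2 := by nlinarith [hκ.1]
  have hκ3 : κ ^ 2 ≤ (121 : ℝ) / 100 := by nlinarith [hκ.1, hκ.2]
  -- the Kato inequality on the exterior region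
  have hW : WLe (Ext (R1 - 1)) s gs (fun x => κ ^ 2 / 2 + V2 D x) (fun _ => 0) :=
    ⟨h.kato.ims.mono_set (subset_univ _), h.kato.if'.mono_set (subset_univ _),
      fun φ hφ hφ0 => h.kato.le φ ⟨hφ.smooth, hφ.cpt, subset_univ _⟩ hφ0⟩
  have hq : MemLp (fun x => (κ ^ 2 / 2 + V2 D x) * s x) 2 (volume.restrict (Ext (R1 - 1))) := by
    refine MemLp.of_le_mul (c := 2) (h.amp.h1.memf.restrict _)
      (((PG.measurable_V2 D).const_add _).aestronglyMeasurable.mul
        (h.amp.h1.memf.restrict _).1) ?_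
    refine (ae_restrict_iff' hUo.measurableSet).2 (ae_of_all _ fun x hx => ?_)
    rw [norm_mul]
    refine mul_le_mul_of_nonneg_right ?_ (norm_nonneg _)
    rw [Real.norm_eq_abs, abs_le]
    have := hV x hx
    have := PG.V2_nonpos D x
    constructor <;> linarith
  refine hardy_of_sub (LL.of_H1 h.amp.h1 (LocBdd.of_continuous h.amp.cont))
    (ae_of_all _ fun x => (h.amp.pos x).le) (P := fun x => ‖x‖ ≤ R1) ?_ hf h0
  intro φ gφ hφ hφ0 hφR
  obtain ⟨R, hR'⟩ := hφ.cpt
  set K : Set Pos3 := Metric.closedBall 0 R ∩ {x | R1 ≤ ‖x‖} with hKd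
  have hK : IsCompact K :=
    (isCompact_closedBall _ _).inter_right (isClosed_le continuous_const continuous_norm)
  have hKU : K ⊆ Ext (R1 - 1) := by
    intro x hx
    have : R1 ≤ ‖x‖ := hx.2
    show R1 - 1 < ‖x‖
    linarith
  have hs : ∀ᵐ x, x ∉ K → φ x = 0 := by
    filter_upwards [hR', hφR] with x h1 h2 h3
    by_cases h4 : R ≤ ‖x‖
    · exact h1 h4
    · refine h2 (not_lt.1 fun h5 => h3 ⟨?_, h5.le⟩)
      rw [mem_closedBall_zero_iff]
      exact (not_le.1 h4).le
  have key := hW.test_bt hUo (h.amp.h1.memg.restrict _) hq MemLp.zero' hφ hφ0 hK hKU hs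
  simp only [zero_mul, integral_zero] at key
  have hle : (1 / 4) * (∫ x, s x * φ x) ≤ ∫ x, (κ ^ 2 / 2 + V2 D x) * s x * φ x := by
    rw [← integral_const_mul]
    refine integral_mono_ae ?_ ?_ ?_
    · exact (h.amp.h1.memf.integrable_mul hφ.h1.memf).const_mul _
    · have hφ' : ∀ᵐ x, x ∉ Ext (R1 - 1) → φ x = 0 := by
        filter_upwards [hs] with x h1 h2
        exact h1 fun h3 => h2 (hKU h3)
      have h1 : IntegrableOn (fun x => (κ ^ 2 / 2 + V2 D x) * s x * φ x) (Ext (R1 - 1)) :=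
        hq.integrable_mul (hφ.h1.memf.restrict _)
      refine (integrable_indicator_iff hUo.measurableSet |>.2 h1).congr ?_
      filter_upwards [hφ'] with x hx
      by_cases hxU : x ∈ Ext (R1 - 1)
      · rw [indicator_of_mem hxU]
      · rw [indicator_of_notMem hxU, hx hxU, mul_zero]
    · filter_upwards [hφ0, hs] with x h1 h2
      by_cases hxK : x ∈ K
      · have h3 := hV x (hKU hxK)
        have h4 := (h.amp.pos x).le
        have h5 : 0 ≤ s x * φ x := mul_nonneg h4 h1
        have h6 : (1 / 4 : ℝ) ≤ κ ^ 2 / 2 + V2 D x := by linarith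
        calc (1 / 4) * (s x * φ x) ≤ (κ ^ 2 / 2 + V2 D x) * (s x * φ x) :=
              mul_le_mul_of_nonneg_right h6 h5
          _ = _ := by ring
      · simp [h2 hxK]
  linarith

end Crest.Agent.R335
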