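import Crest.Agent.R335.CIfaceX

/-!
Row 335 (S0521), PART C: explicit calculus of the two-centre functions `CX.*` (module CXcalc).
-/

set_option autoImplicit false
set_option linter.unusedVariables false

open MeasureTheory Filter Set Crest.MathPhysics.ThreeBody
open scoped ENNReal Topology ContDiff

noncomputable section
namespace Crest.Agent.R335

theorem EE_eq_Em {κ Q σ ρ : ℝ} (hρ : 0 < ρ) : CX.EE κ Q σ ρ = Em κ (Q / κ - 1) (-σ) ρ := by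
  have h1 : ρ ^ (-(1 / 2) : ℝ) = (√ρ)⁻¹ := by
    rw [Real.rpow_neg hρ.le, Real.sqrt_eq_rpow]
  rw [Em_eq hρ]
  unfold CX.EE ee
  rw [h1]
  have : -κ * ρ = -(κ * ρ) := by ring
  rw [this]; ring

namespace CXc

theorem mpar {κ Q : ℝ} (h : KQ κ Q) {σ : ℝ} (hσ : σ = 1 ∨ σ = -1) :
    MPar κ Q (Q / κ - 1) σ := by
  have hk : 0 < κ := by linarith [h.k1]
  refine ⟨by linarith [h.k1], by linarith [h.k2], by linarith [h.q1], by linarith [h.q2], ?_, hσ⟩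
  field_simp
  ring

theorem par {κ Q : ℝ} (h : KQ κ Q) {σ : ℝ} (hσ : σ = 1 ∨ σ = -1) :
    MPar κ Q (Q / κ - 1) (-σ) := by
  refine mpar h ?_
  rcases hσ with h | h <;> simp [h]

theorem EE_pos {κ Q : ℝ} (h : KQ κ Q) {σ : ℝ} (hσ : σ = 1 ∨ σ = -1) {ρ : ℝ} (hρ : 100 ≤ ρ) :
    0 < CX.EE κ Q σ ρ := by
  rw [EE_eq_Em (by linarith)]
  exact Em_pos (par h hσ) hρ

theorem EE_decay {κ Q : ℝ} (h : KQ κ Q) {σ : ℝ} (hσ : σ = 1 ∨ σ = -1) {t t' : ℝ}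
    (ht : 100 ≤ t) (htt : t ≤ t') :
    CX.EE κ Q σ t' ≤ CX.EE κ Q σ t * Real.exp (-(0.98 * κ * (t' - t))) := by
  rw [EE_eq_Em (by linarith), EE_eq_Em (by linarith)]
  exact Em_decay (par h hσ) ht htt

theorem EE_decay_ge {κ Q : ℝ} (h : KQ κ Q) {σ : ℝ} (hσ : σ = 1 ∨ σ = -1) {t t' : ℝ}
    (ht : 100 ≤ t) (htt : t ≤ t') :
    CX.EE κ Q σ t * Real.exp (-(1.01 * κ * (t' - t))) ≤ CX.EE κ Q σ t' := by
  rw [EE_eq_Em (by linarith), EE_eq_Em (by linarith)]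
  exact Em_decay_ge (par h hσ) ht htt

theorem EE_anti {κ Q : ℝ} (h : KQ κ Q) {σ : ℝ} (hσ : σ = 1 ∨ σ = -1) {t t' : ℝ}
    (ht : 100 ≤ t) (htt : t ≤ t') : CX.EE κ Q σ t' ≤ CX.EE κ Q σ t := by
  rw [EE_eq_Em (by linarith), EE_eq_Em (by linarith)]
  exact Em_anti (par h hσ) ht htt

/-- change of sign -/
theorem EE_sign {κ Q : ℝ} {t : ℝ} (ht : 100 ≤ t) :
    CX.EE κ Q (-1) t ≤ CX.EE κ Q 1 t ∧ CX.EE κ Q 1 t ≤ 1.3 * CX.EE κ Q (-1) t := by
  have h0 : 0 < t := by linarith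
  obtain ⟨u0, u1⟩ := XM.u_bounds ht
  rw [EE_eq_Em h0, EE_eq_Em h0, Em_eq h0, Em_eq h0]
  have hA := ee_pos κ (Q / κ - 1) h0
  constructor <;> nlinarith

theorem exp_le_four {κ : ℝ} (hk : κ ≤ 11 / 10) {s : ℝ} (hs0 : 0 ≤ s) (hs : s ≤ 1) :
    (1 / 4 : ℝ) ≤ Real.exp (-(1.01 * κ * s)) := by
  have h1 : 1.01 * κ * s ≤ 1.2 := by nlinarith
  have h2 : Real.exp (-1.2) ≤ Real.exp (-(1.01 * κ * s)) := Real.exp_le_exp.2 (by linarith)
  refine le_trans ?_ h2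
  rw [Real.exp_neg]
  have h3 : Real.exp 1.2 ≤ 4 := by
    have e1 : Real.exp 1.2 = Real.exp 1 * Real.exp 0.2 := by
      rw [← Real.exp_add]; norm_num
    have e2 := Real.exp_one_lt_d9
    have e3 : Real.exp 0.2 ≤ 1.25 := by
      have := Real.exp_bound_div_one_sub_of_interval (x := 0.2) (by norm_num) (by norm_num)
      refine this.trans ?_
      norm_num
    rw [e1]
    nlinarith [Real.exp_pos 1, Real.exp_pos 0.2]
  rw [show (1 / 4 : ℝ) = (4 : ℝ)⁻¹ by norm_num]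
  exact inv_anti₀ (Real.exp_pos _) h3

/-- values at distance at most one are comparable -/
theorem EE_near {κ Q : ℝ} (h : KQ κ Q) {σ : ℝ} (hσ : σ = 1 ∨ σ = -1) {t t' : ℝ}
    (ht : 100 ≤ t) (ht' : 100 ≤ t') (hd : |t - t'| ≤ 1) :
    CX.EE κ Q σ t ≤ 4 * CX.EE κ Q σ t' := by
  have p1 := EE_pos h hσ ht
  have p2 := EE_pos h hσ ht'
  rw [abs_le] at hd
  rcases le_total t t' with h1 | h1
  · have h2 := EE_decay_ge h hσ ht h1
    have h3 := exp_le_four h.k2 (s := t' - t) (by linarith) (by linarith)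
    nlinarith
  · have := EE_anti h hσ ht' h1
    linarith

/-- increment -/
theorem EE_diff {κ Q : ℝ} (h : KQ κ Q) {σ : ℝ} (hσ : σ = 1 ∨ σ = -1) {t t' : ℝ}
    (ht : 100 ≤ t) (htt : t ≤ t') :
    CX.EE κ Q σ t - CX.EE κ Q σ t' ≤ 1.2 * (t' - t) * CX.EE κ Q σ t := by
  have p1 := EE_pos h hσ ht
  have h2 := EE_decay_ge h hσ ht htt
  have h3 : 1 - 1.01 * κ * (t' - t) ≤ Real.exp (-(1.01 * κ * (t' - t))) := by
    have := Real.add_one_le_exp (-(1.01 * κ * (t' - t)))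
    linarith
  have h4 : 1.01 * κ * (t' - t) ≤ 1.2 * (t' - t) := by
    have := h.k2
    nlinarith
  have h5 := mul_le_mul_of_nonneg_left h3 p1.le
  have h6 := mul_le_mul_of_nonneg_left h4 p1.le
  nlinarith

/-! ### geometry -/

theorem nrm_sq (D : ℝ) (x : Pos3) : ‖x - nuc D‖ ^ 2 = ‖x‖ ^ 2 - 2 * D * x 2 + D ^ 2 := by
  rw [EuclideanSpace.norm_sq_eq, EuclideanSpace.norm_sq_eq, Fin.sum_univ_three,
    Fin.sum_univ_three]
  simp [nuc]
  ring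

theorem rho_pm (D : ℝ) (x : Pos3) :
    (‖x - nuc (-D)‖ - ‖x - nuc D‖) * (‖x - nuc (-D)‖ + ‖x - nuc D‖) = 4 * D * x 2 := by
  have h1 := nrm_sq D x
  have h2 := nrm_sq (-D) x
  nlinarith

theorem norm_nuc' {D : ℝ} (hD : 0 ≤ D) : ‖nuc D‖ = D := by
  simp [nuc, abs_of_nonneg hD]

theorem rho_le {D : ℝ} (hD : 0 ≤ D) (x : Pos3) :
    ‖x‖ - D ≤ ‖x - nuc D‖ ∧ ‖x - nuc D‖ ≤ ‖x‖ + D ∧ ‖x‖ - D ≤ ‖x - nuc (-D)‖ ∧
      ‖x - nuc (-D)‖ ≤ ‖x‖ + D := by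
  have h1 := norm_nuc' hD
  have h2 : ‖nuc (-D)‖ = D := by simp [nuc, abs_of_nonneg hD]
  refine ⟨?_, ?_, ?_, ?_⟩
  · have := norm_sub_norm_le x (nuc D); linarith
  · have := norm_sub_le x (nuc D); linarith
  · have := norm_sub_norm_le x (nuc (-D)); linarith
  · have := norm_sub_le x (nuc (-D)); linarith

theorem two_norm {D : ℝ} (x : Pos3) : 2 * ‖x‖ ≤ ‖x - nuc D‖ + ‖x - nuc (-D)‖ := by
  have h : (2 : ℝ) • x = (x - nuc D) + (x - nuc (-D)) := by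
    ext i
    simp only [PiLp.smul_apply, PiLp.add_apply, PiLp.sub_apply, nuc, smul_eq_mul,
      PiLp.single_apply]
    split_ifs <;> ring
  calc 2 * ‖x‖ = ‖(2 : ℝ) • x‖ := by rw [norm_smul]; norm_num
    _ ≤ _ := by rw [h]; exact norm_add_le _ _

end CXc

/-- distances to the nuclei in the slab -/
theorem dist_slab {D : ℝ} (hD : 4 ≤ D) {x : Pos3} (hr : 2 * D * |x 2| + D ^ 2 ≤ ‖x‖) :
    |‖x - nuc D‖ - ‖x‖| ≤ 1 ∧ |‖x - nuc (-D)‖ - ‖x‖| ≤ 1 := by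
  have hr0 : 0 < ‖x‖ := by
    have : 0 ≤ 2 * D * |x 2| := by positivity
    nlinarith
  have key : ∀ ρ : ℝ, 0 ≤ ρ → |ρ ^ 2 - ‖x‖ ^ 2| ≤ ‖x‖ → |ρ - ‖x‖| ≤ 1 := by
    intro ρ hρ h
    have h1 : ρ ^ 2 - ‖x‖ ^ 2 = (ρ - ‖x‖) * (ρ + ‖x‖) := by ring
    rw [h1, abs_mul, abs_of_nonneg (show 0 ≤ ρ + ‖x‖ by linarith)] at h
    by_contra hc
    push Not at hc
    have : 1 * (ρ + ‖x‖) < |ρ - ‖x‖| * (ρ + ‖x‖) := by
      apply mul_lt_mul_of_pos_right hc; linarith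
    linarith
  have h0 : 2 * D * |x 2| = |2 * D * x 2| := by
    rw [abs_mul, abs_of_nonneg (show 0 ≤ 2 * D by linarith)]
  have hsq : (0 : ℝ) ≤ D ^ 2 := sq_nonneg D
  constructor
  · refine key _ (norm_nonneg _) ?_
    rw [CXc.nrm_sq D x]
    have : ‖x‖ ^ 2 - 2 * D * x 2 + D ^ 2 - ‖x‖ ^ 2 = -(2 * D * x 2) + D ^ 2 := by ring
    rw [this]
    refine (abs_add_le _ _).trans ?_
    rw [abs_neg, abs_of_nonneg hsq, ← h0]
    exact hr
  · refine key _ (norm_nonneg _) ?_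
    rw [CXc.nrm_sq (-D) x]
    have : ‖x‖ ^ 2 - 2 * (-D) * x 2 + (-D) ^ 2 - ‖x‖ ^ 2 = 2 * D * x 2 + D ^ 2 := by ring
    rw [this]
    refine (abs_add_le _ _).trans ?_
    rw [abs_of_nonneg hsq, ← h0]
    exact hr

theorem CXc.OO_abs {κ Q D : ℝ} {x : Pos3} (h : KQ κ Q) {σ : ℝ} (hσ : σ = 1 ∨ σ = -1)
    (hD : 4 ≤ D) (hx : 200 ≤ ‖x‖) (hr : 2 * D * |x 2| + D ^ 2 ≤ ‖x‖) :
    |CX.OO D κ Q σ x| ≤ 10 * (D * |x 2| / ‖x‖) * CX.EE κ Q σ ‖x‖ := by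
  obtain ⟨d1, d2⟩ := dist_slab hD hr
  have hr0 : 0 < ‖x‖ := by linarith
  have a1 := abs_le.1 d1
  have a2 := abs_le.1 d2
  have hp : 100 ≤ ‖x - nuc D‖ := by linarith
  have hm : 100 ≤ ‖x - nuc (-D)‖ := by linarith
  have hpm := CXc.rho_pm D x
  have h2n := CXc.two_norm (D := D) x
  have e1 := CXc.EE_near h hσ hp (by linarith : (100:ℝ) ≤ ‖x‖) d1
  have e2 := CXc.EE_near h hσ hm (by linarith : (100:ℝ) ≤ ‖x‖) d2
  have pr := CXc.EE_pos h hσ (by linarith : (100:ℝ) ≤ ‖x‖)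
  have pr1 := CXc.EE_pos h hσ hp
  have pr2 := CXc.EE_pos h hσ hm
  have hδ : |‖x - nuc (-D)‖ - ‖x - nuc D‖| ≤ 2 * (D * |x 2| / ‖x‖) := by
    have : |‖x - nuc (-D)‖ - ‖x - nuc D‖| * (‖x - nuc (-D)‖ + ‖x - nuc D‖) = 4 * D * |x 2| := by
      rw [← abs_of_nonneg (show 0 ≤ ‖x - nuc (-D)‖ + ‖x - nuc D‖ by positivity), ← abs_mul, hpm,
        abs_mul, abs_of_nonneg (show 0 ≤ 4 * D by linarith)]
    have h3 : |‖x - nuc (-D)‖ - ‖x - nuc D‖| * (2 * ‖x‖) ≤ 4 * D * |x 2| := by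
      rw [← this]
      exact mul_le_mul_of_nonneg_left (by linarith) (abs_nonneg _)
    rw [← mul_div_assoc, le_div_iff₀ hr0]
    linarith
  unfold CX.OO
  rcases le_total ‖x - nuc D‖ ‖x - nuc (-D)‖ with hc | hc
  · have h5 := CXc.EE_diff h hσ hp hc
    have h6 := CXc.EE_anti h hσ hp hc
    rw [abs_of_nonneg (by linarith)]
    rw [abs_of_nonneg (by linarith)] at hδ
    calc CX.EE κ Q σ ‖x - nuc D‖ - CX.EE κ Q σ ‖x - nuc (-D)‖
        ≤ 1.2 * (‖x - nuc (-D)‖ - ‖x - nuc D‖) * CX.EE κ Q σ ‖x - nuc D‖ := h5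
      _ ≤ 1.2 * (2 * (D * |x 2| / ‖x‖)) * (4 * CX.EE κ Q σ ‖x‖) := by
          have : 0 ≤ ‖x - nuc (-D)‖ - ‖x - nuc D‖ := by linarith
          gcongr
      _ ≤ _ := by
          have : 0 ≤ (D * |x 2| / ‖x‖) * CX.EE κ Q σ ‖x‖ := by positivity
          nlinarith
  · have h5 := CXc.EE_diff h hσ hm hc
    have h6 := CXc.EE_anti h hσ hm hc
    rw [abs_sub_comm, abs_of_nonneg (by linarith)]
    rw [abs_sub_comm, abs_of_nonneg (by linarith)] at hδ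
    calc CX.EE κ Q σ ‖x - nuc (-D)‖ - CX.EE κ Q σ ‖x - nuc D‖
        ≤ 1.2 * (‖x - nuc D‖ - ‖x - nuc (-D)‖) * CX.EE κ Q σ ‖x - nuc (-D)‖ := h5
      _ ≤ 1.2 * (2 * (D * |x 2| / ‖x‖)) * (4 * CX.EE κ Q σ ‖x‖) := by
          have : 0 ≤ ‖x - nuc D‖ - ‖x - nuc (-D)‖ := by linarith
          gcongr
      _ ≤ _ := by
          have : 0 ≤ (D * |x 2| / ‖x‖) * CX.EE κ Q σ ‖x‖ := by positivity
          nlinarith

/-- slab: two-centre functions against radial ones -/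
theorem slab_calc : ∃ C : ℝ, 1 ≤ C ∧ ∀ (κ Q D : ℝ) (x : Pos3), KQ κ Q → 4 ≤ D → 200 ≤ ‖x‖ →
    2 * D * |x 2| + D ^ 2 ≤ ‖x‖ →
    CX.SS D κ Q (-1) x ≤ C * CX.EE κ Q 1 ‖x‖ ∧ CX.EE κ Q 1 ‖x‖ ≤ C * CX.SS D κ Q 1 x ∧
      CX.SS D κ Q 1 x ≤ C * CX.EE κ Q (-1) ‖x‖ ∧
      |CX.OO D κ Q (-1) x| ≤ C * (D * |x 2| / ‖x‖) * CX.EE κ Q 1 ‖x‖ ∧
      |CX.OO D κ Q 1 x| ≤ C * (D * |x 2| / ‖x‖) * CX.EE κ Q 1 ‖x‖ := by
  refine ⟨20, by norm_num, ?_⟩
  intro κ Q D x h hD hx hr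
  obtain ⟨d1, d2⟩ := dist_slab hD hr
  have hr0 : 0 < ‖x‖ := by linarith
  have a1 := abs_le.1 d1
  have a2 := abs_le.1 d2
  have hR : 100 ≤ ‖x‖ := by linarith
  have hp : 100 ≤ ‖x - nuc D‖ := by linarith
  have hm : 100 ≤ ‖x - nuc (-D)‖ := by linarith
  have o1 : (1 : ℝ) = 1 ∨ (1 : ℝ) = -1 := Or.inl rfl
  have o2 : (-1 : ℝ) = 1 ∨ (-1 : ℝ) = -1 := Or.inr rfl
  obtain ⟨s1, s2⟩ := CXc.EE_sign (κ := κ) (Q := Q) hR
  have pp := CXc.EE_pos h o1 hR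
  have pm := CXc.EE_pos h o2 hR
  refine ⟨?_, ?_, ?_, ?_, ?_⟩
  · have e1 := CXc.EE_near h o2 hp hR d1
    have e2 := CXc.EE_near h o2 hm hR d2
    unfold CX.SS
    linarith
  · have e1 := CXc.EE_near h o1 hR hp (by rwa [abs_sub_comm])
    have p2 := CXc.EE_pos h o1 hm
    have p1 := CXc.EE_pos h o1 hp
    unfold CX.SS
    linarith
  · have e1 := CXc.EE_near h o1 hp hR d1
    have e2 := CXc.EE_near h o1 hm hR d2
    unfold CX.SS
    linarith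
  · refine (CXc.OO_abs h o2 hD hx hr).trans ?_
    have : 0 ≤ D * |x 2| / ‖x‖ := by positivity
    gcongr
    · norm_num
  · refine (CXc.OO_abs h o1 hD hx hr).trans ?_
    have : 0 ≤ D * |x 2| / ‖x‖ := by positivity
    gcongr
    · norm_num

/-- everywhere in the upper half space: lower bound of the difference, upper bound of the sum by the
nearer nucleus -/
theorem half_calc : ∃ c : ℝ, 0 < c ∧ ∀ (κ Q D : ℝ) (x : Pos3), KQ κ Q → 4 ≤ D →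
    D + 200 ≤ ‖x‖ → 0 ≤ x 2 →
    c * min 1 (D * x 2 / ‖x‖) * CX.EE κ Q 1 ‖x - nuc D‖ ≤ CX.OO D κ Q 1 x ∧
      CX.SS D κ Q (-1) x ≤ 2 * CX.EE κ Q 1 ‖x - nuc D‖ ∧
      CX.OO D κ Q (-1) x ≤ CX.EE κ Q 1 ‖x - nuc D‖ := by
  refine ⟨0.4, by norm_num, ?_⟩
  intro κ Q D x h hD hx hz
  have hr0 : 0 < ‖x‖ := by linarith
  obtain ⟨r1, r2, r3, r4⟩ := CXc.rho_le (by linarith : 0 ≤ D) x
  have hp : 100 ≤ ‖x - nuc D‖ := by linarith
  have hm : 100 ≤ ‖x - nuc (-D)‖ := by linarith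
  have hpm := CXc.rho_pm D x
  have hle : ‖x - nuc D‖ ≤ ‖x - nuc (-D)‖ := by
    by_contra hc
    push Not at hc
    have h1 : 0 ≤ 4 * D * x 2 := by positivity
    have h2 : (‖x - nuc (-D)‖ - ‖x - nuc D‖) * (‖x - nuc (-D)‖ + ‖x - nuc D‖) < 0 :=
      mul_neg_of_neg_of_pos (by linarith) (by linarith)
    linarith
  have o1 : (1 : ℝ) = 1 ∨ (1 : ℝ) = -1 := Or.inl rfl
  have o2 : (-1 : ℝ) = 1 ∨ (-1 : ℝ) = -1 := Or.inr rfl
  obtain ⟨s1, s2⟩ := CXc.EE_sign (κ := κ) (Q := Q) hp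
  refine ⟨?_, ?_, ?_⟩
  · have h1 := CXc.EE_decay h o1 hp hle
    have pp := CXc.EE_pos h o1 hp
    have hδ : D * x 2 / ‖x‖ ≤ ‖x - nuc (-D)‖ - ‖x - nuc D‖ := by
      rw [div_le_iff₀ hr0]
      have h2 : ‖x - nuc (-D)‖ + ‖x - nuc D‖ ≤ 4 * ‖x‖ := by linarith
      have h3 := mul_le_mul_of_nonneg_left h2 (show 0 ≤ ‖x - nuc (-D)‖ - ‖x - nuc D‖ by linarith)
      linarith
    set m := min 1 (D * x 2 / ‖x‖) with hmdef
    have hm0 : 0 ≤ m := le_min zero_le_one (by positivity)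
    have hm1 : m ≤ 1 := min_le_left _ _
    have hmt : m ≤ D * x 2 / ‖x‖ := min_le_right _ _
    have h4 : 0.88 * m ≤ 0.98 * κ * (‖x - nuc (-D)‖ - ‖x - nuc D‖) := by
      have := h.k1
      have h5 : m ≤ ‖x - nuc (-D)‖ - ‖x - nuc D‖ := hmt.trans hδ
      nlinarith
    have h5 : Real.exp (-(0.98 * κ * (‖x - nuc (-D)‖ - ‖x - nuc D‖))) ≤
        Real.exp (-(0.88 * m)) := Real.exp_le_exp.2 (by linarith)
    have h6 : Real.exp (-(0.88 * m)) ≤ 1 - 0.4 * m := by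
      rw [Real.exp_neg]
      have h7 : 1 + 0.88 * m ≤ Real.exp (0.88 * m) := by
        have := Real.add_one_le_exp (0.88 * m)
        linarith
      have h8 : (Real.exp (0.88 * m))⁻¹ ≤ (1 + 0.88 * m)⁻¹ := inv_anti₀ (by positivity) h7
      refine h8.trans ?_
      rw [inv_le_comm₀ (by positivity) (by nlinarith)]
      rw [inv_le_iff_one_le_mul₀ (by nlinarith)]
      nlinarith
    unfold CX.OO
    have h9 := mul_le_mul_of_nonneg_left (h5.trans h6) pp.le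
    nlinarith
  · have e1 := CXc.EE_anti h o2 hp hle
    unfold CX.SS
    linarith
  · have e1 := CXc.EE_pos h o2 hm
    unfold CX.OO
    linarith

/-- change of rate, charge and sign -/
theorem rate_le {κ κ' Q Q' σ ρ : ℝ} (h : KQ κ Q) (h' : KQ κ' Q') (hκ : κ ≤ κ') (hQ : Q' ≤ Q)
    (hσ : |σ| ≤ 1) (hρ : 1 ≤ ρ) :
    CX.EE κ' Q' σ ρ ≤ 2 * Real.exp (-(κ' - κ) * ρ) * CX.EE κ Q 1 ρ := by
  have hρ0 : 0 < ρ := by linarith
  have hk : 0 < κ := by linarith [h.k1]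
  have hk' : 0 < κ' := by linarith [h'.k1]
  have hQ0 : 0 ≤ Q' := by linarith [h'.q1]
  unfold CX.EE
  have hu0 : 0 < ρ ^ (-(1 / 2) : ℝ) := Real.rpow_pos_of_pos hρ0 _
  have hu1 : ρ ^ (-(1 / 2) : ℝ) ≤ 1 := Real.rpow_le_one_of_one_le_of_nonpos hρ (by norm_num)
  set u := ρ ^ (-(1 / 2) : ℝ) with hu
  have hσ' := abs_le.1 hσ
  have h1 : 1 + σ * u ≤ 2 := by nlinarith
  have h10 : 0 ≤ 1 + σ * u := by nlinarith
  have h2 : ρ ^ (Q' / κ' - 1) ≤ ρ ^ (Q / κ - 1) := by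
    apply Real.rpow_le_rpow_of_exponent_le hρ
    have : Q' / κ' ≤ Q / κ := by
      calc Q' / κ' ≤ Q' / κ := div_le_div_of_nonneg_left hQ0 hk hκ
        _ ≤ Q / κ := by gcongr
    linarith
  have h20 : 0 ≤ ρ ^ (Q' / κ' - 1) := (Real.rpow_pos_of_pos hρ0 _).le
  have h3 : Real.exp (-κ' * ρ) = Real.exp (-(κ' - κ) * ρ) * Real.exp (-κ * ρ) := by
    rw [← Real.exp_add]; ring_nf
  rw [h3]
  calc Real.exp (-(κ' - κ) * ρ) * Real.exp (-κ * ρ) * ρ ^ (Q' / κ' - 1) * (1 + σ * u)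
      ≤ Real.exp (-(κ' - κ) * ρ) * Real.exp (-κ * ρ) * ρ ^ (Q / κ - 1) * 2 := by
        gcongr
    _ ≤ Real.exp (-(κ' - κ) * ρ) * Real.exp (-κ * ρ) * ρ ^ (Q / κ - 1) * 2 * (1 + 1 * u) := by
        refine le_mul_of_one_le_right ?_ (by linarith)
        positivity
    _ = _ := by ring

/-- far region: the forced part dominates -/
theorem CXc.nat_far {om lam κ κn ρ M : ℝ} (hom : 0 < om) (hlam0 : 0 < lam) (hlam1 : lam ≤ 1 / 100)
    (hM : M = 120 * (5 / om) ^ 5) (k1 : 9 / 10 ≤ κ) (hκn : κ ≤ κn)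
    (hgap : 5 / 11 * om ≤ κn - κ) (hρ : 100 ≤ ρ)
    (hc : M * om ^ 2 * Real.exp (-(om * ρ / 4)) ≤ 8 * lam) :
    CX.EE κn 2 1 ρ ≤ 8 * (lam / om ^ 2 / ρ ^ 4 * CX.EE κ (2 * (1 - lam)) 1 ρ) := by
  have hM0 : 0 < M := by rw [hM]; positivity
  have hρ0 : 0 < ρ := by linarith
  have hρ1 : 1 ≤ ρ := by linarith
  have hu0 : 0 < ρ ^ (-(1 / 2) : ℝ) := Real.rpow_pos_of_pos hρ0 _
  have e1 : ρ ^ 5 ≤ M * Real.exp (om * ρ / 5) := by
    have := Real.pow_div_factorial_le_exp (om * ρ / 5) (by positivity) 5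
    have e2 : ((5 : ℕ).factorial : ℝ) = 120 := by norm_num [Nat.factorial]
    rw [e2, div_le_iff₀ (by norm_num)] at this
    calc ρ ^ 5 = (5 / om) ^ 5 * (om * ρ / 5) ^ 5 := by
          rw [← mul_pow]; congr 1; field_simp
      _ ≤ (5 / om) ^ 5 * (Real.exp (om * ρ / 5) * 120) :=
          mul_le_mul_of_nonneg_left this (by positivity)
      _ = M * Real.exp (om * ρ / 5) := by rw [hM]; ring
  have e2 : ρ ^ (2 / κn - 1) * ρ ^ 4 ≤ ρ ^ (2 * (1 - lam) / κ - 1) * ρ ^ 5 := by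
    rw [← Real.rpow_natCast ρ 4, ← Real.rpow_natCast ρ 5, ← Real.rpow_add hρ0,
      ← Real.rpow_add hρ0]
    apply Real.rpow_le_rpow_of_exponent_le hρ1
    have hk0 : 0 < κ := by linarith
    have e3 : 2 / κn ≤ 2 / κ := div_le_div_of_nonneg_left (by norm_num) hk0 hκn
    have e4 : 2 * (1 - lam) / κ = 2 / κ - 2 * lam / κ := by ring
    have e5 : 2 * lam / κ ≤ 1 := by
      rw [div_le_one hk0]; linarith
    rw [e4]
    push_cast
    linarith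
  have e3 : Real.exp (-κn * ρ) ≤ Real.exp (-κ * ρ) * Real.exp (-(5 / 11 * om * ρ)) := by
    rw [← Real.exp_add]
    apply Real.exp_le_exp.2
    have := mul_le_mul_of_nonneg_right hgap hρ0.le
    linarith
  have e4 : Real.exp (-(5 / 11 * om * ρ)) * Real.exp (om * ρ / 5) ≤
      Real.exp (-(om * ρ / 4)) := by
    rw [← Real.exp_add]
    apply Real.exp_le_exp.2
    have : 0 ≤ om * ρ := by positivity
    linarith
  have e5 : CX.EE κn 2 1 ρ * (om ^ 2 * ρ ^ 4) ≤ 8 * lam * CX.EE κ (2 * (1 - lam)) 1 ρ := by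
    unfold CX.EE
    set w := 1 + 1 * ρ ^ (-(1 / 2) : ℝ) with hw
    have hw0 : 0 < w := by positivity
    set P := ρ ^ (2 * (1 - lam) / κ - 1) with hP
    have hP0 : 0 < P := Real.rpow_pos_of_pos hρ0 _
    set P' := ρ ^ (2 / κn - 1) with hP'
    have hP0' : 0 < P' := Real.rpow_pos_of_pos hρ0 _
    have h7 : P' * ρ ^ 4 ≤ P * (M * Real.exp (om * ρ / 5)) :=
      e2.trans (mul_le_mul_of_nonneg_left e1 hP0.le)
    have h8 := mul_le_mul e3 h7 (by positivity) (by positivity)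
    have h9 := mul_le_mul_of_nonneg_right h8 (show 0 ≤ w * om ^ 2 by positivity)
    have h10 := mul_le_mul_of_nonneg_left e4
      (show 0 ≤ Real.exp (-κ * ρ) * P * w * (M * om ^ 2) by positivity)
    have h11 := mul_le_mul_of_nonneg_left hc (show 0 ≤ Real.exp (-κ * ρ) * P * w by positivity)
    calc Real.exp (-κn * ρ) * P' * w * (om ^ 2 * ρ ^ 4)
        = Real.exp (-κn * ρ) * (P' * ρ ^ 4) * (w * om ^ 2) := by ring
      _ ≤ _ := h9
      _ = Real.exp (-κ * ρ) * P * w * (M * om ^ 2) *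
          (Real.exp (-(5 / 11 * om * ρ)) * Real.exp (om * ρ / 5)) := by ring
      _ ≤ _ := h10
      _ = Real.exp (-κ * ρ) * P * w * (M * om ^ 2 * Real.exp (-(om * ρ / 4))) := by ring
      _ ≤ _ := h11
      _ = _ := by ring
  have e6 : 0 < om ^ 2 * ρ ^ 4 := by positivity
  rw [← le_div_iff₀ e6] at e5
  refine e5.trans (le_of_eq ?_)
  generalize CX.EE κ (2 * (1 - lam)) 1 ρ = z
  field_simp

/-- near region: the exponent is small -/
theorem CXc.nat_small {om lam ρ M K' : ℝ} (hom : 0 < om) (hlam0 : 0 < lam) (hM0 : 0 < M)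
    (hK0 : 0 < K') (hlam2 : lam ≤ (om / (2 * K')) ^ 4 / (3 * M * om ^ 2)) (hρ0 : 0 < ρ)
    (hc : 8 * lam < M * om ^ 2 * Real.exp (-(om * ρ / 4))) : K' * √lam * ρ ≤ 2 := by
  have hsl0 : 0 < √lam := Real.sqrt_pos.2 hlam0
  have hsl : √lam ^ 2 = lam := Real.sq_sqrt hlam0.le
  have hx0 : 0 < om * ρ / 4 := by positivity
  have f1 : (om * ρ / 4) ^ 4 / 24 ≤ Real.exp (om * ρ / 4) := by
    have := Real.pow_div_factorial_le_exp (om * ρ / 4) hx0.le 4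
    have e2 : ((4 : ℕ).factorial : ℝ) = 24 := by norm_num [Nat.factorial]
    rwa [e2] at this
  have f2 : 8 * lam * Real.exp (om * ρ / 4) < M * om ^ 2 := by
    have := mul_lt_mul_of_pos_right hc (Real.exp_pos (om * ρ / 4))
    have e3 : M * om ^ 2 * Real.exp (-(om * ρ / 4)) * Real.exp (om * ρ / 4) = M * om ^ 2 := by
      rw [mul_assoc, ← Real.exp_add]; simp
    linarith
  have f3 : lam * (om * ρ / 4) ^ 4 < 3 * M * om ^ 2 := by
    have := mul_le_mul_of_nonneg_left f1 (show 0 ≤ 8 * lam by positivity)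
    linarith
  have f4 : (√lam * (om * ρ / 4)) ^ 4 < (om / (2 * K')) ^ 4 := by
    have e4 : (√lam * (om * ρ / 4)) ^ 4 = lam * (lam * (om * ρ / 4) ^ 4) := by
      rw [mul_pow, show √lam ^ 4 = (√lam ^ 2) ^ 2 by ring, hsl]; ring
    rw [e4]
    have h3 : 0 < 3 * M * om ^ 2 := by positivity
    calc lam * (lam * (om * ρ / 4) ^ 4) < lam * (3 * M * om ^ 2) :=
          mul_lt_mul_of_pos_left f3 hlam0
      _ ≤ _ := by rwa [le_div_iff₀ h3] at hlam2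
  have f5 : √lam * (om * ρ / 4) < om / (2 * K') :=
    lt_of_pow_lt_pow_left₀ 4 (by positivity) f4
  have e5 : √lam * (om * ρ / 4) * (2 * K') < om := by
    rwa [lt_div_iff₀ (by positivity)] at f5
  have e6 : √lam * (om * ρ / 4) * (2 * K') = om * (K' * √lam * ρ / 2) := by ring
  rw [e6] at e5
  have e7 : K' * √lam * ρ / 2 < 1 := by
    by_contra hcc
    push Not at hcc
    have := mul_le_mul_of_nonneg_left hcc hom.le
    linarith
  linarith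

/-- near region: the natural part dominates -/
theorem CXc.nat_near {lam κS κn ρ K3 : ℝ} (hlam0 : 0 < lam) (hlam1 : lam ≤ 1 / 100) (hK : 0 ≤ K3)
    (kS1 : 9 / 10 ≤ κS) (kn1 : 9 / 10 ≤ κn) (hκS : κn ≤ κS)
    (h3 : κS ^ 2 ≤ κn ^ 2 + K3 * √lam) (hρ : 100 ≤ ρ) (f6 : (2 * K3 + 3) * √lam * ρ ≤ 2) :
    CX.EE κn 2 1 ρ ≤ 8 * CX.EE κS (2 * (1 - lam)) 1 ρ := by
  have hρ0 : 0 < ρ := by linarith
  have hsl0 : 0 < √lam := Real.sqrt_pos.2 hlam0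
  have hsl : √lam ^ 2 = lam := Real.sq_sqrt hlam0.le
  have hsl1 : √lam ≤ 1 := by
    rw [Real.sqrt_le_one]; linarith
  have hll : lam ≤ √lam := by nlinarith
  have hd : κS - κn ≤ 5 / 9 * (K3 * √lam) := by
    have e12 : (κS - κn) * (κS + κn) ≤ K3 * √lam := by linarith
    have e13 : (κS - κn) * (9 / 5) ≤ (κS - κn) * (κS + κn) :=
      mul_le_mul_of_nonneg_left (by linarith) (by linarith)
    linarith
  set e := 2 / κn - 2 * (1 - lam) / κS with he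
  have hκn0 : 0 < κn := by linarith
  have hκS0 : 0 < κS := by linarith
  have he1 : e = 2 * (κS - κn) / (κn * κS) + 2 * lam / κS := by
    rw [he]; field_simp; ring
  have he2 : e ≤ 5 / 2 * (κS - κn) + 23 / 10 * lam := by
    rw [he1]
    have e5 : 2 * (κS - κn) / (κn * κS) ≤ 5 / 2 * (κS - κn) := by
      rw [div_le_iff₀ (by positivity)]
      have e6 : 81 / 100 ≤ κn * κS := by
        calc (81 / 100 : ℝ) = 9 / 10 * (9 / 10) := by norm_num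
          _ ≤ κn * κS := mul_le_mul kn1 kS1 (by norm_num) (by linarith)
      have e8 := mul_le_mul_of_nonneg_left e6 (show 0 ≤ 5 / 2 * (κS - κn) by linarith)
      linarith
    have e8 : 2 * lam / κS ≤ 23 / 10 * lam := by
      rw [div_le_iff₀ hκS0]
      have := mul_le_mul_of_nonneg_left kS1 (show 0 ≤ 23 / 10 * lam by linarith)
      linarith
    linarith
  have he0 : 0 ≤ e := by
    rw [he1]
    have e7 : 0 ≤ κS - κn := by linarith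
    positivity
  have hsum : (κS - κn) + e ≤ (2 * K3 + 3) * √lam := by
    have hx : 0 ≤ K3 * √lam := by positivity
    have e11 : (2 * K3 + 3) * √lam = 2 * (K3 * √lam) + 3 * √lam := by ring
    rw [e11]
    linarith
  have e14 : Real.exp ((κS - κn) * ρ) * Real.exp (e * ρ) ≤ 8 := by
    rw [← Real.exp_add]
    have e15 : (κS - κn) * ρ + e * ρ ≤ 2 := by
      have := mul_le_mul_of_nonneg_right hsum hρ0.le
      linarith
    refine (Real.exp_le_exp.2 e15).trans ?_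
    have e16 : Real.exp 2 = Real.exp 1 * Real.exp 1 := by
      rw [← Real.exp_add]; norm_num
    have e17 := Real.exp_one_lt_d9
    have e18 := Real.exp_pos 1
    rw [e16]
    calc Real.exp 1 * Real.exp 1 ≤ 2.8 * 2.8 := by
          apply mul_le_mul <;> linarith
      _ ≤ 8 := by norm_num
  have e11 : ρ ^ (2 / κn - 1) = ρ ^ (2 * (1 - lam) / κS - 1) * ρ ^ e := by
    rw [← Real.rpow_add hρ0]; congr 1; rw [he]; ring
  have e12 : ρ ^ e ≤ Real.exp (e * ρ) := by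
    rw [Real.rpow_def_of_pos hρ0]
    apply Real.exp_le_exp.2
    have : Real.log ρ ≤ ρ := (Real.log_le_sub_one_of_pos hρ0).trans (by linarith)
    rw [mul_comm]
    exact mul_le_mul_of_nonneg_left this he0
  have e13 : Real.exp (-κn * ρ) = Real.exp (-κS * ρ) * Real.exp ((κS - κn) * ρ) := by
    rw [← Real.exp_add]; ring_nf
  unfold CX.EE
  rw [e11, e13]
  have hAY : Real.exp ((κS - κn) * ρ) * ρ ^ e ≤ 8 :=
    (mul_le_mul_of_nonneg_left e12 (Real.exp_pos _).le).trans e14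
  have hP : 0 < ρ ^ (2 * (1 - lam) / κS - 1) := Real.rpow_pos_of_pos hρ0 _
  have hw : 0 < 1 + 1 * ρ ^ (-(1 / 2) : ℝ) := by positivity
  have hE := Real.exp_pos (-κS * ρ)
  have h10 := mul_le_mul_of_nonneg_left hAY (mul_pos (mul_pos hE hP) hw).le
  calc _ = Real.exp (-κS * ρ) * ρ ^ (2 * (1 - lam) / κS - 1) *
        (1 + 1 * ρ ^ (-(1 / 2) : ℝ)) * (Real.exp ((κS - κn) * ρ) * ρ ^ e) := by ring
    _ ≤ _ := h10
    _ = _ := by ring

/-- the natural barrier (rate `κn`, charge `2`) is dominated by the lower profile of `s2` :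
crossover radius `~ log (1/λ)` -/
theorem nat_le_eLow {om K3 : ℝ} (hom : 0 < om) (hom1 : om ≤ 1 / 10) (hK : 0 ≤ K3) :
    ∃ l' : ℝ, 0 < l' ∧ ∀ lam κ κS κn : ℝ, 0 < lam → lam ≤ l' → KQ κ 2 → KQ κS 2 → KQ κn 2 →
      κ ^ 2 + om ≤ κn ^ 2 → κn ^ 2 ≤ κS ^ 2 → κS ^ 2 ≤ κn ^ 2 + K3 * √lam →
      ∀ ρ : ℝ, 100 ≤ ρ →
        CX.EE κn 2 1 ρ ≤ 8 * CX.eLow κS κ (2 * (1 - lam)) lam om ρ := by
  set M : ℝ := 120 * (5 / om) ^ 5 with hM
  have hM0 : 0 < M := by positivity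
  have hK0 : 0 < 2 * K3 + 3 := by positivity
  set l1 : ℝ := (om / (2 * (2 * K3 + 3))) ^ 4 / (3 * M * om ^ 2) with hl1
  have hl10 : 0 < l1 := by positivity
  refine ⟨min (1 / 100) l1, lt_min (by norm_num) hl10, ?_⟩
  intro lam κ κS κn hlam0 hlam h hS hn h1 h2 h3 ρ hρ
  have hlam1 : lam ≤ 1 / 100 := hlam.trans (min_le_left _ _)
  have hlam2 : lam ≤ l1 := hlam.trans (min_le_right _ _)
  have hρ0 : 0 < ρ := by linarith
  have k1 := h.k1; have k2 := h.k2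
  have kS1 := hS.k1; have kS2 := hS.k2
  have kn1 := hn.k1; have kn2 := hn.k2
  have hκn : κ ≤ κn := by nlinarith
  have hκS : κn ≤ κS := by nlinarith
  have hgap : 5 / 11 * om ≤ κn - κ := by nlinarith
  unfold CX.eLow
  by_cases hc : M * om ^ 2 * Real.exp (-(om * ρ / 4)) ≤ 8 * lam
  · have hQ0 : 0 ≤ CX.EE κS (2 * (1 - lam)) 1 ρ := by
      unfold CX.EE; positivity
    have key := CXc.nat_far hom hlam0 hlam1 hM k1 hκn hgap hρ hc
    linarith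
  · push Not at hc
    have f6 := CXc.nat_small hom hlam0 hM0 hK0 hlam2 hρ0 hc
    have key := CXc.nat_near hlam0 hlam1 hK kS1 kn1 hκS h3 hρ f6
    have hQ0 : 0 ≤ lam / om ^ 2 / ρ ^ 4 * CX.EE κ (2 * (1 - lam)) 1 ρ := by
      unfold CX.EE; positivity
    linarith

end Crest.Agent.R335
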