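import Crest.Agent.R335.PLDefs
import Crest.Agent.R335.HTest

/-!
Row 335 (S0521), C.6: extension of weak inequalities from test functions to `BTin`, local
calculus (helper297).
-/

set_option autoImplicit false

open MeasureTheory Filter Set Crest.MathPhysics.ThreeBody
open scoped ENNReal Topology ContDiff

noncomputable section
namespace Crest.Agent.R335.PL
open Crest.Agent.R335

theorem isOpen_Dom (R1 Z1 : ℝ) : IsOpen (Dom R1 Z1) := by
  have h1 : IsOpen {x : Pos3 | R1 < ‖x‖} := isOpen_lt continuous_const continuous_norm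
  have h2 : Continuous fun x : Pos3 => x 2 := by fun_prop
  have h3 : IsOpen {x : Pos3 | 0 < x 2} := isOpen_lt continuous_const h2
  have h4 : IsOpen {x : Pos3 | x 2 < Z1} := isOpen_lt h2 continuous_const
  exact h1.inter (h3.inter h4)

theorem measurableSet_Dom (R1 Z1 : ℝ) : MeasurableSet (Dom R1 Z1) := (isOpen_Dom R1 Z1).measurableSet

/-- a.e. equal representative which is everywhere bounded and supported in a compact set -/
theorem BTin.repr {U : Set Pos3} {φ : Pos3 → ℝ} {g : Pos3 → Pos3} (h : BTin U φ g) :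
    ∃ (K : Set Pos3) (C : ℝ) (φ' : Pos3 → ℝ), IsCompact K ∧ K ⊆ U ∧ SuppIn K φ' ∧ 0 ≤ C ∧
      (∀ x, |φ' x| ≤ C) ∧ φ =ᵐ[volume] φ' ∧ H1 φ' g ∧
      ((∀ᵐ x, 0 ≤ φ x) → ∀ x, 0 ≤ φ' x) := by
  classical
  obtain ⟨C, hC⟩ := h.bdd
  obtain ⟨K, hK, hKU, hK0⟩ := h.cpt
  set C' := max C 0 with hC'
  have hC0 : 0 ≤ C' := le_max_right _ _
  by_cases hn : ∀ᵐ x, 0 ≤ φ x
  · refine ⟨K, C', fun x => K.indicator (fun x => max 0 (min (φ x) C')) x, hK, hKU, ?_, hC0, ?_,
      ?_, ?_, ?_⟩
    · intro x hx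
      simp [hx]
    · intro x
      by_cases hx : x ∈ K
      · simp only [indicator_of_mem hx]
        rw [abs_of_nonneg (le_max_left _ _)]
        exact max_le hC0 (min_le_right _ _)
      · simp [hx, hC0]
    · filter_upwards [hC, hK0, hn] with x h1 h2 h3
      by_cases hx : x ∈ K
      · simp only [indicator_of_mem hx]
        rw [min_eq_left ((le_abs_self _).trans (h1.trans (le_max_left _ _))), max_eq_right h3]
      · simp only [indicator_of_notMem hx]
        exact h2 hx
    · refine H1.congr h.h1 ?_ (ae_eq_refl _)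
      filter_upwards [hC, hK0, hn] with x h1 h2 h3
      by_cases hx : x ∈ K
      · simp only [indicator_of_mem hx]
        rw [min_eq_left ((le_abs_self _).trans (h1.trans (le_max_left _ _))), max_eq_right h3]
      · simp only [indicator_of_notMem hx]
        exact h2 hx
    · intro _ x
      by_cases hx : x ∈ K
      · simp only [indicator_of_mem hx]
        exact le_max_left _ _
      · simp [hx]
  · have key : φ =ᵐ[volume] fun x => K.indicator (fun x => max (-C') (min (φ x) C')) x := by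
      filter_upwards [hC, hK0] with x h1 h2
      by_cases hx : x ∈ K
      · simp only [indicator_of_mem hx]
        have h4 := abs_le.1 (h1.trans (le_max_left C 0))
        rw [min_eq_left h4.2, max_eq_right h4.1]
      · simp only [indicator_of_notMem hx]
        exact h2 hx
    refine ⟨K, C', fun x => K.indicator (fun x => max (-C') (min (φ x) C')) x, hK, hKU, ?_, hC0, ?_,
      key, H1.congr h.h1 key (ae_eq_refl _), fun h' => absurd h' hn⟩
    · intro x hx
      simp [hx]
    · intro x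
      by_cases hx : x ∈ K
      · simp only [indicator_of_mem hx]
        rw [abs_le]
        refine ⟨le_max_left _ _, max_le (by linarith) (min_le_right _ _)⟩
      · simp [hx, hC0]

/-- weak inequality, extension to `BTin` -/
theorem ext_ineq {U : Set Pos3} (hU : IsOpen U) {G : Pos3 → Pos3} (hG : L2locV U G) {q : Pos3 → ℝ}
    (hq : LocallyIntegrableOn q U volume)
    (h : ∀ φ, Test U φ → (∀ x, 0 ≤ φ x) → (∫ x, inner ℝ (G x) (gr φ x)) + ∫ x, q x * φ x ≤ 0)
    {ζ : Pos3 → ℝ} {g : Pos3 → Pos3} (hζ : BTin U ζ g) (h0 : ∀ᵐ x, 0 ≤ ζ x) :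
    (∫ x, inner ℝ (G x) (g x)) + ∫ x, q x * ζ x ≤ 0 := by
  obtain ⟨K, C, ζ', hK, hKU, hS, hC0, hC, he, h1, hn⟩ := hζ.repr
  have h2 := test_ineq_bdd (c := 1) hU hG hq (fun φ hφ hφ0 => by rw [one_mul]; exact h φ hφ hφ0)
    h1 hK hKU hS (b := C) (fun x => ⟨hn h0 x, (le_abs_self _).trans (hC x)⟩)
  rw [one_mul] at h2
  have h3 : ∫ x, q x * ζ x = ∫ x, q x * ζ' x := by
    refine integral_congr_ae ?_
    filter_upwards [he] with x hx
    rw [hx]
  rw [h3]
  exact h2

/-- weak equation, extension to `BTin` -/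
theorem ext_eq {U : Set Pos3} (hU : IsOpen U) {G : Pos3 → Pos3} (hG : L2locV U G) {q : Pos3 → ℝ}
    (hq : LocallyIntegrableOn q U volume)
    (h : ∀ φ, Test U φ → (∫ x, inner ℝ (G x) (gr φ x)) + ∫ x, q x * φ x = 0)
    {ζ : Pos3 → ℝ} {g : Pos3 → Pos3} (hζ : BTin U ζ g) :
    (∫ x, inner ℝ (G x) (g x)) + ∫ x, q x * ζ x = 0 := by
  obtain ⟨K, C, ζ', hK, hKU, hS, hC0, hC, he, h1, hn⟩ := hζ.repr
  have h2 := test_eq_bdd (c := 1) hU hG hq (fun φ hφ => by rw [one_mul]; exact h φ hφ)
    h1 hK hKU hS (b := C) hC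
  rw [one_mul] at h2
  have h3 : ∫ x, q x * ζ x = ∫ x, q x * ζ' x := by
    refine integral_congr_ae ?_
    filter_upwards [he] with x hx
    rw [hx]
  rw [h3]
  exact h2

end Crest.Agent.R335.PL
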