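import Crest.Agent.R335.PLCalc
import Crest.Agent.R335.PLTest

/-!
Row 335 (S0521), Part C.6b: the gauge lemma (6.2), simplified form (S) of helper783 (note 10764):
with `m = F / s1`, `Y = 2 F (m - 1)`,
`Δ (F (m-1)) = (P + wc) F (m-1) + (2m-1) σ - m² X + 2 s1 |∇m|²`.
-/

set_option autoImplicit false
set_option linter.unusedSectionVars false

open MeasureTheory Filter Set
open scoped ENNReal Topology ContDiff

noncomputable section
namespace Crest.Agent.R335.PLG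
open Crest.Agent.R335 Crest.Agent.R335.PLC

variable {ι : Type*} [Fintype ι] [DecidableEq ι]

local notation "E" => EuclideanSpace ℝ ι

/-- gradient of `F / s1` -/
def dq (F s1 : EuclideanSpace ℝ ι → ℝ) (dF d1 : EuclideanSpace ℝ ι → EuclideanSpace ℝ ι)
    (x : EuclideanSpace ℝ ι) : EuclideanSpace ℝ ι :=
  (1 / s1 x) • dF x - (F x / s1 x ^ 2) • d1 x

theorem WL.inv {U : Set E} (hU : IsOpen U) {f : E → ℝ} {g : E → E} {a : E → ℝ}
    (h : WL U f g a) (hp : LPos U f) :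
    WL U (fun x => (f x)⁻¹) (fun x => (-(f x ^ 2)⁻¹) • g x)
      (fun x => -(f x ^ 2)⁻¹ * a x + 2 * (f x ^ 3)⁻¹ * ‖g x‖ ^ 2) := by
  refine WL.comp_pos hU h hp (F := fun t => t⁻¹) (F' := fun t => -(t ^ 2)⁻¹)
    (F'' := fun t => 2 * (t ^ 3)⁻¹) ?_ ?_ ?_
  · intro t ht
    exact hasDerivAt_inv ht.ne'
  · intro t ht
    have h1 : HasDerivAt (fun t : ℝ => t ^ 2) (2 * t) t := by
      simpa using hasDerivAt_pow 2 t
    have h2 := (h1.inv (pow_ne_zero 2 ht.ne')).neg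
    have ht0 : t ≠ 0 := ht.ne'
    have e : 2 * (t ^ 3)⁻¹ = -(-(2 * t) / (t ^ 2) ^ 2) := by
      rw [eq_comm]
      field_simp
    rw [e]
    exact h2
  · refine continuousOn_const.mul (ContinuousOn.inv₀ (continuousOn_id.pow 3) ?_)
    intro t ht
    exact pow_ne_zero 3 (ne_of_gt ht)

/-- weak Laplacian of `F (F / s1 - 1)`, as a function -/
theorem gauge_WL {U : Set E} (hU : IsOpen U) {F s1 : E → ℝ} {dF d1 : E → E} {LF L1 : E → ℝ}
    (hF : WL U F dF LF) (h1 : WL U s1 d1 L1) (hp : LPos U s1) :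
    ∃ dY : E → E, WL U (fun x => F x * (F x / s1 x - 1)) dY
      (fun x => (2 * (F x / s1 x) - 1) * LF x - (F x / s1 x) ^ 2 * L1 x +
        2 * s1 x * ‖dq F s1 dF d1 x‖ ^ 2) ∧
      ∀ x, dY x = F x • dq F s1 dF d1 x + (F x / s1 x - 1) • dF x := by
  have hi := WL.inv hU h1 hp
  have hm := WL.mul hU hF hi
  have hm1 := WL.add hU hm (WL.const hU (-1))
  have hY := WL.mul hU hF hm1
  have eg : ∀ x, F x • (F x • -(s1 x ^ 2)⁻¹ • d1 x + (s1 x)⁻¹ • dF x + 0) +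
      (F x * (s1 x)⁻¹ + -1) • dF x = F x • dq F s1 dF d1 x + (F x / s1 x - 1) • dF x := by
    intro x
    unfold dq
    rw [add_zero, div_eq_mul_inv, div_eq_mul_inv, one_mul, ← sub_eq_add_neg]
    congr 1
    congr 1
    rw [smul_smul, mul_neg, neg_smul]
    abel
  refine ⟨fun x => F x • dq F s1 dF d1 x + (F x / s1 x - 1) • dF x, ?_, fun x => rfl⟩
  have h3 := WL.congr_lap hU hY (a' := fun x => (2 * (F x / s1 x) - 1) * LF x -
      (F x / s1 x) ^ 2 * L1 x + 2 * s1 x * ‖dq F s1 dF d1 x‖ ^ 2) (by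
    filter_upwards [LPos.ae_pos hU hp] with x hx
    have hx0 : s1 x ≠ 0 := hx.ne'
    have e1 : ‖dq F s1 dF d1 x‖ ^ 2 = (1 / s1 x) ^ 2 * ‖dF x‖ ^ 2 -
        2 * ((1 / s1 x) * (F x / s1 x ^ 2)) * inner ℝ (dF x) (d1 x) +
        (F x / s1 x ^ 2) ^ 2 * ‖d1 x‖ ^ 2 := by
      unfold dq
      rw [norm_sub_sq_real, norm_smul, norm_smul, real_inner_smul_left, real_inner_smul_right,
        mul_pow, mul_pow, Real.norm_eq_abs, Real.norm_eq_abs, sq_abs, sq_abs]
      ring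
    rw [e1]
    simp only [add_zero, inner_add_right, real_inner_smul_right, real_inner_self_eq_norm_sq]
    field_simp
    ring)
  refine ⟨WB.congr hU h3.toWB (Eventually.of_forall fun x => ?_) (Eventually.of_forall fun x => ?_),
    h3.ia, fun φ hφ => ?_⟩
  · simp only
    rw [div_eq_mul_inv, ← sub_eq_add_neg]
  · exact eg x
  · rw [← h3.eq φ hφ]
    refine integral_congr_ae (Eventually.of_forall fun x => ?_)
    simp only
    rw [← eg x]

end Crest.Agent.R335.PLG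

namespace Crest.Agent.R335.PL
open Crest.Agent.R335 Crest.Agent.R335.PLC Crest.Agent.R335.PLG Crest.MathPhysics.ThreeBody

theorem LocB.lbd {U : Set Pos3} {f : Pos3 → ℝ} (h : LocB U f) : LBd U f := by
  intro K hK hKU
  obtain ⟨C, hC⟩ := h K hK hKU
  exact ⟨C, (ae_restrict_iff' hK.measurableSet).2 hC⟩

theorem LocPos.lpos {U : Set Pos3} {f : Pos3 → ℝ} (h : LocPos U f) : LPos U f := by
  intro K hK hKU
  obtain ⟨c, hc, hc1⟩ := h K hK hKU
  exact ⟨c, hc, (ae_restrict_iff' hK.measurableSet).2 hc1⟩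

/-- `BTin` functions as `TB` functions -/
theorem BTin.tb {U : Set Pos3} {φ : Pos3 → ℝ} {g : Pos3 → Pos3} (h : BTin U φ g) :
    ∃ (φ' : Pos3 → ℝ) (g' : Pos3 → Pos3), TB U φ' g' ∧ φ =ᵐ[volume] φ' ∧ g =ᵐ[volume] g' := by
  obtain ⟨K, C, φ', hK, hKU, hS, _, hC, he, h1, _⟩ := h.repr
  obtain ⟨h2, h3⟩ := TB.of_H1 h1 (Eventually.of_forall hC) hK hKU hS
  exact ⟨φ', K.indicator g, h2, he, h3⟩

/-- `Core` gives weak Laplacians of `s1` and `F` -/
theorem Core.s1_bd {om q0 lam R1 Z1 : ℝ} {P wc X sig er cpl : Pos3 → ℝ}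
    {s s1 s2 F H sh : Pos3 → ℝ} {ds ds1 ds2 dF dH dsh : Pos3 → Pos3}
    (h : Core om q0 lam R1 Z1 P wc X sig er cpl s s1 s2 F H sh ds ds1 ds2 dF dH dsh) :
    ∃ C : ℝ, ∀ x, |s1 x| ≤ C := by
  obtain ⟨C, hC⟩ := h.s_b
  refine ⟨C, fun x => ?_⟩
  rw [abs_of_nonneg (h.s1_nn x)]
  refine le_trans ?_ (hC x)
  refine abs_le_of_sq_le_sq' ?_ (h.s_pos x).le |>.2
  nlinarith [h.sq x, sq_nonneg (s2 x)]

theorem Core.F_wb {om q0 lam R1 Z1 : ℝ} {P wc X sig er cpl : Pos3 → ℝ}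
    {s s1 s2 F H sh : Pos3 → ℝ} {ds ds1 ds2 dF dH dsh : Pos3 → Pos3}
    (h : Core om q0 lam R1 Z1 P wc X sig er cpl s s1 s2 F H sh ds ds1 ds2 dF dH dsh) :
    WB (Dom R1 Z1) F dF where
  wg := h.F_wg
  g2 := h.F_l2
  bd := by
    intro K hK hKU
    obtain ⟨C, hC⟩ := h.s1_bd
    obtain ⟨c, hc, hc1⟩ := h.F_pos K hK hKU
    refine ⟨C, (ae_restrict_iff' hK.measurableSet).2 ?_⟩
    filter_upwards [hc1, h.F_le] with x h1 h2 hx
    rw [abs_of_nonneg (hc.le.trans (h1 hx))]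
    exact (h2 (hKU hx)).trans ((le_abs_self _).trans (hC x))

theorem Core.s1_wb {om q0 lam R1 Z1 : ℝ} {P wc X sig er cpl : Pos3 → ℝ}
    {s s1 s2 F H sh : Pos3 → ℝ} {ds ds1 ds2 dF dH dsh : Pos3 → Pos3}
    (h : Core om q0 lam R1 Z1 P wc X sig er cpl s s1 s2 F H sh ds ds1 ds2 dF dH dsh) :
    WB (Dom R1 Z1) s1 ds1 where
  wg := h.s1_wg
  g2 := h.s1_l2
  bd := by
    intro K hK hKU
    obtain ⟨C, hC⟩ := h.s1_bd
    exact ⟨C, Eventually.of_forall hC⟩

theorem Core.s1_lpos {om q0 lam R1 Z1 : ℝ} {P wc X sig er cpl : Pos3 → ℝ}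
    {s s1 s2 F H sh : Pos3 → ℝ} {ds ds1 ds2 dF dH dsh : Pos3 → Pos3}
    (h : Core om q0 lam R1 Z1 P wc X sig er cpl s s1 s2 F H sh ds ds1 ds2 dF dH dsh) :
    LPos (Dom R1 Z1) s1 := by
  intro K hK hKU
  obtain ⟨c, hc, hc1⟩ := h.F_pos K hK hKU
  refine ⟨c, hc, (ae_restrict_iff' hK.measurableSet).2 ?_⟩
  filter_upwards [hc1, h.F_le] with x h1 h2 hx
  exact (h1 hx).trans (h2 (hKU hx))

theorem Core.pot_int {om q0 lam R1 Z1 : ℝ} {P wc X sig er cpl : Pos3 → ℝ}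
    {s s1 s2 F H sh : Pos3 → ℝ} {ds ds1 ds2 dF dH dsh : Pos3 → Pos3}
    (h : Core om q0 lam R1 Z1 P wc X sig er cpl s s1 s2 F H sh ds ds1 ds2 dF dH dsh)
    {f : Pos3 → ℝ} {g : Pos3 → Pos3} (hf : WG (Dom R1 Z1) f g) :
    LocallyIntegrableOn (fun x => (P x + wc x) * f x) (Dom R1 Z1) volume := by
  have hw : LBd (Dom R1 Z1) wc := by
    intro K hK hKU
    refine ⟨q0 ^ 2 / 2, (ae_restrict_iff' hK.measurableSet).2 ?_⟩
    filter_upwards [h.wc_nn, h.wc_le] with x h1 h2 hx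
    rw [abs_of_nonneg (h1 (hKU hx))]
    exact h2 (hKU hx)
  exact locInt_bd_mul (isOpen_Dom R1 Z1) (LBd_add h.P_b.lbd hw)
    (h.P_m.aestronglyMeasurable.add h.wc_m.aestronglyMeasurable) hf.intf

theorem Core.s1_WL {om q0 lam R1 Z1 : ℝ} {P wc X sig er cpl : Pos3 → ℝ}
    {s s1 s2 F H sh : Pos3 → ℝ} {ds ds1 ds2 dF dH dsh : Pos3 → Pos3}
    (h : Core om q0 lam R1 Z1 P wc X sig er cpl s s1 s2 F H sh ds ds1 ds2 dF dH dsh) :
    WL (Dom R1 Z1) s1 ds1 (fun x => (P x + wc x) * s1 x + X x) where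
  toWB := h.s1_wb
  ia := (h.pot_int h.s1_wg).add h.X_int
  eq := fun φ hφ => by
    have := h.s1_eq φ hφ
    linarith

theorem Core.F_WL {om q0 lam R1 Z1 : ℝ} {P wc X sig er cpl : Pos3 → ℝ}
    {s s1 s2 F H sh : Pos3 → ℝ} {ds ds1 ds2 dF dH dsh : Pos3 → Pos3}
    (h : Core om q0 lam R1 Z1 P wc X sig er cpl s s1 s2 F H sh ds ds1 ds2 dF dH dsh) :
    WL (Dom R1 Z1) F dF (fun x => (P x + wc x) * F x + sig x) where
  toWB := h.F_wb
  ia := (h.pot_int h.F_wg).add h.sig_int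
  eq := fun φ hφ => by
    have := h.F_eq φ hφ
    linarith

/-- the pointwise inequality behind the gauge lemma -/
theorem gauge_pointwise {p w F s1 sig X er e N : ℝ} (hs : 0 < s1) (hF : 0 < F) (hFs : F ≤ s1)
    (hw : 0 ≤ w) (hsig : |sig| ≤ er) (hX : -er ≤ X) (hm : (1 - e) * s1 ≤ F) (he : e ≤ 1)
    (he0 : 0 ≤ e)
    (hN : s1 ^ 2 * N ≤ (1 - (F / s1) ^ 2) * s1 * (X + er)) :
    2 * ((F / s1) ^ 2 - 4 * e) * X - (2 + 8 * e) * er ≤
      -(2 * ((2 * (F / s1) - 1) * ((p + w) * F + sig) - (F / s1) ^ 2 * ((p + w) * s1 + X) +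
        2 * s1 * N)) + p * (2 * F * (F / s1 - 1)) := by
  obtain ⟨m, hmdef⟩ : ∃ m, m = F / s1 := ⟨_, rfl⟩
  rw [← hmdef] at hN ⊢
  have hFm : F = m * s1 := by
    rw [hmdef, div_mul_cancel₀ _ hs.ne']
  have hm1 : m ≤ 1 := by
    rw [hmdef, div_le_one hs]; exact hFs
  have hm2 : 1 - e ≤ m := by
    rw [hmdef, le_div_iff₀ hs]; exact hm
  have hm0 : 0 ≤ m := by
    rw [hmdef]; positivity
  have her : 0 ≤ er := (abs_nonneg _).trans hsig
  -- divide `hN` by `s1`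
  have hN' : s1 * N ≤ (1 - m ^ 2) * (X + er) := by
    have : s1 * (s1 * N) ≤ s1 * ((1 - m ^ 2) * (X + er)) := by
      calc s1 * (s1 * N) = s1 ^ 2 * N := by ring
        _ ≤ (1 - m ^ 2) * s1 * (X + er) := hN
        _ = s1 * ((1 - m ^ 2) * (X + er)) := by ring
    exact le_of_mul_le_mul_left this hs
  have h1 : (1 - m ^ 2) * (X + er) ≤ 2 * e * (X + er) := by
    refine mul_le_mul_of_nonneg_right ?_ (by linarith)
    have : (1 - m) * (1 + m) ≤ e * 2 :=
      mul_le_mul (by linarith) (by linarith) (by linarith) he0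
    linarith [this, show (1 - m) * (1 + m) = 1 - m ^ 2 by ring]
  have h2 : (2 * m - 1) * sig ≤ er := by
    have h3 : |2 * m - 1| ≤ 1 := abs_le.2 ⟨by linarith, by linarith⟩
    calc (2 * m - 1) * sig ≤ |(2 * m - 1) * sig| := le_abs_self _
      _ = |2 * m - 1| * |sig| := abs_mul _ _
      _ ≤ 1 * er := mul_le_mul h3 hsig (abs_nonneg _) zero_le_one
      _ = er := one_mul _
  have h4 : 0 ≤ w * F * (1 - m) := mul_nonneg (mul_nonneg hw hF.le) (by linarith)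
  have e1 : -(2 * ((2 * m - 1) * ((p + w) * F + sig) - m ^ 2 * ((p + w) * s1 + X) +
        2 * s1 * N)) + p * (2 * F * (m - 1)) =
      2 * (w * F * (1 - m)) - 2 * ((2 * m - 1) * sig) + 2 * m ^ 2 * X - 4 * (s1 * N) := by
    rw [hFm]
    ring
  rw [e1]
  linarith [hN', h1, h2, h4]

theorem int_mono3 {α : Type*} [MeasurableSpace α] {μ : Measure α} {a b c : α → ℝ}
    (ha : Integrable a μ) (hb : Integrable b μ) (hc : Integrable c μ)
    (h : ∀ᵐ x ∂μ, a x ≤ -b x + c x) : ∫ x, a x ∂μ ≤ -(∫ x, b x ∂μ) + ∫ x, c x ∂μ := by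
  have h1 : ∫ x, (-b x + c x) ∂μ = -(∫ x, b x ∂μ) + ∫ x, c x ∂μ := by
    have hb' : Integrable (fun x => -b x) μ := hb.neg
    rw [integral_add hb' hc, integral_neg]
  rw [← h1]
  exact integral_mono_ae ha (hb.neg.add hc) h

/-- OUTPUT of C6b -/
theorem gauge {om q0 lam R1 Z1 : ℝ} {P wc X sig er cpl : Pos3 → ℝ}
    {s s1 s2 F H sh : Pos3 → ℝ} {ds ds1 ds2 dF dH dsh : Pos3 → Pos3}
    (h : Core om q0 lam R1 Z1 P wc X sig er cpl s s1 s2 F H sh ds ds1 ds2 dF dH dsh) :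
    Gauge lam R1 Z1 P X er s1 F ds1 dF := by
  have hU := isOpen_Dom R1 Z1
  obtain ⟨dY, hY, hdY⟩ := gauge_WL hU h.F_WL h.s1_WL h.s1_lpos
  have hY2 := WL.const_mul hU hY 2
  have eg : ∀ x, (2 : ℝ) • dY x = dXM F s1 dF ds1 x := by
    intro x
    rw [hdY x]
    unfold dq dXM
    rw [smul_sub, smul_smul, smul_smul, smul_add, smul_sub, smul_smul, smul_smul, smul_smul]
    have : (2 * (F x * (F x / s1 x ^ 2))) = 2 * (F x ^ 2 / s1 x ^ 2) := by ring
    rw [this, sub_add_eq_add_sub, ← add_smul]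
    congr 2
    ring
  have ef : ∀ x, 2 * (F x * (F x / s1 x - 1)) = XM F s1 x := by
    intro x
    unfold XM
    ring
  have hY3 : WL (Dom R1 Z1) (XM F s1) (dXM F s1 dF ds1) (fun x => 2 *
      ((2 * (F x / s1 x) - 1) * ((P x + wc x) * F x + sig x) -
        (F x / s1 x) ^ 2 * ((P x + wc x) * s1 x + X x) +
        2 * s1 x * ‖dq F s1 dF ds1 x‖ ^ 2)) := by
    have e1 : (fun x => 2 * (F x * (F x / s1 x - 1))) = XM F s1 := funext ef
    have e2 : (fun x => (2 : ℝ) • dY x) = dXM F s1 dF ds1 := funext eg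
    rw [e1, e2] at hY2
    exact hY2
  refine ⟨hY3.wg, hY3.g2, ?_⟩
  intro φ g hφ hφ0
  obtain ⟨φ', g', hT, he1, he2⟩ := hφ.tb
  obtain ⟨K, hK, hKU, hK1, hK2⟩ := hT.supp
  -- bounded functions
  have hmbd : LBd (Dom R1 Z1) (fun x => F x / s1 x) := by
    intro K hK hKU
    refine ⟨1, (ae_restrict_iff' hK.measurableSet).2 ?_⟩
    have h1 := LPos.ae_pos hU h.s1_lpos
    have h2 := LPos.ae_pos hU h.F_pos.lpos
    rw [ae_restrict_iff' hU.measurableSet] at h1 h2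
    filter_upwards [h1, h2, h.F_le] with x h3 h4 h5 hx
    have hx' := hKU hx
    rw [abs_of_nonneg (div_nonneg (h4 hx').le (h3 hx').le), div_le_one (h3 hx')]
    exact h5 hx'
  have hmm : AEStronglyMeasurable (fun x => F x / s1 x) (volume.restrict (Dom R1 Z1)) := by
    have h1 := (WB.aesm h.F_wb).aemeasurable
    have h2 := (WB.aesm h.s1_wb).aemeasurable
    exact (h1.div h2).aestronglyMeasurable
  have heps : ContinuousOn (eps lam) (Dom R1 Z1) := by
    intro x hx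
    have hx0 : (0 : ℝ) < ‖x‖ := by
      have := hx.1
      linarith [h.R1_ge]
    refine ContinuousAt.continuousWithinAt ?_
    unfold eps
    exact continuousAt_const.div (continuous_norm.continuousAt.pow 4) (by positivity)
  have hepb : LBd (Dom R1 Z1) (eps lam) := LBd_of_continuousOn heps
  have hepm : AEStronglyMeasurable (eps lam) (volume.restrict (Dom R1 Z1)) :=
    heps.aestronglyMeasurable hU.measurableSet
  have hlocI : LocallyIntegrableOn (fun x => 2 * ((F x / s1 x) ^ 2 - 4 * eps lam x) * X x -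
      (2 + 8 * eps lam x) * er x) (Dom R1 Z1) volume := by
    have b1 : LBd (Dom R1 Z1) (fun x => 2 * ((F x / s1 x) ^ 2 - 4 * eps lam x)) := by
      have := LBd_mul (LBd_const (U := Dom R1 Z1) 2)
        (LBd_sub (LBd_mul hmbd hmbd) (LBd_mul (LBd_const (U := Dom R1 Z1) 4) hepb))
      intro K hK hKU
      obtain ⟨C, hC⟩ := this K hK hKU
      refine ⟨C, ?_⟩
      filter_upwards [hC] with x hx
      rw [pow_two]
      exact hx
    have m1 : AEStronglyMeasurable (fun x => 2 * ((F x / s1 x) ^ 2 - 4 * eps lam x))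
        (volume.restrict (Dom R1 Z1)) :=
      ((hmm.pow 2).sub (hepm.const_mul 4)).const_mul 2
    have b2 : LBd (Dom R1 Z1) (fun x => 2 + 8 * eps lam x) :=
      LBd_add (LBd_const 2) (LBd_mul (LBd_const 8) hepb)
    have m2 : AEStronglyMeasurable (fun x => 2 + 8 * eps lam x)
        (volume.restrict (Dom R1 Z1)) := aestronglyMeasurable_const.add (hepm.const_mul 8)
    have l1 : LocallyIntegrableOn er (Dom R1 Z1) volume := by
      rw [locallyIntegrableOn_iff hU.isLocallyClosed]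
      intro K hKU hK
      obtain ⟨C, hC⟩ := h.er_b.lbd K hK hKU
      have := finite_restrict hK
      exact Integrable.of_bound h.er_m.aestronglyMeasurable C hC
    exact (locInt_bd_mul hU b1 m1 h.X_int).sub (locInt_bd_mul hU b2 m2 l1)
  have hPX : LocallyIntegrableOn (fun x => P x * XM F s1 x) (Dom R1 Z1) volume :=
    locInt_bd_mul hU h.P_b.lbd h.P_m.aestronglyMeasurable hY3.wg.intf
  have hp := WL.pair hU hY3 hT
  have i1 := TB.integrable_mul hT hY3.ia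
  have i2 := TB.integrable_mul hT hPX
  have i3 := TB.integrable_mul hT hlocI
  have r1 : ∫ x, inner ℝ (dXM F s1 dF ds1 x) (g x) =
      ∫ x, inner ℝ (dXM F s1 dF ds1 x) (g' x) := by
    refine integral_congr_ae ?_
    filter_upwards [he2] with x hx
    rw [hx]
  have r2 : ∫ x, P x * XM F s1 x * φ x = ∫ x, P x * XM F s1 x * φ' x := by
    refine integral_congr_ae ?_
    filter_upwards [he1] with x hx
    rw [hx]
  have r3 : ∫ x, (2 * ((F x / s1 x) ^ 2 - 4 * eps lam x) * X x - (2 + 8 * eps lam x) * er x) * φ x =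
      ∫ x, (2 * ((F x / s1 x) ^ 2 - 4 * eps lam x) * X x - (2 + 8 * eps lam x) * er x) * φ' x := by
    refine integral_congr_ae ?_
    filter_upwards [he1] with x hx
    rw [hx]
  rw [r1, r2, r3, hp]
  refine int_mono3 i3 i1 i2 ?_
  have p1 := LPos.ae_pos hU h.s1_lpos
  have p2 := LPos.ae_pos hU h.F_pos.lpos
  rw [ae_restrict_iff' hU.measurableSet] at p1 p2
  filter_upwards [p1, p2, h.F_le, h.wc_nn, h.sig_le, h.X_ge, h.m_ge, h.m_grad, he1, hφ0] with
    x q1 q2 q3 q4 q5 q6 q7 q8 q9 q10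
  by_cases hx : x ∈ Dom R1 Z1
  · have hr : (1 : ℝ) ≤ ‖x‖ := h.R1_ge.trans hx.1.le
    have he0 : 0 ≤ eps lam x := by
      unfold eps
      have := h.lam_pos
      positivity
    have hele : eps lam x ≤ 1 := by
      unfold eps
      rw [div_le_one (by positivity)]
      have h1 : (1 : ℝ) ≤ ‖x‖ ^ 4 := one_le_pow₀ hr
      linarith [h.lam_le]
    have key := gauge_pointwise (p := P x) (q1 hx) (q2 hx) (q3 hx) (q4 hx) (q5 hx) (q6 hx) (q7 hx)
      hele he0 (q8 hx)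
    have hφx : 0 ≤ φ' x := by rw [← q9]; exact q10
    have := mul_le_mul_of_nonneg_right key hφx
    have e : dm F s1 dF ds1 x = dq F s1 dF ds1 x := rfl
    rw [e] at this
    unfold XM
    linarith
  · have hxK : x ∉ K := fun hcon => hx (hKU hcon)
    simp only [hK1 x hxK, mul_zero, neg_zero, add_zero, le_refl]

end Crest.Agent.R335.PL
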