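import Crest.Agent.R335.PLCore

/-!
Row 335 (S0521), C.6 (lower bound): existence of the numbers (`PLS.Num`) and the bundled output
`PLS.low_data` of the explicit half of the lower bound.
-/

set_option autoImplicit false
set_option linter.unusedSectionVars false

open MeasureTheory Filter Set Crest.MathPhysics.ThreeBody
open scoped ENNReal Topology ContDiff

noncomputable section
namespace Crest.Agent.R335.PLS
open Crest.Agent.R335

/-! ### monotonicity of `COut` in `K1` -/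

section

variable {cg C0 D : ℝ} {B : OBD cg C0 D} {C P K1 K1' K2 R1 lam κ κS κT : ℝ}
  {s s1 s2 F w0 X sig : Pos3 → ℝ} {gs gs1 gs2 gF : Pos3 → Pos3}

theorem K2_nonneg (h : COut B P K1 K2 R1 lam κ κS κT s s1 s2 F w0 X sig gs gs1 gs2 gF) :
    0 ≤ K2 := by
  by_contra hc
  push Not at hc
  have h1 := h.κ_near
  have h2 := abs_nonneg (κ ^ 2 + 2 * B.eu)
  have h3 := mul_neg_of_neg_of_pos hc h.lam_pos
  linarith

theorem eC_mono (hK : K1 ≤ K1') (hl : 0 ≤ lam) (a κ : ℝ) (t1 t2 : Pos3 → ℝ) (x : Pos3) :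
    eC K1 K2 lam κ a t1 t2 x ≤ eC K1' K2 lam κ a t1 t2 x := by
  unfold eC
  have h1 : K1 * lam * Real.exp (-(κ + a / 4) * ‖x‖) ≤
      K1' * lam * Real.exp (-(κ + a / 4) * ‖x‖) :=
    mul_le_mul_of_nonneg_right (mul_le_mul_of_nonneg_right hK hl) (Real.exp_pos _).le
  linarith

theorem OO_nonneg (hD : 4 ≤ D) {Q : ℝ} (h : KQ κ Q) {x : Pos3} (hx : D + 200 ≤ ‖x‖)
    (hz : 0 < x 2) : 0 ≤ CX.OO D κ Q 1 x := by
  obtain ⟨r1, r2, r3, r4⟩ := CXc.rho_le (by linarith : 0 ≤ D) x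
  have h1 := CXc.rho_pm D x
  have h2 : ‖x - nuc D‖ ≤ ‖x - nuc (-D)‖ := by
    by_contra hc
    push Not at hc
    have h3 : (‖x - nuc (-D)‖ - ‖x - nuc D‖) * (‖x - nuc (-D)‖ + ‖x - nuc D‖) < 0 :=
      mul_neg_of_neg_of_pos (by linarith) (by linarith)
    have h4 : 0 ≤ 4 * D * x 2 := by positivity
    linarith
  unfold CX.OO
  have := CXc.EE_anti h (σ := 1) (Or.inl rfl) (by linarith : (100 : ℝ) ≤ ‖x - nuc D‖) h2
  linarith

theorem mono_K1 (hK : K1 ≤ K1') (hP : 1 ≤ P) (hD : 4 ≤ D) (hR : D + 200 ≤ R1)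
    (hl1 : lam ≤ 1 / 100)
    (h : COut B P K1 K2 R1 lam κ κS κT s s1 s2 F w0 X sig gs gs1 gs2 gF) :
    COut B P K1' K2 R1 lam κ κS κT s s1 s2 F w0 X sig gs gs1 gs2 gF := by
  have hl := h.lam_pos.le
  have hU : IsOpen (UpExt R1) := by
    have e : UpExt R1 = {x : Pos3 | R1 < ‖x‖} ∩ {x : Pos3 | 0 < x 2} := rfl
    rw [e]
    exact (isOpen_lt continuous_const continuous_norm).inter
      (isOpen_lt continuous_const (by fun_prop))
  refine { h with kato2 := ?_, sigb := ?_, Xb := ?_, mgrad := ?_ }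
  · obtain ⟨dd, hdd⟩ : ∃ dd : Pos3 → ℝ, dd = fun x => cC P K1' lam κ B.a s1 x -
      cC P K1 lam κ B.a s1 x := ⟨_, rfl⟩
    have hd0 : ∀ x, 0 ≤ dd x := by
      intro x
      rw [hdd]
      unfold cC
      have e1 : K1 * Real.exp (-(B.a / 2) * ‖x‖) ≤ K1' * Real.exp (-(B.a / 2) * ‖x‖) :=
        mul_le_mul_of_nonneg_right hK (Real.exp_pos _).le
      have e2 : K1 * lam * Real.exp (-(κ + B.a / 4) * ‖x‖) ≤
          K1' * lam * Real.exp (-(κ + B.a / 4) * ‖x‖) :=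
        mul_le_mul_of_nonneg_right (mul_le_mul_of_nonneg_right hK hl) (Real.exp_pos _).le
      have e3 : lam * (P * |x 2| / ‖x‖ ^ 3 + K1 * Real.exp (-(B.a / 2) * ‖x‖)) * s1 x ≤
          lam * (P * |x 2| / ‖x‖ ^ 3 + K1' * Real.exp (-(B.a / 2) * ‖x‖)) * s1 x :=
        mul_le_mul_of_nonneg_right (mul_le_mul_of_nonneg_left (by linarith) hl) (h.nn1 x)
      simp only
      linarith
    have hdi : LocallyIntegrableOn dd (UpExt R1) volume := by
      have e : dd = fun x => (lam * ((K1' - K1) * Real.exp (-(B.a / 2) * ‖x‖))) * s1 x +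
          (K1' - K1) * lam * Real.exp (-(κ + B.a / 4) * ‖x‖) := by
        rw [hdd]
        funext x
        unfold cC
        ring
      rw [e]
      have i1 : LocallyIntegrableOn s1 (UpExt R1) volume :=
        (h.h1.memf.locallyIntegrable (by norm_num)).locallyIntegrableOn _
      refine LocallyIntegrableOn.add ?_ ?_
      · refine PLC.locInt_bd_mul hU ?_ ?_ i1
        · exact PLC.LBd_of_continuousOn (by fun_prop)
        · exact (Continuous.aestronglyMeasurable (by fun_prop))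
      · exact (Continuous.locallyIntegrable (by fun_prop)).locallyIntegrableOn _
    have hci : LocallyIntegrableOn (cC P K1' lam κ B.a s1) (UpExt R1) volume := by
      have e : cC P K1' lam κ B.a s1 = fun x => cC P K1 lam κ B.a s1 x + dd x := by
        rw [hdd]
        funext x
        ring
      rw [e]
      exact h.kato2.if'.add hdi
    refine ⟨h.kato2.ims, hci, fun φ hφ h0 => (h.kato2.le φ hφ h0).trans ?_⟩
    have j1 := PLC.TB.integrable_mul (PLC.TB.of_test hφ) h.kato2.if'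
    have j2 := PLC.TB.integrable_mul (PLC.TB.of_test hφ) hci
    refine integral_mono j1 j2 fun x => ?_
    have := hd0 x
    rw [hdd] at this
    simp only at this ⊢
    exact mul_le_mul_of_nonneg_right (by linarith) (h0 x)
  · filter_upwards [h.sigb] with x h1 hx
    exact (h1 hx).trans (eC_mono hK hl _ _ _ _ _)
  · filter_upwards [h.Xb] with x h1 hx
    have := eC_mono (K2 := K2) hK hl B.a κ s1 s2 x
    linarith [h1 hx]
  · filter_upwards [h.mgrad, h.Fs1, h.Flow] with x h1 h2 h3 hx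
    have h4 := eC_mono (K2 := K2) hK hl B.a κ s1 s2 x
    have h5 := h2 hx
    have h6 := h3 hx
    have h7 := OO_nonneg hD (kq h.κ_rng hl hl1) (by linarith [hx.1] : D + 200 ≤ ‖x‖) hx.2
    have h8 : 0 ≤ F x := by
      by_contra hc
      push Not at hc
      have : P * F x < 0 := mul_neg_of_pos_of_neg (by linarith) hc
      linarith
    have h9 : 0 ≤ s1 x ^ 2 - F x ^ 2 := by
      have := mul_self_le_mul_self h8 h5
      linarith [sq (F x), sq (s1 x)]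
    refine (h1 hx).trans ?_
    have := h.nn1 x
    exact mul_le_mul_of_nonneg_left (by linarith) (by positivity)

end

/-! ### existence of the numbers -/

theorem pow_exp_small (A : ℝ) (n : ℕ) {b : ℝ} (hb : 0 < b) :
    ∃ R : ℝ, ∀ t, R ≤ t → A * (t ^ n * Real.exp (-b * t)) ≤ 1 := by
  have h1 : Tendsto (fun t : ℝ => t ^ n / Real.exp (b * t)) atTop (𝓝 0) :=
    (isLittleO_pow_exp_pos_mul_atTop n hb).tendsto_div_nhds_zero
  have h2 : Tendsto (fun t : ℝ => A * (t ^ n / Real.exp (b * t))) atTop (𝓝 (A * 0)) :=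
    h1.const_mul A
  rw [mul_zero] at h2
  obtain ⟨R, hR⟩ := eventually_atTop.1 (h2.eventually_le_const (by norm_num : (0 : ℝ) < 1))
  refine ⟨R, fun t ht => ?_⟩
  have h3 := hR t ht
  rwa [neg_mul, Real.exp_neg, ← div_eq_mul_inv]

/-- the numbers of the lower bound -/
theorem num_exists {cg C0 P0 C : ℝ} (hP0 : 1 ≤ P0) (hC : 1 ≤ C) :
    ∃ D0 : ℝ, 4 ≤ D0 ∧ ∀ D, D0 ≤ D → ∀ B : OBD cg C0 D, ∃ Z1 dp : ℝ,
      3264 * (C * (P0 * D ^ 20)) ^ 2 ≤ Z1 ∧ 3264 * (C * (P0 * D ^ 20)) ^ 2 * dp ≤ 1 ∧ 0 < dp ∧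
      ∀ K1, 0 ≤ K1 → ∃ R0, D + 200 ≤ R0 ∧ ∀ R1, R0 ≤ R1 → ∀ K2, 0 ≤ K2 → ∃ l', 0 < l' ∧
        ∀ lam, 0 < lam → lam ≤ l' → Num C (P0 * D ^ 20) D B.om B.a K1 K2 R1 lam Z1 dp := by
  obtain ⟨D1, hD1⟩ := pow_exp_small (C0 * (1000 * C ^ 5 * P0 ^ 5 * 3264 ^ 2)) 101
    (by norm_num : (0 : ℝ) < 3 / 2)
  refine ⟨max 4 D1, le_max_left _ _, fun D hD B => ?_⟩
  have hD4 : 4 ≤ D := (le_max_left _ _).trans hD
  have hD' := hD1 D ((le_max_right _ _).trans hD)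
  obtain ⟨P, hP⟩ : ∃ P, P = P0 * D ^ 20 := ⟨_, rfl⟩
  have hP1 : 1 ≤ P := by
    have h1 : (1 : ℝ) ≤ D ^ 20 := one_le_pow₀ (by linarith)
    rw [hP]
    calc (1 : ℝ) = 1 * 1 := by ring
      _ ≤ P0 * D ^ 20 := mul_le_mul hP0 h1 (by norm_num) (by linarith)
  rw [← hP]
  have hom0 : 0 < B.om := by
    have := B.ob.eg_lt
    unfold OBD.om
    linarith
  have hom1 : B.om ≤ 1 / 64 := by
    have h1 := B.omle
    have h2 := B.cg1
    unfold OBD.om
    linarith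
  have ha0 : 0 < B.a := by
    unfold OBD.a
    positivity
  -- the key smallness
  have key : B.om * (1000 * C ^ 5 * P ^ 5 * D * 3264 ^ 2) ≤ 1 := by
    refine le_trans ?_ hD'
    have h1 : B.om ≤ C0 * Real.exp (-(3 / 2) * D) := by
      have := B.tun
      have e : -(3 / 2) * D = -(3 * D / 2) := by ring
      rw [e]
      exact this
    have h2 : (0 : ℝ) ≤ 1000 * C ^ 5 * P ^ 5 * D * 3264 ^ 2 := by positivity
    refine (mul_le_mul_of_nonneg_right h1 h2).trans_eq ?_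
    rw [hP]
    ring
  generalize hom : B.om = om at *
  generalize hA : B.a = a at *
  have hCP : 1 ≤ C * P := one_le_mul_of_one_le_of_one_le hC hP1
  obtain ⟨q, hq⟩ : ∃ q, q = 1000 * (C * D * P) * om := ⟨_, rfl⟩
  have hq0 : 0 < q := by rw [hq]; positivity
  obtain ⟨M, hM⟩ : ∃ M, M = 3264 * (C * P) ^ 2 := ⟨_, rfl⟩
  have hM1 : 1 ≤ M := by
    rw [hM]
    have := one_le_pow₀ hCP (n := 2)
    linarith
  have hM0 : 0 < M := by linarith
  have hqM : q * M ^ 2 ≤ 1 := by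
    refine le_trans (le_of_eq ?_) key
    rw [hq, hM]
    ring
  have hsq : 0 < √q := Real.sqrt_pos.2 hq0
  have hZ : M ≤ 1 / √q := by
    rw [le_div_iff₀ hsq]
    have h1 : (M * √q) ^ 2 ≤ 1 ^ 2 := by
      rw [mul_pow, Real.sq_sqrt hq0.le]
      linarith
    exact (abs_le_of_sq_le_sq' h1 (by norm_num)).2
  rw [← hM]
  refine ⟨1 / √q, 1 / M, hZ, by rw [mul_one_div, div_self hM0.ne'], by positivity,
    fun K1 hK1 => ?_⟩
  have hZ2 : (1 / √q) ^ 2 = 1 / q := by rw [div_pow, Real.sq_sqrt hq0.le, one_pow]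
  generalize 1 / √q = Z1 at hZ hZ2 ⊢
  obtain ⟨Ra, hRa⟩ := pow_exp_small (K1 * (6 * (P * C * D)) * om) 4 (by positivity : 0 < a / 2)
  obtain ⟨Rb, hRb⟩ := pow_exp_small (K1 * 3 * om) 4 (by positivity : 0 < a / 4)
  refine ⟨max (D + 200) (max (2 * D * Z1 + D ^ 2) (max (3 / om) (max Ra Rb))),
    le_max_left _ _, fun R1 hR K2 hK2 => ?_⟩
  have r1 : D + 200 ≤ R1 := (le_max_left _ _).trans hR
  have hR2 := (le_max_right _ _).trans hR
  have r2 : 2 * D * Z1 + D ^ 2 ≤ R1 := (le_max_left _ _).trans hR2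
  have hR3 := (le_max_right _ _).trans hR2
  have r3 : 3 / om ≤ R1 := (le_max_left _ _).trans hR3
  have hR4 := (le_max_right _ _).trans hR3
  have r4 : Ra ≤ R1 := (le_max_left _ _).trans hR4
  have r5 : Rb ≤ R1 := (le_max_right _ _).trans hR4
  obtain ⟨l1, hl1, hnat⟩ := nat_le_eLow (om := om) (K3 := 2 * K2) hom0 (by linarith)
    (by positivity)
  refine ⟨min (1 / 1000) (min l1 (min (om / (2 * K2 + 4)) (min (1 / ((K2 + 1) * (3 * (P * C * D))))
    (1 / (2 * (K2 + 1)))))), by positivity, fun lam hl0 hl => ?_⟩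
  have s1 : lam ≤ 1 / 1000 := hl.trans (min_le_left _ _)
  have hl2 := hl.trans (min_le_right _ _)
  have s2 : lam ≤ l1 := hl2.trans (min_le_left _ _)
  have hl3 := hl2.trans (min_le_right _ _)
  have s3 : lam ≤ om / (2 * K2 + 4) := hl3.trans (min_le_left _ _)
  have hl4 := hl3.trans (min_le_right _ _)
  have s4 : lam ≤ 1 / ((K2 + 1) * (3 * (P * C * D))) := hl4.trans (min_le_left _ _)
  have s5 : lam ≤ 1 / (2 * (K2 + 1)) := hl4.trans (min_le_right _ _)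
  have hZ0 : 0 < Z1 := by linarith
  refine
    { C1 := hC
      P1 := hP1
      D4 := hD4
      om0 := hom0
      om1 := by linarith
      a0 := ha0
      K10 := hK1
      K20 := hK2
      l0 := hl0
      l1 := s1
      Z0 := hZ0
      Zom := ?_
      dp0 := by positivity
      dp1 := by rw [div_le_one hM0]; exact hM1
      dpom := ?_
      R200 := by linarith
      RD := r1
      Rslab := r2
      Rom := r3
      Rexp1 := fun t ht => hRa t (r4.trans ht)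
      Rexp2 := fun t ht => hRb t (r5.trans ht)
      lK := ?_
      nat := fun κ κS κn h1 h2 h3 h4 h5 h6 ρ hρ =>
        hnat lam κ κS κn hl0 s2 h1 h2 h3 h4 h5 h6 ρ hρ
      lK2 := ?_
      lK3 := ?_ }
  · rw [hZ2]
    have e : 1000 * (C * D * P) * (om * (1 / q)) = q / q := by
      rw [hq]; ring
    rw [e, div_self hq0.ne']
  · rw [le_div_iff₀ hM0]
    have h1 : 2 * D * om ^ 2 * M = (om * (1000 * C ^ 5 * P ^ 5 * D * 3264 ^ 2)) *
        (om * (2 / (1000 * 3264 * (C ^ 3 * P ^ 3)))) := by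
      rw [hM]
      field_simp
    rw [h1]
    have hc3 : 1 ≤ C ^ 3 := one_le_pow₀ hC
    have hp3 : 1 ≤ P ^ 3 := one_le_pow₀ hP1
    have hcp : 1 ≤ C ^ 3 * P ^ 3 := one_le_mul_of_one_le_of_one_le hc3 hp3
    have h2 : om * (2 / (1000 * 3264 * (C ^ 3 * P ^ 3))) ≤ 1 := by
      have h3 : 2 / (1000 * 3264 * (C ^ 3 * P ^ 3)) ≤ 1 := by
        rw [div_le_one (by positivity)]
        linarith
      have h4 : 0 ≤ 2 / (1000 * 3264 * (C ^ 3 * P ^ 3)) := by positivity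
      calc om * (2 / (1000 * 3264 * (C ^ 3 * P ^ 3))) ≤ 1 * 1 :=
            mul_le_mul (by linarith) h3 h4 (by norm_num)
        _ = 1 := by ring
    have h5 : 0 ≤ om * (2 / (1000 * 3264 * (C ^ 3 * P ^ 3))) := by positivity
    calc om * (1000 * C ^ 5 * P ^ 5 * D * 3264 ^ 2) *
          (om * (2 / (1000 * 3264 * (C ^ 3 * P ^ 3)))) ≤ 1 * 1 :=
          mul_le_mul key h2 h5 (by norm_num)
      _ = 1 := by ring
  · rw [le_div_iff₀ (by positivity)] at s3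
    linarith
  · rw [le_div_iff₀ (by positivity)] at s4
    have h1 : 0 ≤ 3 * (P * C * D) * lam := by positivity
    have h2 : K2 * lam * (3 * (P * C * D)) =
      lam * ((K2 + 1) * (3 * (P * C * D))) - 3 * (P * C * D) * lam := by ring
    linarith
  · rw [le_div_iff₀ (by positivity)] at s5
    have h2 : K2 * lam = lam * (2 * (K2 + 1)) / 2 - lam := by ring
    linarith

/-! ### the bundled output -/

/-- output of the explicit half of the lower bound (for helper297) -/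
structure Appl {cg C0 D : ℝ} (B : OBD cg C0 D) (M lam κS κ R1 Z1 dp : ℝ)
    (s s1 s2 F w0 X sig : Pos3 → ℝ) (gs gs1 gs2 gF : Pos3 → Pos3)
    (sh : Pos3 → ℝ) (dsh : Pos3 → Pos3) : Prop where
  /-- (a), (b): the hypotheses of `PL.Core.concl` from the five fields of `H` -/
  core : ∀ (om : ℝ) (H : Pos3 → ℝ) (dH : Pos3 → Pos3), 2 / 3 * B.om ≤ om → om ≤ 2 * B.om →
    WG (PL.Dom R1 Z1) H dH → L2locV (PL.Dom R1 Z1) dH → (∀ x ∈ PL.Dom R1 Z1, 0 ≤ H x) →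
    (∀ x ∈ PL.Dom R1 Z1, H x ≤ Real.pi / 2) →
    (∀ φ, Test (PL.Dom R1 Z1) φ → ∫ x, s x ^ 2 * inner ℝ (dH x) (gr φ x) =
        - om * ∫ x, s x ^ 2 * Real.sin (2 * H x) * φ x) →
    ∃ er cpl : Pos3 → ℝ,
      PL.Core om (√(2 * B.om)) lam R1 Z1 (pot D κ) (fun x => 2 * w0 x) (fun x => 2 * X x)
        (fun x => 2 * sig x) er cpl s s1 s2 F H sh gs gs1 gs2 gF dH dsh ∧
      PL.RQ om R1 Z1 dp er cpl s2 sh ∧
      (∀ᵐ x, x ∈ PL.Dom R1 Z1 → 4 * PL.eps lam x * F x ≤ dp * sh x)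
  /-- (c): lower bound of `ŝ` -/
  sh_low : ∀ x : Pos3, 100 ≤ ‖x‖ → Real.exp (-(1.1 * ‖x‖)) ≤ sh x
  /-- (d) -/
  sh_s2 : ∀ᵐ x : Pos3, x ∈ PL.Dom R1 Z1 → (8 / Z1 + dp) * sh x ≤ s2 x / 2
  eLow_s2 : ∀ᵐ x : Pos3, x ∈ PL.Dom R1 Z1 →
    CX.eLow κS κ (2 * (1 - lam)) lam B.om ‖x‖ ≤ M * s2 x
  s2_sh : ∀ᵐ x : Pos3, x ∈ PL.Dom R1 Z1 → s2 x ≤ sh x
  /-- radial, jet -/
  sh_rad : ∀ x y : Pos3, ‖x‖ = ‖y‖ → sh x = sh y

theorem low_data {cg C0 P0 : ℝ} (hP0 : 1 ≤ P0) :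
    ∃ M0 D0 : ℝ, 1 ≤ M0 ∧ 4 ≤ D0 ∧ ∀ D, D0 ≤ D → ∀ B : OBD cg C0 D, ∃ Z1 dp : ℝ,
      1000 ≤ Z1 ∧ 0 < dp ∧ dp ≤ 1 ∧ 0 < B.om ∧ B.om ≤ 1 / 10 ∧
      ∀ K1, ∃ R0, D + 200 ≤ R0 ∧ 2 * D * Z1 + D ^ 2 ≤ R0 ∧ ∀ R1, R0 ≤ R1 → ∀ K2, ∃ l', 0 < l' ∧
        ∀ lam, 0 < lam → lam ≤ l' →
          ∀ (κ κS κT : ℝ) (s s1 s2 F w0 X sig : Pos3 → ℝ) (gs gs1 gs2 gF : Pos3 → Pos3),
            COut B (P0 * D ^ 20) K1 K2 R1 lam κ κS κT s s1 s2 F w0 X sig gs gs1 gs2 gF →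
            ∃ (sh : Pos3 → ℝ) (dsh : Pos3 → Pos3),
              Appl B (M0 * D ^ 20) lam κS κ R1 Z1 dp s s1 s2 F w0 X sig gs gs1 gs2 gF sh dsh := by
  obtain ⟨C, hC, hsl⟩ := slab_calc
  obtain ⟨D0, hD0, hnum⟩ := num_exists (cg := cg) (C0 := C0) hP0 hC
  refine ⟨C * P0, D0, one_le_mul_of_one_le_of_one_le hC hP0, hD0, fun D hD B => ?_⟩
  obtain ⟨Z1, dp, hZ1, hdp, hdp0, hn⟩ := hnum D hD B
  have hD4 : 4 ≤ D := hD0.trans hD
  obtain ⟨P, hP⟩ : ∃ P, P = P0 * D ^ 20 := ⟨_, rfl⟩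
  have hP1 : 1 ≤ P := by
    have h1 : (1 : ℝ) ≤ D ^ 20 := one_le_pow₀ (by linarith)
    rw [hP]
    calc (1 : ℝ) = 1 * 1 := by ring
      _ ≤ P0 * D ^ 20 := mul_le_mul hP0 h1 (by norm_num) (by linarith)
  have hMM : C * P0 * D ^ 20 = C * P := by rw [hP]; ring
  rw [hMM]
  rw [← hP] at hZ1 hdp hn ⊢
  have hCP : 1 ≤ (C * P) ^ 2 := one_le_pow₀ (one_le_mul_of_one_le_of_one_le hC hP1)
  have hZ1000 : 1000 ≤ Z1 := by linarith
  have hom0 : 0 < B.om := by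
    have := B.ob.eg_lt
    unfold OBD.om
    linarith
  have hom1 : B.om ≤ 1 / 10 := by
    have h1 := B.omle
    have h2 := B.cg1
    unfold OBD.om
    linarith
  have hdp1 : dp ≤ 1 := by
    by_contra hc
    push Not at hc
    have : 3264 * (C * P) ^ 2 * 1 < 3264 * (C * P) ^ 2 * dp :=
      mul_lt_mul_of_pos_left hc (by linarith)
    linarith
  refine ⟨Z1, dp, hZ1000, hdp0, hdp1, hom0, hom1, fun K1 => ?_⟩
  obtain ⟨R0, hR0, hR⟩ := hn (max K1 0) (le_max_right _ _)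
  refine ⟨max R0 (2 * D * Z1 + D ^ 2), hR0.trans (le_max_left _ _), le_max_right _ _,
    fun R1 hR1 K2 => ?_⟩
  have hR1' : R0 ≤ R1 := (le_max_left _ _).trans hR1
  obtain ⟨l', hl', hl⟩ := hR R1 hR1' (max K2 0) (le_max_right _ _)
  refine ⟨min l' (1 / 100), by positivity, fun lam hl0 hlam κ κS κT s s1 s2 F w0 X sig gs gs1
    gs2 gF h => ?_⟩
  have hK2 := K2_nonneg h
  rw [max_eq_left hK2] at hl
  have N := hl lam hl0 (hlam.trans (min_le_left _ _))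
  have h' := mono_K1 (le_max_left K1 0) hP1 hD4 (hR0.trans hR1')
    (hlam.trans (min_le_right _ _)) h
  refine ⟨shf C P κS κT κ lam B.om, dshf C P κS κT κ lam B.om, ?_⟩
  refine ⟨fun om H dH ho ho2 h1 h2 h3 h4 h5 => core_of_out hsl N h' ho ho2 h1 h2 h3 h4 h5,
    fun x hx => shf_ge N h' hx, ?_, eLow_le hsl N h', s2_le hsl N h', ?_⟩
  · filter_upwards [shf_le_s2 hsl N h'] with x h1 hx
    have h2 := h1 hx
    have h3 : 0 ≤ 8 / Z1 + dp := by positivity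
    refine (mul_le_mul_of_nonneg_left h2 h3).trans ?_
    have h4 := h'.nn2 x
    have h5 : (8 / Z1 + dp) * (51 * (C * P) ^ 2 * s2 x) =
        (51 * (C * P) ^ 2 * (8 / Z1 + dp)) * s2 x := by ring
    rw [h5]
    have h6 : 51 * (C * P) ^ 2 * (8 / Z1 + dp) ≤ 1 / 2 := by
      have h7 : 51 * (C * P) ^ 2 * (8 / Z1) ≤ 1 / 8 := by
        have : 51 * (C * P) ^ 2 * (8 / Z1) = (408 * (C * P) ^ 2) / Z1 := by ring
        rw [this, div_le_iff₀ (by linarith)]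
        linarith
      have h8 : 51 * (C * P) ^ 2 * dp ≤ 1 / 64 := by linarith
      rw [mul_add]
      linarith
    have := mul_le_mul_of_nonneg_right h6 h4
    linarith
  · intro x y hxy
    unfold shf
    rw [hxy]

end Crest.Agent.R335.PLS
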