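import Crest.Agent.R335.PCSupA

/-!
Row 335 (S0521), PART C: local sup bound, main part.
-/

set_option autoImplicit false

open MeasureTheory Filter Set Crest.MathPhysics.ThreeBody
open scoped ENNReal Topology ContDiff

noncomputable section
namespace Crest.Agent.R335

/-- bounded coefficient times an inner product of two `L²` fields, on a set, extended by zero -/
theorem SB.int_coef {S : Set Pos3} {a : Pos3 → ℝ} {p q : Pos3 → Pos3} {C : ℝ}
    (ha : AEStronglyMeasurable a (volume.restrict S))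
    (haC : ∀ᵐ x ∂(volume.restrict S), |a x| ≤ C)
    (hp : MemLp p 2 (volume.restrict S)) (hq : MemLp q 2 (volume.restrict S))
    (hz : ∀ᵐ x, x ∉ S → q x = 0) :
    Integrable (fun x => a x * inner ℝ (p x) (q x)) := by
  have h1 : Integrable (fun x => C * (‖p x‖ * ‖q x‖)) (volume.restrict S) :=
    (hp.norm.integrable_mul hq.norm).const_mul C
  have h2 : IntegrableOn (fun x => a x * inner ℝ (p x) (q x)) S := by
    refine h1.mono' (ha.mul (hp.1.inner hq.1)) ?_
    filter_upwards [haC] with x hx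
    rw [norm_mul]
    have hC : 0 ≤ C := (abs_nonneg _).trans hx
    exact mul_le_mul hx (norm_inner_le_norm _ _) (norm_nonneg _) hC
  refine h2.integrable_of_ae_notMem_eq_zero ?_
  filter_upwards [hz] with x hx hxS
  rw [hx hxS, inner_zero_right, mul_zero]

/-- truncation -/
def SB.w (u : Pos3 → ℝ) (κ : ℝ) (x : Pos3) : ℝ := max (u x - κ) 0

def SB.gw (u : Pos3 → ℝ) (gu : Pos3 → Pos3) (κ : ℝ) (x : Pos3) : Pos3 :=
  if 0 < u x - κ then gu x else 0

theorem SB.wg_w {u : Pos3 → ℝ} {gu : Pos3 → Pos3} (h : WG univ u gu) (κ : ℝ) :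
    WG univ (SB.w u κ) (SB.gw u gu κ) := by
  have h1 := WG.pos isOpen_univ (WG.sub h (PC.WG_const (ι := Fin 3) isOpen_univ κ) isOpen_univ)
  refine WG.congr isOpen_univ h1 (Eventually.of_forall fun x => rfl)
    (Eventually.of_forall fun x => ?_)
  simp only [SB.gw, sub_zero]

theorem SB.w_nonneg (u : Pos3 → ℝ) (κ : ℝ) (x : Pos3) : 0 ≤ SB.w u κ x := le_max_right _ _

theorem SB.w_le_abs (u : Pos3 → ℝ) {κ : ℝ} (hκ : 0 ≤ κ) (x : Pos3) : SB.w u κ x ≤ |u x| :=
  max_le ((sub_le_self _ hκ).trans (le_abs_self _)) (abs_nonneg _)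

/-- extension by zero -/
theorem SB.memLp_of_zero {F : Type*} [NormedAddCommGroup F] {S : Set Pos3}
    (hS : MeasurableSet S) {h : Pos3 → F} {p : ℝ≥0∞} (hm : MemLp h p (volume.restrict S))
    (hz : ∀ᵐ x, x ∉ S → h x = 0) : MemLp h p volume := by
  refine (memLp_congr_ae ?_).1 ((memLp_indicator_iff_restrict hS).2 hm)
  filter_upwards [hz] with x hx
  by_cases hxS : x ∈ S
  · rw [indicator_of_mem hxS]
  · rw [indicator_of_notMem hxS, hx hxS]

theorem SB.energy {c0 C0 A R Cb M H : ℝ} {a u f : Pos3 → ℝ} {gu G : Pos3 → Pos3}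
    (hc0 : 0 < c0) (hA : 0 ≤ A)
    (D : SB.Data c0 C0 A R Cb a u f gu G M H) {κ r' r : ℝ} (hκ : 0 ≤ κ)
    (hrr : r' < r) (hr : r ≤ 2 * R) :
    H1 (fun x => SB.cut r' r x * SB.w u κ x)
      (fun x => SB.cut r' r x • SB.gw u gu κ x + SB.w u κ x • gr (SB.cut r' r) x) ∧
    ∫ x, ‖SB.cut r' r x • SB.gw u gu κ x + SB.w u κ x • gr (SB.cut r' r) x‖ ^ 2 ≤
      SB.Cq c0 C0 A * (((1 / (r - r')) ^ 2 + 1) * (∫ x in Metric.closedBall 0 r, SB.w u κ x ^ 2) +
        (∫ x in {x | κ < u x} ∩ Metric.closedBall 0 r, ‖G x‖ ^ 2) +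
        (A * κ + H) ^ 2 * (volume ({x | κ < u x} ∩ Metric.closedBall 0 r)).toReal) := by
  set ζ := SB.cut r' r with hζ
  set L : ℝ := 1 / (r - r') with hL
  have hL0 : 0 ≤ L := by
    have : 0 < r - r' := by linarith
    positivity
  obtain ⟨hζwg, hζb'⟩ := WG.of_lipschitz (SB.cut_lip hrr)
  have hζb : ∀ x, ‖gr ζ x‖ ≤ L := fun x => by
    have := hζb' x
    rwa [Real.coe_toNNReal _ hL0] at this
  have hζ0 : ∀ x, 0 ≤ ζ x := SB.cut_nonneg r' r
  have hζ1 : ∀ x, ζ x ≤ 1 := SB.cut_le_one r' r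
  set B2 : Set Pos3 := Metric.closedBall 0 (2 * R) with hB2
  set B : Set Pos3 := Metric.closedBall 0 r with hB
  set S : Set Pos3 := {x | κ < u x} ∩ B with hS
  have hB2m : MeasurableSet B2 := Metric.isClosed_closedBall.measurableSet
  have hBm : MeasurableSet B := Metric.isClosed_closedBall.measurableSet
  have hSm : MeasurableSet S := (measurableSet_lt measurable_const D.um).inter hBm
  have hBB : B ⊆ B2 := Metric.closedBall_subset_closedBall hr
  have hSB : S ⊆ B := inter_subset_right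
  have hfB2 : IsFiniteMeasure (volume.restrict B2) :=
    ⟨by rw [Measure.restrict_apply_univ]; exact (isCompact_closedBall (0 : Pos3) _).measure_lt_top⟩
  have hfB : IsFiniteMeasure (volume.restrict B) :=
    ⟨by rw [Measure.restrict_apply_univ]; exact (isCompact_closedBall (0 : Pos3) _).measure_lt_top⟩
  have hfS : IsFiniteMeasure (volume.restrict S) :=
    ⟨by rw [Measure.restrict_apply_univ]
        exact (measure_mono hSB).trans_lt (isCompact_closedBall (0 : Pos3) _).measure_lt_top⟩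
  have hζz : ∀ x, x ∉ B → ζ x = 0 := fun x hx => by
    refine SB.cut_eq_zero hrr ?_
    rw [hB, mem_closedBall_zero_iff, not_le] at hx
    exact hx.le
  have hgζ : ∀ᵐ x, ζ x = 0 → gr ζ x = 0 := by
    have := WG.zero_of_level isOpen_univ hζwg 0
    rwa [Measure.restrict_univ] at this
  set w := SB.w u κ with hw
  set gw := SB.gw u gu κ with hgw
  have hCb : 0 ≤ Cb := (abs_nonneg _).trans (D.ub 0)
  have hw0 : ∀ x, 0 ≤ w x := SB.w_nonneg u κ
  have hwb : ∀ x, |w x| ≤ Cb := fun x => by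
    rw [abs_of_nonneg (hw0 x)]
    exact (SB.w_le_abs u hκ x).trans (D.ub x)
  have hwwg : WG univ w gw := SB.wg_w D.wg κ
  have hwm : AEStronglyMeasurable w volume := (WG.aesm hwwg).1
  have hgwm : AEStronglyMeasurable gw volume := (WG.aesm hwwg).2
  have hζm : AEStronglyMeasurable ζ volume := (WG.aesm hζwg).1
  have hgζm : AEStronglyMeasurable (gr ζ) volume := (WG.aesm hζwg).2
  have hgwb : ∀ x, ‖gw x‖ ≤ ‖gu x‖ := fun x => by
    rw [hgw, SB.gw]
    split_ifs
    · exact le_rfl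
    · rw [norm_zero]; exact norm_nonneg _
  set P : Pos3 → ℝ := fun x => ζ x * w x with hP
  set gP : Pos3 → Pos3 := fun x => ζ x • gw x + w x • gr ζ x with hgP
  have hPwg : WG univ P gP :=
    WG.mul_of_bdd (M := max 1 Cb) isOpen_univ hζwg hwwg
      (fun x => by rw [abs_of_nonneg (hζ0 x)]; exact (hζ1 x).trans (le_max_left _ _))
      (fun x => (hwb x).trans (le_max_right _ _)) |>.congr isOpen_univ
      (Eventually.of_forall fun x => rfl)
      (Eventually.of_forall fun x => rfl)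
  have hPm : MemLp P 2 volume := by
    refine SB.memLp_of_zero hB2m (MemLp.of_bound (C := 1 * Cb) (hζm.mul hwm).restrict
      (Eventually.of_forall fun x => ?_)) (Eventually.of_forall fun x hx => ?_)
    · rw [norm_mul, Real.norm_eq_abs, Real.norm_eq_abs, abs_of_nonneg (hζ0 x)]
      exact mul_le_mul (hζ1 x) (hwb x) (abs_nonneg _) zero_le_one
    · rw [hP]
      simp only
      rw [hζz x (fun h => hx (hBB h)), zero_mul]
  have hgPz : ∀ᵐ x, x ∉ S → P x = 0 ∧ gP x = 0 := by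
    filter_upwards [hgζ] with x hx hxS
    rw [hP, hgP]
    simp only
    by_cases hxB : x ∈ B
    · have hu : ¬ (κ < u x) := fun h => hxS ⟨h, hxB⟩
      have h1 : w x = 0 := by
        rw [hw, SB.w]
        exact max_eq_right (by linarith [not_lt.1 hu])
      have h2 : gw x = 0 := by
        rw [hgw, SB.gw, if_neg]
        intro h
        exact hu (by linarith)
      rw [h1, h2]
      simp
    · rw [hζz x hxB, hx (hζz x hxB)]
      simp
  have hgPm : MemLp gP 2 volume := by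
    refine SB.memLp_of_zero hB2m ?_ (hgPz.mono fun x hx h => (hx fun h' => h (hBB (hSB h'))).2)
    have m1 : MemLp (fun x => ζ x • gw x) 2 (volume.restrict B2) := by
      refine D.mg.of_le (hζm.smul hgwm).restrict (Eventually.of_forall fun x => ?_)
      rw [norm_smul, Real.norm_eq_abs, abs_of_nonneg (hζ0 x)]
      exact (mul_le_of_le_one_left (norm_nonneg _) (hζ1 x)).trans (hgwb x)
    have m2 : MemLp (fun x => w x • gr ζ x) 2 (volume.restrict B2) := by
      refine MemLp.of_bound (C := Cb * L) (hwm.smul hgζm).restrict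
        (Eventually.of_forall fun x => ?_)
      rw [norm_smul]
      exact mul_le_mul (hwb x) (hζb x) (norm_nonneg _) hCb
    exact m1.add m2
  have hPH : H1 P gP := ⟨hPm, hgPm, hPwg⟩
  refine ⟨hPH, ?_⟩
  set φ : Pos3 → ℝ := fun x => ζ x * P x with hφ
  set gφ : Pos3 → Pos3 := fun x => ζ x • gP x + P x • gr ζ x with hgφ
  have hφH : H1 φ gφ := H1.mul_bdd (C := max 1 L) hPH hζwg
    (fun x => by rw [abs_of_nonneg (hζ0 x)]; exact (hζ1 x).trans (le_max_left _ _))
    (fun x => (hζb x).trans (le_max_right _ _))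
  have hφb : ∀ x, |φ x| ≤ Cb := fun x => by
    rw [hφ, hP]
    simp only
    rw [abs_mul, abs_mul, abs_of_nonneg (hζ0 x)]
    calc ζ x * (ζ x * |w x|) ≤ 1 * (1 * Cb) :=
          mul_le_mul (hζ1 x) (mul_le_mul (hζ1 x) (hwb x) (abs_nonneg _) zero_le_one)
            (mul_nonneg (hζ0 x) (abs_nonneg _)) zero_le_one
      _ = Cb := by ring
  have hφz : ∀ x, 2 * R ≤ ‖x‖ → φ x = 0 := fun x hx => by
    rw [hφ]
    simp only
    rw [hζ, SB.cut_eq_zero hrr (hr.trans hx), zero_mul]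
  have hφzS : ∀ᵐ x, x ∉ S → φ x = 0 ∧ gφ x = 0 := by
    filter_upwards [hgPz] with x hx hxS
    rw [hφ, hgφ]
    simp only
    rw [(hx hxS).1, (hx hxS).2]
    simp
  have hBT : BT φ gφ := ⟨hφH, ⟨Cb, Eventually.of_forall hφb⟩, ⟨2 * R, Eventually.of_forall hφz⟩⟩
  have heq := D.eq φ gφ hBT (Eventually.of_forall hφz)
  -- integrability of the three terms
  have hgφz2 : ∀ᵐ x, x ∉ B2 → gφ x = 0 :=
    hφzS.mono fun x hx h => (hx fun h' => h (hBB (hSB h'))).2
  have hG2 : MemLp G 2 (volume.restrict B2) := D.mG.mono_exponent (by norm_num)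
  have i1 : Integrable (fun x => a x * inner ℝ (gu x) (gφ x)) := by
    refine SB.int_coef (S := B2) (C := C0) D.am.restrict ?_ D.mg (hφH.memg.restrict _) hgφz2
    rw [ae_restrict_iff' hB2m]
    filter_upwards [D.ha] with x hx hxB
    have := hx (by simpa [hB2] using hxB)
    rw [abs_of_pos (hc0.trans_le this.1)]
    exact this.2
  have i2 : Integrable (fun x => (inner ℝ (G x) (gφ x) : ℝ)) := by
    have := SB.int_coef (S := B2) (C := 1) (a := fun _ => 1) aestronglyMeasurable_const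
      (Eventually.of_forall fun x => by norm_num) hG2 (hφH.memg.restrict _) hgφz2
    simpa using this
  have i3 : Integrable (fun x => f x * φ x) := by
    have : IntegrableOn (fun x => f x * φ x) B2 := by
      refine (integrable_const ((A * Cb + H) * Cb)).mono'
        (D.fm.mul hφH.memf.aestronglyMeasurable).restrict ?_
      rw [ae_restrict_iff' hB2m]
      filter_upwards [D.hf] with x hx hxB
      have h1 := hx (by simpa [hB2] using hxB)
      rw [norm_mul]
      have h2 : A * |u x| + H ≤ A * Cb + H :=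
        add_le_add (mul_le_mul_of_nonneg_left (D.ub x) hA) le_rfl
      exact mul_le_mul (h1.trans h2) (hφb x) (abs_nonneg _) ((abs_nonneg _).trans (h1.trans h2))
    refine this.integrable_of_ae_notMem_eq_zero ?_
    filter_upwards [hφzS] with x hx hxB
    rw [(hx fun h' => hxB (hBB (hSB h'))).1, mul_zero]
  set Dx : Pos3 → ℝ := fun x =>
    a x * inner ℝ (gu x) (gφ x) - inner ℝ (G x) (gφ x) - f x * φ x with hDx
  have i12 : Integrable (fun x => a x * inner ℝ (gu x) (gφ x) - inner ℝ (G x) (gφ x)) :=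
    i1.sub i2
  have iD : Integrable Dx := i12.sub i3
  have hD0 : ∫ x, Dx x = 0 := by
    show ∫ x, (a x * inner ℝ (gu x) (gφ x) - inner ℝ (G x) (gφ x) - f x * φ x) = 0
    rw [integral_sub i12 i3, integral_sub i1 i2, heq]
    ring
  -- the right hand side
  have iq1 : IntegrableOn (fun x => w x ^ 2) B := by
    refine (integrable_const (Cb ^ 2)).mono' (hwm.pow 2).restrict
      (Eventually.of_forall fun x => ?_)
    rw [Real.norm_eq_abs, abs_pow]
    exact pow_le_pow_left₀ (abs_nonneg _) (hwb x) 2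
  have iq2 : IntegrableOn (fun x => ‖G x‖ ^ 2) S := by
    have h1 : MemLp G 2 (volume.restrict S) :=
      hG2.mono_measure (Measure.restrict_mono (hSB.trans hBB) le_rfl)
    exact (memLp_two_iff_integrable_sq_norm h1.1).1 h1
  have iq3 : IntegrableOn (fun _ : Pos3 => (A * κ + H) ^ 2) S := integrable_const _
  set Q : Pos3 → ℝ := fun x => SB.Cq c0 C0 A * ((L ^ 2 + 1) * B.indicator (fun x => w x ^ 2) x +
    S.indicator (fun x => ‖G x‖ ^ 2) x + S.indicator (fun _ => (A * κ + H) ^ 2) x) with hQ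
  have j1 : Integrable (fun x => (L ^ 2 + 1) * B.indicator (fun x => w x ^ 2) x) :=
    (iq1.integrable_indicator hBm).const_mul _
  have j2 : Integrable (fun x => S.indicator (fun x => ‖G x‖ ^ 2) x) :=
    iq2.integrable_indicator hSm
  have j3 : Integrable (fun x => S.indicator (fun _ => (A * κ + H) ^ 2) x) :=
    iq3.integrable_indicator hSm
  have j12 : Integrable (fun x => (L ^ 2 + 1) * B.indicator (fun x => w x ^ 2) x +
      S.indicator (fun x => ‖G x‖ ^ 2) x) := j1.add j2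
  have iQ : Integrable Q := (j12.add j3).const_mul _
  have hQint : ∫ x, Q x = SB.Cq c0 C0 A * ((L ^ 2 + 1) * (∫ x in B, w x ^ 2) +
      (∫ x in S, ‖G x‖ ^ 2) + (A * κ + H) ^ 2 * (volume S).toReal) := by
    rw [hQ, integral_const_mul, integral_add j12 j3, integral_add j1 j2,
      integral_const_mul, integral_indicator hBm, integral_indicator hSm,
      integral_indicator_const _ hSm, smul_eq_mul, Measure.real]
    ring
  have hCq : 0 ≤ SB.Cq c0 C0 A := by
    unfold SB.Cq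
    positivity
  have hptw : ∀ᵐ x, ‖gP x‖ ^ 2 ≤ (4 / c0) * Dx x + Q x := by
    filter_upwards [hφzS, hgPz, D.ha, D.hf] with x h1 h2 h3 h4
    by_cases hxS : x ∈ S
    · have hxB : x ∈ B := hSB hxS
      have hxB2 : ‖x‖ ≤ 2 * R := by simpa [hB2] using hBB hxB
      have hux : κ < u x := hxS.1
      have hwx : w x = u x - κ := by
        rw [hw, SB.w]
        exact max_eq_left (by linarith)
      have hgwx : gw x = gu x := by
        rw [hgw, SB.gw, if_pos (by linarith)]
      have hux0 : |u x| = w x + κ := by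
        rw [abs_of_pos (by linarith), hwx]
        ring
      have key := SB.pointwise (κ := κ) (H := H) (gu := gu x) (G := G x) (gz := gr ζ x) hc0
        (h3 hxB2).1 (h3 hxB2).2 hA (hζ0 x) (hζ1 x) (hζb x) (hw0 x) (f := f x)
        (by rw [← hux0]; exact h4 hxB2)
      rw [hgP, hDx, hQ, hφ, hgφ, hP]
      simp only
      rw [indicator_of_mem hxB, indicator_of_mem hxS, indicator_of_mem hxS, hgP]
      simp only
      rw [hgwx]
      exact key
    · rw [(h2 hxS).2, hDx]
      simp only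
      rw [(h1 hxS).1, (h1 hxS).2]
      have : 0 ≤ Q x := by
        rw [hQ]
        refine mul_nonneg hCq ?_
        have e1 : 0 ≤ B.indicator (fun x => w x ^ 2) x :=
          indicator_nonneg (fun _ _ => sq_nonneg _) _
        have e2 : 0 ≤ S.indicator (fun x => ‖G x‖ ^ 2) x :=
          indicator_nonneg (fun _ _ => sq_nonneg _) _
        have e3 : 0 ≤ S.indicator (fun _ => (A * κ + H) ^ 2) x :=
          indicator_nonneg (fun _ _ => sq_nonneg _) _
        positivity
      simpa using this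
  calc ∫ x, ‖gP x‖ ^ 2 ≤ ∫ x, ((4 / c0) * Dx x + Q x) :=
        integral_mono_ae ((memLp_two_iff_integrable_sq_norm hgPm.1).1 hgPm)
          ((iD.const_mul _).add iQ) hptw
    _ = ∫ x, Q x := by
        rw [integral_add (iD.const_mul _) iQ, integral_const_mul, hD0]
        ring
    _ = _ := hQint

theorem SB.step {c0 C0 A R Cb M H CS : ℝ} {a u f : Pos3 → ℝ} {gu G : Pos3 → Pos3}
    (hc0 : 0 < c0) (hA : 0 ≤ A) (hCS : 0 < CS)
    (hsob : ∀ (f : Pos3 → ℝ) (g : Pos3 → Pos3), H1 f g →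
      MemLp f 6 volume ∧ (eLpNorm f 6 volume).toReal ^ 2 ≤ CS * ∫ x, ‖g x‖ ^ 2)
    (D : SB.Data c0 C0 A R Cb a u f gu G M H) {κ r' r v : ℝ} (hκ : 0 ≤ κ)
    (hrr : r' < r) (hr : r ≤ 2 * R) (hv : 0 ≤ v)
    (hS : volume ({x | κ < u x} ∩ Metric.closedBall 0 r) ≤ ENNReal.ofReal (v ^ 3)) :
    ∫ x in Metric.closedBall 0 r', SB.w u κ x ^ 2 ≤
      CS * SB.Cq c0 C0 A * v ^ 2 *
      (((1 / (r - r')) ^ 2 + 1) * (∫ x in Metric.closedBall 0 r, SB.w u κ x ^ 2) +
        M ^ 2 * v ^ 2 + (A * κ + H) ^ 2 * v ^ 3) := by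
  obtain ⟨hPH, hE⟩ := SB.energy hc0 hA D hκ hrr hr
  set ζ := SB.cut r' r with hζ
  set B : Set Pos3 := Metric.closedBall 0 r with hB
  set S : Set Pos3 := {x | κ < u x} ∩ B with hSd
  have hBm : MeasurableSet B := Metric.isClosed_closedBall.measurableSet
  have hSm : MeasurableSet S := (measurableSet_lt measurable_const D.um).inter hBm
  have hSB : S ⊆ B := inter_subset_right
  set P : Pos3 → ℝ := fun x => ζ x * SB.w u κ x with hP
  obtain ⟨hP6, hPs⟩ := hsob _ _ hPH
  have hPz : ∀ x, x ∉ S → P x = 0 := fun x hxS => by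
    rw [hP]
    simp only
    by_cases hxB : x ∈ B
    · have hu : ¬ (κ < u x) := fun h => hxS ⟨h, hxB⟩
      have h1 : SB.w u κ x = 0 := by
        rw [SB.w]
        exact max_eq_right (by linarith [not_lt.1 hu])
      rw [h1, mul_zero]
    · have : ζ x = 0 := by
        refine SB.cut_eq_zero hrr ?_
        rw [hB, mem_closedBall_zero_iff, not_le] at hxB
        exact hxB.le
      rw [this, zero_mul]
  have hP2i : Integrable (fun x => P x ^ 2) := hPH.memf.integrable_sq
  obtain ⟨-, hh1⟩ := SB.holder (S := S) (h := P) (hP6.restrict S) hv hS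
  have hG6S : MemLp G 6 (volume.restrict S) := D.mG.mono_measure
    (Measure.restrict_mono (hSB.trans (Metric.closedBall_subset_closedBall hr)) le_rfl)
  obtain ⟨-, hh2⟩ := SB.holder (S := S) (h := G) hG6S hv hS
  have e1 : ∫ x in Metric.closedBall 0 r', SB.w u κ x ^ 2 ≤ ∫ x in S, ‖P x‖ ^ 2 := by
    have h1 : ∫ x in Metric.closedBall (0 : Pos3) r', SB.w u κ x ^ 2 =
        ∫ x in Metric.closedBall (0 : Pos3) r', P x ^ 2 := by
      refine setIntegral_congr_fun Metric.isClosed_closedBall.measurableSet fun x hx => ?_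
      rw [mem_closedBall_zero_iff] at hx
      rw [hP]
      simp only
      rw [hζ, SB.cut_eq_one hrr hx, one_mul]
    have h2 : ∫ x in Metric.closedBall (0 : Pos3) r', P x ^ 2 ≤ ∫ x, P x ^ 2 :=
      setIntegral_le_integral hP2i (Eventually.of_forall fun x => sq_nonneg _)
    have h3 : ∫ x in S, P x ^ 2 = ∫ x, P x ^ 2 :=
      setIntegral_eq_integral_of_forall_compl_eq_zero fun x hx => by
        rw [hPz x hx]
        norm_num
    have h4 : ∫ x in S, ‖P x‖ ^ 2 = ∫ x in S, P x ^ 2 := by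
      refine integral_congr_ae (Eventually.of_forall fun x => ?_)
      simp only [Real.norm_eq_abs, sq_abs]
    rw [h1, h4, h3]
    exact h2
  have e2 : (eLpNorm P 6 (volume.restrict S)).toReal ^ 2 ≤
      (eLpNorm P 6 volume).toReal ^ 2 := by
    refine pow_le_pow_left₀ ENNReal.toReal_nonneg ?_ 2
    exact ENNReal.toReal_mono hP6.2.ne (eLpNorm_mono_measure _ Measure.restrict_le_self)
  have e3 : (eLpNorm G 6 (volume.restrict S)).toReal ^ 2 ≤ M ^ 2 := by
    refine pow_le_pow_left₀ ENNReal.toReal_nonneg ?_ 2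
    refine le_trans ?_ D.hM
    exact ENNReal.toReal_mono D.mG.2.ne (eLpNorm_mono_measure _
      (Measure.restrict_mono (hSB.trans (Metric.closedBall_subset_closedBall hr)) le_rfl))
  have e4 : (volume S).toReal ≤ v ^ 3 := ENNReal.toReal_le_of_le_ofReal (by positivity) hS
  have hCq : 0 ≤ SB.Cq c0 C0 A := by
    unfold SB.Cq
    positivity
  have hv2 : 0 ≤ v ^ 2 := sq_nonneg v
  calc ∫ x in Metric.closedBall 0 r', SB.w u κ x ^ 2 ≤ ∫ x in S, ‖P x‖ ^ 2 := e1
    _ ≤ (eLpNorm P 6 (volume.restrict S)).toReal ^ 2 * v ^ 2 := hh1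
    _ ≤ (eLpNorm P 6 volume).toReal ^ 2 * v ^ 2 := mul_le_mul_of_nonneg_right e2 hv2
    _ ≤ (CS * (SB.Cq c0 C0 A * (((1 / (r - r')) ^ 2 + 1) * (∫ x in B, SB.w u κ x ^ 2) +
        (∫ x in S, ‖G x‖ ^ 2) + (A * κ + H) ^ 2 * (volume S).toReal))) * v ^ 2 :=
        mul_le_mul_of_nonneg_right (hPs.trans (mul_le_mul_of_nonneg_left hE hCS.le)) hv2
    _ ≤ (CS * (SB.Cq c0 C0 A * (((1 / (r - r')) ^ 2 + 1) * (∫ x in B, SB.w u κ x ^ 2) +
        M ^ 2 * v ^ 2 + (A * κ + H) ^ 2 * v ^ 3))) * v ^ 2 := by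
        refine mul_le_mul_of_nonneg_right (mul_le_mul_of_nonneg_left
          (mul_le_mul_of_nonneg_left ?_ hCq) hCS.le) hv2
        refine add_le_add (add_le_add le_rfl ?_) (mul_le_mul_of_nonneg_left e4 (sq_nonneg _))
        exact hh2.trans (mul_le_mul_of_nonneg_right e3 hv2)
    _ = _ := by ring

/-- Chebyshev -/
theorem SB.cheb {u : Pos3 → ℝ} (um : Measurable u) {Cb : ℝ} (ub : ∀ x, |u x| ≤ Cb)
    {κ κ' r : ℝ} (hκ : 0 ≤ κ) (hκκ : κ < κ') :
    (volume ({x | κ' < u x} ∩ Metric.closedBall (0 : Pos3) r)).toReal * (κ' - κ) ^ 2 ≤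
      ∫ x in Metric.closedBall 0 r, SB.w u κ x ^ 2 := by
  set B : Set Pos3 := Metric.closedBall 0 r with hB
  set S : Set Pos3 := {x | κ' < u x} ∩ B with hSd
  have hBm : MeasurableSet B := Metric.isClosed_closedBall.measurableSet
  have hSm : MeasurableSet S := (measurableSet_lt measurable_const um).inter hBm
  have hSB : S ⊆ B := inter_subset_right
  have hfB : IsFiniteMeasure (volume.restrict B) :=
    ⟨by rw [Measure.restrict_apply_univ]; exact (isCompact_closedBall (0 : Pos3) _).measure_lt_top⟩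
  have hCb : 0 ≤ Cb := (abs_nonneg _).trans (ub 0)
  have hwb : ∀ x, |SB.w u κ x| ≤ Cb := fun x => by
    rw [abs_of_nonneg (SB.w_nonneg u κ x)]
    exact (SB.w_le_abs u hκ x).trans (ub x)
  have hwm : Measurable (SB.w u κ) := (um.sub_const κ).max measurable_const
  have iq1 : IntegrableOn (fun x => SB.w u κ x ^ 2) B := by
    refine (integrable_const (Cb ^ 2)).mono' (hwm.pow_const 2).aestronglyMeasurable
      (Eventually.of_forall fun x => ?_)
    rw [Real.norm_eq_abs, abs_pow]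
    exact pow_le_pow_left₀ (abs_nonneg _) (hwb x) 2
  have h1 : ∫ x in S, SB.w u κ x ^ 2 ≤ ∫ x in B, SB.w u κ x ^ 2 :=
    setIntegral_mono_set iq1 (Eventually.of_forall fun x => sq_nonneg _) hSB.eventuallyLE
  refine le_trans ?_ h1
  have h2 := setIntegral_ge_of_const_le (μ := volume) (c := (κ' - κ) ^ 2) hSm
    ((measure_mono hSB).trans_lt (isCompact_closedBall (0 : Pos3) _).measure_lt_top).ne
    (f := fun x => SB.w u κ x ^ 2) (fun x hx => by
      have : κ' < u x := hx.1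
      have h3 : SB.w u κ x = u x - κ := max_eq_left (by linarith)
      rw [h3]
      exact pow_le_pow_left₀ (by linarith) (by linarith) 2) (iq1.mono_set hSB)
  simpa [mul_comm, Measure.real] using h2

theorem SB.mono {u : Pos3 → ℝ} (um : Measurable u) {Cb : ℝ} (ub : ∀ x, |u x| ≤ Cb)
    {κ κ' r r' : ℝ} (hκ : 0 ≤ κ) (hκκ : κ ≤ κ') (hrr : r' ≤ r) :
    ∫ x in Metric.closedBall (0 : Pos3) r', SB.w u κ' x ^ 2 ≤
      ∫ x in Metric.closedBall (0 : Pos3) r, SB.w u κ x ^ 2 := by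
  have hint : ∀ t c : ℝ, 0 ≤ c →
      IntegrableOn (fun x => SB.w u c x ^ 2) (Metric.closedBall (0 : Pos3) t) := by
    intro t c hc
    have hfB : IsFiniteMeasure (volume.restrict (Metric.closedBall (0 : Pos3) t)) :=
      ⟨by rw [Measure.restrict_apply_univ]; exact (isCompact_closedBall (0 : Pos3) _).measure_lt_top⟩
    have hwm : Measurable (SB.w u c) := (um.sub_const c).max measurable_const
    refine (integrable_const (Cb ^ 2)).mono' (hwm.pow_const 2).aestronglyMeasurable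
      (Eventually.of_forall fun x => ?_)
    rw [Real.norm_eq_abs, abs_pow]
    refine pow_le_pow_left₀ (abs_nonneg _) ?_ 2
    rw [abs_of_nonneg (SB.w_nonneg u c x)]
    exact (SB.w_le_abs u hc x).trans (ub x)
  have h1 : ∫ x in Metric.closedBall (0 : Pos3) r', SB.w u κ' x ^ 2 ≤
      ∫ x in Metric.closedBall (0 : Pos3) r', SB.w u κ x ^ 2 := by
    refine integral_mono_ae (hint _ _ (hκ.trans hκκ)) (hint _ _ hκ)
      (Eventually.of_forall fun x => ?_)
    refine pow_le_pow_left₀ (SB.w_nonneg _ _ _) ?_ 2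
    exact max_le_max (by linarith) le_rfl
  exact h1.trans (setIntegral_mono_set (hint _ _ hκ) (Eventually.of_forall fun x => sq_nonneg _)
    (Metric.closedBall_subset_closedBall hrr).eventuallyLE)

/-- the algebra of one iteration step -/
theorem SB.alg {C1 A R M H k d p Y Y' : ℝ} (hC1 : 0 < C1) (hA : 0 ≤ A) (hR : 0 < R)
    (hM0 : 0 ≤ M) (hH0 : 0 ≤ H) (hk : 0 < k) (hMk : M ≤ k) (hHk : H ≤ k)
    (hd : d = 1 / (2 ^ 20 * (C1 * ((1 / R ^ 2 + 1) + 1 + (A + 1) ^ 2) + 1)))
    (hp : 0 < p) (hp1 : p ≤ 1) (hY : Y ≤ k ^ 2 * (d * p ^ 5) ^ 3)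
    (hY' : Y' ≤ C1 * (2 * d * p ^ 4) ^ 2 *
      (((1 / (R * (1 + p) - R * (1 + p / 2))) ^ 2 + 1) * Y + M ^ 2 * (2 * d * p ^ 4) ^ 2 +
        (A * (k * (1 - p / 2)) + H) ^ 2 * (2 * d * p ^ 4) ^ 3)) :
    Y' ≤ k ^ 2 * (d * (p / 2) ^ 5) ^ 3 := by
  set C3 : ℝ := (1 / R ^ 2 + 1) + 1 + (A + 1) ^ 2 with hC3
  have hC3p : 0 < C3 := by positivity
  set C2 : ℝ := C1 * C3 + 1 with hC2
  have hC2p : 1 ≤ C2 := by
    have := mul_pos hC1 hC3p
    linarith
  have hdp : 0 < d := by rw [hd]; positivity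
  have hd1 : d ≤ 1 := by
    rw [hd, div_le_one (by positivity)]
    nlinarith
  have hdC : 2 ^ 20 * C2 * d = 1 := by
    rw [hd]
    field_simp
  have e0 : R * (1 + p) - R * (1 + p / 2) = R * p / 2 := by ring
  have e1 : ((1 / (R * (1 + p) - R * (1 + p / 2))) ^ 2 + 1) * Y ≤
      8 * k ^ 2 * d ^ 2 * p ^ 8 * (1 / R ^ 2 + 1) := by
    rw [e0]
    have h1 : ((1 / (R * p / 2)) ^ 2 + 1) * Y ≤
        ((1 / (R * p / 2)) ^ 2 + 1) * (k ^ 2 * (d * p ^ 5) ^ 3) :=
      mul_le_mul_of_nonneg_left hY (by positivity)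
    refine h1.trans ?_
    have h2 : ((1 / (R * p / 2)) ^ 2 + 1) * (k ^ 2 * (d * p ^ 5) ^ 3) =
        k ^ 2 * d ^ 2 * p ^ 8 * (4 * (1 / R ^ 2) * (d * p ^ 5) + d * p ^ 7) := by
      field_simp
      ring
    rw [h2]
    have h3 : d * p ^ 5 ≤ 1 := mul_le_one₀ hd1 (by positivity) (pow_le_one₀ hp.le hp1)
    have h4 : d * p ^ 7 ≤ 1 := mul_le_one₀ hd1 (by positivity) (pow_le_one₀ hp.le hp1)
    have h5 : 4 * (1 / R ^ 2) * (d * p ^ 5) + d * p ^ 7 ≤ 8 * (1 / R ^ 2 + 1) := by
      have h6 : 4 * (1 / R ^ 2) * (d * p ^ 5) ≤ 4 * (1 / R ^ 2) * 1 :=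
        mul_le_mul_of_nonneg_left h3 (by positivity)
      have h7 : 0 < 1 / R ^ 2 := by positivity
      linarith
    calc k ^ 2 * d ^ 2 * p ^ 8 * (4 * (1 / R ^ 2) * (d * p ^ 5) + d * p ^ 7)
        ≤ k ^ 2 * d ^ 2 * p ^ 8 * (8 * (1 / R ^ 2 + 1)) :=
          mul_le_mul_of_nonneg_left h5 (by positivity)
      _ = _ := by ring
  have e2 : M ^ 2 * (2 * d * p ^ 4) ^ 2 ≤ 8 * k ^ 2 * d ^ 2 * p ^ 8 * 1 := by
    have h1 : M ^ 2 ≤ k ^ 2 := pow_le_pow_left₀ hM0 hMk 2
    have h2 : M ^ 2 * (2 * d * p ^ 4) ^ 2 ≤ k ^ 2 * (2 * d * p ^ 4) ^ 2 :=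
      mul_le_mul_of_nonneg_right h1 (by positivity)
    have h3 : 0 ≤ k ^ 2 * d ^ 2 * p ^ 8 := by positivity
    nlinarith
  have e3 : (A * (k * (1 - p / 2)) + H) ^ 2 * (2 * d * p ^ 4) ^ 3 ≤
      8 * k ^ 2 * d ^ 2 * p ^ 8 * (A + 1) ^ 2 := by
    have h0 : 0 ≤ 1 - p / 2 := by linarith
    have h1 : A * (k * (1 - p / 2)) + H ≤ (A + 1) * k := by
      have : A * (k * (1 - p / 2)) ≤ A * (k * 1) :=
        mul_le_mul_of_nonneg_left (mul_le_mul_of_nonneg_left (by linarith) hk.le) hA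
      linarith
    have h2 : (A * (k * (1 - p / 2)) + H) ^ 2 ≤ ((A + 1) * k) ^ 2 :=
      pow_le_pow_left₀ (by positivity) h1 2
    have h3 : (A * (k * (1 - p / 2)) + H) ^ 2 * (2 * d * p ^ 4) ^ 3 ≤
        ((A + 1) * k) ^ 2 * (2 * d * p ^ 4) ^ 3 := mul_le_mul_of_nonneg_right h2 (by positivity)
    have h4 : d * p ^ 4 ≤ 1 := mul_le_one₀ hd1 (by positivity) (pow_le_one₀ hp.le hp1)
    have h5 : ((A + 1) * k) ^ 2 * (2 * d * p ^ 4) ^ 3 =
        8 * k ^ 2 * d ^ 2 * p ^ 8 * (A + 1) ^ 2 * (d * p ^ 4) := by ring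
    rw [h5] at h3
    refine h3.trans ?_
    have h6 : 0 ≤ 8 * k ^ 2 * d ^ 2 * p ^ 8 * (A + 1) ^ 2 := by positivity
    calc 8 * k ^ 2 * d ^ 2 * p ^ 8 * (A + 1) ^ 2 * (d * p ^ 4)
        ≤ 8 * k ^ 2 * d ^ 2 * p ^ 8 * (A + 1) ^ 2 * 1 := mul_le_mul_of_nonneg_left h4 h6
      _ = _ := by ring
  have e4 : Y' ≤ C1 * (2 * d * p ^ 4) ^ 2 * (8 * k ^ 2 * d ^ 2 * p ^ 8 * C3) := by
    refine hY'.trans (mul_le_mul_of_nonneg_left ?_ (by positivity))
    rw [hC3]
    linarith
  have e5 : C1 * (2 * d * p ^ 4) ^ 2 * (8 * k ^ 2 * d ^ 2 * p ^ 8 * C3) =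
      (k ^ 2 * d ^ 3 * p ^ 15) * (32 * (C1 * C3) * d * p) := by ring
  have e6 : 32 * (C1 * C3) * d * p ≤ 1 / 2 ^ 15 := by
    have h1 : C1 * C3 ≤ C2 := by rw [hC2]; linarith
    have h2 : 32 * (C1 * C3) * d * p ≤ 32 * C2 * d * 1 := by
      have h3 : 32 * (C1 * C3) * d ≤ 32 * C2 * d :=
        mul_le_mul_of_nonneg_right (by linarith) hdp.le
      exact mul_le_mul h3 hp1 hp.le (by positivity)
    have h4 : 32 * C2 * d * 1 = 1 / 2 ^ 15 := by
      have : 32 * C2 * d * 1 = (2 ^ 20 * C2 * d) / 2 ^ 15 := by ring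
      rw [this, hdC]
    linarith
  calc Y' ≤ (k ^ 2 * d ^ 3 * p ^ 15) * (32 * (C1 * C3) * d * p) := by rw [← e5]; exact e4
    _ ≤ (k ^ 2 * d ^ 3 * p ^ 15) * (1 / 2 ^ 15) := mul_le_mul_of_nonneg_left e6 (by positivity)
    _ = _ := by ring

theorem SB.one_sided {c0 C0 A R : ℝ} (hc0 : 0 < c0) (hA : 0 ≤ A) (hR : 0 < R) :
    ∃ K : ℝ, 0 < K ∧ ∀ (a u f : Pos3 → ℝ) (gu G : Pos3 → Pos3) (N M H k Cb : ℝ),
      SB.Data c0 C0 A R Cb a u f gu G M H → 0 ≤ N → 0 ≤ M → 0 ≤ H →
      ∫ x in Metric.closedBall 0 (2 * R), u x ^ 2 ≤ N ^ 2 → 0 < k → K * (N + M + H) ≤ k →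
      ∀ᵐ x, ‖x‖ ≤ R → u x ≤ k := by
  obtain ⟨CS, hCS, hsob⟩ := sobolev6
  have hCq : 0 < SB.Cq c0 C0 A := by
    unfold SB.Cq
    positivity
  set C1 : ℝ := CS * SB.Cq c0 C0 A with hC1
  have hC1p : 0 < C1 := mul_pos hCS hCq
  set d : ℝ := 1 / (2 ^ 20 * (C1 * ((1 / R ^ 2 + 1) + 1 + (A + 1) ^ 2) + 1)) with hd
  have hdp : 0 < d := by rw [hd]; positivity
  have hd1 : d ≤ 1 := by
    rw [hd, div_le_one (by positivity)]
    have : 0 < C1 * ((1 / R ^ 2 + 1) + 1 + (A + 1) ^ 2) := by positivity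
    nlinarith
  refine ⟨1 / d ^ 2, by positivity, ?_⟩
  intro a u f gu G N M H k Cb D hN hM hH hNu hk hKk
  have hsum : N + M + H ≤ k * d ^ 2 := by
    rw [div_mul_eq_mul_div, one_mul, div_le_iff₀ (by positivity)] at hKk
    exact hKk
  have hd2 : d ^ 2 ≤ 1 := pow_le_one₀ hdp.le hd1
  have hkd : k * d ^ 2 ≤ k := mul_le_of_le_one_right hk.le hd2
  have hMk : M ≤ k := by linarith
  have hHk : H ≤ k := by linarith
  have claim : ∀ n : ℕ, ∫ x in Metric.closedBall (0 : Pos3) (R * (1 + (1 / 2) ^ n)),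
      SB.w u (k * (1 - (1 / 2) ^ n)) x ^ 2 ≤ k ^ 2 * (d * ((1 / 2) ^ n) ^ 5) ^ 3 := by
    intro n
    induction n with
    | zero =>
      have h1 : ∫ x in Metric.closedBall (0 : Pos3) (2 * R), SB.w u 0 x ^ 2 ≤
          ∫ x in Metric.closedBall (0 : Pos3) (2 * R), u x ^ 2 := by
        have hfB : IsFiniteMeasure (volume.restrict (Metric.closedBall (0 : Pos3) (2 * R))) :=
          ⟨by rw [Measure.restrict_apply_univ]
              exact (isCompact_closedBall (0 : Pos3) _).measure_lt_top⟩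
        have hui : Integrable (fun x => u x ^ 2)
            (volume.restrict (Metric.closedBall (0 : Pos3) (2 * R))) := by
          refine (integrable_const (Cb ^ 2)).mono' (D.um.pow_const 2).aestronglyMeasurable
            (Eventually.of_forall fun x => ?_)
          rw [Real.norm_eq_abs, abs_pow]
          exact pow_le_pow_left₀ (abs_nonneg _) (D.ub x) 2
        have hwm : Measurable (SB.w u 0) := (D.um.sub_const 0).max measurable_const
        have hle : ∀ x, SB.w u 0 x ^ 2 ≤ u x ^ 2 := fun x => by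
          rw [← sq_abs (u x)]
          exact pow_le_pow_left₀ (SB.w_nonneg _ _ _) (SB.w_le_abs u le_rfl x) 2
        refine integral_mono_ae (hui.mono' (hwm.pow_const 2).aestronglyMeasurable
          (Eventually.of_forall fun x => ?_)) hui (Eventually.of_forall hle)
        rw [Real.norm_eq_abs, abs_of_nonneg (sq_nonneg _)]
        exact hle x
      have h2 : N ^ 2 ≤ k ^ 2 * d ^ 3 := by
        have h3 : N ≤ k * d ^ 2 := by linarith
        have h4 : N ^ 2 ≤ (k * d ^ 2) ^ 2 := pow_le_pow_left₀ hN h3 2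
        have h5 : (k * d ^ 2) ^ 2 = k ^ 2 * d ^ 3 * d := by ring
        rw [h5] at h4
        exact h4.trans (mul_le_of_le_one_right (by positivity) hd1)
      have h6 : R * (1 + (1 / 2) ^ 0) = 2 * R := by norm_num; ring
      have h7 : k * (1 - (1 / 2) ^ 0) = 0 := by norm_num
      rw [h6, h7, pow_zero, one_pow, mul_one]
      exact h1.trans (hNu.trans h2)
    | succ n ih =>
      set p : ℝ := (1 / 2) ^ n with hp
      have hp0 : 0 < p := by positivity
      have hp1 : p ≤ 1 := pow_le_one₀ (by norm_num) (by norm_num)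
      have hps : (1 / 2 : ℝ) ^ (n + 1) = p / 2 := by rw [pow_succ]; ring
      rw [hps]
      have hκ0 : 0 ≤ k * (1 - p) := mul_nonneg hk.le (by linarith)
      have hκκ : k * (1 - p) < k * (1 - p / 2) := mul_lt_mul_of_pos_left (by linarith) hk
      have hκ'0 : 0 ≤ k * (1 - p / 2) := hκ0.trans hκκ.le
      have hrr : R * (1 + p / 2) < R * (1 + p) := mul_lt_mul_of_pos_left (by linarith) hR
      have hr2 : R * (1 + p) ≤ 2 * R := by nlinarith
      have hv : 0 ≤ 2 * d * p ^ 4 := by positivity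
      have hch := SB.cheb D.um D.ub (r := R * (1 + p)) hκ0 hκκ
      have hvol : volume ({x | k * (1 - p / 2) < u x} ∩ Metric.closedBall (0 : Pos3)
          (R * (1 + p))) ≤ ENNReal.ofReal ((2 * d * p ^ 4) ^ 3) := by
        have hfin : volume ({x | k * (1 - p / 2) < u x} ∩ Metric.closedBall (0 : Pos3)
            (R * (1 + p))) ≠ ⊤ :=
          ((measure_mono inter_subset_right).trans_lt
            (isCompact_closedBall (0 : Pos3) _).measure_lt_top).ne
        rw [← ENNReal.ofReal_toReal hfin]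
        refine ENNReal.ofReal_le_ofReal ?_
        have h1 := hch.trans ih
        have h2 : (k * (1 - p / 2) - k * (1 - p)) ^ 2 = k ^ 2 * (p ^ 2 / 4) := by ring
        rw [h2] at h1
        set m := (volume ({x | k * (1 - p / 2) < u x} ∩ Metric.closedBall (0 : Pos3)
            (R * (1 + p)))).toReal with hm
        have h3 : m * (k ^ 2 * (p ^ 2 / 4)) ≤ (4 * d ^ 3 * p ^ 13) * (k ^ 2 * (p ^ 2 / 4)) := by
          calc m * (k ^ 2 * (p ^ 2 / 4)) ≤ k ^ 2 * (d * p ^ 5) ^ 3 := h1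
            _ = _ := by ring
        have h4 : m ≤ 4 * d ^ 3 * p ^ 13 := le_of_mul_le_mul_right h3 (by positivity)
        have h5 : 4 * d ^ 3 * p ^ 13 = (4 * d ^ 3 * p ^ 12) * p := by ring
        have h6 : (4 * d ^ 3 * p ^ 12) * p ≤ (4 * d ^ 3 * p ^ 12) * 1 :=
          mul_le_mul_of_nonneg_left hp1 (by positivity)
        have h7 : 0 ≤ d ^ 3 * p ^ 12 := by positivity
        calc m ≤ 4 * d ^ 3 * p ^ 12 := by linarith
          _ ≤ 8 * (d ^ 3 * p ^ 12) := by linarith
          _ = _ := by ring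
      have hst := SB.step hc0 hA hCS hsob D hκ'0 hrr hr2 hv hvol
      refine SB.alg (Y := ∫ x in Metric.closedBall (0 : Pos3) (R * (1 + p)),
        SB.w u (k * (1 - p / 2)) x ^ 2) hC1p hA hR hM hH hk hMk hHk hd hp0 hp1 ?_ hst
      exact (SB.mono D.um D.ub hκ0 hκκ.le le_rfl).trans ih
  -- conclusion
  have hall : ∀ n : ℕ, ∫ x in Metric.closedBall (0 : Pos3) R, SB.w u k x ^ 2 ≤
      k ^ 2 * (d * ((1 / 2) ^ n) ^ 5) ^ 3 := by
    intro n
    refine le_trans (SB.mono D.um D.ub ?_ ?_ ?_) (claim n)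
    · have : ((1 : ℝ) / 2) ^ n ≤ 1 := pow_le_one₀ (by norm_num) (by norm_num)
      exact mul_nonneg hk.le (by linarith)
    · have : 0 < ((1 : ℝ) / 2) ^ n := by positivity
      nlinarith
    · have : 0 < ((1 : ℝ) / 2) ^ n := by positivity
      nlinarith
  have hlim : Tendsto (fun n : ℕ => k ^ 2 * (d * ((1 / 2 : ℝ) ^ n) ^ 5) ^ 3) atTop (𝓝 0) := by
    have h1 : Tendsto (fun n : ℕ => (1 / 2 : ℝ) ^ n) atTop (𝓝 0) :=
      tendsto_pow_atTop_nhds_zero_of_lt_one (by norm_num) (by norm_num)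
    have h2 := (((h1.pow 5).const_mul d).pow 3).const_mul (k ^ 2)
    simpa using h2
  have hzero : ∫ x in Metric.closedBall (0 : Pos3) R, SB.w u k x ^ 2 ≤ 0 :=
    ge_of_tendsto' hlim hall
  have hfB : IsFiniteMeasure (volume.restrict (Metric.closedBall (0 : Pos3) R)) :=
    ⟨by rw [Measure.restrict_apply_univ]; exact (isCompact_closedBall (0 : Pos3) _).measure_lt_top⟩
  have hwm : Measurable (SB.w u k) := (D.um.sub_const k).max measurable_const
  have hwi : Integrable (fun x => SB.w u k x ^ 2)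
      (volume.restrict (Metric.closedBall (0 : Pos3) R)) := by
    refine (integrable_const (Cb ^ 2)).mono' (hwm.pow_const 2).aestronglyMeasurable
      (Eventually.of_forall fun x => ?_)
    rw [Real.norm_eq_abs, abs_pow]
    refine pow_le_pow_left₀ (abs_nonneg _) ?_ 2
    rw [abs_of_nonneg (SB.w_nonneg u k x)]
    exact (SB.w_le_abs u hk.le x).trans (D.ub x)
  have hae := (integral_eq_zero_iff_of_nonneg (fun x => sq_nonneg (SB.w u k x)) hwi).1
    (le_antisymm hzero (integral_nonneg fun x => sq_nonneg _))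
  have hae' : ∀ᵐ x ∂(volume.restrict (Metric.closedBall (0 : Pos3) R)), SB.w u k x ^ 2 = 0 := hae
  rw [ae_restrict_iff' Metric.isClosed_closedBall.measurableSet] at hae'
  filter_upwards [hae'] with x hx hxR
  have h1 := hx (by simpa using hxR)
  have h2 : SB.w u k x = 0 := by
    exact pow_eq_zero_iff (two_ne_zero) |>.1 h1
  rw [SB.w] at h2
  have h3 := le_max_left (u x - k) 0
  rw [h2] at h3
  linarith

/-- **local sup bound** -/
theorem sup_bound {c0 C0 A R : ℝ} (hc0 : 0 < c0) (hA : 0 ≤ A) (hR : 0 < R) :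
    ∃ K : ℝ, 0 < K ∧ ∀ (a u f : Pos3 → ℝ) (gu G : Pos3 → Pos3) (N M H k : ℝ),
      AEStronglyMeasurable a volume →
      (∀ᵐ x, ‖x‖ ≤ 2 * R → c0 ≤ a x ∧ a x ≤ C0) →
      WG univ u gu →
      (∃ Cb : ℝ, ∀ᵐ x, |u x| ≤ Cb) →
      MemLp gu 2 (volume.restrict (Metric.closedBall 0 (2 * R))) →
      MemLp G 6 (volume.restrict (Metric.closedBall 0 (2 * R))) →
      AEStronglyMeasurable f volume →
      (∀ᵐ x, ‖x‖ ≤ 2 * R → |f x| ≤ A * |u x| + H) →
      (∀ φ gφ, BT φ gφ → (∀ᵐ x, 2 * R ≤ ‖x‖ → φ x = 0) →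
        ∫ x, a x * inner ℝ (gu x) (gφ x) = (∫ x, inner ℝ (G x) (gφ x)) + ∫ x, f x * φ x) →
      0 ≤ N → 0 ≤ M → 0 ≤ H →
      ∫ x in Metric.closedBall 0 (2 * R), u x ^ 2 ≤ N ^ 2 →
      (eLpNorm G 6 (volume.restrict (Metric.closedBall 0 (2 * R)))).toReal ≤ M →
      0 < k → K * (N + M + H) ≤ k →
      ∀ᵐ x, ‖x‖ ≤ R → |u x| ≤ k := by
  obtain ⟨K, hK, hmain⟩ := SB.one_sided (C0 := C0) hc0 hA hR
  refine ⟨K, hK, ?_⟩
  intro a u f gu G N M H k am ha wg ⟨Cb, hCb⟩ mg mG fm hf heq hN hM hH hNu hMG hk hKk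
  -- measurable bounded representative
  have hum : AEStronglyMeasurable u volume := (WG.aesm wg).1
  set u1 : Pos3 → ℝ := fun x => max (min (hum.mk u x) |Cb|) (-|Cb|) with hu1
  have hu1m : Measurable u1 :=
    ((hum.stronglyMeasurable_mk.measurable).min measurable_const).max measurable_const
  have hu1b : ∀ x, |u1 x| ≤ |Cb| := fun x => by
    rw [abs_le]
    refine ⟨le_max_right _ _, max_le (min_le_right _ _) ?_⟩
    linarith [abs_nonneg Cb]
  have hu1e : ∀ᵐ x, u x = u1 x := by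
    filter_upwards [hum.ae_eq_mk, hCb] with x hx hxb
    have h1 : |u x| ≤ |Cb| := hxb.trans (le_abs_self _)
    rw [abs_le] at h1
    rw [hu1]
    simp only
    rw [← hx, min_eq_left h1.2, max_eq_left h1.1]
  have hwg1 : WG univ u1 gu := WG.congr isOpen_univ wg
    (by rw [Measure.restrict_univ]; exact hu1e) (Eventually.of_forall fun x => rfl)
  have hNu1 : ∫ x in Metric.closedBall 0 (2 * R), u1 x ^ 2 ≤ N ^ 2 := by
    refine le_trans (le_of_eq ?_) hNu
    refine integral_congr_ae (ae_restrict_of_ae ?_)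
    filter_upwards [hu1e] with x hx
    rw [hx]
  have D1 : SB.Data c0 C0 A R |Cb| a u1 f gu G M H := by
    refine ⟨am, ha, hwg1, hu1m, hu1b, mg, mG, fm, ?_, heq, hMG⟩
    filter_upwards [hf, hu1e] with x hx h1 hxR
    rw [← h1]
    exact hx hxR
  have D2 : SB.Data c0 C0 A R |Cb| a (fun x => - u1 x) (fun x => - f x) (fun x => - gu x)
      (fun x => - G x) M H := by
    refine ⟨am, ha, ?_, hu1m.neg, fun x => by rw [abs_neg]; exact hu1b x, mg.neg, mG.neg,
      fm.neg, ?_, ?_, ?_⟩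
    · refine WG.congr isOpen_univ (WG.const_mul hwg1 (-1) isOpen_univ)
        (Eventually.of_forall fun x => by ring) (Eventually.of_forall fun x => by simp)
    · filter_upwards [D1.hf] with x hx hxR
      rw [abs_neg, abs_neg]
      exact hx hxR
    · intro φ gφ hφ hz
      have h1 := D1.eq φ gφ hφ hz
      simp only [inner_neg_left, mul_neg, neg_mul, integral_neg]
      rw [h1]
      ring
    · have : (fun x => - G x) = -G := rfl
      rw [this, eLpNorm_neg]
      exact hMG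
  have r1 := hmain a u1 f gu G N M H k |Cb| D1 hN hM hH hNu1 hk hKk
  have r2 := hmain a (fun x => - u1 x) (fun x => - f x) (fun x => - gu x) (fun x => - G x)
    N M H k |Cb| D2 hN hM hH (by simpa using hNu1) hk hKk
  filter_upwards [r1, r2, hu1e] with x h1 h2 h3 hxR
  rw [h3, abs_le]
  exact ⟨by linarith [h2 hxR], h1 hxR⟩

end Crest.Agent.R335
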