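import Crest.Agent.R335.PMult
import Crest.Agent.R335.CDefs
import Crest.Agent.R335.HHalf

/-!
Row 335 (S0521), Part C (helper801): I1, I2, I3 of `CIfaceI` (energy, H¹ closeness, multiplier) from
`COut`.
-/

set_option autoImplicit false
set_option linter.unusedVariables false

open MeasureTheory Filter Set Crest.MathPhysics.ThreeBody
open scoped ENNReal Topology ContDiff

noncomputable section
namespace Crest.Agent.R335
namespace PJ

theorem rz_two' (x : Pos3) : (rz x) 2 = - x 2 := by rw [rz_apply]; simp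

theorem ae_z : ∀ᵐ x : Pos3, x 2 ≠ 0 := ae_coord_ne_zero (2 : Fin 3)

/-- odd extension of `s1 1_{z>0}` -/
def oddE (s1 : Pos3 → ℝ) (x : Pos3) : ℝ :=
  (if 0 < x 2 then s1 x else 0) - (if 0 < (rz x) 2 then s1 (rz x) else 0)

def oddG (gs1 : Pos3 → Pos3) (x : Pos3) : Pos3 :=
  (if 0 < x 2 then gs1 x else 0) - rz.symm (if 0 < (rz x) 2 then gs1 (rz x) else 0)

/-- `s2` corrected on the plane -/
def planeE (s s2 : Pos3 → ℝ) (x : Pos3) : ℝ := if x 2 = 0 then s x else s2 x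

variable {s1 s2 s : Pos3 → ℝ} {gs1 gs2 gs : Pos3 → Pos3}

theorem oddE_pos {x : Pos3} (hx : 0 < x 2) : oddE s1 x = s1 x := by
  unfold oddE
  rw [if_pos hx, rz_two', if_neg (by linarith), sub_zero]

theorem oddE_neg (he : ∀ x, s1 (rz x) = s1 x) {x : Pos3} (hx : x 2 < 0) : oddE s1 x = - s1 x := by
  unfold oddE
  rw [if_neg (by linarith), rz_two', if_pos (by linarith), he, zero_sub]

theorem oddE_zero {x : Pos3} (hx : x 2 = 0) : oddE s1 x = 0 := by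
  unfold oddE
  rw [rz_two', hx, neg_zero]
  simp

theorem oddE_sq (he : ∀ x, s1 (rz x) = s1 x) {x : Pos3} (hx : x 2 ≠ 0) :
    oddE s1 x ^ 2 = s1 x ^ 2 := by
  rcases lt_or_gt_of_ne hx with h | h
  · rw [oddE_neg he h, neg_sq]
  · rw [oddE_pos h]

theorem scomp (he1 : ∀ x, s1 (rz x) = s1 x) (he2 : ∀ x, s2 (rz x) = s2 x)
    (hes : ∀ x, s (rz x) = s x)
    (hh : H1 (fun x => if 0 < x 2 then s1 x else 0) (fun x => if 0 < x 2 then gs1 x else 0))
    (h2 : H1 s2 gs2) (hsq : ∀ x, s1 x ^ 2 + s2 x ^ 2 = s x ^ 2) :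
    SComp s (oddE s1) (oddG gs1) (planeE s s2) gs2 where
  h1 := by
    have h := H1.sub hh (H1.comp_isometry hh rz 0)
    simp only [add_zero] at h
    exact h
  h2 := by
    refine H1.congr h2 ?_ (ae_eq_refl _)
    filter_upwards [ae_z] with x hx
    unfold planeE
    rw [if_neg hx]
  sq := by
    intro x
    by_cases hx : x 2 = 0
    · rw [oddE_zero hx]
      unfold planeE
      rw [if_pos hx]; ring
    · rw [oddE_sq he1 hx]
      unfold planeE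
      rw [if_neg hx, hsq]
  odd1 := by
    intro x
    unfold oddE
    rw [rz_rz]; ring
  even2 := by
    intro x
    unfold planeE
    rw [rz_two', he2, hes]
    simp

theorem oddG_norm (he1 : ∀ x, s1 (rz x) = s1 x) (h1 : H1 s1 gs1) :
    ∀ᵐ x, ‖oddG gs1 x‖ = ‖gs1 x‖ := by
  have h := H1.comp_isometry h1 rz 0
  simp only [add_zero] at h
  have h' : H1 s1 (fun x => rz.symm (gs1 (rz x))) :=
    H1.congr h (Eventually.of_forall fun x => he1 x) (ae_eq_refl _)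
  filter_upwards [H1.unique h1 h', ae_z] with x hx hz
  unfold oddG
  rcases lt_or_gt_of_ne hz with hz | hz
  · rw [if_neg (by linarith), rz_two', if_pos (by linarith), zero_sub, norm_neg, ← hx]
  · rw [if_pos hz, rz_two', if_neg (by linarith), map_zero, sub_zero]

section
variable {cg C0 D : ℝ} {B : OBD cg C0 D} {P K1 K2 R1 lam κ κS κT : ℝ}
  {F w0 X sig : Pos3 → ℝ} {gF : Pos3 → Pos3}

/-- mass and energy of the components -/
theorem out_comp (h : COut B P K1 K2 R1 lam κ κS κT s s1 s2 F w0 X sig gs gs1 gs2 gF) :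
    SComp s (oddE s1) (oddG gs1) (planeE s s2) gs2 ∧
    |(∫ x, oddE s1 x ^ 2) - 1| ≤ K2 * lam ∧
    (1 / 2) * ((∫ x, ‖oddG gs1 x‖ ^ 2) + ∫ x, ‖gs2 x‖ ^ 2) + ∫ x, V2 D x * s x ^ 2 ≤
      2 * B.eg + B.eu + K2 * lam := by
  have hc := scomp h.even1 h.even2 h.amp.even h.half1 h.h2 h.sq
  refine ⟨hc, ?_, ?_⟩
  · have e1 : ∫ x, planeE s s2 x ^ 2 = ∫ x, s2 x ^ 2 := by
      refine integral_congr_ae ?_
      filter_upwards [ae_z] with x hx
      unfold planeE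
      rw [if_neg hx]
    have e2 : (∫ x, oddE s1 x ^ 2) + (∫ x, planeE s s2 x ^ 2) = 3 := by
      rw [← h.norm3, ← integral_add hc.h1.memf.integrable_sq hc.h2.memf.integrable_sq]
      exact integral_congr_ae (Eventually.of_forall fun x => hc.sq x)
    have hm := h.mass
    rw [abs_le] at hm ⊢
    constructor <;> linarith [hm.1, hm.2]
  · have e1 : ∫ x, ‖oddG gs1 x‖ ^ 2 = ∫ x, ‖gs1 x‖ ^ 2 := by
      refine integral_congr_ae ?_
      filter_upwards [oddG_norm h.even1 h.h1] with x hx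
      rw [hx]
    rw [e1]
    exact h.energy

/-- lower bound of the pairing with `η` -/
theorem out_pairing {η : Pos3 → ℝ} (hη : Test univ η) (hle : ∀ x, |η x| ≤ 1) {c : ℝ} (hc0 : 0 < c)
    (hc : c ≤ ∫ x, B.g x * B.u x * η x) (K2 : ℝ) (hK : 0 ≤ K2) :
    ∃ l' : ℝ, 0 < l' ∧ ∀ lam, 0 < lam → lam ≤ l' →
      ∀ (P K1 R1 κ κS κT : ℝ) (s s1 s2 F w0 X sig : Pos3 → ℝ) (gs gs1 gs2 gF : Pos3 → Pos3),
        COut B P K1 K2 R1 lam κ κS κT s s1 s2 F w0 X sig gs gs1 gs2 gF →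
        c / 2 ≤ ∫ x, oddE s1 x * planeE s s2 x * η x := by
  obtain ⟨Cg, hCg0, hCg⟩ := g_bdd B.ob
  obtain ⟨Cu, hCu0, hCu⟩ := u_bdd B.ob
  have iη : Integrable (fun x => |η x|) := (hη.continuous.integrable_of_hasCompactSupport hη.cpt).abs
  set I0 := ∫ x, |η x| with hI0
  have hI00 : 0 ≤ I0 := integral_nonneg fun x => abs_nonneg _
  set T := K2 * (2 * Cg + Cu + K2) * I0 with hT
  have hT0 : 0 ≤ T := by positivity
  refine ⟨min 1 (c / (2 * (T + 1))), by positivity, ?_⟩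
  intro lam hlam hl P K1 R1 κ κS κT s s1 s2 F w0 X sig gs gs1 gs2 gF h
  have hl1 : lam ≤ 1 := hl.trans (min_le_left _ _)
  have hl2 : T * lam ≤ c / 2 := by
    have h2 : lam ≤ c / (2 * (T + 1)) := hl.trans (min_le_right _ _)
    rw [le_div_iff₀ (by positivity)] at h2
    nlinarith
  have hc' := (out_comp h).1
  have hs1 : (1 : ℝ) ≤ √2 := Real.one_le_sqrt.2 (by norm_num)
  have hs2 : √2 ≤ 2 := by
    rw [Real.sqrt_le_left (by norm_num)]; norm_num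
  have hs0 : 0 ≤ √2 := Real.sqrt_nonneg _
  have i1 : Integrable (fun x => oddE s1 x * planeE s s2 x * η x) :=
    (hc'.h1.memf.integrable_mul hc'.h2.memf).mul_bdd (c := 1) hη.continuous.aestronglyMeasurable
      (Eventually.of_forall hle)
  have i2 : Integrable (fun x => B.g x * B.u x * η x) :=
    (B.ob.hg.memf.integrable_mul B.ob.hu.memf).mul_bdd (c := 1)
      hη.continuous.aestronglyMeasurable (Eventually.of_forall hle)
  have hd : |(∫ x, oddE s1 x * planeE s s2 x * η x) - √2 * ∫ x, B.g x * B.u x * η x| ≤ T * lam := by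
    rw [← integral_const_mul, ← integral_sub i1 (i2.const_mul _)]
    refine (abs_integral_le_integral_abs).trans ?_
    have e : T * lam = ∫ x, (K2 * (2 * Cg + Cu + K2) * lam) * |η x| := by
      rw [integral_const_mul, hT, hI0]; ring
    rw [e]
    refine integral_mono_of_nonneg (Eventually.of_forall fun x => abs_nonneg _)
      (iη.const_mul _) ?_
    filter_upwards [h.cl1, h.cl2, ae_z] with x h1 h2 hz
    have o1 : |oddE s1 x - B.u x| ≤ K2 * lam := by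
      rcases lt_or_gt_of_ne hz with hz | hz
      · have hu : 0 < B.u (rz x) := B.ob.u_pos _ (by rw [rz_two']; linarith)
        rw [B.ob.u_odd] at hu
        rw [oddE_neg h.even1 hz]
        rw [abs_of_neg (by linarith : B.u x < 0)] at h1
        rw [abs_le] at h1 ⊢
        constructor <;> linarith [h1.1, h1.2]
      · have hu : 0 < B.u x := B.ob.u_pos _ hz
        rw [oddE_pos hz]
        rwa [abs_of_pos hu] at h1
    have o2 : planeE s s2 x = s2 x := by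
      unfold planeE; rw [if_neg hz]
    show |oddE s1 x * planeE s s2 x * η x - √2 * (B.g x * B.u x * η x)| ≤
      K2 * (2 * Cg + Cu + K2) * lam * |η x|
    have e2 : oddE s1 x * planeE s s2 x * η x - √2 * (B.g x * B.u x * η x) =
        ((oddE s1 x - B.u x) * (√2 * B.g x) + (oddE s1 x - B.u x) * (s2 x - √2 * B.g x) +
          B.u x * (s2 x - √2 * B.g x)) * η x := by
      rw [o2]; ring
    rw [e2, abs_mul]
    refine mul_le_mul_of_nonneg_right ?_ (abs_nonneg _)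
    have hKl : 0 ≤ K2 * lam := by positivity
    have b1 : |(oddE s1 x - B.u x) * (√2 * B.g x)| ≤ (K2 * lam) * (2 * Cg) := by
      rw [abs_mul]
      refine mul_le_mul o1 ?_ (abs_nonneg _) hKl
      rw [abs_mul, abs_of_nonneg hs0]
      exact mul_le_mul hs2 (hCg x) (abs_nonneg _) (by norm_num)
    have b2 : |(oddE s1 x - B.u x) * (s2 x - √2 * B.g x)| ≤ (K2 * lam) * K2 := by
      rw [abs_mul]
      refine mul_le_mul o1 (h2.trans ?_) (abs_nonneg _) hKl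
      nlinarith
    have b3 : |B.u x * (s2 x - √2 * B.g x)| ≤ Cu * (K2 * lam) := by
      rw [abs_mul]
      exact mul_le_mul (hCu x) h2 (abs_nonneg _) hCu0
    refine (abs_add_le _ _).trans ?_
    refine (add_le_add (abs_add_le _ _) le_rfl).trans ?_
    linarith
  rw [abs_le] at hd
  nlinarith [hd.1]

end

end PJ

open PJ

/-- I1 -/
theorem pair_energy {cg C0 D : ℝ} (hcg : 0 < cg) (hC : 1 ≤ C0) (hD : 4 ≤ D) (B : OBD cg C0 D)
    (P K1 K2 R1 : ℝ) :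
    ∃ K4 l' : ℝ, 0 < K4 ∧ 0 < l' ∧ ∀ lam, 0 < lam → lam ≤ l' →
      ∀ (κ κS κT : ℝ) (s s1 s2 F w0 X sig : Pos3 → ℝ) (gs gs1 gs2 gF : Pos3 → Pos3),
        COut B P K1 K2 R1 lam κ κS κT s s1 s2 F w0 X sig gs gs1 gs2 gF →
        ∀ (U w : Pos3 → ℝ) (gU gw : Pos3 → Pos3) (om : ℝ), Pair s U gU w gw om →
          Q2 D U gU + Q2 D w gw ≤ 2 * B.eg + B.eu + K4 * lam := by
  obtain ⟨η, M, c, hη, hodd, hle, hM, hsupp, hc0, hc⟩ := exists_eta B.ob
  by_cases hK : 0 ≤ K2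
  swap
  · refine ⟨1, 1, one_pos, one_pos, ?_⟩
    intro lam hlam hl κ κS κT s s1 s2 F w0 X sig gs gs1 gs2 gF h
    exfalso
    have := (abs_nonneg _).trans h.mass
    nlinarith
  obtain ⟨l1, hl1, h1⟩ := out_pairing (B := B) hη hle hc0 hc K2 hK
  have hc3 : min (c / 2) 1 ≤ 3 := (min_le_right _ _).trans (by norm_num)
  obtain ⟨K3, l2, hK3, hl2, h2⟩ := PJ.pair_energy (D := D) B.eg B.eu hK hη hodd hM hle
    (c0 := min (c / 2) 1) (by positivity) hc3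
  refine ⟨K3 + 1, min l1 l2, by positivity, by positivity, ?_⟩
  intro lam hlam hl κ κS κT s s1 s2 F w0 X sig gs gs1 gs2 gF h U w gU gw om hp
  obtain ⟨hc', hm, hE⟩ := out_comp h
  have hI := h1 lam hlam (hl.trans (min_le_left _ _)) _ _ _ _ _ _ _ _ _ _ _ _ _ _ _ _ _ h
  have := h2 lam s _ _ _ _ U w gU gw om hlam.le (hl.trans (min_le_right _ _)) hc' h.norm3 hm hE
    ((min_le_left _ _).trans hI) hp
  nlinarith

/-- I2, separately for the four terms -/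
theorem pair_H1' {cg C0 D : ℝ} (hcg : 0 < cg) (hC : 1 ≤ C0) (hD : 4 ≤ D) (B : OBD cg C0 D)
    (P K1 K2 R1 : ℝ) :
    ∃ K4 l' : ℝ, 0 < K4 ∧ 0 < l' ∧ ∀ lam, 0 < lam → lam ≤ l' →
      ∀ (κ κS κT : ℝ) (s s1 s2 F w0 X sig : Pos3 → ℝ) (gs gs1 gs2 gF : Pos3 → Pos3),
        COut B P K1 K2 R1 lam κ κS κT s s1 s2 F w0 X sig gs gs1 gs2 gF →
        ∀ (U w : Pos3 → ℝ) (gU gw : Pos3 → Pos3) (om : ℝ), Pair s U gU w gw om →
          (∫ x, (U x - √2 * B.g x) ^ 2) ≤ K4 * lam ∧ (∫ x, ‖gU x - √2 • B.dg x‖ ^ 2) ≤ K4 * lam ∧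
            (∫ x, (w x - B.u x) ^ 2) ≤ K4 * lam ∧ (∫ x, ‖gw x - B.du x‖ ^ 2) ≤ K4 * lam := by
  obtain ⟨K3, l1, hK3, hl1, h1⟩ := pair_energy hcg hC hD B P K1 K2 R1
  obtain ⟨C, hC0, h2⟩ := close_of_energy B.ob
  refine ⟨C * K3 + 1, l1, by positivity, hl1, ?_⟩
  intro lam hlam hl κ κS κT s s1 s2 F w0 X sig gs gs1 gs2 gF h U w gU gw om hp
  have hE := h1 lam hlam hl _ _ _ _ _ _ _ _ _ _ _ _ _ _ h U w gU gw om hp
  have h3 := h2 (K3 * lam) s U w gU gw (by positivity) hp.adm hp.U0 hp.w0 hE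
  have h4 : C * (K3 * lam) ≤ (C * K3 + 1) * lam := by nlinarith
  exact ⟨h3.1.trans h4, h3.2.1.trans h4, h3.2.2.1.trans h4, h3.2.2.2.trans h4⟩

/-- I2 -/
theorem pair_H1 {cg C0 D : ℝ} (hcg : 0 < cg) (hC : 1 ≤ C0) (hD : 4 ≤ D) (B : OBD cg C0 D)
    (P K1 K2 R1 : ℝ) :
    ∃ K4 l' : ℝ, 0 < K4 ∧ 0 < l' ∧ ∀ lam, 0 < lam → lam ≤ l' →
      ∀ (κ κS κT : ℝ) (s s1 s2 F w0 X sig : Pos3 → ℝ) (gs gs1 gs2 gF : Pos3 → Pos3),
        COut B P K1 K2 R1 lam κ κS κT s s1 s2 F w0 X sig gs gs1 gs2 gF →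
        ∀ (U w : Pos3 → ℝ) (gU gw : Pos3 → Pos3) (om : ℝ), Pair s U gU w gw om →
          (∫ x, (U x - √2 * B.g x) ^ 2) + (∫ x, ‖gU x - √2 • B.dg x‖ ^ 2) +
            (∫ x, (w x - B.u x) ^ 2) + (∫ x, ‖gw x - B.du x‖ ^ 2) ≤ K4 * lam := by
  obtain ⟨K4, l1, hK4, hl1, h1⟩ := pair_H1' hcg hC hD B P K1 K2 R1
  refine ⟨4 * K4, l1, by positivity, hl1, ?_⟩
  intro lam hlam hl κ κS κT s s1 s2 F w0 X sig gs gs1 gs2 gF h U w gU gw om hp
  have h2 := h1 lam hlam hl _ _ _ _ _ _ _ _ _ _ _ _ _ _ h U w gU gw om hp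
  linarith [h2.1, h2.2.1, h2.2.2.1, h2.2.2.2]

/-- I3 -/
theorem pair_mult {cg C0 D : ℝ} (hcg : 0 < cg) (hC : 1 ≤ C0) (hD : 4 ≤ D) (B : OBD cg C0 D)
    (P K1 K2 R1 : ℝ) :
    ∃ K4 l' : ℝ, 0 < K4 ∧ 0 < l' ∧ ∀ lam, 0 < lam → lam ≤ l' →
      ∀ (κ κS κT : ℝ) (s s1 s2 F w0 X sig : Pos3 → ℝ) (gs gs1 gs2 gF : Pos3 → Pos3),
        COut B P K1 K2 R1 lam κ κS κT s s1 s2 F w0 X sig gs gs1 gs2 gF →
        ∀ (U w : Pos3 → ℝ) (gU gw : Pos3 → Pos3) (om : ℝ), Pair s U gU w gw om →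
          |om - B.om| ≤ K4 * √lam := by
  obtain ⟨K4, l1, hK4, hl1, h1⟩ := pair_H1' hcg hC hD B P K1 K2 R1
  obtain ⟨C, d0, hC0, hd0, h2⟩ := om_close B.ob
  refine ⟨C * √K4, min l1 (d0 ^ 2 / K4), by positivity, by positivity, ?_⟩
  intro lam hlam hl κ κS κT s s1 s2 F w0 X sig gs gs1 gs2 gF h U w gU gw om hp
  have h3 := h1 lam hlam (hl.trans (min_le_left _ _)) _ _ _ _ _ _ _ _ _ _ _ _ _ _ h U w gU gw om hp
  have hl2 : lam * K4 ≤ d0 ^ 2 := by
    have := hl.trans (min_le_right _ _)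
    rwa [le_div_iff₀ hK4] at this
  have hd : √K4 * √lam ≤ d0 := by
    rw [← Real.sqrt_mul hK4.le]
    exact Real.sqrt_le_iff.2 ⟨hd0.le, by linarith⟩
  have hsq : (√K4 * √lam) ^ 2 = K4 * lam := by
    rw [mul_pow, Real.sq_sqrt hK4.le, Real.sq_sqrt hlam.le]
  have h4 := h2 (√K4 * √lam) s U w gU gw om (by positivity) hd hp (by rw [hsq]; exact h3.1)
    (by rw [hsq]; exact h3.2.1) (by rw [hsq]; exact h3.2.2.1) (by rw [hsq]; exact h3.2.2.2)
  calc |om - B.om| ≤ C * (√K4 * √lam) := h4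
    _ = C * √K4 * √lam := by ring

end Crest.Agent.R335
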