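import Crest.Agent.R335.HGlob2
import Crest.Agent.R335.KDefs

/-!
# Row 335 (S0521): Kohn-Sham side, module KTest

Bounded compactly supported `H¹` test functions: products, quotients, the weak equation, and the
pointwise relations between the gradients of `s, U, w`.
-/

set_option autoImplicit false
set_option linter.unusedVariables false
set_option linter.unusedSectionVars false

open MeasureTheory Filter Set Crest.MathPhysics.ThreeBody
open scoped ENNReal Topology ContDiff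

noncomputable section
namespace Crest.Agent.R335

section general
variable {ι : Type*} [Fintype ι] [DecidableEq ι]
local notation "E" => EuclideanSpace ℝ ι

/-- modification of an a.e. bounded function to an everywhere bounded one -/
def kclip (C : ℝ) (f : E → ℝ) (x : E) : ℝ := if |f x| ≤ C then f x else 0

theorem kclip_le {C : ℝ} (hC : 0 ≤ C) (f : E → ℝ) (x : E) : |kclip C f x| ≤ C := by
  unfold kclip
  split_ifs with h
  · exact h
  · simpa using hC

theorem kclip_ae {C : ℝ} {f : E → ℝ} (h : ∀ᵐ x, |f x| ≤ C) : kclip C f =ᵐ[volume] f := by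
  filter_upwards [h] with x hx
  simp [kclip, hx]

theorem kt_mul_ae {f k : E → ℝ} {g l : E → E} (h : H1 f g) (h' : H1 k l)
    {C D : ℝ} (hf : ∀ᵐ x, |f x| ≤ C) (hk : ∀ᵐ x, |k x| ≤ D) :
    H1 (fun x => k x * f x) (fun x => k x • g x + f x • l x) := by
  set B : ℝ := max (max C D) 0 with hB
  have hf' : ∀ᵐ x, |f x| ≤ B := by
    filter_upwards [hf] with x hx
    exact hx.trans ((le_max_left _ _).trans (le_max_left _ _))
  have hk' : ∀ᵐ x, |k x| ≤ B := by
    filter_upwards [hk] with x hx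
    exact hx.trans ((le_max_right _ _).trans (le_max_left _ _))
  have hB0 : 0 ≤ B := le_max_right _ _
  have e1 := kclip_ae hf'
  have e2 := kclip_ae hk'
  have h1 : H1 (kclip B f) g := H1.congr h e1.symm (ae_eq_refl _)
  have h2 : H1 (kclip B k) l := H1.congr h' e2.symm (ae_eq_refl _)
  have h3 := H1.mul h1 h2 (kclip_le hB0 f) (kclip_le hB0 k)
  refine H1.congr h3 ?_ ?_
  · filter_upwards [e1, e2] with x hx1 hx2
    rw [hx1, hx2]
  · filter_upwards [e1, e2] with x hx1 hx2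
    rw [hx1, hx2]

/-! ### the reciprocal -/

theorem hasDerivAt_max_sq (y : ℝ) : HasDerivAt (fun y : ℝ => (max y 0) ^ 2) (2 * max y 0) y := by
  rcases lt_trichotomy y 0 with h | h | h
  · have e : (fun y : ℝ => (max y 0) ^ 2) =ᶠ[𝓝 y] fun _ => 0 := by
      filter_upwards [Iio_mem_nhds h] with z hz
      rw [max_eq_right (le_of_lt hz)]; norm_num
    rw [max_eq_right h.le, mul_zero]
    exact (hasDerivAt_const y (0 : ℝ)).congr_of_eventuallyEq e
  · subst h
    rw [max_self, mul_zero, hasDerivAt_iff_isLittleO]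
    have h1 : (fun x' : ℝ => (max x' 0) ^ 2 - (max (0 : ℝ) 0) ^ 2 - (x' - 0) • (0 : ℝ)) =O[𝓝 0]
        fun x' : ℝ => x' ^ 2 := by
      refine Asymptotics.IsBigO.of_bound 1 (Eventually.of_forall fun x => ?_)
      simp only [max_self, ne_eq, OfNat.ofNat_ne_zero, not_false_eq_true, zero_pow, sub_zero,
        smul_eq_mul, mul_zero, Real.norm_eq_abs, one_mul]
      rw [abs_of_nonneg (sq_nonneg _), abs_of_nonneg (sq_nonneg _)]
      rcases le_total x 0 with hx | hx
      · rw [max_eq_right hx]; simpa using sq_nonneg x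
      · rw [max_eq_left hx]
    have h2 : (fun x' : ℝ => x' ^ 2) =o[𝓝 0] fun x' : ℝ => x' - 0 := by
      simpa using Asymptotics.isLittleO_pow_id (𝕜 := ℝ) (n := 2) (by norm_num)
    exact h1.trans_isLittleO h2
  · have e : (fun y : ℝ => (max y 0) ^ 2) =ᶠ[𝓝 y] fun y => y ^ 2 := by
      filter_upwards [Ioi_mem_nhds h] with z hz
      rw [max_eq_left (le_of_lt hz)]
    rw [max_eq_left h.le]
    refine HasDerivAt.congr_of_eventuallyEq ?_ e
    simpa using hasDerivAt_pow 2 y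

/-- denominators -/
def kD (c t : ℝ) : ℝ := t ^ 2 + (max (c ^ 2 - t ^ 2) 0) ^ 2 / (2 * c ^ 2)

/-- a `C¹` function equal to `1/t` for `|t| ≥ c` -/
def kF (c t : ℝ) : ℝ := t / kD c t

def kF' (c t : ℝ) : ℝ :=
  (kD c t - t * (2 * t - 2 * t * max (c ^ 2 - t ^ 2) 0 / c ^ 2)) / kD c t ^ 2

theorem kD_eq {c t : ℝ} (h : c ^ 2 ≤ t ^ 2) : kD c t = t ^ 2 := by
  unfold kD
  rw [max_eq_right (by linarith)]; simp

theorem kD_ge {c : ℝ} (hc : 0 < c) (t : ℝ) : c ^ 2 / 2 ≤ kD c t := by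
  rcases le_total (c ^ 2) (t ^ 2) with h | h
  · rw [kD_eq h]; nlinarith
  · unfold kD
    rw [max_eq_left (by linarith)]
    have e : t ^ 2 + (c ^ 2 - t ^ 2) ^ 2 / (2 * c ^ 2) = (c ^ 4 + t ^ 4) / (2 * c ^ 2) := by
      field_simp; ring
    rw [e, div_le_div_iff₀ (by norm_num) (by positivity)]
    nlinarith [sq_nonneg (t ^ 2)]

theorem kD_pos {c : ℝ} (hc : 0 < c) (t : ℝ) : 0 < kD c t :=
  lt_of_lt_of_le (by positivity) (kD_ge hc t)

theorem kF_eq {c t : ℝ} (hc : 0 < c) (h : c ≤ |t|) : kF c t = 1 / t ∧ kF' c t = - (1 / t ^ 2) := by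
  have h2 : c ^ 2 ≤ t ^ 2 := by
    rw [← sq_abs t]; exact pow_le_pow_left₀ hc.le h 2
  have ht : t ≠ 0 := by
    intro h0; rw [h0, abs_zero] at h; linarith
  constructor
  · unfold kF; rw [kD_eq h2]; field_simp
  · unfold kF'; rw [kD_eq h2, max_eq_right (by linarith)]; field_simp; ring

theorem abs_kF_le {c : ℝ} (hc : 0 < c) (t : ℝ) : |kF c t| ≤ 2 / c ^ 2 * |t| := by
  unfold kF
  rw [abs_div, abs_of_pos (kD_pos hc t), div_mul_eq_mul_div,
    div_le_div_iff₀ (kD_pos hc t) (by positivity)]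
  have := kD_ge hc t
  nlinarith [abs_nonneg t]

theorem hasDerivAt_kD {c : ℝ} (hc : 0 < c) (t : ℝ) :
    HasDerivAt (kD c) (2 * t - 2 * t * max (c ^ 2 - t ^ 2) 0 / c ^ 2) t := by
  have h1 : HasDerivAt (fun t : ℝ => c ^ 2 - t ^ 2) (-(2 * t)) t := by
    have := (hasDerivAt_pow 2 t).const_sub (c ^ 2)
    simpa using this
  have h2 := (hasDerivAt_max_sq (c ^ 2 - t ^ 2)).comp t h1
  have h3 := (hasDerivAt_pow 2 t).add (h2.div_const (2 * c ^ 2))
  have e : (2 * t - 2 * t * max (c ^ 2 - t ^ 2) 0 / c ^ 2) =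
      (((2 : ℕ) : ℝ) * t ^ (2 - 1) + 2 * max (c ^ 2 - t ^ 2) 0 * -(2 * t) / (2 * c ^ 2)) := by
    norm_num; field_simp; ring
  rw [e]
  exact h3

theorem hasDerivAt_kF {c : ℝ} (hc : 0 < c) (t : ℝ) : HasDerivAt (kF c) (kF' c t) t := by
  have h := (hasDerivAt_id t).div (hasDerivAt_kD hc t) (kD_pos hc t).ne'
  have e : kF' c t = (1 * kD c t - id t * (2 * t - 2 * t * max (c ^ 2 - t ^ 2) 0 / c ^ 2)) /
      kD c t ^ 2 := by
    unfold kF'; simp
  rw [e]
  exact h

theorem continuous_kD (c : ℝ) : Continuous (kD c) := by unfold kD; fun_prop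

theorem continuous_kF' {c : ℝ} (hc : 0 < c) : Continuous (kF' c) := by
  unfold kF'
  have := continuous_kD c
  refine Continuous.div ?_ (this.pow 2) (fun t => (pow_pos (kD_pos hc t) 2).ne')
  fun_prop

theorem continuous_kF {c : ℝ} (hc : 0 < c) : Continuous (kF c) :=
  continuous_iff_continuousAt.2 fun t => (hasDerivAt_kF hc t).continuousAt

theorem kt_recip {s : E → ℝ} {gs : E → E} (hs : H1 s gs) {B : ℝ} (hb : ∀ᵐ x, |s x| ≤ B)
    {c : ℝ} (hc : 0 < c) :
    H1 (fun x => kF c (s x)) (fun x => kF' c (s x) • gs x) := by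
  obtain ⟨C, hC⟩ := (isCompact_Icc (a := -B) (b := B)).exists_bound_of_continuousOn
    (continuous_kF' hc).continuousOn
  have hwg : WG univ (fun x => kF c (s x)) (fun x => kF' c (s x) • gs x) := by
    refine WG.comp_on isOpen_univ hs.wg (F := kF c) (F' := kF' c) (a := ((-B : ℝ) : EReal))
      (b := ((B : ℝ) : EReal)) ?_ (fun t _ _ => hasDerivAt_kF hc t)
      (continuous_kF' hc).continuousOn (C := C) ?_
    · rw [Measure.restrict_univ]
      filter_upwards [hb] with x hx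
      rw [abs_le] at hx
      exact ⟨EReal.coe_le_coe_iff.2 hx.1, EReal.coe_le_coe_iff.2 hx.2⟩
    · intro t h1 h2
      exact hC t ⟨EReal.coe_le_coe_iff.1 h1, EReal.coe_le_coe_iff.1 h2⟩
  refine ⟨?_, ?_, hwg⟩
  · refine hs.memf.of_le_mul (c := 2 / c ^ 2)
      ((continuous_kF hc).comp_aestronglyMeasurable hs.memf.1) (Eventually.of_forall fun x => ?_)
    simpa [Real.norm_eq_abs] using abs_kF_le hc (s x)
  · refine hs.memg.of_le_mul (c := C)
      (((continuous_kF' hc).comp_aestronglyMeasurable hs.memf.1).smul hs.memg.1) ?_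
    filter_upwards [hb] with x hx
    rw [norm_smul]
    exact mul_le_mul_of_nonneg_right (hC _ (abs_le.1 hx)) (norm_nonneg _)

/-- convergence of inner products -/
theorem kt_tendsto_inner {α F : Type*} [MeasurableSpace α] {μ : Measure α} [NormedAddCommGroup F]
    [InnerProductSpace ℝ F] {G H : α → F} {Hn : ℕ → α → F} (hG : MemLp G 2 μ) (hH : MemLp H 2 μ)
    (hHn : ∀ n, MemLp (Hn n) 2 μ)
    (ht : Tendsto (fun n => eLpNorm (fun x => Hn n x - H x) 2 μ) atTop (𝓝 0)) :
    Tendsto (fun n => ∫ x, inner ℝ (G x) (Hn n x) ∂μ) atTop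
      (𝓝 (∫ x, inner ℝ (G x) (H x) ∂μ)) := by
  have h1 : Tendsto (fun n => (hHn n).toLp (Hn n)) atTop (𝓝 (hH.toLp H)) := by
    rw [tendsto_iff_edist_tendsto_0]
    refine ht.congr fun n => ?_
    rw [Lp.edist_toLp_toLp]
    rfl
  have h2 := (tendsto_const_nhds (x := hG.toLp G)).inner h1 (𝕜 := ℝ)
  rw [inner_toLp hG hH] at h2
  refine h2.congr fun n => ?_
  rw [inner_toLp hG (hHn n)]

end general

theorem BT.bound {p : Pos3 → ℝ} {gp : Pos3 → Pos3} (hp : BT p gp) :
    ∃ C : ℝ, 0 ≤ C ∧ ∀ᵐ x, |p x| ≤ C := by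
  obtain ⟨C, hC⟩ := hp.bdd
  refine ⟨max C 0, le_max_right _ _, ?_⟩
  filter_upwards [hC] with x hx
  exact hx.trans (le_max_left _ _)

theorem BT.mul {p q : Pos3 → ℝ} {gp gq : Pos3 → Pos3} (hp : BT p gp) (hq : H1 q gq)
    (hqb : ∃ C : ℝ, ∀ᵐ x, |q x| ≤ C) :
    BT (fun x => p x * q x) (fun x => p x • gq x + q x • gp x) := by
  obtain ⟨D, hD⟩ := hqb
  obtain ⟨C, hC0, hC⟩ := hp.bound
  obtain ⟨R, hR⟩ := hp.cpt
  refine ⟨kt_mul_ae hq hp.h1 hD hC, ⟨C * D, ?_⟩, ⟨R, ?_⟩⟩
  · filter_upwards [hC, hD] with x h1 h2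
    rw [abs_mul]
    exact mul_le_mul h1 h2 (abs_nonneg _) hC0
  · filter_upwards [hR] with x hx h
    rw [hx h, zero_mul]

theorem BT.congr {p p' : Pos3 → ℝ} {gp gp' : Pos3 → Pos3} (hp : BT p gp) (h : p =ᵐ[volume] p')
    (h' : gp =ᵐ[volume] gp') : BT p' gp' := by
  obtain ⟨C, hC⟩ := hp.bdd
  obtain ⟨R, hR⟩ := hp.cpt
  refine ⟨H1.congr hp.h1 h h', ⟨C, ?_⟩, ⟨R, ?_⟩⟩
  · filter_upwards [hC, h] with x h1 h2
    rwa [← h2]
  · filter_upwards [hR, h] with x h1 h2 h3
    rw [← h2, h1 h3]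

theorem BT.div {p s : Pos3 → ℝ} {gp gs : Pos3 → Pos3} (hp : BT p gp) (hs : H1 s gs)
    (hsb : ∃ C : ℝ, ∀ᵐ x, |s x| ≤ C) {c : ℝ} (hc : 0 < c)
    (hlow : ∀ᵐ x, p x ≠ 0 → c ≤ |s x|) :
    BT (fun x => p x / s x) (fun x => (1 / s x) • gp x - (p x / s x ^ 2) • gs x) := by
  obtain ⟨B, hB⟩ := hsb
  have h1 := kt_recip hs hB hc
  have h2 := hp.mul h1 ⟨2 / c ^ 2 * B, by
    filter_upwards [hB] with x hx
    exact (abs_kF_le hc (s x)).trans (mul_le_mul_of_nonneg_left hx (by positivity))⟩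
  have h0 := WG.zero_of_level isOpen_univ hp.h1.wg 0
  rw [Measure.restrict_univ] at h0
  refine h2.congr ?_ ?_
  · filter_upwards [hlow] with x hx
    by_cases hpx : p x = 0
    · simp [hpx]
    · rw [(kF_eq hc (hx hpx)).1]; ring
  · filter_upwards [hlow, h0] with x hx h0x
    by_cases hpx : p x = 0
    · simp [hpx, h0x hpx]
    · rw [(kF_eq hc (hx hpx)).1, (kF_eq hc (hx hpx)).2, smul_smul, sub_eq_add_neg, ← neg_smul,
        add_comm]
      congr 2
      ring

/-- pointwise relations between the gradients of `s, U, w` -/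
theorem pair_grad {s U w : Pos3 → ℝ} {gs gU gw : Pos3 → Pos3} (hs : Amp s gs)
    (hp : PairAdm s U gU w gw) : ∀ᵐ x, s x • gs x = U x • gU x + w x • gw x ∧
      ‖gU x‖ ^ 2 + ‖gw x‖ ^ 2 = ‖gs x‖ ^ 2 + ‖J U gU w gw x‖ ^ 2 / s x ^ 2 := by
  have w1 := g2_WG_sq hs.h1
  have w2 := WG.add (g2_WG_sq hp.hU) (g2_WG_sq hp.hw) isOpen_univ
  have e : (fun x => U x * U x + w x * w x) = fun x => s x * s x := by
    ext x
    have := hp.sq x
    nlinarith
  rw [e] at w2
  have h3 := WG.unique isOpen_univ w1 w2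
  rw [Measure.restrict_univ] at h3
  filter_upwards [h3] with x hx
  have h5 : s x • gs x = U x • gU x + w x • gw x := by
    have h6 : (2 : ℝ) • (s x • gs x) = (2 : ℝ) • (U x • gU x + w x • gw x) := by
      rw [two_smul, two_smul, hx]
      abel
    exact smul_right_injective _ (two_ne_zero' ℝ) h6
  refine ⟨h5, ?_⟩
  have hs0 := hs.pos x
  have h7 : ‖s x • gs x‖ ^ 2 = ‖U x • gU x + w x • gw x‖ ^ 2 := by rw [h5]
  have h8 : ‖U x • gU x + w x • gw x‖ ^ 2 + ‖J U gU w gw x‖ ^ 2 =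
      (U x ^ 2 + w x ^ 2) * (‖gU x‖ ^ 2 + ‖gw x‖ ^ 2) := by
    unfold J
    rw [norm_add_sq_real, norm_sub_sq_real, norm_smul, norm_smul, norm_smul, norm_smul,
      real_inner_smul_left, real_inner_smul_right, real_inner_smul_left, real_inner_smul_right,
      mul_pow, mul_pow, mul_pow, mul_pow, Real.norm_eq_abs, Real.norm_eq_abs, sq_abs, sq_abs]
    ring
  rw [norm_smul, mul_pow, Real.norm_eq_abs, sq_abs] at h7
  rw [hp.sq x] at h8
  have h9 : s x ^ 2 * (‖gU x‖ ^ 2 + ‖gw x‖ ^ 2) = s x ^ 2 * ‖gs x‖ ^ 2 + ‖J U gU w gw x‖ ^ 2 := by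
    rw [← h8, ← h7]
  field_simp
  linarith

/-- the weak equation tested with bounded compactly supported functions -/
theorem WeakEq.bt {v : Pos3 → ℝ} (hv : LocallyIntegrable v volume) {e : ℝ} {f : Pos3 → ℝ}
    {g : Pos3 → Pos3} (hf : H1 f g) {C : ℝ} (hb : ∀ᵐ x, |f x| ≤ C) (h : WeakEq v e f g)
    {φ : Pos3 → ℝ} {gφ : Pos3 → Pos3} (hφ : BT φ gφ) :
    (1 / 2) * (∫ x, inner ℝ (g x) (gφ x)) + ∫ x, (v x - e) * f x * φ x = 0 := by
  obtain ⟨D, hD0, hD⟩ := hφ.bound
  obtain ⟨R, hR⟩ := hφ.cpt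
  -- modification
  set φ' : Pos3 → ℝ := fun x => if ‖x‖ ≤ R then kclip D φ x else 0 with hφ'
  have e1 : φ' =ᵐ[volume] φ := by
    filter_upwards [kclip_ae hD, hR] with x h1 h2
    simp only [hφ']
    split_ifs with hx
    · exact h1
    · exact (h2 (not_le.1 hx).le).symm
  have hb' : ∀ x, |φ' x| ≤ D := by
    intro x
    simp only [hφ']
    split_ifs with hx
    · exact kclip_le hD0 φ x
    · simpa using hD0
  have hH : H1 φ' gφ := H1.congr hφ.h1 e1.symm (ae_eq_refl _)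
  obtain ⟨φn, K', hK', -, hT, hS, h2, h3, hbd⟩ := H1.approx_of_supp isOpen_univ hH
    (isCompact_closedBall (0 : Pos3) R) (subset_univ _) (by
      intro x hx
      simp only [Metric.mem_closedBall, dist_zero_right, not_le] at hx
      simp [hφ', not_le.2 hx])
  have hbn : ∀ n x, |φn n x| ≤ D := fun n x => by
    have := hbd (-D) D (fun x => abs_le.1 (hb' x)) (by linarith) hD0 n x
    exact abs_le.2 this
  have hHn : ∀ n, H1 (φn n) (gr (φn n)) := fun n => H1.of_test (hT n)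
  have t1 := kt_tendsto_inner hf.memg hH.memg (fun n => (hHn n).memg) h3
  -- subsequence a.e.
  have tm : TendstoInMeasure volume φn atTop φ' := by
    refine tendstoInMeasure_of_tendsto_eLpNorm (p := 2) (by norm_num)
      (fun n => (hHn n).memf.1) hH.memf.1 ?_
    exact h2
  obtain ⟨ns, hns, hae⟩ := tm.exists_seq_tendsto_ae
  have hint : IntegrableOn (fun x => (v x - e) * f x) K' volume := by
    have i1 : IntegrableOn (fun x => v x - e) K' volume :=
      (hv.integrableOn_isCompact hK').sub (integrableOn_const hK'.measure_lt_top.ne)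
    refine i1.mul_bdd (c := C) hf.memf.1.restrict ?_
    filter_upwards [ae_restrict_of_ae hb] with x hx
    exact hx
  have t2 : Tendsto (fun n => ∫ x, (v x - e) * f x * φn (ns n) x) atTop
      (𝓝 (∫ x, (v x - e) * f x * φ' x)) := by
    refine tendsto_integral_of_dominated_convergence
      (fun x => D * (K'.indicator (fun x => |(v x - e) * f x|) x)) ?_ ?_ ?_ ?_
    · intro n
      have hva : AEStronglyMeasurable v volume := hv.aestronglyMeasurable
      exact ((hva.sub aestronglyMeasurable_const).mul hf.memf.1).mul (hHn (ns n)).memf.1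
    · refine Integrable.const_mul ?_ D
      rw [integrable_indicator_iff hK'.measurableSet]
      exact hint.abs
    · intro n
      refine Eventually.of_forall fun x => ?_
      by_cases hx : x ∈ K'
      · rw [indicator_of_mem hx, norm_mul, Real.norm_eq_abs, Real.norm_eq_abs, mul_comm]
        exact mul_le_mul_of_nonneg_right (hbn _ _) (abs_nonneg _)
      · rw [indicator_of_notMem hx, hS (ns n) x hx]; simp
    · filter_upwards [hae] with x hx
      exact hx.const_mul _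
  have t3 := ((t1.comp hns.tendsto_atTop).const_mul (1 / 2)).add t2
  have e2 : ∫ x, (v x - e) * f x * φ x = ∫ x, (v x - e) * f x * φ' x := by
    refine integral_congr_ae ?_
    filter_upwards [e1] with x hx
    rw [hx]
  rw [e2]
  refine tendsto_nhds_unique t3 ?_
  have : ∀ n, (1 / 2) * (∫ x, inner ℝ (g x) (gr (φn (ns n)) x)) +
      ∫ x, (v x - e) * f x * φn (ns n) x = 0 := fun n => h _ (hT (ns n))
  simp only [Function.comp_apply, this]
  exact tendsto_const_nhds

end Crest.Agent.R335
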