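import Crest.Agent.R335.OBPot
import Crest.Agent.R335.HReg
import Crest.Agent.R335.HSob

/-!
# Row 335 (S0521), Part C, module PL6 : the gradients of the one-body states are in `L⁶`

`-Δ g = 2 (e_g - V₂) g ∈ L²`, so `∇g ∈ H¹ ⊂ L⁶`.
-/

set_option autoImplicit false
set_option linter.unusedVariables false

open MeasureTheory Filter Set Crest.MathPhysics.ThreeBody
open scoped ENNReal Topology ContDiff

noncomputable section
namespace Crest.Agent.R335

theorem PL6.norm_le_sum (v : Pos3) : ‖v‖ ≤ |v 0| + |v 1| + |v 2| := by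
  have h := EuclideanSpace.real_norm_sq_eq v
  rw [Fin.sum_univ_three, ← sq_abs (v 0), ← sq_abs (v 1), ← sq_abs (v 2)] at h
  refine abs_le_of_sq_le_sq' ?_ (by positivity) |>.2
  rw [h]
  nlinarith [mul_nonneg (abs_nonneg (v 0)) (abs_nonneg (v 1)),
    mul_nonneg (abs_nonneg (v 0)) (abs_nonneg (v 2)),
    mul_nonneg (abs_nonneg (v 1)) (abs_nonneg (v 2))]

/-- a weak eigenfunction of `-½Δ + V₂` has `∇f ∈ H¹` and `∇f ∈ L⁶` -/
theorem PL6.eig {D e : ℝ} {f : Pos3 → ℝ} {df : Pos3 → Pos3} (h : H1 f df)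
    (heq : ∀ k l, H1 k l → B2 D f df k l = e * ∫ x, f x * k x) :
    (∃ H : Fin 3 → Pos3 → Pos3, ∀ i, H1 (fun x => df x i) (H i)) ∧ MemLp df 6 volume := by
  have hV := (V2_memLp D h).1
  have hq : MemLp (fun x => 2 * e * f x - 2 * (V2 D x * f x)) 2 volume :=
    (h.memf.const_mul (2 * e)).sub (hV.const_mul 2)
  obtain ⟨H, hH, -⟩ := H2_of_weak h hq (fun φ hφ => by
    have hφ1 : H1 φ (gr φ) := H1.of_test hφ
    have h1 := heq φ (gr φ) hφ1
    unfold B2 at h1
    have i1 : Integrable (fun x => f x * φ x) := h.memf.integrable_mul hφ1.memf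
    have i2 : Integrable (fun x => V2 D x * (f x * φ x)) := V2_integrable D h hφ1.memf
    have e1 : ∀ x, (2 * e * f x - 2 * (V2 D x * f x)) * φ x =
        2 * e * (f x * φ x) - 2 * (V2 D x * (f x * φ x)) := fun x => by ring
    simp_rw [e1]
    rw [integral_sub (i1.const_mul _) (i2.const_mul _), integral_const_mul, integral_const_mul]
    linarith)
  refine ⟨⟨H, hH⟩, ?_⟩
  obtain ⟨C, -, hC⟩ := sobolev6
  have h6 : ∀ i, MemLp (fun x => df x i) 6 volume := fun i => (hC _ _ (hH i)).1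
  have h7 : MemLp (fun x => |df x 0| + |df x 1| + |df x 2|) 6 volume :=
    ((h6 0).abs.add (h6 1).abs).add (h6 2).abs
  refine h7.mono h.memg.1 (Eventually.of_forall fun x => ?_)
  rw [Real.norm_eq_abs, abs_of_nonneg (by positivity)]
  exact PL6.norm_le_sum (df x)

/-- `∇g, ∇u ∈ L⁶` -/
theorem OneBody.grad_L6 {D : ℝ} {g u : Pos3 → ℝ} {dg du : Pos3 → Pos3} {eg eu e3 : ℝ}
    (h : OneBody D g u dg du eg eu e3) : MemLp dg 6 volume ∧ MemLp du 6 volume :=
  ⟨(PL6.eig h.hg h.g_eq).2, (PL6.eig h.hu h.u_eq).2⟩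

end Crest.Agent.R335
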