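import Crest.Agent.R335.PAng
import Crest.Agent.R335.PCouple
import Crest.Agent.R335.PG1
import Crest.Agent.R335.PL6
import Crest.Agent.R335.PCSup

/-!
Row 335 (S0521), Part C, C.5 (helper801): uniform convergence of the pair on balls (I4).
-/

set_option autoImplicit false
set_option linter.unusedVariables false

open MeasureTheory Filter Set Crest.MathPhysics.ThreeBody
open scoped ENNReal Topology ContDiff

noncomputable section
namespace Crest.Agent.R335
namespace PJ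

/-- integrability against the gradient of a compactly supported test function -/
theorem int_cont_inner {k : Pos3 → ℝ} (hk : Continuous k) {l : Pos3 → Pos3} (hl : L2locV univ l)
    {φ : Pos3 → ℝ} {gφ : Pos3 → Pos3} (hφ : BT φ gφ) :
    Integrable (fun x => k x * inner ℝ (l x) (gφ x)) := by
  obtain ⟨R, hR⟩ := hφ.cpt
  obtain ⟨C, hC⟩ := (isCompact_closedBall (0 : Pos3) R).exists_bound_of_continuousOn
    hk.continuousOn
  have hcb : CB ((Metric.closedBall (0 : Pos3) R).indicator k) := by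
    refine ⟨hk.aestronglyMeasurable.indicator measurableSet_closedBall, ⟨|C|, ?_⟩, ⟨R + 1, ?_⟩⟩
    · refine Eventually.of_forall fun x => ?_
      by_cases hx : x ∈ Metric.closedBall (0 : Pos3) R
      · rw [indicator_of_mem hx]; exact (hC x hx).trans (le_abs_self _)
      · rw [indicator_of_notMem hx, abs_zero]; exact abs_nonneg _
    · refine Eventually.of_forall fun x hx => ?_
      refine indicator_of_notMem ?_ _
      rw [mem_closedBall_zero_iff]
      linarith
  refine (hcb.int_inner hl (L2locV.pg_of_memLp hφ.h1.memg)).congr ?_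
  filter_upwards [hR, hφ.gr_zero] with x h1 h2
  by_cases hx : x ∈ Metric.closedBall (0 : Pos3) R
  · rw [indicator_of_mem hx]
  · rw [indicator_of_notMem hx, zero_mul]
    rw [mem_closedBall_zero_iff, not_le] at hx
    rw [h2 (h1 hx.le), inner_zero_right, mul_zero]

theorem L2loc_gal {s U w : Pos3 → ℝ} {gU gw : Pos3 → Pos3} (h : AngP s U gU w gw) :
    L2locV univ (gal s U gU w gw) := by
  intro K hK _
  obtain ⟨R, _, hR⟩ := cpt_ball hK
  refine (h.memLp_gal R).mono_measure (Measure.restrict_mono ?_ le_rfl)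
  intro x hx
  rw [mem_closedBall_zero_iff]
  exact hR x hx

theorem locBdd_bdd {k : Pos3 → ℝ} {C : ℝ} (h : ∀ x, |k x| ≤ C) : LocBdd k := LocBdd.of_bdd h

section Eq
variable {D : ℝ} {g u : Pos3 → ℝ} {dg du : Pos3 → Pos3} {eg eu e3 : ℝ}

/-- abbreviations -/
def vv (g u s w : Pos3 → ℝ) (x : Pos3) : ℝ := al s w x - al (s0 g u) u x

def gvv (g u : Pos3 → ℝ) (dg du : Pos3 → Pos3) (s U : Pos3 → ℝ) (gU : Pos3 → Pos3)
    (w : Pos3 → ℝ) (gw : Pos3 → Pos3) (x : Pos3) : Pos3 :=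
  gal s U gU w gw x - gal (s0 g u) (fun x => √2 * g x) (fun x => √2 • dg x) u du x

def GG (g u : Pos3 → ℝ) (dg du : Pos3 → Pos3) (s : Pos3 → ℝ) (x : Pos3) : Pos3 :=
  (s0 g u x ^ 2 - s x ^ 2) • gal (s0 g u) (fun x => √2 * g x) (fun x => √2 • dg x) u du x

def ff (g u s w : Pos3 → ℝ) (om om0 : ℝ) (x : Pos3) : ℝ :=
  om * (s x ^ 2 * Real.sin (2 * al s w x)) -
    om0 * (s0 g u x ^ 2 * Real.sin (2 * al (s0 g u) u x))

/-- equation of the difference of the angles -/
theorem vv_eq (hO : OneBody D g u dg du eg eu e3) {s U w : Pos3 → ℝ} {gs gU gw : Pos3 → Pos3}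
    {om : ℝ} (hs : Amp s gs) (hp : Pair s U gU w gw om) {φ : Pos3 → ℝ} {gφ : Pos3 → Pos3}
    (hφ : BT φ gφ) :
    ∫ x, s x ^ 2 * inner ℝ (gvv g u dg du s U gU w gw x) (gφ x) =
      (∫ x, inner ℝ (GG g u dg du s x) (gφ x)) + ∫ x, ff g u s w om (eu - eg) x * φ x := by
  have hA := hp.angP hs
  have hA0 := angP0 hO
  have cs : Continuous (fun x => s x ^ 2) := hs.cont.pow 2
  have cs0 : Continuous (fun x => s0 g u x ^ 2) := (s0_cont hO).pow 2
  have i1 := int_cont_inner cs (L2loc_gal hA) hφ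
  have i2 := int_cont_inner cs (L2loc_gal hA0) hφ
  have i3 := int_cont_inner cs0 (L2loc_gal hA0) hφ
  have e1 := hp.el_al hs hφ
  have e2 := el_al0 hO hφ
  have j1 : Integrable (fun x => s x ^ 2 * Real.sin (2 * al s w x) * φ x) := by
    have : (fun x => s x ^ 2 * Real.sin (2 * al s w x) * φ x) =
        fun x => (2 * (U x * w x)) * φ x := by
      funext x; rw [hA.sq_sin_two]
    rw [this]
    obtain ⟨C, hC⟩ := hs.bdd
    have hb : ∀ x, |2 * (U x * w x)| ≤ 2 * (C * C) := by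
      intro x
      have h1 := hA.abs_w_le x
      have h2 : |U x| ≤ s x := abs_le_of_sq_le_sq (by
        have := hA.sq x; nlinarith [sq_nonneg (w x)]) (hs.pos x).le
      have h3 : 0 ≤ C := (hs.pos x).le.trans (hC x)
      rw [abs_mul, abs_mul, abs_two]
      have h4 : |U x| * |w x| ≤ C * C :=
        mul_le_mul (h2.trans (hC x)) (h1.trans (hC x)) (abs_nonneg _) h3
      linarith
    exact (hφ.cb.mul_loc ((hp.adm.hU.memf.1.mul hp.adm.hw.memf.1).const_mul 2)
      (LocBdd.of_bdd hb)).integrable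
  have j2 : Integrable (fun x => s0 g u x ^ 2 * Real.sin (2 * al (s0 g u) u x) * φ x) := by
    have : (fun x => s0 g u x ^ 2 * Real.sin (2 * al (s0 g u) u x) * φ x) =
        fun x => (2 * (√2 * g x * u x)) * φ x := by
      funext x; rw [hA0.sq_sin_two]
    rw [this]
    have hc : Continuous (fun x => 2 * (√2 * g x * u x)) := by
      have h1 := hO.cg
      have h2 := hO.cu
      fun_prop
    exact (hφ.cb.mul_loc hc.aestronglyMeasurable (LocBdd.of_continuous hc)).integrable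
  have k1 : ∫ x, s x ^ 2 * inner ℝ (gvv g u dg du s U gU w gw x) (gφ x) =
      (∫ x, s x ^ 2 * inner ℝ (gal s U gU w gw x) (gφ x)) -
        ∫ x, s x ^ 2 * inner ℝ (gal (s0 g u) (fun x => √2 * g x) (fun x => √2 • dg x) u du x)
          (gφ x) := by
    rw [← integral_sub i1 i2]
    refine integral_congr_ae (Eventually.of_forall fun x => ?_)
    show s x ^ 2 * inner ℝ (gvv g u dg du s U gU w gw x) (gφ x) = _
    unfold gvv
    rw [inner_sub_left]; ring
  have k2 : ∫ x, inner ℝ (GG g u dg du s x) (gφ x) =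
      (∫ x, s0 g u x ^ 2 * inner ℝ (gal (s0 g u) (fun x => √2 * g x) (fun x => √2 • dg x) u du x)
        (gφ x)) -
        ∫ x, s x ^ 2 * inner ℝ (gal (s0 g u) (fun x => √2 * g x) (fun x => √2 • dg x) u du x)
          (gφ x) := by
    rw [← integral_sub i3 i2]
    refine integral_congr_ae (Eventually.of_forall fun x => ?_)
    show inner ℝ (GG g u dg du s x) (gφ x) = _
    unfold GG
    rw [inner_smul_left, conj_trivial]; ring
  have k3 : ∫ x, ff g u s w om (eu - eg) x * φ x =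
      om * (∫ x, s x ^ 2 * Real.sin (2 * al s w x) * φ x) -
        (eu - eg) * ∫ x, s0 g u x ^ 2 * Real.sin (2 * al (s0 g u) u x) * φ x := by
    rw [← integral_const_mul, ← integral_const_mul, ← integral_sub (j1.const_mul _)
      (j2.const_mul _)]
    refine integral_congr_ae (Eventually.of_forall fun x => ?_)
    show ff g u s w om (eu - eg) x * φ x = _
    unfold ff
    ring
  rw [k1, k2, k3, e1, e2]
  ring

/-- pointwise control of the difference of the angles -/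
theorem vv_le (hO : OneBody D g u dg du eg eu e3) {s U w : Pos3 → ℝ} {gs gU gw : Pos3 → Pos3}
    {om : ℝ} (hs : Amp s gs) (hp : Pair s U gU w gw om) {x : Pos3} (hx : x 2 ≠ 0) {c : ℝ}
    (hc : 0 < c) (h1 : c ≤ s x) (h2 : c ≤ s0 g u x) :
    |vv g u s w x| ≤ 2 / c ^ 2 * (2 * |g x| * |w x - u x| + |u x| * |U x - √2 * g x|) := by
  have hA := hp.angP hs
  have hA0 := angP0 hO
  have hπ := Real.pi_pos
  have hvv : |vv g u s w x| ≤ Real.pi / 2 := by
    have a1 := AngP.abs_al_le (s := s) (w := w) x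
    have a2 := AngP.abs_al_le (s := s0 g u) (w := u) x
    rw [abs_le] at a1 a2
    unfold vv
    rw [abs_le]
    rcases lt_or_gt_of_ne hx with hz | hz
    · have hz' : 0 < (rz x) 2 := by rw [rz_two']; linarith
      have b1 : al s w x ≤ 0 := by
        have := hp.al_nonneg hs hz'
        rw [hp.al_odd hs] at this; linarith
      have b2 : al (s0 g u) u x ≤ 0 := by
        have h3 : 0 ≤ al (s0 g u) u (rz x) := hA0.al_nonneg (hO.u_pos _ hz').le
        have h4 : al (s0 g u) u (rz x) = - al (s0 g u) u x :=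
          AngP.al_odd (fun y => by unfold s0; rw [hO.g_even, hO.u_odd, neg_sq]) hO.u_odd x
        rw [h4] at h3; linarith
      constructor <;> linarith [a1.1, a2.1]
    · have b1 : 0 ≤ al s w x := hp.al_nonneg hs hz
      have b2 : 0 ≤ al (s0 g u) u x := hA0.al_nonneg (hO.u_pos _ hz).le
      constructor <;> linarith [a1.2, a2.2]
  have hsin : 2 / Real.pi * |vv g u s w x| ≤ |Real.sin (vv g u s w x)| := by
    rcases le_total 0 (vv g u s w x) with h | h
    · rw [abs_of_nonneg h] at hvv ⊢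
      have := Real.mul_le_sin h hvv
      exact this.trans (le_abs_self _)
    · rw [abs_of_nonpos h] at hvv ⊢
      have := Real.mul_le_sin (neg_nonneg.2 h) hvv
      rw [Real.sin_neg] at this
      exact this.trans (neg_le_abs _)
  have e : s x * s0 g u x * Real.sin (vv g u s w x) =
      √2 * g x * (w x - u x) - u x * (U x - √2 * g x) := by
    unfold vv
    rw [Real.sin_sub]
    have q1 := hA.sin_al x
    have q2 := hA.cos_al x
    have q3 := hA0.sin_al x
    have q4 := hA0.cos_al x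
    change s0 g u x * Real.sin (al (s0 g u) u x) = u x at q3
    change s0 g u x * Real.cos (al (s0 g u) u x) = √2 * g x at q4
    calc s x * s0 g u x * (Real.sin (al s w x) * Real.cos (al (s0 g u) u x) -
          Real.cos (al s w x) * Real.sin (al (s0 g u) u x))
        = (s x * Real.sin (al s w x)) * (s0 g u x * Real.cos (al (s0 g u) u x)) -
          (s x * Real.cos (al s w x)) * (s0 g u x * Real.sin (al (s0 g u) u x)) := by ring
      _ = w x * (√2 * g x) - U x * u x := by rw [q1, q2, q3, q4]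
      _ = _ := by ring
  have hcc : c ^ 2 ≤ s x * s0 g u x := by
    rw [sq]; exact mul_le_mul h1 h2 hc.le (hs.pos x).le
  have hb : c ^ 2 * |Real.sin (vv g u s w x)| ≤
      2 * |g x| * |w x - u x| + |u x| * |U x - √2 * g x| := by
    have h3 : |s x * s0 g u x * Real.sin (vv g u s w x)| =
        (s x * s0 g u x) * |Real.sin (vv g u s w x)| := by
      rw [abs_mul, abs_of_pos (mul_pos (hs.pos x) (s0_pos hO x))]
    have h4 : c ^ 2 * |Real.sin (vv g u s w x)| ≤
        (s x * s0 g u x) * |Real.sin (vv g u s w x)| :=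
      mul_le_mul_of_nonneg_right hcc (abs_nonneg _)
    refine h4.trans ?_
    rw [← h3, e]
    refine (abs_sub _ _).trans ?_
    rw [abs_mul, abs_mul, abs_mul]
    have hs2 : |√2| ≤ 2 := by
      rw [abs_of_nonneg (Real.sqrt_nonneg _), Real.sqrt_le_left (by norm_num)]; norm_num
    have : |√2| * |g x| * |w x - u x| ≤ 2 * |g x| * |w x - u x| := by gcongr
    linarith
  have hfin : |vv g u s w x| ≤ 2 * |Real.sin (vv g u s w x)| := by
    have h5 : |vv g u s w x| ≤ Real.pi / 2 * |Real.sin (vv g u s w x)| := by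
      have := mul_le_mul_of_nonneg_left hsin (by positivity : 0 ≤ Real.pi / 2)
      have e2 : Real.pi / 2 * (2 / Real.pi * |vv g u s w x|) = |vv g u s w x| := by
        field_simp
      rwa [e2] at this
    have h6 : Real.pi / 2 ≤ 2 := by linarith [Real.pi_le_four]
    exact h5.trans (mul_le_mul_of_nonneg_right h6 (abs_nonneg _))
  calc |vv g u s w x| ≤ 2 * |Real.sin (vv g u s w x)| := hfin
    _ = 2 / c ^ 2 * (c ^ 2 * |Real.sin (vv g u s w x)|) := by field_simp
    _ ≤ _ := by gcongr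

/-- the source term of the difference equation -/
theorem ff_le (hO : OneBody D g u dg du eg eu e3) {s U w : Pos3 → ℝ} {gs gU gw : Pos3 → Pos3}
    {om : ℝ} (hs : Amp s gs) (hp : Pair s U gU w gw om) (x : Pos3) {S a b : ℝ}
    (h1 : s x ≤ S) (h2 : |om - (eu - eg)| ≤ a) (h3 : |s0 g u x ^ 2 - s x ^ 2| ≤ b) :
    |ff g u s w om (eu - eg) x| ≤
      2 * ((eu - eg) + a) * S ^ 2 * |vv g u s w x| + (a * S ^ 2 + (eu - eg) * b) := by
  have hom : 0 < eu - eg := sub_pos.2 hO.eg_lt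
  have hs0 := hs.pos x
  have hS : 0 < S := hs0.trans_le h1
  have hS2 : s x ^ 2 ≤ S ^ 2 := pow_le_pow_left₀ hs0.le h1 2
  have ha : 0 ≤ a := (abs_nonneg _).trans h2
  have hom2 : |om| ≤ (eu - eg) + a := by
    have : om = (om - (eu - eg)) + (eu - eg) := by ring
    rw [this]
    refine (abs_add_le _ _).trans ?_
    rw [abs_of_pos hom]; linarith
  have e : ff g u s w om (eu - eg) x =
      om * s x ^ 2 * (Real.sin (2 * al s w x) - Real.sin (2 * al (s0 g u) u x)) +
      ((om - (eu - eg)) * s x ^ 2 - (eu - eg) * (s0 g u x ^ 2 - s x ^ 2)) *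
        Real.sin (2 * al (s0 g u) u x) := by
    unfold ff; ring
  have hsin : |Real.sin (2 * al s w x) - Real.sin (2 * al (s0 g u) u x)| ≤
      2 * |vv g u s w x| := by
    have h4 := Real.abs_sin_sub_sin_le (2 * al s w x) (2 * al (s0 g u) u x)
    refine h4.trans ?_
    have : 2 * al s w x - 2 * al (s0 g u) u x = 2 * vv g u s w x := by unfold vv; ring
    rw [this, abs_mul, abs_two]
  rw [e]
  refine (abs_add_le _ _).trans (add_le_add ?_ ?_)
  · rw [abs_mul, abs_mul, abs_of_nonneg (sq_nonneg (s x))]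
    calc |om| * s x ^ 2 * |Real.sin (2 * al s w x) - Real.sin (2 * al (s0 g u) u x)|
        ≤ ((eu - eg) + a) * S ^ 2 * (2 * |vv g u s w x|) := by gcongr
      _ = _ := by ring
  · rw [abs_mul]
    have h5 : |(om - (eu - eg)) * s x ^ 2 - (eu - eg) * (s0 g u x ^ 2 - s x ^ 2)| ≤
        a * S ^ 2 + (eu - eg) * b := by
      refine (abs_sub _ _).trans (add_le_add ?_ ?_)
      · rw [abs_mul, abs_of_nonneg (sq_nonneg (s x))]
        gcongr
      · rw [abs_mul, abs_of_pos hom]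
        gcongr
    calc _ ≤ (a * S ^ 2 + (eu - eg) * b) * 1 :=
          mul_le_mul h5 (Real.abs_sin_le_one _) (abs_nonneg _) ((abs_nonneg _).trans h5)
      _ = _ := mul_one _

theorem s0_bdd (hO : OneBody D g u dg du eg eu e3) : ∃ C : ℝ, 1 ≤ C ∧ ∀ x, s0 g u x ≤ C := by
  obtain ⟨Cg, hCg0, hCg⟩ := g_bdd hO
  obtain ⟨Cu, hCu0, hCu⟩ := u_bdd hO
  refine ⟨2 * Cg + Cu + 1, by linarith, fun x => ?_⟩
  unfold s0
  refine Real.sqrt_le_iff.2 ⟨by positivity, ?_⟩
  have h1 := abs_le.1 (hCg x)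
  have h2 := abs_le.1 (hCu x)
  have h3 : g x ^ 2 ≤ Cg ^ 2 := by nlinarith
  have h4 : u x ^ 2 ≤ Cu ^ 2 := by nlinarith
  nlinarith [mul_nonneg hCg0 hCu0]

theorem gal0_L6 (hO : OneBody D g u dg du eg eu e3) (R : ℝ) :
    MemLp (gal (s0 g u) (fun x => √2 * g x) (fun x => √2 • dg x) u du) 6
      (volume.restrict (Metric.closedBall 0 R)) := by
  have hA0 := angP0 hO
  obtain ⟨c, hc, hclow⟩ := hA0.low R
  have hL6 := hO.grad_L6
  have h0 : MemLp (fun x => ‖√2 • dg x‖ + ‖du x‖) 6 (volume.restrict (Metric.closedBall 0 R)) :=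
    (((hL6.1.const_smul √2).norm.add hL6.2.norm)).restrict _
  refine MemLp.of_le_mul (c := 1 / c) h0 hA0.aesm_gal.restrict ?_
  rw [ae_restrict_iff' Metric.isClosed_closedBall.measurableSet]
  refine Eventually.of_forall fun x hx => ?_
  have hx' : ‖x‖ ≤ R := by simpa using hx
  rw [Real.norm_eq_abs, abs_of_nonneg (by positivity : 0 ≤ ‖√2 • dg x‖ + ‖du x‖)]
  refine (hA0.norm_gal_le x).trans ?_
  have := hclow x hx'
  gcongr

/-- `L²` bound of the difference of the angles on a ball -/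
theorem vv_L2 (hO : OneBody D g u dg du eg eu e3) {R c : ℝ} (hc : 0 < c)
    (hlow0 : ∀ x : Pos3, ‖x‖ ≤ R → c ≤ s0 g u x) {Cg Cu : ℝ} (hCg : ∀ x, |g x| ≤ Cg)
    (hCu : ∀ x, |u x| ≤ Cu) {ε : ℝ} (hε : 0 < ε) {s U w : Pos3 → ℝ} {gs gU gw : Pos3 → Pos3}
    {om : ℝ} (hs : Amp s gs) (hp : Pair s U gU w gw om)
    (hlow : ∀ᵐ x : Pos3, ‖x‖ ≤ R → c ≤ s x)
    (h1 : ∫ x, (U x - √2 * g x) ^ 2 ≤ ε ^ 2) (h3 : ∫ x, (w x - u x) ^ 2 ≤ ε ^ 2) :
    ∫ x in Metric.closedBall 0 R, vv g u s w x ^ 2 ≤ (2 * (2 / c ^ 2 * (2 * Cg + Cu)) * ε) ^ 2 := by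
  have hCg0 : 0 ≤ Cg := (abs_nonneg _).trans (hCg 0)
  have hCu0 : 0 ≤ Cu := (abs_nonneg _).trans (hCu 0)
  set Q := 2 / c ^ 2 * (2 * Cg + Cu) with hQ
  have hQ0 : 0 ≤ Q := by positivity
  have m1 : Integrable (fun x => (U x - √2 * g x) ^ 2) :=
    (hp.adm.hU.memf.sub (hO.hg.memf.const_mul _)).integrable_sq
  have m2 : Integrable (fun x => (w x - u x) ^ 2) := (hp.adm.hw.memf.sub hO.hu.memf).integrable_sq
  have i : Integrable (fun x => 2 * Q ^ 2 * ((U x - √2 * g x) ^ 2 + (w x - u x) ^ 2)) :=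
    (m1.add m2).const_mul _
  have h5 : ∫ x in Metric.closedBall 0 R, vv g u s w x ^ 2 ≤
      ∫ x in Metric.closedBall 0 R, 2 * Q ^ 2 * ((U x - √2 * g x) ^ 2 + (w x - u x) ^ 2) := by
    refine integral_mono_of_nonneg (Eventually.of_forall fun x => sq_nonneg _)
      i.integrableOn ?_
    refine (ae_restrict_iff' Metric.isClosed_closedBall.measurableSet).2 ?_
    filter_upwards [hlow, ae_z] with x hx hz hxR
    have hx' : ‖x‖ ≤ R := by simpa using hxR
    have hv := vv_le hO hs hp hz hc (hx hx') (hlow0 x hx')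
    have hv2 : |vv g u s w x| ≤ Q * (|w x - u x| + |U x - √2 * g x|) := by
      have a1 : 2 * |g x| * |w x - u x| ≤ (2 * Cg + Cu) * |w x - u x| := by
        refine mul_le_mul_of_nonneg_right ?_ (abs_nonneg _)
        linarith [hCg x]
      have a2 : |u x| * |U x - √2 * g x| ≤ (2 * Cg + Cu) * |U x - √2 * g x| := by
        refine mul_le_mul_of_nonneg_right ?_ (abs_nonneg _)
        linarith [hCu x]
      have a3 : (0 : ℝ) ≤ 2 / c ^ 2 := by positivity
      refine (hv.trans (mul_le_mul_of_nonneg_left (add_le_add a1 a2) a3)).trans (le_of_eq ?_)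
      rw [hQ]; ring
    show vv g u s w x ^ 2 ≤ 2 * Q ^ 2 * ((U x - √2 * g x) ^ 2 + (w x - u x) ^ 2)
    have hv3 : vv g u s w x ^ 2 ≤ (Q * (|w x - u x| + |U x - √2 * g x|)) ^ 2 := by
      rw [← sq_abs (vv g u s w x)]
      exact pow_le_pow_left₀ (abs_nonneg _) hv2 2
    refine hv3.trans ?_
    rw [← sq_abs (U x - √2 * g x), ← sq_abs (w x - u x), mul_pow]
    nlinarith [mul_nonneg (sq_nonneg Q) (sq_nonneg (|w x - u x| - |U x - √2 * g x|))]
  refine h5.trans ?_
  have h6 : ∫ x in Metric.closedBall 0 R, 2 * Q ^ 2 * ((U x - √2 * g x) ^ 2 + (w x - u x) ^ 2) ≤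
      ∫ x, 2 * Q ^ 2 * ((U x - √2 * g x) ^ 2 + (w x - u x) ^ 2) :=
    setIntegral_le_integral i (Eventually.of_forall fun x => by positivity)
  refine h6.trans ?_
  rw [integral_const_mul, integral_add m1 m2]
  have : (2 * Q * ε) ^ 2 = 2 * Q ^ 2 * (ε ^ 2 + ε ^ 2) := by ring
  rw [this]
  gcongr

set_option maxHeartbeats 1000000 in
/-- the sup bound, one small parameter -/
theorem sup_core (hO : OneBody D g u dg du eg eu e3) {R : ℝ} (hR : 0 < R) :
    ∃ T e0 : ℝ, 0 < T ∧ 0 < e0 ∧ ∀ ε : ℝ, 0 < ε → ε ≤ e0 →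
      ∀ (s U w : Pos3 → ℝ) (gs gU gw : Pos3 → Pos3) (om : ℝ), Amp s gs → Pair s U gU w gw om →
      |om - (eu - eg)| ≤ ε → (∀ᵐ x, |s x - s0 g u x| ≤ ε) →
      (∫ x, (U x - √2 * g x) ^ 2) ≤ ε ^ 2 → (∫ x, (w x - u x) ^ 2) ≤ ε ^ 2 →
      ∀ᵐ x, ‖x‖ ≤ R → |vv g u s w x| ≤ T * ε := by
  have hA0 := angP0 hO
  obtain ⟨S0, hS01, hS0⟩ := s0_bdd hO
  obtain ⟨Cg, hCg0, hCg⟩ := g_bdd hO
  obtain ⟨Cu, hCu0, hCu⟩ := u_bdd hO
  obtain ⟨c, hc, hclow⟩ := hA0.low (2 * R)
  have hom : 0 < eu - eg := sub_pos.2 hO.eg_lt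
  obtain ⟨K, hK, hsup⟩ := sup_bound (c0 := (c / 2) ^ 2) (C0 := (S0 + 1) ^ 2)
    (A := 2 * ((eu - eg) + 1) * (S0 + 1) ^ 2) (R := R) (by positivity) (by positivity) hR
  have hG06 := gal0_L6 hO (2 * R)
  set V := volume.restrict (Metric.closedBall (0 : Pos3) (2 * R)) with hV
  set G0 := gal (s0 g u) (fun x => √2 * g x) (fun x => √2 • dg x) u du with hG0
  set M0 := (eLpNorm G0 6 V).toReal with hM0
  have hM00 : 0 ≤ M0 := ENNReal.toReal_nonneg
  set n0 := 2 * (2 / (c / 2) ^ 2 * (2 * Cg + Cu)) with hn0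
  set m0 := (2 * (S0 + 1)) * M0 with hm0
  set h0 := (S0 + 1) ^ 2 + (eu - eg) * (2 * (S0 + 1)) with hh0
  have hn00 : 0 ≤ n0 := by positivity
  have hm00 : 0 ≤ m0 := by positivity
  have hh00 : 0 ≤ h0 := by positivity
  refine ⟨K * (n0 + m0 + h0) + 1, min 1 (c / 2), by positivity, by positivity, ?_⟩
  intro ε hε hε0 s U w gs gU gw om hAm hp d2 hcl q1 q3
  have hε1 : ε ≤ 1 := hε0.trans (min_le_left _ _)
  have hεc : ε ≤ c / 2 := hε0.trans (min_le_right _ _)
  have hAp := hp.angP hAm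
  have hsq : ∀ᵐ x, s x ≤ S0 + 1 ∧ |s0 g u x ^ 2 - s x ^ 2| ≤ 2 * (S0 + 1) * ε := by
    filter_upwards [hcl] with x hx
    have hx' := abs_le.1 hx
    have b0 := hS0 x
    have b1 := hAm.pos x
    have b2 := s0_pos hO x
    refine ⟨by linarith, ?_⟩
    have e : s0 g u x ^ 2 - s x ^ 2 = -((s x - s0 g u x) * (s x + s0 g u x)) := by
      ring
    rw [e, abs_neg, abs_mul, abs_of_pos (by linarith : 0 < s x + s0 g u x)]
    have : s x + s0 g u x ≤ 2 * (S0 + 1) := by linarith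
    calc |s x - s0 g u x| * (s x + s0 g u x) ≤ ε * (2 * (S0 + 1)) :=
          mul_le_mul hx this (by linarith) (by positivity)
      _ = _ := by ring
  have hslow : ∀ᵐ x : Pos3, ‖x‖ ≤ 2 * R → c / 2 ≤ s x := by
    filter_upwards [hcl] with x hx hxR
    have hx' := abs_le.1 hx
    have b1 := hclow x hxR
    linarith
  refine hsup (fun x => s x ^ 2) (vv g u s w) (ff g u s w om (eu - eg))
    (gvv g u dg du s U gU w gw) (GG g u dg du s) (n0 * ε) (m0 * ε)
    (h0 * ε) ((K * (n0 + m0 + h0) + 1) * ε) (hAm.cont.pow 2).aestronglyMeasurable ?_ ?_ ?_ ?_ ?_ ?_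
    ?_ ?_ (by positivity) (by positivity) (by positivity) ?_ ?_ (by positivity) ?_
  · filter_upwards [hsq, hslow] with x hx2 hx3 hxR
    exact ⟨pow_le_pow_left₀ (by positivity) (hx3 hxR) 2, pow_le_pow_left₀ (hAm.pos x).le hx2.1 2⟩
  · exact WG.sub hAp.wg hA0.wg isOpen_univ
  · refine ⟨Real.pi, Eventually.of_forall fun x => ?_⟩
    have a1 := abs_le.1 (AngP.abs_al_le (s := s) (w := w) x)
    have a2 := abs_le.1 (AngP.abs_al_le (s := s0 g u) (w := u) x)
    unfold vv
    rw [abs_le]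
    constructor <;> linarith [a1.1, a1.2, a2.1, a2.2]
  · exact (hAp.memLp_gal _).sub (hA0.memLp_gal _)
  · refine MemLp.of_le_mul (c := 2 * (S0 + 1) * ε) hG06 ?_ ?_
    · exact ((((s0_cont hO).pow 2).sub (hAm.cont.pow 2)).aestronglyMeasurable.smul
        hA0.aesm_gal).restrict
    · refine ae_restrict_of_ae ?_
      filter_upwards [hsq] with x hx
      unfold GG
      rw [norm_smul, Real.norm_eq_abs]
      exact mul_le_mul_of_nonneg_right hx.2 (norm_nonneg _)
  · have m1 : AEStronglyMeasurable (fun x => s x ^ 2 * Real.sin (2 * al s w x)) volume := by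
      have : (fun x => s x ^ 2 * Real.sin (2 * al s w x)) = fun x => 2 * (U x * w x) := by
        funext x; exact hAp.sq_sin_two x
      rw [this]
      exact (hp.adm.hU.memf.1.mul hp.adm.hw.memf.1).const_mul 2
    have m2 : AEStronglyMeasurable
        (fun x => s0 g u x ^ 2 * Real.sin (2 * al (s0 g u) u x)) volume := by
      have : (fun x => s0 g u x ^ 2 * Real.sin (2 * al (s0 g u) u x)) =
          fun x => 2 * (√2 * g x * u x) := by
        funext x; exact hA0.sq_sin_two x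
      rw [this]
      exact ((hO.hg.memf.1.const_mul _).mul hO.hu.memf.1).const_mul 2
    exact (m1.const_mul om).sub (m2.const_mul (eu - eg))
  · filter_upwards [hsq] with x hx hxR
    refine (ff_le hO hAm hp x hx.1 d2 hx.2).trans (add_le_add ?_ ?_)
    · refine mul_le_mul_of_nonneg_right ?_ (abs_nonneg _)
      gcongr
    · rw [hh0]
      exact le_of_eq (by ring)
  · intro φ gφ hφ _
    exact vv_eq hO hAm hp hφ
  · exact vv_L2 hO (by positivity) (fun x hx => by have := hclow x hx; linarith) hCg hCu hε hAm hp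
      hslow q1 q3
  · have hle : eLpNorm (GG g u dg du s) 6 V ≤ ENNReal.ofReal (2 * (S0 + 1) * ε) * eLpNorm G0 6 V := by
      refine eLpNorm_le_mul_eLpNorm_of_ae_le_mul ?_ 6
      refine ae_restrict_of_ae ?_
      filter_upwards [hsq] with x hx
      unfold GG
      rw [norm_smul, Real.norm_eq_abs]
      exact mul_le_mul_of_nonneg_right hx.2 (norm_nonneg _)
    have hfin : ENNReal.ofReal (2 * (S0 + 1) * ε) * eLpNorm G0 6 V ≠ ⊤ :=
      ENNReal.mul_ne_top ENNReal.ofReal_ne_top hG06.2.ne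
    have := ENNReal.toReal_mono hfin hle
    rw [ENNReal.toReal_mul, ENNReal.toReal_ofReal (by positivity)] at this
    refine this.trans (le_of_eq ?_)
    rw [hm0]; ring
  · have : K * (n0 * ε + m0 * ε + h0 * ε) = K * (n0 + m0 + h0) * ε := by ring
    rw [this]
    nlinarith

end Eq

end PJ

open PJ

set_option maxHeartbeats 1000000 in
/-- I4 : uniform convergence on balls -/
theorem pair_sup {cg C0 D : ℝ} (hcg : 0 < cg) (hC : 1 ≤ C0) (hD : 4 ≤ D) (B : OBD cg C0 D)
    (P K1 K2 R1 Rb δ : ℝ) (hδ : 0 < δ) :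
    ∃ l' : ℝ, 0 < l' ∧ ∀ lam, 0 < lam → lam ≤ l' →
      ∀ (κ κS κT : ℝ) (s s1 s2 F w0 X sig : Pos3 → ℝ) (gs gs1 gs2 gF : Pos3 → Pos3),
        COut B P K1 K2 R1 lam κ κS κT s s1 s2 F w0 X sig gs gs1 gs2 gF →
        ∀ (U w : Pos3 → ℝ) (gU gw : Pos3 → Pos3) (om : ℝ), Pair s U gU w gw om →
          ∀ᵐ x : Pos3, ‖x‖ ≤ Rb → |U x - √2 * B.g x| ≤ δ ∧ |w x - B.u x| ≤ δ := by
  have hO := B.ob
  have hA0 := angP0 hO
  obtain ⟨K4, l1, hK4, hl1, h1⟩ := pair_H1' hcg hC hD B P K1 K2 R1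
  obtain ⟨K5, l2, hK5, hl2, h2⟩ := pair_mult hcg hC hD B P K1 K2 R1
  obtain ⟨S0, hS01, hS0⟩ := s0_bdd hO
  have hR : 0 < max Rb 1 := lt_of_lt_of_le one_pos (le_max_right _ _)
  obtain ⟨T, e0, hT, he0, hcore⟩ := sup_core hO hR
  set Kb := √K4 + K5 + |K2| + 1 with hKb
  have hKb0 : 0 < Kb := by positivity
  -- small parameter
  set et := min e0 (δ / (1 + S0 * T)) with het
  have het0 : 0 < et := by positivity
  refine ⟨min (min l1 l2) (min 1 ((et / Kb) ^ 2)), by positivity, ?_⟩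
  intro lam hlam hl κ κS κT s s1 s2 F w0 X sig gs gs1 gs2 gF h U w gU gw om hp
  have e1 : lam ≤ l1 := hl.trans ((min_le_left _ _).trans (min_le_left _ _))
  have e2 : lam ≤ l2 := hl.trans ((min_le_left _ _).trans (min_le_right _ _))
  have e3 : lam ≤ 1 := hl.trans ((min_le_right _ _).trans (min_le_left _ _))
  have e4 : lam ≤ (et / Kb) ^ 2 := hl.trans ((min_le_right _ _).trans (min_le_right _ _))
  have hsl : √lam ≤ et / Kb := by
    rw [Real.sqrt_le_left (by positivity)]; exact e4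
  have hsl0 : 0 < √lam := Real.sqrt_pos.2 hlam
  have hss : √lam * √lam = lam := Real.mul_self_sqrt hlam.le
  have hsl1 : √lam ≤ 1 := by rw [Real.sqrt_le_left one_pos.le]; simpa using e3
  have hlsl : lam ≤ √lam := by nlinarith
  have hεet : Kb * √lam ≤ et := by
    rw [le_div_iff₀ hKb0] at hsl; linarith
  have d1 := h1 lam hlam e1 _ _ _ _ _ _ _ _ _ _ _ _ _ _ h U w gU gw om hp
  have d2 := h2 lam hlam e2 _ _ _ _ _ _ _ _ _ _ _ _ _ _ h U w gU gw om hp
  have hAm := h.amp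
  have hAp := hp.angP hAm
  have hk1 : √K4 ≤ Kb := by rw [hKb]; nlinarith [abs_nonneg K2]
  have hk2 : K5 ≤ Kb := by rw [hKb]; nlinarith [abs_nonneg K2, Real.sqrt_nonneg K4]
  have hk3 : |K2| ≤ Kb := by rw [hKb]; nlinarith [Real.sqrt_nonneg K4]
  have hcl : ∀ᵐ x, |s x - s0 B.g B.u x| ≤ Kb * √lam := by
    filter_upwards [h.cl] with x hx
    refine hx.trans ?_
    calc K2 * lam ≤ |K2| * lam := mul_le_mul_of_nonneg_right (le_abs_self _) hlam.le
      _ ≤ Kb * √lam := mul_le_mul hk3 hlsl hlam.le hKb0.le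
  have hK4l : K4 * lam ≤ (Kb * √lam) ^ 2 := by
    have : K4 * lam = (√K4 * √lam) ^ 2 := by
      rw [mul_pow, Real.sq_sqrt hK4.le, Real.sq_sqrt hlam.le]
    rw [this]
    exact pow_le_pow_left₀ (by positivity) (mul_le_mul_of_nonneg_right hk1 hsl0.le) 2
  have hv := hcore (Kb * √lam) (by positivity) (hεet.trans (min_le_left _ _)) s U w gs gU gw om hAm
    hp (d2.trans (mul_le_mul_of_nonneg_right hk2 hsl0.le)) hcl (d1.1.trans hK4l)
    (d1.2.2.1.trans hK4l)
  have hfin : Kb * √lam + S0 * (T * (Kb * √lam)) ≤ δ := by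
    have h5 : Kb * √lam ≤ δ / (1 + S0 * T) := hεet.trans (min_le_right _ _)
    rw [le_div_iff₀ (by positivity)] at h5
    linarith
  filter_upwards [hv, hcl] with x hx1 hx2 hxR
  have hv := hx1 (hxR.trans (le_max_left _ _))
  unfold vv at hv
  have b2 := s0_pos hO x
  have b0 := hS0 x
  have q1 := hAp.sin_al x
  have q2 := hAp.cos_al x
  have q3 := hA0.sin_al x
  have q4 := hA0.cos_al x
  change s0 B.g B.u x * Real.sin (al (s0 B.g B.u) B.u x) = B.u x at q3
  change s0 B.g B.u x * Real.cos (al (s0 B.g B.u) B.u x) = √2 * B.g x at q4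
  have hTε : 0 ≤ T * (Kb * √lam) := by positivity
  constructor
  · have hcos := Real.abs_cos_sub_cos_le (al s w x) (al (s0 B.g B.u) B.u x)
    rw [← q2, ← q4]
    have e : s x * Real.cos (al s w x) - s0 B.g B.u x * Real.cos (al (s0 B.g B.u) B.u x) =
        (s x - s0 B.g B.u x) * Real.cos (al s w x) +
          s0 B.g B.u x * (Real.cos (al s w x) - Real.cos (al (s0 B.g B.u) B.u x)) := by ring
    rw [e]
    refine (abs_add_le _ _).trans ?_
    rw [abs_mul, abs_mul, abs_of_pos b2]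
    have t1 : |s x - s0 B.g B.u x| * |Real.cos (al s w x)| ≤ (Kb * √lam) * 1 :=
      mul_le_mul hx2 (Real.abs_cos_le_one _) (abs_nonneg _) (by positivity)
    have t2 : s0 B.g B.u x * |Real.cos (al s w x) - Real.cos (al (s0 B.g B.u) B.u x)| ≤
        S0 * (T * (Kb * √lam)) :=
      mul_le_mul b0 (hcos.trans hv) (abs_nonneg _) (by linarith)
    linarith
  · have hsin := Real.abs_sin_sub_sin_le (al s w x) (al (s0 B.g B.u) B.u x)
    rw [← q1, ← q3]
    have e : s x * Real.sin (al s w x) - s0 B.g B.u x * Real.sin (al (s0 B.g B.u) B.u x) =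
        (s x - s0 B.g B.u x) * Real.sin (al s w x) +
          s0 B.g B.u x * (Real.sin (al s w x) - Real.sin (al (s0 B.g B.u) B.u x)) := by ring
    rw [e]
    refine (abs_add_le _ _).trans ?_
    rw [abs_mul, abs_mul, abs_of_pos b2]
    have t1 : |s x - s0 B.g B.u x| * |Real.sin (al s w x)| ≤ (Kb * √lam) * 1 :=
      mul_le_mul hx2 (Real.abs_sin_le_one _) (abs_nonneg _) (by positivity)
    have t2 : s0 B.g B.u x * |Real.sin (al s w x) - Real.sin (al (s0 B.g B.u) B.u x)| ≤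
        S0 * (T * (Kb * √lam)) :=
      mul_le_mul b0 (hsin.trans hv) (abs_nonneg _) (by linarith)
    linarith

/-- C.1, C.2 multiplier, C.5 -/
theorem inner' {cg C0 : ℝ} (hcg : 0 < cg) (hC : 1 ≤ C0) {D : ℝ} (hD : 4 ≤ D) (B : OBD cg C0 D)
    (P K1 K2 R1 : ℝ) :
    ∃ K3 : ℝ, 0 < K3 ∧ ∀ Rb δ : ℝ, 0 < δ → ∃ l' : ℝ, 0 < l' ∧ ∀ lam, 0 < lam → lam ≤ l' →
      ∀ (κ κS κT : ℝ) (s s1 s2 F w0 X sig : Pos3 → ℝ) (gs gs1 gs2 gF : Pos3 → Pos3),
        COut B P K1 K2 R1 lam κ κS κT s s1 s2 F w0 X sig gs gs1 gs2 gF →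
        ∀ (U w : Pos3 → ℝ) (gU gw : Pos3 → Pos3) (om : ℝ), Pair s U gU w gw om →
          |om - B.om| ≤ K3 * √lam ∧
          ∀ᵐ x : Pos3, ‖x‖ ≤ Rb → |U x - √2 * B.g x| ≤ δ ∧ |w x - B.u x| ≤ δ := by
  obtain ⟨K5, l2, hK5, hl2, h2⟩ := pair_mult hcg hC hD B P K1 K2 R1
  refine ⟨K5, hK5, fun Rb δ hδ => ?_⟩
  obtain ⟨l3, hl3, h3⟩ := pair_sup hcg hC hD B P K1 K2 R1 Rb δ hδ
  refine ⟨min l2 l3, by positivity, ?_⟩
  intro lam hlam hl κ κS κT s s1 s2 F w0 X sig gs gs1 gs2 gF h U w gU gw om hp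
  exact ⟨h2 lam hlam (hl.trans (min_le_left _ _)) _ _ _ _ _ _ _ _ _ _ _ _ _ _ h U w gU gw om hp,
    h3 lam hlam (hl.trans (min_le_right _ _)) _ _ _ _ _ _ _ _ _ _ _ _ _ _ h U w gU gw om hp⟩

end Crest.Agent.R335
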