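import Crest.Agent.R335.PLAng
import Crest.Agent.R335.PLGauge
import Crest.Agent.R335.PLNum
import Crest.Agent.R335.PSup
import Crest.Agent.R335.CHardy
import Crest.Agent.R335.CXcalc
import Crest.Agent.R335.CmpW

/-!
Row 335 (S0521), C.6: LOWER BOUND of the pair (helper297), from `PLS.low_data` (helper16).
-/

set_option autoImplicit false
set_option linter.unusedVariables false

open MeasureTheory Filter Set Crest.MathPhysics.ThreeBody
open scoped ENNReal Topology ContDiff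

noncomputable section
namespace Crest.Agent.R335.PL
open Crest.Agent.R335

theorem rzL_two (x : Pos3) : (rz x) 2 = - x 2 := by rw [rz_apply]; simp

/-- `s sin H_c = s2`, `s cos H_c = s1` -/
theorem sin_cos_Hc {a b c : ℝ} (ha : 0 < a) (hc : 0 < c) (hsq : a ^ 2 + b ^ 2 = c ^ 2) :
    c * Real.sin (Real.arctan (b / a)) = b ∧ c * Real.cos (Real.arctan (b / a)) = a := by
  have h4 : 1 + (b / a) ^ 2 = (c / a) ^ 2 := by
    field_simp
    linarith
  rw [Real.sin_arctan, Real.cos_arctan, h4, Real.sqrt_sq (by positivity)]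
  constructor <;> field_simp

/-- pointwise shell estimate -/
theorem shell_alg {s1 s2 s U w u G H k δ : ℝ} (h1 : 0 < s1) (h2 : 0 ≤ s2) (hs : 0 < s)
    (hsq : s1 ^ 2 + s2 ^ 2 = s ^ 2) (hUw : U ^ 2 + w ^ 2 = s ^ 2) (hU : 0 ≤ U) (hw : 0 ≤ w)
    (hu : 0 ≤ u) (hk : 0 ≤ k) (hδ : 0 < δ) (hG : 3 * δ ≤ G) (e1 : |s1 - abs u| ≤ k)
    (e2 : |s2 - G| ≤ k) (e3 : |U - G| ≤ δ) (e4 : |w - u| ≤ δ)
    (hH : s * Real.sin H = U) (hH' : s * Real.cos H = w) (hH0 : 0 ≤ H) (hH1 : H ≤ Real.pi / 2) :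
    s * (Real.arctan (s2 / s1) - H) ≤ 4 * k + 6 * δ := by
  obtain ⟨hS, hC⟩ := sin_cos_Hc h1 hs hsq
  set A := Real.arctan (s2 / s1) with hA
  have hA1 : A ≤ Real.pi / 2 := (Real.arctan_lt_pi_div_two _).le
  have hr : 0 ≤ 4 * k + 6 * δ := by positivity
  rcases le_total (A - H) 0 with h0 | h0
  · have : s * (A - H) ≤ 0 := mul_nonpos_of_nonneg_of_nonpos hs.le h0
    linarith
  have hsin := Real.mul_le_sin h0 (by linarith : A - H ≤ Real.pi / 2)
  have hss : s * (s * Real.sin (A - H)) = s2 * w - s1 * U := by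
    rw [Real.sin_sub]
    have : s * (s * (Real.sin A * Real.cos H - Real.cos A * Real.sin H)) =
      (s * Real.sin A) * (s * Real.cos H) - (s * Real.cos A) * (s * Real.sin H) := by ring
    rw [this, hS, hC, hH, hH']
  have hUs : U ≤ s := by nlinarith [sq_nonneg w]
  have hws : w ≤ s := by nlinarith [sq_nonneg U]
  rw [abs_of_nonneg hu] at e1
  have a1 := abs_le.1 e1
  have a2 := abs_le.1 e2
  have a3 := abs_le.1 e3
  have a4 := abs_le.1 e4
  have hm : s2 * w - s1 * U ≤ k * (w + U) + δ * (G + u) := by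
    have i1 : (s2 - G) * w ≤ k * w := mul_le_mul_of_nonneg_right a2.2 hw
    have i2 : G * (w - u) ≤ G * δ := mul_le_mul_of_nonneg_left a4.2 (by linarith)
    have i3 : u * (G - U) ≤ u * δ := mul_le_mul_of_nonneg_left (by linarith [a3.1]) hu
    have i4 : (u - s1) * U ≤ k * U := mul_le_mul_of_nonneg_right (by linarith [a1.1]) hU
    have i5 : s2 * w - s1 * U = (s2 - G) * w + G * (w - u) + u * (G - U) + (u - s1) * U := by ring
    linarith
  have hb : k * (w + U) + δ * (G + u) ≤ s * (2 * k + 3 * δ) := by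
    have i1 : k * (w + U) ≤ k * (2 * s) := mul_le_mul_of_nonneg_left (by linarith) hk
    have i2 : G + u ≤ 3 * s := by linarith [a3.1, a4.1]
    have i3 : δ * (G + u) ≤ δ * (3 * s) := mul_le_mul_of_nonneg_left i2 hδ.le
    have i4 : s * (2 * k + 3 * δ) = k * (2 * s) + δ * (3 * s) := by ring
    linarith
  have h5 : s * Real.sin (A - H) ≤ 2 * k + 3 * δ := by
    have : s * (s * Real.sin (A - H)) ≤ s * (2 * k + 3 * δ) := by rw [hss]; linarith
    exact le_of_mul_le_mul_left this hs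
  have hpi : Real.pi ≤ 4 := Real.pi_le_four
  have hpi0 := Real.pi_pos
  have h6 := mul_le_mul_of_nonneg_left hsin (mul_nonneg (by positivity : 0 ≤ Real.pi / 2) hs.le)
  have h7 : Real.pi / 2 * s * (2 / Real.pi * (A - H)) = s * (A - H) := by
    field_simp
  rw [h7] at h6
  have h8 : Real.pi / 2 * s * Real.sin (A - H) ≤ 2 * (2 * k + 3 * δ) := by
    have i1 : 0 ≤ s * Real.sin (A - H) := mul_nonneg hs.le ((mul_nonneg (by positivity) h0).trans hsin)
    have i2 : Real.pi / 2 * (s * Real.sin (A - H)) ≤ 2 * (s * Real.sin (A - H)) :=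
      mul_le_mul_of_nonneg_right (by linarith) i1
    have i3 : Real.pi / 2 * s * Real.sin (A - H) = Real.pi / 2 * (s * Real.sin (A - H)) := by ring
    linarith
  linarith

/-- pointwise conclusion `s2 ≤ 4 U` from `E ≤ 0` -/
theorem concl_alg {s1 s2 s U H Y : ℝ} (h1 : 0 < s1) (h2 : 0 ≤ s2) (hs : 0 < s)
    (hsq : s1 ^ 2 + s2 ^ 2 = s ^ 2) (hH : s * Real.sin H = U) (hH0 : 0 ≤ H)
    (hH1 : H ≤ Real.pi / 2) (hY : Y ≤ s2 / 2) (hE : Real.arctan (s2 / s1) - H - Y / s ≤ 0) :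
    s2 ≤ 4 * U := by
  obtain ⟨hS, _⟩ := sin_cos_Hc h1 hs hsq
  set A := Real.arctan (s2 / s1) with hA
  have hA0 : 0 ≤ A := Real.arctan_nonneg.2 (div_nonneg h2 h1.le)
  have hsA : Real.sin A ≤ A := Real.sin_le hA0
  have i1 : s2 ≤ s * A := by
    rw [← hS]; exact mul_le_mul_of_nonneg_left hsA hs.le
  have i2 : s * A - Y ≤ s * H := by
    have : s * (A - H - Y / s) ≤ 0 := mul_nonpos_of_nonneg_of_nonpos hs.le hE
    have e : s * (A - H - Y / s) = s * A - s * H - Y := by field_simp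
    linarith
  have i3 : s2 / 2 ≤ s * H := by linarith
  have hsin := Real.mul_le_sin hH0 hH1
  have hpi : Real.pi ≤ 4 := Real.pi_le_four
  have hpi0 := Real.pi_pos
  have i4 : 2 / Real.pi * (s * H) ≤ U := by
    have := mul_le_mul_of_nonneg_left hsin hs.le
    rw [hH] at this
    linarith
  have i5 : (1 : ℝ) / 2 ≤ 2 / Real.pi := by
    rw [le_div_iff₀ hpi0]; linarith
  have i6 : 1 / 2 * (s * H) ≤ 2 / Real.pi * (s * H) :=
    mul_le_mul_of_nonneg_right i5 (by positivity)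
  linarith

end Crest.Agent.R335.PL

namespace Crest.Agent.R335
open PL

/-- (L), lower bound of the pair on the slab -/
theorem lower {cg C0 P0 : ℝ} (hcg : 0 < cg) (hC : 1 ≤ C0) (hP : 1 ≤ P0) :
    ∃ P1 D0 : ℝ, 1 ≤ P1 ∧ 4 ≤ D0 ∧ ∀ D : ℝ, D0 ≤ D → ∀ (B : OBD cg C0 D) (K1 : ℝ),
      ∃ R0 : ℝ, ∀ R1 : ℝ, R0 ≤ R1 → ∀ K2 : ℝ, ∃ l' : ℝ, 0 < l' ∧ ∀ lam, 0 < lam → lam ≤ l' →
      ∀ (κ κS κT : ℝ) (s s1 s2 F w0 X sig : Pos3 → ℝ) (gs gs1 gs2 gF : Pos3 → Pos3),
        COut B (P0 * D ^ 20) K1 K2 R1 lam κ κS κT s s1 s2 F w0 X sig gs gs1 gs2 gF →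
        ∀ (U w : Pos3 → ℝ) (gU gw : Pos3 → Pos3) (om : ℝ), Pair s U gU w gw om →
          ∀ᵐ x : Pos3, R1 + 1 ≤ ‖x‖ → |x 2| ≤ 1 →
            CX.eLow κS κ (2 * (1 - lam)) lam B.om ‖x‖ ≤ P1 * D ^ 20 * U x := by
  obtain ⟨M0, D0, hM0, hD0, hdat⟩ := PLS.low_data (cg := cg) (C0 := C0) hP
  refine ⟨4 * M0, D0, by linarith, hD0, fun D hD B K1 => ?_⟩
  obtain ⟨Z1, dp, hZ1, hdp, hdp1, hom, -, hdat⟩ := hdat D hD B
  obtain ⟨R0, hR0a, hR0b, hdat⟩ := hdat K1
  have hD4 : 4 ≤ D := hD0.trans hD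
  have hD2 : 0 ≤ D ^ 2 := sq_nonneg D
  refine ⟨R0, fun R1 hR0 K2 => ?_⟩
  have hR1' : D + 200 ≤ R1 := hR0a.trans hR0
  obtain ⟨l1, hl1, hdat⟩ := hdat R1 hR0 K2
  obtain ⟨K3, hK3, hin⟩ := inner' hcg hC hD4 B (P0 * D ^ 20) K1 K2 R1
  -- lower bound of `√2 g` on the ball
  obtain ⟨c0, hc0, hgc⟩ : ∃ c0 : ℝ, 0 < c0 ∧ ∀ x : Pos3, ‖x‖ ≤ R1 + 1 → c0 ≤ √2 * B.g x := by
    obtain ⟨y, hy, hmin⟩ := (isCompact_closedBall (0 : Pos3) (R1 + 1)).exists_isMinOn
      ⟨0, Metric.mem_closedBall_self (by linarith)⟩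
      (f := fun x => √2 * B.g x) (by
        have := B.ob.cg
        fun_prop)
    refine ⟨√2 * B.g y, mul_pos (by positivity) (B.ob.g_pos y), fun x hx => ?_⟩
    exact hmin (mem_closedBall_zero_iff.2 hx)
  obtain ⟨csh, hcshdef⟩ : ∃ csh : ℝ, csh = Real.exp (-(1.1 * (R1 + 1))) := ⟨_, rfl⟩
  have hcsh : 0 < csh := by rw [hcshdef]; exact Real.exp_pos _
  obtain ⟨δ, hδdef⟩ : ∃ δ : ℝ, δ = min (dp * csh / 24) (c0 / 3) := ⟨_, rfl⟩
  have hδ : 0 < δ := by rw [hδdef]; exact lt_min (by positivity) (by positivity)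
  have hδ1 : δ ≤ dp * csh / 24 := by rw [hδdef]; exact min_le_left _ _
  have hδ2 : δ ≤ c0 / 3 := by rw [hδdef]; exact min_le_right _ _
  obtain ⟨l2, hl2, hin⟩ := hin (R1 + 1) δ hδ
  have hom2 : B.om ≤ 1 / 64 := by
    rw [OBD.om]; linarith [B.omle, B.cg1]
  refine ⟨min (min l1 l2) (min ((B.om / (3 * K3)) ^ 2)
    (dp * csh / (16 * (|K2| + 1)))), by positivity, ?_⟩
  intro lam hlam hl κ κS κT s s1 s2 F w0 X sig gs gs1 gs2 gF h U w gU gw om hp
  have e1 : lam ≤ l1 := hl.trans ((min_le_left _ _).trans (min_le_left _ _))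
  have e2 : lam ≤ l2 := hl.trans ((min_le_left _ _).trans (min_le_right _ _))
  have e4 : lam ≤ (B.om / (3 * K3)) ^ 2 := hl.trans ((min_le_right _ _).trans (min_le_left _ _))
  have e5 : lam ≤ dp * csh / (16 * (|K2| + 1)) := hl.trans ((min_le_right _ _).trans
    (min_le_right _ _))
  obtain ⟨hin1, hin2⟩ := hin lam hlam e2 κ κS κT s s1 s2 F w0 X sig gs gs1 gs2 gF h U w gU gw om hp
  have hom3 : |om - B.om| ≤ B.om / 3 := by
    refine hin1.trans ?_
    have : √lam ≤ B.om / (3 * K3) := by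
      rw [Real.sqrt_le_left (by positivity)]
      exact e4
    calc K3 * √lam ≤ K3 * (B.om / (3 * K3)) := mul_le_mul_of_nonneg_left this hK3.le
      _ = B.om / 3 := by field_simp
  have homab := abs_le.1 hom3
  obtain ⟨sh, dsh, hA⟩ := hdat lam hlam e1 κ κS κT s s1 s2 F w0 X sig gs gs1 gs2 gF h
  have hamp := h.amp
  have hHF := hf_of_pair hamp hp R1 Z1
  obtain ⟨er, cpl, hco, hRQ, hdp4⟩ := hA.core om (Hp s w) (dHp s U gU w gw) (by linarith)
    (by linarith) hHF.H_wg hHF.H_l2 hHF.H_nn hHF.H_le hHF.H_eq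
  have hgauge := gauge hco
  have hk : |K2| * lam ≤ dp * csh / 16 := by
    have i1 : (|K2| + 1) * lam ≤ (|K2| + 1) * (dp * csh / (16 * (|K2| + 1))) :=
      mul_le_mul_of_nonneg_left e5 (by positivity)
    have i2 : (|K2| + 1) * (dp * csh / (16 * (|K2| + 1))) = dp * csh / 16 := by
      field_simp
    nlinarith [abs_nonneg K2]
  have hK2 : K2 * lam ≤ |K2| * lam := mul_le_mul_of_nonneg_right (le_abs_self _) hlam.le
  have hUws := hp.adm.sq
  have hang := hp.angP hamp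
  have hB : Bdry om R1 Z1 dp (1 / 2) s s1 s2 (Hp s w) sh w gw := by
    refine ⟨hp.adm.hw, hp.adm.oddw, hp.w0, fun x => (le_abs_self _).trans (hang.abs_w_le x), ?_, ?_,
      hdp.le, ?_, by linarith⟩
    · exact Eventually.of_forall fun x hx => tr_of_pair hamp hp hx.2.1
    · filter_upwards [hin2, h.cl1, h.cl2, hco.s1_pos] with x a2 a3 a4 a5 hx hxR
      obtain ⟨a2, a2'⟩ := a2 hxR
      have hx2 : 0 < x 2 := hx.2.1
      have hx1 : R1 < ‖x‖ := hx.1
      have b1 := shell_alg (k := |K2| * lam) (δ := δ) (u := B.u x) (G := √2 * B.g x)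
        (U := U x) (w := w x) (s := s x) (s1 := s1 x) (s2 := s2 x) (H := Hp s w x) (a5 hx)
        (h.nn2 x) (hamp.pos x) (h.sq x) (hUws x) (hp.U0 x) (hp.w0 x hx2)
        (B.ob.u_pos x hx2).le (by positivity) hδ (by linarith [hgc x hxR]) (a3.trans hK2)
        (a4.trans hK2) a2 a2' (s_sin_Hp hamp hp x) (s_cos_Hp hamp hp x)
        (hco.H_nn x hx) (hco.H_le x hx)
      refine b1.trans ?_
      have b2 : csh ≤ sh x := by
        refine le_trans ?_ (hA.sh_low x (by linarith))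
        rw [hcshdef]
        exact Real.exp_le_exp.2 (by linarith)
      have b3 : dp / 2 * csh ≤ dp / 2 * sh x := mul_le_mul_of_nonneg_left b2 (by positivity)
      linarith
    · intro χ g hχ h0
      exact hardyS (by linarith) h hχ h0
  have hE := hco.concl hB hgauge hRQ hdp4
  -- `s2 ≤ 4 U` in the slab
  have hmain : ∀ᵐ x : Pos3, R1 + 1 ≤ ‖x‖ → 0 < x 2 → x 2 ≤ 1 →
      CX.eLow κS κ (2 * (1 - lam)) lam B.om ‖x‖ ≤ 4 * M0 * D ^ 20 * U x := by
    filter_upwards [hE, hA.sh_s2, hco.s1_pos, hco.F_pos', hco.F_le, hA.eLow_s2, hco.sh_nn]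
      with x a1 a2 a3 a4 a5 a6 a7 hx1 hx2 hx3
    have hxD : x ∈ Dom R1 Z1 := ⟨by linarith, hx2, by linarith⟩
    have hY : Ytot Z1 dp F s1 sh x ≤ s2 x / 2 := by
      refine le_trans ?_ (a2 hxD)
      rw [Ytot, XM, prof]
      have j1 : 2 * F x * (F x / s1 x - 1) ≤ 0 := by
        refine mul_nonpos_of_nonneg_of_nonpos (by linarith [a4 hxD]) ?_
        have := div_le_one_of_le₀ (a5 hxD) (a3 hxD).le
        linarith
      have hZ0 : 0 < Z1 := by linarith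
      have j2 : x 2 / Z1 * (2 - x 2 / Z1) ≤ 2 / Z1 := by
        have k1 : 0 ≤ x 2 / Z1 := div_nonneg hx2.le hZ0.le
        have k2 : x 2 / Z1 ≤ 1 / Z1 := div_le_div_of_nonneg_right hx3 hZ0.le
        have k3 : 2 / Z1 = 2 * (1 / Z1) := by ring
        rw [k3]
        nlinarith
      have j3 : 4 * sh x * (x 2 / Z1 * (2 - x 2 / Z1)) ≤ 4 * sh x * (2 / Z1) :=
        mul_le_mul_of_nonneg_left j2 (by linarith [a7 hxD])
      have j4 : (8 / Z1 + dp) * sh x = 4 * sh x * (2 / Z1) + dp * sh x := by ring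
      rw [j4]
      linarith
    have h4U : s2 x ≤ 4 * U x :=
      concl_alg (a3 hxD) (h.nn2 x) (hamp.pos x) (h.sq x) (s_sin_Hp hamp hp x)
        (hco.H_nn x hxD) (hco.H_le x hxD) hY (a1 hxD)
    have hMD : 0 ≤ M0 * D ^ 20 := by positivity
    calc CX.eLow κS κ (2 * (1 - lam)) lam B.om ‖x‖ ≤ M0 * D ^ 20 * s2 x := a6 hxD
      _ ≤ M0 * D ^ 20 * (4 * U x) := mul_le_mul_of_nonneg_left h4U hMD
      _ = 4 * M0 * D ^ 20 * U x := by ring
  -- transfer to `z < 0`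
  have hmain' := rz.measurePreserving.quasiMeasurePreserving.ae hmain
  have hz : ∀ᵐ x : Pos3, x 2 ≠ 0 := by
    rw [ae_iff]
    simpa using volume_coord_eq_zero (ι := Fin 3) 2
  filter_upwards [hmain, hmain', hz] with x a1 a2 a3 hx1 hx2
  have hx2' := abs_le.1 hx2
  rcases lt_or_gt_of_ne a3 with hneg | hpos
  · have hn : ‖rz x‖ = ‖x‖ := LinearIsometryEquiv.norm_map _ _
    have := a2 (by rw [hn]; exact hx1) (by rw [rzL_two]; linarith) (by rw [rzL_two]; linarith)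
    rw [hn, hp.adm.evenU] at this
    exact this
  · exact a1 hx1 hpos hx2'.2

end Crest.Agent.R335
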