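import Crest.Agent.R335.PUDefs
import Crest.Agent.R335.CXcalc

/-!
Row 335 (S0521), Part C, C.4: calculus of the barrier: `PU.bulk`.
-/

set_option autoImplicit false
set_option linter.unusedVariables false

open MeasureTheory Filter Set Crest.MathPhysics.ThreeBody
open scoped ENNReal Topology ContDiff

noncomputable section
namespace Crest.Agent.R335.PU
open Crest.Agent.R335

/-- `Sx` in terms of `CX.SS` -/
private theorem Sx_eq_SS' {D κ Q : ℝ} {x : Pos3} (h1 : 0 < ‖x - nuc D‖)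
    (h2 : 0 < ‖x - nuc (-D)‖) :
    Sx D κ (Q / κ - 1) 1 x = CX.SS D κ Q (-1) x := by
  unfold Sx CX.SS
  rw [EE_eq_Em h1, EE_eq_Em h2]
  norm_num

private theorem EE_nonneg {κ Q ρ : ℝ} (hρ : 0 < ρ) : 0 ≤ CX.EE κ Q 1 ρ := by
  unfold CX.EE
  have := Real.rpow_nonneg hρ.le (-(1 / 2) : ℝ)
  have := Real.rpow_nonneg hρ.le (Q / κ - 1)
  positivity

/-- the faster rate `κn` with charge `2` against the rate `κ` with charge `2(1-lam)` -/
private theorem EE_fast {κ κn Q g ρ : ℝ} (h1 : 9 / 10 ≤ κ) (hg : 0 ≤ g) (h2 : κ + g ≤ κn)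
    (hQ : 198 / 100 ≤ Q) (hρ : 1 ≤ ρ) :
    CX.EE κn 2 1 ρ ≤ Real.exp (-g * ρ) * ρ * CX.EE κ Q 1 ρ := by
  have hρ0 : 0 < ρ := by linarith
  unfold CX.EE
  have hs : 0 ≤ 1 + (1 : ℝ) * ρ ^ (-(1 / 2) : ℝ) := by
    have := Real.rpow_nonneg hρ0.le (-(1 / 2) : ℝ)
    linarith
  have he : Real.exp (-κn * ρ) ≤ Real.exp (-g * ρ) * Real.exp (-κ * ρ) := by
    rw [← Real.exp_add]
    refine Real.exp_le_exp.2 ?_
    nlinarith
  have hp : ρ ^ (2 / κn - 1) ≤ ρ * ρ ^ (Q / κ - 1) := by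
    have e : ρ * ρ ^ (Q / κ - 1) = ρ ^ (1 + (Q / κ - 1)) := by
      rw [Real.rpow_add hρ0, Real.rpow_one]
    rw [e]
    refine Real.rpow_le_rpow_of_exponent_le hρ ?_
    have hk : 0 < κ := by linarith
    have a1 : 2 / κn ≤ 2 / κ := div_le_div_of_nonneg_left (by norm_num) hk (by linarith)
    have a2 : 2 / κ ≤ 1 + Q / κ := by
      rw [div_le_iff₀ hk, add_mul, div_mul_cancel₀ _ hk.ne']
      linarith
    linarith
  calc Real.exp (-κn * ρ) * ρ ^ (2 / κn - 1) * (1 + (1 : ℝ) * ρ ^ (-(1 / 2) : ℝ))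
      ≤ (Real.exp (-g * ρ) * Real.exp (-κ * ρ)) * (ρ * ρ ^ (Q / κ - 1)) *
        (1 + (1 : ℝ) * ρ ^ (-(1 / 2) : ℝ)) := by
        refine mul_le_mul_of_nonneg_right ?_ hs
        exact mul_le_mul he hp (Real.rpow_nonneg hρ0.le _) (by positivity)
    _ = _ := by ring

/-- choice of the radius -/
private theorem radius {a b D g m : ℝ} (ha : 0 ≤ a) (hb : 0 ≤ b) (hD : 0 ≤ D) (hg : 0 < g)
    (hm : 0 < m) :
    ∃ R : ℝ, ∀ r : ℝ, R ≤ r →
      a * (Real.exp (-g * (r - D)) * (2 * r)) ≤ m / r ^ 2 ∧ b * (r ^ 4)⁻¹ ≤ m / r ^ 2 := by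
  have t1 : Tendsto (fun r : ℝ => 2 * a * Real.exp (g * D) * (r ^ 3 * Real.exp (-g * r))) atTop
      (𝓝 0) := by
    have := (Real.tendsto_pow_mul_exp_neg_atTop_nhds_zero 3)
    have t := tendsto_rpow_mul_exp_neg_mul_atTop_nhds_zero 3 g hg
    have t' : Tendsto (fun r : ℝ => r ^ 3 * Real.exp (-g * r)) atTop (𝓝 0) := by
      refine t.congr' ?_
      filter_upwards [eventually_gt_atTop (0 : ℝ)] with r hr
      norm_num
    simpa using t'.const_mul (2 * a * Real.exp (g * D))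
  have t2 : Tendsto (fun r : ℝ => b * (r ^ 2)⁻¹) atTop (𝓝 0) := by
    have : Tendsto (fun r : ℝ => (r ^ 2)⁻¹) atTop (𝓝 0) :=
      tendsto_inv_atTop_zero.comp (tendsto_pow_atTop (by norm_num))
    simpa using this.const_mul b
  have e := (((t1.eventually_lt_const hm).and (t2.eventually_lt_const hm)).and
    (eventually_ge_atTop (1 : ℝ)))
  obtain ⟨R, hR⟩ := eventually_atTop.1 e
  refine ⟨R, fun r hr => ?_⟩
  obtain ⟨⟨h1, h2⟩, h3⟩ := hR r hr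
  have hr0 : 0 < r := by linarith
  constructor
  · rw [le_div_iff₀ (by positivity)]
    have e1 : Real.exp (-g * (r - D)) = Real.exp (g * D) * Real.exp (-g * r) := by
      rw [← Real.exp_add]; congr 1; ring
    rw [e1]
    calc _ = 2 * a * Real.exp (g * D) * (r ^ 3 * Real.exp (-g * r)) := by ring
      _ ≤ m := h1.le
  · rw [le_div_iff₀ (by positivity)]
    have e2 : b * (r ^ 4)⁻¹ * r ^ 2 = b * (r ^ 2)⁻¹ := by
      field_simp
    rw [e2]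
    exact h2.le

/-- (module PUBulk) the barrier is small with respect to `O^+` away from the plane -/
theorem bulk {D A1 A2 om0 h ε : ℝ} (hD : 4 ≤ D) (hA1 : 0 ≤ A1) (hA2 : 0 ≤ A2) (ho : 0 < om0)
    (hh : 0 < h) (hε : 0 < ε) :
    ∃ R : ℝ, ∀ κ κn lam : ℝ, 0 ≤ lam → lam ≤ 1 / 100 → 9 / 10 ≤ κ → κ + om0 / 5 ≤ κn →
      κn ≤ 11 / 10 → ∀ x : Pos3, R ≤ ‖x‖ → h ≤ x 2 →
        fU D κn κ lam om0 A1 A2 x ≤ ε / ‖x‖ * CX.OO D κ (2 * (1 - lam)) 1 x := by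
  obtain ⟨c, hc, hcalc⟩ := half_calc
  have hD0 : 0 ≤ D := by linarith
  have hm : 0 < ε / 2 * c * (D * h) := by positivity
  obtain ⟨R0, hR0⟩ := radius (a := 2 * A1) (b := 2 * (A2 * (1 / 100 / om0 ^ 2))) (D := D)
    (g := om0 / 5) (by positivity) (by positivity) hD0 (by positivity) hm
  refine ⟨max R0 (max (D + 200) (D * h)), fun κ κn lam hl0 hl1 hk hkn hkn' x hx hxh => ?_⟩
  have hxR0 : R0 ≤ ‖x‖ := (le_max_left _ _).trans hx
  have hxD : D + 200 ≤ ‖x‖ := (le_max_left _ _).trans ((le_max_right _ _).trans hx)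
  have hxh' : D * h ≤ ‖x‖ := (le_max_right _ _).trans ((le_max_right _ _).trans hx)
  have hx0 : 0 < ‖x‖ := by linarith
  have hx2 : 0 ≤ x 2 := by linarith
  obtain ⟨r1, r2⟩ := hR0 ‖x‖ hxR0
  have n1 : ‖x‖ - D ≤ ‖x - nuc D‖ := by
    have := norm_sub_norm_le x (nuc D)
    rwa [CXc.norm_nuc' hD0] at this
  have n1' : ‖x - nuc D‖ ≤ ‖x‖ + D := by
    have := norm_sub_le x (nuc D)
    rwa [CXc.norm_nuc' hD0] at this
  have n2 : ‖x‖ - D ≤ ‖x - nuc (-D)‖ := by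
    have := norm_sub_norm_le x (nuc (-D))
    have e : ‖nuc (-D)‖ = D := by
      have : nuc (-D) = -nuc D := by
        ext i
        fin_cases i <;> simp [nuc]
      rw [this, norm_neg, CXc.norm_nuc' hD0]
    rwa [e] at this
  set ρ := ‖x - nuc D‖ with hρ
  have hρ1 : 1 ≤ ρ := by linarith
  have hρ0 : 0 < ρ := by linarith
  have hom : om0 / 5 ≤ 1 / 5 := by linarith
  have kq : KQ κ (2 * (1 - lam)) := ⟨hk, by linarith, by linarith, by linarith⟩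
  have kqn : KQ κn 2 := ⟨by linarith, hkn', by norm_num, le_rfl⟩
  obtain ⟨a1, a2, -⟩ := hcalc κ (2 * (1 - lam)) D x kq hD hxD hx2
  obtain ⟨-, b2, -⟩ := hcalc κn 2 D x kqn hD hxD hx2
  rw [← hρ] at a1 a2 b2
  set E := CX.EE κ (2 * (1 - lam)) 1 ρ with hE
  have hE0 : 0 ≤ E := EE_nonneg hρ0
  -- lower bound of the difference
  have hmin : D * h / ‖x‖ ≤ min 1 (D * x 2 / ‖x‖) := by
    refine le_min ?_ ?_
    · rw [div_le_one hx0]; exact hxh'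
    · gcongr
  have low : c * (D * h / ‖x‖) * E ≤ CX.OO D κ (2 * (1 - lam)) 1 x := by
    refine le_trans ?_ a1
    gcongr
  have fast := EE_fast (κ := κ) (κn := κn) (Q := 2 * (1 - lam)) (g := om0 / 5) hk (by positivity)
    hkn (by linarith) hρ1
  have fast2 : CX.EE κn 2 1 ρ ≤ Real.exp (-(om0 / 5) * (‖x‖ - D)) * (2 * ‖x‖) * E := by
    refine fast.trans ?_
    refine mul_le_mul_of_nonneg_right ?_ hE0
    refine mul_le_mul ?_ (by linarith) hρ0.le (Real.exp_pos _).le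
    refine Real.exp_le_exp.2 ?_
    nlinarith
  unfold fU ri
  rw [Sx_eq_SS' (by linarith) (by linarith), Sx_eq_SS' (by linarith) (by linarith)]
  have t1 : A1 * CX.SS D κn 2 (-1) x ≤ ε / 2 * c * (D * h) / ‖x‖ ^ 2 * E := by
    calc A1 * CX.SS D κn 2 (-1) x ≤ A1 * (2 * CX.EE κn 2 1 ρ) := by gcongr
      _ ≤ A1 * (2 * (Real.exp (-(om0 / 5) * (‖x‖ - D)) * (2 * ‖x‖) * E)) := by gcongr
      _ = 2 * A1 * (Real.exp (-(om0 / 5) * (‖x‖ - D)) * (2 * ‖x‖)) * E := by ring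
      _ ≤ _ := by gcongr
  have t2 : A2 * (lam / om0 ^ 2) * ((‖x‖ ^ 4)⁻¹ * CX.SS D κ (2 * (1 - lam)) (-1) x) ≤
      ε / 2 * c * (D * h) / ‖x‖ ^ 2 * E := by
    calc A2 * (lam / om0 ^ 2) * ((‖x‖ ^ 4)⁻¹ * CX.SS D κ (2 * (1 - lam)) (-1) x)
        ≤ A2 * (lam / om0 ^ 2) * ((‖x‖ ^ 4)⁻¹ * (2 * E)) := by gcongr
      _ ≤ A2 * (1 / 100 / om0 ^ 2) * ((‖x‖ ^ 4)⁻¹ * (2 * E)) := by gcongr
      _ = 2 * (A2 * (1 / 100 / om0 ^ 2)) * (‖x‖ ^ 4)⁻¹ * E := by ring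
      _ ≤ _ := by gcongr
  calc _ ≤ ε / 2 * c * (D * h) / ‖x‖ ^ 2 * E + ε / 2 * c * (D * h) / ‖x‖ ^ 2 * E :=
        add_le_add t1 t2
    _ = ε / ‖x‖ * (c * (D * h / ‖x‖) * E) := by
        field_simp
        ring
    _ ≤ _ := by gcongr

end Crest.Agent.R335.PU
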