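import Crest.Agent.R335.PU5
import Crest.Agent.R335.PUBulk

/-!
Row 335 (S0521), Part C, C.4: conclusions of the upper bound.
-/

set_option autoImplicit false
set_option linter.unusedSectionVars false
set_option linter.unusedVariables false

open MeasureTheory Filter Set Crest.MathPhysics.ThreeBody
open scoped ENNReal Topology ContDiff

noncomputable section
namespace Crest.Agent.R335
namespace PU

theorem ae_refl {p : Pos3 → Prop} (h : ∀ᵐ x : Pos3, p x) : ∀ᵐ x : Pos3, p x ∧ p (rz x) :=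
  h.and (rz.measurePreserving.quasiMeasurePreserving.ae h)

theorem rz_two' (x : Pos3) : (rz x) 2 = - x 2 := by
  simp [rz]

/-- reduction to the upper half space -/
theorem to_upper {p : Pos3 → Prop} (hp : ∀ x, p (rz x) → p x)
    (h : ∀ᵐ x : Pos3, 0 < x 2 → p x) : ∀ᵐ x : Pos3, x 2 ≠ 0 → p x := by
  filter_upwards [ae_refl h] with x hx h0
  rcases lt_or_gt_of_ne h0 with h1 | h1
  · exact hp x (hx.2 (by rw [rz_two']; linarith))
  · exact hx.1 h1

section
variable {cg C0 D : ℝ} {B : OBD cg C0 D} {P K1 K2 R1 lam κ κS κT κn Q : ℝ}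
  {s s1 s2 F w0 X sig : Pos3 → ℝ} {gs gs1 gs2 gF : Pos3 → Pos3} {U w : Pos3 → ℝ}
  {gU gw : Pos3 → Pos3} {om : ℝ}

/-- away from the plane: `U ≤ s/5`, hence `s ≤ 2 |w|` -/
theorem fin_two (h : COut B P K1 K2 R1 lam κ κS κT s s1 s2 F w0 X sig gs gs1 gs2 gF)
    (hq : PUPar B P R1 lam κ κS κT κn Q) (hp : Pair s U gU w gw om)
    (hb : ∀ x ∈ UpExt R1, 1 / 2 ≤ x 2 →
      bU Q D κn κ lam B.om (4 * P) (2 * P) x ≤ 1 / (10 * ‖x‖) * s x)
    (hU : ∀ᵐ x, x ∈ UpExt R1 → U x ≤ Real.pi / 2 * bU Q D κn κ lam B.om (4 * P) (2 * P) x) :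
    ∀ᵐ x : Pos3, R1 + 1 ≤ ‖x‖ → 1 / 2 ≤ |x 2| → s x ≤ 2 * |w x| := by
  obtain ⟨r1, -, -⟩ := Rbig hq
  have h1 := to_upper (p := fun x => R1 + 1 ≤ ‖x‖ → 1 / 2 ≤ |x 2| → s x ≤ 2 * |w x|) ?_ ?_
  · filter_upwards [h1] with x hx hxR hz
    refine hx ?_ hxR hz
    intro h0
    rw [h0, abs_zero] at hz
    norm_num at hz
  · intro x hx hxR hz
    have := hx (by rwa [rz.norm_map]) (by rwa [rz_two', abs_neg])
    rwa [h.amp.even, hp.adm.oddw, abs_neg] at this
  · filter_upwards [hU] with x hx hz0 hxR hz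
    rw [abs_of_pos hz0] at hz
    have hxU : x ∈ UpExt R1 := ⟨by linarith, hz0⟩
    have e1 := hx hxU
    have e2 := hb x hxU hz
    have hs0 := h.amp.pos x
    have hU0 := hp.U0 x
    have hpi := Real.pi_pos
    have hpi4 : Real.pi ≤ 4 := Real.pi_le_four
    have e3 : 1 / (10 * ‖x‖) * s x ≤ 1 / 10 * s x := by
      refine mul_le_mul_of_nonneg_right ?_ hs0.le
      exact one_div_le_one_div_of_le (by norm_num) (by linarith)
    have e4 : U x ≤ 1 / 5 * s x := by
      calc U x ≤ Real.pi / 2 * (1 / 10 * s x) :=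
            e1.trans (mul_le_mul_of_nonneg_left (e2.trans e3) (by positivity))
        _ ≤ 2 * (1 / 10 * s x) := mul_le_mul_of_nonneg_right (by linarith) (by positivity)
        _ = 1 / 5 * s x := by ring
    have e5 := hp.adm.sq x
    have e6 : U x ^ 2 ≤ (1 / 5 * s x) ^ 2 := pow_le_pow_left₀ hU0 e4 2
    have e7 : s x ^ 2 ≤ (2 * |w x|) ^ 2 := by
      rw [mul_pow, sq_abs]
      nlinarith [sq_nonneg (w x)]
    exact le_of_sq_le_sq (by positivity) e7
where
  le_of_sq_le_sq {a b : ℝ} (hb : 0 ≤ b) (h : a ^ 2 ≤ b ^ 2) : a ≤ b :=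
    (abs_le_of_sq_le_sq' h hb).2

theorem fin_small (h : COut B P K1 K2 R1 lam κ κS κT s s1 s2 F w0 X sig gs gs1 gs2 gF)
    (hq : PUPar B P R1 lam κ κS κT κn Q) (hp : Pair s U gU w gw om)
    (hU : ∀ᵐ x, x ∈ UpExt R1 → U x ≤ Real.pi / 2 * bU Q D κn κ lam B.om (4 * P) (2 * P) x) :
    SmallU s U := by
  intro hh hh0 ε hε
  have hP : 0 < P := by linarith [hq.P1]
  obtain ⟨r1, -, -⟩ := Rbig hq
  obtain ⟨R, hR⟩ := PU.bulk (D := D) (A1 := 4 * P) (A2 := 2 * P) (om0 := B.om) (h := hh)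
    (ε := ε / (4 * P)) hq.D4 (by positivity) (by positivity) hq.om0 hh0 (by positivity)
  refine ⟨max R (R1 + 1), ?_⟩
  have h1 := to_upper (p := fun x => hh ≤ |x 2| → max R (R1 + 1) ≤ ‖x‖ → U x ≤ ε * s x) ?_ ?_
  · filter_upwards [h1] with x hx hz hxR
    refine hx ?_ hz hxR
    intro h0
    rw [h0, abs_zero] at hz
    linarith
  · intro x hx hz hxR
    have := hx (by rwa [rz_two', abs_neg]) (by rwa [rz.norm_map])
    rwa [h.amp.even, hp.adm.evenU] at this
  · filter_upwards [hU] with x hx hz0 hz hxR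
    rw [abs_of_pos hz0] at hz
    have hx1 : R ≤ ‖x‖ := (le_max_left _ _).trans hxR
    have hx2 : R1 + 1 ≤ ‖x‖ := (le_max_right _ _).trans hxR
    have hxU : x ∈ UpExt R1 := ⟨by linarith, hz0⟩
    have e1 := hx hxU
    have e2 := hR κ κn lam hq.l0.le hq.l1 hq.k1 hq.gap hq.n2 x hx1 hz
    have e3 := OO_le_s h hq hxU
    have hf := xfar hq hxU
    have hf0 := fU_pos (om0 := B.om) (parN hq) (parF hq) (by positivity : 0 < 4 * P)
      (by positivity : 0 ≤ 2 * P) hq.l0.le hf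
    obtain ⟨g1, g2⟩ := gz_bounds (Q := Q) (x := x) (by linarith [hq.om0, hq.q0]) hq.q1 hz0.le
    have hs0 := h.amp.pos x
    have hpi := Real.pi_pos
    have hpi4 : Real.pi ≤ 3.15 := Real.pi_lt_d2.le
    have hr1 : 1 ≤ ‖x‖ := by linarith
    have e4 : fU D κn κ lam B.om (4 * P) (2 * P) x ≤ ε / 4 * s x := by
      refine e2.trans ?_
      calc ε / (4 * P) / ‖x‖ * CX.OO D κ (2 * (1 - lam)) 1 x ≤ ε / (4 * P) / ‖x‖ * (P * s x) :=
            mul_le_mul_of_nonneg_left e3 (by positivity)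
        _ = ε / 4 * s x / ‖x‖ := by field_simp
        _ ≤ ε / 4 * s x := div_le_self (by positivity) hr1
    have e5 : bU Q D κn κ lam B.om (4 * P) (2 * P) x ≤ 1.4 * (ε / 4 * s x) := by
      unfold bU
      exact mul_le_mul g2 e4 hf0.le (by norm_num)
    calc U x ≤ Real.pi / 2 * (1.4 * (ε / 4 * s x)) :=
          e1.trans (mul_le_mul_of_nonneg_left e5 (by positivity))
      _ ≤ 3.15 / 2 * (1.4 * (ε / 4 * s x)) :=
          mul_le_mul_of_nonneg_right (by linarith) (by positivity)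
      _ ≤ ε * s x := by
          have : 0 < ε * s x := by positivity
          nlinarith

end

end PU
end Crest.Agent.R335
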