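import Crest.Agent.R335.PU5

/-!
Row 335 (S0521), Part C, C.4: the last step of `CI.upper` in the slab (helper284).
-/

set_option autoImplicit false
set_option linter.unusedVariables false

open MeasureTheory Filter Set Crest.MathPhysics.ThreeBody
open scoped ENNReal Topology ContDiff

noncomputable section
namespace Crest.Agent.R335
namespace PU

theorem EE_nonneg1 (κ Q : ℝ) {ρ : ℝ} (hρ : 0 ≤ ρ) : 0 ≤ CX.EE κ Q 1 ρ := by
  unfold CX.EE
  have h1 := Real.rpow_nonneg hρ (Q / κ - 1)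
  have h2 := Real.rpow_nonneg hρ (-(1 / 2) : ℝ)
  have h3 := Real.exp_pos (-κ * ρ)
  rw [one_mul]
  positivity

/-- (module PUFinS) in the slab -/
theorem fin_slab : ∃ C : ℝ, 1 ≤ C ∧ ∀ {cg C0 D : ℝ} {B : OBD cg C0 D}
    {P K1 K2 R1 lam κ κS κT κn Q : ℝ} {s s1 s2 F w0 X sig : Pos3 → ℝ}
    {gs gs1 gs2 gF : Pos3 → Pos3} {U w : Pos3 → ℝ} {gU gw : Pos3 → Pos3} {om : ℝ},
    COut B P K1 K2 R1 lam κ κS κT s s1 s2 F w0 X sig gs gs1 gs2 gF →
    PUPar B P R1 lam κ κS κT κn Q → Pair s U gU w gw om →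
    (∀ ρ : ℝ, 100 ≤ ρ → CX.EE κn 2 1 ρ ≤ 8 * CX.eLow κS κ (2 * (1 - lam)) lam B.om ρ) →
    (∀ᵐ x, x ∈ UpExt R1 → U x ≤ Real.pi / 2 * bU Q D κn κ lam B.om (4 * P) (2 * P) x) →
    ∀ᵐ x : Pos3, R1 + 1 ≤ ‖x‖ → |x 2| ≤ 1 →
      U x ≤ C * P * CX.eLow κS κ (2 * (1 - lam)) lam B.om ‖x‖ := by
  obtain ⟨C, hC, hslab⟩ := PU.slab
  refine ⟨80 * C, by linarith, ?_⟩
  intro cg C0 D B P K1 K2 R1 lam κ κS κT κn Q s s1 s2 F w0 X sig gs gs1 gs2 gF U w gU gw om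
    h hq hp hn hU
  have hP : 0 < P := by linarith [hq.P1]
  obtain ⟨r1, r2, r3⟩ := Rbig hq
  -- upper half
  have up : ∀ᵐ x : Pos3, R1 + 1 ≤ ‖x‖ → |x 2| ≤ 1 → 0 < x 2 →
      U x ≤ 80 * C * P * CX.eLow κS κ (2 * (1 - lam)) lam B.om ‖x‖ := by
    filter_upwards [hU] with x hx hR hz hz0
    have hxU : x ∈ UpExt R1 := ⟨by linarith, hz0⟩
    have hf := xfar hq hxU
    have hr100 : 100 ≤ ‖x‖ := by linarith
    have hr0 : 0 < ‖x‖ := by linarith
    obtain ⟨g1, g2⟩ := gz_bounds (Q := Q) (x := x) (by linarith [hq.om0, hq.q0]) hq.q1 hz0.le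
    have hf0 := fU_pos (om0 := B.om) (parN hq) (parF hq) (by positivity : 0 < 4 * P)
      (by positivity : 0 ≤ 2 * P) hq.l0.le hf
    have e1 := hslab D (4 * P) (2 * P) B.om κ κn lam hq.D4 (by positivity) (by positivity) hq.om0
      hq.l0.le hq.l1 hq.k1 hq.k2 hq.n1 hq.n2 x (by linarith) hz
    have e2 := hn ‖x‖ hr100
    have e3 : lam / B.om ^ 2 / ‖x‖ ^ 4 * CX.EE κ (2 * (1 - lam)) 1 ‖x‖ ≤
        CX.eLow κS κ (2 * (1 - lam)) lam B.om ‖x‖ := by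
      unfold CX.eLow
      linarith [EE_nonneg1 κS (2 * (1 - lam)) hr0.le]
    have e4 : 0 ≤ CX.EE κn 2 1 ‖x‖ := EE_nonneg1 _ _ hr0.le
    have e5 : 0 ≤ CX.eLow κS κ (2 * (1 - lam)) lam B.om ‖x‖ := by linarith
    have e6 := hx hxU
    generalize CX.eLow κS κ (2 * (1 - lam)) lam B.om ‖x‖ = E at *
    have e7 : 4 * P * CX.EE κn 2 1 ‖x‖ + 2 * P * (lam / B.om ^ 2 / ‖x‖ ^ 4) *
        CX.EE κ (2 * (1 - lam)) 1 ‖x‖ ≤ 34 * (P * E) := by
      have a1 := mul_le_mul_of_nonneg_left e2 (by positivity : 0 ≤ 4 * P)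
      have a2 := mul_le_mul_of_nonneg_left e3 (by positivity : 0 ≤ 2 * P)
      calc _ = 4 * P * CX.EE κn 2 1 ‖x‖ + 2 * P * (lam / B.om ^ 2 / ‖x‖ ^ 4 *
            CX.EE κ (2 * (1 - lam)) 1 ‖x‖) := by ring
        _ ≤ 4 * P * (8 * E) + 2 * P * E := add_le_add a1 a2
        _ = _ := by ring
    have e8 : fU D κn κ lam B.om (4 * P) (2 * P) x ≤ C * (34 * (P * E)) :=
      e1.trans (mul_le_mul_of_nonneg_left e7 (by linarith))
    have e9 : bU Q D κn κ lam B.om (4 * P) (2 * P) x ≤ 1.4 * (C * (34 * (P * E))) := by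
      unfold bU
      exact (mul_le_mul_of_nonneg_right g2 hf0.le).trans
        (mul_le_mul_of_nonneg_left e8 (by norm_num))
    have hpi : Real.pi / 2 ≤ 1.58 := by linarith [Real.pi_lt_d2]
    have hb0 : 0 ≤ 1.4 * (C * (34 * (P * E))) := by
      have : 0 ≤ C := by linarith
      positivity
    calc U x ≤ Real.pi / 2 * bU Q D κn κ lam B.om (4 * P) (2 * P) x := e6
      _ ≤ Real.pi / 2 * (1.4 * (C * (34 * (P * E)))) :=
          mul_le_mul_of_nonneg_left e9 (by positivity)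
      _ ≤ 1.58 * (1.4 * (C * (34 * (P * E)))) := mul_le_mul_of_nonneg_right hpi hb0
      _ ≤ 80 * C * P * E := by
          have : 0 ≤ C * (P * E) := by
            have : 0 ≤ C := by linarith
            positivity
          linarith
  -- reflection
  have down : ∀ᵐ x : Pos3, R1 + 1 ≤ ‖x‖ → |x 2| ≤ 1 → x 2 < 0 →
      U x ≤ 80 * C * P * CX.eLow κS κ (2 * (1 - lam)) lam B.om ‖x‖ := by
    have := rz.measurePreserving.quasiMeasurePreserving.ae up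
    filter_upwards [this] with x hx hR hz hz0
    have z1 : rz x 2 = - x 2 := by rw [rz_apply]; simp
    have n1 : ‖rz x‖ = ‖x‖ := rz.norm_map x
    have u1 : U (rz x) = U x := hp.adm.evenU x
    rw [z1, n1, u1, abs_neg] at hx
    exact hx hR hz (by linarith)
  filter_upwards [up, down, ae_coord_ne_zero (2 : Fin 3)] with x h1 h2 h3 hR hz
  rcases lt_or_gt_of_ne h3 with h4 | h4
  · exact h2 hR hz h4
  · exact h1 hR hz h4

end PU
end Crest.Agent.R335
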