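import Crest.Agent.R335.PU6
import Crest.Agent.R335.PUFin
import Crest.Agent.R335.PUFinS
import Crest.Agent.R335.PSup
import Crest.Agent.R335.CIface

/-!
Row 335 (S0521), Part C, C.4: parameters and the theorem `upper`.
-/

set_option autoImplicit false
set_option linter.unusedSectionVars false
set_option linter.unusedVariables false

open MeasureTheory Filter Set Crest.MathPhysics.ThreeBody
open scoped ENNReal Topology ContDiff

noncomputable section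
namespace Crest.Agent.R335
namespace PU

/-- the tunnelling gap is small -/
theorem om_small {cg C0 D : ℝ} (hC : 1 ≤ C0) (hD : 4 ≤ D) (B : OBD cg C0 D) :
    0 < B.om ∧ B.om ≤ 1 / 100 := by
  have h0 : 0 < B.om := by unfold OBD.om; linarith [B.ob.eg_lt]
  refine ⟨h0, ?_⟩
  have h1 := B.tun
  have h2 := B.big
  have h3 : D * Real.exp (-(3 * D / 2)) ≤ 1 := by
    rw [Real.exp_neg, ← div_eq_mul_inv, div_le_one (Real.exp_pos _)]
    have := Real.add_one_le_exp (3 * D / 2)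
    linarith
  have h4 := Real.exp_pos (-(3 * D / 2))
  have h5 : 100 * C0 * Real.exp (-(3 * D / 2)) ≤ D * Real.exp (-(3 * D / 2)) :=
    mul_le_mul_of_nonneg_right h2 h4.le
  unfold OBD.om
  linarith

section
variable {cg C0 D : ℝ} {B : OBD cg C0 D} {P K1 K2 R1 lam κ κS κT : ℝ}
  {s s1 s2 F w0 X sig : Pos3 → ℝ} {gs gs1 gs2 gF : Pos3 → Pos3} {om : ℝ}

/-- the natural decay rate -/
def kn (κ κS κT om : ℝ) : ℝ := √(min (min (κS ^ 2) (κT ^ 2)) (κ ^ 2 + 2 * om))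

theorem par_ok (h : COut B P K1 K2 R1 lam κ κS κT s s1 s2 F w0 X sig gs gs1 gs2 gF)
    (hD : 4 ≤ D) (hP : 1 ≤ P) (hR1 : 6000 * D ^ 2 ≤ R1) (hR2 : 80 / B.om ≤ R1)
    (ho : 0 < B.om) (ho1 : B.om ≤ 1 / 100) (hl : lam ≤ 1 / 100) {K3 : ℝ} (hK3 : 0 < K3)
    (hom : |om - B.om| ≤ K3 * √lam) (hom0 : 0 < om)
    (hsm : 2 * (|K2| + K3) * √lam ≤ B.om) :
    PUPar B P R1 lam κ κS κT (kn κ κS κT om) (2 * om) ∧
      κ ^ 2 + B.om ≤ kn κ κS κT om ^ 2 ∧ kn κ κS κT om ^ 2 ≤ κS ^ 2 ∧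
      κS ^ 2 ≤ kn κ κS κT om ^ 2 + (2 * |K2| + 2 * K3) * √lam := by
  have hl0 := h.lam_pos
  obtain ⟨k1, k2⟩ := h.κ_rng
  obtain ⟨S1, S2⟩ := h.κS_rng
  obtain ⟨T1, T2⟩ := h.κT_rng
  have n1 := abs_le.1 h.κ_near
  have n2 := abs_le.1 h.κS_near
  have n3 := abs_le.1 h.κT_near
  have n4 := abs_le.1 hom
  have hσ : lam ≤ √lam := by
    refine Real.le_sqrt_of_sq_le ?_
    nlinarith
  have hσ0 : 0 ≤ √lam := Real.sqrt_nonneg _
  have hK : K2 * lam ≤ |K2| * √lam :=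
    (mul_le_mul_of_nonneg_right (le_abs_self K2) hl0.le).trans
      (mul_le_mul_of_nonneg_left hσ (abs_nonneg _))
  have hK3σ : 0 ≤ K3 * √lam := by positivity
  have hK2σ : 0 ≤ |K2| * √lam := by positivity
  have hoe : B.om = B.eu - B.eg := rfl
  set m := min (min (κS ^ 2) (κT ^ 2)) (κ ^ 2 + 2 * om) with hm
  have m0 : 0 ≤ m := le_min (le_min (sq_nonneg _) (sq_nonneg _)) (by positivity)
  have hsq : kn κ κS κT om ^ 2 = m := by unfold kn; exact Real.sq_sqrt m0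
  have kn0 : 0 ≤ kn κ κS κT om := Real.sqrt_nonneg _
  have mS : m ≤ κS ^ 2 := (min_le_left _ _).trans (min_le_left _ _)
  have mT : m ≤ κT ^ 2 := (min_le_left _ _).trans (min_le_right _ _)
  have mQ : m ≤ κ ^ 2 + 2 * om := min_le_right _ _
  have hsm' : 2 * (|K2| * √lam) + 2 * (K3 * √lam) ≤ B.om := by
    refine le_trans (le_of_eq ?_) hsm
    ring
  have hK' : (2 * |K2| + 2 * K3) * √lam = 2 * (|K2| * √lam) + 2 * (K3 * √lam) := by ring
  rw [hK']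
  generalize |K2| * √lam = a at *
  generalize K3 * √lam = b at *
  have g1 : κ ^ 2 + B.om ≤ m := by
    refine le_min (le_min ?_ ?_) ?_ <;> linarith
  have g2 : κS ^ 2 ≤ m + (2 * a + 2 * b) := by
    rcases min_choice (min (κS ^ 2) (κT ^ 2)) (κ ^ 2 + 2 * om) with e | e
    · rcases min_choice (κS ^ 2) (κT ^ 2) with e' | e'
      · rw [hm, e, e']; linarith
      · rw [hm, e, e']; linarith
    · rw [hm, e]; linarith
  have q0 : B.om ≤ 2 * om := by linarith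
  have q1 : 2 * om ≤ 1 / 20 := by linarith
  have gap : κ + B.om / 5 ≤ kn κ κS κT om := by
    refine Real.le_sqrt_of_sq_le (le_trans ?_ g1)
    have e1 : κ * B.om ≤ 11 / 10 * B.om := mul_le_mul_of_nonneg_right k2 ho.le
    have e2 : B.om * B.om ≤ 1 / 100 * B.om := mul_le_mul_of_nonneg_right ho1 ho.le
    have e3 : (κ + B.om / 5) ^ 2 = κ ^ 2 + 2 / 5 * (κ * B.om) + 1 / 25 * (B.om * B.om) := by ring
    rw [e3]
    linarith
  have nS : kn κ κS κT om ≤ κS := by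
    unfold kn
    rw [Real.sqrt_le_left (by linarith)]
    exact mS
  have nT : kn κ κS κT om ≤ κT := by
    unfold kn
    rw [Real.sqrt_le_left (by linarith)]
    exact mT
  refine ⟨⟨hD, hP, hR1, hR2, ho, ho1, hl0, hl, k1, k2, by linarith, by linarith, nS, nT, gap,
    by rw [hsq]; exact mQ, q0, q1⟩, by rw [hsq]; exact g1, by rw [hsq]; exact mS,
    by rw [hsq]; exact g2⟩

end
end PU

/-- the upper bound (U) -/
theorem upper {cg C0 P0 : ℝ} (hcg : 0 < cg) (hC : 1 ≤ C0) (hP : 1 ≤ P0) :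
    ∃ P1 D0 : ℝ, 1 ≤ P1 ∧ 4 ≤ D0 ∧ ∀ D : ℝ, D0 ≤ D → ∀ (B : OBD cg C0 D) (K1 : ℝ),
      ∃ R0 : ℝ, ∀ R1 : ℝ, R0 ≤ R1 → ∀ K2 : ℝ, ∃ l' : ℝ, 0 < l' ∧ ∀ lam, 0 < lam → lam ≤ l' →
      ∀ (κ κS κT : ℝ) (s s1 s2 F w0 X sig : Pos3 → ℝ) (gs gs1 gs2 gF : Pos3 → Pos3),
        COut B (P0 * D ^ 20) K1 K2 R1 lam κ κS κT s s1 s2 F w0 X sig gs gs1 gs2 gF →
        ∀ (U w : Pos3 → ℝ) (gU gw : Pos3 → Pos3) (om : ℝ), Pair s U gU w gw om →
          (∀ᵐ x : Pos3, R1 + 1 ≤ ‖x‖ → |x 2| ≤ 1 →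
            U x ≤ P1 * D ^ 60 * CX.eLow κS κ (2 * (1 - lam)) lam B.om ‖x‖) ∧
          (∀ᵐ x : Pos3, R1 + 1 ≤ ‖x‖ → 1 / 2 ≤ |x 2| → s x ≤ 2 * |w x|) ∧
          SmallU s U := by
  obtain ⟨Cs, hCs, hslab⟩ := PU.fin_slab
  refine ⟨Cs * P0, 4, one_le_mul_of_one_le_of_one_le hCs hP, le_rfl, fun D hD B K1 => ?_⟩
  obtain ⟨ho, ho1⟩ := PU.om_small hC hD B
  have hD1 : (1 : ℝ) ≤ D := by linarith
  have hPP : 1 ≤ P0 * D ^ 20 := one_le_mul_of_one_le_of_one_le hP (one_le_pow₀ hD1)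
  set P := P0 * D ^ 20 with hPdef
  have hP0 : 0 < P := by linarith
  obtain ⟨Rb, hRb⟩ := PU.bulk (D := D) (A1 := 4 * P) (A2 := 2 * P) (om0 := B.om) (h := 1 / 2)
    (ε := 1 / 10 / (1.4 * P)) hD (by positivity) (by positivity) ho (by norm_num) (by positivity)
  refine ⟨max (max (6000 * D ^ 2) (80 / B.om)) Rb, fun R1 hR K2 => ?_⟩
  have hR1 : 6000 * D ^ 2 ≤ R1 := ((le_max_left _ _).trans (le_max_left _ _)).trans hR
  have hR2 : 80 / B.om ≤ R1 := ((le_max_right _ _).trans (le_max_left _ _)).trans hR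
  have hR3 : Rb ≤ R1 := (le_max_right _ _).trans hR
  obtain ⟨K3, hK3, hin⟩ := inner' hcg hC hD B P K1 K2 R1
  set e0 : ℝ := 0.9 * Real.exp (-(1.1 * (R1 + 1 + D))) with he0
  have he00 : 0 < e0 := by positivity
  obtain ⟨l1, hl1, hin1⟩ := hin (R1 + 1) (P * e0 / 2) (by positivity)
  obtain ⟨l2, hl2, hnat⟩ := nat_le_eLow (om := B.om) (K3 := 2 * |K2| + 2 * K3) ho (by linarith)
    (by positivity)
  set l3 : ℝ := (P * e0 / 2) / (|K2| + P / B.om + 1) with hl3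
  have hl30 : 0 < l3 := by positivity
  set l4 : ℝ := (B.om / (2 * (|K2| + K3))) ^ 2 with hl4
  have hl40 : 0 < l4 := by positivity
  refine ⟨min (min (1 / 100) l1) (min (min l2 l3) l4), by positivity, ?_⟩
  intro lam hlam hl κ κS κT s s1 s2 F w0 X sig gs gs1 gs2 gF h U w gU gw om hp
  have i1 : lam ≤ 1 / 100 := hl.trans ((min_le_left _ _).trans (min_le_left _ _))
  have i2 : lam ≤ l1 := hl.trans ((min_le_left _ _).trans (min_le_right _ _))
  have i3 : lam ≤ l2 := hl.trans ((min_le_right _ _).trans ((min_le_left _ _).trans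
    (min_le_left _ _)))
  have i4 : lam ≤ l3 := hl.trans ((min_le_right _ _).trans ((min_le_left _ _).trans
    (min_le_right _ _)))
  have i5 : lam ≤ l4 := hl.trans ((min_le_right _ _).trans (min_le_right _ _))
  obtain ⟨hom, hcl⟩ := hin1 lam hlam i2 κ κS κT s s1 s2 F w0 X sig gs gs1 gs2 gF h U w gU gw om hp
  have hsm : 2 * (|K2| + K3) * √lam ≤ B.om := by
    have e1 : √lam ≤ B.om / (2 * (|K2| + K3)) := by
      rw [Real.sqrt_le_left (by positivity)]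
      exact i5
    rw [le_div_iff₀ (by positivity)] at e1
    linarith
  obtain ⟨hq, q1, q2, q3⟩ := PU.par_ok h hD hPP hR1 hR2 ho ho1 i1 hK3 hom hp.om_pos hsm
  have hnat' := hnat lam κ κS (PU.kn κ κS κT om) hlam i3 ⟨hq.k1, hq.k2, by norm_num, le_rfl⟩
    ⟨h.κS_rng.1, h.κS_rng.2, by norm_num, le_rfl⟩ ⟨hq.n1, hq.n2, by norm_num, le_rfl⟩ q1 q2 q3
  have hbk := PU.bulk_s h hq (hh := 1 / 2) (ε := 1 / 10) (by norm_num) (fun x hx hz =>
    hRb κ (PU.kn κ κS κT om) lam hlam.le i1 hq.k1 hq.gap hq.n2 x (hR3.trans hx) hz)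
  have hsh := PU.shell h hq hp (δ := P * e0 / 2) (by
    have e1 : lam * (|K2| + P / B.om + 1) ≤ P * e0 / 2 := by
      rw [← le_div_iff₀ (by positivity)]; exact i4
    have e2 : P * (lam / B.om) = lam * (P / B.om) := by ring
    rw [e2]
    nlinarith) hcl
  have hcmp := PU.comparison h hq hp hbk hsh
  have hU := PU.U_le h hq hp hcmp
  refine ⟨?_, ?_, PU.fin_small h hq hp hU⟩
  · have h1 := hslab h hq hp hnat' hU
    filter_upwards [h1] with x hx hxR hz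
    refine (hx hxR hz).trans ?_
    have hr100 : 100 ≤ ‖x‖ := by
      have := (PU.Rbig hq).1
      linarith
    have hkS : KQ κS (2 * (1 - lam)) := ⟨h.κS_rng.1, h.κS_rng.2, by linarith, by linarith⟩
    have he1 := CXc.EE_pos hkS (Or.inl rfl) hr100
    have he2 := CXc.EE_pos (PU.kq hq) (Or.inl rfl) hr100
    have he3 : 0 ≤ CX.eLow κS κ (2 * (1 - lam)) lam B.om ‖x‖ := by
      unfold CX.eLow; positivity
    refine mul_le_mul_of_nonneg_right ?_ he3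
    have e4 : D ^ 20 ≤ D ^ 60 := pow_le_pow_right₀ hD1 (by norm_num)
    have e5 : 0 ≤ Cs * P0 := by positivity
    calc Cs * P = Cs * P0 * D ^ 20 := by rw [hPdef]; ring
      _ ≤ Cs * P0 * D ^ 60 := mul_le_mul_of_nonneg_left e4 e5
  · refine PU.fin_two h hq hp ?_ hU
    intro x hx hz
    have := hbk x hx hz
    rwa [div_div] at this

end Crest.Agent.R335
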