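import Crest.Agent.R335.CExt
import Crest.Agent.R335.CIface
import Crest.Agent.R335.GU3
import Crest.Agent.R335.PLLower
import Crest.Agent.R335.PU7

/-!
Row 335 (S0521), part C: `ExtHyp` with all quantifiers (input of `CPoin`, helper737), from
`CI.upper`, `CI.lower`.
-/

set_option autoImplicit false

open MeasureTheory Filter Set Crest.MathPhysics.ThreeBody
open scoped ENNReal Topology ContDiff NNReal

noncomputable section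
namespace Crest.Agent.R335

theorem extHyp_exists {cg C0 P0 : ℝ} (hcg : 0 < cg) (hC : 1 ≤ C0) (hP : 1 ≤ P0) :
    ∃ (P2 D0 : ℝ) (n : ℕ), 1 ≤ P2 ∧ 4 ≤ D0 ∧ ∀ D : ℝ, D0 ≤ D → ∀ (B : OBD cg C0 D) (K1 : ℝ),
      ∃ R0 : ℝ, ∀ R1 : ℝ, R0 ≤ R1 → ∀ K2 : ℝ, ∃ l' : ℝ, 0 < l' ∧ ∀ lam, 0 < lam → lam ≤ l' →
      ∀ (κ κS κT : ℝ) (s s1 s2 F w0 X sig : Pos3 → ℝ) (gs gs1 gs2 gF : Pos3 → Pos3),
        COut B (P0 * D ^ 20) K1 K2 R1 lam κ κS κT s s1 s2 F w0 X sig gs gs1 gs2 gF →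
        ∀ (U w : Pos3 → ℝ) (gU gw : Pos3 → Pos3) (om : ℝ), Pair s U gU w gw om →
          ∃ (e2 : Pos3 → ℝ) (a cl cu : ℝ), ExtHyp s U w e2 (R1 + 1) a cl cu (1 / 2) (1 / 2) ∧
            K0of a cl cu (1 / 2) (1 / 2) ≤ P2 * D ^ n := by
  obtain ⟨Pu, Du, hPu, hDu, hu⟩ := upper (P0 := P0) hcg hC hP
  obtain ⟨Pl, Dl, hPl, hDl, hl⟩ := lower (P0 := P0) hcg hC hP
  refine ⟨276 * (Pu ^ 2 * Pl ^ 2), max Du Dl, 160, ?_, le_max_of_le_left hDu,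
    fun D hD B K1 => ?_⟩
  · have h1 : 1 ≤ Pu ^ 2 := one_le_pow₀ hPu
    have h2 : 1 ≤ Pl ^ 2 := one_le_pow₀ hPl
    nlinarith
  obtain ⟨R0, h1⟩ := hu D (le_trans (le_max_left _ _) hD) B K1
  obtain ⟨R0', h2⟩ := hl D (le_trans (le_max_right _ _) hD) B K1
  refine ⟨max (max R0 R0') (D + 40), fun R1 hR K2 => ?_⟩
  obtain ⟨l1, hl1, h3⟩ := h1 R1 (le_trans (le_trans (le_max_left _ _) (le_max_left _ _)) hR) K2
  obtain ⟨l2, hl2, h4⟩ := h2 R1 (le_trans (le_trans (le_max_right _ _) (le_max_left _ _)) hR) K2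
  refine ⟨min l1 l2, lt_min hl1 hl2, fun lam hlam hle κ κS κT s s1 s2 F w0 X sig gs gs1 gs2 gF h
    U w gU gw om hp => ?_⟩
  obtain ⟨a1, a2, -⟩ := h3 lam hlam (hle.trans (min_le_left _ _)) κ κS κT s s1 s2 F w0 X sig gs
    gs1 gs2 gF h U w gU gw om hp
  have a3 := h4 lam hlam (hle.trans (min_le_right _ _)) κ κS κT s s1 s2 F w0 X sig gs
    gs1 gs2 gF h U w gU gw om hp
  have hD1 : (1 : ℝ) ≤ D := by
    have := le_trans (le_max_left _ _) hD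
    linarith
  have hD0 : (0 : ℝ) < D := by linarith
  obtain ⟨e2, he⟩ := extHyp_of (le_trans (le_max_right _ _) hR) h hp (Pl := Pl * D ^ 20)
    (Pu := Pu * D ^ 60) (by positivity) (by positivity) a3 a1 a2
  refine ⟨e2, _, _, _, he, ?_⟩
  unfold K0of
  have e1 : (Pu * D ^ 60) ^ 2 / (1 / (Pl * D ^ 20) ^ 2 * (1 / 2 : ℝ) ^ 2) =
      4 * (Pu ^ 2 * Pl ^ 2 * D ^ 160) := by
    field_simp
    ring
  rw [e1]
  have h5 : (1 : ℝ) ≤ Pu ^ 2 * Pl ^ 2 * D ^ 160 := by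
    have b1 : 1 ≤ Pu ^ 2 := one_le_pow₀ hPu
    have b2 : 1 ≤ Pl ^ 2 := one_le_pow₀ hPl
    have b3 : 1 ≤ D ^ 160 := one_le_pow₀ hD1
    have b4 : 1 ≤ Pu ^ 2 * Pl ^ 2 := by nlinarith
    nlinarith
  have e2 : 276 * (Pu ^ 2 * Pl ^ 2) * D ^ 160 = 276 * (Pu ^ 2 * Pl ^ 2 * D ^ 160) := by ring
  rw [e2]
  norm_num
  linarith

end Crest.Agent.R335
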