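import Crest.Agent.R335.CDefs

/-!
Row 335 (S0521), PART C: decomposition of `CI.inner` (statements with `sorry`, namespace `...R335.CI`).
-/

set_option autoImplicit false
set_option linter.unusedVariables false

open MeasureTheory Filter Set Crest.MathPhysics.ThreeBody
open scoped ENNReal Topology ContDiff

noncomputable section
namespace Crest.Agent.R335.CI
open Crest.Agent.R335

/-- I1 (trial pair `s cos (t α_c)`, `s sin (t α_c)`, mass fixed by continuity in `t`) -/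
theorem pair_energy {cg C0 D : ℝ} (hcg : 0 < cg) (hC : 1 ≤ C0) (hD : 4 ≤ D) (B : OBD cg C0 D)
    (P K1 K2 R1 : ℝ) :
    ∃ K4 l' : ℝ, 0 < K4 ∧ 0 < l' ∧ ∀ lam, 0 < lam → lam ≤ l' →
      ∀ (κ κS κT : ℝ) (s s1 s2 F w0 X sig : Pos3 → ℝ) (gs gs1 gs2 gF : Pos3 → Pos3),
        COut B P K1 K2 R1 lam κ κS κT s s1 s2 F w0 X sig gs gs1 gs2 gF →
        ∀ (U w : Pos3 → ℝ) (gU gw : Pos3 → Pos3) (om : ℝ), Pair s U gU w gw om →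
          Q2 D U gU + Q2 D w gw ≤ 2 * B.eg + B.eu + K4 * lam := sorry

/-- I2 (from I1 and the gap of `OneBody`; signs by positivity) -/
theorem pair_H1 {cg C0 D : ℝ} (hcg : 0 < cg) (hC : 1 ≤ C0) (hD : 4 ≤ D) (B : OBD cg C0 D)
    (P K1 K2 R1 : ℝ) :
    ∃ K4 l' : ℝ, 0 < K4 ∧ 0 < l' ∧ ∀ lam, 0 < lam → lam ≤ l' →
      ∀ (κ κS κT : ℝ) (s s1 s2 F w0 X sig : Pos3 → ℝ) (gs gs1 gs2 gF : Pos3 → Pos3),
        COut B P K1 K2 R1 lam κ κS κT s s1 s2 F w0 X sig gs gs1 gs2 gF →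
        ∀ (U w : Pos3 → ℝ) (gU gw : Pos3 → Pos3) (om : ℝ), Pair s U gU w gw om →
          (∫ x, (U x - √2 * B.g x) ^ 2) + (∫ x, ‖gU x - √2 • B.dg x‖ ^ 2) +
            (∫ x, (w x - B.u x) ^ 2) + (∫ x, ‖gw x - B.du x‖ ^ 2) ≤ K4 * lam := sorry

/-- I3 (Euler-Lagrange equation tested with one fixed function) -/
theorem pair_mult {cg C0 D : ℝ} (hcg : 0 < cg) (hC : 1 ≤ C0) (hD : 4 ≤ D) (B : OBD cg C0 D)
    (P K1 K2 R1 : ℝ) :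
    ∃ K4 l' : ℝ, 0 < K4 ∧ 0 < l' ∧ ∀ lam, 0 < lam → lam ≤ l' →
      ∀ (κ κS κT : ℝ) (s s1 s2 F w0 X sig : Pos3 → ℝ) (gs gs1 gs2 gF : Pos3 → Pos3),
        COut B P K1 K2 R1 lam κ κS κT s s1 s2 F w0 X sig gs gs1 gs2 gF →
        ∀ (U w : Pos3 → ℝ) (gU gw : Pos3 → Pos3) (om : ℝ), Pair s U gU w gw om →
          |om - B.om| ≤ K4 * √lam := sorry

/-- I4 (sup bound of `α - α₀` on balls) -/
theorem pair_sup {cg C0 D : ℝ} (hcg : 0 < cg) (hC : 1 ≤ C0) (hD : 4 ≤ D) (B : OBD cg C0 D)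
    (P K1 K2 R1 Rb δ : ℝ) (hδ : 0 < δ) :
    ∃ l' : ℝ, 0 < l' ∧ ∀ lam, 0 < lam → lam ≤ l' →
      ∀ (κ κS κT : ℝ) (s s1 s2 F w0 X sig : Pos3 → ℝ) (gs gs1 gs2 gF : Pos3 → Pos3),
        COut B P K1 K2 R1 lam κ κS κT s s1 s2 F w0 X sig gs gs1 gs2 gF →
        ∀ (U w : Pos3 → ℝ) (gU gw : Pos3 → Pos3) (om : ℝ), Pair s U gU w gw om →
          ∀ᵐ x : Pos3, ‖x‖ ≤ Rb → |U x - √2 * B.g x| ≤ δ ∧ |w x - B.u x| ≤ δ := sorry

end Crest.Agent.R335.CI
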