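import Crest.Agent.R335.CDefs
import Crest.Agent.R335.XMod

/-!
Row 335 (S0521), PART C: EXPLICIT CALCULUS of the two-centre functions `CX.*` (statements with
`sorry`, namespace `...R335.CI`; to be proved as `Crest.Agent.R335.xxx` in module CXcalc).
Bridge to helper284's `Em` (XMod): `CX.EE κ Q σ ρ = Em κ (Q/κ-1) (-σ) ρ`.
-/

set_option autoImplicit false
set_option linter.unusedVariables false

open MeasureTheory Filter Set Crest.MathPhysics.ThreeBody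
open scoped ENNReal Topology ContDiff

noncomputable section
namespace Crest.Agent.R335

/-- admissible rate and charge -/
structure KQ (κ Q : ℝ) : Prop where
  k1 : 9 / 10 ≤ κ
  k2 : κ ≤ 11 / 10
  q1 : 19 / 10 ≤ Q
  q2 : Q ≤ 2

namespace CI

theorem EE_eq_Em {κ Q σ ρ : ℝ} (hρ : 0 < ρ) : CX.EE κ Q σ ρ = Em κ (Q / κ - 1) (-σ) ρ := sorry

/-- distances to the nuclei in the slab -/
theorem dist_slab {D : ℝ} (hD : 4 ≤ D) {x : Pos3} (hr : 2 * D * |x 2| + D ^ 2 ≤ ‖x‖) :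
    |‖x - nuc D‖ - ‖x‖| ≤ 1 ∧ |‖x - nuc (-D)‖ - ‖x‖| ≤ 1 := sorry

/-- slab: two-centre functions against radial ones -/
theorem slab_calc : ∃ C : ℝ, 1 ≤ C ∧ ∀ (κ Q D : ℝ) (x : Pos3), KQ κ Q → 4 ≤ D → 200 ≤ ‖x‖ →
    2 * D * |x 2| + D ^ 2 ≤ ‖x‖ →
    CX.SS D κ Q (-1) x ≤ C * CX.EE κ Q 1 ‖x‖ ∧ CX.EE κ Q 1 ‖x‖ ≤ C * CX.SS D κ Q 1 x ∧
      CX.SS D κ Q 1 x ≤ C * CX.EE κ Q (-1) ‖x‖ ∧
      |CX.OO D κ Q (-1) x| ≤ C * (D * |x 2| / ‖x‖) * CX.EE κ Q 1 ‖x‖ ∧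
      |CX.OO D κ Q 1 x| ≤ C * (D * |x 2| / ‖x‖) * CX.EE κ Q 1 ‖x‖ := sorry

/-- everywhere in the upper half space: lower bound of the difference, upper bound of the sum by the
nearer nucleus -/
theorem half_calc : ∃ c : ℝ, 0 < c ∧ ∀ (κ Q D : ℝ) (x : Pos3), KQ κ Q → 4 ≤ D →
    D + 200 ≤ ‖x‖ → 0 ≤ x 2 →
    c * min 1 (D * x 2 / ‖x‖) * CX.EE κ Q 1 ‖x - nuc D‖ ≤ CX.OO D κ Q 1 x ∧
      CX.SS D κ Q (-1) x ≤ 2 * CX.EE κ Q 1 ‖x - nuc D‖ ∧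
      CX.OO D κ Q (-1) x ≤ CX.EE κ Q 1 ‖x - nuc D‖ := sorry

/-- change of rate, charge and sign -/
theorem rate_le {κ κ' Q Q' σ ρ : ℝ} (h : KQ κ Q) (h' : KQ κ' Q') (hκ : κ ≤ κ') (hQ : Q' ≤ Q)
    (hσ : |σ| ≤ 1) (hρ : 1 ≤ ρ) :
    CX.EE κ' Q' σ ρ ≤ 2 * Real.exp (-(κ' - κ) * ρ) * CX.EE κ Q 1 ρ := sorry

/-- the natural barrier (rate `κn`, charge `2`) is dominated by the lower profile of `s2` :
crossover radius `~ log (1/λ)` -/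
theorem nat_le_eLow {om K3 : ℝ} (hom : 0 < om) (hom1 : om ≤ 1 / 10) (hK : 0 ≤ K3) :
    ∃ l' : ℝ, 0 < l' ∧ ∀ lam κ κS κn : ℝ, 0 < lam → lam ≤ l' → KQ κ 2 → KQ κS 2 → KQ κn 2 →
      κ ^ 2 + om ≤ κn ^ 2 → κn ^ 2 ≤ κS ^ 2 → κS ^ 2 ≤ κn ^ 2 + K3 * √lam →
      ∀ ρ : ℝ, 100 ≤ ρ →
        CX.EE κn 2 1 ρ ≤ 8 * CX.eLow κS κ (2 * (1 - lam)) lam om ρ := sorry

end CI
end Crest.Agent.R335
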