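import Crest.Agent.R335.CDefs
import Crest.Agent.R335.KTest

/-!
# Row 335 (S0521), module CLow, part 1: `KatoInf` from the Kato inequality of `COut`

`WLe.bt_on` : a weak inequality `-½Δ s + m s ≤ f` on `U` may be tested with nonnegative bounded
`H¹` functions supported in a compact subset of `U`.
-/

set_option autoImplicit false
set_option linter.unusedVariables false

open MeasureTheory Filter Set Crest.MathPhysics.ThreeBody
open scoped ENNReal Topology ContDiff

noncomputable section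
namespace Crest.Agent.R335

/-- extension of a weak inequality to bounded nonnegative `H¹` test functions with compact support
in `U` -/
theorem WLe.bt_on {U : Set Pos3} (hU : IsOpen U) {s : Pos3 → ℝ} {ds : Pos3 → Pos3}
    {m f : Pos3 → ℝ} (h : WLe U s ds m f) (hds : MemLp ds 2 volume)
    {φ : Pos3 → ℝ} {gφ : Pos3 → Pos3} (hφ : BT φ gφ) (h0 : ∀ᵐ x, 0 ≤ φ x)
    {K : Set Pos3} (hK : IsCompact K) (hKU : K ⊆ U) (hs : ∀ᵐ x, x ∉ K → φ x = 0) :
    (1 / 2) * (∫ x, inner ℝ (ds x) (gφ x)) + ∫ x, m x * s x * φ x ≤ ∫ x, f x * φ x := by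
  obtain ⟨D, hD0, hD⟩ := hφ.bound
  classical
  -- modification
  set φ' : Pos3 → ℝ := fun x => if x ∈ K ∧ 0 ≤ φ x then kclip D φ x else 0 with hφ'
  have e1 : φ' =ᵐ[volume] φ := by
    filter_upwards [kclip_ae hD, hs, h0] with x h1 h2 h3
    simp only [hφ']
    split_ifs with hx
    · exact h1
    · rw [not_and] at hx
      by_cases hxK : x ∈ K
      · exact absurd h3 (hx hxK)
      · exact (h2 hxK).symm
  have hb' : ∀ x, φ' x ∈ Icc (0 : ℝ) D := by
    intro x
    simp only [hφ']
    split_ifs with hx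
    · refine ⟨?_, (abs_le.1 (kclip_le hD0 φ x)).2⟩
      unfold kclip
      split_ifs
      · exact hx.2
      · exact le_refl _
    · exact ⟨le_refl _, hD0⟩
  have hH : H1 φ' gφ := H1.congr hφ.h1 e1.symm (ae_eq_refl _)
  obtain ⟨φn, K', hK', hK'U, hT, hS, h2, h3, hbd⟩ := H1.approx_of_supp hU hH hK hKU (by
      intro x hx
      simp [hφ', hx])
  have hbn : ∀ n x, φn n x ∈ Icc (0 : ℝ) D := hbd 0 D hb' le_rfl hD0
  have hHn : ∀ n, H1 (φn n) (gr (φn n)) := fun n => H1.of_test (hT n)
  have t1 := kt_tendsto_inner hds hH.memg (fun n => (hHn n).memg) h3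
  -- subsequence a.e.
  have tm : TendstoInMeasure volume φn atTop φ' := by
    refine tendstoInMeasure_of_tendsto_eLpNorm (p := 2) (by norm_num)
      (fun n => (hHn n).memf.1) hH.memf.1 ?_
    exact h2
  obtain ⟨ns, hns, hae⟩ := tm.exists_seq_tendsto_ae
  have key : ∀ F : Pos3 → ℝ, LocallyIntegrableOn F U volume →
      Tendsto (fun n => ∫ x, F x * φn (ns n) x) atTop (𝓝 (∫ x, F x * φ' x)) := by
    intro F hF
    have hint : IntegrableOn F K' volume := hF.integrableOn_compact_subset hK'U hK'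
    have e : ∀ ψ : Pos3 → ℝ, SuppIn K' ψ → ∫ x, F x * ψ x = ∫ x in K', F x * ψ x := by
      intro ψ hψ
      refine (setIntegral_eq_integral_of_forall_compl_eq_zero fun x hx => ?_).symm
      rw [hψ x hx, mul_zero]
    have hφK : ∀ᵐ x, x ∉ K' → φ' x = 0 := by
      filter_upwards [hae] with x hx hxK
      refine tendsto_nhds_unique hx ?_
      have : (fun n => φn (ns n) x) = fun _ => 0 := by
        funext n
        exact hS _ x hxK
      rw [this]
      exact tendsto_const_nhds
    have e' : ∫ x, F x * φ' x = ∫ x in K', F x * φ' x := by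
      rw [← integral_indicator hK'.measurableSet]
      refine integral_congr_ae ?_
      filter_upwards [hφK] with x hx
      by_cases hxK : x ∈ K'
      · rw [indicator_of_mem hxK]
      · rw [indicator_of_notMem hxK, hx hxK, mul_zero]
    rw [e']
    simp_rw [fun n => e (φn (ns n)) (hS (ns n))]
    refine tendsto_integral_of_dominated_convergence (fun x => D * |F x|) ?_ ?_ ?_ ?_
    · intro n
      exact hint.aestronglyMeasurable.mul (hHn (ns n)).memf.1.restrict
    · exact hint.abs.const_mul D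
    · intro n
      refine Eventually.of_forall fun x => ?_
      rw [norm_mul, Real.norm_eq_abs, Real.norm_eq_abs, mul_comm,
        abs_of_nonneg (hbn (ns n) x).1]
      exact mul_le_mul_of_nonneg_right (hbn _ _).2 (abs_nonneg _)
    · filter_upwards [ae_restrict_of_ae hae] with x hx
      exact hx.const_mul _
  have e2 : ∀ F : Pos3 → ℝ, ∫ x, F x * φ x = ∫ x, F x * φ' x := by
    intro F
    refine integral_congr_ae ?_
    filter_upwards [e1] with x hx
    rw [hx]
  have e3 := e2 (fun x => m x * s x)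
  rw [e3, e2 f]
  have t2 := key _ h.ims
  have t3 := key _ h.if'
  refine le_of_tendsto_of_tendsto (((t1.comp hns.tendsto_atTop).const_mul (1 / 2)).add t2) t3
    (Eventually.of_forall fun n => ?_)
  exact h.le _ (hT (ns n)) (fun x => (hbn (ns n) x).1)

/-- the same on the whole space -/
theorem WLe.bt_univ {s : Pos3 → ℝ} {ds : Pos3 → Pos3} {m f : Pos3 → ℝ} (h : WLe univ s ds m f)
    (hds : MemLp ds 2 volume) {φ : Pos3 → ℝ} {gφ : Pos3 → Pos3} (hφ : BT φ gφ)
    (h0 : ∀ᵐ x, 0 ≤ φ x) :
    (1 / 2) * (∫ x, inner ℝ (ds x) (gφ x)) + ∫ x, m x * s x * φ x ≤ ∫ x, f x * φ x := by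
  obtain ⟨R, hR⟩ := hφ.cpt
  refine h.bt_on isOpen_univ hds hφ h0 (isCompact_closedBall (0 : Pos3) R) (subset_univ _) ?_
  filter_upwards [hR] with x hx hxR
  simp only [Metric.mem_closedBall, dist_zero_right, not_le] at hxR
  exact hx hxR.le

namespace CLow

/-- `-2 V2 ≤ δ` far out -/
theorem V2_far (D : ℝ) {δ : ℝ} (hδ : 0 < δ) {x : Pos3} (hx : |D| + 4 / δ ≤ ‖x‖) :
    - (2 * V2 D x) ≤ δ := by
  have hn : ∀ D : ℝ, ‖nuc D‖ = |D| := fun D => by
    unfold nuc; simp
  have h4 : 0 < 4 / δ := by positivity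
  have h : ∀ D' : ℝ, |D'| = |D| → 1 / ‖x - nuc D'‖ ≤ δ / 4 := by
    intro D' hD'
    have h1 : 4 / δ ≤ ‖x - nuc D'‖ := by
      have := norm_sub_norm_le x (nuc D')
      rw [hn, hD'] at this
      linarith
    calc 1 / ‖x - nuc D'‖ ≤ 1 / (4 / δ) := one_div_le_one_div_of_le h4 h1
      _ = δ / 4 := by rw [one_div_div]
  have h1 := h D rfl
  have h2 := h (-D) (abs_neg D)
  unfold V2
  linarith

end CLow

section
variable {cg C0 D : ℝ} {B : OBD cg C0 D} {P K1 K2 R1 lam κ κS κT : ℝ}
  {s s1 s2 F w0 X sig : Pos3 → ℝ} {gs gs1 gs2 gF : Pos3 → Pos3}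

/-- `CI.katoInf` -/
theorem katoInf (h : COut B P K1 K2 R1 lam κ κS κT s s1 s2 F w0 X sig gs gs1 gs2 gF) :
    KatoInf s gs κ := by
  intro δ hδ
  refine ⟨|D| + 4 / δ, fun φ gφ hφ h0 hR => ?_⟩
  have h1 := h.kato.bt_univ h.amp.h1.memg hφ h0
  simp only [zero_mul, integral_zero] at h1
  obtain ⟨C, hC⟩ := h.amp.bdd
  obtain ⟨Dφ, hDφ0, hDφ⟩ := hφ.bound
  have hsφ : Integrable (fun x => s x * φ x) := h.amp.h1.memf.integrable_mul hφ.h1.memf
  have hle : - (∫ x, (κ ^ 2 / 2 + V2 D x) * s x * φ x) ≤ -((κ ^ 2 - δ) / 2) * ∫ x, s x * φ x := by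
    have hmi : Integrable (fun x => (κ ^ 2 / 2 + V2 D x) * s x * φ x) := by
      obtain ⟨R, hRφ⟩ := hφ.cpt
      have i1 : IntegrableOn (fun x => (κ ^ 2 / 2 + V2 D x) * s x) (Metric.closedBall (0 : Pos3) R)
          volume := h.kato.ims.integrableOn_compact_subset (subset_univ _)
            (isCompact_closedBall _ _)
      have i2 : IntegrableOn (fun x => (κ ^ 2 / 2 + V2 D x) * s x * φ x)
          (Metric.closedBall (0 : Pos3) R) volume := by
        refine i1.mul_bdd (c := Dφ) hφ.h1.memf.1.restrict ?_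
        filter_upwards [ae_restrict_of_ae hDφ] with x hx
        exact hx
      rw [← integrable_indicator_iff measurableSet_closedBall] at i2
      refine i2.congr ?_
      filter_upwards [hRφ] with x hx
      by_cases hxR : x ∈ Metric.closedBall (0 : Pos3) R
      · rw [indicator_of_mem hxR]
      · rw [indicator_of_notMem hxR]
        simp only [Metric.mem_closedBall, dist_zero_right, not_le] at hxR
        rw [hx hxR.le, mul_zero]
    rw [← integral_neg, ← integral_const_mul]
    refine integral_mono_ae hmi.neg (hsφ.const_mul _) ?_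
    filter_upwards [h0, hR] with x hx0 hxR
    rcases le_or_gt ‖x‖ (|D| + 4 / δ) with hx | hx
    · rw [hxR hx]; simp
    · have hv := CLow.V2_far D hδ hx.le
      have hp : 0 ≤ s x * φ x := mul_nonneg (h.amp.pos x).le hx0
      show -((κ ^ 2 / 2 + V2 D x) * s x * φ x) ≤ -((κ ^ 2 - δ) / 2) * (s x * φ x)
      nlinarith [mul_nonneg hp (sub_nonneg.2 hv)]
  linarith

end

end Crest.Agent.R335
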