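import Crest.Agent.R335.CDefs

/-!
# Row 335 (S0521), part C: lower bound of the density on the plane (CLowP, helper605)
-/

set_option autoImplicit false
set_option linter.unusedVariables false

open MeasureTheory Filter Set Crest.MathPhysics.ThreeBody
open scoped ENNReal Topology ContDiff

noncomputable section
namespace Crest.Agent.R335

theorem clp_om_pos {cg C0 D : ℝ} (B : OBD cg C0 D) : 0 < B.om := by
  unfold OBD.om
  linarith [B.ob.eg_lt]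

theorem clp_norm_nuc (D : ℝ) : ‖nuc D‖ = |D| := by
  unfold nuc
  rw [PiLp.norm_single, Real.norm_eq_abs]

theorem clp_EE_nonneg {κ Q ρ : ℝ} (hρ : 0 ≤ ρ) : 0 ≤ CX.EE κ Q 1 ρ := by
  unfold CX.EE
  have h1 := Real.rpow_nonneg hρ (Q / κ - 1)
  have h2 := Real.rpow_nonneg hρ (-(1 / 2) : ℝ)
  positivity

theorem clp_SS_nonneg (D κ Q : ℝ) (x : Pos3) : 0 ≤ CX.SS D κ Q 1 x :=
  add_nonneg (clp_EE_nonneg (norm_nonneg _)) (clp_EE_nonneg (norm_nonneg _))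

theorem clp_EE_low {κ Q ρ : ℝ} (hρ : 1 ≤ ρ) (hQ : 0 ≤ Q / κ - 1) :
    Real.exp (-κ * ρ) ≤ CX.EE κ Q 1 ρ := by
  unfold CX.EE
  have h1 : 1 ≤ ρ ^ (Q / κ - 1) := Real.one_le_rpow hρ hQ
  have h2 : 0 ≤ ρ ^ (-(1 / 2) : ℝ) := Real.rpow_nonneg (by linarith) _
  have h3 := Real.exp_pos (-κ * ρ)
  calc Real.exp (-κ * ρ) = Real.exp (-κ * ρ) * 1 * 1 := by ring
    _ ≤ Real.exp (-κ * ρ) * ρ ^ (Q / κ - 1) * (1 + 1 * ρ ^ (-(1 / 2) : ℝ)) := by
        refine mul_le_mul (mul_le_mul_of_nonneg_left h1 h3.le) (by linarith) zero_le_one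
          (by positivity)

theorem clp_EE_cont {κ Q σ ρ : ℝ} (hρ : ρ ≠ 0) : ContinuousAt (CX.EE κ Q σ) ρ := by
  unfold CX.EE
  have h1 : ContinuousAt (fun ρ : ℝ => ρ ^ (Q / κ - 1)) ρ :=
    Real.continuousAt_rpow_const _ _ (Or.inl hρ)
  have h2 : ContinuousAt (fun ρ : ℝ => ρ ^ (-(1 / 2) : ℝ)) ρ :=
    Real.continuousAt_rpow_const _ _ (Or.inl hρ)
  have h3 : ContinuousAt (fun ρ : ℝ => Real.exp (-κ * ρ)) ρ := by fun_prop
  exact (h3.mul h1).mul (continuousAt_const.add (continuousAt_const.mul h2))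

theorem clp_SS_cont {D κ Q σ : ℝ} {x : Pos3} (h1 : ‖x - nuc D‖ ≠ 0) (h2 : ‖x - nuc (-D)‖ ≠ 0) :
    ContinuousAt (CX.SS D κ Q σ) x := by
  have c1 : ContinuousAt (fun x : Pos3 => ‖x - nuc D‖) x := by fun_prop
  have c2 : ContinuousAt (fun x : Pos3 => ‖x - nuc (-D)‖) x := by fun_prop
  have d1 : ContinuousAt (fun x : Pos3 => CX.EE κ Q σ ‖x - nuc D‖) x :=
    ContinuousAt.comp (g := CX.EE κ Q σ) (f := fun x : Pos3 => ‖x - nuc D‖) (clp_EE_cont h1) c1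
  have d2 : ContinuousAt (fun x : Pos3 => CX.EE κ Q σ ‖x - nuc (-D)‖) x :=
    ContinuousAt.comp (g := CX.EE κ Q σ) (f := fun x : Pos3 => ‖x - nuc (-D)‖) (clp_EE_cont h2) c2
  exact d1.add d2

/-- distance of a point of the plane to a nucleus -/
theorem clp_dist_low {D : ℝ} (x : Pos3) (hx : x 2 = 0) : |D| ≤ ‖x - nuc D‖ := by
  have h := PiLp.norm_apply_le (x - nuc D) 2
  have e : (x - nuc D) 2 = - D := by
    simp [nuc, hx]
  rw [e, Real.norm_eq_abs, abs_neg] at h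
  exact h

theorem clp_dist_up {D : ℝ} (x : Pos3) : ‖x - nuc D‖ ≤ ‖x‖ + |D| := by
  rw [← clp_norm_nuc]
  exact norm_sub_le _ _

/-- an a.e. inequality in the upper half space passes to points of the plane -/
theorem clp_plane_le {R1 : ℝ} {b c : Pos3 → ℝ} (hae : ∀ᵐ x, x ∈ UpExt R1 → b x ≤ c x)
    {x0 : Pos3} (hx0 : x0 2 = 0) (hR : R1 < ‖x0‖) (hb : ContinuousAt b x0)
    (hc : ContinuousAt c x0) : b x0 ≤ c x0 := by
  by_contra hlt
  rw [not_le] at hlt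
  have h1 : ∀ᶠ y in 𝓝 x0, c y < b y := hc.eventually_lt hb hlt
  have h2 : ∀ᶠ y in 𝓝 x0, R1 < ‖y‖ :=
    (continuous_norm.tendsto x0).eventually (lt_mem_nhds hR)
  obtain ⟨O, hO, hOo, hxO⟩ := eventually_nhds_iff.1 (h1.and h2)
  -- a point slightly above the plane
  have ht : Tendsto (fun t : ℝ => x0 + t • (EuclideanSpace.single 2 1 : Pos3)) (𝓝 0) (𝓝 x0) := by
    have : Continuous (fun t : ℝ => x0 + t • (EuclideanSpace.single 2 1 : Pos3)) := by fun_prop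
    have h := this.tendsto 0
    simpa using h
  have h3 : ∀ᶠ t in 𝓝[>] (0 : ℝ), x0 + t • (EuclideanSpace.single 2 1 : Pos3) ∈ O :=
    (ht.mono_left nhdsWithin_le_nhds).eventually (hOo.mem_nhds hxO)
  obtain ⟨t, ht1, ht2⟩ := (h3.and self_mem_nhdsWithin).exists
  have ht2' : 0 < t := ht2
  have hopen : IsOpen (O ∩ {y : Pos3 | 0 < y 2}) := by
    refine hOo.inter (isOpen_lt continuous_const ?_)
    fun_prop
  have hne : (O ∩ {y : Pos3 | 0 < y 2}).Nonempty := by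
    refine ⟨_, ht1, ?_⟩
    simp [hx0, ht2']
  have hdense : Dense {x | x ∈ UpExt R1 → b x ≤ c x} := Measure.dense_of_ae hae
  obtain ⟨y, hy1, hy2⟩ := hdense.inter_open_nonempty _ hopen hne
  have h4 := hO y hy1.1
  exact absurd (hy2 ⟨h4.2, hy1.2⟩) (not_le.2 h4.1)

theorem clp_growth {c ε : ℝ} (hc : 0 < c) (hε : 0 < ε) :
    ∃ R : ℝ, ∀ r : ℝ, R ≤ r → 1 ≤ c / r ^ 4 * Real.exp (ε * r) := by
  have h1 := Real.tendsto_exp_div_pow_atTop 4
  have h2 : Tendsto (fun r : ℝ => ε * r) atTop atTop := tendsto_id.const_mul_atTop hε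
  have h3 := (h1.comp h2).eventually (eventually_ge_atTop (1 / (c * ε ^ 4)))
  obtain ⟨R, hR⟩ := eventually_atTop.1 (h3.and (eventually_gt_atTop 0))
  refine ⟨R, fun r hr => ?_⟩
  obtain ⟨h4, h5⟩ := hR r hr
  simp only [Function.comp_apply] at h4
  have hr0 : 0 < r := h5
  have e : c / r ^ 4 * Real.exp (ε * r) = c * ε ^ 4 * (Real.exp (ε * r) / (ε * r) ^ 4) := by
    field_simp
  rw [e]
  calc (1 : ℝ) = c * ε ^ 4 * (1 / (c * ε ^ 4)) := by field_simp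
    _ ≤ _ := mul_le_mul_of_nonneg_left h4 (by positivity)

theorem planeLow {cg C0 D : ℝ} {B : OBD cg C0 D} {P K1 K2 R1 lam κ κS κT : ℝ}
    {s s1 s2 F w0 X sig : Pos3 → ℝ} {gs gs1 gs2 gF : Pos3 → Pos3}
    (hD : 1 ≤ D) (hP : 1 ≤ P) (hl : lam ≤ 1 / 100)
    (h : COut B P K1 K2 R1 lam κ κS κT s s1 s2 F w0 X sig gs gs1 gs2 gF) :
    PlaneLow s κ := by
  intro ε hε
  have hom := clp_om_pos B
  have hlam := h.lam_pos
  have hκ := h.κ_rng
  have hκ0 : 0 < κ := by linarith [hκ.1]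
  have hP0 : 0 < P := by linarith
  have hQ : 0 ≤ 2 * (1 - lam) / κ - 1 := by
    have h1 : κ ≤ 2 * (1 - lam) := by linarith [hκ.2]
    have h2 : 1 ≤ 2 * (1 - lam) / κ := (one_le_div hκ0).2 h1
    linarith
  -- a.e. inequality
  have hae : ∀ᵐ x, x ∈ UpExt R1 →
      lam / B.om ^ 2 / ‖x‖ ^ 4 * CX.SS D κ (2 * (1 - lam)) 1 x ≤ P * s x := by
    filter_upwards [h.s2low] with x hx hxU
    have h1 := hx hxU
    have h2 := clp_SS_nonneg D κS (2 * (1 - lam)) x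
    have h3 : s2 x ≤ s x := by
      refine abs_le_of_sq_le_sq' ?_ (h.amp.pos x).le |>.2
      nlinarith [h.sq x, sq_nonneg (s1 x)]
    have h4 : P * s2 x ≤ P * s x := mul_le_mul_of_nonneg_left h3 hP0.le
    linarith
  -- constant
  set c : ℝ := 2 * lam / (B.om ^ 2 * P) * Real.exp (-κ * D) with hc
  have hc0 : 0 < c := by positivity
  obtain ⟨R, hR⟩ := clp_growth hc0 hε
  refine ⟨max R (max (R1 + 1) 1), fun x hx2 hxR => ?_⟩
  have hx1 : R ≤ ‖x‖ := (le_max_left _ _).trans hxR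
  have hxa : R1 < ‖x‖ := by
    have := (le_max_left _ _).trans ((le_max_right R _).trans hxR)
    linarith
  have hxb : 1 ≤ ‖x‖ := (le_max_right _ _).trans ((le_max_right R _).trans hxR)
  have hDa : |D| = D := abs_of_pos (by linarith)
  have hDb : |(-D)| = D := by rw [abs_neg, hDa]
  have d1 : D ≤ ‖x - nuc D‖ := by
    have := clp_dist_low (D := D) x hx2
    rwa [hDa] at this
  have d2 : D ≤ ‖x - nuc (-D)‖ := by
    have := clp_dist_low (D := -D) x hx2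
    rwa [hDb] at this
  have u1 : ‖x - nuc D‖ ≤ ‖x‖ + D := by
    have := clp_dist_up (D := D) x
    rwa [hDa] at this
  have u2 : ‖x - nuc (-D)‖ ≤ ‖x‖ + D := by
    have := clp_dist_up (D := -D) x
    rwa [hDb] at this
  have n1 : ‖x - nuc D‖ ≠ 0 := by
    have h0 : 0 < ‖x - nuc D‖ := by linarith
    exact h0.ne'
  have n2 : ‖x - nuc (-D)‖ ≠ 0 := by
    have h0 : 0 < ‖x - nuc (-D)‖ := by linarith
    exact h0.ne'
  have hx0 : 0 < ‖x‖ := by linarith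
  have hb : ContinuousAt (fun x : Pos3 =>
      lam / B.om ^ 2 / ‖x‖ ^ 4 * CX.SS D κ (2 * (1 - lam)) 1 x) x := by
    refine ContinuousAt.mul ?_ (clp_SS_cont n1 n2)
    exact ContinuousAt.div continuousAt_const (by fun_prop) (pow_pos hx0 4).ne'
  have hc' : ContinuousAt (fun x : Pos3 => P * s x) x :=
    (continuous_const.mul h.amp.cont).continuousAt
  have hle := clp_plane_le hae hx2 hxa hb hc'
  -- lower bound of the two-centre sum
  have e1 : ∀ ρ : ℝ, D ≤ ρ → ρ ≤ ‖x‖ + D →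
      Real.exp (-κ * ‖x‖) * Real.exp (-κ * D) ≤ CX.EE κ (2 * (1 - lam)) 1 ρ := by
    intro ρ h1 h2
    refine le_trans ?_ (clp_EE_low (hD.trans h1) hQ)
    rw [← Real.exp_add]
    refine Real.exp_le_exp.2 ?_
    nlinarith
  have e2 : 2 * (Real.exp (-κ * ‖x‖) * Real.exp (-κ * D)) ≤
      CX.SS D κ (2 * (1 - lam)) 1 x := by
    unfold CX.SS
    have h1 := e1 _ d1 u1
    have h2 := e1 _ d2 u2
    linarith
  have e3 : lam / B.om ^ 2 / ‖x‖ ^ 4 * (2 * (Real.exp (-κ * ‖x‖) * Real.exp (-κ * D))) ≤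
      P * s x := (mul_le_mul_of_nonneg_left e2 (by positivity)).trans hle
  have e4 : c / ‖x‖ ^ 4 * Real.exp (-κ * ‖x‖) ≤ s x := by
    have h1 : c / ‖x‖ ^ 4 * Real.exp (-κ * ‖x‖) =
        (lam / B.om ^ 2 / ‖x‖ ^ 4 * (2 * (Real.exp (-κ * ‖x‖) * Real.exp (-κ * D)))) / P := by
      rw [hc]
      field_simp
    rw [h1, div_le_iff₀ hP0, mul_comm (s x)]
    exact e3
  refine le_trans ?_ e4
  have e5 := hR ‖x‖ hx1
  have e6 : Real.exp (-(κ + ε) * ‖x‖) = Real.exp (-κ * ‖x‖) * Real.exp (-(ε * ‖x‖)) := by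
    rw [← Real.exp_add]
    congr 1
    ring
  have e7 : Real.exp (-(ε * ‖x‖)) ≤ c / ‖x‖ ^ 4 := by
    rw [Real.exp_neg]
    rw [inv_le_iff_one_le_mul₀ (Real.exp_pos _)]
    exact e5
  rw [e6, mul_comm (c / ‖x‖ ^ 4)]
  exact mul_le_mul_of_nonneg_left e7 (Real.exp_pos _).le

end Crest.Agent.R335
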