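import Crest.Agent.R335.CO1
import Crest.Agent.R335.BChan
import Crest.Agent.R335.OBAgmon
import Crest.Agent.R335.OBRad

/-!
Row 335 (S0521), interface B → C, part 2 (helper357): closeness of the amplitudes to `λ = 0`,
uniformly, and of the masses.
-/

set_option autoImplicit false
set_option linter.unusedVariables false

open MeasureTheory Filter Set Crest.MathPhysics.ThreeBody
open scoped ENNReal Topology ContDiff

noncomputable section
namespace Crest.Agent.R335.CO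
open Crest.Agent.R335

/-! ### norms of families -/

theorem norm_diff {α : Type*} [MeasurableSpace α] {μ : Measure α} {ι : Type*} [Fintype ι]
    {a b : ι → α → ℝ} (ha : ∀ s, MemLp (a s) 2 μ) (hb : ∀ s, MemLp (b s) 2 μ) :
    |√(∑ s, ∫ x, a s x ^ 2 ∂μ) - √(∑ s, ∫ x, b s x ^ 2 ∂μ)| ≤
      √(∑ s, ∫ x, (a s x - b s x) ^ 2 ∂μ) := by
  let v : PiLp 2 (fun _ : ι => Lp ℝ 2 μ) := WithLp.toLp 2 fun s => (ha s).toLp (a s)
  let w : PiLp 2 (fun _ : ι => Lp ℝ 2 μ) := WithLp.toLp 2 fun s => (hb s).toLp (b s)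
  have e : ∀ {f : ι → α → ℝ} (hf : ∀ s, MemLp (f s) 2 μ),
      ‖(WithLp.toLp 2 fun s => (hf s).toLp (f s) : PiLp 2 (fun _ : ι => Lp ℝ 2 μ))‖ =
        √(∑ s, ∫ x, f s x ^ 2 ∂μ) := by
    intro f hf
    rw [PiLp.norm_eq_of_L2]
    congr 1
    refine Finset.sum_congr rfl fun s _ => ?_
    rw [norm_toLp_sq (hf s)]
    simp only [Real.norm_eq_abs, sq_abs]
  have h1 : ‖v‖ = √(∑ s, ∫ x, a s x ^ 2 ∂μ) := e ha
  have h2 : ‖w‖ = √(∑ s, ∫ x, b s x ^ 2 ∂μ) := e hb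
  have h3 : ‖v - w‖ = √(∑ s, ∫ x, (a s x - b s x) ^ 2 ∂μ) := by
    rw [← e (f := fun s x => a s x - b s x) (fun s => (ha s).sub (hb s))]
    congr 1
  rw [← h1, ← h2, ← h3]
  exact abs_norm_sub_norm_le v w

/-- parity projection of an `L²` function -/
theorem proj_le {h : Y2 → ℝ} (hh : MemLp h 2 volume) {π : ℝ} (hπ : π = 1 ∨ π = -1) :
    ∫ ξ, ((h ξ + π * h (rxi ξ)) / 2) ^ 2 ≤ ∫ ξ, h ξ ^ 2 := by
  have hr : MemLp (fun ξ => h (rxi ξ)) 2 volume := hh.comp_measurePreserving rxi.measurePreserving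
  have e : ∫ ξ, h (rxi ξ) ^ 2 = ∫ ξ, h ξ ^ 2 := by
    have := g2_integral_isom rxi 0 (fun ξ => h ξ ^ 2)
    simpa using this
  have i1 := hh.integrable_sq
  have i2 := hr.integrable_sq
  have i3 : Integrable (fun ξ => ((h ξ + π * h (rxi ξ)) / 2) ^ 2) := by
    have := ((hh.add (hr.const_mul π)).const_mul (1 / 2)).integrable_sq
    refine this.congr (ae_of_all _ fun ξ => ?_)
    simp only [Pi.add_apply]
    ring
  calc ∫ ξ, ((h ξ + π * h (rxi ξ)) / 2) ^ 2 ≤ ∫ ξ, ((1 / 2) * h ξ ^ 2 + (1 / 2) * h (rxi ξ) ^ 2) := by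
        refine integral_mono i3 ((i1.const_mul _).add (i2.const_mul _)) fun ξ => ?_
        simp only
        rcases hπ with rfl | rfl
        · nlinarith [sq_nonneg (h ξ - h (rxi ξ))]
        · nlinarith [sq_nonneg (h ξ + h (rxi ξ))]
    _ = ∫ ξ, h ξ ^ 2 := by
        rw [integral_add (i1.const_mul _) (i2.const_mul _), integral_const_mul,
          integral_const_mul, e]
        ring

section close
variable {cg C0 D : ℝ} {B : OBD cg C0 D} {K lam : ℝ} (S : Sys B K lam)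

/-- limit of the channel functions -/
def lim0 (X : Pos3) (i : Fin 3) (ξ : Y2) : ℝ :=
  if i = 0 then √2 * (B.u X / √2 * S.Φ0 ξ + B.g X / 2 * S.Φ1 ξ)
  else if i = 1 then B.g X / √2 * S.ΦT ξ else B.g X * S.ΦT ξ

/-- channel functions, as a family -/
def chn (i : Fin 3) : Config3 → ℝ :=
  if i = 0 then fun x => √2 * S.YS x else if i = 1 then S.YT else S.YB

theorem chn_memLp (i : Fin 3) : MemLp (chn S i) 2 volume := by
  fin_cases i
  · exact (h1_S S).memf.const_mul √2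
  · exact (h1_T S).memf
  · exact (h1_B S).memf

theorem lim0_memLp (X : Pos3) (i : Fin 3) : MemLp (lim0 S X i) 2 volume := by
  have h0 := S.ch0.h1.memf
  have h1 := S.ch1.h1.memf
  have hT := S.chT.h1.memf
  fin_cases i
  · exact ((h0.const_mul (B.u X / √2)).add (h1.const_mul (B.g X / 2))).const_mul √2
  · exact hT.const_mul _
  · exact hT.const_mul _

theorem fam_eq (π : ℝ) (i : Fin 3) (X : Pos3) (ξ : Y2) :
    fam S π i (jn p9 X ξ) = (chn S i (jn p9 X ξ) + π * chn S i (jn p9 X (rxi ξ))) / 2 := by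
  fin_cases i
  · simp only [fam, chn, Yp, jn_rxi]
    simp
    ring
  · show Yp π S.YT _ = (S.YT _ + π * S.YT _) / 2
    simp only [Yp, jn_rxi]
  · show Yp π S.YB _ = (S.YB _ + π * S.YB _) / 2
    simp only [Yp, jn_rxi]

/-- limit of the parity part `π` -/
def limp (π : ℝ) (X : Pos3) (i : Fin 3) (ξ : Y2) : ℝ :=
  (lim0 S X i ξ + π * lim0 S X i (rxi ξ)) / 2

theorem limp_one (X : Pos3) (i : Fin 3) (ξ : Y2) :
    limp S 1 X i ξ = if i = 0 then B.u X * S.Φ0 ξ else 0 := by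
  have s2 : √2 * √2 = 2 := Real.mul_self_sqrt (by norm_num)
  have s0 : √2 ≠ 0 := by positivity
  fin_cases i
  · simp only [limp, lim0]
    simp only [Fin.zero_eta, Fin.isValue, if_true]
    rw [S.ch0.par, S.ch1.par]
    field_simp
    ring
  · simp only [limp, lim0]
    simp only [Fin.mk_one, Fin.isValue, one_ne_zero, if_false, if_true]
    rw [S.chT.par]
    ring
  · show (B.g X * S.ΦT ξ + 1 * (B.g X * S.ΦT (rxi ξ))) / 2 = 0
    rw [S.chT.par]
    ring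

theorem limp_neg (X : Pos3) (i : Fin 3) (ξ : Y2) :
    limp S (-1) X i ξ = if i = 0 then √2 * (B.g X / 2 * S.Φ1 ξ)
      else if i = 1 then B.g X / √2 * S.ΦT ξ else B.g X * S.ΦT ξ := by
  fin_cases i
  · simp only [limp, lim0]
    simp only [Fin.zero_eta, Fin.isValue, if_true]
    rw [S.ch0.par, S.ch1.par]
    ring
  · simp only [limp, lim0]
    simp only [Fin.mk_one, Fin.isValue, one_ne_zero, if_false, if_true]
    rw [S.chT.par]
    ring
  · show (B.g X * S.ΦT ξ + -1 * (B.g X * S.ΦT (rxi ξ))) / 2 = B.g X * S.ΦT ξ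
    rw [S.chT.par]
    ring

theorem norm_limp_one (X : Pos3) : √(∑ i, ∫ ξ, limp S 1 X i ξ ^ 2) = |B.u X| := by
  simp only [limp_one]
  rw [Fin.sum_univ_three]
  simp only [if_true, one_ne_zero, if_false, Fin.isValue, Fin.reduceEq, ne_eq, OfNat.ofNat_ne_zero,
    not_false_eq_true, zero_pow, integral_zero, add_zero, mul_pow]
  rw [integral_const_mul, S.n0, mul_one, Real.sqrt_sq_eq_abs]

theorem norm_limp_neg (X : Pos3) : √(∑ i, ∫ ξ, limp S (-1) X i ξ ^ 2) = √2 * B.g X := by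
  have s2 : √2 ^ 2 = 2 := Real.sq_sqrt (by norm_num)
  simp only [limp_neg]
  rw [Fin.sum_univ_three]
  simp only [if_true, one_ne_zero, if_false, Fin.isValue, Fin.reduceEq, mul_pow, div_pow, s2]
  rw [integral_const_mul, integral_const_mul, integral_const_mul, integral_const_mul, S.n1, S.nT]
  have hg : 0 ≤ B.g X := (B.ob.g_pos X).le
  rw [show 2 * (B.g X ^ 2 / 2 ^ 2 * 1) + B.g X ^ 2 / 2 * 1 + B.g X ^ 2 * 1 =
    (√2 * B.g X) ^ 2 by rw [mul_pow, s2]; ring]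
  exact Real.sqrt_sq (by positivity)

/-- closeness of the families -/
theorem close_fam {π : ℝ} (hπ : π = 1 ∨ π = -1) (hl : 0 ≤ lam) :
    ∀ᵐ X : Pos3, |√(∑ i, ∫ ξ, fam S π i (jn p9 X ξ) ^ 2) - √(∑ i, ∫ ξ, limp S π X i ξ ^ 2)| ≤
      2 * K * lam := by
  have hm : ∀ i, ∀ᵐ X : Pos3, MemLp (fun ξ => chn S i (jn p9 X ξ)) 2 volume := fun i =>
    MemLp.slice_right p9 (chn_memLp S i)
  have hm' := ae_all_iff.2 hm
  have hK : 0 ≤ K * lam := mul_nonneg (zero_le_one.trans S.Kpos) hl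
  filter_upwards [hm', S.clS, S.clT, S.clB] with X hX hS hT hB
  have hd : ∀ i, MemLp (fun ξ => chn S i (jn p9 X ξ) - lim0 S X i ξ) 2 volume := fun i =>
    (hX i).sub (lim0_memLp S X i)
  have hr : ∀ i, MemLp (fun ξ => chn S i (jn p9 X (rxi ξ))) 2 volume := fun i =>
    (hX i).comp_measurePreserving rxi.measurePreserving
  have hlr : ∀ i, MemLp (fun ξ => lim0 S X i (rxi ξ)) 2 volume := fun i =>
    (lim0_memLp S X i).comp_measurePreserving rxi.measurePreserving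
  have ha : ∀ i, MemLp (fun ξ => fam S π i (jn p9 X ξ)) 2 volume := fun i => by
    refine (((hX i).add ((hr i).const_mul π)).const_mul (1 / 2)).ae_eq (ae_of_all _ fun ξ => ?_)
    simp only [Pi.add_apply]
    rw [fam_eq]; ring
  have hb : ∀ i, MemLp (limp S π X i) 2 volume := fun i => by
    refine (((lim0_memLp S X i).add ((hlr i).const_mul π)).const_mul (1 / 2)).ae_eq
      (ae_of_all _ fun ξ => ?_)
    simp only [Pi.add_apply, limp]
    ring
  refine (norm_diff ha hb).trans ?_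
  have e : ∀ i, ∫ ξ, (fam S π i (jn p9 X ξ) - limp S π X i ξ) ^ 2 ≤
      ∫ ξ, (chn S i (jn p9 X ξ) - lim0 S X i ξ) ^ 2 := fun i => by
    refine le_trans (le_of_eq ?_) (proj_le (hd i) hπ)
    refine integral_congr_ae (ae_of_all _ fun ξ => ?_)
    simp only
    rw [fam_eq, limp]
    ring
  have s2 : √2 ^ 2 = 2 := Real.sq_sqrt (by norm_num)
  have e0 : ∫ ξ, (chn S 0 (jn p9 X ξ) - lim0 S X 0 ξ) ^ 2 =
      2 * ∫ ξ, (GS S.ψ (jn p9 X ξ) - (B.u X / √2 * S.Φ0 ξ + B.g X / 2 * S.Φ1 ξ)) ^ 2 := by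
    rw [← integral_const_mul]
    refine integral_congr_ae (ae_of_all _ fun ξ => ?_)
    simp only [chn, lim0, if_true, Sys.YS]
    rw [← mul_sub, mul_pow, s2]
  have e1 : ∫ ξ, (chn S 1 (jn p9 X ξ) - lim0 S X 1 ξ) ^ 2 =
      ∫ ξ, (-√2 * GT S.ψ (jn p9 X ξ) - B.g X / √2 * S.ΦT ξ) ^ 2 := rfl
  have e2 : ∫ ξ, (chn S 2 (jn p9 X ξ) - lim0 S X 2 ξ) ^ 2 =
      ∫ ξ, (GB S.ψ (jn p9 X ξ) - B.g X * S.ΦT ξ) ^ 2 := rfl
  have f0 := e 0
  have f1 := e 1
  have f2 := e 2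
  rw [e0] at f0
  rw [e1] at f1
  rw [e2] at f2
  rw [Fin.sum_univ_three]
  refine Real.sqrt_le_iff.2 ⟨by linarith, ?_⟩
  nlinarith

theorem s1_close (hl : 0 ≤ lam) : ∀ᵐ X : Pos3, |S.s1 X - abs (B.u X)| ≤ 2 * K * lam := by
  filter_upwards [close_fam S (Or.inl rfl) hl] with X hX
  rw [norm_limp_one, ← s1sq_eq] at hX
  exact hX

theorem s2_close (hl : 0 ≤ lam) : ∀ᵐ X : Pos3, |S.s2 X - √2 * B.g X| ≤ 2 * K * lam := by
  filter_upwards [close_fam S (Or.inr rfl) hl] with X hX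
  rw [norm_limp_neg, ← s2sq_eq] at hX
  exact hX

theorem s1sq_nonneg (X : Pos3) : 0 ≤ S.s1sq X := by
  unfold Sys.s1sq; positivity

theorem s2sq_nonneg (X : Pos3) : 0 ≤ S.s2sq X := by
  unfold Sys.s2sq; positivity

theorem s_close (hl : 0 ≤ lam) :
    ∀ᵐ X : Pos3, |√(S.rho X) - √(2 * B.g X ^ 2 + B.u X ^ 2)| ≤ 4 * K * lam := by
  filter_upwards [s1_close S hl, s2_close S hl, Sys.rho_eq S] with X h1 h2 h3
  have e1 : S.rho X = S.s1 X ^ 2 + S.s2 X ^ 2 := by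
    rw [h3, Sys.s1, Sys.s2, Real.sq_sqrt (s1sq_nonneg S X), Real.sq_sqrt (s2sq_nonneg S X)]
  have e2 : 2 * B.g X ^ 2 + B.u X ^ 2 = |B.u X| ^ 2 + (√2 * B.g X) ^ 2 := by
    rw [mul_pow, Real.sq_sqrt (by norm_num), sq_abs]; ring
  rw [e1, e2]
  have := g2_sqrt_sub_le (S.s1 X) (S.s2 X) |B.u X| (√2 * B.g X)
  linarith

/-- `⟨Φ₀, Φ₁⟩ = 0` by parity -/
theorem ortho01 : ∫ ξ, S.Φ0 ξ * S.Φ1 ξ = 0 := by
  have := g2_integral_isom rxi 0 (fun ξ => S.Φ0 ξ * S.Φ1 ξ)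
  simp only [add_zero] at this
  have e : ∫ ξ, S.Φ0 (rxi ξ) * S.Φ1 (rxi ξ) = - ∫ ξ, S.Φ0 ξ * S.Φ1 ξ := by
    rw [← integral_neg]
    refine integral_congr_ae (ae_of_all _ fun ξ => ?_)
    simp only
    rw [S.ch0.par, S.ch1.par]; ring
  rw [e] at this
  linarith

theorem F_close (hl : 0 ≤ lam) : ∀ᵐ X : Pos3, |S.Fn X - B.u X| ≤ 2 * K * lam := by
  have hm := MemLp.slice_right p9 (h1_S S).memf
  have hK : 0 ≤ K * lam := mul_nonneg (zero_le_one.trans S.Kpos) hl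
  filter_upwards [hm, S.clS] with X hX hS
  have h0 := S.ch0.h1.memf
  have h1 := S.ch1.h1.memf
  set d : Y2 → ℝ := fun ξ => S.YS (jn p9 X ξ) - (B.u X / √2 * S.Φ0 ξ + B.g X / 2 * S.Φ1 ξ) with hd
  have hdm : MemLp d 2 volume := hX.sub ((h0.const_mul _).add (h1.const_mul _))
  have i1 : Integrable (fun ξ => S.Φ0 ξ * S.YS (jn p9 X ξ)) := h0.integrable_mul hX
  have i2 : Integrable (fun ξ => S.Φ0 ξ * S.Φ0 ξ) := h0.integrable_mul h0
  have i3 : Integrable (fun ξ => S.Φ0 ξ * S.Φ1 ξ) := h0.integrable_mul h1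
  have i23 : Integrable (fun ξ => B.u X / √2 * (S.Φ0 ξ * S.Φ0 ξ) +
      B.g X / 2 * (S.Φ0 ξ * S.Φ1 ξ)) := (i2.const_mul _).add (i3.const_mul _)
  have n0 : ∫ ξ, S.Φ0 ξ * S.Φ0 ξ = 1 := by
    rw [← S.n0]
    exact integral_congr_ae (ae_of_all _ fun ξ => by simp only; ring)
  have e : ∫ ξ, S.Φ0 ξ * d ξ = S.F X - B.u X / √2 := by
    have e1 : (fun ξ => S.Φ0 ξ * d ξ) = fun ξ => S.Φ0 ξ * S.YS (jn p9 X ξ) -
        (B.u X / √2 * (S.Φ0 ξ * S.Φ0 ξ) + B.g X / 2 * (S.Φ0 ξ * S.Φ1 ξ)) := by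
      funext ξ; rw [hd]; ring
    rw [e1, integral_sub i1 i23,
      integral_add (i2.const_mul _) (i3.const_mul _), integral_const_mul, integral_const_mul, n0,
      ortho01]
    simp only [Sys.F, cF]
    ring
  have cs := HS.cs (F := ℝ) h0 hdm
  simp only [smul_eq_mul, Real.norm_eq_abs, sq_abs] at cs
  rw [e, S.n0, one_mul] at cs
  have h2 : (S.F X - B.u X / √2) ^ 2 ≤ (K * lam) ^ 2 := cs.trans hS
  have h3 : |S.F X - B.u X / √2| ≤ K * lam := abs_le_of_sq_le_sq h2 hK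
  have s2 : √2 * √2 = 2 := Real.mul_self_sqrt (by norm_num)
  have s0 : √2 ≠ 0 := by positivity
  have s3 : √2 ≤ 2 := by
    rw [Real.sqrt_le_left (by norm_num)]; norm_num
  have e3 : S.Fn X - B.u X = √2 * (S.F X - B.u X / √2) := by
    unfold Sys.Fn
    field_simp
  rw [e3, abs_mul, abs_of_nonneg (Real.sqrt_nonneg 2)]
  calc √2 * |S.F X - B.u X / √2| ≤ 2 * (K * lam) :=
        mul_le_mul s3 h3 (abs_nonneg _) (by norm_num)
    _ = 2 * K * lam := by ring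

/-! ### integrability -/

theorem jb_nonneg (y : Pos3) : 0 ≤ jb y := Real.sqrt_nonneg _

theorem norm_le_jb (y : Pos3) : ‖y‖ ≤ jb y := by
  unfold jb
  exact Real.le_sqrt_of_sq_le (by linarith)

theorem a_pos (B : OBD cg C0 D) : 0 < B.a := by
  have := B.ob.eg_lt
  unfold OBD.a OBD.om
  linarith

theorem exp_jb_integrable (B : OBD cg C0 D) :
    Integrable (fun X : Pos3 => Real.exp (-(8 * B.a * jb X))) := by
  have ha := a_pos B
  have h := ob_integrable_exp (c := 8 * B.a) (by positivity) 0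
  refine h.mono' ?_ (ae_of_all _ fun X => ?_)
  · have : Continuous (fun X : Pos3 => Real.exp (-(8 * B.a * jb X))) := by
      unfold jb
      fun_prop
    exact this.aestronglyMeasurable
  · rw [Real.norm_eq_abs, abs_of_pos (Real.exp_pos _), sub_zero]
    refine Real.exp_le_exp.2 ?_
    have := mul_le_mul_of_nonneg_left (norm_le_jb X) (by positivity : 0 ≤ 8 * B.a)
    linarith

/-- the weight of three electrons -/
def W3 (x : Config3) : ℝ :=
  Real.exp (4 * B.a * (jb (elPos 0 x) + jb (elPos 1 x) + jb (elPos 2 x))) * S.ψ x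

theorem W3_sq_ge (i : Fin 3) (x : Config3) :
    Real.exp (8 * B.a * jb (elPos i x)) * S.ψ x ^ 2 ≤ W3 S x ^ 2 := by
  have ha := a_pos B
  unfold W3
  rw [mul_pow, ← Real.exp_nat_mul]
  refine mul_le_mul_of_nonneg_right (Real.exp_le_exp.2 ?_) (sq_nonneg _)
  have h0 := jb_nonneg (elPos 0 x)
  have h1 := jb_nonneg (elPos 1 x)
  have h2 := jb_nonneg (elPos 2 x)
  have h : jb (elPos i x) ≤ jb (elPos 0 x) + jb (elPos 1 x) + jb (elPos 2 x) := by
    fin_cases i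
    · show jb (elPos 0 x) ≤ _
      linarith
    · show jb (elPos 1 x) ≤ _
      linarith
    · show jb (elPos 2 x) ≤ _
      linarith
  have := mul_le_mul_of_nonneg_left h (by positivity : 0 ≤ 8 * B.a)
  push_cast
  linarith

/-- exponential decay of the density in the mean -/
theorem rho_weight : ∃ A : Pos3 → ℝ, Integrable A ∧ ∫ X, A X ≤ 3 * K ∧
    ∀ᵐ X : Pos3, Real.exp (8 * B.a * jb X) * S.rho X ≤ A X := by
  obtain ⟨d, hd, hK⟩ := S.w3
  have hW : MemLp (W3 S) 2 volume := hd.memf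
  have hWp : MemLp (fun x => W3 S (permConfig (finRotate 3) x)) 2 volume :=
    hW.comp_measurePreserving (mp_perm _)
  have i1 := hW.integrable_sq
  have i2 := hWp.integrable_sq
  have j1 := HS.integrable_slice p9 i1
  have j2 := HS.integrable_slice p9 i2
  have hWK : ∫ x, W3 S x ^ 2 ≤ K := by
    have h0 : 0 ≤ ∫ x, ‖d x‖ ^ 2 := integral_nonneg fun _ => by positivity
    have : ∫ x, W3 S x ^ 2 = ∫ x, (Real.exp (4 * B.a * (jb (elPos 0 x) + jb (elPos 1 x) +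
      jb (elPos 2 x))) * S.ψ x) ^ 2 := rfl
    linarith
  have e2 : ∫ x, W3 S (permConfig (finRotate 3) x) ^ 2 = ∫ x, W3 S x ^ 2 :=
    integral_perm (finRotate 3) (fun x => W3 S x ^ 2)
  refine ⟨fun X => 2 * (∫ ξ, W3 S (jn p9 X ξ) ^ 2) +
    ∫ ξ, W3 S (permConfig (finRotate 3) (jn p9 X ξ)) ^ 2, (j1.const_mul 2).add j2, ?_, ?_⟩
  · rw [integral_add (j1.const_mul 2) j2, integral_const_mul, ← integral_jn p9 i1,
      ← integral_jn p9 i2, e2]
    linarith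
  · have hB := (h1_B S).memf
    filter_upwards [MemLp.slice_right p9 S.tb.h1.memf, MemLp.slice_right p9 hB,
      HS.ae_integrable_slice p9 i1, HS.ae_integrable_slice p9 i2] with X m1 m2 n1 n2
    have k1 : Real.exp (8 * B.a * jb X) * ∫ ξ, S.ψ (jn p9 X ξ) ^ 2 ≤
        ∫ ξ, W3 S (jn p9 X ξ) ^ 2 := by
      rw [← integral_const_mul]
      refine integral_mono (m1.integrable_sq.const_mul _) n1 fun ξ => ?_
      have := W3_sq_ge S 0 (jn p9 X ξ)
      rw [elPos_jn_zero] at this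
      exact this
    have k2 : Real.exp (8 * B.a * jb X) * ∫ ξ, GB S.ψ (jn p9 X ξ) ^ 2 ≤
        ∫ ξ, W3 S (permConfig (finRotate 3) (jn p9 X ξ)) ^ 2 := by
      rw [← integral_const_mul]
      refine integral_mono (m2.integrable_sq.const_mul _) n2 fun ξ => ?_
      have := W3_sq_ge S 2 (permConfig (finRotate 3) (jn p9 X ξ))
      rw [elPos_permConfig] at this
      have e : elPos (finRotate 3 2) (jn p9 X ξ) = X := elPos_jn_zero X ξ
      rw [e] at this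
      exact this
    unfold Sys.rho
    rw [mul_add]
    linarith

theorem s2_int : Integrable S.s2 ∧
    ∫ X, S.s2 X ≤ (3 * K + ∫ X : Pos3, Real.exp (-(8 * B.a * jb X))) / 2 := by
  obtain ⟨A, hA, hA3, hAe⟩ := rho_weight S
  obtain ⟨m1, m2, -, k2, -⟩ := amp_H1 S
  have hJ := exp_jb_integrable B
  have hb : ∀ᵐ X : Pos3, S.s2 X ≤ (A X + Real.exp (-(8 * B.a * jb X))) / 2 := by
    filter_upwards [hAe, Sys.rho_eq S] with X h1 h2
    have h3 : S.s2 X ^ 2 ≤ S.rho X := by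
      rw [h2, Sys.s2, Real.sq_sqrt (s2sq_nonneg S X)]
      linarith [s1sq_nonneg S X]
    have h4 : Real.exp (8 * B.a * jb X) * S.s2 X ^ 2 ≤ A X :=
      (mul_le_mul_of_nonneg_left h3 (Real.exp_pos _).le).trans h1
    set E := Real.exp (4 * B.a * jb X) with hE
    have hE0 : 0 < E := Real.exp_pos _
    have e1 : Real.exp (8 * B.a * jb X) = E ^ 2 := by
      rw [hE, ← Real.exp_nat_mul]; congr 1; push_cast; ring
    have e2 : Real.exp (-(8 * B.a * jb X)) = (E⁻¹) ^ 2 := by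
      rw [hE, ← Real.exp_neg, ← Real.exp_nat_mul]; congr 1; push_cast; ring
    rw [e1] at h4
    rw [e2]
    have h6 : E * S.s2 X * E⁻¹ = S.s2 X := by
      field_simp
    nlinarith [sq_nonneg (E * S.s2 X - E⁻¹)]
  have h0 : ∀ X, 0 ≤ S.s2 X := fun X => Real.sqrt_nonneg _
  have hi : Integrable (fun X => (A X + Real.exp (-(8 * B.a * jb X))) / 2) := (hA.add hJ).div_const 2
  have hm : AEStronglyMeasurable S.s2 volume := k2.memf.1
  have hs : Integrable S.s2 := hi.mono' hm (by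
    filter_upwards [hb] with X hX
    rwa [Real.norm_eq_abs, abs_of_nonneg (h0 X)])
  refine ⟨hs, ?_⟩
  calc ∫ X, S.s2 X ≤ ∫ X, (A X + Real.exp (-(8 * B.a * jb X))) / 2 := integral_mono_ae hs hi hb
    _ = ((∫ X, A X) + ∫ X : Pos3, Real.exp (-(8 * B.a * jb X))) / 2 := by
        rw [integral_div, integral_add hA hJ]
    _ ≤ _ := by linarith

end close

/-- one-body eigenfunctions near `-1/2` are integrable -/
theorem ob_integrable : ∃ η : ℝ, 0 < η ∧ ∀ D : ℝ, 1 ≤ D → ∀ (f : Pos3 → ℝ) (g : Pos3 → Pos3)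
    (e : ℝ), H1 f g → (∀ w m, H1 w m → B2 D f g w m = e * ∫ x, f x * w x) →
    e ≤ -(1 / 2) + η → Integrable f := by
  obtain ⟨C, η, hη, h⟩ := oneBody_agmon (a := 1 / 2) (by norm_num) (by norm_num)
  refine ⟨η, hη, fun D hD f g e hf heq he => ?_⟩
  have h1 := (h D hD f g e hf heq he).1
  have h2 := ob_integrable_exp (c := 1) one_pos (nuc D)
  have h3 := ob_integrable_exp (c := 1) one_pos (nuc (-D))
  have h4 : Integrable (fun x : Pos3 => (Real.exp (1 / 2 * min ‖x - nuc D‖ ‖x - nuc (-D)‖) * f x) ^ 2 +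
      (Real.exp (-(1 * ‖x - nuc D‖)) + Real.exp (-(1 * ‖x - nuc (-D)‖)))) := h1.add (h2.add h3)
  refine h4.mono' hf.memf.1 (ae_of_all _ fun x => ?_)
  set m := min ‖x - nuc D‖ ‖x - nuc (-D)‖ with hm
  have h5 : Real.exp (-m) ≤ Real.exp (-(1 * ‖x - nuc D‖)) + Real.exp (-(1 * ‖x - nuc (-D)‖)) := by
    rcases min_choice ‖x - nuc D‖ ‖x - nuc (-D)‖ with h | h
    · rw [hm, h, one_mul]
      linarith [Real.exp_pos (-(1 * ‖x - nuc (-D)‖))]
    · rw [hm, h, one_mul, one_mul]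
      linarith [Real.exp_pos (-‖x - nuc D‖)]
  set E := Real.exp (1 / 2 * m) with hE
  have hE0 : 0 < E := Real.exp_pos _
  have e2 : Real.exp (-m) = (E⁻¹) ^ 2 := by
    rw [hE, ← Real.exp_neg, ← Real.exp_nat_mul]; congr 1; push_cast; ring
  rw [e2] at h5
  have h6 : E * E⁻¹ = 1 := mul_inv_cancel₀ hE0.ne'
  rw [Real.norm_eq_abs]
  have h7 : |f x| = (E * |f x|) * E⁻¹ := by
    rw [mul_comm E, mul_assoc, h6, mul_one]
  have h8 : (E * f x) ^ 2 = (E * |f x|) ^ 2 := by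
    rw [mul_pow, mul_pow, sq_abs]
  rw [h8]
  nlinarith [sq_nonneg (E * |f x| - E⁻¹), sq_nonneg (E * |f x|), sq_nonneg E⁻¹]

end Crest.Agent.R335.CO

namespace Crest.Agent.R335
open CO

theorem close {cg C0 D : ℝ} (hC : 1 ≤ C0) (hD : 4 ≤ D) (B : OBD cg C0 D) (K : ℝ) :
    ∃ K' l' : ℝ, 1 ≤ K' ∧ 0 < l' ∧ ∀ lam, 0 < lam → lam ≤ l' → ∀ S : Sys B K lam,
      ∀ᵐ x : Pos3, |√(S.rho x) - √(2 * B.g x ^ 2 + B.u x ^ 2)| ≤ K' * lam ∧
        |S.s1 x - abs (B.u x)| ≤ K' * lam ∧ |S.s2 x - √2 * B.g x| ≤ K' * lam ∧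
        |S.Fn x - B.u x| ≤ K' * lam := by
  refine ⟨max 1 (4 * K), 1, le_max_left _ _, one_pos, fun lam hl _ S => ?_⟩
  have hK : 1 ≤ K := S.Kpos
  have h5 : 4 * K * lam ≤ max 1 (4 * K) * lam := mul_le_mul_of_nonneg_right (le_max_right _ _) hl.le
  have h6 : 2 * K * lam ≤ 4 * K * lam := by nlinarith
  filter_upwards [s_close S hl.le, s1_close S hl.le, s2_close S hl.le, F_close S hl.le]
    with X h1 h2 h3 h4
  exact ⟨h1.trans h5, h2.trans (h6.trans h5), h3.trans (h6.trans h5), h4.trans (h6.trans h5)⟩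

theorem mass {cg C0 : ℝ} (hcg : 0 < cg) (hC : 1 ≤ C0) : ∃ D0 : ℝ, 4 ≤ D0 ∧ ∀ D : ℝ, D0 ≤ D →
    ∀ (B : OBD cg C0 D) (K : ℝ), ∃ K' l' : ℝ, 1 ≤ K' ∧ 0 < l' ∧ ∀ lam, 0 < lam → lam ≤ l' →
      ∀ S : Sys B K lam, |(∫ x, S.s2 x ^ 2) - 2| ≤ K' * lam := by
  obtain ⟨η, hη, hint⟩ := ob_integrable
  refine ⟨max 4 (C0 / η), le_max_left _ _, fun D hD B K => ?_⟩
  have hD4 : 4 ≤ D := (le_max_left _ _).trans hD
  have hDη : C0 / η ≤ D := (le_max_right _ _).trans hD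
  have heg : B.eg ≤ -(1 / 2) + η := by
    have h1 := (abs_le.1 B.eg_near).2
    have h2 : C0 / D ≤ η := by
      rw [div_le_iff₀ (by linarith)]
      rw [div_le_iff₀ hη] at hDη
      linarith
    linarith
  have hgi : Integrable B.g := hint D (by linarith) B.g B.dg B.eg B.ob.hg B.ob.g_eq heg
  set G := ∫ x, B.g x with hG
  set J := ∫ X : Pos3, Real.exp (-(8 * B.a * jb X)) with hJ
  refine ⟨max 1 (2 * K * ((3 * K + J) / 2 + √2 * G)), 1, le_max_left _ _, one_pos,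
    fun lam hl _ S => ?_⟩
  obtain ⟨si, sb⟩ := s2_int S
  obtain ⟨m1, m2, -, k2, -⟩ := amp_H1 S
  have hK : 1 ≤ K := S.Kpos
  have i1 : Integrable (fun x => S.s2 x ^ 2) := k2.memf.integrable_sq
  have i2 : Integrable (fun x => 2 * B.g x ^ 2) := B.ob.hg.memf.integrable_sq.const_mul 2
  have e1 : (∫ x, S.s2 x ^ 2) - 2 = ∫ x, (S.s2 x ^ 2 - 2 * B.g x ^ 2) := by
    rw [integral_sub i1 i2, integral_const_mul, B.ob.ng]; norm_num
  have ib : Integrable (fun x => 2 * K * lam * (S.s2 x + √2 * B.g x)) :=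
    (si.add (hgi.const_mul √2)).const_mul _
  rw [e1]
  have h1 : |∫ x, (S.s2 x ^ 2 - 2 * B.g x ^ 2)| ≤ ∫ x, 2 * K * lam * (S.s2 x + √2 * B.g x) := by
    refine (abs_integral_le_integral_abs).trans ?_
    refine integral_mono_ae (i1.sub i2).abs ib ?_
    filter_upwards [s2_close S hl.le] with x hx
    have s2 : √2 ^ 2 = 2 := Real.sq_sqrt (by norm_num)
    have e : S.s2 x ^ 2 - 2 * B.g x ^ 2 = (S.s2 x - √2 * B.g x) * (S.s2 x + √2 * B.g x) := by
      nlinarith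
    have h0 : 0 ≤ S.s2 x + √2 * B.g x := by
      have := (B.ob.g_pos x).le
      have : 0 ≤ S.s2 x := Real.sqrt_nonneg _
      positivity
    rw [e, abs_mul, abs_of_nonneg h0]
    exact mul_le_mul_of_nonneg_right hx h0
  refine h1.trans ?_
  rw [integral_const_mul, integral_add si (hgi.const_mul √2), integral_const_mul]
  have h2 : 2 * K * lam * ((∫ x, S.s2 x) + √2 * G) ≤
      2 * K * lam * ((3 * K + J) / 2 + √2 * G) :=
    mul_le_mul_of_nonneg_left (by linarith) (by positivity)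
  calc _ ≤ 2 * K * lam * ((3 * K + J) / 2 + √2 * G) := h2
    _ = (2 * K * ((3 * K + J) / 2 + √2 * G)) * lam := by ring
    _ ≤ _ := mul_le_mul_of_nonneg_right (le_max_right _ _) hl.le

end Crest.Agent.R335
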