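import Crest.Agent.R335.BIface2
import Crest.Agent.R335.BChan

/-!
Row 335 (S0521), TOP module CO3 (helper50): Pythagoras for the components of the two ion parities,
`s1sq_bd`, `s2sq_bd`.
-/

set_option autoImplicit false
set_option linter.unusedVariables false

open MeasureTheory Filter Set Crest.MathPhysics.ThreeBody
open scoped ENNReal Topology ContDiff

noncomputable section
namespace Crest.Agent.R335

namespace CO3

/-! ### the weight in all three electrons -/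

/-- `Σ ⟨x_i⟩` -/
def W3 (x : Config3) : ℝ := jb (elPos 0 x) + jb (elPos 1 x) + jb (elPos 2 x)

theorem jb_nonneg (y : Pos3) : 0 ≤ jb y := Real.sqrt_nonneg _

theorem jb_rz (y : Pos3) : jb (rz y) = jb y := by
  unfold jb
  rw [rz.norm_map]

theorem continuous_jb : Continuous jb := by
  unfold jb
  fun_prop

theorem continuous_el (j : Fin 2) : Continuous (el j) := (el2C j).continuous

theorem continuous_wi : Continuous wi := by
  unfold wi
  exact (continuous_jb.comp (continuous_el 0)).add (continuous_jb.comp (continuous_el 1))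

theorem continuous_W3 : Continuous W3 := by
  unfold W3
  exact ((continuous_jb.comp (elC 0).continuous).add (continuous_jb.comp (elC 1).continuous)).add
    (continuous_jb.comp (elC 2).continuous)

theorem wi_nonneg (ξ : Y2) : 0 ≤ wi ξ := add_nonneg (jb_nonneg _) (jb_nonneg _)

theorem W3_nonneg (x : Config3) : 0 ≤ W3 x :=
  add_nonneg (add_nonneg (jb_nonneg _) (jb_nonneg _)) (jb_nonneg _)

theorem wi_le_W3 (x : Config3) : wi (pr2 p9 x) ≤ W3 x := by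
  have h1 : el 0 (pr2 p9 x) = elPos 1 x := rfl
  have h2 : el 1 (pr2 p9 x) = elPos 2 x := rfl
  unfold wi W3
  rw [h1, h2]
  linarith [jb_nonneg (elPos 0 x)]

theorem W3_sum (x : Config3) : W3 x = ∑ i : Fin 3, jb (elPos i x) := by
  unfold W3
  rw [Fin.sum_univ_three]

theorem W3_perm (σ : Equiv.Perm (Fin 3)) (x : Config3) : W3 (permConfig σ x) = W3 x := by
  rw [W3_sum, W3_sum]
  simp only [elPos_permConfig]
  exact Equiv.sum_comp σ fun i => jb (elPos i x)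

theorem elPos_r12 (i : Fin 3) (x : Config3) : jb (elPos i (r12 x)) = jb (elPos i x) := by
  by_cases hi : i = 0
  · have : elPos i (r12 x) = elPos i x := by
      ext c
      simp only [elPos]
      rw [r12_apply]
      simp [hi]
    rw [this]
  · have : elPos i (r12 x) = rz (elPos i x) := by
      ext c
      rw [rz_apply]
      simp only [elPos]
      rw [r12_apply]
      simp [hi]
    rw [this, jb_rz]

theorem W3_r12 (x : Config3) : W3 (r12 x) = W3 x := by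
  rw [W3_sum, W3_sum]
  simp only [elPos_r12]

/-- `e^{4a Σ⟨x_i⟩} Y ∈ L²` -/
def WL (a : ℝ) (Y : Config3 → ℝ) : Prop :=
  MemLp Y 2 volume ∧ MemLp (fun x => Real.exp (4 * a * W3 x) * Y x) 2 volume

theorem WL.comp {a : ℝ} {Y : Config3 → ℝ} (h : WL a Y) {T : Config3 → Config3}
    (hT : MeasurePreserving T) (hW : ∀ x, W3 (T x) = W3 x) : WL a (fun x => Y (T x)) := by
  refine ⟨h.1.comp_measurePreserving hT, ?_⟩
  refine (h.2.comp_measurePreserving hT).ae_eq (ae_of_all _ fun x => ?_)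
  simp only [Function.comp_apply]
  rw [hW]

theorem WL.lin {a : ℝ} {Y Z : Config3 → ℝ} (h : WL a Y) (h' : WL a Z) (p q : ℝ) :
    WL a (fun x => p * Y x + q * Z x) := by
  refine ⟨(h.1.const_mul p).add (h'.1.const_mul q), ?_⟩
  refine ((h.2.const_mul p).add (h'.2.const_mul q)).ae_eq (ae_of_all _ fun x => ?_)
  simp only [Pi.add_apply]
  ring

theorem WL.Yp {a : ℝ} {Y : Config3 → ℝ} (h : WL a Y) (π : ℝ) : WL a (Yp π Y) := by
  have h1 := h.comp r12.measurePreserving W3_r12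
  have h2 := h.lin h1 (1 / 2) (π / 2)
  have e : (fun x => (1 / 2) * Y x + (π / 2) * Y (r12 x)) = Crest.Agent.R335.Yp π Y := by
    funext x
    unfold Crest.Agent.R335.Yp
    ring
  rwa [e] at h2

/-- weighted slices -/
theorem WL.slice {a : ℝ} (ha : 0 ≤ a) {Y : Config3 → ℝ} (h : WL a Y) : ∀ᵐ X : Pos3,
    MemLp (fun ξ => Y (jn p9 X ξ)) 2 volume ∧
      MemLp (fun ξ => Real.exp (a * wi ξ) * Y (jn p9 X ξ)) 2 volume := by
  have h1 : MemLp (fun x => Real.exp (a * wi (pr2 p9 x)) * Y x) 2 volume := by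
    refine h.2.of_le ?_ (ae_of_all _ fun x => ?_)
    · refine AEStronglyMeasurable.mul ?_ h.1.1
      have : Continuous fun x : Config3 => Real.exp (a * wi (pr2 p9 x)) := by
        have hp : Continuous (pr2 p9 : Config3 → Y2) := continuous_pr2 p9
        exact Real.continuous_exp.comp (continuous_const.mul (continuous_wi.comp hp))
      exact this.aestronglyMeasurable
    · rw [norm_mul, norm_mul, Real.norm_of_nonneg (Real.exp_pos _).le,
        Real.norm_of_nonneg (Real.exp_pos _).le]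
      refine mul_le_mul_of_nonneg_right (Real.exp_le_exp.2 ?_) (norm_nonneg _)
      have := wi_le_W3 x
      have h0 := wi_nonneg (pr2 p9 x)
      nlinarith [mul_le_mul_of_nonneg_left this ha, mul_nonneg ha (W3_nonneg x)]
  filter_upwards [MemLp.slice_right p9 h.1, MemLp.slice_right p9 h1] with X h2 h3
  refine ⟨h2, h3.ae_eq (ae_of_all _ fun ξ => ?_)⟩
  simp only [pr2_jn]

/-- `∫ Y(X)² ≤ |e^{aw} Y(X)|²` -/
theorem le_wN {a : ℝ} (ha : 0 ≤ a) {Y : Config3 → ℝ} {X : Pos3}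
    (h1 : MemLp (fun ξ => Y (jn p9 X ξ)) 2 volume)
    (h2 : MemLp (fun ξ => Real.exp (a * wi ξ) * Y (jn p9 X ξ)) 2 volume) :
    ∫ ξ, Y (jn p9 X ξ) ^ 2 ≤ wN a Y X ^ 2 := by
  unfold wN
  rw [Real.sq_sqrt (integral_nonneg fun ξ => sq_nonneg _)]
  refine integral_mono_ae h1.integrable_sq h2.integrable_sq (ae_of_all _ fun ξ => ?_)
  simp only
  rw [mul_pow]
  have : 1 ≤ Real.exp (a * wi ξ) := Real.one_le_exp (mul_nonneg ha (wi_nonneg ξ))
  nlinarith [sq_nonneg (Y (jn p9 X ξ)), mul_nonneg (sub_nonneg.2 this)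
    (sq_nonneg (Y (jn p9 X ξ))), mul_nonneg (mul_nonneg (sub_nonneg.2 this) (Real.exp_pos (a * wi ξ)).le)
    (sq_nonneg (Y (jn p9 X ξ)))]

/-- Pythagoras -/
theorem pyth {π : ℝ} (hπ : π * π = 1) {Φ : Y2 → ℝ} (hΦ : MemLp Φ 2 volume)
    (hn : ∫ ξ, Φ ξ ^ 2 = 1) (hpar : ∀ ξ, Φ (rxi ξ) = π * Φ ξ) {Y : Config3 → ℝ} {X : Pos3}
    (hY : MemLp (fun ξ => Y (jn p9 X ξ)) 2 volume)
    (hYp : MemLp (fun ξ => Yp π Y (jn p9 X ξ)) 2 volume) :
    ∫ ξ, Yp π Y (jn p9 X ξ) ^ 2 = cF Φ Y X ^ 2 + ∫ ξ, cR π Φ Y (jn p9 X ξ) ^ 2 := by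
  have i1 : Integrable (fun ξ => Φ ξ * Y (jn p9 X ξ)) := hΦ.integrable_mul hY
  have i2 : Integrable (fun ξ => Φ ξ * Yp π Y (jn p9 X ξ)) := hΦ.integrable_mul hYp
  have i3 : Integrable (fun ξ => Φ ξ * Y (jn p9 X (rxi ξ))) := by
    have := hΦ.integrable_mul (hY.comp_measurePreserving rxi.measurePreserving)
    exact this
  have h1 : ∫ ξ, Φ ξ * Y (jn p9 X (rxi ξ)) = π * cF Φ Y X := by
    have := integral_isom rxi (fun ξ => Φ ξ * Y (jn p9 X (rxi ξ)))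
    rw [← this]
    unfold cF
    rw [← integral_const_mul]
    refine integral_congr_ae (ae_of_all _ fun ξ => ?_)
    simp only
    rw [rxi_rxi, hpar]
    ring
  have h2 : ∫ ξ, Φ ξ * Yp π Y (jn p9 X ξ) = cF Φ Y X := by
    have e : ∀ ξ, Φ ξ * Yp π Y (jn p9 X ξ) =
        (1 / 2) * (Φ ξ * Y (jn p9 X ξ)) + (π / 2) * (Φ ξ * Y (jn p9 X (rxi ξ))) := by
      intro ξ
      rw [jn_rxi]
      unfold Yp
      ring
    simp_rw [e]
    rw [integral_add (i1.const_mul _) (i3.const_mul _), integral_const_mul, integral_const_mul,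
      h1]
    unfold cF
    linear_combination (1 / 2 * ∫ ξ, Φ ξ * Y (jn p9 X ξ)) * hπ
  have iq : Integrable (fun ξ => Φ ξ ^ 2) := hΦ.integrable_sq
  have iy : Integrable (fun ξ => Yp π Y (jn p9 X ξ) ^ 2) := hYp.integrable_sq
  have e : ∀ ξ, cR π Φ Y (jn p9 X ξ) ^ 2 = Yp π Y (jn p9 X ξ) ^ 2 +
      ((-2 * cF Φ Y X) * (Φ ξ * Yp π Y (jn p9 X ξ)) + cF Φ Y X ^ 2 * Φ ξ ^ 2) := by
    intro ξ
    unfold cR
    rw [pr1_jn, pr2_jn]
    ring
  simp_rw [e]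
  have i4 : Integrable (fun ξ => (-2 * cF Φ Y X) * (Φ ξ * Yp π Y (jn p9 X ξ)) +
      cF Φ Y X ^ 2 * Φ ξ ^ 2) := (i2.const_mul _).add (iq.const_mul _)
  rw [integral_add iy i4,
    integral_add (i2.const_mul _) (iq.const_mul _), integral_const_mul, integral_const_mul,
    h2, hn]
  ring

/-- one component with a channel state -/
theorem comp_bd {π a : ℝ} (ha : 0 ≤ a) (hπ : π * π = 1) {Φ : Y2 → ℝ} (hΦ : MemLp Φ 2 volume)
    (hΦw : MemLp (fun ξ => Real.exp (a * wi ξ) * Φ ξ) 2 volume)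
    (hn : ∫ ξ, Φ ξ ^ 2 = 1) (hpar : ∀ ξ, Φ (rxi ξ) = π * Φ ξ) {Y : Config3 → ℝ}
    (h : WL a Y) : ∀ᵐ X : Pos3, cF Φ Y X ^ 2 ≤ ∫ ξ, Yp π Y (jn p9 X ξ) ^ 2 ∧
      ∫ ξ, Yp π Y (jn p9 X ξ) ^ 2 ≤ cF Φ Y X ^ 2 + wN a (cR π Φ Y) X ^ 2 := by
  filter_upwards [h.slice ha, (h.Yp π).slice ha] with X h1 h2
  have hp := pyth hπ hΦ hn hpar h1.1 h2.1
  have hR : MemLp (fun ξ => cR π Φ Y (jn p9 X ξ)) 2 volume := by
    refine (h2.1.sub (hΦ.const_mul (cF Φ Y X))).ae_eq (ae_of_all _ fun ξ => ?_)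
    simp only [Pi.sub_apply]
    unfold cR
    rw [pr1_jn, pr2_jn]
  have hRw : MemLp (fun ξ => Real.exp (a * wi ξ) * cR π Φ Y (jn p9 X ξ)) 2 volume := by
    refine (h2.2.sub (hΦw.const_mul (cF Φ Y X))).ae_eq (ae_of_all _ fun ξ => ?_)
    simp only [Pi.sub_apply]
    unfold cR
    rw [pr1_jn, pr2_jn]
    ring
  have h3 := le_wN ha hR hRw
  have h4 : 0 ≤ ∫ ξ, cR π Φ Y (jn p9 X ξ) ^ 2 := integral_nonneg fun ξ => sq_nonneg _
  rw [hp]
  constructor <;> linarith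

/-- one component without a channel state -/
theorem comp_bd0 {π a : ℝ} (ha : 0 ≤ a) {Y : Config3 → ℝ}
    (h : WL a Y) : ∀ᵐ X : Pos3, ∫ ξ, Yp π Y (jn p9 X ξ) ^ 2 ≤ wN a (Yp π Y) X ^ 2 := by
  filter_upwards [(h.Yp π).slice ha] with X h2
  exact le_wN ha h2.1 h2.2

theorem ionW_memLp {C0 D K a : ℝ} (ha : 0 ≤ a) {Φ : Y2 → ℝ} (hΦ : MemLp Φ 2 volume)
    (h : IonW C0 D K a Φ) : MemLp (fun ξ => Real.exp (a * wi ξ) * Φ ξ) 2 volume := by
  obtain ⟨d, hd, -⟩ := h.w4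
  refine hd.memf.of_le ?_ (ae_of_all _ fun ξ => ?_)
  · exact (Real.continuous_exp.comp (continuous_const.mul continuous_wi)).aestronglyMeasurable.mul
      hΦ.1
  · rw [norm_mul, norm_mul, Real.norm_of_nonneg (Real.exp_pos _).le,
      Real.norm_of_nonneg (Real.exp_pos _).le]
    refine mul_le_mul_of_nonneg_right (Real.exp_le_exp.2 ?_) (norm_nonneg _)
    nlinarith [mul_nonneg ha (wi_nonneg ξ)]

variable {cg C0 D : ℝ} {B : OBD cg C0 D} {K lam : ℝ} (S : Sys B K lam)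

theorem a_nonneg (B : OBD cg C0 D) : 0 ≤ B.a := by
  unfold OBD.a OBD.om
  have := B.ob.eg_lt
  exact div_nonneg (by linarith) (by norm_num)

theorem wl_psi : WL B.a S.ψ := by
  obtain ⟨d, hd, -⟩ := S.w3
  exact ⟨S.tb.h1.memf, hd.memf⟩

theorem wl_S : WL B.a S.YS := by
  have h := (wl_psi S).lin ((wl_psi S).comp (mp_perm (Equiv.swap 1 2)) (W3_perm _)) (1 / 2) (1 / 2)
  have e : (fun x => (1 / 2) * S.ψ x + (1 / 2) * S.ψ (permConfig (Equiv.swap 1 2) x)) = S.YS := by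
    funext x
    unfold Sys.YS GS
    ring
  rwa [e] at h

theorem wl_T : WL B.a S.YT := by
  have h := (wl_psi S).lin ((wl_psi S).comp (mp_perm (Equiv.swap 1 2)) (W3_perm _))
    (-√2 / 2) (√2 / 2)
  have e : (fun x => (-√2 / 2) * S.ψ x + (√2 / 2) * S.ψ (permConfig (Equiv.swap 1 2) x)) =
      S.YT := by
    funext x
    unfold Sys.YT GT
    ring
  rwa [e] at h

theorem wl_B : WL B.a S.YB :=
  (wl_psi S).comp (mp_perm (finRotate 3)) (W3_perm _)

end CO3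

open CO3

theorem s1sq_bd {cg C0 D : ℝ} {B : OBD cg C0 D} {K lam : ℝ} (S : Sys B K lam) (hl : 0 ≤ lam) :
    ∀ᵐ X : Pos3, 2 * S.F X ^ 2 ≤ S.s1sq X ∧
      S.s1sq X ≤ 2 * S.F X ^ 2 + 2 * S.P X ^ 2 + S.PT S.YT X ^ 2 + S.PT S.YB X ^ 2 := by
  have ha := a_nonneg B
  have h0 := S.ch0.h1.memf
  filter_upwards [comp_bd ha (one_mul 1) h0 (ionW_memLp ha h0 S.w0) S.n0 S.ch0.par (wl_S S),
    comp_bd0 (π := 1) ha (wl_T S), comp_bd0 (π := 1) ha (wl_B S)] with X h1 h2 h3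
  have h4 : 0 ≤ ∫ ξ, Yp 1 S.YT (jn p9 X ξ) ^ 2 := integral_nonneg fun ξ => sq_nonneg _
  have h5 : 0 ≤ ∫ ξ, Yp 1 S.YB (jn p9 X ξ) ^ 2 := integral_nonneg fun ξ => sq_nonneg _
  unfold Sys.s1sq Sys.F Sys.P Sys.PT
  constructor
  · linarith [h1.1]
  · linarith [h1.2]

theorem s2sq_bd {cg C0 D : ℝ} {B : OBD cg C0 D} {K lam : ℝ} (S : Sys B K lam) (hl : 0 ≤ lam) :
    ∀ᵐ X : Pos3, 2 * S.c X ^ 2 + S.t S.YT X ^ 2 + S.t S.YB X ^ 2 ≤ S.s2sq X ∧
      S.s2sq X ≤ 2 * S.c X ^ 2 + S.t S.YT X ^ 2 + S.t S.YB X ^ 2 +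
        2 * S.N X ^ 2 + S.NT S.YT X ^ 2 + S.NT S.YB X ^ 2 := by
  have ha := a_nonneg B
  have h1' := S.ch1.h1.memf
  have hT' := S.chT.h1.memf
  have hm : (-1 : ℝ) * (-1) = 1 := by norm_num
  filter_upwards [comp_bd ha hm h1' (ionW_memLp ha h1' S.w1) S.n1 S.ch1.par (wl_S S),
    comp_bd ha hm hT' (ionW_memLp ha hT' S.wT) S.nT S.chT.par (wl_T S),
    comp_bd ha hm hT' (ionW_memLp ha hT' S.wT) S.nT S.chT.par (wl_B S)] with X h1 h2 h3
  unfold Sys.s2sq Sys.c Sys.t Sys.N Sys.NT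
  constructor
  · linarith [h1.1, h2.1, h3.1]
  · linarith [h1.2, h2.2, h3.2]

end Crest.Agent.R335
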