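import Crest.Agent.R335.CO1

/-!
Row 335 (S0521), interface B → C, part 4 (helper357): energy of the two amplitudes.
-/

set_option autoImplicit false
set_option linter.unusedVariables false

open MeasureTheory Filter Set Crest.MathPhysics.ThreeBody
open scoped ENNReal Topology ContDiff

noncomputable section
namespace Crest.Agent.R335.CO
open Crest.Agent.R335

theorem V2el_memLp (D : ℝ) (i : Fin 3) {f : Config3 → ℝ} {g : Config3 → Config3} (h : H1 f g) :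
    MemLp (fun x => V2 D (elPos i x) * f x) 2 volume := by
  have h1 : ∀ a : Pos3, MemLp (fun x => 1 / ‖elPos i x - a‖ * f x) 2 volume :=
    fun a => memLp_div_norm h (elC i) _ (elC_single_self i) a
  have := ((h1 (nuc D)).neg).sub (h1 (nuc (-D)))
  refine this.ae_eq (ae_of_all _ fun x => ?_)
  simp only [Pi.sub_apply, Pi.neg_apply]
  unfold V2
  ring

theorem V2el_int (D : ℝ) (i : Fin 3) {f : Config3 → ℝ} {g : Config3 → Config3} (h : H1 f g) :
    Integrable (fun x => V2 D (elPos i x) * f x ^ 2) := by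
  refine ((V2el_memLp D i h).integrable_mul h.memf).congr (ae_of_all _ fun x => ?_)
  simp only [Pi.mul_apply]
  ring

variable {cg C0 D : ℝ} {B : OBD cg C0 D} {K lam : ℝ} (S : Sys B K lam)

/-- potential energy of the density -/
theorem int_V2_rho : ∫ X, V2 D X * S.rho X =
    (∫ x, V2 D (elPos 0 x) * S.ψ x ^ 2) + (∫ x, V2 D (elPos 1 x) * S.ψ x ^ 2) +
      ∫ x, V2 D (elPos 2 x) * S.ψ x ^ 2 := by
  have i0 := V2el_int D 0 S.tb.h1
  have hB : H1 (GB S.ψ) (gP (finRotate 3) S.dψ) := h1_B S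
  have iB := V2el_int D 0 hB
  have j0 := HS.integrable_slice p9 i0
  have jB := HS.integrable_slice p9 iB
  have e : ∀ X : Pos3, V2 D X * S.rho X =
      2 * (∫ ξ, V2 D (elPos 0 (jn p9 X ξ)) * S.ψ (jn p9 X ξ) ^ 2) +
        ∫ ξ, V2 D (elPos 0 (jn p9 X ξ)) * GB S.ψ (jn p9 X ξ) ^ 2 := by
    intro X
    simp only [elPos_jn_zero]
    rw [integral_const_mul, integral_const_mul]
    unfold Sys.rho
    ring
  simp only [e]
  rw [integral_add (j0.const_mul 2) jB, integral_const_mul, ← integral_jn p9 i0,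
    ← integral_jn p9 iB]
  have e1 : ∫ x, V2 D (elPos 1 x) * S.ψ x ^ 2 = ∫ x, V2 D (elPos 0 x) * S.ψ x ^ 2 := by
    rw [← integral_perm (Equiv.swap 0 1) (fun x => V2 D (elPos 1 x) * S.ψ x ^ 2)]
    refine integral_congr_ae (ae_of_all _ fun x => ?_)
    simp only
    rw [elPos_permConfig, S.tb.anti, Equiv.swap_apply_right, neg_sq]
  have e2 : ∫ x, V2 D (elPos 2 x) * S.ψ x ^ 2 = ∫ x, V2 D (elPos 0 x) * GB S.ψ x ^ 2 := by
    rw [← integral_perm (finRotate 3) (fun x => V2 D (elPos 2 x) * S.ψ x ^ 2)]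
    refine integral_congr_ae (ae_of_all _ fun x => ?_)
    simp only [GB]
    rw [elPos_permConfig]
    rfl
  rw [e1, e2]
  ring

theorem V9_ge (hl : 0 ≤ lam) (x : Config3) :
    V2 D (elPos 0 x) + V2 D (elPos 1 x) + V2 D (elPos 2 x) ≤ V9 D lam x := by
  unfold V9
  have : 0 ≤ lam * (1 / ‖elPos 0 x - elPos 1 x‖ + 1 / ‖elPos 0 x - elPos 2 x‖ +
      1 / ‖elPos 1 x - elPos 2 x‖) := by positivity
  linarith

theorem energy_le (hl : 0 ≤ lam) :
    (1 / 2) * (∫ x, ‖S.dψ x‖ ^ 2) + ∫ X, V2 D X * S.rho X ≤ S.E := by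
  have h := S.tb.eq S.ψ S.dψ S.tb.h1
  have n : ∫ x, S.ψ x * S.ψ x = 1 := by
    rw [← S.tb.nrm]
    exact integral_congr_ae (ae_of_all _ fun x => by simp only; ring)
  rw [n, mul_one] at h
  unfold q3 at h
  have e1 : ∫ x, inner ℝ (S.dψ x) (S.dψ x) = ∫ x, ‖S.dψ x‖ ^ 2 :=
    integral_congr_ae (ae_of_all _ fun x => real_inner_self_eq_norm_sq _)
  rw [e1] at h
  have i0 := V2el_int D 0 S.tb.h1
  have i1 := V2el_int D 1 S.tb.h1
  have i2 := V2el_int D 2 S.tb.h1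
  have i01 : Integrable (fun x => V2 D (elPos 0 x) * S.ψ x ^ 2 + V2 D (elPos 1 x) * S.ψ x ^ 2) :=
    i0.add i1
  have i012 : Integrable (fun x => V2 D (elPos 0 x) * S.ψ x ^ 2 + V2 D (elPos 1 x) * S.ψ x ^ 2 +
    V2 D (elPos 2 x) * S.ψ x ^ 2) := i01.add i2
  have h2 : ∫ X, V2 D X * S.rho X ≤ ∫ x, V9 D lam x * S.ψ x * S.ψ x := by
    rw [int_V2_rho, ← integral_add i0 i1, ← integral_add i01 i2]
    refine integral_mono i012 (V9_integrable D lam S.tb.h1 S.tb.h1.memf) fun x => ?_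
    simp only
    have := mul_le_mul_of_nonneg_right (V9_ge (D := D) hl x) (sq_nonneg (S.ψ x))
    linarith
  linarith

end Crest.Agent.R335.CO

namespace Crest.Agent.R335
open CO

theorem energy {cg C0 D : ℝ} (hC : 1 ≤ C0) (hD : 4 ≤ D) (B : OBD cg C0 D) (K : ℝ) :
    ∃ K' l' : ℝ, 1 ≤ K' ∧ 0 < l' ∧ ∀ lam, 0 < lam → lam ≤ l' → ∀ S : Sys B K lam,
      ∀ gs1 gs2, H1 S.s1 gs1 → H1 S.s2 gs2 →
        (1 / 2) * ((∫ x, ‖gs1 x‖ ^ 2) + ∫ x, ‖gs2 x‖ ^ 2) + ∫ x, V2 D x * S.rho x ≤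
          2 * B.eg + B.eu + K' * lam := by
  refine ⟨max 1 K, 1, le_max_left _ _, one_pos, fun lam hl _ S gs1 gs2 h1 h2 => ?_⟩
  obtain ⟨m1, m2, k1, k2, hk⟩ := amp_H1 S
  have e1 : ∫ x, ‖gs1 x‖ ^ 2 = ∫ x, ‖m1 x‖ ^ 2 := by
    refine integral_congr_ae ?_
    filter_upwards [H1.unique h1 k1] with x hx
    rw [hx]
  have e2 : ∫ x, ‖gs2 x‖ ^ 2 = ∫ x, ‖m2 x‖ ^ 2 := by
    refine integral_congr_ae ?_
    filter_upwards [H1.unique h2 k2] with x hx
    rw [hx]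
  have h3 := energy_le S hl.le
  have h4 := abs_le.1 S.En
  have h5 : K * lam ≤ max 1 K * lam := mul_le_mul_of_nonneg_right (le_max_right _ _) hl.le
  rw [e1, e2]
  linarith [h4.2]

end Crest.Agent.R335
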