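import Crest.Agent.R335.MultA
import Crest.Agent.R335.HHardy
import Crest.Agent.R335.HBasic

/-!
Row 335 (S0521): multipole expansions, `L²` part (helper543): `multipole`, `multipole_diag`.
-/

set_option autoImplicit false
set_option linter.unusedSectionVars false
set_option linter.unusedVariables false

open MeasureTheory Filter Set Crest.MathPhysics.ThreeBody
open scoped ENNReal Topology ContDiff

noncomputable section
namespace Crest.Agent.R335

namespace Mult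

/-- `el j` as a continuous linear map -/
def elL (j : Fin 2) : Y2 →L[ℝ] Pos3 :=
  LinearMap.toContinuousLinearMap
    { toFun := el j
      map_add' := fun x y => by ext c; simp [el]
      map_smul' := fun c x => by ext d; simp [el] }

theorem elL_apply (j : Fin 2) (ξ : Y2) : elL j ξ = el j ξ := rfl

theorem el_apply (j : Fin 2) (ξ : Y2) (c : Fin 3) : el j ξ c = ξ (j, c) := rfl

theorem continuous_el (j : Fin 2) : Continuous (el j) := (elL j).continuous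

theorem elL_single (j : Fin 2) (c : Fin 3) :
    elL j (EuclideanSpace.single (j, c) (1 : ℝ)) = EuclideanSpace.single c (1 : ℝ) := by
  ext d
  rw [elL_apply, el_apply]
  simp [PiLp.single_apply, Prod.ext_iff]

theorem continuous_jb : Continuous jb := by
  unfold jb
  exact Real.continuous_sqrt.comp (continuous_const.add (continuous_norm.pow 2))

theorem continuous_wi : Continuous wi :=
  (continuous_jb.comp (continuous_el 0)).add (continuous_jb.comp (continuous_el 1))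

theorem measurable_WX (X : Pos3) : Measurable (WX X) := by
  have h : ∀ j : Fin 2, Measurable fun ξ : Y2 => 1 / ‖X - el j ξ‖ := fun j =>
    measurable_const.div ((continuous_const.sub (continuous_el j)).norm.measurable)
  exact (h 0).add (h 1)

theorem measurable_Wm (X : Pos3) : Measurable (Wm X) :=
  ((measurable_WX X).sub (measurable_WX (rz X))).div_const 2

theorem WX_nonneg (X : Pos3) (ξ : Y2) : 0 ≤ WX X ξ := by
  unfold WX
  positivity

theorem abs_Wm_le (X : Pos3) (ξ : Y2) : |Wm X ξ| ≤ (WX X ξ + WX (rz X) ξ) / 2 := by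
  unfold Wm
  rw [abs_div, abs_of_pos (show (0 : ℝ) < 2 by norm_num)]
  refine div_le_div_of_nonneg_right ?_ (by norm_num)
  refine (abs_sub _ _).trans ?_
  rw [abs_of_nonneg (WX_nonneg X ξ), abs_of_nonneg (WX_nonneg _ ξ)]

/-- Hardy for `W_X` -/
theorem hardy_WX {G : Y2 → ℝ} {d : Y2 → Y2} (h : H1 G d) (X : Pos3) :
    Integrable (fun ξ => (WX X ξ * G ξ) ^ 2) ∧
      ∫ ξ, (WX X ξ * G ξ) ^ 2 ≤ 8 * ∫ ξ, ‖d ξ‖ ^ 2 := by
  have hh : ∀ j : Fin 2, Integrable (fun ξ => G ξ ^ 2 / ‖elL j ξ - X‖ ^ 2) ∧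
      ∫ ξ, G ξ ^ 2 / ‖elL j ξ - X‖ ^ 2 ≤ 4 * ∫ ξ, ∑ c : Fin 3, d ξ (j, c) ^ 2 := by
    intro j
    have := Crest.Agent.R335.hardy h (elL j) (fun c => EuclideanSpace.single (j, c) (1 : ℝ)) (elL_single j) X
    refine ⟨this.1, this.2.trans (le_of_eq ?_)⟩
    congr 1
    refine integral_congr_ae (Eventually.of_forall fun ξ => ?_)
    refine Finset.sum_congr rfl fun c _ => ?_
    show (inner ℝ (d ξ) (EuclideanSpace.single (j, c) (1 : ℝ))) ^ 2 = _
    rw [EuclideanSpace.inner_single_right]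
    simp
  have hcomp : ∀ (j : Fin 2), Integrable (fun ξ => ∑ c : Fin 3, d ξ (j, c) ^ 2) := by
    intro j
    refine integrable_finsetSum _ fun c _ => ?_
    have h1 : MemLp (fun ξ => d ξ (j, c)) 2 volume :=
      h.memg.continuousLinearMap_comp (EuclideanSpace.proj (𝕜 := ℝ) (j, c))
    exact h1.integrable_sq
  have hpt : ∀ ξ, (WX X ξ * G ξ) ^ 2 ≤
      2 * (G ξ ^ 2 / ‖elL 0 ξ - X‖ ^ 2) + 2 * (G ξ ^ 2 / ‖elL 1 ξ - X‖ ^ 2) := by
    intro ξ
    have e0 : ‖elL 0 ξ - X‖ = ‖X - el 0 ξ‖ := norm_sub_rev _ _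
    have e1 : ‖elL 1 ξ - X‖ = ‖X - el 1 ξ‖ := norm_sub_rev _ _
    rw [e0, e1]
    have e2 : G ξ ^ 2 / ‖X - el 0 ξ‖ ^ 2 = (1 / ‖X - el 0 ξ‖ * G ξ) ^ 2 := by
      rw [mul_pow, div_pow, one_pow]
      ring
    have e3 : G ξ ^ 2 / ‖X - el 1 ξ‖ ^ 2 = (1 / ‖X - el 1 ξ‖ * G ξ) ^ 2 := by
      rw [mul_pow, div_pow, one_pow]
      ring
    rw [e2, e3]
    unfold WX
    nlinarith [sq_nonneg (1 / ‖X - el 0 ξ‖ * G ξ - 1 / ‖X - el 1 ξ‖ * G ξ)]
  have hint := ((hh 0).1.const_mul 2).add ((hh 1).1.const_mul 2)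
  have hm : AEStronglyMeasurable (fun ξ => (WX X ξ * G ξ) ^ 2) volume :=
    ((measurable_WX X).aestronglyMeasurable.mul h.memf.aestronglyMeasurable).pow 2
  have hi : Integrable (fun ξ => (WX X ξ * G ξ) ^ 2) := by
    refine Integrable.mono' hint hm (Eventually.of_forall fun ξ => ?_)
    rw [Real.norm_of_nonneg (sq_nonneg _)]
    exact hpt ξ
  refine ⟨hi, ?_⟩
  calc ∫ ξ, (WX X ξ * G ξ) ^ 2
      ≤ ∫ ξ, (2 * (G ξ ^ 2 / ‖elL 0 ξ - X‖ ^ 2) + 2 * (G ξ ^ 2 / ‖elL 1 ξ - X‖ ^ 2)) :=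
        integral_mono hi hint hpt
    _ = 2 * (∫ ξ, G ξ ^ 2 / ‖elL 0 ξ - X‖ ^ 2) + 2 * ∫ ξ, G ξ ^ 2 / ‖elL 1 ξ - X‖ ^ 2 := by
        rw [integral_add ((hh 0).1.const_mul 2) ((hh 1).1.const_mul 2), integral_const_mul,
          integral_const_mul]
    _ ≤ 2 * (4 * ∫ ξ, ∑ c : Fin 3, d ξ (0, c) ^ 2) +
          2 * (4 * ∫ ξ, ∑ c : Fin 3, d ξ (1, c) ^ 2) := by
        linarith [(hh 0).2, (hh 1).2]
    _ = 8 * ∫ ξ, (∑ c : Fin 3, d ξ (0, c) ^ 2 + ∑ c : Fin 3, d ξ (1, c) ^ 2) := by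
        rw [integral_add (hcomp 0) (hcomp 1)]
        ring
    _ = 8 * ∫ ξ, ‖d ξ‖ ^ 2 := by
        congr 1
        refine integral_congr_ae (Eventually.of_forall fun ξ => ?_)
        show (∑ c : Fin 3, d ξ (0, c) ^ 2 + ∑ c : Fin 3, d ξ (1, c) ^ 2) = ‖d ξ‖ ^ 2
        rw [EuclideanSpace.norm_sq_eq, Fintype.sum_prod_type, Fin.sum_univ_two]
        simp only [Real.norm_eq_abs, sq_abs]

/-- `√∫f²` from a pointwise bound -/
theorem sqrt_int_le {α : Type*} [MeasurableSpace α] {μ : Measure α} {f F : α → ℝ} {B : ℝ}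
    (hf : ∀ x, f x ^ 2 ≤ F x) (hF : Integrable F μ) (hB : ∫ x, F x ∂μ ≤ B) :
    √(∫ x, f x ^ 2 ∂μ) ≤ √B := by
  refine Real.sqrt_le_sqrt ((integral_mono_of_nonneg (Eventually.of_forall fun x => sq_nonneg _) hF
    (Eventually.of_forall hf)).trans hB)

theorem abs_mul3 {e w g : ℝ} (he : 0 < e) (hw : 0 ≤ w) : |e * (w * g)| = e * (w * |g|) := by
  rw [abs_mul, abs_mul, abs_of_pos he, abs_of_nonneg hw]

theorem abs_mul3' {e w g : ℝ} (he : 0 < e) (hw : 0 ≤ w) : |e * w * g| = e * (w * |g|) := by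
  rw [mul_assoc, abs_mul3 he hw]

theorem integral_add3 {α : Type*} [MeasurableSpace α] {μ : Measure α} {f g h : α → ℝ}
    (hf : Integrable f μ) (hg : Integrable g μ) (hh : Integrable h μ) :
    ∫ x, (f x + (g x + h x)) ∂μ = ∫ x, f x ∂μ + (∫ x, g x ∂μ + ∫ x, h x ∂μ) := by
  have h1 := integral_add hf (hg.add hh)
  have h2 := integral_add hg hh
  simp only [Pi.add_apply] at h1
  rw [h1, h2]

theorem integrable_add3 {α : Type*} [MeasurableSpace α] {μ : Measure α} {f g h : α → ℝ}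
    (hf : Integrable f μ) (hg : Integrable g μ) (hh : Integrable h μ) :
    Integrable (fun x => f x + (g x + h x)) μ := hf.add (hg.add hh)

end Mult

open Mult

/-! ### weighted ion states -/

section
variable {C0 D K a : ℝ} {Φ : Y2 → ℝ}

theorem IonW.aesm (h : IonW C0 D K a Φ) : AEStronglyMeasurable Φ volume := by
  obtain ⟨d, hd, -⟩ := h.w4
  have h1 : AEStronglyMeasurable (fun ξ => Real.exp (-(4 * a * wi ξ)) *
      (Real.exp (4 * a * wi ξ) * Φ ξ)) volume :=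
    ((Real.continuous_exp.comp ((continuous_const.mul continuous_wi).neg)).aestronglyMeasurable).mul
      hd.memf.aestronglyMeasurable
  refine h1.congr (Eventually.of_forall fun ξ => ?_)
  show Real.exp (-(4 * a * wi ξ)) * (Real.exp (4 * a * wi ξ) * Φ ξ) = Φ ξ
  rw [← mul_assoc, ← Real.exp_add, neg_add_cancel, Real.exp_zero, one_mul]

theorem IonW.hardy (h : IonW C0 D K a Φ) (X : Pos3) :
    Integrable (fun ξ => (WX X ξ * (Real.exp (4 * a * wi ξ) * Φ ξ)) ^ 2) ∧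
      ∫ ξ, (WX X ξ * (Real.exp (4 * a * wi ξ) * Φ ξ)) ^ 2 ≤ 8 * K := by
  obtain ⟨d, hd, hK⟩ := h.w4
  have h1 := hardy_WX hd X
  refine ⟨h1.1, h1.2.trans ?_⟩
  have h0 : 0 ≤ ∫ ξ, (Real.exp (4 * a * wi ξ) * Φ ξ) ^ 2 := integral_nonneg fun ξ => sq_nonneg _
  linarith

theorem IonW.K0 (h : IonW C0 D K a Φ) : 0 ≤ K := by
  obtain ⟨d, hd, hK⟩ := h.w4
  have h0 : 0 ≤ ∫ ξ, (Real.exp (4 * a * wi ξ) * Φ ξ) ^ 2 := integral_nonneg fun ξ => sq_nonneg _
  have h1 : 0 ≤ ∫ ξ, ‖d ξ‖ ^ 2 := integral_nonneg fun ξ => sq_nonneg _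
  linarith

/-- weights on the far region -/
theorem Mult.exp_far {a r w : ℝ} (ha : 0 < a) (hw : r / 2 < w) :
    Real.exp (a * w) ≤ Real.exp (-(3 / 2 * a * r)) * Real.exp (4 * a * w) := by
  rw [← Real.exp_add]
  refine Real.exp_le_exp.2 ?_
  nlinarith

theorem Mult.exp_far2 {a r w : ℝ} (ha : 0 < a) (hw : r / 2 < w) :
    Real.exp (a * w) ≤ Real.exp (-(1 / 2 * a * r)) * Real.exp (2 * a * w) := by
  rw [← Real.exp_add]
  refine Real.exp_le_exp.2 ?_
  nlinarith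

theorem Mult.exp_le2 {a w : ℝ} (ha : 0 < a) (hw : 0 ≤ w) :
    Real.exp (a * w) ≤ Real.exp (2 * a * w) := Real.exp_le_exp.2 (by nlinarith)

/-- `|e^{aw} Φ| ≤ e^{-3ar/2} |e^{4aw}Φ|` on the far region -/
theorem Mult.far_abs {a r : ℝ} (ha : 0 < a) {ξ : Y2} (hw : r / 2 < wi ξ) (p : ℝ) :
    Real.exp (a * wi ξ) * |p| ≤ Real.exp (-(3 / 2 * a * r)) * |Real.exp (4 * a * wi ξ) * p| := by
  rw [abs_mul, abs_of_pos (Real.exp_pos _), ← mul_assoc]
  exact mul_le_mul_of_nonneg_right (exp_far ha hw) (abs_nonneg _)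

/-- (3) the far part -/
theorem IonW.far (h : IonW C0 D K a Φ) (ha : 0 < a) (X : Pos3) (r : ℝ) :
    √(∫ ξ in {ξ | r / 2 < wi ξ}, (Real.exp (a * wi ξ) * WX X ξ * Φ ξ) ^ 2) ≤
      √(8 * K) * Real.exp (-(3 / 2 * a * r)) := by
  have hA : MeasurableSet {ξ : Y2 | r / 2 < wi ξ} :=
    measurableSet_lt measurable_const continuous_wi.measurable
  have hh := h.hardy X
  have h1 : ∫ ξ in {ξ | r / 2 < wi ξ}, (Real.exp (a * wi ξ) * WX X ξ * Φ ξ) ^ 2 ≤
      ∫ ξ in {ξ | r / 2 < wi ξ}, Real.exp (-(3 / 2 * a * r)) ^ 2 *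
        (WX X ξ * (Real.exp (4 * a * wi ξ) * Φ ξ)) ^ 2 := by
    refine integral_mono_of_nonneg (Eventually.of_forall fun x => sq_nonneg _)
      ((hh.1.const_mul _).integrableOn) ?_
    filter_upwards [ae_restrict_mem hA] with ξ hξ
    rw [← mul_pow, ← sq_abs (Real.exp (a * wi ξ) * WX X ξ * Φ ξ),
      ← sq_abs (Real.exp (-(3 / 2 * a * r)) * (WX X ξ * (Real.exp (4 * a * wi ξ) * Φ ξ)))]
    refine pow_le_pow_left₀ (abs_nonneg _) ?_ 2
    have h2 := far_abs ha hξ (Φ ξ)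
    have h3 := WX_nonneg X ξ
    rw [abs_mul3 (Real.exp_pos _) h3, abs_mul3' (Real.exp_pos _) h3]
    calc Real.exp (a * wi ξ) * (WX X ξ * |Φ ξ|) = WX X ξ * (Real.exp (a * wi ξ) * |Φ ξ|) := by
          ring
      _ ≤ WX X ξ * (Real.exp (-(3 / 2 * a * r)) * |Real.exp (4 * a * wi ξ) * Φ ξ|) :=
          mul_le_mul_of_nonneg_left h2 h3
      _ = Real.exp (-(3 / 2 * a * r)) * (WX X ξ * |Real.exp (4 * a * wi ξ) * Φ ξ|) := by
          ring
  have h4 : ∫ ξ in {ξ | r / 2 < wi ξ}, Real.exp (-(3 / 2 * a * r)) ^ 2 *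
        (WX X ξ * (Real.exp (4 * a * wi ξ) * Φ ξ)) ^ 2 ≤
      8 * K * Real.exp (-(3 / 2 * a * r)) ^ 2 := by
    rw [integral_const_mul]
    have h5 : ∫ ξ in {ξ | r / 2 < wi ξ}, (WX X ξ * (Real.exp (4 * a * wi ξ) * Φ ξ)) ^ 2 ≤
        ∫ ξ, (WX X ξ * (Real.exp (4 * a * wi ξ) * Φ ξ)) ^ 2 :=
      setIntegral_le_integral hh.1 (Eventually.of_forall fun x => sq_nonneg _)
    nlinarith [hh.2, sq_nonneg (Real.exp (-(3 / 2 * a * r)))]
  calc √(∫ ξ in {ξ | r / 2 < wi ξ}, (Real.exp (a * wi ξ) * WX X ξ * Φ ξ) ^ 2)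
      ≤ √(8 * K * Real.exp (-(3 / 2 * a * r)) ^ 2) := Real.sqrt_le_sqrt (h1.trans h4)
    _ = √(8 * K) * Real.exp (-(3 / 2 * a * r)) := by
        rw [Real.sqrt_mul (by linarith [h.K0]), Real.sqrt_sq (Real.exp_pos _).le]

/-- `e^{-t} ≤ 24 / t⁴` -/
theorem Mult.exp_neg_le_four {t : ℝ} (ht : 0 < t) : Real.exp (-t) ≤ 24 / t ^ 4 := by
  have h := Real.pow_div_factorial_le_exp t ht.le 4
  rw [Real.exp_neg, inv_eq_one_div, div_le_div_iff₀ (Real.exp_pos _) (by positivity)]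
  norm_num [Nat.factorial] at h
  linarith

theorem Mult.exp_neg_le_three {t : ℝ} (ht : 0 < t) : Real.exp (-t) ≤ 6 / t ^ 3 := by
  have h := Real.pow_div_factorial_le_exp t ht.le 3
  rw [Real.exp_neg, inv_eq_one_div, div_le_div_iff₀ (Real.exp_pos _) (by positivity)]
  norm_num [Nat.factorial] at h
  linarith

/-- (1) the monopole -/
theorem IonW.monopole (h : IonW C0 D K a Φ) (ha : 0 < a) {X : Pos3} (hX : 1 ≤ ‖X‖) :
    √(∫ ξ, (Real.exp (a * wi ξ) * (WX X ξ - 2 / ‖X‖) * Φ ξ) ^ 2) ≤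
      √(4 * (C0 * D) ^ 2 + (16 * K + 32) * (24 / a ^ 4)) / ‖X‖ ^ 2 := by
  set r := ‖X‖ with hr
  have h0 : 0 < r := by linarith
  have hK := h.K0
  have hh := h.hardy X
  have hpt : ∀ ξ, (Real.exp (a * wi ξ) * (WX X ξ - 2 / r) * Φ ξ) ^ 2 ≤
      4 / r ^ 4 * (wi ξ * Real.exp (2 * a * wi ξ) * Φ ξ) ^ 2 +
      (2 * Real.exp (-(3 / 2 * a * r)) ^ 2 * (WX X ξ * (Real.exp (4 * a * wi ξ) * Φ ξ)) ^ 2 +
        8 / r ^ 2 * Real.exp (-(1 / 2 * a * r)) ^ 2 * (Real.exp (2 * a * wi ξ) * Φ ξ) ^ 2) := by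
    intro ξ
    have hw2 := Mult.two_le_wi ξ
    rcases le_or_gt (wi ξ) (r / 2) with hw | hw
    · refine le_trans ?_ (le_add_of_nonneg_right (by positivity))
      have h1 := Mult.WX_sub_le hr.symm h0 hw
      have h2 := exp_le2 ha (show 0 ≤ wi ξ by linarith)
      have e : 4 / r ^ 4 * (wi ξ * Real.exp (2 * a * wi ξ) * Φ ξ) ^ 2 =
          (Real.exp (2 * a * wi ξ) * (2 * wi ξ / r ^ 2) * |Φ ξ|) ^ 2 := by
        rw [mul_pow, mul_pow, mul_pow, mul_pow, sq_abs, div_pow, mul_pow]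
        field_simp
        ring
      rw [e, ← sq_abs (Real.exp (a * wi ξ) * (WX X ξ - 2 / r) * Φ ξ), abs_mul, abs_mul,
        abs_of_pos (Real.exp_pos _)]
      refine pow_le_pow_left₀ (by positivity) ?_ 2
      exact mul_le_mul_of_nonneg_right (mul_le_mul h2 h1 (abs_nonneg _) (Real.exp_pos _).le)
        (abs_nonneg _)
    · refine le_trans ?_ (le_add_of_nonneg_left (by positivity))
      have h1 := far_abs ha hw (Φ ξ)
      have h2 : Real.exp (a * wi ξ) * |Φ ξ| ≤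
          Real.exp (-(1 / 2 * a * r)) * |Real.exp (2 * a * wi ξ) * Φ ξ| := by
        rw [abs_mul, abs_of_pos (Real.exp_pos _), ← mul_assoc]
        exact mul_le_mul_of_nonneg_right (exp_far2 ha hw) (abs_nonneg _)
      have h3 := WX_nonneg X ξ
      have h4 : |Real.exp (a * wi ξ) * (WX X ξ - 2 / r) * Φ ξ| ≤
          Real.exp (-(3 / 2 * a * r)) * |WX X ξ * (Real.exp (4 * a * wi ξ) * Φ ξ)| +
            2 / r * (Real.exp (-(1 / 2 * a * r)) * |Real.exp (2 * a * wi ξ) * Φ ξ|) := by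
        have h5 : |WX X ξ - 2 / r| ≤ WX X ξ + 2 / r := by
          refine (abs_sub _ _).trans ?_
          rw [abs_of_nonneg h3, abs_of_pos (show 0 < 2 / r by positivity)]
        calc |Real.exp (a * wi ξ) * (WX X ξ - 2 / r) * Φ ξ|
            = |WX X ξ - 2 / r| * (Real.exp (a * wi ξ) * |Φ ξ|) := by
              rw [abs_mul, abs_mul, abs_of_pos (Real.exp_pos _)]
              ring
          _ ≤ (WX X ξ + 2 / r) * (Real.exp (a * wi ξ) * |Φ ξ|) :=
              mul_le_mul_of_nonneg_right h5 (by positivity)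
          _ = WX X ξ * (Real.exp (a * wi ξ) * |Φ ξ|) + 2 / r * (Real.exp (a * wi ξ) * |Φ ξ|) := by
              ring
          _ ≤ WX X ξ * (Real.exp (-(3 / 2 * a * r)) * |Real.exp (4 * a * wi ξ) * Φ ξ|) +
              2 / r * (Real.exp (-(1 / 2 * a * r)) * |Real.exp (2 * a * wi ξ) * Φ ξ|) :=
              add_le_add (mul_le_mul_of_nonneg_left h1 h3)
                (mul_le_mul_of_nonneg_left h2 (by positivity))
          _ = _ := by
              rw [abs_mul (WX X ξ), abs_of_nonneg h3]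
              ring
      rw [← sq_abs (Real.exp (a * wi ξ) * (WX X ξ - 2 / r) * Φ ξ)]
      refine (pow_le_pow_left₀ (abs_nonneg _) h4 2).trans ?_
      set p := Real.exp (-(3 / 2 * a * r)) * |WX X ξ * (Real.exp (4 * a * wi ξ) * Φ ξ)| with hp
      set q := Real.exp (-(1 / 2 * a * r)) * |Real.exp (2 * a * wi ξ) * Φ ξ| with hq
      have e1 : 2 * Real.exp (-(3 / 2 * a * r)) ^ 2 *
          (WX X ξ * (Real.exp (4 * a * wi ξ) * Φ ξ)) ^ 2 = 2 * p ^ 2 := by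
        rw [hp, mul_pow (Real.exp (-(3 / 2 * a * r))) |_| 2, sq_abs]
        ring
      have e2 : 8 / r ^ 2 * Real.exp (-(1 / 2 * a * r)) ^ 2 *
          (Real.exp (2 * a * wi ξ) * Φ ξ) ^ 2 = 2 * (2 / r * q) ^ 2 := by
        rw [hq, mul_pow (2 / r) _ 2, mul_pow (Real.exp (-(1 / 2 * a * r))) |_| 2, sq_abs, div_pow]
        ring
      rw [e1, e2]
      nlinarith [sq_nonneg (p - 2 / r * q)]
  have i1 := h.m1.1.const_mul (4 / r ^ 4)
  have i2 := hh.1.const_mul (2 * Real.exp (-(3 / 2 * a * r)) ^ 2)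
  have i3 := h.m0.1.const_mul (8 / r ^ 2 * Real.exp (-(1 / 2 * a * r)) ^ 2)
  have hE1 : Real.exp (-(3 / 2 * a * r)) ^ 2 ≤ 24 / a ^ 4 / r ^ 4 := by
    rw [← Real.exp_nat_mul, div_div, ← mul_pow]
    refine le_trans (Real.exp_le_exp.2 ?_) (exp_neg_le_four (mul_pos ha h0))
    push_cast
    nlinarith [mul_pos ha h0]
  have hE2 : Real.exp (-(1 / 2 * a * r)) ^ 2 ≤ 24 / a ^ 4 / r ^ 4 := by
    rw [← Real.exp_nat_mul, div_div, ← mul_pow]
    refine le_trans (Real.exp_le_exp.2 ?_) (exp_neg_le_four (mul_pos ha h0))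
    push_cast
    nlinarith [mul_pos ha h0]
  have hr2 : 1 / r ^ 2 ≤ 1 := by
    rw [div_le_one (by positivity)]
    nlinarith
  have hfin := sqrt_int_le (B := (4 * (C0 * D) ^ 2 + (16 * K + 32) * (24 / a ^ 4)) / r ^ 4)
    hpt (integrable_add3 i1 i2 i3) (by
      rw [integral_add3 i1 i2 i3, integral_const_mul, integral_const_mul, integral_const_mul]
      have t1 : 4 / r ^ 4 * (∫ ξ, (wi ξ * Real.exp (2 * a * wi ξ) * Φ ξ) ^ 2) ≤
          4 / r ^ 4 * (C0 * D) ^ 2 := mul_le_mul_of_nonneg_left h.m1.2 (by positivity)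
      have t2 : 2 * Real.exp (-(3 / 2 * a * r)) ^ 2 *
          (∫ ξ, (WX X ξ * (Real.exp (4 * a * wi ξ) * Φ ξ)) ^ 2) ≤
          2 * (24 / a ^ 4 / r ^ 4) * (8 * K) :=
        mul_le_mul (mul_le_mul_of_nonneg_left hE1 (by norm_num)) hh.2
          (integral_nonneg fun ξ => sq_nonneg _) (by positivity)
      have t3 : 8 / r ^ 2 * Real.exp (-(1 / 2 * a * r)) ^ 2 *
          (∫ ξ, (Real.exp (2 * a * wi ξ) * Φ ξ) ^ 2) ≤ 8 * (24 / a ^ 4 / r ^ 4) * 4 := by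
        refine mul_le_mul (mul_le_mul ?_ hE2 (by positivity) (by norm_num)) h.m0.2
          (integral_nonneg fun ξ => sq_nonneg _) (by positivity)
        calc 8 / r ^ 2 = 8 * (1 / r ^ 2) := by ring
          _ ≤ 8 * 1 := mul_le_mul_of_nonneg_left hr2 (by norm_num)
          _ = 8 := by norm_num
      calc _ ≤ 4 / r ^ 4 * (C0 * D) ^ 2 + (2 * (24 / a ^ 4 / r ^ 4) * (8 * K) +
            8 * (24 / a ^ 4 / r ^ 4) * 4) := add_le_add t1 (add_le_add t2 t3)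
        _ = _ := by ring)
  refine hfin.trans (le_of_eq ?_)
  rw [Real.sqrt_div' _ (by positivity)]
  congr 1
  rw [show r ^ 4 = (r ^ 2) ^ 2 by ring, Real.sqrt_sq (by positivity)]

end

end Crest.Agent.R335
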