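import Crest.Agent.R335.BIface2
import Crest.Agent.R335.MultB

/-!
Row 335 (S0521): `wc_bd` (`BO.wc_bd` of `TB.lean`): the potential `2 λ w₀₀` is measurable,
nonnegative and bounded by `K' λ` (Hardy in the weighted ion space).
-/

set_option autoImplicit false
set_option linter.unusedVariables false

open MeasureTheory Filter Set Crest.MathPhysics.ThreeBody
open scoped ENNReal Topology ContDiff

noncomputable section
namespace Crest.Agent.R335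

namespace WcB
open Mult

/-- joint measurability of `(X, ξ) ↦ W_X(ξ)` -/
theorem measurable_WX2 : Measurable fun p : Pos3 × Y2 => WX p.1 p.2 := by
  have h : ∀ j : Fin 2, Measurable fun p : Pos3 × Y2 => 1 / ‖p.1 - el j p.2‖ := fun j =>
    measurable_const.div
      ((continuous_fst.sub ((continuous_el j).comp continuous_snd)).norm.measurable)
  exact (h 0).add (h 1)

theorem measurable_wc {Φ : Y2 → ℝ} (h : AEStronglyMeasurable Φ volume) :
    Measurable fun X : Pos3 => ∫ ξ, WX X ξ * Φ ξ ^ 2 := by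
  have e : (fun X : Pos3 => ∫ ξ, WX X ξ * Φ ξ ^ 2) =
      fun X : Pos3 => ∫ ξ, WX X ξ * (h.mk Φ ξ) ^ 2 := by
    funext X
    refine integral_congr_ae ?_
    filter_upwards [h.ae_eq_mk] with ξ hξ
    rw [← hξ]
  rw [e]
  have hm : StronglyMeasurable fun p : Pos3 × Y2 => WX p.1 p.2 * (h.mk Φ p.2) ^ 2 :=
    (measurable_WX2.mul (((h.stronglyMeasurable_mk.measurable.comp measurable_snd).pow_const
      2))).stronglyMeasurable
  exact hm.integral_prod_right'.measurable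

variable {C0 D K a : ℝ} {Φ : Y2 → ℝ}

theorem pt (h : IonW C0 D K a Φ) (ha : 0 ≤ a) (X : Pos3) (ξ : Y2) :
    WX X ξ * Φ ξ ^ 2 ≤
      1 / 2 * (WX X ξ * (Real.exp (4 * a * wi ξ) * Φ ξ)) ^ 2 + 1 / 2 * Φ ξ ^ 2 := by
  have h1 : (1 : ℝ) ≤ Real.exp (4 * a * wi ξ) := by
    refine Real.one_le_exp ?_
    have := Mult.two_le_wi ξ
    positivity
  have h2 := WX_nonneg X ξ
  have h3 : (WX X ξ * Φ ξ) ^ 2 ≤ (WX X ξ * (Real.exp (4 * a * wi ξ) * Φ ξ)) ^ 2 := by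
    have e1 : (WX X ξ * Φ ξ) ^ 2 = (WX X ξ) ^ 2 * Φ ξ ^ 2 * 1 := by ring
    have e2 : (WX X ξ * (Real.exp (4 * a * wi ξ) * Φ ξ)) ^ 2 =
      (WX X ξ) ^ 2 * Φ ξ ^ 2 * (Real.exp (4 * a * wi ξ)) ^ 2 := by ring
    rw [e1, e2]
    refine mul_le_mul_of_nonneg_left ?_ (by positivity)
    nlinarith
  nlinarith [sq_nonneg (WX X ξ * Φ ξ - Φ ξ)]

theorem bd (h : IonW C0 D K a Φ) (ha : 0 ≤ a) (hn : ∫ ξ, Φ ξ ^ 2 = 1) (X : Pos3) :
    ∫ ξ, WX X ξ * Φ ξ ^ 2 ≤ 4 * K + 1 / 2 := by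
  have hi : Integrable fun ξ => Φ ξ ^ 2 := by
    by_contra hc
    rw [integral_undef hc] at hn
    norm_num at hn
  obtain ⟨i1, b1⟩ := h.hardy X
  calc ∫ ξ, WX X ξ * Φ ξ ^ 2
      ≤ ∫ ξ, (1 / 2 * (WX X ξ * (Real.exp (4 * a * wi ξ) * Φ ξ)) ^ 2 + 1 / 2 * Φ ξ ^ 2) := by
        refine integral_mono_of_nonneg (Eventually.of_forall fun ξ => ?_)
          ((i1.const_mul _).add (hi.const_mul _)) (Eventually.of_forall fun ξ => pt h ha X ξ)
        exact mul_nonneg (WX_nonneg X ξ) (sq_nonneg _)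
    _ = 1 / 2 * (∫ ξ, (WX X ξ * (Real.exp (4 * a * wi ξ) * Φ ξ)) ^ 2) +
        1 / 2 * ∫ ξ, Φ ξ ^ 2 := by
        rw [integral_add (i1.const_mul _) (hi.const_mul _), integral_const_mul,
          integral_const_mul]
    _ ≤ 4 * K + 1 / 2 := by rw [hn]; linarith

end WcB
open Mult

theorem wc_bd {cg C0 D : ℝ} (hC : 1 ≤ C0) (hD : 4 ≤ D) (B : OBD cg C0 D) (K : ℝ) :
    ∃ K' l' : ℝ, 1 ≤ K' ∧ 0 < l' ∧ ∀ lam, 0 < lam → lam ≤ l' → ∀ S : Sys B K lam,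
      Measurable S.wc ∧ ∀ x, 0 ≤ S.wc x ∧ S.wc x ≤ K' * lam := by
  refine ⟨8 * |K| + 1, 1, by linarith [abs_nonneg K], one_pos, fun lam h0 h1 S => ?_⟩
  have ha : 0 ≤ B.a := by
    have := B.ob.eg_lt
    unfold OBD.a OBD.om
    have : 0 ≤ B.eu - B.eg := by linarith
    positivity
  refine ⟨(WcB.measurable_wc S.w0.aesm).const_mul _, fun x => ⟨?_, ?_⟩⟩
  · exact mul_nonneg (by linarith) (integral_nonneg fun ξ =>
      mul_nonneg (WX_nonneg x ξ) (sq_nonneg _))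
  · have h2 := WcB.bd S.w0 ha S.n0 x
    have h3 := le_abs_self K
    show 2 * lam * (∫ ξ, WX x ξ * S.Φ0 ξ ^ 2) ≤ _
    calc 2 * lam * (∫ ξ, WX x ξ * S.Φ0 ξ ^ 2) ≤ 2 * lam * (4 * K + 1 / 2) :=
          mul_le_mul_of_nonneg_left h2 (by linarith)
      _ ≤ (8 * |K| + 1) * lam := by nlinarith

end Crest.Agent.R335
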