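import Crest.Agent.R335.GU4
import Crest.Agent.R335.CIface
import Crest.Agent.R335.PSup

/-!
Row 335 (S0521), part C: `CI.poin` from the exterior hypotheses (CExt, helper465) and `CI.inner`
(helper737).
-/

set_option autoImplicit false
set_option linter.unusedVariables false
set_option linter.unusedSectionVars false

open MeasureTheory Filter Set Crest.MathPhysics.ThreeBody
open scoped ENNReal Topology ContDiff NNReal

noncomputable section
namespace Crest.Agent.R335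

/-- tail of an `L²` function -/
theorem GU.tail_small {g : Pos3 → ℝ} (hg : Integrable (fun x => g x ^ 2)) {ε : ℝ} (hε : 0 < ε) :
    ∃ R0 : ℝ, 1 ≤ R0 ∧ ∀ R, R0 ≤ R →
      (∫ x, g x ^ 2) - ε ≤ ∫ x in {x : Pos3 | ‖x‖ < 2 * R}, g x ^ 2 := by
  set S : ℕ → Set Pos3 := fun n => {x : Pos3 | ‖x‖ < n} with hS
  have hSm : ∀ n, MeasurableSet (S n) := fun n =>
    measurableSet_lt measurable_norm measurable_const
  have hmono : Monotone S := by
    intro n m hnm x hx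
    have : (n : ℝ) ≤ m := by exact_mod_cast hnm
    exact lt_of_lt_of_le (show ‖x‖ < n from hx) this
  have hU : (⋃ n, S n) = univ := by
    ext x
    simp only [mem_iUnion, mem_univ, iff_true]
    obtain ⟨n, hn⟩ := exists_nat_gt ‖x‖
    exact ⟨n, hn⟩
  have hlim := tendsto_setIntegral_of_monotone (f := fun x => g x ^ 2) hSm hmono
      (μ := volume) (by rw [hU]; exact hg.integrableOn)
  rw [hU, setIntegral_univ] at hlim
  obtain ⟨n, hn⟩ := (hlim.eventually (lt_mem_nhds (sub_lt_self _ hε))).exists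
  refine ⟨max 1 n, le_max_left _ _, fun R hR => hn.le.trans ?_⟩
  refine setIntegral_mono_set hg.integrableOn (ae_of_all _ fun x => sq_nonneg _) ?_
  refine HasSubset.Subset.eventuallyLE fun x hx => ?_
  have h1 : (n : ℝ) ≤ R := (le_max_right _ _).trans hR
  have h2 : (1 : ℝ) ≤ R := (le_max_left _ _).trans hR
  exact lt_of_lt_of_le (show ‖x‖ < n from hx) (by linarith)

/-- `IntHyp` from the closeness of the pair on balls -/
theorem intHyp_exists {cg C0 : ℝ} (hcg : 0 < cg) (hC : 1 ≤ C0) {D : ℝ} (hD : 4 ≤ D)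
    (B : OBD cg C0 D) :
    ∃ R0 : ℝ, 1 ≤ R0 ∧ ∀ P K1 K2 R1 R : ℝ, R0 ≤ R → ∃ l' : ℝ, 0 < l' ∧
      ∀ lam, 0 < lam → lam ≤ l' →
      ∀ (κ κS κT : ℝ) (s s1 s2 F w0 X sig : Pos3 → ℝ) (gs gs1 gs2 gF : Pos3 → Pos3),
        COut B P K1 K2 R1 lam κ κS κT s s1 s2 F w0 X sig gs gs1 gs2 gF →
        ∀ (U w : Pos3 → ℝ) (gU gw : Pos3 → Pos3) (om : ℝ), Pair s U gU w gw om →
          om ≤ 2 * B.om ∧
            IntHyp U (fun x => √2 * B.g x) R (1 / 16) (-(1 / 2) + cg - B.eg) := by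
  have hg2 : Integrable (fun x => B.g x ^ 2) := B.ob.hg.memf.integrable_sq
  obtain ⟨R0, hR01, hR0⟩ := GU.tail_small hg2 (ε := 1 / 200) (by norm_num)
  refine ⟨R0, hR01, fun P K1 K2 R1 R hR => ?_⟩
  obtain ⟨K3, hK3, hin⟩ := inner' hcg hC hD B P K1 K2 R1
  have hR1 : 1 ≤ R := hR01.trans hR
  -- minimum of g on the ball
  obtain ⟨x0, hx0⟩ : ∃ x0 : Pos3, ∀ y : Pos3, ‖y‖ ≤ 3 * R → B.g x0 ≤ B.g y := by
    have hne : (Metric.closedBall (0 : Pos3) (3 * R)).Nonempty :=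
      ⟨0, by simp; linarith⟩
    obtain ⟨x0, h1, h2⟩ := (isCompact_closedBall (0 : Pos3) (3 * R)).exists_isMinOn hne
      B.ob.cg.continuousOn
    exact ⟨x0, fun y hy => h2 (by rwa [mem_closedBall_zero_iff])⟩
  have hgm : 0 < B.g x0 := B.ob.g_pos x0
  have hs2 : (0 : ℝ) < √2 := Real.sqrt_pos.2 (by norm_num)
  set δ : ℝ := √2 * B.g x0 / 1000 with hδ
  have hδ0 : 0 < δ := by positivity
  obtain ⟨l1, hl1, h1⟩ := hin (3 * R) δ hδ0
  have hom0 : 0 < B.om := by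
    unfold OBD.om
    linarith [B.ob.eg_lt]
  set l2 : ℝ := (B.om / K3) ^ 2 with hl2
  have hl20 : 0 < l2 := by positivity
  refine ⟨min l1 l2, lt_min hl1 hl20, fun lam hlam hle κ κS κT s s1 s2 F w0 X sig gs gs1 gs2 gF h
    U w gU gw om hp => ?_⟩
  obtain ⟨h2, h3⟩ := h1 lam hlam (hle.trans (min_le_left _ _)) κ κS κT s s1 s2 F w0 X sig gs gs1
    gs2 gF h U w gU gw om hp
  have hsq : √lam ≤ B.om / K3 := by
    rw [Real.sqrt_le_left (by positivity)]
    exact hle.trans (min_le_right _ _)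
  have hom : om ≤ 2 * B.om := by
    have h4 : K3 * √lam ≤ B.om := by
      calc K3 * √lam ≤ K3 * (B.om / K3) := mul_le_mul_of_nonneg_left hsq hK3.le
        _ = B.om := by field_simp
    have := (abs_le.1 h2).2
    linarith
  refine ⟨hom, ?_⟩
  -- pointwise two-sided bounds
  have hb : ∀ᵐ x : Pos3, ‖x‖ ≤ 3 * R →
      (1 - 1 / 100) * (√2 * B.g x) ^ 2 ≤ U x ^ 2 ∧
        U x ^ 2 ≤ (1 + 1 / 100) * (√2 * B.g x) ^ 2 := by
    filter_upwards [h3] with x hx hxR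
    obtain ⟨a1, -⟩ := hx hxR
    have a2 := abs_le.1 a1
    have a3 : δ ≤ (√2 * B.g x) / 1000 := by
      rw [hδ]
      have := hx0 x hxR
      have := mul_le_mul_of_nonneg_left this hs2.le
      linarith
    set y : ℝ := √2 * B.g x with hy
    have hy0 : 0 < y := mul_pos hs2 (B.ob.g_pos x)
    have a4 : (1 - 1 / 1000) * y ≤ U x := by linarith [a2.1]
    have a5 : U x ≤ (1 + 1 / 1000) * y := by linarith [a2.2]
    have a6 : 0 ≤ U x := hp.U0 x
    constructor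
    · have := pow_le_pow_left₀ (by positivity) a4 2
      nlinarith [sq_nonneg y]
    · have := pow_le_pow_left₀ a6 a5 2
      nlinarith [sq_nonneg y]
  have hU2 : Integrable (fun x => U x ^ 2) := hp.adm.hU.memf.integrable_sq
  have hy2 : Integrable (fun x => (√2 * B.g x) ^ 2) := by
    have : (fun x => (√2 * B.g x) ^ 2) = fun x => 2 * B.g x ^ 2 := by
      funext x; rw [mul_pow, Real.sq_sqrt (by norm_num)]
    rw [this]
    exact hg2.const_mul 2
  refine intHyp_of B.ob (by norm_num) le_rfl ?_ ?_ ?_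
  · filter_upwards [hb] with x hx hxR
    have := (hx hxR).1
    nlinarith [sq_nonneg (√2 * B.g x)]
  · filter_upwards [hb] with x hx hxR
    have := (hx hxR).2
    nlinarith [sq_nonneg (√2 * B.g x)]
  · have hm1 : MeasurableSet {x : Pos3 | ‖x‖ < 2 * R} :=
      measurableSet_lt measurable_norm measurable_const
    have hcompl : {x : Pos3 | 2 * R ≤ ‖x‖} = {x : Pos3 | ‖x‖ < 2 * R}ᶜ := by
      ext x; simp
    have e1 := integral_add_compl hm1 hU2
    rw [hp.adm.nU] at e1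
    have e2 : (1 - 1 / 100) * ∫ x in {x : Pos3 | ‖x‖ < 2 * R}, (√2 * B.g x) ^ 2 ≤
        ∫ x in {x : Pos3 | ‖x‖ < 2 * R}, U x ^ 2 := by
      rw [← integral_const_mul]
      refine setIntegral_mono_on_ae (hy2.const_mul _).integrableOn hU2.integrableOn hm1 ?_
      filter_upwards [hb] with x hx hxR
      have hxR' : ‖x‖ < 2 * R := hxR
      exact (hx (by linarith)).1
    have e3 : ∫ x in {x : Pos3 | ‖x‖ < 2 * R}, (√2 * B.g x) ^ 2 =
        2 * ∫ x in {x : Pos3 | ‖x‖ < 2 * R}, B.g x ^ 2 := by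
      rw [← integral_const_mul]
      congr 1
      funext x
      rw [mul_pow, Real.sq_sqrt (by norm_num)]
    have e4 := hR0 R hR
    rw [B.ob.ng] at e4
    rw [hcompl]
    rw [e3] at e2
    linarith

/-- exponential smallness beats polynomials -/
theorem GU.poly_exp (A c : ℝ) (n : ℕ) (hc : 0 < c) {ε : ℝ} (hε : 0 < ε) :
    ∃ D0 : ℝ, ∀ D, D0 ≤ D → A * D ^ n * Real.exp (-(c * D)) ≤ ε := by
  have h1 : Tendsto (fun x : ℝ => x ^ n * Real.exp (-x)) atTop (𝓝 0) :=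
    Real.tendsto_pow_mul_exp_neg_atTop_nhds_zero n
  have h2 : Tendsto (fun x : ℝ => c * x) atTop atTop := tendsto_id.const_mul_atTop hc
  have h3 := (h1.comp h2).const_mul (A / c ^ n)
  rw [mul_zero] at h3
  obtain ⟨D0, hD0⟩ := (h3.eventually (gt_mem_nhds hε)).exists_forall_of_atTop
  refine ⟨D0, fun D hD => ?_⟩
  have := (hD0 D hD).le
  simp only [Function.comp_def] at this
  calc A * D ^ n * Real.exp (-(c * D)) = A / c ^ n * ((c * D) ^ n * Real.exp (-(c * D))) := by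
        rw [mul_pow]; field_simp
    _ ≤ ε := this

/-- `CI.poin` from the exterior hypotheses -/
theorem poin_of_ext {cg C0 P0 : ℝ} (hcg : 0 < cg) (hC : 1 ≤ C0) (hP : 1 ≤ P0)
    (hext : ∃ (P2 D0 : ℝ) (n : ℕ), 1 ≤ P2 ∧ 4 ≤ D0 ∧ ∀ D : ℝ, D0 ≤ D →
      ∀ (B : OBD cg C0 D) (K1 : ℝ),
      ∃ R0 : ℝ, ∀ R1 : ℝ, R0 ≤ R1 → ∀ K2 : ℝ, ∃ l' : ℝ, 0 < l' ∧ ∀ lam, 0 < lam → lam ≤ l' →
      ∀ (κ κS κT : ℝ) (s s1 s2 F w0 X sig : Pos3 → ℝ) (gs gs1 gs2 gF : Pos3 → Pos3),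
        COut B (P0 * D ^ 20) K1 K2 R1 lam κ κS κT s s1 s2 F w0 X sig gs gs1 gs2 gF →
        ∀ (U w : Pos3 → ℝ) (gU gw : Pos3 → Pos3) (om : ℝ), Pair s U gU w gw om →
          ∃ (e2 : Pos3 → ℝ) (a cl cu : ℝ), ExtHyp s U w e2 (R1 + 1) a cl cu (1 / 2) (1 / 2) ∧
            K0of a cl cu (1 / 2) (1 / 2) ≤ P2 * D ^ n) :
    ∃ D0 : ℝ, 4 ≤ D0 ∧ ∀ D : ℝ, D0 ≤ D → ∀ (B : OBD cg C0 D) (K1 : ℝ),
      ∃ R0 : ℝ, ∀ R1 : ℝ, R0 ≤ R1 → ∀ K2 : ℝ, ∃ l' : ℝ, 0 < l' ∧ ∀ lam, 0 < lam → lam ≤ l' →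
      ∀ (κ κS κT : ℝ) (s s1 s2 F w0 X sig : Pos3 → ℝ) (gs gs1 gs2 gF : Pos3 → Pos3),
        COut B (P0 * D ^ 20) K1 K2 R1 lam κ κS κT s s1 s2 F w0 X sig gs gs1 gs2 gF →
        ∀ (U w : Pos3 → ℝ) (gU gw : Pos3 → Pos3) (om : ℝ), Pair s U gU w gw om →
          PoinG U om := by
  obtain ⟨P2, D1, n, hP2, hD1, hext⟩ := hext
  obtain ⟨D2, hD2⟩ := GU.poly_exp (16 * C0 * (2 * P2 + 4 / cg)) (3 / 2) n (by norm_num)
    (ε := 3) (by norm_num)
  refine ⟨max (max D1 D2) (2 * C0 / cg), le_max_of_le_left (le_max_of_le_left hD1),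
    fun D hD B K1 => ?_⟩
  have hDD1 : D1 ≤ D := (le_max_left _ _).trans ((le_max_left _ _).trans hD)
  have hDD2 : D2 ≤ D := (le_max_right _ _).trans ((le_max_left _ _).trans hD)
  have hDD3 : 2 * C0 / cg ≤ D := (le_max_right _ _).trans hD
  have hD4 : 4 ≤ D := hD1.trans hDD1
  have hDn : 1 ≤ D ^ n := one_le_pow₀ (by linarith)
  obtain ⟨R0, hR0⟩ := hext D hDD1 B K1
  obtain ⟨R0', hR0'1, hR0'⟩ := intHyp_exists hcg hC hD4 B
  set A : ℝ := 2 * (P2 * D ^ n) + 4 / cg with hA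
  have hA0 : 0 < A := by positivity
  -- the spectral gap
  have hg0 : cg / 2 ≤ -(1 / 2) + cg - B.eg := by
    have h1 := (abs_le.1 B.eg_near).2
    have h2 : C0 / D ≤ cg / 2 := by
      rw [div_le_iff₀ (by linarith)]
      rw [div_le_iff₀ hcg] at hDD3
      linarith
    linarith
  have hg00 : 0 < -(1 / 2) + cg - B.eg := by linarith
  have hom : 8 * (2 * B.om) * A ≤ 3 := by
    have h1 : B.om ≤ C0 * Real.exp (-(3 / 2 * D)) := by
      have := B.tun
      have e : -(3 * D / 2) = -(3 / 2 * D) := by ring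
      rw [e] at this
      exact this
    have h2 : A ≤ (2 * P2 + 4 / cg) * D ^ n := by
      rw [hA, add_mul]
      have : 4 / cg * 1 ≤ 4 / cg * D ^ n := mul_le_mul_of_nonneg_left hDn (by positivity)
      linarith
    have h3 := hD2 D hDD2
    calc 8 * (2 * B.om) * A ≤ 8 * (2 * (C0 * Real.exp (-(3 / 2 * D)))) *
          ((2 * P2 + 4 / cg) * D ^ n) := by
          refine mul_le_mul (by linarith) h2 hA0.le (by positivity)
      _ = 16 * C0 * (2 * P2 + 4 / cg) * D ^ n * Real.exp (-(3 / 2 * D)) := by ring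
      _ ≤ 3 := h3
  refine ⟨max (max R0 R0') (8 * A), fun R1 hR1 K2 => ?_⟩
  have hRa : R0 ≤ R1 := (le_max_left _ _).trans ((le_max_left _ _).trans hR1)
  have hRb : R0' ≤ R1 := (le_max_right _ _).trans ((le_max_left _ _).trans hR1)
  have hRc : 8 * A ≤ R1 := (le_max_right _ _).trans hR1
  obtain ⟨l1, hl1, h1⟩ := hR0 R1 hRa K2
  obtain ⟨l2, hl2, h2⟩ := hR0' (P0 * D ^ 20) K1 K2 R1 (R1 + 1) (by linarith)
  refine ⟨min l1 l2, lt_min hl1 hl2, fun lam hlam hle κ κS κT s s1 s2 F w0 X sig gs gs1 gs2 gF h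
    U w gU gw om hp => ?_⟩
  obtain ⟨e2, a, cl, cu, he, hK⟩ := h1 lam hlam (hle.trans (min_le_left _ _)) κ κS κT s s1 s2 F w0 X
    sig gs gs1 gs2 gF h U w gU gw om hp
  obtain ⟨hom2, hI⟩ := h2 lam hlam (hle.trans (min_le_right _ _)) κ κS κT s s1 s2 F w0 X
    sig gs gs1 gs2 gF h U w gU gw om hp
  have hAb : 2 * K0of a cl cu (1 / 2) (1 / 2) + 2 / (-(1 / 2) + cg - B.eg) ≤ A := by
    rw [hA]
    have : 2 / (-(1 / 2) + cg - B.eg) ≤ 2 / (cg / 2) :=
      div_le_div_of_nonneg_left (by norm_num) (by positivity) hg0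
    have e : 2 / (cg / 2) = 4 / cg := by field_simp; ring
    rw [e] at this
    linarith
  have hK0 : 0 ≤ K0of a cl cu (1 / 2) (1 / 2) := by
    unfold K0of
    have := he.a0; have := he.cl0; have := he.cu0
    positivity
  have hAb0 : 0 ≤ 2 * K0of a cl cu (1 / 2) (1 / 2) + 2 / (-(1 / 2) + cg - B.eg) := by positivity
  refine poinG_of h.amp hp he hI ?_ ?_
  · have h3 : (1 : ℝ) ≤ R1 + 1 := by linarith
    have h4 : R1 + 1 ≤ (R1 + 1) ^ 2 := by nlinarith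
    linarith
  · have h5 : 8 * om * (2 * K0of a cl cu (1 / 2) (1 / 2) + 2 / (-(1 / 2) + cg - B.eg)) ≤
        8 * (2 * B.om) * A :=
      mul_le_mul (by linarith) hAb hAb0 (by nlinarith [hp.om_pos])
    linarith

end Crest.Agent.R335
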