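import Crest.Agent.R335.CPoin
import Crest.Agent.R335.CExt2

/-!
Row 335 (S0521), part C: `CI.poin` (task 1582), from `poin_of_ext` (CPoin) and `extHyp_exists`
(CExt2, which cites `CI.upper`, `CI.lower` only).
-/

set_option autoImplicit false

open MeasureTheory Filter Set Crest.MathPhysics.ThreeBody
open scoped ENNReal Topology ContDiff NNReal

noncomputable section
namespace Crest.Agent.R335

theorem poin {cg C0 P0 : ℝ} (hcg : 0 < cg) (hC : 1 ≤ C0) (hP : 1 ≤ P0) :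
    ∃ D0 : ℝ, 4 ≤ D0 ∧ ∀ D : ℝ, D0 ≤ D → ∀ (B : OBD cg C0 D) (K1 : ℝ),
      ∃ R0 : ℝ, ∀ R1 : ℝ, R0 ≤ R1 → ∀ K2 : ℝ, ∃ l' : ℝ, 0 < l' ∧ ∀ lam, 0 < lam → lam ≤ l' →
      ∀ (κ κS κT : ℝ) (s s1 s2 F w0 X sig : Pos3 → ℝ) (gs gs1 gs2 gF : Pos3 → Pos3),
        COut B (P0 * D ^ 20) K1 K2 R1 lam κ κS κT s s1 s2 F w0 X sig gs gs1 gs2 gF →
        ∀ (U w : Pos3 → ℝ) (gU gw : Pos3 → Pos3) (om : ℝ), Pair s U gU w gw om →
          PoinG U om :=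
  poin_of_ext hcg hC hP (extHyp_exists hcg hC hP)

end Crest.Agent.R335
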