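import Crest.Agent.R335.HBasic

/-!
Row 335 (S0521): comparison principle, abstract `L²` part (helper543).

`cps_core` : the system version (CPS) of the comparison principle, as a statement on integrals over a
measurable set `W`.
-/

set_option autoImplicit false
set_option linter.unusedSectionVars false
set_option linter.unusedVariables false

open MeasureTheory Filter Set
open scoped ENNReal Topology ContDiff

noncomputable section
namespace Crest.Agent.R335

variable {ι : Type*} [Fintype ι] [DecidableEq ι]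

local notation "E" => EuclideanSpace ℝ ι

/-- the positive part of `f - b` -/
def ep (f b : E → ℝ) (x : E) : ℝ := max (f x - b x) 0

/-- the weak gradient of the positive part of `f - b` -/
def dep (f b : E → ℝ) (df db : E → E) (x : E) : E := if b x < f x then df x - db x else 0

theorem ep_nonneg (f b : E → ℝ) (x : E) : 0 ≤ ep f b x := le_max_right _ _

theorem sub_mul_ep (f b : E → ℝ) (x : E) : (f x - b x) * ep f b x = ep f b x ^ 2 := by
  unfold ep
  rcases le_total (f x - b x) 0 with h | h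
  · rw [max_eq_right h]; ring
  · rw [max_eq_left h]; ring

theorem inner_dep (f b : E → ℝ) (df db : E → E) (x : E) :
    inner ℝ (df x - db x) (dep f b df db x) = ‖dep f b df db x‖ ^ 2 := by
  unfold dep
  split_ifs
  · exact real_inner_self_eq_norm_sq _
  · simp

theorem memLp_ep {μ : Measure E} {f b : E → ℝ} (hf : MemLp f 2 μ) (hb : MemLp b 2 μ) :
    MemLp (ep f b) 2 μ := by
  have h := (hf.sub hb)
  refine h.mono ?_ (Eventually.of_forall fun x => ?_)
  · exact (h.aestronglyMeasurable.aemeasurable.max aemeasurable_const).aestronglyMeasurable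
  · rw [Real.norm_of_nonneg (ep_nonneg _ _ _)]
    exact max_le (le_abs_self _) (abs_nonneg _)

theorem memLp_dep {μ : Measure E} {f b : E → ℝ} {df db : E → E} (hf : AEMeasurable f μ)
    (hb : AEMeasurable b μ) (hdf : MemLp df 2 μ) (hdb : MemLp db 2 μ) :
    MemLp (dep f b df db) 2 μ := by
  have h := (hdf.sub hdb)
  refine h.mono ?_ (Eventually.of_forall fun x => ?_)
  · -- measurability through measurable representatives
    obtain ⟨f', hf', hff'⟩ := hf
    obtain ⟨b', hb', hbb'⟩ := hb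
    have h1 : AEStronglyMeasurable
        ({x | b' x < f' x}.indicator fun x => df x - db x) μ :=
      h.aestronglyMeasurable.indicator (measurableSet_lt hb' hf')
    refine h1.congr ?_
    filter_upwards [hff', hbb'] with x hx hx'
    unfold dep
    by_cases hlt : b' x < f' x
    · rw [indicator_of_mem (show x ∈ {x | b' x < f' x} from hlt), hx, hx', if_pos hlt]
    · rw [indicator_of_notMem (show x ∉ {x | b' x < f' x} from hlt), hx, hx', if_neg hlt]
  · unfold dep
    split_ifs
    · exact le_rfl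
    · simp

/-- **System comparison principle** (CPS), core.  `f i` subsolutions, `b i` supersolutions of the
weakly coupled system; the hypothesis `hsub` is the difference of the two tested inequalities, the
test function being `(f i - b i)₊`. -/
theorem cps_core {S : Type*} [Fintype S] {μ : Measure E}
    {f b : S → E → ℝ} {df db : S → E → E}
    (hf : ∀ i, MemLp (f i) 2 μ) (hb : ∀ i, MemLp (b i) 2 μ)
    (hdf : ∀ i, MemLp (df i) 2 μ) (hdb : ∀ i, MemLp (db i) 2 μ)
    {U : S → E → ℝ} {m : S → S → E → ℝ} {c₀ M : ℝ} (hc : 0 < c₀)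
    (hUm : ∀ i, AEMeasurable (U i) μ) (hU : ∀ i, ∀ᵐ x ∂μ, c₀ ≤ U i x)
    (hUM : ∀ i, ∀ᵐ x ∂μ, U i x ≤ M)
    (hmm : ∀ i j, AEMeasurable (m i j) μ) (hm0 : ∀ i j, ∀ᵐ x ∂μ, 0 ≤ m i j x)
    (hsum : ∀ i, ∀ᵐ x ∂μ, ∑ j, (m i j x + m j i x) ≤ c₀)
    (hsub : ∀ i, (1 / 2) * (∫ x, inner ℝ (df i x - db i x) (dep (f i) (b i) (df i) (db i) x) ∂μ) +
        ∫ x, U i x * (f i x - b i x) * ep (f i) (b i) x ∂μ ≤
      ∑ j, ∫ x, m i j x * (f j x - b j x) * ep (f i) (b i) x ∂μ) :
    ∀ i, ∀ᵐ x ∂μ, f i x ≤ b i x := by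
  classical
  have he : ∀ i, MemLp (ep (f i) (b i)) 2 μ := fun i => memLp_ep (hf i) (hb i)
  have hde : ∀ i, MemLp (dep (f i) (b i) (df i) (db i)) 2 μ := fun i =>
    memLp_dep (hf i).aestronglyMeasurable.aemeasurable (hb i).aestronglyMeasurable.aemeasurable
      (hdf i) (hdb i)
  have hee : ∀ i, Integrable (fun x => ep (f i) (b i) x ^ 2) μ := fun i => (he i).integrable_sq
  -- bound of the couplings
  have hmb : ∀ i j, ∀ᵐ x ∂μ, |m i j x| ≤ c₀ := by
    intro i j
    filter_upwards [hsum i, hm0 i j, ae_all_iff.2 (hm0 i), ae_all_iff.2 (fun k => hm0 k i)]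
      with x h1 h2 h3 h4
    rw [abs_of_nonneg h2]
    refine le_trans ?_ h1
    refine le_trans (le_add_of_nonneg_right (h4 j)) ?_
    exact Finset.single_le_sum (f := fun j => m i j x + m j i x)
      (fun k _ => add_nonneg (h3 k) (h4 k)) (Finset.mem_univ j)
  -- integrability of the coupling terms
  have hmul : ∀ (k : E → ℝ) (C : ℝ), AEMeasurable k μ → (∀ᵐ x ∂μ, |k x| ≤ C) →
      ∀ (u v : E → ℝ), MemLp u 2 μ → MemLp v 2 μ → Integrable (fun x => k x * u x * v x) μ := by
    intro k C hk hkC u v hu hv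
    have h1 : Integrable (fun x => u x * v x) μ := hu.integrable_mul hv
    have h2 : Integrable (fun x => k x * (u x * v x)) μ :=
      h1.bdd_mul (c := C) hk.aestronglyMeasurable (by simpa using hkC)
    simpa only [mul_assoc] using h2
  -- the coupling terms are bounded by the positive parts
  have hcoup : ∀ i j, ∫ x, m i j x * (f j x - b j x) * ep (f i) (b i) x ∂μ ≤
      ∫ x, m i j x * ep (f j) (b j) x * ep (f i) (b i) x ∂μ := by
    intro i j
    refine integral_mono_ae (hmul _ c₀ (hmm i j) (hmb i j) _ _ ((hf j).sub (hb j)) (he i))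
      (hmul _ c₀ (hmm i j) (hmb i j) _ _ (he j) (he i)) ?_
    filter_upwards [hm0 i j] with x hx
    refine mul_le_mul_of_nonneg_right (mul_le_mul_of_nonneg_left (le_max_left _ _) hx)
      (ep_nonneg _ _ _)
  have hcoup2 : ∀ i j, ∫ x, m i j x * ep (f j) (b j) x * ep (f i) (b i) x ∂μ ≤
      (1 / 2) * (∫ x, m i j x * ep (f j) (b j) x ^ 2 ∂μ) +
        (1 / 2) * ∫ x, m i j x * ep (f i) (b i) x ^ 2 ∂μ := by
    intro i j
    have i1 : Integrable (fun x => m i j x * ep (f j) (b j) x ^ 2) μ := by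
      have := hmul _ c₀ (hmm i j) (hmb i j) _ _ (he j) (he j)
      refine this.congr (Eventually.of_forall fun x => ?_)
      simp only [pow_two, mul_assoc]
    have i2 : Integrable (fun x => m i j x * ep (f i) (b i) x ^ 2) μ := by
      have := hmul _ c₀ (hmm i j) (hmb i j) _ _ (he i) (he i)
      refine this.congr (Eventually.of_forall fun x => ?_)
      simp only [pow_two, mul_assoc]
    rw [← integral_const_mul, ← integral_const_mul,
      ← integral_add (i1.const_mul _) (i2.const_mul _)]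
    refine integral_mono_ae (hmul _ c₀ (hmm i j) (hmb i j) _ _ (he j) (he i))
      ((i1.const_mul _).add (i2.const_mul _)) ?_
    filter_upwards [hm0 i j] with x hx
    show m i j x * ep (f j) (b j) x * ep (f i) (b i) x ≤
      1 / 2 * (m i j x * ep (f j) (b j) x ^ 2) + 1 / 2 * (m i j x * ep (f i) (b i) x ^ 2)
    nlinarith [mul_nonneg hx (sq_nonneg (ep (f j) (b j) x - ep (f i) (b i) x))]
  -- the mass terms
  have hmass : ∀ i, c₀ * (∫ x, ep (f i) (b i) x ^ 2 ∂μ) ≤
      ∫ x, U i x * (f i x - b i x) * ep (f i) (b i) x ∂μ := by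
    intro i
    rw [← integral_const_mul]
    have hUb : ∀ᵐ x ∂μ, |U i x| ≤ max M c₀ := by
      filter_upwards [hU i, hUM i] with x h1 h2
      rw [abs_of_nonneg (hc.le.trans h1)]
      exact h2.trans (le_max_left _ _)
    refine integral_mono_ae ((hee i).const_mul _)
      (hmul _ _ (hUm i) hUb _ _ ((hf i).sub (hb i)) (he i)) ?_
    filter_upwards [hU i] with x hx
    show c₀ * ep (f i) (b i) x ^ 2 ≤ U i x * (f i x - b i x) * ep (f i) (b i) x
    rw [mul_assoc, sub_mul_ep]
    exact mul_le_mul_of_nonneg_right hx (sq_nonneg _)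
  -- the gradient terms are nonnegative
  have hgrad : ∀ i, 0 ≤ ∫ x, inner ℝ (df i x - db i x) (dep (f i) (b i) (df i) (db i) x) ∂μ := by
    intro i
    refine integral_nonneg fun x => ?_
    show 0 ≤ inner ℝ (df i x - db i x) (dep (f i) (b i) (df i) (db i) x)
    rw [inner_dep]
    positivity
  -- sum
  have hI : ∀ i j, Integrable (fun x => m i j x * ep (f i) (b i) x ^ 2) μ := by
    intro i j
    have := hmul _ c₀ (hmm i j) (hmb i j) _ _ (he i) (he i)
    refine this.congr (Eventually.of_forall fun x => ?_)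
    simp only [pow_two, mul_assoc]
  have hI' : ∀ i j, Integrable (fun x => m j i x * ep (f i) (b i) x ^ 2) μ := by
    intro i j
    have := hmul _ c₀ (hmm j i) (hmb j i) _ _ (he i) (he i)
    refine this.congr (Eventually.of_forall fun x => ?_)
    simp only [pow_two, mul_assoc]
  have hrow : ∀ i, (∑ j, ∫ x, m i j x * ep (f i) (b i) x ^ 2 ∂μ) +
      (∑ j, ∫ x, m j i x * ep (f i) (b i) x ^ 2 ∂μ) ≤ c₀ * ∫ x, ep (f i) (b i) x ^ 2 ∂μ := by
    intro i
    rw [← integral_finsetSum _ (fun j _ => hI i j), ← integral_finsetSum _ (fun j _ => hI' i j),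
      ← integral_add (integrable_finsetSum _ (fun j _ => hI i j))
        (integrable_finsetSum _ (fun j _ => hI' i j)), ← integral_const_mul]
    refine integral_mono_ae ((integrable_finsetSum _ (fun j _ => hI i j)).add
        (integrable_finsetSum _ (fun j _ => hI' i j))) ((hee i).const_mul _) ?_
    filter_upwards [hsum i] with x hx
    show (∑ j, m i j x * ep (f i) (b i) x ^ 2) + (∑ j, m j i x * ep (f i) (b i) x ^ 2) ≤
      c₀ * ep (f i) (b i) x ^ 2
    rw [← Finset.sum_mul, ← Finset.sum_mul, ← add_mul, ← Finset.sum_add_distrib]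
    exact mul_le_mul_of_nonneg_right hx (sq_nonneg _)
  have htot : ∑ i, c₀ * (∫ x, ep (f i) (b i) x ^ 2 ∂μ) ≤
      ∑ i, (1 / 2) * (c₀ * ∫ x, ep (f i) (b i) x ^ 2 ∂μ) := by
    calc ∑ i, c₀ * (∫ x, ep (f i) (b i) x ^ 2 ∂μ)
        ≤ ∑ i, ∑ j, ((1 / 2) * (∫ x, m i j x * ep (f j) (b j) x ^ 2 ∂μ) +
            (1 / 2) * ∫ x, m i j x * ep (f i) (b i) x ^ 2 ∂μ) := by
          refine Finset.sum_le_sum fun i _ => ?_
          have h1 := hsub i
          have h2 := hmass i
          have h3 := hgrad i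
          have h4 : ∑ j, ∫ x, m i j x * (f j x - b j x) * ep (f i) (b i) x ∂μ ≤
              ∑ j, ((1 / 2) * (∫ x, m i j x * ep (f j) (b j) x ^ 2 ∂μ) +
                (1 / 2) * ∫ x, m i j x * ep (f i) (b i) x ^ 2 ∂μ) :=
            Finset.sum_le_sum fun j _ => (hcoup i j).trans (hcoup2 i j)
          linarith
      _ = ∑ i, (1 / 2) * ((∑ j, ∫ x, m i j x * ep (f i) (b i) x ^ 2 ∂μ) +
            (∑ j, ∫ x, m j i x * ep (f i) (b i) x ^ 2 ∂μ)) := by
          simp_rw [Finset.sum_add_distrib, mul_add, Finset.mul_sum, Finset.sum_add_distrib]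
          rw [add_comm]
          congr 1
          exact Finset.sum_comm
      _ ≤ ∑ i, (1 / 2) * (c₀ * ∫ x, ep (f i) (b i) x ^ 2 ∂μ) := by
          refine Finset.sum_le_sum fun i _ => ?_
          exact mul_le_mul_of_nonneg_left (hrow i) (by norm_num)
  have h0 : ∀ i, 0 ≤ ∫ x, ep (f i) (b i) x ^ 2 ∂μ := fun i =>
    integral_nonneg fun x => sq_nonneg _
  have hz : ∑ i, c₀ * (∫ x, ep (f i) (b i) x ^ 2 ∂μ) ≤ 0 := by
    rw [← Finset.mul_sum (s := Finset.univ) (f := fun i => c₀ * ∫ x, ep (f i) (b i) x ^ 2 ∂μ)]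
      at htot
    linarith
  have hz2 : ∀ i, ∫ x, ep (f i) (b i) x ^ 2 ∂μ = 0 := by
    intro i
    have h1 : c₀ * (∫ x, ep (f i) (b i) x ^ 2 ∂μ) ≤ ∑ i, c₀ * (∫ x, ep (f i) (b i) x ^ 2 ∂μ) :=
      Finset.single_le_sum (f := fun i => c₀ * (∫ x, ep (f i) (b i) x ^ 2 ∂μ))
        (fun j _ => mul_nonneg hc.le (h0 j)) (Finset.mem_univ i)
    have h2 : c₀ * (∫ x, ep (f i) (b i) x ^ 2 ∂μ) ≤ 0 := h1.trans hz
    have h3 := h0 i
    nlinarith [mul_nonneg hc.le h3]
  intro i
  have h1 := (integral_eq_zero_iff_of_nonneg (fun x => sq_nonneg _) (hee i)).1 (hz2 i)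
  filter_upwards [h1] with x hx
  have h2 : ep (f i) (b i) x = 0 := by
    have : ep (f i) (b i) x ^ 2 = 0 := hx
    exact pow_eq_zero_iff (two_ne_zero) |>.1 this
  unfold ep at h2
  have h3 := le_max_left (f i x - b i x) 0
  rw [h2] at h3
  linarith

end Crest.Agent.R335
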