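import Crest.Agent.R335.HDefs2

/-!
Row 335 (S0521), family G: the weighted Sobolev space `H¹(s² dx)`, the scalar ("angle") form of a
Kohn-Sham pair, and the two quadratic forms `Bf` (stability form) and `Pf` (Poincaré form).

`s = √ρ`, `h` = angle: `√2 u = s cos h`, `w = s sin h`.
-/

set_option autoImplicit false
set_option linter.unusedSectionVars false

open MeasureTheory Filter Set
open scoped ENNReal Topology ContDiff

noncomputable section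
namespace Crest.Agent.R335

section
variable {ι : Type*} [Fintype ι] [DecidableEq ι]

/-- weighted Sobolev space `H¹(s² dx)` -/
structure W1 (s : EuclideanSpace ℝ ι → ℝ) (φ : EuclideanSpace ℝ ι → ℝ)
    (l : EuclideanSpace ℝ ι → EuclideanSpace ℝ ι) : Prop where
  wg : WG univ φ l
  l2 : Integrable (fun x => s x ^ 2 * φ x ^ 2)
  l2g : Integrable (fun x => s x ^ 2 * ‖l x‖ ^ 2)

end

/-- `s` continuous, positive, even in `z`, `s²` integrable; `h` odd in `z`, `0 ≤ h ≤ π/2` for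
`z > 0`, and the weak equation `-div (s² ∇h) = om s² sin 2h`. -/
structure PairSol (s h : EuclideanSpace ℝ (Fin 3) → ℝ)
    (gh : EuclideanSpace ℝ (Fin 3) → EuclideanSpace ℝ (Fin 3)) (om : ℝ) : Prop where
  s_cont : Continuous s
  s_pos : ∀ x, 0 < s x
  s_even : ∀ x, s (rfl' 2 x) = s x
  s_int : Integrable (fun x => s x ^ 2)
  om0 : 0 ≤ om
  w1 : W1 s h gh
  odd : ∀ x, h (rfl' 2 x) = - h x
  rng : ∀ x : EuclideanSpace ℝ (Fin 3), 0 < x 2 → 0 ≤ h x ∧ h x ≤ Real.pi / 2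
  el : ∀ ψ l, W1 s ψ l → (∃ C : ℝ, ∀ x, |ψ x| ≤ C) →
    ∫ x, s x ^ 2 * inner ℝ (gh x) (l x) =
      2 * om * ∫ x, s x ^ 2 * (Real.sin (h x) * Real.cos (h x)) * ψ x
  norm_sin : ∫ x, s x ^ 2 * Real.sin (h x) ^ 2 = 1
  norm_cos : ∫ x, s x ^ 2 * Real.cos (h x) ^ 2 = 2

/-- stability form `½∫s²|∇φ|² - ½∫s²φ²|∇h|² - om∫s²φ²cos²h` -/
def Bf (s h : EuclideanSpace ℝ (Fin 3) → ℝ)
    (gh : EuclideanSpace ℝ (Fin 3) → EuclideanSpace ℝ (Fin 3)) (om : ℝ)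
    (φ : EuclideanSpace ℝ (Fin 3) → ℝ)
    (l : EuclideanSpace ℝ (Fin 3) → EuclideanSpace ℝ (Fin 3)) : ℝ :=
  (1 / 2) * (∫ x, s x ^ 2 * ‖l x‖ ^ 2) - (1 / 2) * (∫ x, s x ^ 2 * φ x ^ 2 * ‖gh x‖ ^ 2) -
    om * ∫ x, s x ^ 2 * φ x ^ 2 * Real.cos (h x) ^ 2

/-- the vector field `X = ∇φ + φ tan h ∇h = cos h ∇(φ / cos h)` -/
def Xf (h : EuclideanSpace ℝ (Fin 3) → ℝ)
    (gh : EuclideanSpace ℝ (Fin 3) → EuclideanSpace ℝ (Fin 3))
    (φ : EuclideanSpace ℝ (Fin 3) → ℝ)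
    (l : EuclideanSpace ℝ (Fin 3) → EuclideanSpace ℝ (Fin 3))
    (x : EuclideanSpace ℝ (Fin 3)) : EuclideanSpace ℝ (Fin 3) :=
  l x + (φ x * (Real.sin (h x) / Real.cos (h x))) • gh x

/-- Poincaré form `½∫s²|X|² = ½∫y²|∇(φ/cos h)|²`, `y = s cos h` -/
def Pf (s h : EuclideanSpace ℝ (Fin 3) → ℝ)
    (gh : EuclideanSpace ℝ (Fin 3) → EuclideanSpace ℝ (Fin 3))
    (φ : EuclideanSpace ℝ (Fin 3) → ℝ)
    (l : EuclideanSpace ℝ (Fin 3) → EuclideanSpace ℝ (Fin 3)) : ℝ :=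
  (1 / 2) * ∫ x, s x ^ 2 * ‖Xf h gh φ l x‖ ^ 2

end Crest.Agent.R335
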