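import Crest.Agent.R335.PG1

/-!
Row 335 (S0521), part C.7: the free Hardy inequality (H1): a positive subsolution `s` with
`Δs ≥ a s`, `a ≥ κ0` on a region gives `κ0 ∫ s² f² ≤ ∫ s² |∇f|²` for `f` supported in the region.
-/

set_option autoImplicit false

open MeasureTheory Filter Set Crest.MathPhysics.ThreeBody
open scoped ENNReal Topology ContDiff

noncomputable section
namespace Crest.Agent.R335

/-- abstract form: `P` is the region where the functions vanish -/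
theorem hardy_of_sub {s : Pos3 → ℝ} {gs : Pos3 → Pos3} (hs : LL s gs) (h0 : ∀ᵐ x, 0 ≤ s x)
    {P : Pos3 → Prop} {κ0 : ℝ}
    (hk : ∀ φ gφ, BT φ gφ → (∀ᵐ x, 0 ≤ φ x) → (∀ᵐ x, P x → φ x = 0) →
      ∫ x, inner ℝ (gs x) (gφ x) ≤ - κ0 * ∫ x, s x * φ x)
    {f : Pos3 → ℝ} {g : Pos3 → Pos3} (hf : BT f g) (hP : ∀ᵐ x, P x → f x = 0) :
    κ0 * (∫ x, s x ^ 2 * f x ^ 2) ≤ ∫ x, s x ^ 2 * ‖g x‖ ^ 2 := by
  have hφ := (hf.sq).mul_LL hs
  have h1 := hk _ _ hφ (by
    filter_upwards [h0] with x hx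
    exact mul_nonneg hx (sq_nonneg _)) (by
    filter_upwards [hP] with x hx hPx
    rw [hx hPx]; ring)
  have e2 : ∀ x, s x * (s x * f x ^ 2) = s x ^ 2 * f x ^ 2 := fun x => by ring
  simp only [e2] at h1
  have e1 : ∀ x, inner ℝ (gs x) (s x • ((2 * f x) • g x) + f x ^ 2 • gs x) =
      ‖s x • g x + f x • gs x‖ ^ 2 - s x ^ 2 * ‖g x‖ ^ 2 := by
    intro x
    rw [norm_add_sq_real, norm_smul, norm_smul, inner_add_right, real_inner_smul_right,
      real_inner_smul_right, real_inner_smul_right, real_inner_smul_left, real_inner_smul_right,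
      real_inner_self_eq_norm_sq, mul_pow, mul_pow, Real.norm_eq_abs, Real.norm_eq_abs, sq_abs,
      sq_abs, real_inner_comm (gs x) (g x)]
    ring
  simp only [e1] at h1
  have m1 : Integrable (fun x => ‖s x • g x + f x • gs x‖ ^ 2) :=
    (hf.mul_LL hs).h1.memg.integrable_norm_pow (by norm_num)
  have m2 : Integrable (fun x => s x ^ 2 * ‖g x‖ ^ 2) := by
    have : MemLp (fun x => s x • g x) 2 volume := by
      obtain ⟨R, hR⟩ := hf.cpt
      obtain ⟨M, hM⟩ := hs.bdd R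
      refine MemLp.of_le_mul (c := |M|) hf.h1.memg (hs.aesm.smul hf.h1.memg.1) ?_
      filter_upwards [hR, hf.gr_zero] with x h2 h4
      rw [norm_smul]
      by_cases h3 : R ≤ ‖x‖
      · rw [h4 (h2 h3)]; simp
      · exact mul_le_mul_of_nonneg_right ((hM x (not_le.1 h3).le).trans (le_abs_self _))
          (norm_nonneg _)
    refine (this.integrable_norm_pow (by norm_num)).congr (ae_of_all _ fun x => ?_)
    simp only
    rw [norm_smul, mul_pow, Real.norm_eq_abs, sq_abs]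
  rw [integral_sub m1 m2] at h1
  have h3 : 0 ≤ ∫ x, ‖s x • g x + f x • gs x‖ ^ 2 := integral_nonneg fun x => sq_nonneg _
  linarith

/-- (H1) for the amplitude `s` : the field `hardy` of `ExtHyp` -/
theorem Amp.hardy {s : Pos3 → ℝ} {gs : Pos3 → Pos3} (hs : Amp s gs) {R κ0 : ℝ}
    (hk : ∀ φ gφ, BT φ gφ → (∀ᵐ x, 0 ≤ φ x) → (∀ᵐ x : Pos3, ‖x‖ < R → φ x = 0) →
      ∫ x, inner ℝ (gs x) (gφ x) ≤ - κ0 * ∫ x, s x * φ x)
    {f : Pos3 → ℝ} {g : Pos3 → Pos3} (hf : BT f g) (h0 : ∀ᵐ x : Pos3, ‖x‖ < R → f x = 0) :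
    κ0 * (∫ x, s x ^ 2 * f x ^ 2) ≤ ∫ x, s x ^ 2 * ‖g x‖ ^ 2 :=
  hardy_of_sub (LL.of_H1 hs.h1 (LocBdd.of_continuous hs.cont)) (ae_of_all _ fun x => (hs.pos x).le)
    (P := fun x => ‖x‖ < R) hk hf h0

end Crest.Agent.R335
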