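import Mathlib

/-!
Row 335 (S0521): abstract first order perturbation of a simple isolated ground state
(Part B, section 2).  `q` = unperturbed form, `n` = the `L²` form, `W ≥ 0` the perturbation.
-/

set_option autoImplicit false
set_option linter.unusedSectionVars false

open Filter Set
open scoped Topology

noncomputable section
namespace Crest.Agent.R335

section
variable {H : Type*} [NormedAddCommGroup H] [InnerProductSpace ℝ H]

/-- Cauchy–Schwarz for a nonnegative symmetric form -/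
theorem GP.cs {n : H →L[ℝ] H →L[ℝ] ℝ} (hn : ∀ u v, n u v = n v u) (hn0 : ∀ u, 0 ≤ n u u)
    (a b : H) : (n a b) ^ 2 ≤ n a a * n b b := by
  have h1 : ∀ t : ℝ, 0 ≤ n b b * (t * t) + (2 * n a b) * t + n a a := by
    intro t
    have := hn0 (a + t • b)
    simp only [map_add, map_smul, add_apply, smul_apply, smul_eq_mul] at this
    rw [hn b a] at this
    nlinarith
  have h2 := discrim_le_zero h1
  unfold discrim at h2
  nlinarith

theorem GP.decomp {q n : H →L[ℝ] H →L[ℝ] ℝ} (hq : ∀ u v, q u v = q v u)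
    (hn : ∀ u v, n u v = n v u) {E₀ : ℝ} {u₀ : H} (hu0 : n u₀ u₀ = 1)
    (hu0E : ∀ v, q u₀ v = E₀ * n u₀ v) (v : H) :
    n u₀ (v - n u₀ v • u₀) = 0 ∧
    n v v = (n u₀ v) ^ 2 + n (v - n u₀ v • u₀) (v - n u₀ v • u₀) ∧
    q v v = (n u₀ v) ^ 2 * E₀ + q (v - n u₀ v • u₀) (v - n u₀ v • u₀) ∧
    n v (v - n u₀ v • u₀) = n (v - n u₀ v • u₀) (v - n u₀ v • u₀) ∧
    q v (v - n u₀ v • u₀) = q (v - n u₀ v • u₀) (v - n u₀ v • u₀) := by
  have e1 : q v u₀ = E₀ * n u₀ v := by rw [hq, hu0E]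
  have e2 : n v u₀ = n u₀ v := hn _ _
  refine ⟨?_, ?_, ?_, ?_, ?_⟩
  · simp only [map_sub, map_smul, smul_eq_mul, hu0, mul_one, sub_self]
  · simp only [map_sub, map_smul, sub_apply, smul_apply,
      smul_eq_mul, hu0, e2]
    ring
  · simp only [map_sub, map_smul, sub_apply, smul_apply,
      smul_eq_mul, hu0, hu0E, e1]
    ring
  · simp only [map_sub, map_smul, sub_apply, smul_apply,
      smul_eq_mul, hu0, e2]
    ring
  · simp only [map_sub, map_smul, sub_apply, smul_apply,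
      smul_eq_mul, hu0, hu0E, e1]
    ring

theorem GP.lower {q n : H →L[ℝ] H →L[ℝ] ℝ} (hq : ∀ u v, q u v = q v u)
    (hn : ∀ u v, n u v = n v u) {E₀ E₁ : ℝ} {u₀ : H} (hu0 : n u₀ u₀ = 1)
    (hu0E : ∀ v, q u₀ v = E₀ * n u₀ v)
    (hgap : ∀ v, n u₀ v = 0 → E₁ * n v v ≤ q v v) (v : H) :
    E₁ * n v v - (E₁ - E₀) * (n u₀ v) ^ 2 ≤ q v v := by
  obtain ⟨h1, h2, h3, -, -⟩ := GP.decomp hq hn hu0 hu0E v
  have h4 := hgap _ h1
  rw [h3]
  have h5 : n (v - n u₀ v • u₀) (v - n u₀ v • u₀) = n v v - (n u₀ v) ^ 2 := by linarith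
  rw [h5] at h4
  nlinarith

theorem GP.a1 {r : ℝ} (h : 1 ≤ r) : r - 1 ≤ r ^ 2 := by nlinarith
theorem GP.a2 {α : ℝ} (h : α ^ 2 ≤ 1) : α ≤ 1 := by nlinarith
theorem GP.a3 {α : ℝ} (h0 : 0 ≤ α) (h1 : α ≤ 1) : 1 - α ≤ 1 - α ^ 2 := by nlinarith
theorem GP.a4 {l : ℝ} (h0 : 0 ≤ l) (h1 : l ≤ 1) : l ^ 2 ≤ l := by nlinarith
theorem GP.a5 {l l₀ : ℝ} (h0 : 0 ≤ l) (h1 : l ≤ l₀) (h2 : l₀ ≤ 1) : l ^ 2 ≤ l₀ := by nlinarith

set_option maxHeartbeats 1000000 in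
/-- first order closeness, energies and stability of the gap -/
theorem pert_close {q n W : H →L[ℝ] H →L[ℝ] ℝ} (hq : ∀ u v, q u v = q v u)
    (hn : ∀ u v, n u v = n v u) (hn0 : ∀ u, 0 ≤ n u u) (hWsym : ∀ u v, W u v = W v u)
    (hW0 : ∀ u, 0 ≤ W u u) {C c : ℝ} (hc : 0 < c) (hC : 0 ≤ C) (hco : ∀ u, c * ‖u‖ ^ 2 ≤ q u u + C * n u u)
    {E₀ E₁ : ℝ} (hE : E₀ < E₁) {u₀ : H} (hu0 : n u₀ u₀ = 1)
    (hu0E : ∀ v, q u₀ v = E₀ * n u₀ v)
    (hgap : ∀ v, n u₀ v = 0 → E₁ * n v v ≤ q v v) :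
    ∃ K l₀ : ℝ, 0 < l₀ ∧ 0 ≤ K ∧ ∀ l : ℝ, 0 ≤ l → l ≤ l₀ → ∀ (u : H) (E : ℝ), n u u = 1 →
      0 ≤ n u₀ u → (∀ v, q u v + l * W u v = E * n u v) → E ≤ E₀ + l * W u₀ u₀ →
      ‖u - u₀‖ ≤ K * l ∧ E₀ ≤ E ∧ E ≤ E₀ + K * l ∧
      (∀ v, n u v = 0 → ((E₀ + E₁) / 2) * n v v ≤ q v v + l * W v v) ∧
      (∀ v, ((E₀ + E₁) / 2) * n v v - ((E₀ + E₁) / 2 - E) * (n u v) ^ 2 ≤ q v v + l * W v v) := by
  obtain ⟨Wn, hWn0, hWn⟩ : ∃ Wn : ℝ, 0 ≤ Wn ∧ ∀ a b, |W a b| ≤ Wn * ‖a‖ * ‖b‖ :=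
    ⟨‖W‖, norm_nonneg W, fun a b => by
      have := W.le_opNorm₂ a b
      rwa [Real.norm_eq_abs] at this⟩
  obtain ⟨nn, hnn0, hnn⟩ : ∃ nn : ℝ, 0 ≤ nn ∧ ∀ a, n a a ≤ nn * ‖a‖ ^ 2 :=
    ⟨‖n‖, norm_nonneg n, fun a => by
      have := n.le_opNorm₂ a a
      rw [Real.norm_eq_abs] at this
      calc n a a ≤ ‖n‖ * ‖a‖ * ‖a‖ := (le_abs_self _).trans this
        _ = ‖n‖ * ‖a‖ ^ 2 := by ring⟩
  set w0 := W u₀ u₀ with hw0
  have hw00 : 0 ≤ w0 := hW0 u₀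
  set d := E₁ - E₀ with hd
  have hd0 : 0 < d := sub_pos.2 hE
  set θ := min 1 (d / (2 * (C + |E₁| + 1))) with hθ
  have hCE : 0 < C + |E₁| + 1 := by positivity
  have hθ0 : 0 < θ := lt_min one_pos (by positivity)
  have hθ1 : θ ≤ 1 := min_le_left _ _
  have hθ2 : θ * (C + |E₁|) ≤ d / 2 := by
    have h1 : θ ≤ d / (2 * (C + |E₁| + 1)) := min_le_right _ _
    calc θ * (C + |E₁|) ≤ θ * (C + |E₁| + 1) := mul_le_mul_of_nonneg_left (by linarith) hθ0.le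
      _ ≤ d / (2 * (C + |E₁| + 1)) * (C + |E₁| + 1) := mul_le_mul_of_nonneg_right h1 hCE.le
      _ = d / 2 := by field_simp
  set R := (|E₀| + |E₁| + C) / c + 1 with hR
  have hR1 : 1 ≤ R := by
    rw [hR]
    have : 0 ≤ (|E₀| + |E₁| + C) / c := by positivity
    linarith
  set D := Wn * R / (θ * c) with hD
  have hD0 : 0 ≤ D := by positivity
  set K1 := nn * D ^ 2 * ‖u₀‖ + D with hK1
  have hK10 : 0 ≤ K1 := by positivity
  set l₀ := min 1 (min (d / (2 * (w0 + 1))) (1 / (2 * (nn * K1 ^ 2 + 1)))) with hl0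
  have hl01 : l₀ ≤ 1 := min_le_left _ _
  have hl02 : l₀ * w0 ≤ d / 2 := by
    have h1 : l₀ ≤ d / (2 * (w0 + 1)) := (min_le_right _ _).trans (min_le_left _ _)
    calc l₀ * w0 ≤ d / (2 * (w0 + 1)) * w0 := mul_le_mul_of_nonneg_right h1 hw00
      _ ≤ d / (2 * (w0 + 1)) * (w0 + 1) :=
        mul_le_mul_of_nonneg_left (by linarith) (by positivity)
      _ = d / 2 := by field_simp
  have hl03 : l₀ * (nn * K1 ^ 2) ≤ 1 / 2 := by
    have h1 : l₀ ≤ 1 / (2 * (nn * K1 ^ 2 + 1)) := (min_le_right _ _).trans (min_le_right _ _)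
    calc l₀ * (nn * K1 ^ 2) ≤ 1 / (2 * (nn * K1 ^ 2 + 1)) * (nn * K1 ^ 2) :=
          mul_le_mul_of_nonneg_right h1 (by positivity)
      _ ≤ 1 / (2 * (nn * K1 ^ 2 + 1)) * (nn * K1 ^ 2 + 1) :=
        mul_le_mul_of_nonneg_left (by linarith) (by positivity)
      _ = 1 / 2 := by field_simp
  have hl0pos : 0 < l₀ := lt_min one_pos (lt_min (by positivity) (by positivity))
  refine ⟨max K1 w0, l₀, hl0pos, hK10.trans (le_max_left _ _), ?_⟩
  clear_value l₀ K1 D R θ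
  have hW00 : W u₀ u₀ = w0 := rfl
  clear_value w0 d
  intro l hl hll u E hu hsign hweak hEle
  have hl1 : l ≤ 1 := hll.trans hl01
  have hlw : l * w0 ≤ d / 2 := (mul_le_mul_of_nonneg_right hll hw00).trans hl02
  have huu : q u u + l * W u u = E := by rw [hweak u, hu, mul_one]
  have hlow := GP.lower hq hn hu0 hu0E hgap
  have hα1 : (n u₀ u) ^ 2 ≤ 1 := by
    have := GP.cs hn hn0 u₀ u
    rwa [hu0, hu, mul_one] at this
  have hEE : E₀ ≤ E := by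
    have h1 := hlow u
    rw [hu] at h1
    have h2 : 0 ≤ l * W u u := mul_nonneg hl (hW0 u)
    have h3 : (E₁ - E₀) * (n u₀ u) ^ 2 ≤ (E₁ - E₀) * 1 :=
      mul_le_mul_of_nonneg_left hα1 (by linarith)
    linarith
  have hE2 : E ≤ E₀ + d / 2 := by linarith
  -- the norm of `u`
  have huR : ‖u‖ ≤ R := by
    have h1 := hco u
    rw [hu, mul_one] at h1
    have h2 : 0 ≤ l * W u u := mul_nonneg hl (hW0 u)
    have h3 : c * ‖u‖ ^ 2 ≤ |E₀| + |E₁| + C := by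
      have h4 : E ≤ |E₀| + |E₁| := by
        have h5 : E₀ + d / 2 = E₀ / 2 + E₁ / 2 := by rw [hd]; ring
        have := le_abs_self E₀
        have := le_abs_self E₁
        have := abs_nonneg E₀
        have := abs_nonneg E₁
        linarith
      linarith
    have h4 : ‖u‖ ^ 2 ≤ R ^ 2 := by
      have h5 : ‖u‖ ^ 2 ≤ (|E₀| + |E₁| + C) / c := by
        rw [le_div_iff₀ hc]; linarith
      have h6 : (|E₀| + |E₁| + C) / c = R - 1 := by rw [hR]; ring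
      rw [h6] at h5
      exact h5.trans (GP.a1 hR1)
    exact le_of_sq_le_sq h4 (by linarith)
  obtain ⟨h1, h2, h3, h4, h5⟩ := GP.decomp hq hn hu0 hu0E u
  set α := n u₀ u with hα
  set δ := u - α • u₀ with hδ
  clear_value δ α
  have hwδ := hweak δ
  rw [h4, h5] at hwδ
  have hWb : |W u δ| ≤ Wn * ‖u‖ * ‖δ‖ := hWn u δ
  have hnδ0 : 0 ≤ n δ δ := hn0 δ
  have hup : q δ δ - E * n δ δ ≤ l * (Wn * R * ‖δ‖) := by
    have h6 : q δ δ - E * n δ δ = - (l * W u δ) := by linarith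
    rw [h6]
    have h7 : - (l * W u δ) ≤ l * |W u δ| := by
      rw [← mul_neg]
      exact mul_le_mul_of_nonneg_left (neg_le_abs _) hl
    refine h7.trans (mul_le_mul_of_nonneg_left (hWb.trans ?_) hl)
    exact mul_le_mul_of_nonneg_right (mul_le_mul_of_nonneg_left huR hWn0) (norm_nonneg _)
  have hdown : θ * c * ‖δ‖ ^ 2 ≤ q δ δ - E * n δ δ := by
    have g1 := hco δ
    have g2 := hgap δ h1
    have g3 : (0 : ℝ) ≤ 1 - θ := by linarith
    have g4 := mul_le_mul_of_nonneg_left g1 hθ0.le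
    have g5 := mul_le_mul_of_nonneg_left g2 g3
    have g6 : θ * (C + E₁) ≤ d / 2 := by
      refine le_trans ?_ hθ2
      exact mul_le_mul_of_nonneg_left (by linarith [le_abs_self E₁]) hθ0.le
    have g7 : 0 ≤ (E₁ - E - θ * (C + E₁)) * n δ δ := by
      refine mul_nonneg ?_ hnδ0
      have : E₁ = E₀ + d := by rw [hd]; ring
      linarith
    linarith
  have hδn : ‖δ‖ ≤ D * l := by
    by_cases hδ0 : ‖δ‖ = 0
    · rw [hδ0]; positivity
    · have hδp : 0 < ‖δ‖ := lt_of_le_of_ne (norm_nonneg _) (Ne.symm hδ0)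
      have g1 : θ * c * ‖δ‖ ^ 2 ≤ l * (Wn * R * ‖δ‖) := hdown.trans hup
      have g2 : θ * c * ‖δ‖ ≤ l * (Wn * R) := by
        have g3 : (θ * c * ‖δ‖) * ‖δ‖ ≤ (l * (Wn * R)) * ‖δ‖ := by linarith
        exact le_of_mul_le_mul_right g3 hδp
      rw [hD, div_mul_eq_mul_div, le_div_iff₀ (by positivity)]
      linarith
  have hnδ : n δ δ ≤ nn * (D * l) ^ 2 := by
    have g3 : ‖δ‖ ^ 2 ≤ (D * l) ^ 2 := pow_le_pow_left₀ (norm_nonneg _) hδn 2
    exact (hnn δ).trans (mul_le_mul_of_nonneg_left g3 hnn0)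
  have hα2 : α ≤ 1 := GP.a2 hα1
  have hα3 : 1 - α ≤ nn * (D * l) ^ 2 := by
    have g1 : 1 - α ^ 2 ≤ nn * (D * l) ^ 2 := by
      rw [hu] at h2
      linarith
    exact (GP.a3 hsign hα2).trans g1
  have hclose : ‖u - u₀‖ ≤ K1 * l := by
    have g1 : u - u₀ = δ + (α - 1) • u₀ := by
      rw [hδ, sub_smul, one_smul]; abel
    rw [g1]
    refine (norm_add_le _ _).trans ?_
    rw [norm_smul, Real.norm_eq_abs, abs_of_nonpos (by linarith)]
    have g2 : -(α - 1) * ‖u₀‖ ≤ (nn * (D * l) ^ 2) * ‖u₀‖ :=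
      mul_le_mul_of_nonneg_right (by linarith) (norm_nonneg _)
    have g3 : (nn * (D * l) ^ 2) * ‖u₀‖ ≤ nn * D ^ 2 * ‖u₀‖ * l := by
      have g4 : l ^ 2 ≤ l := GP.a4 hl hl1
      have g5 : 0 ≤ nn * D ^ 2 * ‖u₀‖ := by positivity
      calc (nn * (D * l) ^ 2) * ‖u₀‖ = (nn * D ^ 2 * ‖u₀‖) * l ^ 2 := by ring
        _ ≤ (nn * D ^ 2 * ‖u₀‖) * l := mul_le_mul_of_nonneg_left g4 g5
    rw [hK1]
    linarith
  have hgapl : ∀ v, n u v = 0 → ((E₀ + E₁) / 2) * n v v ≤ q v v + l * W v v := by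
    intro v hv
    have g1 := hlow v
    have g2 : (n u₀ v) ^ 2 ≤ (1 / 2) * n v v := by
      have g3 : n u₀ v = n (u₀ - u) v := by
        simp only [map_sub, sub_apply, hv, sub_zero]
      rw [g3]
      have g4 := GP.cs hn hn0 (u₀ - u) v
      have g5 : n (u₀ - u) (u₀ - u) ≤ 1 / 2 := by
        have g7 : ‖u₀ - u‖ ≤ K1 * l := by rw [norm_sub_rev]; exact hclose
        have g8 : ‖u₀ - u‖ ^ 2 ≤ (K1 * l) ^ 2 := pow_le_pow_left₀ (norm_nonneg _) g7 2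
        calc n (u₀ - u) (u₀ - u) ≤ nn * ‖u₀ - u‖ ^ 2 := hnn _
          _ ≤ nn * (K1 * l) ^ 2 := mul_le_mul_of_nonneg_left g8 hnn0
          _ = (nn * K1 ^ 2) * l ^ 2 := by ring
          _ ≤ (nn * K1 ^ 2) * l₀ := by
            exact mul_le_mul_of_nonneg_left (GP.a5 hl hll hl01) (by positivity)
          _ ≤ 1 / 2 := by linarith
      exact g4.trans (mul_le_mul_of_nonneg_right g5 (hn0 v))
    have g9 : 0 ≤ l * W v v := mul_nonneg hl (hW0 v)
    have g10 : (E₁ - E₀) * (n u₀ v) ^ 2 ≤ (E₁ - E₀) * ((1 / 2) * n v v) :=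
      mul_le_mul_of_nonneg_left g2 (sub_pos.2 hE).le
    linarith
  refine ⟨hclose.trans (mul_le_mul_of_nonneg_right (le_max_left _ _) hl), hEE, ?_, hgapl, ?_⟩
  · refine hEle.trans ?_
    have : l * w0 ≤ max K1 w0 * l := by
      rw [mul_comm]
      exact mul_le_mul_of_nonneg_right (le_max_right _ _) hl
    linarith
  · intro v
    have hWs : ∀ v, (q + l • W) u v = E * n u v := by
      intro v
      simp only [add_apply, smul_apply, smul_eq_mul]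
      exact hweak v
    have hg : ∀ v, n u v = 0 → ((E₀ + E₁) / 2) * n v v ≤ (q + l • W) v v := by
      intro v hv
      simp only [add_apply, smul_apply, smul_eq_mul]
      exact hgapl v hv
    have hQs : ∀ a b, (q + l • W) a b = (q + l • W) b a := by
      intro a b
      simp only [add_apply, smul_apply, smul_eq_mul]
      rw [hq a b, hWsym a b]
    have := GP.lower hQs hn hu hWs hg v
    simpa only [add_apply, smul_apply, smul_eq_mul] using this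

end

end Crest.Agent.R335
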