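import Crest.Agent.R335.GU1

/-!
Row 335 (S0521), family G: exterior estimate for the Poincaré inequality of `U²` (note of helper737).
-/

set_option autoImplicit false
set_option linter.unusedVariables false
set_option linter.unusedSectionVars false

open MeasureTheory Filter Set Crest.MathPhysics.ThreeBody
open scoped ENNReal Topology ContDiff NNReal

noncomputable section
namespace Crest.Agent.R335

theorem BT.lip_mul {f : Pos3 → ℝ} {g : Pos3 → Pos3} (hf : BT f g) {χ : Pos3 → ℝ} {K : ℝ≥0}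
    (hχ : LipschitzWith K χ) (hb : ∀ x, |χ x| ≤ 1) :
    BT (fun x => χ x * f x) (fun x => χ x • g x + f x • gr χ x) := by
  obtain ⟨h1, h2⟩ := WG.of_lipschitz hχ
  obtain ⟨C, hC0, hC⟩ := hf.bound
  obtain ⟨r, hr⟩ := hf.cpt
  refine ⟨H1.mul_bdd hf.h1 h1 (C := max 1 (K : ℝ)) (fun x => (hb x).trans (le_max_left _ _))
    (fun x => (h2 x).trans (le_max_right _ _)), ⟨C, ?_⟩, ⟨r, ?_⟩⟩
  · filter_upwards [hC] with x hx
    rw [abs_mul]
    exact (mul_le_mul (hb x) hx (abs_nonneg _) zero_le_one).trans (by simp)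
  · filter_upwards [hr] with x hx h
    rw [hx h, mul_zero]

section pair
variable {s U w : Pos3 → ℝ} {gs gU gw : Pos3 → Pos3} {om : ℝ}

/-- Picone/Jacobi identity for `k = U F / w` -/
theorem picone (hs : Amp s gs) (hp : Pair s U gU w gw om) {F : Pos3 → ℝ} {gF : Pos3 → Pos3}
    (hF : BT F gF) {c : ℝ} (hc : 0 < c) (hlow : ∀ᵐ x, F x ≠ 0 → c ≤ |w x|) :
    ∃ gk : Pos3 → Pos3, BT (fun x => F x * U x / w x) gk ∧
      ∫ x, w x ^ 2 * ‖gk x‖ ^ 2 =
        (∫ x, U x ^ 2 * ‖gF x‖ ^ 2) - 2 * om * ∫ x, U x ^ 2 * F x ^ 2 := by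
  obtain ⟨C, hC0, hCU, hCw⟩ := hp.adm.U_le hs
  have hFb := hF.bound
  obtain ⟨B, hB0, hB⟩ := hFb
  have h1 : BT (fun x => F x * U x) (fun x => F x • gU x + U x • gF x) :=
    hF.mul hp.adm.hU ⟨C, ae_of_all _ hCU⟩
  have h2 := h1.div hp.adm.hw ⟨C, ae_of_all _ hCw⟩ hc (by
    filter_upwards [hlow] with x hx h
    exact hx (fun h' => h (by simp [h'])))
  have h3 := h2.mul hF.h1 ⟨B, hB⟩
  have hel := hp.el _ _ h3
  refine ⟨_, h2, ?_⟩
  have iU := hp.adm.int_mulU hs hF
  have iw : Integrable (fun x => w x ^ 2 *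
      ‖(1 / w x) • (F x • gU x + U x • gF x) - (F x * U x / w x ^ 2) • gw x‖ ^ 2) := by
    refine (h2.int_mul (c := fun x => w x ^ 2) (hp.adm.hw.memf.1.pow 2) fun r => ⟨C ^ 2, ?_⟩).2
    filter_upwards with x _
    rw [abs_of_nonneg (sq_nonneg _), ← sq_abs]
    exact pow_le_pow_left₀ (abs_nonneg _) (hCw x) 2
  have key : ∀ᵐ x, inner ℝ (J U gU w gw x)
      ((F x * U x / w x) • gF x + F x • ((1 / w x) • (F x • gU x + U x • gF x) -
        (F x * U x / w x ^ 2) • gw x)) =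
      w x ^ 2 * ‖(1 / w x) • (F x • gU x + U x • gF x) - (F x * U x / w x ^ 2) • gw x‖ ^ 2 -
        U x ^ 2 * ‖gF x‖ ^ 2 := by
    filter_upwards [hlow, hF.grad_zero] with x hx hz
    by_cases hFx : F x = 0
    · simp [hFx, hz hFx]
    · have hw0 : w x ≠ 0 := by
        have := hx hFx
        intro h
        rw [h, abs_zero] at this
        linarith
      have e1 : (1 / w x) • (F x • gU x + U x • gF x) - (F x * U x / w x ^ 2) • gw x =
          (U x / w x) • gF x + (F x / w x ^ 2) • J U gU w gw x := by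
        unfold J
        rw [smul_sub, smul_add, smul_smul, smul_smul, smul_smul, smul_smul]
        have a1 : 1 / w x * F x = F x / w x ^ 2 * w x := by field_simp
        have a2 : 1 / w x * U x = U x / w x := by field_simp
        have a3 : F x * U x / w x ^ 2 = F x / w x ^ 2 * U x := by ring
        rw [a1, a2, a3]
        abel
      rw [e1, inner_add_right, real_inner_smul_right, real_inner_smul_right, inner_add_right,
        real_inner_smul_right, real_inner_smul_right, real_inner_self_eq_norm_sq,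
        norm_add_sq_real, norm_smul, norm_smul, real_inner_smul_left, real_inner_smul_right,
        mul_pow, mul_pow, Real.norm_eq_abs, Real.norm_eq_abs, sq_abs, sq_abs,
        real_inner_comm (gF x)]
      field_simp
      ring
  have e2 : ∫ x, inner ℝ (J U gU w gw x)
      ((F x * U x / w x) • gF x + F x • ((1 / w x) • (F x • gU x + U x • gF x) -
        (F x * U x / w x ^ 2) • gw x)) =
      (∫ x, w x ^ 2 *
        ‖(1 / w x) • (F x • gU x + U x • gF x) - (F x * U x / w x ^ 2) • gw x‖ ^ 2) -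
        ∫ x, U x ^ 2 * ‖gF x‖ ^ 2 := by
    rw [integral_congr_ae key, integral_sub iw iU.2]
  have e3 : ∫ x, U x * w x * (F x * U x / w x * F x) = ∫ x, U x ^ 2 * F x ^ 2 := by
    refine integral_congr_ae ?_
    filter_upwards [hlow] with x hx
    by_cases hFx : F x = 0
    · simp [hFx]
    · have hw0 : w x ≠ 0 := by
        have := hx hFx
        intro h
        rw [h, abs_zero] at this
        linarith
      field_simp
  rw [e3, e2] at hel
  linarith

end pair

/-- the constant of the exterior estimate -/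
def K0of (a cl cu cs κ0 : ℝ) : ℝ :=
  cu / (cl * a ^ 2) + (2 + 8 * (cu / (cl * a ^ 2))) / (κ0 * cs ^ 2)

theorem ext_est {s U w : Pos3 → ℝ} {gs gU gw : Pos3 → Pos3} {om : ℝ} (hs : Amp s gs)
    (hp : Pair s U gU w gw om) {e2 : Pos3 → ℝ} {R a cl cu cs κ0 : ℝ}
    (he : ExtHyp s U w e2 R a cl cu cs κ0) {f : Pos3 → ℝ} {g : Pos3 → Pos3} (hf : BT f g)
    (h0 : ∀ᵐ x : Pos3, ‖x‖ < R → f x = 0) :
    ∫ x, U x ^ 2 * f x ^ 2 ≤ K0of a cl cu cs κ0 * ∫ x, U x ^ 2 * ‖g x‖ ^ 2 := by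
  obtain ⟨ha, hcl, hcu, hcs, hk⟩ := And.intro he.a0 (And.intro he.cl0 (And.intro he.cu0
    (And.intro he.cs0 he.k0)))
  obtain ⟨C, hC0, hCU, hCw⟩ := hp.adm.U_le hs
  have iU := hp.adm.int_mulU hs hf
  have hg0 := hf.grad_zero
  set E : ℝ := ∫ x, U x ^ 2 * ‖g x‖ ^ 2 with hE
  have hE0 : 0 ≤ E := integral_nonneg fun x => by positivity
  have ie : Integrable (fun x => e2 x * f x ^ 2) ∧ Integrable (fun x => e2 x * ‖g x‖ ^ 2) := by
    refine hf.int_mul he.e2c.aestronglyMeasurable fun r => ?_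
    obtain ⟨M, hM⟩ := (isCompact_closedBall (0 : Pos3) r).exists_bound_of_continuousOn
      he.e2c.continuousOn
    exact ⟨M, ae_of_all _ fun x hx => hM x (by rwa [mem_closedBall_zero_iff])⟩
  -- slab
  have hslab : ∫ x in Slab, U x ^ 2 * f x ^ 2 ≤ cu / (cl * a ^ 2) * E := by
    have s1 : ∫ x in Slab, U x ^ 2 * f x ^ 2 ≤ ∫ x in Slab, cu * (e2 x * f x ^ 2) := by
      refine setIntegral_mono_on_ae iU.1.integrableOn (ie.1.const_mul cu).integrableOn
        measurableSet_Slab ?_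
      filter_upwards [he.up, h0] with x h1 h2 hx
      by_cases hxR : ‖x‖ < R
      · simp [h2 hxR]
      · have := mul_le_mul_of_nonneg_right (h1 hx (le_of_not_gt hxR)) (sq_nonneg (f x))
        linarith
    have s2 := he.slab f g hf h0
    have s3 : ∫ x in Slab, cl * (e2 x * ‖g x‖ ^ 2) ≤ ∫ x in Slab, U x ^ 2 * ‖g x‖ ^ 2 := by
      refine setIntegral_mono_on_ae (ie.2.const_mul cl).integrableOn iU.2.integrableOn
        measurableSet_Slab ?_
      filter_upwards [he.lo, h0, hg0] with x h1 h2 h3 hx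
      by_cases hxR : ‖x‖ < R
      · simp [h3 (h2 hxR)]
      · have := mul_le_mul_of_nonneg_right (h1 hx (le_of_not_gt hxR)) (sq_nonneg ‖g x‖)
        linarith
    have s4 : ∫ x in Slab, U x ^ 2 * ‖g x‖ ^ 2 ≤ E :=
      setIntegral_le_integral iU.2 (ae_of_all _ fun x => by positivity)
    rw [integral_const_mul] at s1 s3
    have s5 : (∫ x in Slab, e2 x * f x ^ 2) ≤ (cl * a ^ 2)⁻¹ * E := by
      rw [← div_eq_inv_mul, le_div_iff₀ (by positivity)]
      calc (∫ x in Slab, e2 x * f x ^ 2) * (cl * a ^ 2)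
          = cl * (a ^ 2 * ∫ x in Slab, e2 x * f x ^ 2) := by ring
        _ ≤ cl * ∫ x in Slab, e2 x * ‖g x‖ ^ 2 := mul_le_mul_of_nonneg_left s2 hcl.le
        _ ≤ E := s3.trans s4
    calc ∫ x in Slab, U x ^ 2 * f x ^ 2 ≤ cu * ∫ x in Slab, e2 x * f x ^ 2 := s1
      _ ≤ cu * ((cl * a ^ 2)⁻¹ * E) := mul_le_mul_of_nonneg_left s5 hcu.le
      _ = cu / (cl * a ^ 2) * E := by rw [div_eq_mul_inv]; ring
  -- the function `F = zt f`
  have hF := hf.lip_mul zt_lip (fun x => by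
    rw [abs_of_nonneg (zt_mem x).1]; exact (zt_mem x).2)
  have hz1 : ∀ᵐ x, 1 ≤ |x 2| → gr zt x = 0 := by
    have h1 := WG.zero_of_level isOpen_univ (WG.of_lipschitz zt_lip).1 1
    rw [Measure.restrict_univ] at h1
    filter_upwards [h1] with x hx h
    exact hx (zt_one h)
  have iUF := hp.adm.int_mulU hs hF
  have hFE : ∫ x, U x ^ 2 * ‖zt x • g x + f x • gr zt x‖ ^ 2 ≤
      2 * E + 8 * ∫ x in Slab, U x ^ 2 * f x ^ 2 := by
    have hgr2 := (WG.of_lipschitz zt_lip).2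
    have t1 : ∫ x, U x ^ 2 * ‖zt x • g x + f x • gr zt x‖ ^ 2 ≤
        ∫ x, (2 * (U x ^ 2 * ‖g x‖ ^ 2) + 8 * Slab.indicator (fun x => U x ^ 2 * f x ^ 2) x) := by
      refine integral_mono_ae iUF.2 ((iU.2.const_mul 2).add
        ((iU.1.indicator measurableSet_Slab).const_mul 8)) ?_
      filter_upwards [hz1] with x hx
      have z1 := zt_mem x
      have n1 : ‖zt x • g x + f x • gr zt x‖ ^ 2 ≤
          2 * ‖g x‖ ^ 2 + 2 * (f x ^ 2 * ‖gr zt x‖ ^ 2) := by
        have b1 : ‖zt x • g x + f x • gr zt x‖ ≤ ‖g x‖ + |f x| * ‖gr zt x‖ := by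
          refine (norm_add_le _ _).trans (add_le_add ?_ ?_)
          · rw [norm_smul, Real.norm_eq_abs, abs_of_nonneg z1.1]
            exact mul_le_of_le_one_left (norm_nonneg _) z1.2
          · rw [norm_smul, Real.norm_eq_abs]
        have b2 := pow_le_pow_left₀ (norm_nonneg _) b1 2
        have b3 : f x ^ 2 = |f x| ^ 2 := (sq_abs _).symm
        rw [b3]
        nlinarith [sq_nonneg (‖g x‖ - |f x| * ‖gr zt x‖)]
      by_cases hxs : x ∈ Slab
      · rw [indicator_of_mem hxs]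
        have n2 : ‖gr zt x‖ ^ 2 ≤ 4 := by
          have := hgr2 x
          have h4 := pow_le_pow_left₀ (norm_nonneg _) this 2
          norm_num at h4
          exact h4
        have n3 : f x ^ 2 * ‖gr zt x‖ ^ 2 ≤ f x ^ 2 * 4 := mul_le_mul_of_nonneg_left n2 (sq_nonneg _)
        have n4 := mul_le_mul_of_nonneg_left (n1.trans (by linarith :
          2 * ‖g x‖ ^ 2 + 2 * (f x ^ 2 * ‖gr zt x‖ ^ 2) ≤ 2 * ‖g x‖ ^ 2 + 8 * f x ^ 2))
          (sq_nonneg (U x))
        linarith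
      · rw [indicator_of_notMem hxs]
        have : gr zt x = 0 := hx (by
          unfold Slab at hxs
          simpa using hxs)
        rw [this] at n1 ⊢
        have n4 := mul_le_mul_of_nonneg_left n1 (sq_nonneg (U x))
        simp only [norm_zero] at n4
        linarith
    rw [integral_add (iU.2.const_mul 2) ((iU.1.indicator measurableSet_Slab).const_mul 8),
      integral_const_mul, integral_const_mul, integral_indicator measurableSet_Slab] at t1
    exact t1
  -- lower bound of `|w|` on the support of `F`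
  obtain ⟨r, hr⟩ := hf.cpt
  obtain ⟨x0, hx0, hx0'⟩ : ∃ x0 ∈ Metric.closedBall (0 : Pos3) (max r 0),
      ∀ y ∈ Metric.closedBall (0 : Pos3) (max r 0), s x0 ≤ s y := by
    have hne : (Metric.closedBall (0 : Pos3) (max r 0)).Nonempty :=
      ⟨0, by simp⟩
    obtain ⟨x0, h1, h2⟩ := (isCompact_closedBall (0 : Pos3) (max r 0)).exists_isMinOn hne
      hs.cont.continuousOn
    exact ⟨x0, h1, fun y hy => h2 hy⟩
  have hF0 : ∀ᵐ x : Pos3, zt x * f x ≠ 0 → 1 / 2 ≤ |x 2| ∧ R ≤ ‖x‖ ∧ cs * s x ≤ |w x| := by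
    filter_upwards [he.bulk, h0] with x h1 h2 hx
    have a1 : 1 / 2 ≤ |x 2| := by
      by_contra h
      exact hx (by rw [zt_zero (le_of_not_ge h), zero_mul])
    have a2 : R ≤ ‖x‖ := by
      by_contra h
      exact hx (by rw [h2 (lt_of_not_ge h), mul_zero])
    exact ⟨a1, a2, h1 a1 a2⟩
  have hlow : ∀ᵐ x, zt x * f x ≠ 0 → cs * s x0 ≤ |w x| := by
    filter_upwards [hF0, hr] with x h1 h2 hx
    refine le_trans (mul_le_mul_of_nonneg_left (hx0' x ?_) hcs.le) (h1 hx).2.2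
    rw [mem_closedBall_zero_iff]
    by_contra h
    exact hx (by rw [h2 (le_trans (le_max_left _ _) (le_of_not_ge h)), mul_zero])
  obtain ⟨gk, hk1, hk2⟩ := picone hs hp hF (mul_pos hcs (hs.pos x0)) hlow
  have hk0 : ∀ᵐ x : Pos3, ‖x‖ < R → zt x * f x * U x / w x = 0 := by
    filter_upwards [h0] with x hx h
    simp [hx h]
  have hh := he.hardy _ _ hk1 hk0
  have isk := hs.int_mul hk1
  have iwk : Integrable (fun x => w x ^ 2 * ‖gk x‖ ^ 2) := by
    refine (hk1.int_mul (c := fun x => w x ^ 2) (hp.adm.hw.memf.1.pow 2) fun r => ⟨C ^ 2, ?_⟩).2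
    filter_upwards with x _
    rw [abs_of_nonneg (sq_nonneg _), ← sq_abs]
    exact pow_le_pow_left₀ (abs_nonneg _) (hCw x) 2
  have b1 : cs ^ 2 * ∫ x, s x ^ 2 * ‖gk x‖ ^ 2 ≤ ∫ x, w x ^ 2 * ‖gk x‖ ^ 2 := by
    rw [← integral_const_mul]
    refine integral_mono_ae (isk.2.const_mul _) iwk ?_
    filter_upwards [hF0, hk1.grad_zero] with x h1 h2
    by_cases hx : zt x * f x = 0
    · simp [h2 (by simp [hx])]
    · have h3 := (h1 hx).2.2
      have h4 : (cs * s x) ^ 2 ≤ w x ^ 2 := by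
        rw [← sq_abs (w x)]
        exact pow_le_pow_left₀ (mul_nonneg hcs.le (hs.pos x).le) h3 2
      have := mul_le_mul_of_nonneg_right h4 (sq_nonneg ‖gk x‖)
      show cs ^ 2 * (s x ^ 2 * ‖gk x‖ ^ 2) ≤ w x ^ 2 * ‖gk x‖ ^ 2
      calc cs ^ 2 * (s x ^ 2 * ‖gk x‖ ^ 2) = (cs * s x) ^ 2 * ‖gk x‖ ^ 2 := by ring
        _ ≤ _ := this
  have b2 : ∫ x, w x ^ 2 * ‖gk x‖ ^ 2 ≤ ∫ x, U x ^ 2 * ‖zt x • g x + f x • gr zt x‖ ^ 2 := by
    rw [hk2]
    have : 0 ≤ ∫ x, U x ^ 2 * (zt x * f x) ^ 2 := integral_nonneg fun x => by positivity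
    have := mul_nonneg (mul_nonneg zero_le_two hp.om_pos.le) this
    linarith
  have b3 : ∫ x, U x ^ 2 * (zt x * f x) ^ 2 ≤
      ∫ x, s x ^ 2 * (zt x * f x * U x / w x) ^ 2 := by
    refine integral_mono_ae iUF.1 isk.1 ?_
    filter_upwards [hlow] with x h1
    by_cases hx : zt x * f x = 0
    · simp [hx]
    · have hw0 : w x ≠ 0 := by
        intro h
        have := h1 hx
        rw [h, abs_zero] at this
        exact absurd this (not_le.mpr (mul_pos hcs (hs.pos x0)))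
      have e1 : w x ^ 2 * (zt x * f x * U x / w x) ^ 2 = U x ^ 2 * (zt x * f x) ^ 2 := by
        field_simp
      show U x ^ 2 * (zt x * f x) ^ 2 ≤ s x ^ 2 * (zt x * f x * U x / w x) ^ 2
      rw [← e1]
      refine mul_le_mul_of_nonneg_right ?_ (sq_nonneg _)
      have := hp.adm.sq x
      nlinarith [sq_nonneg (U x)]
  -- splitting
  have hsplit : ∫ x, U x ^ 2 * f x ^ 2 ≤
      (∫ x in Slab, U x ^ 2 * f x ^ 2) + ∫ x, U x ^ 2 * (zt x * f x) ^ 2 := by
    rw [← integral_indicator measurableSet_Slab, ← integral_add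
      (iU.1.indicator measurableSet_Slab) iUF.1]
    refine integral_mono iU.1 ((iU.1.indicator measurableSet_Slab).add iUF.1) fun x => ?_
    by_cases hxs : x ∈ Slab
    · simp only [indicator_of_mem hxs]
      have : 0 ≤ U x ^ 2 * (zt x * f x) ^ 2 := by positivity
      linarith
    · simp only [indicator_of_notMem hxs]
      have : zt x = 1 := zt_one (by unfold Slab at hxs; simpa using hxs)
      rw [this]
      simp
  set S : ℝ := ∫ x in Slab, U x ^ 2 * f x ^ 2
  have hc1 : 0 ≤ cu / (cl * a ^ 2) := by positivity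
  have c1 : κ0 * cs ^ 2 * ∫ x, U x ^ 2 * (zt x * f x) ^ 2 ≤
      (2 + 8 * (cu / (cl * a ^ 2))) * E := by
    calc κ0 * cs ^ 2 * ∫ x, U x ^ 2 * (zt x * f x) ^ 2
        ≤ κ0 * cs ^ 2 * ∫ x, s x ^ 2 * (zt x * f x * U x / w x) ^ 2 :=
          mul_le_mul_of_nonneg_left b3 (by positivity)
      _ = cs ^ 2 * (κ0 * ∫ x, s x ^ 2 * (zt x * f x * U x / w x) ^ 2) := by ring
      _ ≤ cs ^ 2 * ∫ x, s x ^ 2 * ‖gk x‖ ^ 2 := mul_le_mul_of_nonneg_left hh (by positivity)
      _ ≤ 2 * E + 8 * S := b1.trans (b2.trans hFE)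
      _ ≤ 2 * E + 8 * (cu / (cl * a ^ 2) * E) := by linarith
      _ = _ := by ring
  have c2 : ∫ x, U x ^ 2 * (zt x * f x) ^ 2 ≤
      (2 + 8 * (cu / (cl * a ^ 2))) / (κ0 * cs ^ 2) * E := by
    rw [div_mul_eq_mul_div, le_div_iff₀ (by positivity)]
    linarith
  unfold K0of
  calc ∫ x, U x ^ 2 * f x ^ 2 ≤ S + ∫ x, U x ^ 2 * (zt x * f x) ^ 2 := hsplit
    _ ≤ cu / (cl * a ^ 2) * E + (2 + 8 * (cu / (cl * a ^ 2))) / (κ0 * cs ^ 2) * E :=
        add_le_add hslab c2
    _ = _ := by ring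

end Crest.Agent.R335
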