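import Crest.Agent.R335.GU3
import Crest.Agent.R335.OBPot

/-!
Row 335 (S0521), family G: the even Poincaré inequality of `u0 = √2 g` from the one-body gap
(helper737).
-/

set_option autoImplicit false
set_option linter.unusedVariables false
set_option linter.unusedSectionVars false

open MeasureTheory Filter Set Crest.MathPhysics.ThreeBody
open scoped ENNReal Topology ContDiff NNReal

noncomputable section
namespace Crest.Agent.R335

/-- integral of an odd function vanishes -/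
theorem GU.integral_odd {f : Pos3 → ℝ} (h : ∀ x, f (rz x) = - f x) : ∫ x, f x = 0 := by
  have h1 : ∫ x, f (rz x) = ∫ x, f x := rz.measurePreserving.integral_comp
    rz.toHomeomorph.measurableEmbedding f
  have h2 : ∫ x, f (rz x) = - ∫ x, f x := by
    rw [← integral_neg]
    congr 1
    funext x
    exact h x
  linarith

theorem oneBody_poinc {D : ℝ} {g u : Pos3 → ℝ} {dg du : Pos3 → Pos3} {eg eu e3 : ℝ}
    (hO : OneBody D g u dg du eg eu e3) {K : Pos3 → ℝ} {m : Pos3 → Pos3} (hK : BT K m)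
    (heven : ∀ x, K (rz x) = K x) :
    (e3 - eg) * ((∫ x, (√2 * g x) ^ 2 * K x ^ 2) - (1 / 2) * (∫ x, (√2 * g x) ^ 2 * K x) ^ 2) ≤
      (1 / 2) * ∫ x, (√2 * g x) ^ 2 * ‖m x‖ ^ 2 := by
  -- `g` is bounded
  obtain ⟨B, hB⟩ : ∃ B : ℝ, ∀ x, |g x| ≤ B := by
    obtain ⟨r, hr⟩ : ∃ r : ℝ, ∀ x : Pos3, r ≤ ‖x‖ → |g x| ≤ 1 := by
      have h1 := hO.g_zero.eventually (Metric.ball_mem_nhds (0 : ℝ) one_pos)
      rw [Filter.eventually_iff, mem_cocompact] at h1
      obtain ⟨t, ht, hts⟩ := h1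
      obtain ⟨r, hr⟩ := ht.isBounded.subset_closedBall (0 : Pos3)
      refine ⟨r + 1, fun x hx => ?_⟩
      have : x ∈ tᶜ := by
        intro hxt
        have := hr hxt
        rw [mem_closedBall_zero_iff] at this
        linarith
      have := hts this
      simp only [mem_ofPred_eq] at this
      rw [Real.dist_eq, sub_zero] at this
      exact this.le
    obtain ⟨M, hM⟩ := (isCompact_closedBall (0 : Pos3) r).exists_bound_of_continuousOn
      hO.cg.continuousOn
    refine ⟨max M 1, fun x => ?_⟩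
    by_cases hx : ‖x‖ ≤ r
    · exact (hM x (by rwa [mem_closedBall_zero_iff])).trans (le_max_left _ _)
    · exact (hr x (le_of_not_ge hx)).trans (le_max_right _ _)
  obtain ⟨C, hC0, hC⟩ := hK.bound
  have h1 := hK.mul hO.hg ⟨B, ae_of_all _ hB⟩
  have h2 := h1.mul hK.h1 ⟨C, hC⟩
  have hgap := hO.gap _ _ h1.h1
  have heq := hO.g_eq _ _ h2.h1
  have h0 : ∫ x, u x * (K x * g x) = 0 := GU.integral_odd fun x => by
    rw [hO.u_odd, heven, hO.g_even]; ring
  -- integrability
  have iV := V2_integrable_sq D h1.h1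
  have ig2 : Integrable (fun x => g x ^ 2) := hO.hg.memf.integrable_sq
  have igb : ∀ r : ℝ, ∃ M : ℝ, ∀ᵐ x : Pos3, ‖x‖ ≤ r → |g x ^ 2| ≤ M := fun r => ⟨B ^ 2, by
    filter_upwards with x _
    rw [abs_of_nonneg (sq_nonneg _), ← sq_abs]
    exact pow_le_pow_left₀ (abs_nonneg _) (hB x) 2⟩
  have igK := hK.int_mul (c := fun x => g x ^ 2) (hO.cg.pow 2).aestronglyMeasurable igb
  have iN : Integrable (fun x => ‖K x • dg x + g x • m x‖ ^ 2) :=
    h1.h1.memg.integrable_norm_pow (by norm_num)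
  have key : Q2 D (fun x => K x * g x) (fun x => K x • dg x + g x • m x) =
      eg * (∫ x, g x ^ 2 * K x ^ 2) + (1 / 2) * ∫ x, g x ^ 2 * ‖m x‖ ^ 2 := by
    have e1 : ∀ x, inner ℝ (dg x) ((K x * g x) • m x + K x • (K x • dg x + g x • m x)) =
        ‖K x • dg x + g x • m x‖ ^ 2 - g x ^ 2 * ‖m x‖ ^ 2 := by
      intro x
      rw [norm_add_sq_real, norm_smul, norm_smul, inner_add_right, real_inner_smul_right,
        real_inner_smul_right, inner_add_right, real_inner_smul_right, real_inner_smul_right,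
        real_inner_self_eq_norm_sq, real_inner_smul_left, real_inner_smul_right, mul_pow,
        mul_pow, Real.norm_eq_abs, Real.norm_eq_abs, sq_abs, sq_abs]
      ring
    have e2 : B2 D g dg (fun x => K x * g x * K x)
        (fun x => (K x * g x) • m x + K x • (K x • dg x + g x • m x)) =
        Q2 D (fun x => K x * g x) (fun x => K x • dg x + g x • m x) -
          (1 / 2) * ∫ x, g x ^ 2 * ‖m x‖ ^ 2 := by
      unfold B2 Q2
      rw [show (fun x => inner ℝ (dg x) ((K x * g x) • m x + K x • (K x • dg x + g x • m x))) =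
        fun x => ‖K x • dg x + g x • m x‖ ^ 2 - g x ^ 2 * ‖m x‖ ^ 2 from funext e1,
        integral_sub iN igK.2]
      have : (fun x => V2 D x * (g x * (K x * g x * K x))) = fun x => V2 D x * (K x * g x) ^ 2 := by
        funext x; ring
      rw [this]
      ring
    rw [e2] at heq
    have : ∫ x, g x * (K x * g x * K x) = ∫ x, g x ^ 2 * K x ^ 2 := by
      congr 1; funext x; ring
    rw [this] at heq
    linarith
  rw [h0, key] at hgap
  have f1 : ∫ x, (K x * g x) ^ 2 = ∫ x, g x ^ 2 * K x ^ 2 := by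
    congr 1; funext x; ring
  have f2 : ∫ x, g x * (K x * g x) = ∫ x, g x ^ 2 * K x := by
    congr 1; funext x; ring
  rw [f1, f2] at hgap
  have s2 : (√2 : ℝ) ^ 2 = 2 := Real.sq_sqrt (by norm_num)
  have g1 : ∫ x, (√2 * g x) ^ 2 * K x ^ 2 = 2 * ∫ x, g x ^ 2 * K x ^ 2 := by
    rw [← integral_const_mul]; congr 1; funext x; rw [mul_pow, s2]; ring
  have g2 : ∫ x, (√2 * g x) ^ 2 * K x = 2 * ∫ x, g x ^ 2 * K x := by
    rw [← integral_const_mul]; congr 1; funext x; rw [mul_pow, s2]; ring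
  have g3 : ∫ x, (√2 * g x) ^ 2 * ‖m x‖ ^ 2 = 2 * ∫ x, g x ^ 2 * ‖m x‖ ^ 2 := by
    rw [← integral_const_mul]; congr 1; funext x; rw [mul_pow, s2]; ring
  rw [g1, g2, g3]
  nlinarith [hgap]

/-- `IntHyp` from the one-body data and closeness of `U` to `√2 g` -/
theorem intHyp_of {D : ℝ} {g u U : Pos3 → ℝ} {dg du : Pos3 → Pos3} {eg eu e3 R η : ℝ}
    (hO : OneBody D g u dg du eg eu e3) (h0 : 0 ≤ η) (h1 : η ≤ 1 / 16)
    (lo : ∀ᵐ x : Pos3, ‖x‖ ≤ 3 * R → (1 - η) * (√2 * g x) ^ 2 ≤ U x ^ 2)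
    (up : ∀ᵐ x : Pos3, ‖x‖ ≤ 3 * R → U x ^ 2 ≤ (1 + η) * (√2 * g x) ^ 2)
    (tail : ∫ x in {x : Pos3 | 2 * R ≤ ‖x‖}, U x ^ 2 ≤ η) :
    IntHyp U (fun x => √2 * g x) R η (e3 - eg) where
  g0p := by linarith [hO.eg_lt, hO.eu_lt]
  η0 := h0
  η1 := h1
  u0c := hO.cg.const_mul _
  u0i := by
    have : (fun x => (√2 * g x) ^ 2) = fun x => 2 * g x ^ 2 := by
      funext x; rw [mul_pow, Real.sq_sqrt (by norm_num)]
    rw [this]
    exact hO.hg.memf.integrable_sq.const_mul 2
  u0n := by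
    have : (fun x => (√2 * g x) ^ 2) = fun x => 2 * g x ^ 2 := by
      funext x; rw [mul_pow, Real.sq_sqrt (by norm_num)]
    rw [this, integral_const_mul, hO.ng, mul_one]
  poinc := fun K m hK he => oneBody_poinc hO hK he
  lo := lo
  up := up
  tail := tail

end Crest.Agent.R335
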