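import Crest.Agent.R335.H1Defs

/-!
# Row 335: basic properties of `IsH1` (helper50)
-/

set_option autoImplicit false
set_option linter.unusedSectionVars false

open MeasureTheory Filter Topology
open scoped ContDiff ENNReal

noncomputable section

namespace Crest.Agent.R335.HF

variable {ι : Type*} [Fintype ι] [DecidableEq ι]
variable {F : Type*} [NormedAddCommGroup F] [NormedSpace ℝ F]
variable {F' : Type*} [NormedAddCommGroup F'] [NormedSpace ℝ F']

/-- components of an `L²` gradient are `L²` -/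
theorem memLp_comp {p : ℝ≥0∞} {g : E ι → Gr ι F} (hg : MemLp g p volume) (i : ι) :
    MemLp (fun x => g x i) p volume := hg.eval_piLp i

theorem memLp_of_comp {p : ℝ≥0∞} {g : E ι → Gr ι F} (hg : ∀ i, MemLp (fun x => g x i) p volume) :
    MemLp g p volume := MemLp.of_eval_piLp hg

theorem IsH1.memgi {f : E ι → F} {g : E ι → Gr ι F} (h : IsH1 f g) (i : ι) :
    MemLp (fun x => g x i) 2 volume := memLp_comp h.memg i

theorem test_deriv_cont {φ : E ι → ℝ} (hφ : ContDiff ℝ ∞ φ) (v : E ι) :
    Continuous fun x => fderiv ℝ φ x v := (hφ.continuous_fderiv (by simp)).clm_apply continuous_const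

theorem test_deriv_supp {φ : E ι → ℝ} (hφ : HasCompactSupport φ) (v : E ι) :
    HasCompactSupport fun x => fderiv ℝ φ x v := hφ.fderiv_apply (𝕜 := ℝ) v

theorem memLp_test {p : ℝ≥0∞} {φ : E ι → ℝ} (hφ : Continuous φ) (hc : HasCompactSupport φ) :
    MemLp φ p volume := hφ.memLp_of_hasCompactSupport hc

theorem integrable_test_smul {φ : E ι → ℝ} (hφ : Continuous φ) (hc : HasCompactSupport φ)
    {f : E ι → F} (hf : MemLp f 2 volume) : Integrable (fun x => φ x • f x) :=
  memLp_one_iff_integrable.1 (MemLp.smul (r := 1) hf (memLp_test (p := 2) hφ hc))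

theorem IsH1.int_left {f : E ι → F} {g : E ι → Gr ι F} (h : IsH1 f g) {φ : E ι → ℝ}
    (hφ : ContDiff ℝ ∞ φ) (hc : HasCompactSupport φ) (v : E ι) :
    Integrable (fun x => fderiv ℝ φ x v • f x) :=
  integrable_test_smul (test_deriv_cont hφ v) (test_deriv_supp hc v) h.memf

theorem IsH1.int_right {f : E ι → F} {g : E ι → Gr ι F} (h : IsH1 f g) {φ : E ι → ℝ}
    (hφ : ContDiff ℝ ∞ φ) (hc : HasCompactSupport φ) (i : ι) :
    Integrable (fun x => φ x • g x i) :=
  integrable_test_smul hφ.continuous hc (h.memgi i)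

theorem IsH1.zero : IsH1 (fun _ : E ι => (0 : F)) (fun _ => 0) where
  memf := MemLp.zero'
  memg := MemLp.zero'
  ibp := fun φ _ _ i => by simp

theorem IsH1.congr {f f' : E ι → F} {g g' : E ι → Gr ι F} (h : IsH1 f g)
    (hf : f =ᵐ[volume] f') (hg : g =ᵐ[volume] g') : IsH1 f' g' where
  memf := (memLp_congr_ae hf).1 h.memf
  memg := (memLp_congr_ae hg).1 h.memg
  ibp := fun φ h1 h2 i => by
    have e1 : ∫ x, fderiv ℝ φ x (EuclideanSpace.single i (1 : ℝ)) • f x =
        ∫ x, fderiv ℝ φ x (EuclideanSpace.single i (1 : ℝ)) • f' x :=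
      integral_congr_ae (by filter_upwards [hf] with x hx; rw [hx])
    have e2 : ∫ x, φ x • g x i = ∫ x, φ x • g' x i :=
      integral_congr_ae (by filter_upwards [hg] with x hx; rw [hx])
    rw [← e1, ← e2]
    exact h.ibp φ h1 h2 i

theorem IsH1.add {f f' : E ι → F} {g g' : E ι → Gr ι F} (h : IsH1 f g) (h' : IsH1 f' g') :
    IsH1 (fun x => f x + f' x) (fun x => g x + g' x) where
  memf := h.memf.add h'.memf
  memg := h.memg.add h'.memg
  ibp := fun φ h1 h2 i => by
    simp only [smul_add, PiLp.add_apply]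
    rw [integral_add (h.int_left h1 h2 _) (h'.int_left h1 h2 _),
      integral_add (h.int_right h1 h2 i) (h'.int_right h1 h2 i), h.ibp φ h1 h2 i, h'.ibp φ h1 h2 i]
    abel

/-- composition with a continuous linear map of the values -/
theorem IsH1.clm [CompleteSpace F] [CompleteSpace F'] {f : E ι → F} {g : E ι → Gr ι F}
    (h : IsH1 f g) (L : F →L[ℝ] F') :
    IsH1 (fun x => L (f x)) (fun x => WithLp.toLp 2 fun i => L (g x i)) where
  memf := h.memf.continuousLinearMap_comp L
  memg := memLp_of_comp fun i => (h.memgi i).continuousLinearMap_comp L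
  ibp := fun φ h1 h2 i => by
    have e1 := L.integral_comp_comm (h.int_left h1 h2 (EuclideanSpace.single i (1 : ℝ)))
    have e2 := L.integral_comp_comm (h.int_right h1 h2 i)
    simp only [map_smul] at e1 e2
    rw [e1, h.ibp φ h1 h2 i, map_neg, ← e2]

theorem IsH1.neg {f : E ι → F} {g : E ι → Gr ι F} (h : IsH1 f g) :
    IsH1 (fun x => - f x) (fun x => - g x) where
  memf := h.memf.neg
  memg := h.memg.neg
  ibp := fun φ h1 h2 i => by
    simp only [smul_neg, PiLp.neg_apply]
    rw [integral_neg, integral_neg, h.ibp φ h1 h2 i]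

theorem IsH1.sub {f f' : E ι → F} {g g' : E ι → Gr ι F} (h : IsH1 f g) (h' : IsH1 f' g') :
    IsH1 (fun x => f x - f' x) (fun x => g x - g' x) := by
  have := h.add h'.neg
  simpa only [← sub_eq_add_neg] using this

theorem IsH1.const_smul {𝕜 : Type*} [RCLike 𝕜] [NormedSpace 𝕜 F] [SMulCommClass ℝ 𝕜 F]
    {f : E ι → F} {g : E ι → Gr ι F} (h : IsH1 f g) (c : 𝕜) :
    IsH1 (fun x => c • f x) (fun x => c • g x) where
  memf := h.memf.const_smul c
  memg := h.memg.const_smul c
  ibp := fun φ h1 h2 i => by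
    have e1 : ∀ (r : ℝ) (y : F), r • c • y = c • r • y := fun r y => smul_comm r c y
    simp only [PiLp.smul_apply, e1]
    rw [integral_smul, integral_smul, h.ibp φ h1 h2 i, smul_neg]

theorem IsH1.finset_sum {α : Type*} (s : Finset α) {f : α → E ι → F} {g : α → E ι → Gr ι F}
    (h : ∀ a ∈ s, IsH1 (f a) (g a)) :
    IsH1 (fun x => ∑ a ∈ s, f a x) (fun x => ∑ a ∈ s, g a x) := by
  classical
  induction s using Finset.induction_on with
  | empty => simpa using (IsH1.zero (ι := ι) (F := F))
  | insert a s ha ih =>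
    simp only [Finset.sum_insert ha]
    exact (h a (Finset.mem_insert_self _ _)).add
      (ih fun b hb => h b (Finset.mem_insert_of_mem hb))

/-- the weak gradient is unique -/
theorem IsH1.unique [CompleteSpace F] {f : E ι → F} {g g' : E ι → Gr ι F} (h : IsH1 f g)
    (h' : IsH1 f g') : g =ᵐ[volume] g' := by
  have key : ∀ i, ∀ᵐ x, g x i - g' x i = 0 := by
    intro i
    apply ae_eq_zero_of_integral_contDiff_smul_eq_zero
    · exact ((h.memgi i).sub (h'.memgi i)).locallyIntegrable (by norm_num)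
    · intro φ h1 h2
      have e1 := h.ibp φ h1 h2 i
      have e2 := h'.ibp φ h1 h2 i
      have e3 : ∫ x, φ x • g x i = ∫ x, φ x • g' x i := by
        rw [e1] at e2; simpa using e2
      simp only [smul_sub]
      rw [integral_sub (h.int_right h1 h2 i) (h'.int_right h1 h2 i), e3, sub_self]
  have : ∀ᵐ x, ∀ i, g x i - g' x i = 0 := ae_all_iff.2 key
  filter_upwards [this] with x hx
  ext i
  exact sub_eq_zero.1 (hx i)

theorem IsH1.unique' [CompleteSpace F] {f f' : E ι → F} {g g' : E ι → Gr ι F} (h : IsH1 f g)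
    (h' : IsH1 f' g') (hf : f =ᵐ[volume] f') : g =ᵐ[volume] g' :=
  (h.congr hf (ae_eq_refl g)).unique h'

/-- integration by parts for smooth functions, one of which has compact support -/
theorem integral_ibp_smul {φ : E ι → ℝ} {f : E ι → F} (hφ : ContDiff ℝ 1 φ) (hf : ContDiff ℝ 1 f)
    (hc : HasCompactSupport φ) (v : E ι) :
    ∫ x, fderiv ℝ φ x v • f x = - ∫ x, φ x • fderiv ℝ f x v := by
  have h1 : Continuous fun x => fderiv ℝ φ x v :=
    (hφ.continuous_fderiv one_ne_zero).clm_apply continuous_const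
  have h2 : Continuous fun x => fderiv ℝ f x v :=
    (hf.continuous_fderiv one_ne_zero).clm_apply continuous_const
  have i1 : Integrable (fun x => fderiv ℝ φ x v • f x) :=
    (h1.smul hf.continuous).integrable_of_hasCompactSupport ((hc.fderiv_apply (𝕜 := ℝ) v).smul_right)
  have i2 : Integrable (fun x => φ x • fderiv ℝ f x v) :=
    (hφ.continuous.smul h2).integrable_of_hasCompactSupport hc.smul_right
  have i3 : Integrable (fun x => φ x • f x) :=
    (hφ.continuous.smul hf.continuous).integrable_of_hasCompactSupport hc.smul_right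
  have := integral_bilinear_hasLineDerivAt_right_eq_neg_left_of_integrable (μ := volume)
    (B := ContinuousLinearMap.lsmul ℝ ℝ) (f := φ) (f' := fun x => fderiv ℝ φ x v) (g := f)
    (g' := fun x => fderiv ℝ f x v) (v := v) i1 i2 i3
    (fun x _ => ((hφ.differentiable one_ne_zero) x).hasFDerivAt.hasLineDerivAt v)
    (fun x _ => ((hf.differentiable one_ne_zero) x).hasFDerivAt.hasLineDerivAt v)
  simp only [ContinuousLinearMap.lsmul_apply] at this
  rw [this, neg_neg]

theorem continuous_cgrad {f : E ι → F} (hf : ContDiff ℝ 1 f) : Continuous (cgrad f) := by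
  unfold cgrad
  refine (PiLp.continuous_toLp 2 _).comp (continuous_pi fun i => ?_)
  exact (hf.continuous_fderiv one_ne_zero).clm_apply continuous_const

theorem hasCompactSupport_cgrad {f : E ι → F} (hf : HasCompactSupport f) :
    HasCompactSupport (cgrad f) := by
  have h := hf.fderiv ℝ
  refine h.mono' ?_
  intro x hx
  by_contra hn
  apply hx
  have h0 : fderiv ℝ f x = 0 := image_eq_zero_of_notMem_tsupport hn
  ext i
  simp [cgrad, h0]

/-- classical functions: `C¹` with `f` and its gradient in `L²` -/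
theorem isH1_of_contDiff {f : E ι → F} (hf : ContDiff ℝ 1 f) (h0 : MemLp f 2 volume)
    (h1 : MemLp (cgrad f) 2 volume) : IsH1 f (cgrad f) where
  memf := h0
  memg := h1
  ibp := fun φ hφ hc i => by
    simpa using integral_ibp_smul (hφ.of_le (by simp)) hf hc (EuclideanSpace.single i (1 : ℝ))

theorem isH1_of_contDiff_compact {f : E ι → F} (hf : ContDiff ℝ 1 f) (hc : HasCompactSupport f) :
    IsH1 f (cgrad f) :=
  isH1_of_contDiff hf (hf.continuous.memLp_of_hasCompactSupport hc)
    ((continuous_cgrad hf).memLp_of_hasCompactSupport (hasCompactSupport_cgrad hc))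

/-! ### complex functions -/

theorem IsH1.conj {f : E ι → ℂ} {g : E ι → Gr ι ℂ} (h : IsH1 f g) :
    IsH1 (fun x => (starRingEnd ℂ) (f x)) (fun x => WithLp.toLp 2 fun i => (starRingEnd ℂ) (g x i)) :=
  h.clm (Complex.conjCLE : ℂ →L[ℝ] ℂ)

theorem IsH1.re {f : E ι → ℂ} {g : E ι → Gr ι ℂ} (h : IsH1 f g) :
    IsH1 (fun x => (f x).re) (fun x => WithLp.toLp 2 fun i => (g x i).re) := h.clm Complex.reCLM

theorem IsH1.im {f : E ι → ℂ} {g : E ι → Gr ι ℂ} (h : IsH1 f g) :
    IsH1 (fun x => (f x).im) (fun x => WithLp.toLp 2 fun i => (g x i).im) := h.clm Complex.imCLM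

theorem IsH1.ofReal {f : E ι → ℝ} {g : E ι → Gr ι ℝ} (h : IsH1 f g) :
    IsH1 (fun x => (f x : ℂ)) (fun x => WithLp.toLp 2 fun i => (g x i : ℂ)) := h.clm Complex.ofRealCLM

end Crest.Agent.R335.HF
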