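import Mathlib
import Crest.Prelude.Def_ThreeElectron

/-!
# Row 335: Sobolev functions `H¹` on Euclidean space (helper50)
-/

set_option autoImplicit false

open MeasureTheory Filter Topology
open scoped ContDiff ENNReal

noncomputable section

namespace Crest.Agent.R335.HF

/-- Euclidean space indexed by `ι`; `Pos3 = E (Fin 3)`, `Config3 = E (Fin 3 × Fin 3)`. -/
abbrev E (ι : Type*) := EuclideanSpace ℝ ι

/-- values of gradients of `F`-valued functions -/
abbrev Gr (ι F : Type*) := PiLp 2 (fun _ : ι => F)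

/-- the `i`-th coordinate vector -/
abbrev ee {ι : Type*} [DecidableEq ι] (i : ι) : E ι := EuclideanSpace.single i (1 : ℝ)

/-- smooth compactly supported real test functions -/
structure IsTest {ι : Type*} [Fintype ι] (φ : E ι → ℝ) : Prop where
  smooth : ContDiff ℝ ∞ φ
  supp : HasCompactSupport φ

/-- `f` is in `H¹` with weak gradient `g`. -/
structure IsH1 {ι : Type*} [Fintype ι] [DecidableEq ι] {F : Type*} [NormedAddCommGroup F]
    [NormedSpace ℝ F] (f : E ι → F) (g : E ι → Gr ι F) : Prop where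
  memf : MemLp f 2 volume
  memg : MemLp g 2 volume
  ibp : ∀ φ : E ι → ℝ, ContDiff ℝ ∞ φ → HasCompactSupport φ → ∀ i : ι,
    ∫ x, fderiv ℝ φ x (EuclideanSpace.single i (1 : ℝ)) • f x = - ∫ x, φ x • g x i

/-- the classical gradient -/
def cgrad {ι : Type*} [Fintype ι] [DecidableEq ι] {F : Type*} [NormedAddCommGroup F]
    [NormedSpace ℝ F] (f : E ι → F) (x : E ι) : Gr ι F :=
  WithLp.toLp 2 fun i => fderiv ℝ f x (EuclideanSpace.single i (1 : ℝ))

@[simp] theorem cgrad_apply {ι : Type*} [Fintype ι] [DecidableEq ι] {F : Type*}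
    [NormedAddCommGroup F] [NormedSpace ℝ F] (f : E ι → F) (x : E ι) (i : ι) :
    cgrad f x i = fderiv ℝ f x (EuclideanSpace.single i (1 : ℝ)) := rfl

end Crest.Agent.R335.HF
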