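import Mathlib

/-!
Row 335 (S0521): Sobolev library, definitions.

`WG U f g` : `g` is the weak gradient of `f` on the open set `U ⊆ ℝ^ι`, class `W^{1,1}_loc(U)`.
`H1 f g`   : `f ∈ L²(ℝ^ι)`, weak gradient `g ∈ L²`.
-/

set_option autoImplicit false

open MeasureTheory Filter Set
open scoped ENNReal Topology ContDiff

noncomputable section
namespace Crest.Agent.R335

variable {ι : Type*} [Fintype ι] [DecidableEq ι]

/-- classical partial derivative -/
def pd (i : ι) (φ : EuclideanSpace ℝ ι → ℝ) (x : EuclideanSpace ℝ ι) : ℝ :=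
  fderiv ℝ φ x (EuclideanSpace.single i (1 : ℝ))

/-- classical gradient, as a vector field -/
def gr (φ : EuclideanSpace ℝ ι → ℝ) (x : EuclideanSpace ℝ ι) : EuclideanSpace ℝ ι :=
  WithLp.toLp 2 fun i => pd i φ x

@[simp] theorem gr_apply (φ : EuclideanSpace ℝ ι → ℝ) (x : EuclideanSpace ℝ ι) (i : ι) :
    gr φ x i = pd i φ x := rfl

/-- test functions on `U` -/
structure Test (U : Set (EuclideanSpace ℝ ι)) (φ : EuclideanSpace ℝ ι → ℝ) : Prop where
  smooth : ContDiff ℝ ∞ φ
  cpt : HasCompactSupport φ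
  sub : tsupport φ ⊆ U

/-- weak gradient on `U`, class `W^{1,1}_loc(U)` -/
structure WG (U : Set (EuclideanSpace ℝ ι)) (f : EuclideanSpace ℝ ι → ℝ)
    (g : EuclideanSpace ℝ ι → EuclideanSpace ℝ ι) : Prop where
  intf : LocallyIntegrableOn f U volume
  intg : LocallyIntegrableOn g U volume
  ibp : ∀ φ, Test U φ → ∀ i, ∫ x, f x * pd i φ x = - ∫ x, g x i * φ x

/-- `H¹(ℝ^ι)` with its weak gradient -/
structure H1 (f : EuclideanSpace ℝ ι → ℝ) (g : EuclideanSpace ℝ ι → EuclideanSpace ℝ ι) :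
    Prop where
  memf : MemLp f 2 volume
  memg : MemLp g 2 volume
  wg : WG univ f g

/-- `L²_loc(U)` for real functions -/
def L2loc (U : Set (EuclideanSpace ℝ ι)) (f : EuclideanSpace ℝ ι → ℝ) : Prop :=
  ∀ K, IsCompact K → K ⊆ U → MemLp f 2 (volume.restrict K)

/-- `L²_loc(U)` for vector fields -/
def L2locV (U : Set (EuclideanSpace ℝ ι)) (f : EuclideanSpace ℝ ι → EuclideanSpace ℝ ι) : Prop :=
  ∀ K, IsCompact K → K ⊆ U → MemLp f 2 (volume.restrict K)

/-- `f` is (essentially) supported in the compact subset `K` : vanishes outside `K` -/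
def SuppIn (K : Set (EuclideanSpace ℝ ι)) (f : EuclideanSpace ℝ ι → ℝ) : Prop :=
  ∀ x, x ∉ K → f x = 0

end Crest.Agent.R335
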