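import Mathlib

/-!
Row 335 (S0521): abstract existence of minimisers (module HGap).
-/

set_option autoImplicit false
set_option linter.unusedSectionVars false
set_option linter.unusedVariables false
set_option linter.deprecated false

open Filter Set
open scoped Topology

noncomputable section
namespace Crest.Agent.R335

section Gap

variable {H : Type*} [NormedAddCommGroup H] [InnerProductSpace ℝ H]

/-- expansion of a symmetric form -/
theorem hg_form_sub {q : H →L[ℝ] H →L[ℝ] ℝ} (hq : ∀ u v, q u v = q v u) (u v : H) :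
    q (u - v) (u - v) = q u u - 2 * q u v + q v v := by
  simp only [map_sub, ContinuousLinearMap.sub_apply]
  rw [hq v u]
  ring

theorem hg_form_add {q : H →L[ℝ] H →L[ℝ] ℝ} (hq : ∀ u v, q u v = q v u) (u v : H) :
    q (u + v) (u + v) = q u u + 2 * q u v + q v v := by
  simp only [map_add, ContinuousLinearMap.add_apply]
  rw [hq v u]
  ring

/-- a nonnegative symmetric form vanishing at `u` has `u` in its kernel -/
theorem hg_form_zero {f : H →L[ℝ] H →L[ℝ] ℝ} (hf : ∀ u v, f u v = f v u) (h0 : ∀ u, 0 ≤ f u u)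
    {u : H} (hu : f u u = 0) (v : H) : f u v = 0 := by
  by_contra hne
  set a := f u v with ha
  set b := f v v with hb
  have hb0 : 0 ≤ b := h0 v
  have key : ∀ t : ℝ, 0 ≤ 2 * t * a + t ^ 2 * b := by
    intro t
    have h := h0 (u + t • v)
    rw [hg_form_add hf] at h
    simp only [map_smul, ContinuousLinearMap.smul_apply, smul_eq_mul] at h
    rw [hu, ← ha, ← hb] at h
    nlinarith
  have ha2 : 0 < a ^ 2 := by positivity
  have h1 := key (-a / (b + 1))
  have hb1 : 0 < b + 1 := by linarith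
  have e : 2 * (-a / (b + 1)) * a + (-a / (b + 1)) ^ 2 * b =
      -(a ^ 2 * (b + 2)) / (b + 1) ^ 2 := by
    field_simp
    ring
  rw [e] at h1
  have : -(a ^ 2 * (b + 2)) / (b + 1) ^ 2 < 0 := by
    apply div_neg_of_neg_of_pos
    · nlinarith
    · positivity
  linarith

/-- `q` bounded symmetric form, `n ≥ 0` bounded symmetric form, `q + C n` coercive; `q ≥ E₀ n`
sharp; `q ≥ E₁ n - K ∑ ℓ_j²` with `E₁ > E₀`, `ℓ_j` continuous.  Then `E₀` is attained. -/
theorem gap_exists {H : Type*} [NormedAddCommGroup H] [InnerProductSpace ℝ H] [CompleteSpace H]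
    {q n : H →L[ℝ] H →L[ℝ] ℝ} (hq : ∀ u v, q u v = q v u) (hn : ∀ u v, n u v = n v u)
    (hn0 : ∀ u, 0 ≤ n u u) {C c : ℝ} (hc : 0 < c)
    (hco : ∀ u, c * ‖u‖ ^ 2 ≤ q u u + C * n u u) {E₀ E₁ : ℝ} (hE : E₀ < E₁)
    (hlow : ∀ u, E₀ * n u u ≤ q u u)
    (hsharp : ∀ ε > 0, ∃ u, n u u = 1 ∧ q u u < E₀ + ε)
    {J : Type*} [Fintype J] {ℓ : J → H →L[ℝ] ℝ} {K : ℝ}
    (hgap : ∀ u, E₁ * n u u - K * ∑ j, (ℓ j u) ^ 2 ≤ q u u) :
    ∃ u, n u u = 1 ∧ q u u = E₀ ∧ ∀ v, q u v = E₀ * n u v := by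
  -- the nonnegative form
  set f : H →L[ℝ] H →L[ℝ] ℝ := q - E₀ • n with hfdef
  have hfa : ∀ u v, f u v = q u v - E₀ * n u v := by
    intro u v
    simp [hfdef]
  have hf : ∀ u v, f u v = f v u := by
    intro u v
    rw [hfa, hfa, hq u v, hn u v]
  have hf0 : ∀ u, 0 ≤ f u u := by
    intro u
    rw [hfa]
    linarith [hlow u]
  -- minimising sequence
  have hseq : ∀ k : ℕ, ∃ u, n u u = 1 ∧ q u u < E₀ + 1 / ((k : ℝ) + 1) := fun k =>
    hsharp _ (by positivity)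
  choose u hu1 huE using hseq
  have hfu : Tendsto (fun k => f (u k) (u k)) atTop (𝓝 0) := by
    refine squeeze_zero (fun k => hf0 _) (fun k => ?_)
      (tendsto_one_div_add_atTop_nhds_zero_nat (𝕜 := ℝ))
    rw [hfa, hu1 k]
    linarith [huE k]
  have hbd : ∀ k, ‖u k‖ ^ 2 ≤ (E₀ + 1 + C) / c := by
    intro k
    rw [le_div_iff₀ hc]
    have h1 := hco (u k)
    rw [hu1 k] at h1
    have h2 := huE k
    have h3 : 1 / ((k : ℝ) + 1) ≤ 1 := by
      rw [div_le_one (by positivity)]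
      have : (0 : ℝ) ≤ k := Nat.cast_nonneg k
      linarith
    linarith
  -- the values of the functionals are bounded, pass to a subsequence
  obtain ⟨a, φ, hφ, ha⟩ : ∃ (a : J → ℝ) (φ : ℕ → ℕ), StrictMono φ ∧
      Tendsto (fun k => fun j => ℓ j (u (φ k))) atTop (𝓝 a) := by
    set R := Real.sqrt ((E₀ + 1 + C) / c) with hR
    have hub : ∀ k, ‖u k‖ ≤ R := fun k => Real.le_sqrt_of_sq_le (hbd k)
    have hmem : ∀ k, (fun j => ℓ j (u k)) ∈
        Metric.closedBall (0 : J → ℝ) ((∑ j, ‖ℓ j‖) * R) := by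
      intro k
      have hR0 : 0 ≤ R := Real.sqrt_nonneg _
      rw [mem_closedBall_zero_iff, pi_norm_le_iff_of_nonneg
        (mul_nonneg (Finset.sum_nonneg fun _ _ => norm_nonneg _) hR0)]
      intro j
      calc ‖ℓ j (u k)‖ ≤ ‖ℓ j‖ * ‖u k‖ := (ℓ j).le_opNorm _
        _ ≤ (∑ j, ‖ℓ j‖) * R := by
            refine mul_le_mul ?_ (hub k) (norm_nonneg _)
              (Finset.sum_nonneg fun _ _ => norm_nonneg _)
            exact Finset.single_le_sum (f := fun j => ‖ℓ j‖) (fun _ _ => norm_nonneg _)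
              (Finset.mem_univ j)
    obtain ⟨a, -, φ, hφ, ha⟩ := (isCompact_closedBall (0 : J → ℝ)
      ((∑ j, ‖ℓ j‖) * R)).tendsto_subseq hmem
    exact ⟨a, φ, hφ, ha⟩
  set w : ℕ → H := fun k => u (φ k) with hw
  have hfw : Tendsto (fun k => f (w k) (w k)) atTop (𝓝 0) := hfu.comp hφ.tendsto_atTop
  have hℓw : ∀ j, Tendsto (fun k => ℓ j (w k)) atTop (𝓝 (a j)) := fun j =>
    (tendsto_pi_nhds.1 ha) j
  -- a bound for the squared distance
  have hdist : ∀ x y : H, c * ‖x - y‖ ^ 2 ≤ (1 + |E₀ + C| / (E₁ - E₀)) *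
      (2 * f x x + 2 * f y y) + |E₀ + C| / (E₁ - E₀) * (|K| * ∑ j, (ℓ j x - ℓ j y) ^ 2) := by
    intro x y
    have hE' : 0 < E₁ - E₀ := by linarith
    have h1 : f (x - y) (x - y) ≤ 2 * f x x + 2 * f y y := by
      have h2 := hf0 (x + y)
      rw [hg_form_add hf] at h2
      rw [hg_form_sub hf]
      linarith
    have h3 := hgap (x - y)
    have h4 := hfa (x - y) (x - y)
    have h5 := hco (x - y)
    have h6 := hn0 (x - y)
    have h7 : ∑ j, (ℓ j (x - y)) ^ 2 = ∑ j, (ℓ j x - ℓ j y) ^ 2 := by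
      simp only [map_sub]
    rw [h7] at h3
    have h8 : 0 ≤ ∑ j, (ℓ j x - ℓ j y) ^ 2 := Finset.sum_nonneg fun _ _ => sq_nonneg _
    set S := ∑ j, (ℓ j x - ℓ j y) ^ 2 with hS
    set N := n (x - y) (x - y) with hN
    set F := f (x - y) (x - y) with hF
    have h9 : (E₁ - E₀) * N ≤ F + |K| * S := by
      have : K * S ≤ |K| * S := mul_le_mul_of_nonneg_right (le_abs_self K) h8
      nlinarith
    have h10 : N ≤ (F + |K| * S) / (E₁ - E₀) := by
      rw [le_div_iff₀ hE']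
      linarith
    have h11 : (E₀ + C) * N ≤ |E₀ + C| * ((F + |K| * S) / (E₁ - E₀)) :=
      (mul_le_mul_of_nonneg_right (le_abs_self _) h6).trans
        (mul_le_mul_of_nonneg_left h10 (abs_nonneg _))
    have h12 : c * ‖x - y‖ ^ 2 ≤ F + |E₀ + C| * ((F + |K| * S) / (E₁ - E₀)) := by
      linarith
    have h13 : F + |E₀ + C| * ((F + |K| * S) / (E₁ - E₀)) =
        (1 + |E₀ + C| / (E₁ - E₀)) * F + |E₀ + C| / (E₁ - E₀) * (|K| * S) := by
      field_simp
      ring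
    rw [h13] at h12
    have h14 : (1 + |E₀ + C| / (E₁ - E₀)) * F ≤
        (1 + |E₀ + C| / (E₁ - E₀)) * (2 * f x x + 2 * f y y) :=
      mul_le_mul_of_nonneg_left h1 (by positivity)
    linarith
  -- the sequence is Cauchy
  have hcau : CauchySeq w := by
    have hT : Tendsto (fun p : ℕ × ℕ => (1 + |E₀ + C| / (E₁ - E₀)) *
        (2 * f (w p.1) (w p.1) + 2 * f (w p.2) (w p.2)) +
        |E₀ + C| / (E₁ - E₀) * (|K| * ∑ j, (ℓ j (w p.1) - ℓ j (w p.2)) ^ 2))
        (atTop ×ˢ atTop) (𝓝 0) := by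
      have t1 : Tendsto (fun p : ℕ × ℕ => f (w p.1) (w p.1)) (atTop ×ˢ atTop) (𝓝 0) :=
        hfw.comp tendsto_fst
      have t2 : Tendsto (fun p : ℕ × ℕ => f (w p.2) (w p.2)) (atTop ×ˢ atTop) (𝓝 0) :=
        hfw.comp tendsto_snd
      have t3 : ∀ j, Tendsto (fun p : ℕ × ℕ => (ℓ j (w p.1) - ℓ j (w p.2)) ^ 2)
          (atTop ×ˢ atTop) (𝓝 0) := by
        intro j
        have h1 : Tendsto (fun p : ℕ × ℕ => ℓ j (w p.1)) (atTop ×ˢ atTop) (𝓝 (a j)) :=
          (hℓw j).comp tendsto_fst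
        have h2 : Tendsto (fun p : ℕ × ℕ => ℓ j (w p.2)) (atTop ×ˢ atTop) (𝓝 (a j)) :=
          (hℓw j).comp tendsto_snd
        simpa using (h1.sub h2).pow 2
      have t4 : Tendsto (fun p : ℕ × ℕ => ∑ j, (ℓ j (w p.1) - ℓ j (w p.2)) ^ 2)
          (atTop ×ˢ atTop) (𝓝 0) := by
        simpa using tendsto_finsetSum Finset.univ fun j _ => t3 j
      simpa using (((t1.const_mul 2).add (t2.const_mul 2)).const_mul
        (1 + |E₀ + C| / (E₁ - E₀))).add ((t4.const_mul |K|).const_mul (|E₀ + C| / (E₁ - E₀)))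
    rw [Metric.cauchySeq_iff']
    intro ε hε
    have hpos : 0 < c * ε ^ 2 := by positivity
    have hev := hT.eventually (gt_mem_nhds hpos)
    rw [Filter.prod_atTop_atTop_eq, eventually_atTop] at hev
    obtain ⟨⟨N₁, N₂⟩, hN⟩ := hev
    refine ⟨max N₁ N₂, fun m hm => ?_⟩
    have h1 := hN (m, max N₁ N₂) ⟨le_trans (le_max_left _ _) hm, le_max_right _ _⟩
    have h2 := (hdist (w m) (w (max N₁ N₂))).trans_lt h1
    rw [dist_eq_norm]
    have h3 : ‖w m - w (max N₁ N₂)‖ ^ 2 < ε ^ 2 := lt_of_mul_lt_mul_left h2 hc.le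
    exact lt_of_pow_lt_pow_left₀ 2 hε.le h3
  obtain ⟨z, hz⟩ := cauchySeq_tendsto_of_complete hcau
  have hcont : ∀ g : H →L[ℝ] H →L[ℝ] ℝ, Tendsto (fun k => g (w k) (w k)) atTop (𝓝 (g z z)) := by
    intro g
    exact ((g.continuous.clm_apply continuous_id).tendsto z).comp hz
  have hnz : n z z = 1 := by
    refine tendsto_nhds_unique (hcont n) ?_
    simp only [hw, hu1]
    exact tendsto_const_nhds
  have hfz : f z z = 0 := tendsto_nhds_unique (hcont f) hfw
  refine ⟨z, hnz, ?_, fun v => ?_⟩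
  · have := hfa z z
    rw [hfz, hnz] at this
    linarith
  · have h1 := hg_form_zero hf hf0 hfz v
    rw [hfa] at h1
    linarith

/-- one functional: simplicity and spectral gap -/
theorem gap_simple {H : Type*} [NormedAddCommGroup H] [InnerProductSpace ℝ H] [CompleteSpace H]
    {q n : H →L[ℝ] H →L[ℝ] ℝ} (hq : ∀ u v, q u v = q v u) (hn : ∀ u v, n u v = n v u)
    (hn0 : ∀ u, 0 ≤ n u u) (hn1 : ∀ u, n u u = 0 → u = 0) {E₀ E₁ : ℝ} (hE : E₀ < E₁)
    {u : H} (hu1 : n u u = 1) (huE : ∀ v, q u v = E₀ * n u v) {ℓ : H →L[ℝ] ℝ} {K : ℝ}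
    (hgap : ∀ u, E₁ * n u u - K * (ℓ u) ^ 2 ≤ q u u) :
    ℓ u ≠ 0 ∧ ∀ v, n u v = 0 → E₁ * n v v ≤ q v v := by
  have hℓ : ℓ u ≠ 0 := by
    intro h0
    have h1 := hgap u
    rw [huE u, hu1, h0] at h1
    norm_num at h1
    linarith
  refine ⟨hℓ, fun v hv => ?_⟩
  set t := ℓ v / ℓ u with ht
  have h1 := hgap (v - t • u)
  have h2 : ℓ (v - t • u) = 0 := by
    rw [map_sub, map_smul, smul_eq_mul, ht, div_mul_cancel₀ _ hℓ, sub_self]
  rw [h2, hg_form_sub hq, hg_form_sub hn] at h1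
  simp only [map_smul, ContinuousLinearMap.smul_apply, smul_eq_mul] at h1
  rw [hq v u, hn v u, huE v, huE u, hu1, hv] at h1
  have h3 : 0 ≤ t ^ 2 * (E₁ - E₀) := mul_nonneg (sq_nonneg _) (by linarith)
  nlinarith

end Gap

end Crest.Agent.R335
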