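import Crest.Agent.R335.HDefs
import Crest.Agent.R080.Mollify

/-!
Row 335 (S0521), Sobolev library: mollification operator `mo` with values in a finite-dimensional
space, Young's inequality for `p = 1, 2`, `L^p` convergence for `p = 1, 2`.
-/

set_option autoImplicit false

open MeasureTheory Filter Set
open scoped ENNReal Topology ContDiff Convolution

noncomputable section
namespace Crest.Agent.R335
open Crest.Agent.R080 (eta eta_contDiff eta_nonneg eta_eq_zero eta_integral eta_compact
  eta_integrable lintegral_eta young_lintegral)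

variable {E : Type*} [NormedAddCommGroup E] [InnerProductSpace ℝ E] [FiniteDimensional ℝ E]
  [MeasurableSpace E] [BorelSpace E]
variable {F : Type*} [NormedAddCommGroup F] [NormedSpace ℝ F]

/-- mollification at scale `ε` -/
def mo (ε : ℝ) (g : E → F) (x : E) : F := ∫ y, (eta ε (x - y) : ℝ) • g y

theorem mo_eq_convolution (ε : ℝ) (g : E → F) :
    mo ε g = (g ⋆[(ContinuousLinearMap.lsmul ℝ ℝ : ℝ →L[ℝ] F →L[ℝ] F).flip, volume]
      (eta ε : E → ℝ)) := by
  funext x
  simp only [mo, convolution_def, ContinuousLinearMap.flip_apply, ContinuousLinearMap.lsmul_apply]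

theorem integrable_eta_smul {ε : ℝ} (hε : 0 < ε) {g : E → F} (hg : LocallyIntegrable g volume)
    (x : E) : Integrable (fun y => (eta ε (x - y) : ℝ) • g y) := by
  have hc : HasCompactSupport (fun y : E => (eta ε (x - y) : ℝ)) :=
    (eta_compact (E := E) hε).comp_homeomorph (Homeomorph.subLeft x)
  have hcont : Continuous (fun y : E => (eta ε (x - y) : ℝ)) :=
    (eta_contDiff (E := E) ε).continuous.comp (continuous_const.sub continuous_id)
  exact hg.integrable_smul_left_of_hasCompactSupport hcont hc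

theorem mo_continuous {ε : ℝ} (hε : 0 < ε) {g : E → F} (hg : LocallyIntegrable g volume) :
    Continuous (mo ε g) := by
  rw [mo_eq_convolution]
  exact (eta_compact hε).continuous_convolution_right _ hg (eta_contDiff ε).continuous

theorem mo_contDiff {ε : ℝ} (hε : 0 < ε) {f : E → ℝ} (hf : LocallyIntegrable f volume) :
    ContDiff ℝ ∞ (mo ε f) := by
  rw [mo_eq_convolution]
  exact (eta_compact hε).contDiff_convolution_right (n := ⊤) _ hf (eta_contDiff ε)

theorem mo_sub {ε : ℝ} (hε : 0 < ε) {g k : E → F} (hg : LocallyIntegrable g volume)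
    (hk : LocallyIntegrable k volume) (x : E) :
    mo ε (fun y => g y - k y) x = mo ε g x - mo ε k x := by
  simp only [mo, smul_sub]
  exact integral_sub (integrable_eta_smul hε hg x) (integrable_eta_smul hε hk x)

theorem integral_eta_sub {ε : ℝ} (hε : 0 < ε) (x : E) : ∫ y : E, eta ε (x - y) = 1 := by
  rw [integral_sub_left_eq_self (fun z : E => eta ε z) volume x]
  exact eta_integral hε

theorem integrable_eta_sub {ε : ℝ} (hε : 0 < ε) (x : E) :
    Integrable (fun y : E => eta ε (x - y)) :=
  (eta_integrable (E := E) hε).comp_sub_left x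

/-- bounds are kept -/
theorem mo_mem_Icc {ε : ℝ} (hε : 0 < ε) {f : E → ℝ} (hf : LocallyIntegrable f volume) {a b : ℝ}
    (h : ∀ x, f x ∈ Icc a b) (x : E) : mo ε f x ∈ Icc a b := by
  have h1 := integral_eta_sub (E := E) hε x
  have hi := integrable_eta_sub (E := E) hε x
  have hi2 := integrable_eta_smul hε hf x
  constructor
  · have : a = ∫ y : E, eta ε (x - y) * a := by rw [integral_mul_const, h1, one_mul]
    rw [this]
    refine integral_mono (hi.mul_const a) hi2 fun y => ?_
    exact mul_le_mul_of_nonneg_left (h y).1 (eta_nonneg hε _)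
  · have : b = ∫ y : E, eta ε (x - y) * b := by rw [integral_mul_const, h1, one_mul]
    rw [this]
    refine integral_mono hi2 (hi.mul_const b) fun y => ?_
    exact mul_le_mul_of_nonneg_left (h y).2 (eta_nonneg hε _)

/-- support -/
theorem mo_eq_zero {ε : ℝ} (hε : 0 < ε) {g : E → F} {K : Set E} (hg : ∀ y, y ∉ K → g y = 0)
    {x : E} (hx : ∀ y ∈ K, ε ≤ ‖x - y‖) : mo ε g x = 0 := by
  rw [mo]
  refine integral_eq_zero_of_ae (Eventually.of_forall fun y => ?_)
  by_cases hy : y ∈ K
  · simp [eta_eq_zero hε (hx y hy)]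
  · simp [hg y hy]

theorem enorm_mo_le {ε : ℝ} (hε : 0 < ε) (g : E → F) (x : E) :
    ‖mo ε g x‖ₑ ≤ ∫⁻ y, ENNReal.ofReal (eta ε (x - y)) * ‖g y‖ₑ := by
  refine (enorm_integral_le_lintegral_enorm _).trans (lintegral_mono fun y => ?_)
  rw [enorm_smul]
  gcongr
  rw [← ofReal_norm, Real.norm_of_nonneg (eta_nonneg hε _)]

/-- Young, `p = 1` -/
theorem lintegral_mo_le {ε : ℝ} (hε : 0 < ε) {g : E → F} (hg : AEStronglyMeasurable g volume) :
    ∫⁻ x, ‖mo ε g x‖ₑ ≤ ∫⁻ x, ‖g x‖ₑ := by
  have hk : Measurable fun x : E => ENNReal.ofReal (eta ε x) :=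
    (eta_contDiff (E := E) ε).continuous.measurable.ennreal_ofReal
  calc ∫⁻ x, ‖mo ε g x‖ₑ ≤ ∫⁻ x, ∫⁻ y, ENNReal.ofReal (eta ε (x - y)) * ‖g y‖ₑ :=
        lintegral_mono fun x => enorm_mo_le hε g x
    _ = ∫⁻ y, ∫⁻ x, ENNReal.ofReal (eta ε (x - y)) * ‖g y‖ₑ := by
        refine lintegral_lintegral_swap ?_
        exact (hk.comp measurable_sub).aemeasurable.mul
            (hg.enorm.comp_quasiMeasurePreserving Measure.quasiMeasurePreserving_snd)
    _ = ∫⁻ y, ‖g y‖ₑ := by
        refine lintegral_congr fun y => ?_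
        have hm' : Measurable fun x : E => ENNReal.ofReal (eta ε (x - y)) :=
          hk.comp (measurable_id.sub measurable_const)
        rw [lintegral_mul_const _ hm',
          lintegral_sub_right_eq_self (fun z : E => ENNReal.ofReal (eta ε z)) y,
          lintegral_eta hε, one_mul]

/-- Young, `p = 2` -/
theorem lintegral_sq_mo_le {ε : ℝ} (hε : 0 < ε) {g : E → F} (hg : AEStronglyMeasurable g volume) :
    ∫⁻ x, ‖mo ε g x‖ₑ ^ 2 ≤ ∫⁻ x, ‖g x‖ₑ ^ 2 := by
  have hk : Measurable fun x : E => ENNReal.ofReal (eta ε x) :=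
    (eta_contDiff (E := E) ε).continuous.measurable.ennreal_ofReal
  have := young_lintegral (E := E) volume hk hg.enorm
  rw [lintegral_eta hε, one_pow, one_mul] at this
  refine le_trans (lintegral_mono fun x => ?_) this
  gcongr
  exact enorm_mo_le hε g x

theorem eLpNorm_mo_le {ε : ℝ} (hε : 0 < ε) {g : E → F} (hg : AEStronglyMeasurable g volume)
    {p : ℝ≥0∞} (hp : p = 1 ∨ p = 2) : eLpNorm (mo ε g) p volume ≤ eLpNorm g p volume := by
  rcases hp with rfl | rfl
  · rw [eLpNorm_one_eq_lintegral_enorm, eLpNorm_one_eq_lintegral_enorm]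
    exact lintegral_mo_le hε hg
  · rw [eLpNorm_eq_lintegral_rpow_enorm_toReal (by norm_num) (by norm_num),
      eLpNorm_eq_lintegral_rpow_enorm_toReal (by norm_num) (by norm_num)]
    have := lintegral_sq_mo_le hε hg
    simp only [ENNReal.toReal_ofNat, ENNReal.rpow_ofNat]
    gcongr

end Crest.Agent.R335
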