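import Crest.Agent.R335.HMollA

/-!
Row 335 (S0521), Sobolev library: `L^p` convergence of mollifications for `p = 1, 2`.
-/

set_option autoImplicit false

open MeasureTheory Filter Set
open scoped ENNReal Topology ContDiff Convolution

noncomputable section
namespace Crest.Agent.R335
open Crest.Agent.R080 (eta eta_contDiff eta_nonneg eta_eq_zero eta_integral eta_compact
  eta_integrable lintegral_eta young_lintegral)

variable {E : Type*} [NormedAddCommGroup E] [InnerProductSpace ℝ E] [FiniteDimensional ℝ E]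
  [MeasurableSpace E] [BorelSpace E]
variable {F : Type*} [NormedAddCommGroup F] [NormedSpace ℝ F]

theorem norm_mo_sub_le [CompleteSpace F] {ε : ℝ} (hε : 0 < ε) {k : E → F} (hk : Continuous k)
    {η : ℝ} {x : E} (h : ∀ y, ‖x - y‖ < ε → ‖k y - k x‖ ≤ η) : ‖mo ε k x - k x‖ ≤ η := by
  have hl : LocallyIntegrable k volume := hk.locallyIntegrable
  have hi := integrable_eta_sub (E := E) hε x
  have e1 : mo ε k x - k x = ∫ y, (eta ε (x - y) : ℝ) • (k y - k x) := by
    simp only [smul_sub]
    rw [integral_sub (integrable_eta_smul hε hl x) (hi.smul_const _), integral_smul_const,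
      integral_eta_sub hε x, one_smul, mo]
  rw [e1]
  calc ‖∫ y, (eta ε (x - y) : ℝ) • (k y - k x)‖ ≤ ∫ y, eta ε (x - y) * η := by
        refine norm_integral_le_of_norm_le (hi.mul_const η) (Eventually.of_forall fun y => ?_)
        rw [norm_smul, Real.norm_of_nonneg (eta_nonneg hε _)]
        by_cases hy : ‖x - y‖ < ε
        · exact mul_le_mul_of_nonneg_left (h y hy) (eta_nonneg hε _)
        · rw [eta_eq_zero hε (not_lt.mp hy)]; simp
    _ = η := by rw [integral_mul_const, integral_eta_sub hε x, one_mul]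

theorem tendsto_eLpNorm_mo_of_compact [CompleteSpace F] {k : E → F} (hk : Continuous k)
    (hc : HasCompactSupport k) {p : ℝ≥0∞} (hp0 : p ≠ 0) (hpt : p ≠ ⊤)
    {e : ℕ → ℝ} (he : ∀ n, 0 < e n) (he0 : Tendsto e atTop (𝓝 0)) :
    Tendsto (fun n => eLpNorm (fun x => mo (e n) k x - k x) p volume) atTop (𝓝 0) := by
  set K1 : Set E := Metric.cthickening 1 (tsupport k) with hK1
  have hK1c : IsCompact K1 := hc.isCompact.cthickening
  have hMf : volume K1 < ⊤ := hK1c.measure_lt_top
  rw [ENNReal.tendsto_nhds_zero]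
  intro δ hδ
  -- choose η
  obtain ⟨η, hη, hηδ⟩ : ∃ η : ℝ, 0 < η ∧
      (volume K1) ^ (p.toReal⁻¹) * ENNReal.ofReal η ≤ δ := by
    have hA : (volume K1) ^ (p.toReal⁻¹) ≠ ⊤ :=
      ENNReal.rpow_ne_top_of_nonneg (by positivity) hMf.ne
    have ht : Tendsto (fun η : ℝ => (volume K1) ^ (p.toReal⁻¹) * ENNReal.ofReal η) (𝓝 0)
        (𝓝 ((volume K1) ^ (p.toReal⁻¹) * ENNReal.ofReal 0)) :=
      ENNReal.Tendsto.const_mul ((ENNReal.continuous_ofReal.tendsto 0)) (Or.inr hA)
    rw [ENNReal.ofReal_zero, mul_zero] at ht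
    have := (ENNReal.tendsto_nhds_zero.mp ht δ hδ)
    have h2 : ∀ᶠ η : ℝ in 𝓝[>] 0, (volume K1) ^ (p.toReal⁻¹) * ENNReal.ofReal η ≤ δ :=
      this.filter_mono nhdsWithin_le_nhds
    obtain ⟨η, h3, h4⟩ := (h2.and self_mem_nhdsWithin).exists
    exact ⟨η, h4, h3⟩
  have huc := Metric.uniformContinuous_iff.mp (hc.uniformContinuous_of_continuous hk) η hη
  obtain ⟨r, hr, hrk⟩ := huc
  have hev : ∀ᶠ n in atTop, e n < min r 1 :=
    he0.eventually_lt_const (lt_min hr one_pos)
  filter_upwards [hev] with n hn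
  have hnr : e n < r := hn.trans_le (min_le_left _ _)
  have hn1 : e n < 1 := hn.trans_le (min_le_right _ _)
  have hb : ∀ x, ‖mo (e n) k x - k x‖ ≤ η := fun x =>
    norm_mo_sub_le (he n) hk fun y hy => by
      have : dist y x < r := by
        rw [dist_eq_norm, norm_sub_rev]; exact hy.trans hnr
      have := hrk this
      rw [dist_eq_norm] at this
      exact this.le
  have hs : Function.support (fun x => mo (e n) k x - k x) ⊆ K1 := by
    intro x hx
    by_contra hxK
    apply hx
    have hkx : k x = 0 := by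
      by_contra h0
      exact hxK (Metric.self_subset_cthickening _ (subset_tsupport k h0))
    have hm : mo (e n) k x = 0 := by
      refine mo_eq_zero (he n) (K := tsupport k)
        (fun y hy => image_eq_zero_of_notMem_tsupport hy) fun y hy => ?_
      by_contra hlt
      apply hxK
      refine Metric.mem_cthickening_of_dist_le x y 1 _ hy ?_
      rw [dist_eq_norm]
      exact (not_le.mp hlt).le.trans hn1.le
    simp [hkx, hm]
  rw [← eLpNorm_restrict_eq_of_support_subset hs]
  refine (eLpNorm_le_of_ae_bound (Eventually.of_forall hb)).trans ?_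
  rw [Measure.restrict_apply_univ]
  exact hηδ

theorem tendsto_eLpNorm_mo [CompleteSpace F] {g : E → F} {p : ℝ≥0∞} (hp : p = 1 ∨ p = 2)
    (hg : MemLp g p volume) {e : ℕ → ℝ} (he : ∀ n, 0 < e n) (he0 : Tendsto e atTop (𝓝 0)) :
    Tendsto (fun n => eLpNorm (fun x => mo (e n) g x - g x) p volume) atTop (𝓝 0) := by
  have hp1 : 1 ≤ p := by rcases hp with rfl | rfl <;> norm_num
  have hpt : p ≠ ⊤ := by rcases hp with rfl | rfl <;> norm_num
  have hp0 : p ≠ 0 := (one_pos.trans_le hp1).ne'
  have hgl : LocallyIntegrable g volume := hg.locallyIntegrable hp1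
  rw [ENNReal.tendsto_nhds_zero]
  intro δ hδ
  have hδ3 : δ / 3 ≠ 0 := (ENNReal.div_pos hδ.ne' (by norm_num)).ne'
  obtain ⟨k, hkc, hkd, hkcont, hkm⟩ := hg.exists_hasCompactSupport_eLpNorm_sub_le hpt hδ3
  have hkl : LocallyIntegrable k volume := hkcont.locallyIntegrable
  have ht := ENNReal.tendsto_nhds_zero.mp
    (tendsto_eLpNorm_mo_of_compact hkcont hkc hp0 hpt he he0) (δ / 3) (pos_iff_ne_zero.mpr hδ3)
  filter_upwards [ht] with n hn
  have hme : ∀ {q : E → F}, LocallyIntegrable q volume →
      AEStronglyMeasurable (mo (e n) q) volume := fun hq =>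
    (mo_continuous (he n) hq).aestronglyMeasurable
  have hsub : LocallyIntegrable (fun y => g y - k y) volume := hgl.sub hkl
  have e1 : (fun x => mo (e n) g x - g x) =
      (mo (e n) (fun y => g y - k y) + (fun x => mo (e n) k x - k x)) + (fun x => k x - g x) := by
    funext x
    simp only [Pi.add_apply]
    rw [mo_sub (he n) hgl hkl]
    abel
  rw [e1]
  have m1 : AEStronglyMeasurable (mo (e n) (fun y => g y - k y)) volume := hme hsub
  have m2 : AEStronglyMeasurable (fun x => mo (e n) k x - k x) volume :=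
    (hme hkl).sub hkcont.aestronglyMeasurable
  have m3 : AEStronglyMeasurable (fun x => k x - g x) volume :=
    hkcont.aestronglyMeasurable.sub hg.aestronglyMeasurable
  have hgk : eLpNorm (fun y => g y - k y) p volume ≤ δ / 3 := hkd
  have hkg : eLpNorm (fun x => k x - g x) p volume ≤ δ / 3 := by
    have : (fun x => k x - g x) = -(fun y => g y - k y) := by
      funext x; simp
    rw [this, eLpNorm_neg]; exact hgk
  calc eLpNorm ((mo (e n) (fun y => g y - k y) + (fun x => mo (e n) k x - k x))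
        + (fun x => k x - g x)) p volume
      ≤ (eLpNorm (mo (e n) (fun y => g y - k y)) p volume
          + eLpNorm (fun x => mo (e n) k x - k x) p volume)
          + eLpNorm (fun x => k x - g x) p volume :=
        (eLpNorm_add_le (m1.add m2) m3 hp1).trans (by
          gcongr
          exact eLpNorm_add_le m1 m2 hp1)
    _ ≤ (δ / 3 + δ / 3) + δ / 3 := by
        gcongr
        exact (eLpNorm_mo_le (he n) (hg.aestronglyMeasurable.sub
          hkcont.aestronglyMeasurable) hp).trans hgk
    _ = δ := ENNReal.add_thirds δ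

theorem fderiv_mo {ε : ℝ} (hε : 0 < ε) {f : E → ℝ} (hf : LocallyIntegrable f volume) (x v : E) :
    fderiv ℝ (mo ε f) x v = ∫ y, fderiv ℝ (eta ε : E → ℝ) (x - y) v * f y := by
  have h1 : ContDiff ℝ 1 (eta ε : E → ℝ) := (eta_contDiff ε).of_le (by norm_cast)
  have := (eta_compact (E := E) hε).hasFDerivAt_convolution_right
    ((ContinuousLinearMap.lsmul ℝ ℝ : ℝ →L[ℝ] ℝ →L[ℝ] ℝ).flip) hf h1 x
  rw [mo_eq_convolution, this.fderiv, convolution_precompR_apply _ hf
    ((eta_compact hε).fderiv ℝ) (h1.continuous_fderiv one_ne_zero), convolution_def]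
  simp only [ContinuousLinearMap.flip_apply, ContinuousLinearMap.lsmul_apply, smul_eq_mul]

theorem contDiff_eta_sub (ε : ℝ) (x : E) : ContDiff ℝ ∞ (fun y : E => eta ε (x - y)) :=
  (eta_contDiff ε).comp (contDiff_const.sub contDiff_id)

theorem compact_eta_sub {ε : ℝ} (hε : 0 < ε) (x : E) :
    HasCompactSupport (fun y : E => (eta ε (x - y) : ℝ)) :=
  (eta_compact (E := E) hε).comp_homeomorph (Homeomorph.subLeft x)

theorem fderiv_eta_sub (ε : ℝ) (x y v : E) :
    fderiv ℝ (fun y : E => (eta ε (x - y) : ℝ)) y v = - fderiv ℝ (eta ε : E → ℝ) (x - y) v := by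
  have h1 : HasFDerivAt (eta ε : E → ℝ) (fderiv ℝ (eta ε : E → ℝ) (x - y)) (x - y) :=
    (((eta_contDiff ε).differentiable (by simp)) _).hasFDerivAt
  have h2 : HasFDerivAt (fun y : E => x - y) (-(ContinuousLinearMap.id ℝ E)) y :=
    (hasFDerivAt_id y).const_sub x
  have h3 := h1.comp y h2
  have h4 : fderiv ℝ (fun y : E => (eta ε (x - y) : ℝ)) y = _ := h3.fderiv
  rw [h4]
  simp

end Crest.Agent.R335
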