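import Crest.Agent.R335.HDefs2

/-!
Row 335 (S0521): Sobolev library, slicing `ℝ^ι = ℝ^κ × ℝ^κ'`, linear algebra and measure theory
(module HSlice, part A).
-/

set_option autoImplicit false
set_option linter.unusedSectionVars false

open MeasureTheory Filter Set
open scoped ENNReal Topology ContDiff

noncomputable section
namespace Crest.Agent.R335

variable {ι κ κ' : Type*} [Fintype ι] [DecidableEq ι] [Fintype κ] [DecidableEq κ]
  [Fintype κ'] [DecidableEq κ']

local notation "E" => EuclideanSpace ℝ ι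

/-! ### linear algebra of `jn`, `pr1`, `pr2` -/

theorem norm_sq_jn (p : ι ≃ κ ⊕ κ') (X : E) : ‖X‖ ^ 2 = ‖pr1 p X‖ ^ 2 + ‖pr2 p X‖ ^ 2 := by
  simp only [EuclideanSpace.norm_sq_eq, pr1_apply, pr2_apply]
  rw [← Equiv.sum_comp p.symm, Fintype.sum_sum_type]

theorem norm_sq_jn' (p : ι ≃ κ ⊕ κ') (x : EuclideanSpace ℝ κ) (y : EuclideanSpace ℝ κ') :
    ‖jn p x y‖ ^ 2 = ‖x‖ ^ 2 + ‖y‖ ^ 2 := by
  rw [norm_sq_jn p, pr1_jn, pr2_jn]

/-- the splitting as a continuous linear equivalence -/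
def jnE (p : ι ≃ κ ⊕ κ') : (EuclideanSpace ℝ κ × EuclideanSpace ℝ κ') ≃L[ℝ] E :=
  LinearEquiv.toContinuousLinearEquiv
    { toFun := fun q => jn p q.1 q.2
      map_add' := by
        intro a b
        ext i
        rcases h : p i with k | k <;> simp [jn_apply, h]
      map_smul' := by
        intro c a
        ext i
        rcases h : p i with k | k <;> simp [jn_apply, h]
      invFun := fun X => (pr1 p X, pr2 p X)
      left_inv := by intro q; simp
      right_inv := by intro X; simp }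

@[simp] theorem jnE_apply (p : ι ≃ κ ⊕ κ') (q : EuclideanSpace ℝ κ × EuclideanSpace ℝ κ') :
    jnE p q = jn p q.1 q.2 := rfl

@[simp] theorem jnE_symm_apply (p : ι ≃ κ ⊕ κ') (X : E) :
    (jnE p).symm X = (pr1 p X, pr2 p X) := rfl

/-- `pr1` as a continuous linear map -/
def pr1L (p : ι ≃ κ ⊕ κ') : E →L[ℝ] EuclideanSpace ℝ κ :=
  (ContinuousLinearMap.fst ℝ (EuclideanSpace ℝ κ) (EuclideanSpace ℝ κ')).comp
    ((jnE p).symm : E →L[ℝ] (EuclideanSpace ℝ κ × EuclideanSpace ℝ κ'))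

/-- `pr2` as a continuous linear map -/
def pr2L (p : ι ≃ κ ⊕ κ') : E →L[ℝ] EuclideanSpace ℝ κ' :=
  (ContinuousLinearMap.snd ℝ (EuclideanSpace ℝ κ) (EuclideanSpace ℝ κ')).comp
    ((jnE p).symm : E →L[ℝ] (EuclideanSpace ℝ κ × EuclideanSpace ℝ κ'))

@[simp] theorem pr1L_apply (p : ι ≃ κ ⊕ κ') (X : E) : pr1L p X = pr1 p X := rfl
@[simp] theorem pr2L_apply (p : ι ≃ κ ⊕ κ') (X : E) : pr2L p X = pr2 p X := rfl

/-- `x ↦ jn p x 0` as a continuous linear map -/
def in1L (p : ι ≃ κ ⊕ κ') : EuclideanSpace ℝ κ →L[ℝ] E :=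
  ((jnE p) : (EuclideanSpace ℝ κ × EuclideanSpace ℝ κ') →L[ℝ] E).comp
    (ContinuousLinearMap.inl ℝ (EuclideanSpace ℝ κ) (EuclideanSpace ℝ κ'))

/-- `y ↦ jn p 0 y` as a continuous linear map -/
def in2L (p : ι ≃ κ ⊕ κ') : EuclideanSpace ℝ κ' →L[ℝ] E :=
  ((jnE p) : (EuclideanSpace ℝ κ × EuclideanSpace ℝ κ') →L[ℝ] E).comp
    (ContinuousLinearMap.inr ℝ (EuclideanSpace ℝ κ) (EuclideanSpace ℝ κ'))

@[simp] theorem in1L_apply (p : ι ≃ κ ⊕ κ') (x : EuclideanSpace ℝ κ) :
    in1L p x = jn p x 0 := rfl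
@[simp] theorem in2L_apply (p : ι ≃ κ ⊕ κ') (y : EuclideanSpace ℝ κ') :
    in2L p y = jn p 0 y := rfl

theorem jn_add (p : ι ≃ κ ⊕ κ') (x x' : EuclideanSpace ℝ κ) (y y' : EuclideanSpace ℝ κ') :
    jn p (x + x') (y + y') = jn p x y + jn p x' y' :=
  map_add (jnE p) (x, y) (x', y')

theorem jn_eq_add (p : ι ≃ κ ⊕ κ') (x : EuclideanSpace ℝ κ) (y : EuclideanSpace ℝ κ') :
    jn p x y = in1L p x + jn p 0 y := by
  rw [in1L_apply, ← jn_add]; simp

theorem jn_eq_add' (p : ι ≃ κ ⊕ κ') (x : EuclideanSpace ℝ κ) (y : EuclideanSpace ℝ κ') :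
    jn p x y = jn p x 0 + in2L p y := by
  rw [in2L_apply, ← jn_add]; simp

theorem jn_single_left (p : ι ≃ κ ⊕ κ') (k : κ) (c : ℝ) :
    jn p (EuclideanSpace.single k c) 0 = EuclideanSpace.single (p.symm (Sum.inl k)) c := by
  ext i
  rcases h : p i with k' | k'
  · have hi : i = p.symm (Sum.inl k') := by rw [← h]; simp
    subst hi
    simp [jn_apply]
  · have hi : i = p.symm (Sum.inr k') := by rw [← h]; simp
    subst hi
    simp [jn_apply]

theorem jn_single_right (p : ι ≃ κ ⊕ κ') (k : κ') (c : ℝ) :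
    jn p 0 (EuclideanSpace.single k c) = EuclideanSpace.single (p.symm (Sum.inr k)) c := by
  ext i
  rcases h : p i with k' | k'
  · have hi : i = p.symm (Sum.inl k') := by rw [← h]; simp
    subst hi
    simp [jn_apply]
  · have hi : i = p.symm (Sum.inr k') := by rw [← h]; simp
    subst hi
    simp [jn_apply]

theorem continuous_jn (p : ι ≃ κ ⊕ κ') :
    Continuous (fun q : EuclideanSpace ℝ κ × EuclideanSpace ℝ κ' => jn p q.1 q.2) :=
  (jnE p).continuous

theorem continuous_pr1 (p : ι ≃ κ ⊕ κ') : Continuous (pr1 p : E → _) := (pr1L p).continuous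

theorem continuous_pr2 (p : ι ≃ κ ⊕ κ') : Continuous (pr2 p : E → _) := (pr2L p).continuous

/-! ### measure theory of `jn` -/

theorem measurableEmbedding_jn (p : ι ≃ κ ⊕ κ') :
    MeasurableEmbedding (fun q : EuclideanSpace ℝ κ × EuclideanSpace ℝ κ' => jn p q.1 q.2) :=
  (jnE p).toHomeomorph.measurableEmbedding

theorem measurePreserving_jn (p : ι ≃ κ ⊕ κ') :
    MeasurePreserving (fun q : EuclideanSpace ℝ κ × EuclideanSpace ℝ κ' => jn p q.1 q.2)
      (volume.prod volume) volume := by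
  have h1 : MeasurePreserving (Prod.map (@WithLp.ofLp 2 (κ → ℝ)) (@WithLp.ofLp 2 (κ' → ℝ)))
      ((volume : Measure (EuclideanSpace ℝ κ)).prod (volume : Measure (EuclideanSpace ℝ κ')))
      ((volume : Measure (κ → ℝ)).prod (volume : Measure (κ' → ℝ))) :=
    (PiLp.volume_preserving_ofLp κ).prod (PiLp.volume_preserving_ofLp κ')
  have h2 := volume_measurePreserving_sumPiEquivProdPi_symm (fun _ : κ ⊕ κ' => ℝ)
  have h3 := volume_measurePreserving_piCongrLeft (fun _ : ι => ℝ) p.symm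
  have h4 := PiLp.volume_preserving_toLp ι
  have h := h4.comp (h3.comp (h2.comp h1))
  convert! h using 1
  ext q i
  rcases hp : p i with k | k
  · have hi : i = p.symm (Sum.inl k) := by rw [← hp]; simp
    subst hi
    simp [jn_apply, MeasurableEquiv.coe_sumPiEquivProdPi_symm,
      MeasurableEquiv.coe_piCongrLeft, Equiv.piCongrLeft_apply_apply]
  · have hi : i = p.symm (Sum.inr k) := by rw [← hp]; simp
    subst hi
    simp [jn_apply, MeasurableEquiv.coe_sumPiEquivProdPi_symm,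
      MeasurableEquiv.coe_piCongrLeft, Equiv.piCongrLeft_apply_apply]

theorem integrable_jn (p : ι ≃ κ ⊕ κ') {F : Type*} [NormedAddCommGroup F]
    {f : E → F} : Integrable (fun q : EuclideanSpace ℝ κ × EuclideanSpace ℝ κ' => f (jn p q.1 q.2))
      (volume.prod volume) ↔ Integrable f :=
  (measurePreserving_jn p).integrable_comp_emb (measurableEmbedding_jn p)

theorem integral_jn (p : ι ≃ κ ⊕ κ') {F : Type*} [NormedAddCommGroup F] [NormedSpace ℝ F]
    {f : E → F} (hf : Integrable f) : ∫ X, f X = ∫ x, ∫ y, f (jn p x y) := by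
  rw [← (measurePreserving_jn p).integral_comp (measurableEmbedding_jn p)]
  exact integral_prod _ ((integrable_jn p).2 hf)

theorem integral_jn' (p : ι ≃ κ ⊕ κ') {F : Type*} [NormedAddCommGroup F] [NormedSpace ℝ F]
    {f : E → F} (hf : Integrable f) : ∫ X, f X = ∫ y, ∫ x, f (jn p x y) := by
  rw [← (measurePreserving_jn p).integral_comp (measurableEmbedding_jn p)]
  exact integral_prod_symm _ ((integrable_jn p).2 hf)

theorem aestronglyMeasurable_jn (p : ι ≃ κ ⊕ κ') {F : Type*} [TopologicalSpace F]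
    {f : E → F} (hf : AEStronglyMeasurable f volume) :
    AEStronglyMeasurable (fun q : EuclideanSpace ℝ κ × EuclideanSpace ℝ κ' => f (jn p q.1 q.2))
      (volume.prod volume) :=
  hf.comp_measurePreserving (measurePreserving_jn p)

theorem aemeasurable_jn (p : ι ≃ κ ⊕ κ') {F : Type*} [MeasurableSpace F]
    {f : E → F} (hf : AEMeasurable f volume) :
    AEMeasurable (fun q : EuclideanSpace ℝ κ × EuclideanSpace ℝ κ' => f (jn p q.1 q.2))
      (volume.prod volume) :=
  hf.comp_quasiMeasurePreserving (measurePreserving_jn p).quasiMeasurePreserving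

theorem lintegral_jn (p : ι ≃ κ ⊕ κ') {f : E → ℝ≥0∞} (hf : AEMeasurable f volume) :
    ∫⁻ X, f X = ∫⁻ x, ∫⁻ y, f (jn p x y) := by
  rw [← lintegral_prod _ (aemeasurable_jn p hf),
    ← (measurePreserving_jn p).lintegral_comp_emb (measurableEmbedding_jn p)]

theorem lintegral_jn' (p : ι ≃ κ ⊕ κ') {f : E → ℝ≥0∞} (hf : AEMeasurable f volume) :
    ∫⁻ X, f X = ∫⁻ y, ∫⁻ x, f (jn p x y) := by
  rw [← lintegral_prod_symm _ (aemeasurable_jn p hf),
    ← (measurePreserving_jn p).lintegral_comp_emb (measurableEmbedding_jn p)]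

end Crest.Agent.R335
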