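import Crest.Agent.R335.HSliceA
import Crest.Agent.R335.HMoll
import Crest.Agent.R335.HGlob

/-!
Row 335 (S0521): Sobolev library, slices of `H¹` functions (module HSlice, part B).
-/

set_option autoImplicit false
set_option linter.unusedSectionVars false

open MeasureTheory Filter Set
open scoped ENNReal Topology ContDiff

noncomputable section
namespace Crest.Agent.R335

variable {ι κ κ' : Type*} [Fintype ι] [DecidableEq ι] [Fintype κ] [DecidableEq κ]
  [Fintype κ'] [DecidableEq κ']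

local notation "E" => EuclideanSpace ℝ ι

/-! ### auxiliary facts on `L²` norms -/

theorem HS.lintegral_enorm_sq {α F : Type*} [MeasurableSpace α] [NormedAddCommGroup F]
    {μ : Measure α} (f : α → F) : ∫⁻ x, ‖f x‖ₑ ^ 2 ∂μ = (eLpNorm f 2 μ) ^ 2 := by
  rw [eLpNorm_eq_lintegral_rpow_enorm_toReal two_ne_zero ENNReal.ofNat_ne_top]
  simp only [ENNReal.toReal_ofNat, ENNReal.rpow_ofNat]
  rw [← ENNReal.rpow_ofNat, ← ENNReal.rpow_mul]
  norm_num

theorem HS.eLpNorm_two_lt_top_iff {α F : Type*} [MeasurableSpace α] [NormedAddCommGroup F]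
    {μ : Measure α} (f : α → F) : eLpNorm f 2 μ < ⊤ ↔ ∫⁻ x, ‖f x‖ₑ ^ 2 ∂μ < ⊤ := by
  rw [HS.lintegral_enorm_sq]
  constructor
  · intro h; exact ENNReal.pow_lt_top h
  · intro h
    by_contra hc
    rw [not_lt, top_le_iff] at hc
    rw [hc] at h
    simp at h

theorem HS.tendsto_zero_of_sq {β : Type*} {l : Filter β} {a : β → ℝ≥0∞}
    (h : Tendsto (fun n => a n ^ 2) l (𝓝 0)) : Tendsto a l (𝓝 0) := by
  have h1 := (ENNReal.continuous_rpow_const (y := (1 / 2 : ℝ))).tendsto 0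
  have h2 := h1.comp h
  have e : (fun n => a n) = (fun x : ℝ≥0∞ => x ^ (1 / 2 : ℝ)) ∘ (fun n => a n ^ 2) := by
    funext n
    simp only [Function.comp]
    rw [← ENNReal.rpow_ofNat, ← ENNReal.rpow_mul]
    norm_num
  rw [show (0 : ℝ≥0∞) ^ (1 / 2 : ℝ) = 0 by simp] at h2
  rw [show a = fun n => a n from rfl, e]
  exact h2

theorem HS.tendsto_sq_zero {β : Type*} {l : Filter β} {a : β → ℝ≥0∞}
    (h : Tendsto a l (𝓝 0)) : Tendsto (fun n => a n ^ 2) l (𝓝 0) := by
  have h1 := ((ENNReal.continuous_pow 2).tendsto 0).comp h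
  simpa [Function.comp_def] using h1

/-- `L¹` convergence gives a.e. convergence of a subsequence (extended nonnegative functions) -/
theorem HS.exists_subseq_ae {β : Type*} [MeasurableSpace β] {μ : Measure β} {h : ℕ → β → ℝ≥0∞}
    (hm : ∀ n, AEMeasurable (h n) μ) (hl : Tendsto (fun n => ∫⁻ x, h n x ∂μ) atTop (𝓝 0)) :
    ∃ ns : ℕ → ℕ, StrictMono ns ∧ ∀ᵐ x ∂μ, Tendsto (fun k => h (ns k) x) atTop (𝓝 0) := by
  have hev : ∀ k : ℕ, ∀ᶠ n in atTop, ∫⁻ x, h n x ∂μ < (1 / 2 : ℝ≥0∞) ^ k := by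
    intro k
    exact hl.eventually_lt_const (by
      apply ENNReal.pow_pos
      simp)
  obtain ⟨ns, hns, hlt⟩ := extraction_forall_of_eventually hev
  refine ⟨ns, hns, ?_⟩
  have hsum : ∫⁻ x, ∑' k, h (ns k) x ∂μ ≠ ⊤ := by
    rw [lintegral_tsum (fun k => hm (ns k))]
    have hle : ∑' k, ∫⁻ x, h (ns k) x ∂μ ≤ ∑' k : ℕ, (1 / 2 : ℝ≥0∞) ^ k :=
      ENNReal.tsum_le_tsum fun k => (hlt k).le
    refine (lt_of_le_of_lt hle ?_).ne
    rw [ENNReal.tsum_geometric]
    rw [ENNReal.inv_lt_top]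
    simp only [one_div]
    rw [ENNReal.one_sub_inv_two]
    simp
  have hmeas : AEMeasurable (fun x => ∑' k, h (ns k) x) μ := AEMeasurable.tsum fun k => hm (ns k)
  filter_upwards [ae_lt_top' hmeas hsum] with x hx
  exact ENNReal.tendsto_atTop_zero_of_tsum_ne_top hx.ne

/-! ### restriction of test functions to slices -/

theorem isometry_jn_left (p : ι ≃ κ ⊕ κ') (y : EuclideanSpace ℝ κ') :
    Isometry (fun x : EuclideanSpace ℝ κ => jn p x y) := by
  refine Isometry.of_dist_eq fun x x' => ?_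
  rw [dist_eq_norm, dist_eq_norm]
  have h : jn p x y - jn p x' y = jn p (x - x') 0 := by
    have := jn_add p (x - x') x' 0 y
    rw [sub_add_cancel, zero_add] at this
    rw [this]; abel
  rw [h]
  have h2 := norm_sq_jn' p (x - x') (0 : EuclideanSpace ℝ κ')
  rw [norm_zero] at h2
  have h3 : ‖jn p (x - x') (0 : EuclideanSpace ℝ κ')‖ ^ 2 = ‖x - x'‖ ^ 2 := by
    rw [h2]; ring
  exact (pow_left_inj₀ (norm_nonneg _) (norm_nonneg _) two_ne_zero).1 h3

theorem hasFDerivAt_jn_left (p : ι ≃ κ ⊕ κ') {φ : E → ℝ} (hφ : Differentiable ℝ φ)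
    (x : EuclideanSpace ℝ κ) (y : EuclideanSpace ℝ κ') :
    HasFDerivAt (fun x => φ (jn p x y)) ((fderiv ℝ φ (jn p x y)).comp (in1L p)) x := by
  have h1 : HasFDerivAt (fun x : EuclideanSpace ℝ κ => jn p x y) (in1L p) x := by
    have : (fun x : EuclideanSpace ℝ κ => jn p x y) = fun x => in1L p x + jn p 0 y := by
      funext x; exact jn_eq_add p x y
    rw [this]
    exact (in1L p).hasFDerivAt.add_const _
  exact (hφ (jn p x y)).hasFDerivAt.comp x h1

theorem pd_jn_left (p : ι ≃ κ ⊕ κ') {φ : E → ℝ} (hφ : Differentiable ℝ φ) (k : κ)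
    (x : EuclideanSpace ℝ κ) (y : EuclideanSpace ℝ κ') :
    pd k (fun x => φ (jn p x y)) x = pd (p.symm (Sum.inl k)) φ (jn p x y) := by
  unfold pd
  rw [(hasFDerivAt_jn_left p hφ x y).fderiv]
  simp [jn_single_left]

theorem gr_jn_left (p : ι ≃ κ ⊕ κ') {φ : E → ℝ} (hφ : Differentiable ℝ φ)
    (x : EuclideanSpace ℝ κ) (y : EuclideanSpace ℝ κ') :
    gr (fun x => φ (jn p x y)) x = pr1 p (gr φ (jn p x y)) := by
  ext k
  rw [gr_apply, pd_jn_left p hφ, pr1_apply, gr_apply]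

theorem Test.slice_left (p : ι ≃ κ ⊕ κ') {φ : E → ℝ} (hφ : Test univ φ)
    (y : EuclideanSpace ℝ κ') : Test univ (fun x : EuclideanSpace ℝ κ => φ (jn p x y)) where
  smooth := by
    have : (fun x : EuclideanSpace ℝ κ => jn p x y) = fun x => in1L p x + jn p 0 y := by
      funext x; exact jn_eq_add p x y
    have h1 : ContDiff ℝ ∞ (fun x : EuclideanSpace ℝ κ => jn p x y) := by
      rw [this]
      exact (in1L p).contDiff.add contDiff_const
    exact hφ.smooth.comp h1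
  cpt := hφ.cpt.comp_isClosedEmbedding (isometry_jn_left p y).isClosedEmbedding
  sub := subset_univ _

/-! ### slices of `H¹` functions -/

theorem aestronglyMeasurable_slice_left (p : ι ≃ κ ⊕ κ') {F : Type*} [TopologicalSpace F]
    {f : E → F} (hf : AEStronglyMeasurable f volume) :
    ∀ᵐ y : EuclideanSpace ℝ κ', AEStronglyMeasurable (fun x => f (jn p x y)) volume :=
  (aestronglyMeasurable_jn p hf).prodMk_right

theorem aestronglyMeasurable_slice_right (p : ι ≃ κ ⊕ κ') {F : Type*} [TopologicalSpace F]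
    {f : E → F} (hf : AEStronglyMeasurable f volume) :
    ∀ᵐ x : EuclideanSpace ℝ κ, AEStronglyMeasurable (fun y => f (jn p x y)) volume :=
  (aestronglyMeasurable_jn p hf).prodMk_left

theorem MemLp.slice_left (p : ι ≃ κ ⊕ κ') {F : Type*} [NormedAddCommGroup F]
    {f : E → F} (hf : MemLp f 2 volume) :
    ∀ᵐ y : EuclideanSpace ℝ κ', MemLp (fun x => f (jn p x y)) 2 volume := by
  have h1 : ∫⁻ X, ‖f X‖ₑ ^ 2 < ⊤ := (HS.eLpNorm_two_lt_top_iff f).1 hf.2
  have hm : AEMeasurable (fun X => ‖f X‖ₑ ^ 2) volume := hf.1.enorm.pow_const 2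
  rw [lintegral_jn' p hm] at h1
  have hm2 : AEMeasurable (fun y : EuclideanSpace ℝ κ' =>
      ∫⁻ x : EuclideanSpace ℝ κ, ‖f (jn p x y)‖ₑ ^ 2) volume :=
    (aemeasurable_jn p hm).prod_swap.lintegral_prod_right'
  filter_upwards [aestronglyMeasurable_slice_left p hf.1, ae_lt_top' hm2 h1.ne] with y h2 h3
  exact ⟨h2, (HS.eLpNorm_two_lt_top_iff _).2 h3⟩

theorem norm_pr1_le (p : ι ≃ κ ⊕ κ') (X : E) : ‖pr1 p X‖ ≤ ‖X‖ := by
  have h := norm_sq_jn p X
  exact (sq_le_sq₀ (norm_nonneg _) (norm_nonneg _)).1 (by nlinarith [sq_nonneg ‖pr2 p X‖])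

theorem norm_pr2_le (p : ι ≃ κ ⊕ κ') (X : E) : ‖pr2 p X‖ ≤ ‖X‖ := by
  have h := norm_sq_jn p X
  exact (sq_le_sq₀ (norm_nonneg _) (norm_nonneg _)).1 (by nlinarith [sq_nonneg ‖pr1 p X‖])

theorem memLp_pr1 (p : ι ≃ κ ⊕ κ') {α : Type*} [MeasurableSpace α] {μ : Measure α} {g : α → E}
    (hg : MemLp g 2 μ) : MemLp (fun x => pr1 p (g x)) 2 μ :=
  hg.of_le ((continuous_pr1 p).comp_aestronglyMeasurable hg.1)
    (Eventually.of_forall fun x => norm_pr1_le p (g x))

theorem memLp_pr2 (p : ι ≃ κ ⊕ κ') {α : Type*} [MeasurableSpace α] {μ : Measure α} {g : α → E}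
    (hg : MemLp g 2 μ) : MemLp (fun x => pr2 p (g x)) 2 μ :=
  hg.of_le ((continuous_pr2 p).comp_aestronglyMeasurable hg.1)
    (Eventually.of_forall fun x => norm_pr2_le p (g x))

/-- slices in the first group -/
theorem H1.slice_left (p : ι ≃ κ ⊕ κ') {f : E → ℝ} {g : E → E} (h : H1 f g) :
    ∀ᵐ y : EuclideanSpace ℝ κ', H1 (fun x => f (jn p x y)) (fun x => pr1 p (g (jn p x y))) := by
  obtain ⟨φ, hφ, h1, h2, -⟩ := H1.approx h
  set q : ℕ → EuclideanSpace ℝ κ' → ℝ≥0∞ := fun n y =>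
    ∫⁻ x : EuclideanSpace ℝ κ, (‖φ n (jn p x y) - f (jn p x y)‖ₑ ^ 2 +
      ‖gr (φ n) (jn p x y) - g (jn p x y)‖ₑ ^ 2) with hq
  have hφm : ∀ n, AEStronglyMeasurable (φ n) volume := fun n =>
    (hφ n).smooth.continuous.aestronglyMeasurable
  have hgm : ∀ n, AEStronglyMeasurable (gr (φ n)) volume := fun n => (H1.of_test (hφ n)).memg.1
  have hm : ∀ n, AEMeasurable (fun X => ‖φ n X - f X‖ₑ ^ 2 + ‖gr (φ n) X - g X‖ₑ ^ 2) volume :=
    fun n => ((((hφm n).sub h.memf.1).enorm).pow_const 2).add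
      ((((hgm n).sub h.memg.1).enorm).pow_const 2)
  have hqm : ∀ n, AEMeasurable (q n) volume := fun n =>
    (aemeasurable_jn p (hm n)).prod_swap.lintegral_prod_right'
  have hql : Tendsto (fun n => ∫⁻ y, q n y) atTop (𝓝 0) := by
    have e : ∀ n, ∫⁻ y, q n y = (eLpNorm (fun x => φ n x - f x) 2 volume) ^ 2 +
        (eLpNorm (fun x => gr (φ n) x - g x) 2 volume) ^ 2 := by
      intro n
      rw [hq]
      simp only
      have ha : AEMeasurable (fun X => ‖φ n X - f X‖ₑ ^ 2) volume :=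
        (((hφm n).sub h.memf.1).enorm).pow_const 2
      rw [← lintegral_jn' p (hm n), lintegral_add_left' ha,
        ← HS.lintegral_enorm_sq, ← HS.lintegral_enorm_sq]
    simp_rw [e]
    have := (HS.tendsto_sq_zero h1).add (HS.tendsto_sq_zero h2)
    simpa using this
  obtain ⟨ns, -, hae⟩ := HS.exists_subseq_ae hqm hql
  filter_upwards [hae, MemLp.slice_left p h.memf, MemLp.slice_left p h.memg] with y hy hf hg
  refine H1.of_tendsto (fn := fun k x => φ (ns k) (jn p x y))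
    (gn := fun k x => gr (fun x => φ (ns k) (jn p x y)) x)
    (fun k => H1.of_test ((hφ (ns k)).slice_left p y)) hf (memLp_pr1 p hg) ?_ ?_
  · apply HS.tendsto_zero_of_sq
    simp_rw [← HS.lintegral_enorm_sq]
    refine tendsto_of_tendsto_of_tendsto_of_le_of_le tendsto_const_nhds hy (fun _ => zero_le)
      (fun k => ?_)
    exact lintegral_mono fun x => le_self_add
  · apply HS.tendsto_zero_of_sq
    simp_rw [← HS.lintegral_enorm_sq]
    refine tendsto_of_tendsto_of_tendsto_of_le_of_le tendsto_const_nhds hy (fun _ => zero_le)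
      (fun k => ?_)
    refine lintegral_mono fun x => ?_
    simp only
    rw [gr_jn_left p ((hφ (ns k)).smooth.differentiable (by simp))]
    refine le_trans ?_ le_add_self
    gcongr
    rw [← ofReal_norm, ← ofReal_norm]
    apply ENNReal.ofReal_le_ofReal
    have : pr1 p (gr (φ (ns k)) (jn p x y)) - pr1 p (g (jn p x y)) =
        pr1 p (gr (φ (ns k)) (jn p x y) - g (jn p x y)) := by
      rw [← pr1L_apply, ← pr1L_apply, ← pr1L_apply, map_sub]
    rw [this]
    exact norm_pr1_le _ _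

/-- exchange of the two groups -/
theorem jn_comm (p : ι ≃ κ ⊕ κ') (x : EuclideanSpace ℝ κ) (y : EuclideanSpace ℝ κ') :
    jn (p.trans (Equiv.sumComm κ κ')) y x = jn p x y := by
  ext i
  rcases h : p i with k | k <;> simp [jn_apply, h]

theorem pr1_comm (p : ι ≃ κ ⊕ κ') (X : E) :
    pr1 (p.trans (Equiv.sumComm κ κ')) X = pr2 p X := by
  ext i; simp

theorem pr2_comm (p : ι ≃ κ ⊕ κ') (X : E) :
    pr2 (p.trans (Equiv.sumComm κ κ')) X = pr1 p X := by
  ext i; simp

/-- slices in the second group -/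
theorem H1.slice_right (p : ι ≃ κ ⊕ κ') {f : E → ℝ} {g : E → E} (h : H1 f g) :
    ∀ᵐ x : EuclideanSpace ℝ κ, H1 (fun y => f (jn p x y)) (fun y => pr2 p (g (jn p x y))) := by
  have := H1.slice_left (p.trans (Equiv.sumComm κ κ')) h
  simpa only [jn_comm, pr1_comm] using this

theorem Test.slice_right (p : ι ≃ κ ⊕ κ') {φ : E → ℝ} (hφ : Test univ φ)
    (x : EuclideanSpace ℝ κ) : Test univ (fun y : EuclideanSpace ℝ κ' => φ (jn p x y)) := by
  have := Test.slice_left (p.trans (Equiv.sumComm κ κ')) hφ x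
  simpa only [jn_comm] using this

theorem gr_jn_right (p : ι ≃ κ ⊕ κ') {φ : E → ℝ} (hφ : Differentiable ℝ φ)
    (x : EuclideanSpace ℝ κ) (y : EuclideanSpace ℝ κ') :
    gr (fun y => φ (jn p x y)) y = pr2 p (gr φ (jn p x y)) := by
  have := gr_jn_left (p.trans (Equiv.sumComm κ κ')) hφ y x
  simpa only [jn_comm, pr1_comm] using this

theorem pd_jn_right (p : ι ≃ κ ⊕ κ') {φ : E → ℝ} (hφ : Differentiable ℝ φ) (k : κ')
    (x : EuclideanSpace ℝ κ) (y : EuclideanSpace ℝ κ') :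
    pd k (fun y => φ (jn p x y)) y = pd (p.symm (Sum.inr k)) φ (jn p x y) := by
  have := pd_jn_left (p.trans (Equiv.sumComm κ κ')) hφ k y x
  simpa [jn_comm] using this

theorem MemLp.slice_right (p : ι ≃ κ ⊕ κ') {F : Type*} [NormedAddCommGroup F]
    {f : E → F} (hf : MemLp f 2 volume) :
    ∀ᵐ x : EuclideanSpace ℝ κ, MemLp (fun y => f (jn p x y)) 2 volume := by
  have := MemLp.slice_left (p.trans (Equiv.sumComm κ κ')) hf
  simpa only [jn_comm] using this

end Crest.Agent.R335
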