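import Crest.Agent.R335.HDefs2

/-!
Row 335 (S0521): Yukawa kernel in `ℝ³`, integrability.
-/

set_option autoImplicit false
set_option linter.unusedSectionVars false

open MeasureTheory Filter Set
open scoped ENNReal Topology ContDiff

noncomputable section
namespace Crest.Agent.R335.Yk
open Crest.Agent.R335

local notation "E3" => EuclideanSpace ℝ (Fin 3)

theorem finrank_E3 : Module.finrank ℝ E3 = 3 := by simp

theorem vol_real_ball3 : (volume : Measure E3).real (Metric.ball (0 : E3) 1) = Real.pi * 4 / 3 := by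
  rw [Measure.real, EuclideanSpace.volume_ball_fin_three]
  rw [ENNReal.ofReal_one, one_pow, one_mul, ENNReal.toReal_ofReal (by positivity)]

/-- radial integrals in `ℝ³` -/
theorem integral_norm3 (f : ℝ → ℝ) :
    ∫ x : E3, f ‖x‖ = 4 * Real.pi * ∫ y in Ioi (0 : ℝ), y ^ 2 * f y := by
  have h := MeasureTheory.integral_fun_norm_addHaar (volume : Measure E3) f
  rw [finrank_E3, vol_real_ball3] at h
  rw [h]
  simp only [smul_eq_mul, nsmul_eq_mul, Nat.cast_ofNat, Nat.add_one_sub_one]
  ring_nf

theorem integrable_norm3 {f : ℝ → ℝ} :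
    Integrable (fun x : E3 => f ‖x‖) ↔ IntegrableOn (fun y : ℝ => y ^ 2 * f y) (Ioi 0) := by
  have h := MeasureTheory.integrable_fun_norm_addHaar (volume : Measure E3) (f := f)
  rw [finrank_E3] at h
  simpa using h

theorem Yuk_nonneg (k : ℝ) (x : E3) : 0 ≤ Yuk k x := by
  unfold Yuk; positivity

theorem integrableOn_mul_exp {k : ℝ} (hk : 0 < k) :
    IntegrableOn (fun y : ℝ => y * Real.exp (-(k * y))) (Ioi 0) := by
  have h := Real.GammaIntegral_convergent (s := 2) (by norm_num)
  have := (integrableOn_Ioi_comp_mul_left_iff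
    (fun y : ℝ => Real.exp (-y) * y ^ ((2:ℝ) - 1)) 0 hk).2 (by simpa using h)
  have h2 := this.const_mul (k⁻¹)
  refine h2.congr ?_
  filter_upwards [ae_restrict_mem measurableSet_Ioi] with y hy
  have hy' : (0:ℝ) < y := hy
  have : (2:ℝ) - 1 = 1 := by norm_num
  rw [this, Real.rpow_one]
  field_simp

theorem integral_mul_exp {k : ℝ} (hk : 0 < k) :
    ∫ y in Ioi (0:ℝ), y * Real.exp (-(k * y)) = 1 / k ^ 2 := by
  have h := Real.integral_rpow_mul_exp_neg_mul_Ioi (a := 2) (r := k) (by norm_num) hk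
  have h1 : (2:ℝ) - 1 = 1 := by norm_num
  rw [h1] at h
  simp only [Real.rpow_one] at h
  rw [h, Real.Gamma_two, mul_one]
  norm_num

theorem measurable_Yuk (k : ℝ) : Measurable (Yuk k) := by
  unfold Yuk; fun_prop

theorem Yuk_integrable {k : ℝ} (hk : 0 < k) :
    Integrable (Yuk k) ∧ ∫ x, Yuk k x = 1 / k ^ 2 := by
  have key : ∀ y ∈ Ioi (0:ℝ), y ^ 2 * (Real.exp (-(k * y)) / (4 * Real.pi * y)) =
      (1 / (4 * Real.pi)) * (y * Real.exp (-(k * y))) := by
    intro y hy
    have hy' : (0:ℝ) < y := hy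
    field_simp
  constructor
  · refine (integrable_norm3 (f := fun r => Real.exp (-(k * r)) / (4 * Real.pi * r))).2 ?_
    refine (((integrableOn_mul_exp hk).const_mul (1 / (4 * Real.pi)))).congr ?_
    filter_upwards [ae_restrict_mem measurableSet_Ioi] with y hy
    exact (key y hy).symm
  · have := integral_norm3 (fun r => Real.exp (-(k * r)) / (4 * Real.pi * r))
    unfold Yuk
    rw [this, setIntegral_congr_fun measurableSet_Ioi key, integral_const_mul, integral_mul_exp hk]
    field_simp

theorem integrable_Yuk_sq {k : ℝ} (hk : 0 < k) : Integrable (fun x => Yuk k x ^ 2) := by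
  refine (integrable_norm3 (f := fun r => (Real.exp (-(k * r)) / (4 * Real.pi * r)) ^ 2)).2 ?_
  have h : IntegrableOn (fun y : ℝ => Real.exp (-(2 * k) * y)) (Ioi 0) :=
    integrableOn_exp_mul_Ioi (by linarith) 0
  refine (h.const_mul (1 / (16 * Real.pi ^ 2))).congr ?_
  filter_upwards [ae_restrict_mem measurableSet_Ioi] with y hy
  have hy' : (0:ℝ) < y := hy
  have e1 : Real.exp (-(2 * k) * y) = Real.exp (-(k * y)) ^ 2 := by
    rw [← Real.exp_nat_mul]; congr 1; push_cast; ring
  rw [e1]
  field_simp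
  ring

theorem Yuk_memLp {k : ℝ} (hk : 0 < k) : MemLp (Yuk k) 2 volume := by
  rw [memLp_two_iff_integrable_sq (measurable_Yuk k).aestronglyMeasurable]
  exact integrable_Yuk_sq hk

end Crest.Agent.R335.Yk
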