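import Crest.Agent.R335.HDefs2
import Crest.Agent.R335.HGlob2

set_option autoImplicit false
set_option linter.unusedSectionVars false

open MeasureTheory Filter Set
open scoped ENNReal Topology ContDiff

noncomputable section
namespace Crest.Agent.R335.Yk
open Crest.Agent.R335

local notation "E3" => EuclideanSpace ℝ (Fin 3)

/-- regularised radius -/
def sr (e t : ℝ) : ℝ := √(t + e)

theorem sr_pos {e t : ℝ} (he : 0 < e) (ht : 0 ≤ t) : 0 < sr e t := Real.sqrt_pos.2 (by linarith)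

theorem sr_sq {e t : ℝ} (he : 0 < e) (ht : 0 ≤ t) : sr e t ^ 2 = t + e :=
  Real.sq_sqrt (by linarith)

theorem hasDerivAt_sr {e t : ℝ} (he : 0 < e) (ht : 0 ≤ t) :
    HasDerivAt (sr e) (1 / (2 * sr e t)) t := by
  have h := ((hasDerivAt_id t).add_const e).sqrt (by simp only [id]; linarith)
  exact h

/-- profile of the regularised Yukawa kernel as a function of `t = |x|²` -/
def ph0 (k e t : ℝ) : ℝ := Real.exp (-(k * sr e t)) / (4 * Real.pi * sr e t)
def ph1 (k e t : ℝ) : ℝ := -((k * sr e t + 1) * Real.exp (-(k * sr e t))) / (8 * Real.pi * sr e t ^ 3)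
def ph2 (k e t : ℝ) : ℝ :=
  (k ^ 2 * sr e t ^ 2 + 3 * k * sr e t + 3) * Real.exp (-(k * sr e t)) / (16 * Real.pi * sr e t ^ 5)

theorem hasDerivAt_ph0 (k : ℝ) {e t : ℝ} (he : 0 < e) (ht : 0 ≤ t) :
    HasDerivAt (ph0 k e) (ph1 k e t) t := by
  have hs := hasDerivAt_sr he ht
  have hp := sr_pos he ht
  have h1 : HasDerivAt (fun t => Real.exp (-(k * sr e t)))
      (Real.exp (-(k * sr e t)) * (-(k * (1 / (2 * sr e t))))) t := ((hs.const_mul k).neg).exp
  have h2 := h1.div (hs.const_mul (4 * Real.pi)) (by positivity)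
  refine h2.congr_deriv ?_
  unfold ph1
  field_simp
  ring

theorem hasDerivAt_ph1 (k : ℝ) {e t : ℝ} (he : 0 < e) (ht : 0 ≤ t) :
    HasDerivAt (ph1 k e) (ph2 k e t) t := by
  have hs := hasDerivAt_sr he ht
  have hp := sr_pos he ht
  have h1 : HasDerivAt (fun t => Real.exp (-(k * sr e t)))
      (Real.exp (-(k * sr e t)) * (-(k * (1 / (2 * sr e t))))) t := ((hs.const_mul k).neg).exp
  have h2 := ((((hs.const_mul k).add_const 1).mul h1).neg).div
    ((hs.pow 3).const_mul (8 * Real.pi)) (by simp only [Pi.pow_apply]; positivity)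
  refine h2.congr_deriv ?_
  unfold ph2
  simp only [Pi.mul_apply, Pi.neg_apply, Pi.pow_apply]
  field_simp
  ring

theorem hasFDerivAt_normsq (x : E3) :
    HasFDerivAt (fun x : E3 => ‖x‖ ^ 2) (2 • innerSL ℝ x) x :=
  (hasStrictFDerivAt_norm_sq x).hasFDerivAt

theorem pd_comp_normsq {Φ : ℝ → ℝ} {Φ' : ℝ} {x : E3} (h : HasDerivAt Φ Φ' (‖x‖ ^ 2)) (i : Fin 3) :
    pd i (fun x => Φ (‖x‖ ^ 2)) x = 2 * x i * Φ' := by
  unfold pd
  have := (h.comp_hasFDerivAt x (hasFDerivAt_normsq x)).fderiv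
  simp only [Function.comp_def] at this
  rw [this]
  simp [EuclideanSpace.inner_single_right]
  ring

theorem pd_coord_mul {Φ : ℝ → ℝ} {Φ' : ℝ} {x : E3} (h : HasDerivAt Φ Φ' (‖x‖ ^ 2)) (i : Fin 3) :
    pd i (fun x => 2 * x i * Φ (‖x‖ ^ 2)) x = 2 * Φ (‖x‖ ^ 2) + 4 * (x i) ^ 2 * Φ' := by
  unfold pd
  have h1 := (h.comp_hasFDerivAt x (hasFDerivAt_normsq x))
  have h2 : HasFDerivAt (fun x : E3 => x i) (EuclideanSpace.proj i : E3 →L[ℝ] ℝ) x :=
    (EuclideanSpace.proj i : E3 →L[ℝ] ℝ).hasFDerivAt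
  have h3 := ((h2.const_mul 2).mul h1).fderiv
  simp only [Function.comp_def] at h3
  have h4 : (fun x : E3 => 2 * x i * Φ (‖x‖ ^ 2)) = ((fun x : E3 => 2 * x i) * fun x => Φ (‖x‖ ^ 2)) := rfl
  rw [h4, h3]
  simp [EuclideanSpace.inner_single_right]
  ring

/-- regularised Yukawa kernel -/
def Ye (k e : ℝ) (x : E3) : ℝ := ph0 k e (‖x‖ ^ 2)

/-- its source -/
def rhoe (k e : ℝ) (x : E3) : ℝ :=
  e * ((k ^ 2 * sr e (‖x‖ ^ 2) ^ 2 + 3 * k * sr e (‖x‖ ^ 2) + 3) * Real.exp (-(k * sr e (‖x‖ ^ 2))))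
    / (4 * Real.pi * sr e (‖x‖ ^ 2) ^ 5)

theorem pd_Ye (k : ℝ) {e : ℝ} (he : 0 < e) (i : Fin 3) :
    pd i (Ye k e) = fun x => 2 * x i * ph1 k e (‖x‖ ^ 2) := by
  funext x
  exact pd_comp_normsq (hasDerivAt_ph0 k he (by positivity)) i

theorem pd_pd_Ye (k : ℝ) {e : ℝ} (he : 0 < e) (i : Fin 3) (x : E3) :
    pd i (pd i (Ye k e)) x = 2 * ph1 k e (‖x‖ ^ 2) + 4 * (x i) ^ 2 * ph2 k e (‖x‖ ^ 2) := by
  rw [pd_Ye k he]
  exact pd_coord_mul (hasDerivAt_ph1 k he (by positivity)) i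

theorem lap_Ye (k : ℝ) {e : ℝ} (he : 0 < e) (x : E3) :
    - (∑ i, pd i (pd i (Ye k e)) x) + k ^ 2 * Ye k e x = rhoe k e x := by
  simp only [pd_pd_Ye k he]
  have hp := sr_pos he (t := ‖x‖ ^ 2) (by positivity)
  have hsq := sr_sq he (t := ‖x‖ ^ 2) (by positivity)
  have hx : x 0 ^ 2 + x 1 ^ 2 + x 2 ^ 2 = ‖x‖ ^ 2 := by
    rw [EuclideanSpace.real_norm_sq_eq, Fin.sum_univ_three]
  have e1 : ∑ i : Fin 3, (2 * ph1 k e (‖x‖ ^ 2) + 4 * (x i) ^ 2 * ph2 k e (‖x‖ ^ 2)) =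
      6 * ph1 k e (‖x‖ ^ 2) + 4 * (sr e (‖x‖ ^ 2) ^ 2 - e) * ph2 k e (‖x‖ ^ 2) := by
    rw [Fin.sum_univ_three, hsq, ← hx]; ring
  rw [e1]
  unfold Ye rhoe ph0 ph1 ph2
  set s := sr e (‖x‖ ^ 2)
  field_simp
  ring



theorem poly_exp_le {t : ℝ} (ht : 0 ≤ t) : (t ^ 2 + 3 * t + 3) * Real.exp (-t) ≤ 3 := by
  have h := Real.quadratic_le_exp_of_nonneg ht
  rw [Real.exp_neg]
  have hp := Real.exp_pos t
  rw [← div_eq_mul_inv, div_le_iff₀ hp]
  nlinarith [sq_nonneg t]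

theorem rhoe_nonneg {k e : ℝ} (hk : 0 < k) (he : 0 < e) (x : E3) : 0 ≤ rhoe k e x := by
  have hp := sr_pos he (t := ‖x‖ ^ 2) (by positivity)
  unfold rhoe; positivity

theorem le_sr {e : ℝ} (he : 0 < e) {y : ℝ} (_hy : 0 ≤ y) : y ≤ sr e (y ^ 2) := by
  unfold sr
  exact Real.le_sqrt_of_sq_le (by linarith)

theorem rhoe_le {k e δ : ℝ} (hk : 0 < k) (he : 0 < e) (hδ : 0 < δ) {x : E3} (hx : δ ≤ ‖x‖) :
    rhoe k e x ≤ e * (3 / (4 * Real.pi * δ ^ 5)) := by
  have hp := sr_pos he (t := ‖x‖ ^ 2) (by positivity)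
  have hs : δ ≤ sr e (‖x‖ ^ 2) := hx.trans (le_sr he (norm_nonneg x))
  unfold rhoe
  set s := sr e (‖x‖ ^ 2)
  have h1 : (k ^ 2 * s ^ 2 + 3 * k * s + 3) * Real.exp (-(k * s)) ≤ 3 := by
    have := poly_exp_le (t := k * s) (by positivity)
    calc _ = ((k * s) ^ 2 + 3 * (k * s) + 3) * Real.exp (-(k * s)) := by ring
      _ ≤ 3 := this
  calc e * ((k ^ 2 * s ^ 2 + 3 * k * s + 3) * Real.exp (-(k * s))) / (4 * Real.pi * s ^ 5)
      ≤ e * 3 / (4 * Real.pi * δ ^ 5) := by gcongr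
    _ = _ := by ring

theorem continuous_sr_sq (e : ℝ) : Continuous (fun y : ℝ => sr e (y ^ 2)) := by
  unfold sr; fun_prop

/-- radial profile of `rhoe`, times `4π` -/
def rr (k e y : ℝ) : ℝ :=
  e * ((k ^ 2 * sr e (y ^ 2) ^ 2 + 3 * k * sr e (y ^ 2) + 3) * Real.exp (-(k * sr e (y ^ 2))))
    / sr e (y ^ 2) ^ 5

def gg (k e y : ℝ) : ℝ :=
  y ^ 3 * ((k * sr e (y ^ 2) + 1) * Real.exp (-(k * sr e (y ^ 2))) / sr e (y ^ 2) ^ 3)

theorem hasDerivAt_gg (k : ℝ) {e : ℝ} (he : 0 < e) (y : ℝ) :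
    HasDerivAt (gg k e) (y ^ 2 * rr k e y -
      k ^ 2 * (y ^ 2 * Real.exp (-(k * sr e (y ^ 2))) / sr e (y ^ 2))) y := by
  have hp := sr_pos he (t := y ^ 2) (by positivity)
  have hsq := sr_sq he (t := y ^ 2) (by positivity)
  have hs : HasDerivAt (fun y : ℝ => sr e (y ^ 2)) (1 / (2 * sr e (y ^ 2)) * (2 * y)) y := by
    have := (hasDerivAt_sr he (t := y ^ 2) (by positivity)).comp y (hasDerivAt_pow 2 y)
    refine HasDerivAt.congr_deriv (f := fun y : ℝ => sr e (y ^ 2)) this ?_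
    simp
  have h1 : HasDerivAt (fun y => Real.exp (-(k * sr e (y ^ 2))))
      (Real.exp (-(k * sr e (y ^ 2))) * (-(k * (1 / (2 * sr e (y ^ 2)) * (2 * y))))) y :=
    ((hs.const_mul k).neg).exp
  have h2 := (hasDerivAt_pow 3 y).mul (((((hs.const_mul k).add_const 1).mul h1)).div
    (hs.pow 3) (by simp only [Pi.pow_apply]; positivity))
  refine h2.congr_deriv ?_
  unfold rr
  simp only [Pi.mul_apply, Pi.pow_apply, Pi.div_apply]
  set s := sr e (y ^ 2)
  have he' : e = s ^ 2 - y ^ 2 := by linarith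
  rw [he']
  field_simp
  ring

theorem continuous_rr (k : ℝ) {e : ℝ} (he : 0 < e) : Continuous (rr k e) := by
  have hs := continuous_sr_sq e
  have hp : ∀ y : ℝ, sr e (y ^ 2) ≠ 0 := fun y => (sr_pos he (by positivity)).ne'
  unfold rr
  refine Continuous.div (by fun_prop) (by fun_prop) (fun y => pow_ne_zero _ (hp y))

theorem continuous_qq (k : ℝ) {e : ℝ} (he : 0 < e) :
    Continuous (fun y : ℝ => y ^ 2 * Real.exp (-(k * sr e (y ^ 2))) / sr e (y ^ 2)) := by
  have hs := continuous_sr_sq e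
  have hp : ∀ y : ℝ, sr e (y ^ 2) ≠ 0 := fun y => (sr_pos he (by positivity)).ne'
  exact Continuous.div (by fun_prop) (by fun_prop) hp

theorem setIntegral_ball_norm3 (f : ℝ → ℝ) :
    ∫ x in Metric.ball (0 : E3) 1, f ‖x‖ = 4 * Real.pi * ∫ y in (0:ℝ)..1, y ^ 2 * f y := by
  rw [← integral_indicator Metric.isOpen_ball.measurableSet]
  have h : (fun x : E3 => (Metric.ball (0 : E3) 1).indicator (fun x => f ‖x‖) x) =
      fun x => (Iio (1:ℝ)).indicator f ‖x‖ := by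
    funext x
    by_cases hx : ‖x‖ < 1 <;> simp [indicator, hx]
  have hi := MeasureTheory.integral_fun_norm_addHaar (volume : Measure E3) ((Iio (1:ℝ)).indicator f)
  rw [show (∫ x, (Metric.ball (0 : E3) 1).indicator (fun x => f ‖x‖) x) =
    ∫ x, (Iio (1:ℝ)).indicator f ‖x‖ from congrArg _ h, hi]
  have h3 : Module.finrank ℝ E3 = 3 := by simp
  have h4 : (volume : Measure E3).real (Metric.ball (0 : E3) 1) = Real.pi * 4 / 3 := by
    rw [Measure.real, EuclideanSpace.volume_ball_fin_three]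
    rw [ENNReal.ofReal_one, one_pow, one_mul, ENNReal.toReal_ofReal (by positivity)]
  rw [h3, h4, intervalIntegral.integral_of_le zero_le_one, integral_Ioc_eq_integral_Ioo]
  have h5 : ∫ y in Ioi (0:ℝ), y ^ (3 - 1) • (Iio (1:ℝ)).indicator f y =
      ∫ y in Ioo (0:ℝ) 1, y ^ 2 * f y := by
    rw [← Ioi_inter_Iio, ← setIntegral_indicator measurableSet_Iio]
    refine setIntegral_congr_fun measurableSet_Ioi fun y hy => ?_
    by_cases h : y < 1 <;> simp [indicator, h]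
  rw [h5]
  simp only [smul_eq_mul, nsmul_eq_mul, Nat.cast_ofNat]
  ring

theorem mass_rhoe (k : ℝ) {e : ℝ} (he : 0 < e) :
    ∫ x in Metric.ball (0 : E3) 1, rhoe k e x = gg k e 1 +
      k ^ 2 * ∫ y in (0:ℝ)..1, y ^ 2 * Real.exp (-(k * sr e (y ^ 2))) / sr e (y ^ 2) := by
  have h0 : ∀ x : E3, rhoe k e x = (4 * Real.pi)⁻¹ * rr k e ‖x‖ := by
    intro x
    have hp := sr_pos he (t := ‖x‖ ^ 2) (by positivity)
    unfold rhoe rr
    field_simp
  simp only [h0]
  rw [integral_const_mul, setIntegral_ball_norm3]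
  have hc1 : Continuous fun y : ℝ => y ^ 2 * rr k e y := by
    have := continuous_rr k he; fun_prop
  have hc2 := continuous_qq k he
  have hd := intervalIntegral.integral_eq_sub_of_hasDerivAt (a := 0) (b := 1)
    (f := gg k e) (f' := fun y => y ^ 2 * rr k e y -
      k ^ 2 * (y ^ 2 * Real.exp (-(k * sr e (y ^ 2))) / sr e (y ^ 2)))
    (fun y _ => hasDerivAt_gg k he y) ((hc1.sub (hc2.const_mul _)).intervalIntegrable _ _)
  rw [intervalIntegral.integral_sub (hc1.intervalIntegrable _ _)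
    ((hc2.const_mul _).intervalIntegrable _ _), intervalIntegral.integral_const_mul] at hd
  have h00 : gg k e 0 = 0 := by simp [gg]
  rw [h00, sub_zero] at hd
  have : (4 * Real.pi)⁻¹ * (4 * Real.pi * ∫ y in (0:ℝ)..1, y ^ 2 * rr k e y) =
      ∫ y in (0:ℝ)..1, y ^ 2 * rr k e y := by
    field_simp
  rw [this]
  linarith

theorem integral_yexp {k : ℝ} :
    k ^ 2 * ∫ y in (0:ℝ)..1, y * Real.exp (-(k * y)) = 1 - (k + 1) * Real.exp (-k) := by
  have hd : ∀ y : ℝ, HasDerivAt (fun y => -((k * y + 1) * Real.exp (-(k * y))))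
      (k ^ 2 * (y * Real.exp (-(k * y)))) y := by
    intro y
    have h1 : HasDerivAt (fun y : ℝ => k * y) k y := by
      simpa using (hasDerivAt_id y).const_mul k
    have h2 : HasDerivAt (fun y : ℝ => Real.exp (-(k * y))) (Real.exp (-(k * y)) * (-k)) y :=
      h1.neg.exp
    refine ((h1.add_const 1).mul h2).neg.congr_deriv ?_
    ring
  have hc : Continuous fun y : ℝ => k ^ 2 * (y * Real.exp (-(k * y))) := by fun_prop
  have := intervalIntegral.integral_eq_sub_of_hasDerivAt (a := 0) (b := 1)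
    (fun y _ => hd y) (hc.intervalIntegrable _ _)
  rw [intervalIntegral.integral_const_mul] at this
  rw [this]
  simp
  ring

theorem tendsto_mass_rhoe {k : ℝ} (hk : 0 < k) :
    Tendsto (fun e => ∫ x in Metric.ball (0 : E3) 1, rhoe k e x) (𝓝[>] 0) (𝓝 1) := by
  have hev : ∀ᶠ e : ℝ in 𝓝[>] 0, 0 < e := self_mem_nhdsWithin
  have h1 : Tendsto (fun e => gg k e 1) (𝓝[>] 0) (𝓝 ((k + 1) * Real.exp (-k))) := by
    have hc : ContinuousAt (fun e : ℝ => gg k e 1) 0 := by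
      unfold gg sr
      have hne : ((√(1 ^ 2 + 0 : ℝ)) ^ 3) ≠ 0 := by simp
      refine ContinuousAt.mul (by fun_prop) (ContinuousAt.div (by fun_prop) (by fun_prop) hne)
    have := hc.tendsto.mono_left (nhdsWithin_le_nhds (s := Ioi 0))
    simpa [gg, sr] using this
  have h2 : Tendsto (fun e => ∫ y in (0:ℝ)..1, y ^ 2 * Real.exp (-(k * sr e (y ^ 2))) / sr e (y ^ 2))
      (𝓝[>] 0) (𝓝 (∫ y in (0:ℝ)..1, y * Real.exp (-(k * y)))) := by
    refine intervalIntegral.tendsto_integral_filter_of_dominated_convergence (fun _ => 1) ?_ ?_ ?_ ?_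
    · filter_upwards [hev] with e he
      exact (continuous_qq k he).aestronglyMeasurable
    · filter_upwards [hev] with e he
      refine Eventually.of_forall fun y hy => ?_
      rw [uIoc_of_le zero_le_one] at hy
      have hp := sr_pos he (t := y ^ 2) (by positivity)
      have hle := le_sr he hy.1.le
      rw [Real.norm_of_nonneg (by positivity), div_le_one hp]
      have hex : Real.exp (-(k * sr e (y ^ 2))) ≤ 1 := by
        rw [Real.exp_le_one_iff]; nlinarith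
      nlinarith [hy.1, hy.2, Real.exp_pos (-(k * sr e (y ^ 2))), sq_nonneg y]
    · simp
    · refine Eventually.of_forall fun y hy => ?_
      rw [uIoc_of_le zero_le_one] at hy
      have hc : ContinuousAt (fun e : ℝ => y ^ 2 * Real.exp (-(k * sr e (y ^ 2))) / sr e (y ^ 2)) 0 := by
        unfold sr
        have hne : (√(y ^ 2 + 0 : ℝ)) ≠ 0 := by
          rw [add_zero, Real.sqrt_sq hy.1.le]; exact hy.1.ne'
        refine ContinuousAt.div (by fun_prop) (by fun_prop) hne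
      have := hc.tendsto.mono_left (nhdsWithin_le_nhds (s := Ioi 0))
      have hy0 : y ≠ 0 := hy.1.ne'
      have e1 : y ^ 2 * Real.exp (-(k * sr 0 (y ^ 2))) / sr 0 (y ^ 2) = y * Real.exp (-(k * y)) := by
        unfold sr
        rw [add_zero, Real.sqrt_sq hy.1.le]
        field_simp
      rwa [e1] at this
  have h3 := h1.add (h2.const_mul (k ^ 2))
  rw [integral_yexp] at h3
  have : (k + 1) * Real.exp (-k) + (1 - (k + 1) * Real.exp (-k)) = 1 := by ring
  rw [this] at h3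
  refine h3.congr' ?_
  filter_upwards [hev] with e he
  exact (mass_rhoe k he).symm

theorem continuous_rhoe (k : ℝ) {e : ℝ} (he : 0 < e) : Continuous (rhoe k e) := by
  have hs : Continuous fun x : E3 => sr e (‖x‖ ^ 2) := by unfold sr; fun_prop
  have hp : ∀ x : E3, sr e (‖x‖ ^ 2) ≠ 0 := fun x => (sr_pos he (by positivity)).ne'
  unfold rhoe
  exact Continuous.div (by fun_prop) (by fun_prop)
    (fun x => mul_ne_zero (by positivity) (pow_ne_zero _ (hp x)))

/-- `rhoe` is an approximate identity -/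
theorem tendsto_rhoe {k : ℝ} (hk : 0 < k) {w : E3 → ℝ} (hw : Integrable w)
    (hwc : ContinuousAt w 0) :
    Tendsto (fun e => ∫ x, rhoe k e x * w x) (𝓝[>] 0) (𝓝 (w 0)) := by
  have hev : ∀ᶠ e : ℝ in 𝓝[>] 0, 0 < e := self_mem_nhdsWithin
  have h := tendsto_integral_peak_smul_of_integrable_of_tendsto (μ := (volume : Measure E3))
    (x₀ := (0 : E3)) (t := Metric.ball 0 1) (φ := fun e x => rhoe k e x) (g := w) (a := w 0)
    (l := 𝓝[>] (0:ℝ)) Metric.isOpen_ball.measurableSet (Metric.ball_mem_nhds _ one_pos)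
    (measure_ball_lt_top.ne) ?_ ?_ (tendsto_mass_rhoe hk) ?_ hw hwc
  · simpa using h
  · filter_upwards [hev] with e he x
    exact rhoe_nonneg hk he x
  · intro u hu h0
    obtain ⟨δ, hδ, hb⟩ := Metric.isOpen_iff.1 hu 0 h0
    rw [Metric.tendstoUniformlyOn_iff]
    intro ε hε
    have hlim : Tendsto (fun e : ℝ => e * (3 / (4 * Real.pi * δ ^ 5))) (𝓝[>] 0) (𝓝 0) := by
      have : Tendsto (fun e : ℝ => e * (3 / (4 * Real.pi * δ ^ 5))) (𝓝 0) (𝓝 (0 * _)) :=
        tendsto_id.mul_const _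
      rw [zero_mul] at this
      exact this.mono_left nhdsWithin_le_nhds
    filter_upwards [hev, hlim.eventually (gt_mem_nhds hε)] with e he hlt x hx
    have hxn : δ ≤ ‖x‖ := by
      by_contra hcon
      exact hx (hb (by simpa using not_le.1 hcon))
    simp only [Pi.zero_apply, dist_zero_left]
    rw [Real.norm_of_nonneg (rhoe_nonneg hk he x)]
    exact (rhoe_le hk he hδ hxn).trans_lt hlt
  · filter_upwards [hev] with e he
    exact (continuous_rhoe k he).aestronglyMeasurable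

end Crest.Agent.R335.Yk
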