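import Crest.Agent.R335.HYukA
import Crest.Agent.R335.HYukB
import Crest.Agent.R335.HPre

/-!
Row 335 (S0521): Yukawa kernel in `ℝ³`: fundamental solution.
-/

set_option autoImplicit false
set_option linter.unusedSectionVars false

open MeasureTheory Filter Set
open scoped ENNReal Topology ContDiff

noncomputable section
namespace Crest.Agent.R335.Yk
open Crest.Agent.R335

local notation "E3" => EuclideanSpace ℝ (Fin 3)

/-- the operator `-Δ + k²` -/
def LL (k : ℝ) (w : E3 → ℝ) (x : E3) : ℝ := -(∑ i, pd i (pd i w) x) + k ^ 2 * w x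

theorem contDiff_Ye (k : ℝ) {e : ℝ} (he : 0 < e) : ContDiff ℝ ∞ (Ye k e) := by
  have hp : ∀ x : E3, ‖x‖ ^ 2 + e ≠ 0 := fun x => by positivity
  have hs : ContDiff ℝ ∞ (fun x : E3 => √(‖x‖ ^ 2 + e)) :=
    ContDiff.sqrt ((contDiff_norm_sq ℝ).add contDiff_const) hp
  have hq : ∀ x : E3, 4 * Real.pi * √(‖x‖ ^ 2 + e) ≠ 0 := fun x => by positivity
  show ContDiff ℝ ∞ (fun x : E3 => Real.exp (-(k * √(‖x‖ ^ 2 + e))) / (4 * Real.pi * √(‖x‖ ^ 2 + e)))
  exact ContDiff.div (Real.contDiff_exp.comp (contDiff_const.mul hs).neg) (contDiff_const.mul hs) hq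

theorem Ye_nonneg (k e : ℝ) (x : E3) : 0 ≤ Ye k e x := by
  unfold Ye ph0 sr; positivity

theorem Ye_le {k e : ℝ} (hk : 0 < k) (he : 0 < e) {x : E3} (hx : x ≠ 0) : Ye k e x ≤ Yuk k x := by
  have hx' : 0 < ‖x‖ := norm_pos_iff.2 hx
  have hle := le_sr he (norm_nonneg x)
  unfold Ye Yuk ph0
  have hex : Real.exp (-(k * sr e (‖x‖ ^ 2))) ≤ Real.exp (-(k * ‖x‖)) := by
    rw [Real.exp_le_exp]; nlinarith
  gcongr

theorem tendsto_Ye {k : ℝ} {x : E3} (hx : x ≠ 0) :
    Tendsto (fun e => Ye k e x) (𝓝[>] 0) (𝓝 (Yuk k x)) := by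
  have hx' : 0 < ‖x‖ := norm_pos_iff.2 hx
  have hc : ContinuousAt (fun e : ℝ => Ye k e x) 0 := by
    unfold Ye ph0 sr
    have hne : 4 * Real.pi * (√(‖x‖ ^ 2 + 0 : ℝ)) ≠ 0 := by positivity
    refine ContinuousAt.div (by fun_prop) (by fun_prop) hne
  have := hc.tendsto.mono_left (nhdsWithin_le_nhds (s := Ioi 0))
  have e1 : Ye k 0 x = Yuk k x := by
    unfold Ye ph0 sr Yuk
    rw [add_zero, Real.sqrt_sq hx'.le]
  rwa [e1] at this

theorem ae_ne_zero : ∀ᵐ x : E3, x ≠ 0 := by
  have : ({0} : Set E3)ᶜ ∈ ae (volume : Measure E3) := by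
    rw [mem_ae_iff, compl_compl]; exact measure_singleton 0
  filter_upwards [this] with x hx
  simpa using hx

theorem tendsto_Ye_integral {k : ℝ} (hk : 0 < k) {w : E3 → ℝ} (hw : Continuous w) {C : ℝ}
    (hC : ∀ x, |w x| ≤ C) :
    Tendsto (fun e => ∫ x, Ye k e x * w x) (𝓝[>] 0) (𝓝 (∫ x, Yuk k x * w x)) := by
  have hev : ∀ᶠ e : ℝ in 𝓝[>] 0, 0 < e := self_mem_nhdsWithin
  refine tendsto_integral_filter_of_dominated_convergence (fun x => Yuk k x * C) ?_ ?_ ?_ ?_
  · filter_upwards [hev] with e he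
    exact ((contDiff_Ye k he).continuous.mul hw).aestronglyMeasurable
  · filter_upwards [hev] with e he
    filter_upwards [ae_ne_zero] with x hx
    rw [norm_mul, Real.norm_of_nonneg (Ye_nonneg k e x), Real.norm_eq_abs]
    exact mul_le_mul (Ye_le hk he hx) (hC x) (abs_nonneg _) (Yuk_nonneg k x)
  · exact (Yuk_integrable hk).1.mul_const C
  · filter_upwards [ae_ne_zero] with x hx
    exact (tendsto_Ye hx).mul_const _

theorem test_bdd {w : E3 → ℝ} (hw : Test univ w) : ∃ C, ∀ x, |w x| ≤ C := by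
  obtain ⟨C, hC⟩ := hw.cpt.exists_bound_of_continuous hw.smooth.continuous
  exact ⟨C, fun x => by simpa using hC x⟩

theorem continuous_LL {k : ℝ} {w : E3 → ℝ} (hw : ContDiff ℝ ∞ w) : Continuous (LL k w) := by
  unfold LL
  have h : ∀ i, Continuous (pd i (pd i w)) := fun i => (contDiff_pd (contDiff_pd hw i) i).continuous
  have h2 := hw.continuous
  fun_prop

theorem test_LL {k : ℝ} {w : E3 → ℝ} (hw : Test univ w) : Test univ (LL k w) := by
  have h : ∀ i, Test univ (pd i (pd i w)) := fun i => (hw.pd i).pd i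
  have e : LL k w = fun x => (-1) * (pd 0 (pd 0 w) x + (pd 1 (pd 1 w) x + pd 2 (pd 2 w) x)) +
      k ^ 2 * w x := by
    funext x
    simp only [LL, Fin.sum_univ_three]
    ring
  rw [e]
  exact ((((h 0).add' ((h 1).add' (h 2))).const_mul' (-1))).add' (hw.const_mul' (k ^ 2))

theorem ibp2 {f w : E3 → ℝ} (hf : ContDiff ℝ ∞ f) (hw : Test univ w) (i : Fin 3) :
    ∫ x, f x * pd i (pd i w) x = ∫ x, pd i (pd i f) x * w x := by
  have h1 := (WG.of_contDiffOn isOpen_univ (f := f) (hf.of_le (by exact_mod_cast le_top)).contDiffOn).ibp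
    (pd i w) (hw.pd i) i
  have h2 := (WG.of_contDiffOn isOpen_univ (f := pd i f)
    ((contDiff_pd hf i).of_le (by exact_mod_cast le_top)).contDiffOn).ibp w hw i
  rw [h1]
  simp only [gr_apply] at h2 ⊢
  rw [h2, neg_neg]

theorem integrable_mul_test {f w : E3 → ℝ} (hf : Continuous f) (hw : Test univ w) :
    Integrable (fun x => f x * w x) :=
  (hf.mul hw.smooth.continuous).integrable_of_hasCompactSupport hw.cpt.mul_left

theorem LL_symm {k : ℝ} {f w : E3 → ℝ} (hf : ContDiff ℝ ∞ f) (hw : Test univ w) :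
    ∫ x, f x * LL k w x = ∫ x, LL k f x * w x := by
  have e1 : ∀ x, f x * LL k w x = -(∑ i, f x * pd i (pd i w) x) + k ^ 2 * (f x * w x) := by
    intro x
    simp only [LL, Fin.sum_univ_three]; ring
  have e2 : ∀ x, LL k f x * w x = -(∑ i, pd i (pd i f) x * w x) + k ^ 2 * (f x * w x) := by
    intro x
    simp only [LL, Fin.sum_univ_three]; ring
  have i1 : ∀ i ∈ (Finset.univ : Finset (Fin 3)), Integrable (fun x => f x * pd i (pd i w) x) :=
    fun i _ => integrable_mul_test hf.continuous ((hw.pd i).pd i)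
  have i2 : ∀ i ∈ (Finset.univ : Finset (Fin 3)), Integrable (fun x => pd i (pd i f) x * w x) :=
    fun i _ => integrable_mul_test (contDiff_pd (contDiff_pd hf i) i).continuous hw
  have i3 : Integrable (fun x => k ^ 2 * (f x * w x)) :=
    (integrable_mul_test hf.continuous hw).const_mul _
  have i4 : Integrable (fun x => -(∑ i, f x * pd i (pd i w) x)) := (integrable_finsetSum _ i1).neg
  have i5 : Integrable (fun x => -(∑ i, pd i (pd i f) x * w x)) := (integrable_finsetSum _ i2).neg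
  simp only [e1, e2]
  rw [integral_add i4 i3, integral_add i5 i3,
    integral_neg, integral_neg, integral_finsetSum _ i1, integral_finsetSum _ i2]
  simp only [ibp2 hf hw]

/-- the Yukawa kernel is the fundamental solution of `-Δ + k²` -/
theorem Yuk_fund {k : ℝ} (hk : 0 < k) {w : E3 → ℝ} (hw : Test univ w) :
    ∫ x, Yuk k x * LL k w x = w 0 := by
  have hev : ∀ᶠ e : ℝ in 𝓝[>] 0, 0 < e := self_mem_nhdsWithin
  obtain ⟨C, hC⟩ := test_bdd (test_LL (k := k) hw)
  have h1 := tendsto_Ye_integral hk (continuous_LL (k := k) hw.smooth) hC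
  have h2 := tendsto_rhoe hk (hw.smooth.continuous.integrable_of_hasCompactSupport hw.cpt)
    hw.smooth.continuous.continuousAt
  refine tendsto_nhds_unique h1 (h2.congr' ?_)
  filter_upwards [hev] with e he
  rw [LL_symm (contDiff_Ye k he) hw]
  refine integral_congr_ae (Eventually.of_forall fun x => ?_)
  show rhoe k e x * w x = LL k (Ye k e) x * w x
  rw [← lap_Ye k he x]
  rfl

/-- reflection and translation of test functions -/
theorem test_refl {w : E3 → ℝ} (hw : Test univ w) (x : E3) : Test univ (fun z => w (x - z)) where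
  smooth := hw.smooth.comp (contDiff_const.sub contDiff_id)
  cpt := by
    have := hw.cpt.comp_homeomorph (Homeomorph.subLeft x)
    exact this
  sub := subset_univ _

theorem pd_refl {w : E3 → ℝ} (hw : ContDiff ℝ ∞ w) (x : E3) (i : Fin 3) (z : E3) :
    pd i (fun z => w (x - z)) z = - pd i w (x - z) := by
  unfold pd
  have h1 : HasFDerivAt (fun z : E3 => x - z) (-(ContinuousLinearMap.id ℝ E3)) z :=
    (hasFDerivAt_id z).const_sub x
  have h2 : HasFDerivAt w (fderiv ℝ w (x - z)) (x - z) :=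
    ((hw.differentiable (by simp)) (x - z)).hasFDerivAt
  have h3 := (h2.comp z h1).fderiv
  simp only [Function.comp_def] at h3
  rw [h3]
  simp

theorem pd_pd_refl {w : E3 → ℝ} (hw : ContDiff ℝ ∞ w) (x : E3) (i : Fin 3) (z : E3) :
    pd i (pd i (fun z => w (x - z))) z = pd i (pd i w) (x - z) := by
  have h : pd i (fun z => w (x - z)) = fun z => (-1) * (fun z => pd i w (x - z)) z := by
    funext z
    rw [pd_refl hw]; ring
  rw [h, pd_const_mul', pd_refl (contDiff_pd hw i)]
  · ring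
  · exact (((contDiff_pd hw i).comp (contDiff_const.sub contDiff_id)).differentiable (by simp)) z

theorem LL_refl {k : ℝ} {w : E3 → ℝ} (hw : ContDiff ℝ ∞ w) (x z : E3) :
    LL k (fun z => w (x - z)) z = LL k w (x - z) := by
  simp only [LL, pd_pd_refl hw]

theorem YukC_eq (k : ℝ) (f : E3 → ℝ) (x : E3) : YukC k f x = ∫ z, Yuk k z * f (x - z) := by
  unfold YukC
  rw [← integral_sub_left_eq_self (fun z => Yuk k z * f (x - z)) volume x]
  simp

theorem YukC_LL {k : ℝ} (hk : 0 < k) {w : E3 → ℝ} (hw : Test univ w) (x : E3) :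
    YukC k (LL k w) x = w x := by
  rw [YukC_eq]
  have h := Yuk_fund hk (test_refl hw x)
  simp only [LL_refl hw.smooth, sub_zero] at h
  exact h

end Crest.Agent.R335.Yk
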