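import Crest.Agent.R335.HYukC
import Crest.Agent.R335.HWeak

/-!
Row 335 (S0521): Yukawa potentials of test functions.
-/

set_option autoImplicit false
set_option linter.unusedSectionVars false

open MeasureTheory Filter Set
open scoped ENNReal Topology ContDiff Convolution

noncomputable section
namespace Crest.Agent.R335.Yk
open Crest.Agent.R335

local notation "E3" => EuclideanSpace ℝ (Fin 3)

theorem locInt_Yuk {k : ℝ} (hk : 0 < k) : LocallyIntegrable (Yuk k) volume :=
  (Yuk_integrable hk).1.locallyIntegrable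

theorem YukC_conv (k : ℝ) (f : E3 → ℝ) :
    YukC k f = (Yuk k) ⋆[ContinuousLinearMap.mul ℝ ℝ, volume] f := by
  funext x
  rw [YukC_eq, convolution_def]
  rfl

theorem contDiff_YukC {k : ℝ} (hk : 0 < k) {f : E3 → ℝ} (hf : Test univ f) :
    ContDiff ℝ ∞ (YukC k f) := by
  rw [YukC_conv]
  exact hf.cpt.contDiff_convolution_right _ (locInt_Yuk hk) hf.smooth

theorem pd_YukC {k : ℝ} (hk : 0 < k) {f : E3 → ℝ} (hf : Test univ f) (i : Fin 3) :
    pd i (YukC k f) = YukC k (pd i f) := by
  funext x
  have h1 := (hf.cpt.hasFDerivAt_convolution_right (ContinuousLinearMap.mul ℝ ℝ) (locInt_Yuk hk)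
    (hf.smooth.of_le (by exact_mod_cast le_top)) x).fderiv
  unfold pd
  rw [YukC_conv, h1, convolution_precompR_apply _ (locInt_Yuk hk) (hf.cpt.fderiv (𝕜 := ℝ))
    (hf.smooth.continuous_fderiv (by simp)), YukC_conv]

theorem integrable_YukC {k : ℝ} (hk : 0 < k) {f : E3 → ℝ} (hf : Integrable f) :
    Integrable (YukC k f) := by
  rw [YukC_conv]
  exact (Yuk_integrable hk).1.integrable_convolution _ hf

theorem abs_YukC_le {k : ℝ} (hk : 0 < k) {f : E3 → ℝ} {C : ℝ} (hC : ∀ x, |f x| ≤ C) (x : E3) :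
    |YukC k f x| ≤ C * (1 / k ^ 2) := by
  rw [YukC_eq, ← (Yuk_integrable hk).2, ← integral_const_mul]
  rw [← Real.norm_eq_abs]
  refine norm_integral_le_of_norm_le ((Yuk_integrable hk).1.const_mul C) ?_
  refine Eventually.of_forall fun z => ?_
  rw [norm_mul, Real.norm_of_nonneg (Yuk_nonneg k z), Real.norm_eq_abs, mul_comm]
  exact mul_le_mul_of_nonneg_right (hC _) (Yuk_nonneg k z)

theorem test_integrable {f : E3 → ℝ} (hf : Test univ f) : Integrable f :=
  hf.smooth.continuous.integrable_of_hasCompactSupport hf.cpt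

theorem memLp_YukC_test {k : ℝ} (hk : 0 < k) {f : E3 → ℝ} (hf : Test univ f) :
    MemLp (YukC k f) 2 volume := by
  have hc := (contDiff_YukC hk hf).continuous
  obtain ⟨C, hC⟩ := test_bdd hf
  rw [memLp_two_iff_integrable_sq hc.aestronglyMeasurable]
  have hi := (integrable_YukC hk (test_integrable hf)).norm.const_mul (C * (1 / k ^ 2))
  refine hi.mono' (hc.pow 2).aestronglyMeasurable (Eventually.of_forall fun x => ?_)
  have h := abs_YukC_le hk hC x
  rw [Real.norm_of_nonneg (sq_nonneg _), Real.norm_eq_abs, ← sq_abs, sq]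
  exact mul_le_mul_of_nonneg_right h (abs_nonneg _)

theorem H1_YukC_test {k : ℝ} (hk : 0 < k) {f : E3 → ℝ} (hf : Test univ f) :
    H1 (YukC k f) (gr (YukC k f)) where
  memf := memLp_YukC_test hk hf
  memg := by
    rw [memLp_piLp_iff]
    intro i
    have : (fun x => (gr (YukC k f) x) i) = YukC k (pd i f) := by
      funext x; rw [gr_apply, pd_YukC hk hf]
    rw [this]
    exact memLp_YukC_test hk (hf.pd i)
  wg := WG.of_contDiffOn isOpen_univ
    ((contDiff_YukC hk hf).of_le (by exact_mod_cast le_top)).contDiffOn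

end Crest.Agent.R335.Yk
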