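import Crest.Agent.R335.HYukD

/-!
Row 335 (S0521): Yukawa potentials of test functions, weak equation, energy bound, decay.
-/

set_option autoImplicit false
set_option linter.unusedSectionVars false

open MeasureTheory Filter Set
open scoped ENNReal Topology ContDiff Convolution

noncomputable section
namespace Crest.Agent.R335.Yk
open Crest.Agent.R335

local notation "E3" => EuclideanSpace ℝ (Fin 3)

theorem bdd_integrable {k : ℝ} (hk : 0 < k) {f : E3 → ℝ} (hf : Test univ f) (x : E3) :
    Integrable (fun z => Yuk k z * f (x - z)) := by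
  obtain ⟨C, hC⟩ := test_bdd hf
  refine ((Yuk_integrable hk).1.mul_const C).mono'
    ((measurable_Yuk k).aestronglyMeasurable.mul
      (hf.smooth.continuous.comp (continuous_const.sub continuous_id)).aestronglyMeasurable)
    (Eventually.of_forall fun z => ?_)
  rw [norm_mul, Real.norm_of_nonneg (Yuk_nonneg k z), Real.norm_eq_abs]
  exact mul_le_mul_of_nonneg_left (hC _) (Yuk_nonneg k z)

/-- `-Δ + k²` applied to the potential gives the source back -/
theorem LL_YukC {k : ℝ} (hk : 0 < k) {f : E3 → ℝ} (hf : Test univ f) (x : E3) :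
    LL k (YukC k f) x = f x := by
  rw [← YukC_LL hk hf x]
  unfold LL
  simp only [pd_YukC hk hf, pd_YukC hk (hf.pd _)]
  simp only [YukC_eq]
  have i1 : ∀ i ∈ (Finset.univ : Finset (Fin 3)),
      Integrable (fun z => Yuk k z * pd i (pd i f) (x - z)) :=
    fun i _ => bdd_integrable hk ((hf.pd i).pd i) x
  have i2 : Integrable (fun z => -(∑ i, Yuk k z * pd i (pd i f) (x - z))) :=
    (integrable_finsetSum _ i1).neg
  have i3 : Integrable (fun z => k ^ 2 * (Yuk k z * f (x - z))) :=
    (bdd_integrable hk hf x).const_mul _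
  have e1 : ∀ z, Yuk k z * (-(∑ i, pd i (pd i f) (x - z)) + k ^ 2 * f (x - z)) =
      -(∑ i, Yuk k z * pd i (pd i f) (x - z)) + k ^ 2 * (Yuk k z * f (x - z)) := by
    intro z
    simp only [Fin.sum_univ_three]; ring
  simp only [e1]
  rw [integral_add i2 i3, integral_neg, integral_finsetSum _ i1, integral_const_mul]

theorem integrable_mul_L2 {a b : E3 → ℝ} (ha : MemLp a 2 volume) (hb : MemLp b 2 volume) :
    Integrable (fun x => a x * b x) := ha.integrable_mul hb

theorem memLp_gr_coord {l : E3 → E3} (hl : MemLp l 2 volume) (i : Fin 3) :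
    MemLp (fun x => l x i) 2 volume := by
  refine hl.mono ?_ (Eventually.of_forall fun x => PiLp.norm_apply_le (l x) i)
  exact (EuclideanSpace.proj (𝕜 := ℝ) i).continuous.comp_aestronglyMeasurable
    hl.aestronglyMeasurable

theorem inner_E3 (u v : E3) : inner ℝ u v = ∑ i, u i * v i := by
  rw [PiLp.inner_apply]
  refine Finset.sum_congr rfl fun i _ => ?_
  simp [mul_comm]

/-- weak equation for test sources -/
theorem weak_test {k : ℝ} (hk : 0 < k) {f : E3 → ℝ} (hf : Test univ f) {w : E3 → ℝ} {l : E3 → E3}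
    (hw : H1 w l) :
    (∫ x, inner ℝ (gr (YukC k f) x) (l x)) + k ^ 2 * ∫ x, YukC k f x * w x = ∫ x, f x * w x := by
  set u := YukC k f with hu
  have hi : ∀ i, pd i u = YukC k (pd i f) := fun i => pd_YukC hk hf i
  have hH : ∀ i, H1 (pd i u) (gr (pd i u)) := by
    intro i; rw [hi i]; exact H1_YukC_test hk (hf.pd i)
  have h1 : ∀ i, ∫ x, pd i u x * l x i = - ∫ x, pd i (pd i u) x * w x := by
    intro i
    have := H1.ibp (hH i) hw i
    simpa only [gr_apply] using this
  have m1 : ∀ i, MemLp (pd i u) 2 volume := fun i => (hH i).memf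
  have m2 : ∀ i, MemLp (pd i (pd i u)) 2 volume := by
    intro i; rw [hi i, pd_YukC hk (hf.pd i)]; exact memLp_YukC_test hk ((hf.pd i).pd i)
  have m3 : MemLp u 2 volume := memLp_YukC_test hk hf
  have e1 : (∫ x, inner ℝ (gr u x) (l x)) = ∑ i, ∫ x, pd i u x * l x i := by
    simp only [inner_E3, gr_apply]
    exact integral_finsetSum _ fun i _ => integrable_mul_L2 (m1 i) (memLp_gr_coord hw.memg i)
  have e2 : ∫ x, f x * w x = -(∑ i, ∫ x, pd i (pd i u) x * w x) + k ^ 2 * ∫ x, u x * w x := by
    have i1 : ∀ i ∈ (Finset.univ : Finset (Fin 3)), Integrable (fun x => pd i (pd i u) x * w x) :=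
      fun i _ => integrable_mul_L2 (m2 i) hw.memf
    have i2 : Integrable (fun x => -(∑ i, pd i (pd i u) x * w x)) := (integrable_finsetSum _ i1).neg
    have i3 : Integrable (fun x => k ^ 2 * (u x * w x)) :=
      (integrable_mul_L2 m3 hw.memf).const_mul _
    have e3 : ∀ x, f x * w x = -(∑ i, pd i (pd i u) x * w x) + k ^ 2 * (u x * w x) := by
      intro x
      rw [← LL_YukC hk hf x, ← hu]
      simp only [LL, Fin.sum_univ_three]; ring
    simp only [e3]
    rw [integral_add i2 i3, integral_neg, integral_finsetSum _ i1, integral_const_mul]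
  rw [e1, e2]
  simp only [h1, Finset.sum_neg_distrib]

/-- energy bound for test sources -/
theorem energy_test {k : ℝ} (hk : 0 < k) {f : E3 → ℝ} (hf : Test univ f) :
    k ^ 2 * ∫ x, ‖gr (YukC k f) x‖ ^ 2 ≤ ∫ x, f x ^ 2 ∧
      k ^ 4 * ∫ x, YukC k f x ^ 2 ≤ ∫ x, f x ^ 2 := by
  have hu := H1_YukC_test hk hf
  have h := weak_test hk hf hu
  set u := YukC k f with huu
  have hfm : MemLp f 2 volume := (H1.of_test hf).memf
  have e1 : ∀ x, inner ℝ (gr u x) (gr u x) = ‖gr u x‖ ^ 2 := fun x => real_inner_self_eq_norm_sq _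
  have e2 : ∀ x, u x * u x = u x ^ 2 := fun x => by ring
  simp only [e1, e2] at h
  have i1 : Integrable (fun x => u x ^ 2) := by
    have := integrable_mul_L2 hu.memf hu.memf
    simpa only [e2] using this
  have i2 : Integrable (fun x => f x ^ 2) := by
    have := integrable_mul_L2 hfm hfm
    simpa only [← sq] using this
  have i3 : Integrable (fun x => f x * u x) := integrable_mul_L2 hfm hu.memf
  have h0 : 0 ≤ ∫ x, ‖gr u x‖ ^ 2 := integral_nonneg fun x => by positivity
  have h1 : 0 ≤ ∫ x, u x ^ 2 := integral_nonneg fun x => by positivity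
  have h2 : k ^ 2 * ∫ x, f x * u x ≤ (1 / 2) * (∫ x, f x ^ 2) + (k ^ 4 / 2) * ∫ x, u x ^ 2 := by
    rw [← integral_const_mul, ← integral_const_mul, ← integral_const_mul,
      ← integral_add (i2.const_mul _) (i1.const_mul _)]
    refine integral_mono (i3.const_mul _) ((i2.const_mul _).add (i1.const_mul _)) fun x => ?_
    have : 0 ≤ (f x - k ^ 2 * u x) ^ 2 := sq_nonneg _
    show k ^ 2 * (f x * u x) ≤ (1 / 2) * f x ^ 2 + (k ^ 4 / 2) * u x ^ 2
    nlinarith
  rw [← h] at h2
  have hf0 : 0 ≤ ∫ x, f x ^ 2 := integral_nonneg fun x => by positivity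
  have hk2 : 0 < k ^ 2 := by positivity
  have hk4 : 0 < k ^ 4 := by positivity
  have h3 : k ^ 2 * ((∫ x, ‖gr u x‖ ^ 2) + k ^ 2 * ∫ x, u x ^ 2) =
      k ^ 2 * (∫ x, ‖gr u x‖ ^ 2) + k ^ 4 * ∫ x, u x ^ 2 := by ring
  rw [h3] at h2
  have h4 : 0 ≤ k ^ 2 * ∫ x, ‖gr u x‖ ^ 2 := by positivity
  have h5 : 0 ≤ k ^ 4 * ∫ x, u x ^ 2 := by positivity
  constructor <;> nlinarith

/-- decay of the potential of a test function -/
theorem tendsto_YukC_test {k : ℝ} (hk : 0 < k) {f : E3 → ℝ} (hf : Test univ f) :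
    Tendsto (YukC k f) (cocompact E3) (𝓝 0) := by
  obtain ⟨C, hC⟩ := test_bdd hf
  have h0 : (0 : ℝ) = ∫ _ : E3, (0 : ℝ) := by simp
  have hfun : YukC k f = fun x => ∫ z, Yuk k z * f (x - z) := funext (YukC_eq k f)
  rw [hfun, h0, ← Metric.cobounded_eq_cocompact, ← comap_norm_atTop]
  refine tendsto_integral_filter_of_dominated_convergence (fun z => Yuk k z * C) ?_ ?_ ?_ ?_
  · exact Eventually.of_forall fun x => (bdd_integrable hk hf x).aestronglyMeasurable
  · refine Eventually.of_forall fun x => Eventually.of_forall fun z => ?_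
    rw [norm_mul, Real.norm_of_nonneg (Yuk_nonneg k z), Real.norm_eq_abs]
    exact mul_le_mul_of_nonneg_left (hC _) (Yuk_nonneg k z)
  · exact (Yuk_integrable hk).1.mul_const C
  · refine Eventually.of_forall fun z => ?_
    rw [comap_norm_atTop, Metric.cobounded_eq_cocompact]
    have h1 : Tendsto f (cocompact E3) (𝓝 0) := hf.cpt.is_zero_at_infty
    have h2 : Tendsto (fun x : E3 => x - z) (cocompact E3) (cocompact E3) :=
      (Homeomorph.subRight z).isClosedEmbedding.tendsto_cocompact
    have h3 := (h1.comp h2).const_mul (Yuk k z)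
    rw [mul_zero] at h3
    exact h3

end Crest.Agent.R335.Yk
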