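import Crest.Agent.R335.HYukE
import Crest.Agent.R335.HL2

/-!
Row 335 (S0521): Yukawa potentials of `L²` functions.
-/

set_option autoImplicit false
set_option linter.unusedSectionVars false

open MeasureTheory Filter Set
open scoped ENNReal Topology ContDiff Convolution

noncomputable section
namespace Crest.Agent.R335.Yk
open Crest.Agent.R335

local notation "E3" => EuclideanSpace ℝ (Fin 3)

/-- the shifted kernel -/
theorem memLp_shift {k : ℝ} (hk : 0 < k) (x : E3) : MemLp (fun y => Yuk k (x - y)) 2 volume :=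
  (Yuk_memLp hk).comp_measurePreserving (Measure.measurePreserving_sub_left volume x)

theorem integrable_shift {k : ℝ} (hk : 0 < k) {f : E3 → ℝ} (hf : MemLp f 2 volume) (x : E3) :
    Integrable (fun y => Yuk k (x - y) * f y) :=
  integrable_mul_L2 (memLp_shift hk x) hf

theorem YukC_bound {k : ℝ} (hk : 0 < k) {f : E3 → ℝ} (hf : MemLp f 2 volume) (x : E3) :
    |YukC k f x| ≤ (∫ y, Yuk k y ^ 2) ^ (1 / 2 : ℝ) * (∫ y, f y ^ 2) ^ (1 / 2 : ℝ) := by
  have h2 : ENNReal.ofReal 2 = 2 := by norm_num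
  have h := integral_mul_norm_le_Lp_mul_Lq (μ := (volume : Measure E3)) (p := 2) (q := 2)
    Real.HolderConjugate.two_two (f := fun y => Yuk k (x - y)) (g := f)
    (by rw [h2]; exact memLp_shift hk x) (by rw [h2]; exact hf)
  have e1 : ∫ y, ‖Yuk k (x - y)‖ ^ (2:ℝ) = ∫ y, Yuk k y ^ 2 := by
    rw [← integral_sub_left_eq_self (fun y => Yuk k y ^ 2) volume x]
    refine integral_congr_ae (Eventually.of_forall fun y => ?_)
    simp
  have e2 : ∫ y, ‖f y‖ ^ (2:ℝ) = ∫ y, f y ^ 2 := by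
    refine integral_congr_ae (Eventually.of_forall fun y => ?_)
    simp
  rw [e1, e2] at h
  refine le_trans ?_ h
  unfold YukC
  rw [← Real.norm_eq_abs]
  refine (norm_integral_le_integral_norm _).trans (le_of_eq ?_)
  refine integral_congr_ae (Eventually.of_forall fun y => ?_)
  simp

theorem YukC_sub {k : ℝ} (hk : 0 < k) {f h : E3 → ℝ} (hf : MemLp f 2 volume)
    (hh : MemLp h 2 volume) (x : E3) :
    YukC k f x - YukC k h x = YukC k (fun y => f y - h y) x := by
  unfold YukC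
  rw [← integral_sub (integrable_shift hk hf x) (integrable_shift hk hh x)]
  refine integral_congr_ae (Eventually.of_forall fun y => ?_)
  ring

/-- approximation by test functions in `L²` -/
theorem exists_tests {f : E3 → ℝ} (hf : MemLp f 2 volume) : ∃ φ : ℕ → E3 → ℝ,
    (∀ n, Test univ (φ n)) ∧ Tendsto (fun n => eLpNorm (fun x => φ n x - f x) 2 volume) atTop (𝓝 0) := by
  have h : ∀ n : ℕ, ∃ φ : E3 → ℝ, Test univ φ ∧
      eLpNorm (fun x => φ x - f x) 2 volume ≤ ENNReal.ofReal (1 / ((n : ℝ) + 1)) := by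
    intro n
    obtain ⟨g, h1, h2, h3⟩ := hf.exist_eLpNorm_sub_le (by norm_num) (by norm_num)
      (ε := 1 / ((n : ℝ) + 1)) (by positivity)
    refine ⟨g, ⟨h2, h1, subset_univ _⟩, ?_⟩
    have : (fun x => g x - f x) = g - f := rfl
    rw [this, eLpNorm_sub_comm]
    exact h3
  choose φ h1 h2 using h
  refine ⟨φ, h1, ?_⟩
  have h3 : Tendsto (fun n : ℕ => ENNReal.ofReal (1 / ((n : ℝ) + 1))) atTop (𝓝 0) := by
    have := ENNReal.tendsto_ofReal (tendsto_one_div_add_atTop_nhds_zero_nat (𝕜 := ℝ))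
    simpa using this
  exact tendsto_of_tendsto_of_tendsto_of_le_of_le tendsto_const_nhds h3 (fun _ => zero_le) h2

theorem test_sub {φ ψ : E3 → ℝ} (h : Test univ φ) (h' : Test univ ψ) :
    Test univ (fun x => φ x - ψ x) := by
  have := h.add' (h'.const_mul' (-1))
  have e : (fun x => φ x - ψ x) = fun x => φ x + -1 * ψ x := by funext x; ring
  rw [e]; exact this

theorem norm_toLp_le {F G : Type*} [NormedAddCommGroup F] [InnerProductSpace ℝ F]
    [NormedAddCommGroup G] [InnerProductSpace ℝ G] {a : E3 → F} {b : E3 → G}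
    (ha : MemLp a 2 volume) (hb : MemLp b 2 volume) {c : ℝ} (hc : 0 < c)
    (h : c ^ 2 * ∫ x, ‖a x‖ ^ 2 ≤ ∫ x, ‖b x‖ ^ 2) : ‖ha.toLp a‖ ≤ c⁻¹ * ‖hb.toLp b‖ := by
  rw [← norm_toLp_sq ha, ← norm_toLp_sq hb] at h
  have h1 : c * ‖ha.toLp a‖ ≤ ‖hb.toLp b‖ := by
    refine le_of_sq_le_sq ?_ (norm_nonneg _)
    rw [mul_pow]; exact h
  rw [inv_mul_eq_div, le_div_iff₀ hc, mul_comm]
  exact h1

theorem cauchySeq_of_le {X Y : Type*} [PseudoMetricSpace X] [PseudoMetricSpace Y] {u : ℕ → X}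
    {v : ℕ → Y} {c : ℝ} (hc : 0 < c) (h : ∀ m n, dist (u m) (u n) ≤ c * dist (v m) (v n))
    (hv : CauchySeq v) : CauchySeq u := by
  rw [Metric.cauchySeq_iff] at hv ⊢
  intro ε hε
  obtain ⟨N, hN⟩ := hv (ε / c) (by positivity)
  refine ⟨N, fun m hm n hn => (h m n).trans_lt ?_⟩
  have := hN m hm n hn
  calc c * dist (v m) (v n) < c * (ε / c) := mul_lt_mul_of_pos_left this hc
    _ = ε := by field_simp

theorem integrable_inner {F : Type*} [NormedAddCommGroup F] [InnerProductSpace ℝ F]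
    {u v : E3 → F} (hu : MemLp u 2 volume) (hv : MemLp v 2 volume) :
    Integrable (fun x => inner ℝ (u x) (v x)) := by
  refine (L2.integrable_inner (𝕜 := ℝ) (hu.toLp u) (hv.toLp v)).congr ?_
  filter_upwards [hu.coeFn_toLp, hv.coeFn_toLp] with x h1 h2
  rw [h1, h2]

end Crest.Agent.R335.Yk
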