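import Crest.Agent.R335.BSys

/-!
Row 335 (S0521), ION BLOCK (helper517): definitions.

`IonProd D e φ dφ` : `φ` is a normalised solution of the ion equation at `λ = 0` with level `e`
(used for the product states `ph0`, `ph1`, `phT`).
`IonCore` : everything in `IonData` except weights and dipole.
-/

set_option autoImplicit false
set_option linter.unusedSectionVars false

open MeasureTheory Filter Set Crest.MathPhysics.ThreeBody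
open scoped ENNReal Topology ContDiff

noncomputable section
namespace Crest.Agent.R335

/-- normalised eigenfunction of the ion at `λ = 0` -/
structure IonProd (D e : ℝ) (φ : Y2 → ℝ) (dφ : Y2 → Y2) : Prop where
  h1 : H1 φ dφ
  nrm : ∫ ξ, φ ξ ^ 2 = 1
  eq : ∀ k dk, H1 k dk → k2 D 0 φ dφ k dk = e * ∫ ξ, φ ξ * k ξ

/-- one ion ground state at `λ`, with its distance to the state at `λ = 0` -/
structure IonSt (D lam σ π e gap K : ℝ) (φ : Y2 → ℝ) (dφ : Y2 → Y2) (Φ : Y2 → ℝ)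
    (dΦ : Y2 → Y2) : Prop where
  ch : IonCh D lam σ π e gap Φ dΦ
  n : ∫ ξ, Φ ξ ^ 2 = 1
  cl : ∫ ξ, (Φ ξ - φ ξ) ^ 2 ≤ (K * lam) ^ 2
  clg : ∫ ξ, ‖dΦ ξ - dφ ξ‖ ^ 2 ≤ (K * lam) ^ 2
  sq : ∀ i : Fin 3, ∀ᵐ ξ, Φ (cxi i ξ) ^ 2 = Φ ξ ^ 2

/-- the output of the ion block at `λ` -/
def IonCore {cg C0 D : ℝ} (B : OBD cg C0 D) (d0 d1 dT : Y2 → Y2) (K lam : ℝ) : Prop :=
  ∃ (e0 e1 eT : ℝ) (Φ0 Φ1 ΦT : Y2 → ℝ) (dΦ0 dΦ1 dΦT : Y2 → Y2),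
    IonSt D lam 1 1 e0 B.om K (ph0 B.g) d0 Φ0 dΦ0 ∧
    IonSt D lam 1 (-1) e1 (cg / 4) K (ph1 B.g B.u) d1 Φ1 dΦ1 ∧
    IonSt D lam (-1) (-1) eT (cg / 4) K (phT B.g B.u) dT ΦT dΦT ∧
    IonCh D lam (-1) 1 eT (cg / 4) (fun _ => 0) (fun _ => 0) ∧
    (∀ k dk, H1 k dk → e0 * (∫ ξ, k ξ ^ 2) ≤ k2 D lam k dk k dk) ∧
    |e0 - 2 * B.eg| ≤ K * lam ∧ |e1 - (B.eg + B.eu)| ≤ K * lam ∧
    |eT - (B.eg + B.eu)| ≤ K * lam

end Crest.Agent.R335
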