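import Crest.Agent.R335.HSlice

/-!
Row 335 (S0521), ION BLOCK (helper517): Bessel type inequalities for partial contractions of an
`L²` function on `ℝ^κ × ℝ^κ'`.
-/

set_option autoImplicit false
set_option linter.unusedSectionVars false

open MeasureTheory Filter Set
open scoped ENNReal Topology ContDiff

noncomputable section
namespace Crest.Agent.R335
namespace IonL

variable {ι κ κ' : Type*} [Fintype ι] [DecidableEq ι] [Fintype κ] [DecidableEq κ]
  [Fintype κ'] [DecidableEq κ']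

local notation "E" => EuclideanSpace ℝ ι
local notation "E1" => EuclideanSpace ℝ κ
local notation "E2" => EuclideanSpace ℝ κ'

/-- contraction in the second variable -/
def cR (p : ι ≃ κ ⊕ κ') (h : E2 → ℝ) (f : E → ℝ) (x : E1) : ℝ := ∫ y, h y * f (jn p x y)

/-- contraction in the first variable -/
def cL (p : ι ≃ κ ⊕ κ') (g : E1 → ℝ) (f : E → ℝ) (y : E2) : ℝ := ∫ x, g x * f (jn p x y)

/-- full contraction -/
def cc (p : ι ≃ κ ⊕ κ') (g : E1 → ℝ) (h : E2 → ℝ) (f : E → ℝ) : ℝ :=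
  ∫ X, (g (pr1 p X) * h (pr2 p X)) * f X

theorem cR_memLp (p : ι ≃ κ ⊕ κ') {h : E2 → ℝ} {f : E → ℝ} (hh : MemLp h 2 volume)
    (hf : MemLp f 2 volume) : MemLp (cR p h f) 2 volume := by
  have := HS.pair_memLp p hf hh
  simp only [smul_eq_mul] at this
  exact this

theorem cL_eq (p : ι ≃ κ ⊕ κ') (g : E1 → ℝ) (f : E → ℝ) :
    cL p g f = cR (p.trans (Equiv.sumComm κ κ')) g f := by
  funext y
  unfold cL cR
  simp only [jn_comm]

theorem cL_memLp (p : ι ≃ κ ⊕ κ') {g : E1 → ℝ} {f : E → ℝ} (hg : MemLp g 2 volume)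
    (hf : MemLp f 2 volume) : MemLp (cL p g f) 2 volume := by
  rw [cL_eq]; exact cR_memLp _ hg hf

theorem pair_cR (p : ι ≃ κ ⊕ κ') {g : E1 → ℝ} {h : E2 → ℝ} {f : E → ℝ} (hg : MemLp g 2 volume)
    (hh : MemLp h 2 volume) (hf : MemLp f 2 volume) : ∫ x, g x * cR p h f x = cc p g h f := by
  unfold cc cR
  have hi : Integrable (fun X : E => (g (pr1 p X) * h (pr2 p X)) * f X) :=
    (HS.memLp_tensor p hg hh).integrable_mul hf
  rw [integral_jn p hi]
  congr 1; funext x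
  rw [← integral_const_mul]
  congr 1; funext y
  rw [pr1_jn, pr2_jn]; ring

theorem cc_comm (p : ι ≃ κ ⊕ κ') (g : E1 → ℝ) (h : E2 → ℝ) (f : E → ℝ) :
    cc (p.trans (Equiv.sumComm κ κ')) h g f = cc p g h f := by
  unfold cc
  congr 1; funext X
  rw [pr1_comm, pr2_comm]; ring

theorem pair_cL (p : ι ≃ κ ⊕ κ') {g : E1 → ℝ} {h : E2 → ℝ} {f : E → ℝ} (hg : MemLp g 2 volume)
    (hh : MemLp h 2 volume) (hf : MemLp f 2 volume) : ∫ y, h y * cL p g f y = cc p g h f := by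
  rw [cL_eq, pair_cR _ hh hg hf, cc_comm]

/-! ### one variable -/

section oneD
variable {α : Type*} [MeasurableSpace α] {μ : Measure α}

theorem oneD {g u F : α → ℝ} (hg : MemLp g 2 μ) (hu : MemLp u 2 μ) (hF : MemLp F 2 μ)
    (ng : ∫ x, g x ^ 2 ∂μ = 1) (nu : ∫ x, u x ^ 2 ∂μ = 1) (gu : ∫ x, g x * u x ∂μ = 0) :
    ∫ x, (F x - g x * (∫ x, g x * F x ∂μ) - u x * ∫ x, u x * F x ∂μ) ^ 2 ∂μ =
      (∫ x, F x ^ 2 ∂μ) - (∫ x, g x * F x ∂μ) ^ 2 - (∫ x, u x * F x ∂μ) ^ 2 := by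
  set a := ∫ x, g x * F x ∂μ with ha
  set b := ∫ x, u x * F x ∂μ with hb
  have i1 : Integrable (fun x => F x ^ 2) μ := hF.integrable_sq
  have i2 : Integrable (fun x => g x ^ 2) μ := hg.integrable_sq
  have i3 : Integrable (fun x => u x ^ 2) μ := hu.integrable_sq
  have i4 : Integrable (fun x => g x * F x) μ := hg.integrable_mul hF
  have i5 : Integrable (fun x => u x * F x) μ := hu.integrable_mul hF
  have i6 : Integrable (fun x => g x * u x) μ := hg.integrable_mul hu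
  have e : (fun x => (F x - g x * a - u x * b) ^ 2) = fun x =>
      F x ^ 2 + (a ^ 2 * g x ^ 2 + (b ^ 2 * u x ^ 2 + (-(2 * a) * (g x * F x) +
        (-(2 * b) * (u x * F x) + 2 * a * b * (g x * u x))))) := by
    funext x; ring
  have j1 := (i5.const_mul (-(2 * b))).add (i6.const_mul (2 * a * b))
  have j2 := (i4.const_mul (-(2 * a))).add j1
  have j3 := (i3.const_mul (b ^ 2)).add j2
  have j4 := (i2.const_mul (a ^ 2)).add j3
  rw [e]
  have k1 := integral_add i1 j4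
  have k2 := integral_add (i2.const_mul (a ^ 2)) j3
  have k3 := integral_add (i3.const_mul (b ^ 2)) j2
  have k4 := integral_add (i4.const_mul (-(2 * a))) j1
  have k5 := integral_add (i5.const_mul (-(2 * b))) (i6.const_mul (2 * a * b))
  simp only [Pi.add_apply] at k1 k2 k3 k4 k5
  rw [k1, k2, k3, k4, k5]
  simp only [integral_const_mul, ng, nu, gu, ← ha, ← hb]
  ring

theorem oneD1 {g F : α → ℝ} (hg : MemLp g 2 μ) (hF : MemLp F 2 μ)
    (ng : ∫ x, g x ^ 2 ∂μ = 1) :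
    ∫ x, (F x - g x * (∫ x, g x * F x ∂μ)) ^ 2 ∂μ =
      (∫ x, F x ^ 2 ∂μ) - (∫ x, g x * F x ∂μ) ^ 2 := by
  set a := ∫ x, g x * F x ∂μ with ha
  have i1 : Integrable (fun x => F x ^ 2) μ := hF.integrable_sq
  have i2 : Integrable (fun x => g x ^ 2) μ := hg.integrable_sq
  have i4 : Integrable (fun x => g x * F x) μ := hg.integrable_mul hF
  have e : (fun x => (F x - g x * a) ^ 2) = fun x =>
      F x ^ 2 + (a ^ 2 * g x ^ 2 + (-(2 * a) * (g x * F x))) := by
    funext x; ring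
  have j3 := (i2.const_mul (a ^ 2)).add (i4.const_mul (-(2 * a)))
  rw [e]
  have k1 := integral_add i1 j3
  have k2 := integral_add (i2.const_mul (a ^ 2)) (i4.const_mul (-(2 * a)))
  simp only [Pi.add_apply] at k1 k2
  rw [k1, k2]
  simp only [integral_const_mul, ng, ← ha]
  ring

theorem bessel2 {g u F : α → ℝ} (hg : MemLp g 2 μ) (hu : MemLp u 2 μ) (hF : MemLp F 2 μ)
    (ng : ∫ x, g x ^ 2 ∂μ = 1) (nu : ∫ x, u x ^ 2 ∂μ = 1) (gu : ∫ x, g x * u x ∂μ = 0) :
    (∫ x, g x * F x ∂μ) ^ 2 + (∫ x, u x * F x ∂μ) ^ 2 ≤ ∫ x, F x ^ 2 ∂μ := by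
  have h := oneD hg hu hF ng nu gu
  have h0 : 0 ≤ ∫ x, (F x - g x * (∫ x, g x * F x ∂μ) - u x * ∫ x, u x * F x ∂μ) ^ 2 ∂μ :=
    integral_nonneg fun x => sq_nonneg _
  linarith

theorem bessel1 {g F : α → ℝ} (hg : MemLp g 2 μ) (hF : MemLp F 2 μ)
    (ng : ∫ x, g x ^ 2 ∂μ = 1) :
    (∫ x, g x * F x ∂μ) ^ 2 ≤ ∫ x, F x ^ 2 ∂μ := by
  have h := oneD1 hg hF ng
  have h0 : 0 ≤ ∫ x, (F x - g x * (∫ x, g x * F x ∂μ)) ^ 2 ∂μ :=
    integral_nonneg fun x => sq_nonneg _
  linarith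

end oneD

/-! ### two variables -/

theorem slice_sq_int (p : ι ≃ κ ⊕ κ') {f : E → ℝ} (hf : MemLp f 2 volume) :
    Integrable (fun x : E1 => ∫ y, f (jn p x y) ^ 2) :=
  HS.integrable_slice p hf.integrable_sq

theorem slice_sq_int' (p : ι ≃ κ ⊕ κ') {f : E → ℝ} (hf : MemLp f 2 volume) :
    Integrable (fun y : E2 => ∫ x, f (jn p x y) ^ 2) := by
  have := slice_sq_int (p.trans (Equiv.sumComm κ κ')) hf
  simpa only [jn_comm] using this

/-- Bessel in the second variable, integrated -/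
theorem bessel_R (p : ι ≃ κ ⊕ κ') {g u : E2 → ℝ} {f : E → ℝ} (hg : MemLp g 2 volume)
    (hu : MemLp u 2 volume) (hf : MemLp f 2 volume) (ng : ∫ x, g x ^ 2 = 1)
    (nu : ∫ x, u x ^ 2 = 1) (gu : ∫ x, g x * u x = 0) :
    (∫ x, cR p g f x ^ 2) + (∫ x, cR p u f x ^ 2) ≤ ∫ X, f X ^ 2 := by
  rw [integral_jn p hf.integrable_sq,
    ← integral_add (cR_memLp p hg hf).integrable_sq (cR_memLp p hu hf).integrable_sq]
  refine integral_mono_ae ((cR_memLp p hg hf).integrable_sq.add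
    (cR_memLp p hu hf).integrable_sq) (slice_sq_int p hf) ?_
  filter_upwards [MemLp.slice_right p hf] with x hx
  exact bessel2 hg hu hx ng nu gu

/-- the part orthogonal to `g, u` in the first variable -/
def rem2 (p : ι ≃ κ ⊕ κ') (g u : E1 → ℝ) (f : E → ℝ) (X : E) : ℝ :=
  f X - g (pr1 p X) * cL p g f (pr2 p X) - u (pr1 p X) * cL p u f (pr2 p X)

def rem1 (p : ι ≃ κ ⊕ κ') (g : E1 → ℝ) (f : E → ℝ) (X : E) : ℝ :=
  f X - g (pr1 p X) * cL p g f (pr2 p X)

theorem rem2_memLp (p : ι ≃ κ ⊕ κ') {g u : E1 → ℝ} {f : E → ℝ} (hg : MemLp g 2 volume)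
    (hu : MemLp u 2 volume) (hf : MemLp f 2 volume) : MemLp (rem2 p g u f) 2 volume :=
  (hf.sub (HS.memLp_tensor p hg (cL_memLp p hg hf))).sub
    (HS.memLp_tensor p hu (cL_memLp p hu hf))

theorem rem1_memLp (p : ι ≃ κ ⊕ κ') {g : E1 → ℝ} {f : E → ℝ} (hg : MemLp g 2 volume)
    (hf : MemLp f 2 volume) : MemLp (rem1 p g f) 2 volume :=
  hf.sub (HS.memLp_tensor p hg (cL_memLp p hg hf))

theorem rem2_norm (p : ι ≃ κ ⊕ κ') {g u : E1 → ℝ} {f : E → ℝ} (hg : MemLp g 2 volume)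
    (hu : MemLp u 2 volume) (hf : MemLp f 2 volume) (ng : ∫ x, g x ^ 2 = 1)
    (nu : ∫ x, u x ^ 2 = 1) (gu : ∫ x, g x * u x = 0) :
    ∫ X, rem2 p g u f X ^ 2 =
      (∫ X, f X ^ 2) - (∫ y, cL p g f y ^ 2) - ∫ y, cL p u f y ^ 2 := by
  rw [integral_jn' p (rem2_memLp p hg hu hf).integrable_sq, integral_jn' p hf.integrable_sq,
    ← integral_sub (slice_sq_int' p hf) (cL_memLp p hg hf).integrable_sq]
  have hI : Integrable (fun y : E2 => (∫ x, f (jn p x y) ^ 2) - cL p g f y ^ 2) :=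
    (slice_sq_int' p hf).sub (cL_memLp p hg hf).integrable_sq
  rw [← integral_sub hI (cL_memLp p hu hf).integrable_sq]
  refine integral_congr_ae ?_
  filter_upwards [MemLp.slice_left p hf] with y hy
  have := oneD hg hu hy ng nu gu
  unfold rem2
  simp only [pr1_jn, pr2_jn]
  exact this

theorem rem1_norm (p : ι ≃ κ ⊕ κ') {g : E1 → ℝ} {f : E → ℝ} (hg : MemLp g 2 volume)
    (hf : MemLp f 2 volume) (ng : ∫ x, g x ^ 2 = 1) :
    ∫ X, rem1 p g f X ^ 2 = (∫ X, f X ^ 2) - (∫ y, cL p g f y ^ 2) := by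
  rw [integral_jn' p (rem1_memLp p hg hf).integrable_sq, integral_jn' p hf.integrable_sq,
    ← integral_sub (slice_sq_int' p hf) (cL_memLp p hg hf).integrable_sq]
  refine integral_congr_ae ?_
  filter_upwards [MemLp.slice_left p hf] with y hy
  have := oneD1 hg hy ng
  unfold rem1
  simp only [pr1_jn, pr2_jn]
  exact this

theorem cR_rem2 (p : ι ≃ κ ⊕ κ') {g u : E1 → ℝ} {h : E2 → ℝ} {f : E → ℝ} (hg : MemLp g 2 volume)
    (hu : MemLp u 2 volume) (hh : MemLp h 2 volume) (hf : MemLp f 2 volume) :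
    ∀ᵐ x, cR p h (rem2 p g u f) x =
      cR p h f x - g x * cc p g h f - u x * cc p u h f := by
  filter_upwards [MemLp.slice_right p hf] with x hx
  rw [← pair_cL p hg hh hf, ← pair_cL p hu hh hf]
  unfold cR rem2
  simp only [pr1_jn, pr2_jn]
  have i1 : Integrable (fun y => h y * f (jn p x y)) := hh.integrable_mul hx
  have i2 : Integrable (fun y => h y * cL p g f y) := hh.integrable_mul (cL_memLp p hg hf)
  have i3 : Integrable (fun y => h y * cL p u f y) := hh.integrable_mul (cL_memLp p hu hf)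
  have e : (fun y => h y * (f (jn p x y) - g x * cL p g f y - u x * cL p u f y)) =
      fun y => h y * f (jn p x y) - g x * (h y * cL p g f y) - u x * (h y * cL p u f y) := by
    funext y; ring
  have i4 : Integrable (fun y => h y * f (jn p x y) - g x * (h y * cL p g f y)) :=
    i1.sub (i2.const_mul _)
  rw [e, integral_sub i4 (i3.const_mul _), integral_sub i1 (i2.const_mul _),
    integral_const_mul, integral_const_mul]

theorem cR_rem1 (p : ι ≃ κ ⊕ κ') {g : E1 → ℝ} {h : E2 → ℝ} {f : E → ℝ} (hg : MemLp g 2 volume)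
    (hh : MemLp h 2 volume) (hf : MemLp f 2 volume) :
    ∀ᵐ x, cR p h (rem1 p g f) x = cR p h f x - g x * cc p g h f := by
  filter_upwards [MemLp.slice_right p hf] with x hx
  rw [← pair_cL p hg hh hf]
  unfold cR rem1
  simp only [pr1_jn, pr2_jn]
  have i1 : Integrable (fun y => h y * f (jn p x y)) := hh.integrable_mul hx
  have i2 : Integrable (fun y => h y * cL p g f y) := hh.integrable_mul (cL_memLp p hg hf)
  have e : (fun y => h y * (f (jn p x y) - g x * cL p g f y)) =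
      fun y => h y * f (jn p x y) - g x * (h y * cL p g f y) := by
    funext y; ring
  rw [e, integral_sub i1 (i2.const_mul _), integral_const_mul]

/-- inequality (I) -/
theorem ineq_I (p : ι ≃ κ ⊕ κ') {g u : E1 → ℝ} {g' u' : E2 → ℝ} {f : E → ℝ}
    (hg : MemLp g 2 volume) (hu : MemLp u 2 volume) (hg' : MemLp g' 2 volume)
    (hu' : MemLp u' 2 volume) (hf : MemLp f 2 volume) (ng : ∫ x, g x ^ 2 = 1)
    (nu : ∫ x, u x ^ 2 = 1) (gu : ∫ x, g x * u x = 0) (ng' : ∫ x, g' x ^ 2 = 1)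
    (nu' : ∫ x, u' x ^ 2 = 1) (gu' : ∫ x, g' x * u' x = 0) :
    (∫ y, cL p g f y ^ 2) + (∫ y, cL p u f y ^ 2) + (∫ x, cR p g' f x ^ 2) +
      (∫ x, cR p u' f x ^ 2) ≤ (∫ X, f X ^ 2) + (cc p g g' f ^ 2 + cc p g u' f ^ 2 +
        cc p u g' f ^ 2 + cc p u u' f ^ 2) := by
  have h1 := bessel_R p hg' hu' (rem2_memLp p hg hu hf) ng' nu' gu'
  rw [rem2_norm p hg hu hf ng nu gu] at h1
  have key : ∀ {h : E2 → ℝ}, MemLp h 2 volume → ∫ x, cR p h (rem2 p g u f) x ^ 2 =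
      (∫ x, cR p h f x ^ 2) - cc p g h f ^ 2 - cc p u h f ^ 2 := by
    intro h hh
    have := oneD hg hu (cR_memLp p hh hf) ng nu gu
    rw [pair_cR p hg hh hf, pair_cR p hu hh hf] at this
    rw [← this]
    refine integral_congr_ae ?_
    filter_upwards [cR_rem2 p hg hu hh hf] with x hx
    rw [hx]
  rw [key hg', key hu'] at h1
  linarith

/-- inequality (II) -/
theorem ineq_II (p : ι ≃ κ ⊕ κ') {g u : E1 → ℝ} {g' u' : E2 → ℝ} {f : E → ℝ}
    (hg : MemLp g 2 volume) (hu : MemLp u 2 volume) (hg' : MemLp g' 2 volume)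
    (hu' : MemLp u' 2 volume) (hf : MemLp f 2 volume) (ng : ∫ x, g x ^ 2 = 1)
    (nu : ∫ x, u x ^ 2 = 1) (gu : ∫ x, g x * u x = 0) (ng' : ∫ x, g' x ^ 2 = 1)
    (nu' : ∫ x, u' x ^ 2 = 1) (gu' : ∫ x, g' x * u' x = 0) :
    (∫ y, cL p g f y ^ 2) + (∫ x, cR p g' f x ^ 2) ≤
      (∫ X, f X ^ 2) + cc p g g' f ^ 2 - cc p u u' f ^ 2 := by
  have h1 := bessel_R p hg' hu' (rem1_memLp p hg hf) ng' nu' gu'
  rw [rem1_norm p hg hf ng] at h1
  have key : ∫ x, cR p g' (rem1 p g f) x ^ 2 = (∫ x, cR p g' f x ^ 2) - cc p g g' f ^ 2 := by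
    have := oneD1 hg (cR_memLp p hg' hf) ng
    rw [pair_cR p hg hg' hf] at this
    rw [← this]
    refine integral_congr_ae ?_
    filter_upwards [cR_rem1 p hg hg' hf] with x hx
    rw [hx]
  have hcR := cR_memLp p hu' (rem1_memLp p hg hf)
  have key2 : cc p u u' f ^ 2 ≤ ∫ x, cR p u' (rem1 p g f) x ^ 2 := by
    have h2 := bessel1 hu hcR nu
    have e : ∫ x, u x * cR p u' (rem1 p g f) x = cc p u u' f := by
      rw [← pair_cR p hu hu' hf]
      have e2 : ∫ x, u x * cR p u' (rem1 p g f) x =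
          ∫ x, (u x * cR p u' f x - cc p g u' f * (g x * u x)) := by
        refine integral_congr_ae ?_
        filter_upwards [cR_rem1 p hg hu' hf] with x hx
        rw [hx]; ring
      have i1 : Integrable (fun x => u x * cR p u' f x) := hu.integrable_mul (cR_memLp p hu' hf)
      have i2 : Integrable (fun x => g x * u x) := hg.integrable_mul hu
      rw [e2, integral_sub i1 (i2.const_mul _), integral_const_mul, gu]
      ring
    rw [e] at h2
    exact h2
  rw [key] at h1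
  linarith

end IonL
end Crest.Agent.R335
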