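import Crest.Agent.R335.IonSec2
import Crest.Agent.R335.IonL2
import Crest.Agent.R335.BIonC

/-!
Row 335 (S0521), ION BLOCK (helper517): the form `k2 D lam` on `H¹(ℝ⁶)`: form bound, coercivity,
symmetries, slicing.
-/

set_option autoImplicit false
set_option linter.unusedSectionVars false
set_option linter.unusedVariables false

open MeasureTheory Filter Set Crest.MathPhysics.ThreeBody
open scoped ENNReal Topology ContDiff

noncomputable section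
namespace Crest.Agent.R335

/-! ### Coulomb terms -/

namespace IonF

section gen
variable {ι : Type*} [Fintype ι] [DecidableEq ι]
local notation "E" => EuclideanSpace ℝ ι

/-- the linear maps to which the Coulomb bound applies -/
structure CL (L : E →L[ℝ] Pos3) (e : Fin 3 → E) : Prop where
  he : ∀ c, L (e c) = EuclideanSpace.single c (1 : ℝ)
  hb : ∀ v : E, ∑ c, (inner ℝ v (e c)) ^ 2 ≤ ‖v‖ ^ 2

theorem CL.coul {L : E →L[ℝ] Pos3} {e : Fin 3 → E} (hL : CL L e) (a : Pos3) {f : E → ℝ}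
    {g : E → E} (h : H1 f g) {ε : ℝ} (hε : 0 < ε) :
    Integrable (fun x => 1 / ‖L x - a‖ * f x ^ 2) ∧
      ∫ x, 1 / ‖L x - a‖ * f x ^ 2 ≤ ε * (∫ x, ‖g x‖ ^ 2) + ε⁻¹ * ∫ x, f x ^ 2 := by
  obtain ⟨h1, h2⟩ := I.coulomb_le h L e hL.he a hε
  have e1 : (fun x => 1 / ‖L x - a‖ * f x ^ 2) = fun x => f x ^ 2 / ‖L x - a‖ := by
    funext x; ring
  rw [e1]
  refine ⟨h1, h2.trans ?_⟩
  have h3 : ∫ x, ∑ c, (inner ℝ (g x) (e c)) ^ 2 ≤ ∫ x, ‖g x‖ ^ 2 := by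
    refine integral_mono_of_nonneg (Eventually.of_forall fun x => ?_) h.memg.norm.integrable_sq
      (Eventually.of_forall fun x => hL.hb (g x))
    exact Finset.sum_nonneg fun c _ => sq_nonneg _
  have := mul_le_mul_of_nonneg_left h3 hε.le
  linarith

theorem CL.fb {L : E →L[ℝ] Pos3} {e : Fin 3 → E} (hL : CL L e) (a : Pos3) :
    H1S.FB (fun x => 1 / ‖L x - a‖) 1 where
  int := fun f g h => (hL.coul a h one_pos).1
  le := fun f g h => by
    have h1 := (hL.coul a h one_pos).2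
    have h0 : 0 ≤ ∫ x, 1 / ‖L x - a‖ * f x ^ 2 := integral_nonneg fun x => by positivity
    rw [abs_of_nonneg h0]
    norm_num at h1 ⊢
    linarith

end gen

/-- the vectors for the first / second electron and the difference -/
theorem cl_one : CL (pr1L p6) (fun c => jn p6 (EuclideanSpace.single c (1 : ℝ)) 0) where
  he := fun c => by rw [pr1L_apply, pr1_jn]
  hb := fun v => by
    have e : ∀ c, inner ℝ v (jn p6 (EuclideanSpace.single c (1 : ℝ)) 0) = pr1 p6 v c := by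
      intro c
      rw [real_inner_comm, inner_jn_pr]
      simp [EuclideanSpace.inner_single_left]
    simp only [e]
    have h1 : ∑ c, (pr1 p6 v c) ^ 2 = ‖pr1 p6 v‖ ^ 2 := by
      rw [EuclideanSpace.norm_sq_eq]; simp [Real.norm_eq_abs, sq_abs]
    have h2 := norm_sq_jn p6 v
    have h3 := sq_nonneg ‖pr2 p6 v‖
    linarith

theorem cl_two : CL (pr2L p6) (fun c => jn p6 0 (EuclideanSpace.single c (1 : ℝ))) where
  he := fun c => by rw [pr2L_apply, pr2_jn]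
  hb := fun v => by
    have e : ∀ c, inner ℝ v (jn p6 0 (EuclideanSpace.single c (1 : ℝ))) = pr2 p6 v c := by
      intro c
      rw [real_inner_comm, inner_jn_pr]
      simp [EuclideanSpace.inner_single_left]
    simp only [e]
    have h1 : ∑ c, (pr2 p6 v c) ^ 2 = ‖pr2 p6 v‖ ^ 2 := by
      rw [EuclideanSpace.norm_sq_eq]; simp [Real.norm_eq_abs, sq_abs]
    have h2 := norm_sq_jn p6 v
    have h3 := sq_nonneg ‖pr1 p6 v‖
    linarith

theorem cl_diff : CL (pr1L p6 - pr2L p6) (fun c => (1 / 2 : ℝ) •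
    jn p6 (EuclideanSpace.single c (1 : ℝ)) (-EuclideanSpace.single c (1 : ℝ))) where
  he := fun c => by
    rw [map_smul, sub_apply, pr1L_apply, pr2L_apply, pr1_jn, pr2_jn,
      sub_neg_eq_add, ← two_smul ℝ, smul_smul]
    norm_num
  hb := fun v => by
    have e : ∀ c, inner ℝ v ((1 / 2 : ℝ) • jn p6 (EuclideanSpace.single c (1 : ℝ))
        (-EuclideanSpace.single c (1 : ℝ))) = (1 / 2) * (pr1 p6 v c - pr2 p6 v c) := by
      intro c
      rw [real_inner_smul_right, real_inner_comm, inner_jn_pr, inner_neg_left]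
      simp [EuclideanSpace.inner_single_left]
      ring
    simp only [e]
    have h1 : ∑ c, (pr1 p6 v c) ^ 2 = ‖pr1 p6 v‖ ^ 2 := by
      rw [EuclideanSpace.norm_sq_eq]; simp [Real.norm_eq_abs, sq_abs]
    have h1' : ∑ c, (pr2 p6 v c) ^ 2 = ‖pr2 p6 v‖ ^ 2 := by
      rw [EuclideanSpace.norm_sq_eq]; simp [Real.norm_eq_abs, sq_abs]
    have h2 := norm_sq_jn p6 v
    rw [h2, ← h1, ← h1', ← Finset.sum_add_distrib]
    refine Finset.sum_le_sum fun c _ => ?_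
    nlinarith [sq_nonneg (pr1 p6 v c + pr2 p6 v c), sq_nonneg (pr1 p6 v c - pr2 p6 v c),
      sq_nonneg (pr1 p6 v c), sq_nonneg (pr2 p6 v c)]

/-- the repulsion of the ion -/
def Wion (ξ : Y2) : ℝ := 1 / ‖el 0 ξ - el 1 ξ‖

theorem Wion_nonneg (ξ : Y2) : 0 ≤ Wion ξ := by unfold Wion; positivity

theorem Vion_eq (D lam : ℝ) (ξ : Y2) : Vion D lam ξ =
    ((-1) * (1 / ‖pr1L p6 ξ - nuc D‖) + (-1) * (1 / ‖pr1L p6 ξ - nuc (-D)‖)) +
    ((-1) * (1 / ‖pr2L p6 ξ - nuc D‖) + (-1) * (1 / ‖pr2L p6 ξ - nuc (-D)‖)) +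
      lam * (1 / ‖(pr1L p6 - pr2L p6) ξ - 0‖) := by
  unfold Vion V2
  rw [sub_zero, sub_apply, pr1L_apply, pr2L_apply, el_zero, el_one]
  ring

theorem Wion_eq (ξ : Y2) : Wion ξ = 1 / ‖(pr1L p6 - pr2L p6) ξ - 0‖ := by
  unfold Wion
  rw [sub_zero, sub_apply, pr1L_apply, pr2L_apply, el_zero, el_one]

theorem Wion_FB : H1S.FB Wion 1 := by
  have := cl_diff.fb 0
  convert this using 2 with ξ
  exact Wion_eq _

theorem Vion_FB0 (D : ℝ) : H1S.FB (Vion D 0) 4 := by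
  have h1 := (((cl_one.fb (nuc D)).const_mul (-1)).add
    ((cl_one.fb (nuc (-D))).const_mul (-1))).add
    (((cl_two.fb (nuc D)).const_mul (-1)).add ((cl_two.fb (nuc (-D))).const_mul (-1)))
  have h2 := h1.mono (C' := 4) (by norm_num)
  convert h2 using 2 with ξ
  rw [Vion_eq]; ring

theorem Vion_add (D lam : ℝ) (ξ : Y2) : Vion D lam ξ = Vion D 0 ξ + lam * Wion ξ := by
  unfold Vion Wion; ring

theorem Vion_FB (D lam : ℝ) : H1S.FB (Vion D lam) (4 + |lam|) := by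
  have h1 := (Vion_FB0 D).add (Wion_FB.const_mul lam)
  have h2 := h1.mono (C' := 4 + |lam|) (by linarith)
  convert h2 using 2 with ξ
  exact Vion_add _ _ _

theorem Vion_int (D lam : ℝ) {f k : Y2 → ℝ} {df dk : Y2 → Y2} (hf : H1 f df) (hk : H1 k dk) :
    Integrable (fun ξ => Vion D lam ξ * f ξ * k ξ) := by
  have := (Vion_FB D lam).int2 hf hk
  refine this.congr (Eventually.of_forall fun ξ => ?_)
  simp only
  ring

theorem Vion_int_sq (D lam : ℝ) {k : Y2 → ℝ} {dk : Y2 → Y2} (hk : H1 k dk) :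
    Integrable (fun ξ => Vion D lam ξ * k ξ ^ 2) := (Vion_FB D lam).int k dk hk

theorem Wion_int (D lam : ℝ) {f k : Y2 → ℝ} {df dk : Y2 → Y2} (hf : H1 f df) (hk : H1 k dk) :
    Integrable (fun ξ => Wion ξ * (f ξ * k ξ)) := Wion_FB.int2 hf hk

theorem k2_eq (D lam : ℝ) (f : Y2 → ℝ) (df : Y2 → Y2) (k : Y2 → ℝ) (dk : Y2 → Y2) :
    k2 D lam f df k dk = (1 / 2) * (∫ x, inner ℝ (df x) (dk x)) +
      ∫ x, Vion D lam x * (f x * k x) := by
  unfold k2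
  simp only [mul_assoc]

theorem k2_self (D lam : ℝ) (k : Y2 → ℝ) (dk : Y2 → Y2) :
    k2 D lam k dk k dk = (1 / 2) * (∫ x, ‖dk x‖ ^ 2) + ∫ x, Vion D lam x * k x ^ 2 := by
  rw [k2_eq]
  simp only [real_inner_self_eq_norm_sq, ← sq]

/-- dependence on `λ` -/
theorem k2_lam (D lam : ℝ) {f k : Y2 → ℝ} {df dk : Y2 → Y2} (hf : H1 f df) (hk : H1 k dk) :
    k2 D lam f df k dk = k2 D 0 f df k dk + lam * ∫ x, Wion x * (f x * k x) := by
  rw [k2_eq, k2_eq]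
  have e : ∀ x, Vion D lam x * (f x * k x) = Vion D 0 x * (f x * k x) +
      lam * (Wion x * (f x * k x)) := by
    intro x; rw [Vion_add]; ring
  simp only [e]
  rw [integral_add ((Vion_FB D 0).int2 hf hk) ((Wion_FB.int2 hf hk).const_mul _),
    integral_const_mul]
  ring

theorem Wion_sq_nonneg (k : Y2 → ℝ) : 0 ≤ ∫ x, Wion x * (k x * k x) :=
  integral_nonneg fun x => mul_nonneg (Wion_nonneg x) (mul_self_nonneg _)

theorem k2_mono {D lam : ℝ} (h0 : 0 ≤ lam) {k : Y2 → ℝ} {dk : Y2 → Y2} (hk : H1 k dk) :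
    k2 D 0 k dk k dk ≤ k2 D lam k dk k dk := by
  rw [k2_lam D lam hk hk]
  have := mul_nonneg h0 (Wion_sq_nonneg k)
  linarith

/-- coercivity, uniform in `D` and `λ ≥ 0` -/
theorem k2_coercive {D lam : ℝ} (h0 : 0 ≤ lam) {k : Y2 → ℝ} {dk : Y2 → Y2} (hk : H1 k dk) :
    ∫ ξ, ‖dk ξ‖ ^ 2 ≤ 4 * k2 D lam k dk k dk + 256 * ∫ ξ, k ξ ^ 2 := by
  have h1 := k2_mono (D := D) h0 hk
  have hε : (0 : ℝ) < 1 / 16 := by norm_num
  obtain ⟨a1, a2⟩ := cl_one.coul (nuc D) hk hε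
  obtain ⟨b1, b2⟩ := cl_one.coul (nuc (-D)) hk hε
  obtain ⟨c1, c2⟩ := cl_two.coul (nuc D) hk hε
  obtain ⟨d1, d2⟩ := cl_two.coul (nuc (-D)) hk hε
  have e : (∫ x, Vion D 0 x * k x ^ 2) + (∫ x, 1 / ‖pr1L p6 x - nuc D‖ * k x ^ 2) +
      (∫ x, 1 / ‖pr1L p6 x - nuc (-D)‖ * k x ^ 2) + (∫ x, 1 / ‖pr2L p6 x - nuc D‖ * k x ^ 2) +
      (∫ x, 1 / ‖pr2L p6 x - nuc (-D)‖ * k x ^ 2) = 0 := by
    have i0 := Vion_int_sq D 0 hk
    have i1 : Integrable (fun x => Vion D 0 x * k x ^ 2 + 1 / ‖pr1L p6 x - nuc D‖ * k x ^ 2) :=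
      i0.add a1
    have i2 : Integrable (fun x => Vion D 0 x * k x ^ 2 + 1 / ‖pr1L p6 x - nuc D‖ * k x ^ 2 +
      1 / ‖pr1L p6 x - nuc (-D)‖ * k x ^ 2) := i1.add b1
    have i3 : Integrable (fun x => Vion D 0 x * k x ^ 2 + 1 / ‖pr1L p6 x - nuc D‖ * k x ^ 2 +
      1 / ‖pr1L p6 x - nuc (-D)‖ * k x ^ 2 + 1 / ‖pr2L p6 x - nuc D‖ * k x ^ 2) := i2.add c1
    rw [← integral_add i0 a1, ← integral_add i1 b1, ← integral_add i2 c1, ← integral_add i3 d1]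
    have : ∀ x, Vion D 0 x * k x ^ 2 + 1 / ‖pr1L p6 x - nuc D‖ * k x ^ 2 +
      1 / ‖pr1L p6 x - nuc (-D)‖ * k x ^ 2 + 1 / ‖pr2L p6 x - nuc D‖ * k x ^ 2 +
      1 / ‖pr2L p6 x - nuc (-D)‖ * k x ^ 2 = 0 := by
      intro x
      rw [Vion_eq]; ring
    simp only [this, integral_zero]
  rw [k2_self D 0] at h1
  norm_num at a2 b2 c2 d2
  norm_num at e
  linarith

theorem k2_coer {D lam : ℝ} (h0 : 0 ≤ lam) {k : Y2 → ℝ} {dk : Y2 → Y2} (hk : H1 k dk) :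
    (1 / 4) * ((∫ x, k x ^ 2) + ∫ x, ‖dk x‖ ^ 2) ≤
      (1 / 2) * (∫ x, ‖dk x‖ ^ 2) + (∫ x, Vion D lam x * k x ^ 2) + 65 * ∫ x, k x ^ 2 := by
  have h1 := k2_coercive (D := D) h0 hk
  have h2 : 0 ≤ ∫ x, k x ^ 2 := integral_nonneg fun x => sq_nonneg _
  rw [k2_self] at h1
  linarith

/-! ### symmetries -/

/-- reflection of one coordinate in `ℝ³` -/
def rc (i : Fin 3) : Pos3 ≃ₗᵢ[ℝ] Pos3 :=
  LinearIsometryEquiv.piLpCongrRight 2 fun j : Fin 3 =>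
    if j = i then LinearIsometryEquiv.neg ℝ else LinearIsometryEquiv.refl ℝ ℝ

theorem rc_apply (i : Fin 3) (x : Pos3) (j : Fin 3) : rc i x j = if j = i then - x j else x j := by
  unfold rc
  simp only [LinearIsometryEquiv.piLpCongrRight_apply]
  split_ifs with h <;> simp

theorem cxi_apply (i : Fin 3) (ξ : Y2) (jc : Fin 2 × Fin 3) :
    cxi i ξ jc = if jc.2 = i then - ξ jc else ξ jc := by
  unfold cxi
  simp only [LinearIsometryEquiv.piLpCongrRight_apply]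
  split_ifs with h <;> simp

theorem el_cxi (i : Fin 3) (j : Fin 2) (ξ : Y2) : el j (cxi i ξ) = rc i (el j ξ) := by
  ext c
  rw [rc_apply]
  show cxi i ξ (j, c) = _
  rw [cxi_apply]
  rfl

theorem rxi_eq_cxi (ξ : Y2) : rxi ξ = cxi 2 ξ := by
  ext jc
  rw [rxi_apply, cxi_apply]

theorem rc_two (x : Pos3) : rc 2 x = rz x := by
  ext j
  rw [rc_apply, rz_apply]

theorem el_sxi_zero (ξ : Y2) : el 0 (sxi ξ) = el 1 ξ := by
  ext c
  show sxi ξ (0, c) = ξ (1, c)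
  rw [sxi_apply]
  simp

theorem el_sxi_one (ξ : Y2) : el 1 (sxi ξ) = el 0 ξ := by
  ext c
  show sxi ξ (1, c) = ξ (0, c)
  rw [sxi_apply]
  simp

theorem el_rxi (j : Fin 2) (ξ : Y2) : el j (rxi ξ) = rz (el j ξ) := by
  rw [rxi_eq_cxi, el_cxi, rc_two]

theorem V2_rc (D : ℝ) (i : Fin 3) (x : Pos3) : V2 D (rc i x) = V2 D x := by
  by_cases h : i = 2
  · subst h
    rw [rc_two, V2_rz]
  · refine V2_rot D ?_ x
    ext j
    rw [rc_apply]
    unfold nuc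
    by_cases h2 : j = i
    · subst h2
      simp [h]
    · simp [h2]

theorem Vion_sxi (D lam : ℝ) (ξ : Y2) : Vion D lam (sxi ξ) = Vion D lam ξ := by
  unfold Vion
  rw [el_sxi_zero, el_sxi_one, norm_sub_rev]
  ring

theorem Vion_cxi (D lam : ℝ) (i : Fin 3) (ξ : Y2) : Vion D lam (cxi i ξ) = Vion D lam ξ := by
  unfold Vion
  rw [el_cxi, el_cxi, V2_rc, V2_rc, ← map_sub, LinearIsometryEquiv.norm_map]

theorem Vion_rxi (D lam : ℝ) (ξ : Y2) : Vion D lam (rxi ξ) = Vion D lam ξ := by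
  rw [rxi_eq_cxi, Vion_cxi]

theorem sxi_sxi (ξ : Y2) : sxi (sxi ξ) = ξ := by
  ext jc
  rw [sxi_apply, sxi_apply]
  simp

theorem cxi_cxi_comm (i j : Fin 3) (ξ : Y2) : cxi i (cxi j ξ) = cxi j (cxi i ξ) := by
  ext jc
  simp only [cxi_apply]
  split_ifs <;> rfl

theorem cxi_cxi (i : Fin 3) (ξ : Y2) : cxi i (cxi i ξ) = ξ := by
  ext jc
  simp only [cxi_apply]
  split_ifs <;> simp

theorem rxi_rxi (ξ : Y2) : rxi (rxi ξ) = ξ := by
  rw [rxi_eq_cxi, rxi_eq_cxi, cxi_cxi]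

theorem cxi_sxi (i : Fin 3) (ξ : Y2) : cxi i (sxi ξ) = sxi (cxi i ξ) := by
  ext jc
  simp only [cxi_apply, sxi_apply]

theorem sxi_rxi (ξ : Y2) : sxi (rxi ξ) = rxi (sxi ξ) := by
  rw [rxi_eq_cxi, rxi_eq_cxi, cxi_sxi]

theorem cxi_rxi (i : Fin 3) (ξ : Y2) : cxi i (rxi ξ) = rxi (cxi i ξ) := by
  rw [rxi_eq_cxi, rxi_eq_cxi, cxi_cxi_comm]

end IonF
end Crest.Agent.R335
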