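import Crest.Agent.R335.IonDefs
import Crest.Agent.R335.HSpace

/-!
Row 335 (S0521), ION BLOCK (helper517): interface, statements with `sorry` in namespace `...R335.II`;
each `II.xxx` will be proved as `Crest.Agent.R335.xxx`.
-/

set_option autoImplicit false
set_option linter.unusedSectionVars false
set_option linter.unusedVariables false

open MeasureTheory Filter Set Crest.MathPhysics.ThreeBody
open scoped ENNReal Topology ContDiff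

noncomputable section
namespace Crest.Agent.R335.II
open Crest.Agent.R335

/-! ### generic sector theorem (module IonSec) -/

section generic
variable {ι : Type*} [Fintype ι] [DecidableEq ι]
local notation "E" => EuclideanSpace ℝ ι

/-- GROUND STATE OF A SECTOR.  `V` form bounded, form coercive up to `M ‖f‖²`; `L₁, L₂` commuting
isometric involutions leaving `V` invariant; sector = `f ∘ L₁ = σ f`, `f ∘ L₂ = π f`;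
`φ` a normalised trial function of the sector with energy `< E₁`; `q ≥ E₁ - K ⟨φ,·⟩²` on the
sector. -/
theorem sector_exists {V : E → ℝ} {C c M : ℝ} (hV : H1S.FB V C) (hc : 0 < c)
    (hco : ∀ (f : E → ℝ) (g : E → E), H1 f g → c * ((∫ x, f x ^ 2) + ∫ x, ‖g x‖ ^ 2) ≤
      (1 / 2) * (∫ x, ‖g x‖ ^ 2) + (∫ x, V x * f x ^ 2) + M * ∫ x, f x ^ 2)
    {L₁ L₂ : E ≃ₗᵢ[ℝ] E} (h11 : ∀ x, L₁ (L₁ x) = x) (h22 : ∀ x, L₂ (L₂ x) = x)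
    (h12 : ∀ x, L₁ (L₂ x) = L₂ (L₁ x)) {σ π : ℝ} (hσ : σ = 1 ∨ σ = -1) (hπ : π = 1 ∨ π = -1)
    (hV1 : ∀ x, V (L₁ x) = V x) (hV2 : ∀ x, V (L₂ x) = V x)
    {φ : E → ℝ} {dφ : E → E} (hφ : H1 φ dφ) (hn : ∫ x, φ x ^ 2 = 1)
    (hφ1 : ∀ᵐ x, φ (L₁ x) = σ * φ x) (hφ2 : ∀ᵐ x, φ (L₂ x) = π * φ x) {E₁ K : ℝ}
    (hφE : (1 / 2) * (∫ x, ‖dφ x‖ ^ 2) + (∫ x, V x * φ x ^ 2) < E₁)
    (hgap : ∀ (k : E → ℝ) (dk : E → E), H1 k dk → (∀ᵐ x, k (L₁ x) = σ * k x) →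
      (∀ᵐ x, k (L₂ x) = π * k x) → E₁ * (∫ x, k x ^ 2) - K * (∫ x, φ x * k x) ^ 2 ≤
        (1 / 2) * (∫ x, ‖dk x‖ ^ 2) + ∫ x, V x * k x ^ 2) :
    ∃ (Φ : E → ℝ) (dΦ : E → E) (e : ℝ), H1 Φ dΦ ∧ (∫ x, Φ x ^ 2 = 1) ∧
      (∀ x, Φ (L₁ x) = σ * Φ x) ∧ (∀ x, Φ (L₂ x) = π * Φ x) ∧ 0 < ∫ x, φ x * Φ x ∧
      e ≤ (1 / 2) * (∫ x, ‖dφ x‖ ^ 2) + (∫ x, V x * φ x ^ 2) ∧
      (∀ (k : E → ℝ) (dk : E → E), H1 k dk →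
        (1 / 2) * (∫ x, inner ℝ (dΦ x) (dk x)) + (∫ x, V x * (Φ x * k x)) = e * ∫ x, Φ x * k x) ∧
      (∀ (k : E → ℝ) (dk : E → E), H1 k dk → (∀ᵐ x, k (L₁ x) = σ * k x) →
        (∀ᵐ x, k (L₂ x) = π * k x) →
        e * (∫ x, k x ^ 2) + (E₁ - e) * ((∫ x, k x ^ 2) - (∫ x, Φ x * k x) ^ 2) ≤
          (1 / 2) * (∫ x, ‖dk x‖ ^ 2) + ∫ x, V x * k x ^ 2) := sorry

/-- uniqueness in the sector: every isometry which preserves `V` and the sector preserves `Φ²` -/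
theorem sector_sq_inv {V : E → ℝ} {C : ℝ} (hV : H1S.FB V C) {L₁ L₂ L : E ≃ₗᵢ[ℝ] E} {σ π : ℝ}
    (hc1 : ∀ x, L (L₁ x) = L₁ (L x)) (hc2 : ∀ x, L (L₂ x) = L₂ (L x)) (hVL : ∀ x, V (L x) = V x)
    {Φ : E → ℝ} {dΦ : E → E} {e g : ℝ} (hg : 0 < g) (hΦ : H1 Φ dΦ) (hn : ∫ x, Φ x ^ 2 = 1)
    (h1 : ∀ x, Φ (L₁ x) = σ * Φ x) (h2 : ∀ x, Φ (L₂ x) = π * Φ x)
    (heq : ∀ (k : E → ℝ) (dk : E → E), H1 k dk →
      (1 / 2) * (∫ x, inner ℝ (dΦ x) (dk x)) + (∫ x, V x * (Φ x * k x)) = e * ∫ x, Φ x * k x)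
    (hsp : ∀ (k : E → ℝ) (dk : E → E), H1 k dk → (∀ᵐ x, k (L₁ x) = σ * k x) →
        (∀ᵐ x, k (L₂ x) = π * k x) →
        e * (∫ x, k x ^ 2) + g * ((∫ x, k x ^ 2) - (∫ x, Φ x * k x) ^ 2) ≤
          (1 / 2) * (∫ x, ‖dk x‖ ^ 2) + ∫ x, V x * k x ^ 2) :
    ∀ᵐ x, Φ (L x) ^ 2 = Φ x ^ 2 := sorry

end generic

/-! ### output (module IonCore) -/

theorem ion_core {cg C0 : ℝ} (hcg : 0 < cg) (hC : 1 ≤ C0) : ∃ D₀ : ℝ, 4 ≤ D₀ ∧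
    ∀ D : ℝ, D₀ ≤ D → ∀ (B : OBD cg C0 D) (d0 d1 dT : Y2 → Y2),
      IonProd D (2 * B.eg) (ph0 B.g) d0 → IonProd D (B.eg + B.eu) (ph1 B.g B.u) d1 →
      IonProd D (B.eg + B.eu) (phT B.g B.u) dT →
      ∃ K l' : ℝ, 1 ≤ K ∧ 0 < l' ∧ ∀ lam, 0 ≤ lam → lam ≤ l' → IonCore B d0 d1 dT K lam := sorry

end Crest.Agent.R335.II
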