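import Crest.Agent.R335.IonForm

/-!
Row 335 (S0521), ION BLOCK (helper517): lower bounds of the form of the ion at `λ = 0`, in every
sector, by slicing.
-/

set_option autoImplicit false
set_option linter.unusedSectionVars false
set_option linter.unusedVariables false

open MeasureTheory Filter Set Crest.MathPhysics.ThreeBody
open scoped ENNReal Topology ContDiff

noncomputable section
namespace Crest.Agent.R335
namespace IonF
open IonL

section gen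
variable {ι κ' : Type*} [Fintype ι] [DecidableEq ι] [Fintype κ'] [DecidableEq κ']
local notation "E" => EuclideanSpace ℝ ι

/-- one-body gap in one electron, all other coordinates being parameters -/
theorem slice_gap (p : ι ≃ Fin 3 ⊕ κ') {D eg eu e3 : ℝ} {g u : Pos3 → ℝ} {dg du : Pos3 → Pos3}
    (ob : OneBody D g u dg du eg eu e3) {k : E → ℝ} {dk : E → E} (hk : H1 k dk)
    (hV : Integrable (fun X : E => V2 D (pr1 p X) * k X ^ 2)) :
    eg * (∫ y, cL p g k y ^ 2) + eu * (∫ y, cL p u k y ^ 2) +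
      e3 * ((∫ X, k X ^ 2) - (∫ y, cL p g k y ^ 2) - ∫ y, cL p u k y ^ 2) ≤
      (1 / 2) * (∫ X, ‖pr1 p (dk X)‖ ^ 2) + ∫ X, V2 D (pr1 p X) * k X ^ 2 := by
  have m1 := memLp_pr1 p hk.memg
  have i1 : Integrable (fun X => ‖pr1 p (dk X)‖ ^ 2) := m1.norm.integrable_sq
  have iN := slice_sq_int' p hk.memf
  have iG := (cL_memLp p ob.hg.memf hk.memf).integrable_sq
  have iU := (cL_memLp p ob.hu.memf hk.memf).integrable_sq
  have j1 : Integrable (fun y => ∫ x, ‖pr1 p (dk (jn p x y))‖ ^ 2) :=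
    ((integrable_jn p).2 i1).integral_prod_right
  have j2 : Integrable (fun y => ∫ x, V2 D (pr1 p (jn p x y)) * k (jn p x y) ^ 2) :=
    ((integrable_jn p).2 hV).integral_prod_right
  have j3 : Integrable (fun y => (1 / 2) * ∫ x, ‖pr1 p (dk (jn p x y))‖ ^ 2) := j1.const_mul _
  have a1 : Integrable (fun y => eg * cL p g k y ^ 2) := iG.const_mul _
  have a2 : Integrable (fun y => eu * cL p u k y ^ 2) := iU.const_mul _
  have a12 : Integrable (fun y => eg * cL p g k y ^ 2 + eu * cL p u k y ^ 2) := a1.add a2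
  have a4 : Integrable (fun y => (∫ x, k (jn p x y) ^ 2) - cL p g k y ^ 2) := iN.sub iG
  have a5 : Integrable (fun y => (∫ x, k (jn p x y) ^ 2) - cL p g k y ^ 2 - cL p u k y ^ 2) :=
    a4.sub iU
  have a3 : Integrable (fun y => e3 * ((∫ x, k (jn p x y) ^ 2) - cL p g k y ^ 2 -
    cL p u k y ^ 2)) := a5.const_mul _
  have hL : ∫ y, (eg * cL p g k y ^ 2 + eu * cL p u k y ^ 2 +
      e3 * ((∫ x, k (jn p x y) ^ 2) - cL p g k y ^ 2 - cL p u k y ^ 2)) =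
      eg * (∫ y, cL p g k y ^ 2) + eu * (∫ y, cL p u k y ^ 2) +
      e3 * ((∫ y, ∫ x, k (jn p x y) ^ 2) - (∫ y, cL p g k y ^ 2) - ∫ y, cL p u k y ^ 2) := by
    rw [integral_add a12 a3, integral_add a1 a2, integral_const_mul, integral_const_mul,
      integral_const_mul, integral_sub a4 iU, integral_sub iN iG]
  have hR : ∫ y, ((1 / 2) * (∫ x, ‖pr1 p (dk (jn p x y))‖ ^ 2) +
      ∫ x, V2 D (pr1 p (jn p x y)) * k (jn p x y) ^ 2) =
      (1 / 2) * (∫ y, ∫ x, ‖pr1 p (dk (jn p x y))‖ ^ 2) +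
      ∫ y, ∫ x, V2 D (pr1 p (jn p x y)) * k (jn p x y) ^ 2 := by
    rw [integral_add j3 j2, integral_const_mul]
  rw [integral_jn' p i1, integral_jn' p hV, integral_jn' p hk.memf.integrable_sq, ← hL, ← hR]
  refine integral_mono_ae (a12.add a3) (j3.add j2) ?_
  filter_upwards [H1.slice_left p hk] with y hy
  have h := ob.gap _ _ hy
  simp only [pr1_jn]
  exact h

end gen

variable {D eg eu e3 : ℝ} {g u : Pos3 → ℝ} {dg du : Pos3 → Pos3}

theorem V2_pr1_int (D : ℝ) {k : Y2 → ℝ} {dk : Y2 → Y2} (hk : H1 k dk) :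
    Integrable (fun X : Y2 => V2 D (pr1 p6 X) * k X ^ 2) := by
  have h1 := (cl_one.coul (nuc D) hk one_pos).1
  have h2 := (cl_one.coul (nuc (-D)) hk one_pos).1
  refine (h1.neg.sub h2).congr (Eventually.of_forall fun x => ?_)
  simp only [Pi.sub_apply, Pi.neg_apply, pr1L_apply]
  unfold V2
  ring

theorem V2_pr2_int (D : ℝ) {k : Y2 → ℝ} {dk : Y2 → Y2} (hk : H1 k dk) :
    Integrable (fun X : Y2 => V2 D (pr2 p6 X) * k X ^ 2) := by
  have h1 := (cl_two.coul (nuc D) hk one_pos).1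
  have h2 := (cl_two.coul (nuc (-D)) hk one_pos).1
  refine (h1.neg.sub h2).congr (Eventually.of_forall fun x => ?_)
  simp only [Pi.sub_apply, Pi.neg_apply, pr2L_apply]
  unfold V2
  ring

theorem k2_slices (D : ℝ) {k : Y2 → ℝ} {dk : Y2 → Y2} (hk : H1 k dk) :
    k2 D 0 k dk k dk =
      ((1 / 2) * (∫ X, ‖pr1 p6 (dk X)‖ ^ 2) + ∫ X, V2 D (pr1 p6 X) * k X ^ 2) +
      ((1 / 2) * (∫ X, ‖pr1 q6 (dk X)‖ ^ 2) + ∫ X, V2 D (pr1 q6 X) * k X ^ 2) := by
  have m1 := (memLp_pr1 p6 hk.memg).norm.integrable_sq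
  have m2 := (memLp_pr2 p6 hk.memg).norm.integrable_sq
  have v1 := V2_pr1_int D hk
  have v2 := V2_pr2_int D hk
  have e1 : ∫ X, ‖dk X‖ ^ 2 = (∫ X, ‖pr1 p6 (dk X)‖ ^ 2) + ∫ X, ‖pr2 p6 (dk X)‖ ^ 2 := by
    rw [← integral_add m1 m2]
    congr 1; funext X
    exact norm_sq_jn p6 (dk X)
  have e2 : ∫ X, Vion D 0 X * k X ^ 2 = (∫ X, V2 D (pr1 p6 X) * k X ^ 2) +
      ∫ X, V2 D (pr2 p6 X) * k X ^ 2 := by
    rw [← integral_add v1 v2]
    congr 1; funext X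
    unfold Vion
    rw [el_zero, el_one, zero_div]
    ring
  rw [k2_self, e1, e2]
  simp only [pr1_q6]
  ring

theorem cL_q6 (h : Pos3 → ℝ) (k : Y2 → ℝ) : cL q6 h k = IonL.cR p6 h k := by
  funext y
  unfold cL IonL.cR q6
  simp only [jn_comm]

/-- `λ = 0`, master inequality -/
theorem low0 (ob : OneBody D g u dg du eg eu e3) (hgu : ∫ x, g x * u x = 0)
    {k : Y2 → ℝ} {dk : Y2 → Y2} (hk : H1 k dk) :
    (eg + e3) * (∫ X, k X ^ 2) - (e3 - eu) * (cc p6 g g k ^ 2 + cc p6 g u k ^ 2 +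
      cc p6 u g k ^ 2 + cc p6 u u k ^ 2) - (eu - eg) * cc p6 g g k ^ 2 +
      (eu - eg) * cc p6 u u k ^ 2 ≤ k2 D 0 k dk k dk := by
  have h1 := slice_gap p6 ob hk (V2_pr1_int D hk)
  have h2 := slice_gap q6 ob hk (by
    simp only [pr1_q6]; exact V2_pr2_int D hk)
  rw [cL_q6, cL_q6] at h2
  have hI := ineq_I p6 ob.hg.memf ob.hu.memf ob.hg.memf ob.hu.memf hk.memf ob.ng ob.nu hgu
    ob.ng ob.nu hgu
  have hII := ineq_II p6 ob.hg.memf ob.hu.memf ob.hg.memf ob.hu.memf hk.memf ob.ng ob.nu hgu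
    ob.ng ob.nu hgu
  have hb : 0 ≤ e3 - eu := by linarith [ob.eu_lt]
  have hw : 0 ≤ eu - eg := by linarith [ob.eg_lt]
  have hI' := mul_le_mul_of_nonneg_left hI hb
  have hII' := mul_le_mul_of_nonneg_left hII hw
  rw [k2_slices D hk]
  nlinarith [h1, h2, hI', hII']

/-- Bessel for the four products -/
theorem bessel4 (ob : OneBody D g u dg du eg eu e3) (hgu : ∫ x, g x * u x = 0)
    {k : Y2 → ℝ} (hk : MemLp k 2 volume) :
    cc p6 g g k ^ 2 + cc p6 g u k ^ 2 + cc p6 u g k ^ 2 + cc p6 u u k ^ 2 ≤ ∫ X, k X ^ 2 := by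
  have h1 := bessel_R p6 ob.hg.memf ob.hu.memf hk ob.ng ob.nu hgu
  have h2 := bessel2 ob.hg.memf ob.hu.memf (cR_memLp p6 ob.hg.memf hk) ob.ng ob.nu hgu
  have h3 := bessel2 ob.hg.memf ob.hu.memf (cR_memLp p6 ob.hu.memf hk) ob.ng ob.nu hgu
  rw [pair_cR p6 ob.hg.memf ob.hg.memf hk, pair_cR p6 ob.hu.memf ob.hg.memf hk] at h2
  rw [pair_cR p6 ob.hg.memf ob.hu.memf hk, pair_cR p6 ob.hu.memf ob.hu.memf hk] at h3
  linarith

/-! ### parity and exchange of the four coefficients -/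

theorem cc_el (f h : Pos3 → ℝ) (k : Y2 → ℝ) :
    cc p6 f h k = ∫ X, (f (el 0 X) * h (el 1 X)) * k X := by
  unfold cc
  simp only [el_zero, el_one]

theorem cc_par {f h : Pos3 → ℝ} {s t π : ℝ} (hf : ∀ x, f (rz x) = s * f x)
    (hh : ∀ x, h (rz x) = t * h x) {k : Y2 → ℝ} (hk : ∀ᵐ ξ, k (rxi ξ) = π * k ξ) :
    cc p6 f h k = s * t * π * cc p6 f h k := by
  rw [cc_el]
  conv_lhs => rw [← Sec.integral_comp rxi]
  rw [← integral_const_mul]
  refine integral_congr_ae ?_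
  filter_upwards [hk] with ξ hξ
  simp only [el_rxi, hf, hh, hξ]
  ring

theorem cc_ex {f h : Pos3 → ℝ} {σ : ℝ} {k : Y2 → ℝ} (hk : ∀ᵐ ξ, k (sxi ξ) = σ * k ξ) :
    cc p6 f h k = σ * cc p6 h f k := by
  rw [cc_el, cc_el]
  conv_lhs => rw [← Sec.integral_comp sxi]
  rw [← integral_const_mul]
  refine integral_congr_ae ?_
  filter_upwards [hk] with ξ hξ
  simp only [el_sxi_zero, el_sxi_one, hξ]
  ring

theorem pair_ph0 (g : Pos3 → ℝ) (k : Y2 → ℝ) : ∫ ξ, ph0 g ξ * k ξ = cc p6 g g k := by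
  rw [cc_el]; rfl

theorem cc_int (ob : OneBody D g u dg du eg eu e3) {f h : Pos3 → ℝ} (hf : MemLp f 2 volume)
    (hh : MemLp h 2 volume) {k : Y2 → ℝ} (hk : MemLp k 2 volume) :
    Integrable (fun X : Y2 => (f (el 0 X) * h (el 1 X)) * k X) :=
  (memLp_el hf hh).integrable_mul hk

theorem pair_ph1 (ob : OneBody D g u dg du eg eu e3) {k : Y2 → ℝ} (hk : MemLp k 2 volume) :
    ∫ ξ, ph1 g u ξ * k ξ = -(cc p6 u g k + cc p6 g u k) / √2 := by
  rw [cc_el, cc_el, ← integral_add (cc_int ob ob.hu.memf ob.hg.memf hk)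
    (cc_int ob ob.hg.memf ob.hu.memf hk), neg_div, ← integral_div, ← integral_neg]
  congr 1; funext ξ
  unfold ph1
  ring

theorem pair_phT (ob : OneBody D g u dg du eg eu e3) {k : Y2 → ℝ} (hk : MemLp k 2 volume) :
    ∫ ξ, phT g u ξ * k ξ = (cc p6 u g k - cc p6 g u k) / √2 := by
  rw [cc_el, cc_el, ← integral_sub (cc_int ob ob.hu.memf ob.hg.memf hk)
    (cc_int ob ob.hg.memf ob.hu.memf hk), ← integral_div]
  congr 1; funext ξ
  unfold phT
  ring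

theorem gpar (ob : OneBody D g u dg du eg eu e3) (x : Pos3) : g (rz x) = 1 * g x := by
  rw [ob.g_even, one_mul]

theorem upar (ob : OneBody D g u dg du eg eu e3) (x : Pos3) : u (rz x) = (-1) * u x := by
  rw [ob.u_odd]; ring

/-- sector T+ -/
theorem low_Tp (ob : OneBody D g u dg du eg eu e3) (hgu : ∫ x, g x * u x = 0)
    {k : Y2 → ℝ} {dk : Y2 → Y2} (hk : H1 k dk) (hex : ∀ᵐ ξ, k (sxi ξ) = (-1) * k ξ)
    (hpar : ∀ᵐ ξ, k (rxi ξ) = 1 * k ξ) :
    (eg + e3) * (∫ X, k X ^ 2) ≤ k2 D 0 k dk k dk := by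
  have h := low0 ob hgu hk
  have c1 := cc_par (gpar ob) (upar ob) hpar
  have c2 := cc_par (upar ob) (gpar ob) hpar
  have c3 := cc_ex (f := g) (h := g) hex
  have c4 := cc_ex (f := u) (h := u) hex
  have d1 : cc p6 g u k = 0 := by linarith
  have d2 : cc p6 u g k = 0 := by linarith
  have d3 : cc p6 g g k = 0 := by linarith
  have d4 : cc p6 u u k = 0 := by linarith
  rw [d1, d2, d3, d4] at h
  linarith

/-- sector S- -/
theorem low_Sm (ob : OneBody D g u dg du eg eu e3) (hgu : ∫ x, g x * u x = 0)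
    {k : Y2 → ℝ} {dk : Y2 → Y2} (hk : H1 k dk) (hex : ∀ᵐ ξ, k (sxi ξ) = 1 * k ξ)
    (hpar : ∀ᵐ ξ, k (rxi ξ) = (-1) * k ξ) :
    (eg + e3) * (∫ X, k X ^ 2) - (e3 - eu) * (∫ ξ, ph1 g u ξ * k ξ) ^ 2 ≤ k2 D 0 k dk k dk := by
  have h := low0 ob hgu hk
  have c1 := cc_par (gpar ob) (gpar ob) hpar
  have c2 := cc_par (upar ob) (upar ob) hpar
  have c3 := cc_ex (f := g) (h := u) hex
  have d1 : cc p6 g g k = 0 := by linarith
  have d2 : cc p6 u u k = 0 := by linarith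
  have d3 : cc p6 g u k = cc p6 u g k := by linarith
  have hP : (∫ ξ, ph1 g u ξ * k ξ) ^ 2 = 2 * cc p6 u g k ^ 2 := by
    rw [pair_ph1 ob hk.memf, div_pow, Real.sq_sqrt (by norm_num : (0 : ℝ) ≤ 2), d3]
    ring
  rw [d1, d2, d3] at h
  rw [hP]
  linarith

/-- sector T- -/
theorem low_Tm (ob : OneBody D g u dg du eg eu e3) (hgu : ∫ x, g x * u x = 0)
    {k : Y2 → ℝ} {dk : Y2 → Y2} (hk : H1 k dk) (hex : ∀ᵐ ξ, k (sxi ξ) = (-1) * k ξ)
    (hpar : ∀ᵐ ξ, k (rxi ξ) = (-1) * k ξ) :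
    (eg + e3) * (∫ X, k X ^ 2) - (e3 - eu) * (∫ ξ, phT g u ξ * k ξ) ^ 2 ≤ k2 D 0 k dk k dk := by
  have h := low0 ob hgu hk
  have c1 := cc_par (gpar ob) (gpar ob) hpar
  have c2 := cc_par (upar ob) (upar ob) hpar
  have c3 := cc_ex (f := g) (h := u) hex
  have d1 : cc p6 g g k = 0 := by linarith
  have d2 : cc p6 u u k = 0 := by linarith
  have d3 : cc p6 g u k = - cc p6 u g k := by linarith
  have hP : (∫ ξ, phT g u ξ * k ξ) ^ 2 = 2 * cc p6 u g k ^ 2 := by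
    rw [pair_phT ob hk.memf, div_pow, Real.sq_sqrt (by norm_num : (0 : ℝ) ≤ 2), d3]
    ring
  rw [d1, d2, d3] at h
  rw [hP]
  linarith

/-- sector S+ -/
theorem low_Sp (ob : OneBody D g u dg du eg eu e3) (hgu : ∫ x, g x * u x = 0)
    (hw : eu - eg ≤ e3 - eu)
    {k : Y2 → ℝ} {dk : Y2 → Y2} (hk : H1 k dk) (hex : ∀ᵐ ξ, k (sxi ξ) = 1 * k ξ)
    (hpar : ∀ᵐ ξ, k (rxi ξ) = 1 * k ξ) :
    (2 * eg + 2 * (eu - eg)) * (∫ X, k X ^ 2) - 2 * (eu - eg) * (∫ ξ, ph0 g ξ * k ξ) ^ 2 ≤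
      k2 D 0 k dk k dk := by
  have h := low0 ob hgu hk
  have c1 := cc_par (gpar ob) (upar ob) hpar
  have c2 := cc_par (upar ob) (gpar ob) hpar
  have d1 : cc p6 g u k = 0 := by linarith
  have d2 : cc p6 u g k = 0 := by linarith
  have hB := bessel4 ob hgu hk.memf
  rw [d1, d2] at h hB
  rw [pair_ph0]
  have := mul_le_mul_of_nonneg_left hB (sub_nonneg.2 hw)
  nlinarith [this, h]

/-- all sectors -/
theorem low_all (ob : OneBody D g u dg du eg eu e3) (hgu : ∫ x, g x * u x = 0)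
    {k : Y2 → ℝ} {dk : Y2 → Y2} (hk : H1 k dk) :
    (2 * eg + (eu - eg)) * (∫ X, k X ^ 2) - (eu - eg) * (∫ ξ, ph0 g ξ * k ξ) ^ 2 ≤
      k2 D 0 k dk k dk := by
  have h := low0 ob hgu hk
  have hB := bessel4 ob hgu hk.memf
  rw [pair_ph0]
  have hb : 0 ≤ e3 - eu := by linarith [ob.eu_lt]
  have hw : 0 ≤ eu - eg := by linarith [ob.eg_lt]
  have h1 := mul_le_mul_of_nonneg_left hB hb
  have h2 := mul_nonneg hw (sq_nonneg (cc p6 u u k))
  nlinarith [h1, h2, h]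

end IonF
end Crest.Agent.R335
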