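import Crest.Agent.R335.HSpace
import Crest.Agent.R335.HGlob2
import Crest.Agent.R335.HIface2

/-!
Row 335 (S0521), ION BLOCK (helper517): ground state of a symmetry sector (generic).
-/

set_option autoImplicit false
set_option linter.unusedSectionVars false

open MeasureTheory Filter Set
open scoped ENNReal Topology ContDiff

noncomputable section
namespace Crest.Agent.R335
namespace Sec
open H1S

variable {ι : Type*} [Fintype ι] [DecidableEq ι]

local notation "E" => EuclideanSpace ℝ ι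

theorem ae_comp (L : E ≃ₗᵢ[ℝ] E) {p : E → Prop} (h : ∀ᵐ x, p x) : ∀ᵐ x, p (L x) :=
  (L.measurePreserving.quasiMeasurePreserving).ae h

theorem integral_comp (L : E ≃ₗᵢ[ℝ] E) (f : E → ℝ) : ∫ x, f (L x) = ∫ x, f x :=
  L.measurePreserving.integral_comp L.toHomeomorph.measurableEmbedding f

theorem H1.compL {f : E → ℝ} {g : E → E} (h : H1 f g) (L : E ≃ₗᵢ[ℝ] E) :
    H1 (fun x => f (L x)) (fun x => L.symm (g (L x))) := by
  simpa using H1.comp_isometry h L 0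

/-- composition with an isometry, linear map on `H1S` -/
def compLin (L : E ≃ₗᵢ[ℝ] E) : H1S ι →ₗ[ℝ] H1S ι where
  toFun P := of (H1.compL (h1 P) L)
  map_add' P Q := by
    apply ext'
    refine (of_fn _).trans ?_
    refine EventuallyEq.trans ?_ (add_fn _ _).symm
    filter_upwards [ae_comp L (add_fn P Q), of_fn (H1.compL (h1 P) L),
      of_fn (H1.compL (h1 Q) L)] with x h1 h2 h3
    rw [h1, h2, h3]
  map_smul' c P := by
    apply ext'
    refine (of_fn _).trans ?_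
    refine EventuallyEq.trans ?_ (smul_fn _ _).symm
    filter_upwards [ae_comp L (smul_fn c P), of_fn (H1.compL (h1 P) L)] with x h1 h2
    rw [h1, h2]
    rfl

theorem compLin_apply (L : E ≃ₗᵢ[ℝ] E) (P : H1S ι) : compLin L P = of (H1.compL (h1 P) L) := rfl

theorem compLin_fn (L : E ≃ₗᵢ[ℝ] E) (P : H1S ι) :
    fn (compLin L P) =ᵐ[volume] fun x => fn P (L x) := by
  rw [compLin_apply]; exact of_fn _

theorem compLin_norm (L : E ≃ₗᵢ[ℝ] E) (P : H1S ι) : ‖compLin L P‖ = ‖P‖ := by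
  have h : ‖compLin L P‖ ^ 2 = ‖P‖ ^ 2 := by
    rw [compLin_apply, norm_of_sq, norm_sq_eq]
    congr 1
    · exact integral_comp L (fun x => fn P x ^ 2)
    · have : (fun x => ‖L.symm (gd P (L x))‖ ^ 2) = fun x => ‖gd P (L x)‖ ^ 2 := by
        funext x; rw [LinearIsometryEquiv.norm_map]
      rw [this]
      exact integral_comp L (fun x => ‖gd P x‖ ^ 2)
  exact (sq_eq_sq₀ (norm_nonneg _) (norm_nonneg _)).1 h

/-- continuous version -/
def compC (L : E ≃ₗᵢ[ℝ] E) : H1S ι →L[ℝ] H1S ι :=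
  (compLin L).mkContinuous 1 fun P => by rw [compLin_norm, one_mul]

theorem compC_fn (L : E ≃ₗᵢ[ℝ] E) (P : H1S ι) :
    fn (compC L P) =ᵐ[volume] fun x => fn P (L x) := compLin_fn L P

/-- the sector -/
def sec (L₁ L₂ : E ≃ₗᵢ[ℝ] E) (σ π : ℝ) : Submodule ℝ (H1S ι) :=
  (compC L₁ - σ • ContinuousLinearMap.id ℝ (H1S ι)).ker ⊓
    (compC L₂ - π • ContinuousLinearMap.id ℝ (H1S ι)).ker

theorem isClosed_sec (L₁ L₂ : E ≃ₗᵢ[ℝ] E) (σ π : ℝ) :
    IsClosed (sec L₁ L₂ σ π : Set (H1S ι)) :=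
  (ContinuousLinearMap.isClosed_ker _).inter (ContinuousLinearMap.isClosed_ker _)

theorem mem_ker_iff (L : E ≃ₗᵢ[ℝ] E) (σ : ℝ) (P : H1S ι) :
    P ∈ (compC L - σ • ContinuousLinearMap.id ℝ (H1S ι)).ker ↔
      ∀ᵐ x, fn P (L x) = σ * fn P x := by
  rw [LinearMap.mem_ker]
  constructor
  · intro h
    have h' : compC L P = σ • P := by
      have := h
      simp only [ContinuousLinearMap.coe_coe, _root_.sub_apply,
        _root_.smul_apply, ContinuousLinearMap.id_apply] at this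
      exact sub_eq_zero.1 this
    have h2 := compC_fn L P
    rw [h'] at h2
    filter_upwards [h2, smul_fn σ P] with x h3 h4
    rw [← h3, h4]
  · intro h
    have h' : compC L P = σ • P := by
      apply ext'
      filter_upwards [compC_fn L P, smul_fn σ P, h] with x h2 h3 h4
      rw [h2, h3, h4]
    simp only [ContinuousLinearMap.coe_coe, _root_.sub_apply,
        _root_.smul_apply, ContinuousLinearMap.id_apply]
    rw [h', sub_self]

theorem mem_sec (L₁ L₂ : E ≃ₗᵢ[ℝ] E) (σ π : ℝ) (P : H1S ι) :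
    P ∈ sec L₁ L₂ σ π ↔ (∀ᵐ x, fn P (L₁ x) = σ * fn P x) ∧
      (∀ᵐ x, fn P (L₂ x) = π * fn P x) := by
  unfold sec
  rw [Submodule.mem_inf, mem_ker_iff, mem_ker_iff]

/-- the symmetrisation of a function -/
def sym (L₁ L₂ : E ≃ₗᵢ[ℝ] E) (σ π : ℝ) (f : E → ℝ) (x : E) : ℝ :=
  (1 / 4) * (f x + σ * f (L₁ x) + (π * f (L₂ x) + σ * π * f (L₁ (L₂ x))))

/-- its gradient -/
def dsym (L₁ L₂ : E ≃ₗᵢ[ℝ] E) (σ π : ℝ) (g : E → E) (x : E) : E :=
  (1 / 4 : ℝ) • (g x + σ • L₁.symm (g (L₁ x)) +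
    (π • L₂.symm (g (L₂ x)) + (σ * π) • (L₂.trans L₁).symm (g (L₁ (L₂ x)))))

theorem H1.sym {L₁ L₂ : E ≃ₗᵢ[ℝ] E} (σ π : ℝ) {f : E → ℝ} {g : E → E} (h : H1 f g) :
    H1 (sym L₁ L₂ σ π f) (dsym L₁ L₂ σ π g) :=
  ((h.add ((H1.compL h L₁).const_mul σ)).add (((H1.compL h L₂).const_mul π).add
    ((H1.compL h (L₂.trans L₁)).const_mul (σ * π)))).const_mul (1 / 4)

theorem sym_L1 {L₁ L₂ : E ≃ₗᵢ[ℝ] E} (h11 : ∀ x, L₁ (L₁ x) = x)
    (h12 : ∀ x, L₁ (L₂ x) = L₂ (L₁ x)) {σ π : ℝ} (hσ : σ = 1 ∨ σ = -1) (f : E → ℝ) (x : E) :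
    sym L₁ L₂ σ π f (L₁ x) = σ * sym L₁ L₂ σ π f x := by
  unfold sym
  rw [h11, ← h12, h11]
  rcases hσ with rfl | rfl <;> ring

theorem sym_L2 {L₁ L₂ : E ≃ₗᵢ[ℝ] E} (h22 : ∀ x, L₂ (L₂ x) = x)
    {σ π : ℝ} (hπ : π = 1 ∨ π = -1) (f : E → ℝ) (x : E) :
    sym L₁ L₂ σ π f (L₂ x) = π * sym L₁ L₂ σ π f x := by
  unfold sym
  rw [h22]
  rcases hπ with rfl | rfl <;> ring

theorem sym_of_sec {L₁ L₂ : E ≃ₗᵢ[ℝ] E} {σ π : ℝ} (hσ : σ = 1 ∨ σ = -1) (hπ : π = 1 ∨ π = -1)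
    {f : E → ℝ} (h1 : ∀ᵐ x, f (L₁ x) = σ * f x) (h2 : ∀ᵐ x, f (L₂ x) = π * f x) :
    ∀ᵐ x, sym L₁ L₂ σ π f x = f x := by
  filter_upwards [h1, h2, ae_comp L₂ h1] with x a1 a2 a3
  unfold sym
  rw [a3, a2, a1]
  rcases hσ with rfl | rfl <;> rcases hπ with rfl | rfl <;> ring

/-- moving a symmetry to the other factor -/
theorem pair_comp {L : E ≃ₗᵢ[ℝ] E} (hL : ∀ x, L (L x) = x) {σ : ℝ} {Φ k : E → ℝ}
    (hΦ : ∀ x, Φ (L x) = σ * Φ x) (V : E → ℝ) (hV : ∀ x, V (L x) = V x) :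
    ∫ x, V x * (Φ x * (k (L x))) = σ * ∫ x, V x * (Φ x * k x) := by
  rw [← integral_comp L (fun x => V x * (Φ x * k (L x))), ← integral_const_mul]
  refine integral_congr_ae (Eventually.of_forall fun x => ?_)
  simp only
  rw [hV, hΦ, hL]; ring

/-! ### operators -/

theorem mem_sec' (L₁ L₂ : E ≃ₗᵢ[ℝ] E) (σ π : ℝ) (P : H1S ι) :
    P ∈ sec L₁ L₂ σ π ↔ compC L₁ P = σ • P ∧ compC L₂ P = π • P := by
  rw [mem_sec]
  constructor
  · rintro ⟨a, b⟩
    constructor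
    · apply ext'
      filter_upwards [compC_fn L₁ P, smul_fn σ P, a] with x h2 h3 h4
      rw [h2, h3, h4]
    · apply ext'
      filter_upwards [compC_fn L₂ P, smul_fn π P, b] with x h2 h3 h4
      rw [h2, h3, h4]
  · rintro ⟨a, b⟩
    constructor
    · have h2 := compC_fn L₁ P
      rw [a] at h2
      filter_upwards [h2, smul_fn σ P] with x h3 h4
      rw [← h3, h4]
    · have h2 := compC_fn L₂ P
      rw [b] at h2
      filter_upwards [h2, smul_fn π P] with x h3 h4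
      rw [← h3, h4]

theorem compC_compC (L₁ L₂ : E ≃ₗᵢ[ℝ] E) (P : H1S ι) :
    fn (compC L₁ (compC L₂ P)) =ᵐ[volume] fun x => fn P (L₂ (L₁ x)) := by
  filter_upwards [compC_fn L₁ (compC L₂ P), ae_comp L₁ (compC_fn L₂ P)] with x a b
  rw [a, b]

theorem compC_invol {L : E ≃ₗᵢ[ℝ] E} (hL : ∀ x, L (L x) = x) (P : H1S ι) :
    compC L (compC L P) = P := by
  apply ext'
  filter_upwards [compC_compC L L P] with x a
  rw [a, hL]

theorem compC_comm {L₁ L₂ : E ≃ₗᵢ[ℝ] E} (h12 : ∀ x, L₁ (L₂ x) = L₂ (L₁ x)) (P : H1S ι) :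
    compC L₁ (compC L₂ P) = compC L₂ (compC L₁ P) := by
  apply ext'
  filter_upwards [compC_compC L₁ L₂ P, compC_compC L₂ L₁ P] with x a b
  rw [a, b, h12]

theorem nF_comp (L : E ≃ₗᵢ[ℝ] E) (P Q : H1S ι) : nF ι (compC L P) (compC L Q) = nF ι P Q := by
  have h1 := nF_apply (compC L P) (compC L Q)
  have h2 := nF_apply P Q
  refine h1.trans (Eq.trans ?_ h2.symm)
  have h3 := integral_comp L (fun x => fn P x * fn Q x)
  refine Eq.trans ?_ h3
  refine integral_congr_ae ?_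
  filter_upwards [compC_fn L P, compC_fn L Q] with x a b
  rw [a, b]

theorem compC_gd (L : E ≃ₗᵢ[ℝ] E) (P : H1S ι) :
    gd (compC L P) =ᵐ[volume] fun x => L.symm (gd P (L x)) := by
  have : compC L P = of (H1.compL (h1 P) L) := rfl
  rw [this]; exact of_gd _

theorem dF_comp (L : E ≃ₗᵢ[ℝ] E) (P Q : H1S ι) : dF ι (compC L P) (compC L Q) = dF ι P Q := by
  have h1 := dF_apply (compC L P) (compC L Q)
  have h2 := dF_apply P Q
  refine h1.trans (Eq.trans ?_ h2.symm)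
  have h3 := integral_comp L (fun x => inner ℝ (gd P x) (gd Q x))
  refine Eq.trans ?_ h3
  refine integral_congr_ae ?_
  filter_upwards [compC_gd L P, compC_gd L Q] with x a b
  rw [a, b, LinearIsometryEquiv.inner_map_map]

theorem VF_comp {V : E → ℝ} {C : ℝ} (hV : FB V C) (L : E ≃ₗᵢ[ℝ] E) (hVL : ∀ x, V (L x) = V x)
    (P Q : H1S ι) : VF hV (compC L P) (compC L Q) = VF hV P Q := by
  have h1 := VF_apply hV (compC L P) (compC L Q)
  have h2 := VF_apply hV P Q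
  refine h1.trans (Eq.trans ?_ h2.symm)
  have h3 := integral_comp L (fun x => V x * (fn P x * fn Q x))
  refine Eq.trans ?_ h3
  refine integral_congr_ae ?_
  filter_upwards [compC_fn L P, compC_fn L Q] with x a b
  rw [a, b, hVL]

/-- the form `½∫∇f·∇k + ∫V f k` -/
def qF {V : E → ℝ} {C : ℝ} (hV : FB V C) : H1S ι →L[ℝ] H1S ι →L[ℝ] ℝ :=
  (1 / 2 : ℝ) • dF ι + VF hV

theorem qF_apply {V : E → ℝ} {C : ℝ} (hV : FB V C) (P Q : H1S ι) :
    qF hV P Q = (1 / 2) * dF ι P Q + VF hV P Q := rfl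

theorem qF_symm {V : E → ℝ} {C : ℝ} (hV : FB V C) (P Q : H1S ι) : qF hV P Q = qF hV Q P := by
  have h1 := qF_apply hV P Q
  have h2 := qF_apply hV Q P
  have h3 := dF_symm P Q
  have h4 := VF_symm hV P Q
  linarith

theorem qF_self {V : E → ℝ} {C : ℝ} (hV : FB V C) (P : H1S ι) :
    qF hV P P = (1 / 2) * (∫ x, ‖gd P x‖ ^ 2) + ∫ x, V x * fn P x ^ 2 := by
  have h1 := qF_apply hV P P
  have h3 := dF_self P
  have h4 := VF_self hV P
  linarith

theorem qF_of {V : E → ℝ} {C : ℝ} (hV : FB V C) {f k : E → ℝ} {g l : E → E} (h : H1 f g)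
    (h' : H1 k l) : qF hV (of h) (of h') =
      (1 / 2) * (∫ x, inner ℝ (g x) (l x)) + ∫ x, V x * (f x * k x) := by
  have h1 := qF_apply hV (of h) (of h')
  have h3 := dF_of h h'
  have h4 := VF_of hV h h'
  linarith

theorem qF_of_self {V : E → ℝ} {C : ℝ} (hV : FB V C) {f : E → ℝ} {g : E → E} (h : H1 f g) :
    qF hV (of h) (of h) = (1 / 2) * (∫ x, ‖g x‖ ^ 2) + ∫ x, V x * f x ^ 2 := by
  have h1 := qF_of hV h h
  have h2 : ∫ x, inner ℝ (g x) (g x) = ∫ x, ‖g x‖ ^ 2 :=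
    integral_congr_ae (Eventually.of_forall fun x => by simp)
  have h3 : ∫ x, V x * (f x * f x) = ∫ x, V x * f x ^ 2 :=
    integral_congr_ae (Eventually.of_forall fun x => by simp [sq])
  rw [h2, h3] at h1
  exact h1

theorem nF_of_self {f : E → ℝ} {g : E → E} (h : H1 f g) : nF ι (of h) (of h) = ∫ x, f x ^ 2 := by
  have h1 := nF_of h h
  refine h1.trans ?_
  exact integral_congr_ae (Eventually.of_forall fun x => by simp [sq])

theorem qF_left_of {V : E → ℝ} {C : ℝ} (hV : FB V C) {k : E → ℝ} {l : E → E} (P : H1S ι)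
    (h' : H1 k l) : qF hV P (of h') =
      (1 / 2) * (∫ x, inner ℝ (gd P x) (l x)) + ∫ x, V x * (fn P x * k x) := by
  have h1 := qF_apply hV P (of h')
  have h3 := dF_left_of P h'
  have h4 := VF_left_of hV P h'
  linarith

theorem qF_comp {V : E → ℝ} {C : ℝ} (hV : FB V C) (L : E ≃ₗᵢ[ℝ] E) (hVL : ∀ x, V (L x) = V x)
    (P Q : H1S ι) : qF hV (compC L P) (compC L Q) = qF hV P Q := by
  have h1 := qF_apply hV P Q
  have h2 := qF_apply hV (compC L P) (compC L Q)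
  have h3 := dF_comp L P Q
  have h4 := VF_comp hV L hVL P Q
  linarith

theorem nF_nonneg (P : H1S ι) : 0 ≤ nF ι P P := by
  have h := nF_self P
  have h2 : 0 ≤ ∫ x, fn P x ^ 2 := integral_nonneg fun x => by positivity
  linarith

theorem nF_eq_zero {P : H1S ι} (h : nF ι P P = 0) : P = 0 := by
  have h' := nF_self P
  have h2 : ∫ x, fn P x ^ 2 = 0 := by linarith
  rw [integral_eq_zero_iff_of_nonneg (fun x => by positivity) (h1 P).memf.integrable_sq] at h2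
  apply ext'
  filter_upwards [h2, zero_fn (ι := ι)] with x a b
  rw [b]
  simpa using a

end Sec
end Crest.Agent.R335
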