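import Crest.Agent.R335.KSlab
import Crest.Agent.R335.KDefs
import Crest.Agent.R335.HMoll

/-!
Row 335 (S0521), Kohn-Sham side, module KPot: the potential class `L^{3/2} + L^∞`.
-/

set_option autoImplicit false
set_option linter.unusedVariables false

open MeasureTheory Filter Set Crest.MathPhysics.ThreeBody
open scoped ENNReal NNReal Topology ContDiff

noncomputable section
namespace Crest.Agent.R335

/-- norm of the derivative against the norm of the gradient -/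
theorem norm_fderiv_le_gr {ι : Type*} [Fintype ι] [DecidableEq ι]
    (φ : EuclideanSpace ℝ ι → ℝ) (x : EuclideanSpace ℝ ι) :
    ‖fderiv ℝ φ x‖ ≤ ‖gr φ x‖ := by
  refine ContinuousLinearMap.opNorm_le_bound _ (norm_nonneg _) fun v => ?_
  have hv : v = ∑ i, v i • EuclideanSpace.single i (1 : ℝ) := by
    ext j
    simp [Pi.single_apply]
  have h1 : fderiv ℝ φ x v = inner ℝ (gr φ x) v := by
    conv_lhs => rw [hv]
    rw [map_sum, PiLp.inner_apply]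
    refine Finset.sum_congr rfl fun i _ => ?_
    simp [pd]
  rw [h1]
  exact norm_inner_le_norm _ _

/-- Sobolev inequality on `H¹(ℝ³)` -/
theorem H1.sobolev6 : ∃ S : ℝ≥0, ∀ (f : Pos3 → ℝ) (g : Pos3 → Pos3), H1 f g →
    eLpNorm f 6 volume ≤ S * eLpNorm g 2 volume := by
  refine ⟨SNormLESNormFDerivOfEqConst ℝ (volume : Measure Pos3) (2 : ℝ), fun f g h => ?_⟩
  set S := SNormLESNormFDerivOfEqConst ℝ (volume : Measure Pos3) (2 : ℝ) with hS
  have htest : ∀ φ : Pos3 → ℝ, Test univ φ →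
      eLpNorm φ 6 volume ≤ S * eLpNorm (gr φ) 2 volume := by
    intro φ hφ
    have h1 : ContDiff ℝ 1 φ := hφ.smooth.of_le (by exact_mod_cast le_top)
    have h2 := eLpNorm_le_eLpNorm_fderiv_of_eq (volume : Measure Pos3) (u := φ) h1 hφ.cpt
      (p := 2) (p' := 6) (by norm_num) (by simp) (by simp; norm_num)
    have h3 : eLpNorm (fderiv ℝ φ) 2 (volume : Measure Pos3) ≤ eLpNorm (gr φ) 2 volume :=
      eLpNorm_mono fun x => norm_fderiv_le_gr φ x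
    calc eLpNorm φ 6 volume ≤ S * eLpNorm (fderiv ℝ φ) 2 (volume : Measure Pos3) := by
          simpa [hS] using h2
      _ ≤ S * eLpNorm (gr φ) 2 volume := by gcongr
  obtain ⟨φ, hφ, hc, hcg, -⟩ := H1.approx h
  have hm : TendstoInMeasure volume φ atTop f := by
    refine tendstoInMeasure_of_tendsto_eLpNorm (p := 2) (by norm_num)
      (fun n => ((hφ n).smooth.continuous.aestronglyMeasurable)) h.memf.1 ?_
    exact hc
  obtain ⟨ns, hns, hae⟩ := hm.exists_seq_tendsto_ae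
  have h1 : eLpNorm f 6 volume ≤ atTop.liminf fun n => eLpNorm (φ (ns n)) 6 volume :=
    Lp.eLpNorm_lim_le_liminf_eLpNorm
      (fun n => ((hφ _).smooth.continuous.aestronglyMeasurable)) f hae
  have hgm : ∀ n, AEStronglyMeasurable (gr (φ n)) (volume : Measure Pos3) := by
    intro n
    have h1 : ContDiff ℝ 1 (φ n) := (hφ n).smooth.of_le (by exact_mod_cast le_top)
    have h2 : Continuous (gr (φ n)) :=
      (PiLp.continuous_toLp 2 _).comp (continuous_pi fun i =>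
        (h1.continuous_fderiv one_ne_zero).clm_apply continuous_const)
    exact h2.aestronglyMeasurable
  have h2 : ∀ n, eLpNorm (φ (ns n)) 6 volume ≤
      S * (eLpNorm g 2 volume + eLpNorm (fun x => gr (φ (ns n)) x - g x) 2 volume) := by
    intro n
    refine (htest _ (hφ _)).trans ?_
    gcongr
    have h3 : gr (φ (ns n)) = g + fun x => gr (φ (ns n)) x - g x := by
      ext1 x; simp
    calc eLpNorm (gr (φ (ns n))) 2 volume
        = eLpNorm (g + fun x => gr (φ (ns n)) x - g x) 2 volume := by rw [← h3]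
      _ ≤ _ := eLpNorm_add_le h.memg.1 ((hgm _).sub h.memg.1) (by norm_num)
  have h3 : Tendsto (fun n => (S : ℝ≥0∞) * (eLpNorm g 2 volume +
      eLpNorm (fun x => gr (φ (ns n)) x - g x) 2 volume)) atTop
      (𝓝 (S * (eLpNorm g 2 volume + 0))) := by
    refine ENNReal.Tendsto.const_mul ?_ (Or.inr ENNReal.coe_ne_top)
    exact tendsto_const_nhds.add (hcg.comp hns.tendsto_atTop)
  rw [add_zero] at h3
  refine h1.trans ?_
  rw [← h3.liminf_eq]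
  exact liminf_le_liminf (Eventually.of_forall h2)


/-- Hoelder: `∫ |v| f² ≤ ‖v‖_{3/2} ‖f‖_6²` -/
theorem lint_hoelder {v f : Pos3 → ℝ} (hv : AEStronglyMeasurable v volume)
    (hf : AEStronglyMeasurable f volume) :
    ∫⁻ x, ‖v x‖ₑ * ‖f x‖ₑ ^ 2 ≤ eLpNorm v (3 / 2 : ℝ≥0∞) volume * eLpNorm f 6 volume ^ 2 := by
  have hpq : (3 / 2 : ℝ).HolderConjugate 3 := by
    rw [Real.holderConjugate_iff]; norm_num
  have h := ENNReal.lintegral_mul_le_Lp_mul_Lq (volume : Measure Pos3) hpq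
    (f := fun x => ‖v x‖ₑ) (g := fun x => ‖f x‖ₑ ^ 2) hv.enorm (hf.enorm.pow_const 2)
  refine h.trans (le_of_eq ?_)
  have e32 : (3 / 2 : ℝ≥0∞).toReal = 3 / 2 := by
    rw [ENNReal.toReal_div]; norm_num
  have ne0 : (3 / 2 : ℝ≥0∞) ≠ 0 := by simp
  have net : (3 / 2 : ℝ≥0∞) ≠ ⊤ := by
    exact ENNReal.div_ne_top (by norm_num) (by norm_num)
  congr 1
  · rw [eLpNorm_eq_lintegral_rpow_enorm_toReal ne0 net, e32]
  · rw [eLpNorm_eq_lintegral_rpow_enorm_toReal (by norm_num) (by norm_num)]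
    rw [← ENNReal.rpow_natCast, ← ENNReal.rpow_mul]
    have : (6 : ℝ≥0∞).toReal = 6 := by norm_num
    rw [this]
    have h2 : ∀ x, (‖f x‖ₑ ^ 2) ^ (3 : ℝ) = ‖f x‖ₑ ^ (6 : ℝ) := by
      intro x
      rw [← ENNReal.rpow_natCast, ← ENNReal.rpow_mul]
      norm_num
    simp only [h2]
    norm_num

theorem lint_sq_le {f : Pos3 → ℝ} : ∫⁻ x, ‖f x‖ₑ ^ 2 = eLpNorm f 2 volume ^ 2 := by
  rw [eLpNorm_eq_lintegral_rpow_enorm_toReal (by norm_num) (by norm_num)]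
  rw [← ENNReal.rpow_natCast, ← ENNReal.rpow_mul]
  simp

theorem lint_sq_leV {f : Pos3 → Pos3} : ∫⁻ x, ‖f x‖ₑ ^ 2 = eLpNorm f 2 volume ^ 2 := by
  rw [eLpNorm_eq_lintegral_rpow_enorm_toReal (by norm_num) (by norm_num)]
  rw [← ENNReal.rpow_natCast, ← ENNReal.rpow_mul]
  simp

/-- the form bound in `ℝ≥0∞`, on a measurable set for the bounded part -/
theorem class_lint {v : Pos3 → ℝ} (hv : IsSumClassPotential v) {ε : ℝ≥0∞} (hε : 0 < ε) :
    ∃ C : ℝ≥0, ∀ f g, H1 f g → ∀ A : Set Pos3, MeasurableSet A →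
      ∫⁻ x in A, ‖v x‖ₑ * ‖f x‖ₑ ^ 2 ≤
        ε * (∫⁻ x, ‖g x‖ₑ ^ 2) + C * ∫⁻ x in A, ‖f x‖ₑ ^ 2 := by
  obtain ⟨v1, v2, rfl, h1, h2⟩ := hv
  obtain ⟨S, hS⟩ := H1.sobolev6
  -- choose the level
  obtain ⟨η, hη0, hη⟩ : ∃ η : ℝ, 0 < η ∧ ENNReal.ofReal η * (S : ℝ≥0∞) ^ 2 ≤ ε := by
    obtain ⟨r, hr0, hrε⟩ : ∃ r : ℝ≥0, 0 < r ∧ (r : ℝ≥0∞) ≤ ε := by
      obtain ⟨r, hr0, hr⟩ := ENNReal.lt_iff_exists_nnreal_btwn.1 hε
      exact ⟨r, by exact_mod_cast hr0, hr.le⟩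
    refine ⟨r / (S ^ 2 + 1), by positivity, ?_⟩
    have hS1 : (0 : ℝ) < (S : ℝ) ^ 2 + 1 := by positivity
    have : ENNReal.ofReal (r / (S ^ 2 + 1)) * (S : ℝ≥0∞) ^ 2 =
        ENNReal.ofReal (r / (S ^ 2 + 1) * S ^ 2) := by
      rw [ENNReal.ofReal_mul (by positivity), ENNReal.ofReal_pow (by positivity),
        ENNReal.ofReal_coe_nnreal]
    rw [this]
    refine le_trans ?_ hrε
    rw [← ENNReal.ofReal_coe_nnreal (p := r)]
    refine ENNReal.ofReal_le_ofReal ?_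
    rw [div_mul_eq_mul_div, div_le_iff₀ hS1]
    nlinarith [r.coe_nonneg, sq_nonneg (S : ℝ)]
  set u : Pos3 → ℝ := h1.1.mk v1 with hu
  have huv : v1 =ᵐ[volume] u := h1.1.ae_eq_mk
  have husm : StronglyMeasurable u := h1.1.stronglyMeasurable_mk
  have hum : MemLp u (3 / 2 : ℝ≥0∞) volume := h1.ae_eq huv
  obtain ⟨M, hM0, hM⟩ := hum.eLpNorm_indicator_norm_ge_pos_le husm hη0
  set K : ℝ≥0∞ := eLpNorm v2 ⊤ volume with hK
  have hKt : K < ⊤ := h2.2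
  have hK2 : ∀ᵐ x, ‖v2 x‖ₑ ≤ K := by
    rw [hK, eLpNorm_exponent_top]
    exact enorm_ae_le_eLpNormEssSup v2 volume
  refine ⟨M.toNNReal + K.toNNReal, fun f g h A hA => ?_⟩
  set B : Set Pos3 := {x | M ≤ ‖u x‖₊} with hB
  have hBm : MeasurableSet B := by
    exact measurableSet_le measurable_const husm.measurable.nnnorm.coe_nnreal_real
  set D : ℝ≥0∞ := ((M.toNNReal + K.toNNReal : ℝ≥0) : ℝ≥0∞) with hD
  have hDe : D = ENNReal.ofReal M + K := by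
    rw [hD, ENNReal.coe_add, ENNReal.coe_toNNReal hKt.ne]
    rfl
  have hpt : ∀ᵐ x ∂(volume.restrict A), ‖(v1 + v2) x‖ₑ * ‖f x‖ₑ ^ 2 ≤
      ‖B.indicator u x‖ₑ * ‖f x‖ₑ ^ 2 + D * ‖f x‖ₑ ^ 2 := by
    refine ae_restrict_of_ae ?_
    filter_upwards [huv, hK2] with x hx1 hx2
    rw [← add_mul]
    gcongr
    have h3 : ‖(v1 + v2) x‖ₑ ≤ ‖u x‖ₑ + ‖v2 x‖ₑ := by
      rw [Pi.add_apply, hx1]
      exact enorm_add_le _ _
    have h4 : ‖u x‖ₑ ≤ ‖B.indicator u x‖ₑ + ENNReal.ofReal M := by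
      by_cases hx : x ∈ B
      · rw [indicator_of_mem hx]
        exact le_self_add
      · rw [indicator_of_notMem hx]
        simp only [enorm_zero, zero_add]
        have h5 : ‖u x‖ < M := by
          have := hx
          simp only [hB, mem_ofPred_eq, not_le, coe_nnnorm] at this
          exact this
        rw [← ofReal_norm]
        exact ENNReal.ofReal_le_ofReal h5.le
    calc ‖(v1 + v2) x‖ₑ ≤ ‖u x‖ₑ + ‖v2 x‖ₑ := h3
      _ ≤ (‖B.indicator u x‖ₑ + ENNReal.ofReal M) + K := add_le_add h4 hx2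
      _ = ‖B.indicator u x‖ₑ + D := by rw [hDe, add_assoc]
  have hBu : AEStronglyMeasurable (B.indicator u) volume :=
    (husm.indicator hBm).aestronglyMeasurable
  have hfm := h.memf.1
  calc ∫⁻ x in A, ‖(v1 + v2) x‖ₑ * ‖f x‖ₑ ^ 2
      ≤ ∫⁻ x in A, (‖B.indicator u x‖ₑ * ‖f x‖ₑ ^ 2 + D * ‖f x‖ₑ ^ 2) := lintegral_mono_ae hpt
    _ = (∫⁻ x in A, ‖B.indicator u x‖ₑ * ‖f x‖ₑ ^ 2) + ∫⁻ x in A, D * ‖f x‖ₑ ^ 2 := by
        refine lintegral_add_left' ?_ _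
        exact ((hBu.enorm.mul (hfm.enorm.pow_const 2))).restrict
    _ ≤ (∫⁻ x, ‖B.indicator u x‖ₑ * ‖f x‖ₑ ^ 2) + D * ∫⁻ x in A, ‖f x‖ₑ ^ 2 := by
        refine add_le_add (setLIntegral_le_lintegral _ _) (le_of_eq ?_)
        exact lintegral_const_mul' _ _ ENNReal.coe_ne_top
    _ ≤ ε * (∫⁻ x, ‖g x‖ₑ ^ 2) + D * ∫⁻ x in A, ‖f x‖ₑ ^ 2 := by
        gcongr
        calc ∫⁻ x, ‖B.indicator u x‖ₑ * ‖f x‖ₑ ^ 2
            ≤ eLpNorm (B.indicator u) (3 / 2 : ℝ≥0∞) volume * eLpNorm f 6 volume ^ 2 :=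
              lint_hoelder hBu hfm
          _ ≤ ENNReal.ofReal η * (S * eLpNorm g 2 volume) ^ 2 := by
              gcongr
              exact hS f g h
          _ = (ENNReal.ofReal η * S ^ 2) * (∫⁻ x, ‖g x‖ₑ ^ 2) := by
              rw [lint_sq_leV]; ring
          _ ≤ ε * (∫⁻ x, ‖g x‖ₑ ^ 2) := by gcongr

theorem class_locInt {v : Pos3 → ℝ} (hv : IsSumClassPotential v) :
    LocallyIntegrable v volume := by
  obtain ⟨v1, v2, rfl, h1, h2⟩ := hv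
  refine (h1.locallyIntegrable ?_).add (h2.locallyIntegrable le_top)
  rw [ENNReal.le_div_iff_mul_le (Or.inl (by norm_num)) (Or.inl (by norm_num))]
  norm_num

theorem toReal_lint_sq {E : Type*} [NormedAddCommGroup E] {f : Pos3 → E}
    (hf : AEStronglyMeasurable f volume) :
    ∫ x, ‖f x‖ ^ 2 = (∫⁻ x, ‖f x‖ₑ ^ 2).toReal := by
  have h1 : AEStronglyMeasurable (fun x => ‖f x‖ ^ 2) volume := hf.norm.pow 2
  rw [integral_eq_lintegral_of_nonneg_ae (ae_of_all _ fun x => by positivity) h1]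
  congr 1
  refine lintegral_congr fun x => ?_
  rw [ENNReal.ofReal_pow (norm_nonneg _), ofReal_norm]

theorem lint_sq_ne_top {E : Type*} [NormedAddCommGroup E] {k : Pos3 → E}
    (h : MemLp k 2 volume) : ∫⁻ x, ‖k x‖ₑ ^ 2 ≠ ⊤ := by
  have h1 := h.2
  rw [eLpNorm_eq_lintegral_rpow_enorm_toReal (by norm_num) (by norm_num)] at h1
  have h2 := (ENNReal.rpow_lt_top_iff_of_pos (y := 1 / (2 : ℝ≥0∞).toReal) (by norm_num)).1 h1
  simpa using h2.ne

/-- Sobolev for the potential class, on `H¹` -/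
theorem class_bound {v : Pos3 → ℝ} (hv : IsSumClassPotential v) {ε : ℝ} (hε : 0 < ε) :
    ∃ C : ℝ, 0 ≤ C ∧ ∀ f g, H1 f g →
      Integrable (fun x => |v x| * f x ^ 2) ∧
      ∫ x, |v x| * f x ^ 2 ≤ ε * (∫ x, ‖g x‖ ^ 2) + C * ∫ x, f x ^ 2 := by
  obtain ⟨C, hC⟩ := class_lint hv (ε := ENNReal.ofReal ε) (by simpa using hε)
  refine ⟨C, C.coe_nonneg, fun f g h => ?_⟩
  have h1 := hC f g h univ MeasurableSet.univ
  rw [Measure.restrict_univ] at h1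
  have hg2 : ∫⁻ x, ‖g x‖ₑ ^ 2 ≠ ⊤ := lint_sq_ne_top h.memg
  have hf2 : ∫⁻ x, ‖f x‖ₑ ^ 2 ≠ ⊤ := lint_sq_ne_top h.memf
  have hvm : AEStronglyMeasurable v volume := (class_locInt hv).aestronglyMeasurable
  have hen : ∀ x, ‖|v x| * f x ^ 2‖ₑ = ‖v x‖ₑ * ‖f x‖ₑ ^ 2 := by
    intro x
    rw [enorm_mul, enorm_pow, ← Real.norm_eq_abs, enorm_norm]
  have hRt : ENNReal.ofReal ε * (∫⁻ x, ‖g x‖ₑ ^ 2) + C * ∫⁻ x, ‖f x‖ₑ ^ 2 ≠ ⊤ :=
    ENNReal.add_ne_top.2 ⟨ENNReal.mul_ne_top ENNReal.ofReal_ne_top hg2,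
      ENNReal.mul_ne_top ENNReal.coe_ne_top hf2⟩
  have hint : Integrable (fun x => |v x| * f x ^ 2) := by
    refine ⟨hvm.norm.mul (h.memf.1.pow 2), ?_⟩
    rw [hasFiniteIntegral_iff_enorm]
    simp only [hen]
    exact h1.trans_lt (lt_top_iff_ne_top.2 hRt)
  refine ⟨hint, ?_⟩
  have h2 : ∫ x, |v x| * f x ^ 2 = (∫⁻ x, ‖v x‖ₑ * ‖f x‖ₑ ^ 2).toReal := by
    rw [integral_eq_lintegral_of_nonneg_ae (ae_of_all _ fun x => by positivity) hint.1]
    congr 1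
    refine lintegral_congr fun x => ?_
    rw [← hen x, Real.enorm_of_nonneg (by positivity)]
  have h3 : ∫ x, f x ^ 2 = (∫⁻ x, ‖f x‖ₑ ^ 2).toReal := by
    rw [← toReal_lint_sq h.memf.1]
    simp
  rw [h2, h3, toReal_lint_sq h.memg.1]
  refine (ENNReal.toReal_mono hRt h1).trans (le_of_eq ?_)
  rw [ENNReal.toReal_add (ENNReal.mul_ne_top ENNReal.ofReal_ne_top hg2)
    (ENNReal.mul_ne_top ENNReal.coe_ne_top hf2), ENNReal.toReal_mul, ENNReal.toReal_mul,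
    ENNReal.toReal_ofReal hε.le]
  rfl

/-- potential energy in thin slabs -/
theorem class_slab {v : Pos3 → ℝ} (hv : IsSumClassPotential v) {ε : ℝ} (hε : 0 < ε) :
    ∃ d : ℝ, 0 < d ∧ ∀ f g, H1 f g →
      ∫ x in {x : Pos3 | |x 2| ≤ d}, |v x| * f x ^ 2 ≤
        ε * ((∫ x, ‖g x‖ ^ 2) + ∫ x, f x ^ 2) := by
  obtain ⟨C, hC⟩ := class_lint hv (ε := ENNReal.ofReal (ε / 2)) (by simpa using hε)
  refine ⟨ε / (4 * (C + 1)), by positivity, fun f g h => ?_⟩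
  set d : ℝ := ε / (4 * (C + 1)) with hd
  have hd0 : 0 < d := by positivity
  have hCd : C * (2 * d) ≤ ε / 2 := by
    have h1 : (0 : ℝ) < (C : ℝ) + 1 := by positivity
    have h2 : d * (4 * ((C : ℝ) + 1)) = ε := by rw [hd]; field_simp
    nlinarith [C.coe_nonneg]
  set A : Set Pos3 := {x : Pos3 | |x 2| ≤ d} with hA
  have hAm : MeasurableSet A := by
    refine measurableSet_le ?_ measurable_const
    fun_prop
  have h1 := hC f g h A hAm
  have hg2 : ∫⁻ x, ‖g x‖ₑ ^ 2 ≠ ⊤ := lint_sq_ne_top h.memg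
  have hf2 : ∫⁻ x, ‖f x‖ₑ ^ 2 ≠ ⊤ := lint_sq_ne_top h.memf
  have hfA : ∫⁻ x in A, ‖f x‖ₑ ^ 2 ≠ ⊤ :=
    ((setLIntegral_le_lintegral _ _).trans_lt (lt_top_iff_ne_top.2 hf2)).ne
  have hvm : AEStronglyMeasurable v volume := (class_locInt hv).aestronglyMeasurable
  have hRt : ENNReal.ofReal (ε / 2) * (∫⁻ x, ‖g x‖ₑ ^ 2) + C * ∫⁻ x in A, ‖f x‖ₑ ^ 2 ≠ ⊤ :=
    ENNReal.add_ne_top.2 ⟨ENNReal.mul_ne_top ENNReal.ofReal_ne_top hg2,
      ENNReal.mul_ne_top ENNReal.coe_ne_top hfA⟩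
  have m1 : AEStronglyMeasurable (fun x => |v x| * f x ^ 2) (volume.restrict A) :=
    (hvm.norm.mul (h.memf.1.pow 2)).restrict
  have m2 : AEStronglyMeasurable (fun x => f x ^ 2) (volume.restrict A) :=
    (h.memf.1.pow 2).restrict
  have h2 : ∫ x in A, |v x| * f x ^ 2 = (∫⁻ x in A, ‖v x‖ₑ * ‖f x‖ₑ ^ 2).toReal := by
    rw [integral_eq_lintegral_of_nonneg_ae (ae_of_all _ fun x => by positivity) m1]
    congr 1
    refine lintegral_congr fun x => ?_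
    rw [← Real.enorm_of_nonneg (by positivity), enorm_mul, enorm_pow, ← Real.norm_eq_abs,
      enorm_norm]
  have h3 : ∫ x in A, f x ^ 2 = (∫⁻ x in A, ‖f x‖ₑ ^ 2).toReal := by
    rw [integral_eq_lintegral_of_nonneg_ae (ae_of_all _ fun x => by positivity) m2]
    congr 1
    refine lintegral_congr fun x => ?_
    rw [← Real.enorm_of_nonneg (by positivity), enorm_pow]
  have h4 : ∫ x in A, |v x| * f x ^ 2 ≤
      ε / 2 * (∫ x, ‖g x‖ ^ 2) + C * ∫ x in A, f x ^ 2 := by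
    rw [h2, h3, toReal_lint_sq h.memg.1]
    refine (ENNReal.toReal_mono hRt h1).trans (le_of_eq ?_)
    rw [ENNReal.toReal_add (ENNReal.mul_ne_top ENNReal.ofReal_ne_top hg2)
      (ENNReal.mul_ne_top ENNReal.coe_ne_top hfA), ENNReal.toReal_mul, ENNReal.toReal_mul,
      ENNReal.toReal_ofReal (by positivity)]
    rfl
  have h5 := slab_bound h hd0
  have h6 : 0 ≤ ∫ x, ‖g x‖ ^ 2 := integral_nonneg fun x => by positivity
  have h7 : 0 ≤ ∫ x, f x ^ 2 := integral_nonneg fun x => by positivity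
  have h8 : (C : ℝ) * ∫ x in A, f x ^ 2 ≤ C * (2 * d * ((∫ x, ‖g x‖ ^ 2) + ∫ x, f x ^ 2)) :=
    mul_le_mul_of_nonneg_left h5 C.coe_nonneg
  have h9 : (C : ℝ) * (2 * d * ((∫ x, ‖g x‖ ^ 2) + ∫ x, f x ^ 2)) ≤
      ε / 2 * ((∫ x, ‖g x‖ ^ 2) + ∫ x, f x ^ 2) := by
    rw [← mul_assoc]
    exact mul_le_mul_of_nonneg_right hCd (add_nonneg h6 h7)
  nlinarith

end Crest.Agent.R335
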