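import Crest.Agent.R335.HIface
import Crest.Agent.R335.KPot
import Crest.Agent.R335.KTest
import Crest.Agent.R335.KDefs
import Crest.Agent.R335.HBasic
import Crest.Agent.R335.HChain
import Crest.Agent.R335.HProd
import Crest.Agent.R335.HLip

/-!
Row 335 (S0521): Agmon estimate (module KAgmon).
-/

set_option autoImplicit false
set_option linter.unusedVariables false

open MeasureTheory Filter Set Crest.MathPhysics.ThreeBody
open scoped ENNReal Topology ContDiff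

noncomputable section
namespace Crest.Agent.R335

/-- exponential weight `exp (k min(‖x‖, n))` -/
def wexp (k : ℝ) (n : ℕ) (x : Pos3) : ℝ := Real.exp (k * min ‖x‖ n)

theorem wexp_pos (k : ℝ) (n : ℕ) (x : Pos3) : 0 < wexp k n x := Real.exp_pos _

theorem wexp_le {k : ℝ} (hk : 0 < k) (n : ℕ) (x : Pos3) : wexp k n x ≤ Real.exp (k * n) :=
  Real.exp_le_exp.2 (mul_le_mul_of_nonneg_left (min_le_right _ _) hk.le)

theorem wexp_le_norm {k : ℝ} (hk : 0 < k) (n : ℕ) {x : Pos3} {r : ℝ} (hx : ‖x‖ ≤ r) :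
    wexp k n x ≤ Real.exp (k * r) :=
  Real.exp_le_exp.2 (mul_le_mul_of_nonneg_left ((min_le_left _ _).trans hx) hk.le)

theorem wexp_WG {k : ℝ} (hk : 0 < k) (n : ℕ) :
    ∃ l : Pos3 → Pos3, WG univ (wexp k n) l ∧ ∀ x, ‖l x‖ ≤ k * wexp k n x := by
  have hlip : LipschitzWith 1 (fun x : Pos3 => min ‖x‖ (n : ℝ)) := by
    have := (lipschitzWith_one_norm (E := Pos3)).min_const (n : ℝ)
    exact this
  obtain ⟨h1, h2⟩ := WG.of_lipschitz hlip
  have h3 := WG.comp_on isOpen_univ h1 (F := fun t => Real.exp (k * t))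
    (F' := fun t => k * Real.exp (k * t)) (a := ((0 : ℝ) : EReal)) (b := ((n : ℝ) : EReal))
    (Eventually.of_forall fun x => ⟨by exact_mod_cast le_min (norm_nonneg _) (Nat.cast_nonneg _),
      by exact_mod_cast min_le_right _ _⟩)
    (fun t _ _ => by
      have : HasDerivAt (fun t : ℝ => Real.exp (k * t)) (Real.exp (k * t) * (k * 1)) t :=
        ((hasDerivAt_id t).const_mul k).exp
      rw [mul_one, mul_comm] at this
      exact this)
    (by fun_prop) (C := k * Real.exp (k * n))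
    (fun t ht0 htn => by
      have htn' : t ≤ n := by exact_mod_cast htn
      rw [abs_of_nonneg (by positivity)]
      exact mul_le_mul_of_nonneg_left
        (Real.exp_le_exp.2 (mul_le_mul_of_nonneg_left htn' hk.le)) hk.le)
  refine ⟨_, h3, fun x => ?_⟩
  rw [norm_smul, Real.norm_eq_abs, abs_of_nonneg (by positivity)]
  calc k * Real.exp (k * min ‖x‖ n) * ‖gr (fun x : Pos3 => min ‖x‖ (n : ℝ)) x‖
      ≤ k * Real.exp (k * min ‖x‖ n) * 1 := by
        refine mul_le_mul_of_nonneg_left ?_ (by positivity)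
        exact_mod_cast h2 x
    _ = k * wexp k n x := by rw [mul_one]; rfl


/-- elementary: `(a + b)² ≤ (1+δ) a² + (1+1/δ) b²` -/
theorem ag_sq_add_le {a b δ : ℝ} (hδ : 0 < δ) :
    (a + b) ^ 2 ≤ (1 + δ) * a ^ 2 + (1 + 1 / δ) * b ^ 2 := by
  have h : 0 ≤ (δ * a - b) ^ 2 / δ := by positivity
  have h2 : (δ * a - b) ^ 2 / δ = δ * a ^ 2 - 2 * a * b + (1 / δ) * b ^ 2 := by
    field_simp
    ring
  nlinarith

/-- the identity for a localised solution -/
theorem ag_identity {v U : Pos3 → ℝ} {gU : Pos3 → Pos3} {e : ℝ} (hv : IsSumClassPotential v)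
    (hU : H1 U gU) {C : ℝ} (hb : ∀ᵐ x, |U x| ≤ C) (heq : WeakEq v e U gU)
    {K : Pos3 → ℝ} {G : Pos3 → Pos3} (hK : WG univ K G) {D : ℝ} (hK1 : ∀ x, |K x| ≤ D)
    (hG1 : ∀ x, ‖G x‖ ≤ D) {r : ℝ} (hKs : ∀ x, r ≤ ‖x‖ → K x = 0) :
    BT (fun x => K x * U x) (fun x => K x • gU x + U x • G x) ∧
    (∫ x, ‖K x • gU x + U x • G x‖ ^ 2) + 2 * (∫ x, (v x - e) * (K x * U x) ^ 2) =
      ∫ x, U x ^ 2 * ‖G x‖ ^ 2 := by
  have hD : 0 ≤ D := (abs_nonneg _).trans (hK1 0)
  have h1 := H1.mul_bdd hU hK hK1 hG1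
  have h2 := H1.mul_bdd h1 hK hK1 hG1
  have hbt1 : BT (fun x => K x * U x) (fun x => K x • gU x + U x • G x) := by
    refine ⟨h1, ⟨D * C, ?_⟩, ⟨r, Eventually.of_forall fun x hx => by simp only [hKs x hx, zero_mul]⟩⟩
    filter_upwards [hb] with x hx
    rw [abs_mul]
    exact mul_le_mul (hK1 x) hx (abs_nonneg _) hD
  have hbt2 : BT (fun x => K x * (K x * U x))
      (fun x => K x • (K x • gU x + U x • G x) + (K x * U x) • G x) := by
    refine ⟨h2, ⟨D * (D * C), ?_⟩,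
      ⟨r, Eventually.of_forall fun x hx => by simp only [hKs x hx, zero_mul]⟩⟩
    filter_upwards [hb] with x hx
    rw [abs_mul, abs_mul]
    exact mul_le_mul (hK1 x) (mul_le_mul (hK1 x) hx (abs_nonneg _) hD) (by positivity) hD
  have h3 := WeakEq.bt (class_locInt hv) hU hb heq hbt2
  have h4 := H1.ims hU hK hK1 hG1
  refine ⟨hbt1, ?_⟩
  have e1 : (∫ x, inner ℝ (gU x) (K x • (K x • gU x + U x • G x) + (K x * U x) • G x)) =
      ∫ x, inner ℝ (gU x) ((K x) ^ 2 • gU x + (2 * K x * U x) • G x) := by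
    refine integral_congr_ae (Eventually.of_forall fun x => ?_)
    simp only
    congr 1
    module
  have e2 : (∫ x, (v x - e) * U x * (K x * (K x * U x))) =
      ∫ x, (v x - e) * (K x * U x) ^ 2 := by
    refine integral_congr_ae (Eventually.of_forall fun x => ?_)
    simp only
    ring
  rw [e1, e2] at h3
  linarith

theorem agmon_core {v U : Pos3 → ℝ} {gU : Pos3 → Pos3} {e μ k : ℝ} (hv : IsSumClassPotential v)
    (hU : H1 U gU) {C : ℝ} (hb : ∀ᵐ x, |U x| ≤ C) (heq : WeakEq v e U gU) (hk : 0 < k)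
    (hkμ : k < μ)
    (hform : ∀ ε : ℝ, 0 < ε → ∃ R : ℝ, ∀ f g, BT f g → (∀ᵐ x : Pos3, ‖x‖ ≤ R → f x = 0) →
      (μ ^ 2 - ε) * (∫ x, f x ^ 2) - ε * (∫ x, ‖g x‖ ^ 2) ≤ 2 * ∫ x, (v x - e) * f x ^ 2) :
    ∃ R M : ℝ, 1 ≤ R ∧ 0 ≤ M ∧ ∀ (n : ℕ) (χ : Pos3 → ℝ), Test univ χ →
      (∀ x, χ x ∈ Icc (0 : ℝ) 1) → (∀ x, ‖x‖ ≤ R → χ x = 0) →
      ∀ l : Pos3 → Pos3, WG univ (wexp k n) l → (∀ x, ‖l x‖ ≤ k * wexp k n x) →
      ∀ B : ℝ, (∀ x, wexp k n x * ‖gr χ x‖ ≤ B) →
      H1 (fun x => (χ x * wexp k n x) * U x) (fun x => (χ x * wexp k n x) • gU x +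
        U x • (χ x • l x + wexp k n x • gr χ x)) ∧
      (∫ x, ‖(χ x * wexp k n x) • gU x + U x • (χ x • l x + wexp k n x • gr χ x)‖ ^ 2) +
        (∫ x, ((χ x * wexp k n x) * U x) ^ 2) ≤ M * B ^ 2 := by
  have hd : 0 < μ ^ 2 - k ^ 2 := by nlinarith
  set d : ℝ := μ ^ 2 - k ^ 2 with hd'
  set δ : ℝ := d / (4 * k ^ 2) with hδ'
  have hδ : 0 < δ := by positivity
  set ε : ℝ := min (d / 4) (1 / 2) with hε'
  have hε : 0 < ε := by positivity
  have hε1 : ε ≤ d / 4 := min_le_left _ _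
  have hε2 : ε ≤ 1 / 2 := min_le_right _ _
  obtain ⟨R, hR⟩ := hform ε hε
  set c : ℝ := min (d / 2) (1 / 2) with hc'
  have hc : 0 < c := by positivity
  have hc1 : c ≤ d / 2 := min_le_left _ _
  have hc2 : c ≤ 1 / 2 := min_le_right _ _
  have hU2 : 0 ≤ ∫ x, U x ^ 2 := integral_nonneg fun x => sq_nonneg _
  refine ⟨max R 1, c⁻¹ * ((1 + 1 / δ) * ∫ x, U x ^ 2), le_max_right _ _, by positivity, ?_⟩
  intro n χ hχ hχ01 hχ0 l hl hlb B hB
  have hB0 : 0 ≤ B := le_trans (by have := wexp_pos k n 0; positivity) (hB 0)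
  set K : Pos3 → ℝ := fun x => χ x * wexp k n x with hK'
  set G : Pos3 → Pos3 := fun x => χ x • l x + wexp k n x • gr χ x with hG'
  have hK : WG univ K G := WG.mul_smooth isOpen_univ hl hχ.smooth
  have hGb : ∀ x, ‖G x‖ ≤ k * (χ x * wexp k n x) + B := by
    intro x
    refine (norm_add_le _ _).trans ?_
    rw [norm_smul, norm_smul, Real.norm_eq_abs, Real.norm_eq_abs, abs_of_nonneg (hχ01 x).1,
      abs_of_pos (wexp_pos k n x)]
    have := mul_le_mul_of_nonneg_left (hlb x) (hχ01 x).1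
    have h2 := hB x
    nlinarith
  set D : ℝ := k * Real.exp (k * n) + B + Real.exp (k * n) with hD'
  have hKn : ∀ x, χ x * wexp k n x ≤ Real.exp (k * n) := by
    intro x
    have := wexp_le hk n x
    have h1 := (hχ01 x).1
    have h2 := (hχ01 x).2
    have h3 := wexp_pos k n x
    nlinarith
  have hKnn : ∀ x, 0 ≤ χ x * wexp k n x := fun x => mul_nonneg (hχ01 x).1 (wexp_pos k n x).le
  have hK1 : ∀ x, |K x| ≤ D := by
    intro x
    rw [hK']
    simp only
    rw [abs_of_nonneg (hKnn x)]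
    have := hKn x
    have h4 : 0 < Real.exp (k * n) := Real.exp_pos _
    rw [hD']
    nlinarith [mul_pos hk h4]
  have hG1 : ∀ x, ‖G x‖ ≤ D := by
    intro x
    refine (hGb x).trans ?_
    have := mul_le_mul_of_nonneg_left (hKn x) hk.le
    have h4 : 0 < Real.exp (k * n) := Real.exp_pos _
    rw [hD']
    linarith
  obtain ⟨r, hr⟩ : ∃ r : ℝ, ∀ x, r ≤ ‖x‖ → K x = 0 := by
    obtain ⟨r, hr⟩ := hχ.cpt.isCompact.isBounded.subset_closedBall (0 : Pos3)
    refine ⟨r + 1, fun x hx => ?_⟩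
    have : x ∉ tsupport χ := fun h => by
      have := hr h
      rw [mem_closedBall_zero_iff] at this
      linarith
    simp only [hK', image_eq_zero_of_notMem_tsupport this, zero_mul]
  obtain ⟨hbt, hid⟩ := ag_identity hv hU hb heq hK hK1 hG1 hr
  refine ⟨hbt.h1, ?_⟩
  have hf0 : ∀ᵐ x : Pos3, ‖x‖ ≤ R → K x * U x = 0 := Eventually.of_forall fun x hx => by
    simp only [hK', hχ0 x (hx.trans (le_max_left _ _)), zero_mul]
  have hfo := hR _ _ hbt hf0
  have hf2 : Integrable (fun x => (K x * U x) ^ 2) := hbt.h1.memf.integrable_sq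
  have hle : ∫ x, U x ^ 2 * ‖G x‖ ^ 2 ≤
      ∫ x, ((1 + δ) * k ^ 2 * (K x * U x) ^ 2 + (1 + 1 / δ) * B ^ 2 * U x ^ 2) := by
    refine integral_mono_of_nonneg (Eventually.of_forall fun x => by positivity)
      ((hf2.const_mul _).add (hU.memf.integrable_sq.const_mul _)) (Eventually.of_forall fun x => ?_)
    simp only
    have h1 : ‖G x‖ ^ 2 ≤ (k * (χ x * wexp k n x) + B) ^ 2 :=
      pow_le_pow_left₀ (norm_nonneg _) (hGb x) 2
    have h2 := ag_sq_add_le (a := k * (χ x * wexp k n x)) (b := B) hδ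
    have h3 : 0 ≤ U x ^ 2 := sq_nonneg _
    calc U x ^ 2 * ‖G x‖ ^ 2 ≤ U x ^ 2 * ((1 + δ) * (k * (χ x * wexp k n x)) ^ 2 +
          (1 + 1 / δ) * B ^ 2) := mul_le_mul_of_nonneg_left (h1.trans h2) h3
      _ = (1 + δ) * k ^ 2 * (K x * U x) ^ 2 + (1 + 1 / δ) * B ^ 2 * U x ^ 2 := by
          simp only [hK']; ring
  rw [integral_add (hf2.const_mul _) (hU.memf.integrable_sq.const_mul _), integral_const_mul,
    integral_const_mul] at hle
  have hfnn : 0 ≤ ∫ x, (K x * U x) ^ 2 := integral_nonneg fun x => sq_nonneg _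
  have hgnn : 0 ≤ ∫ x, ‖K x • gU x + U x • G x‖ ^ 2 := integral_nonneg fun x => by positivity
  have hδk : δ * k ^ 2 = d / 4 := by rw [hδ']; field_simp
  have key : c * ((∫ x, ‖K x • gU x + U x • G x‖ ^ 2) + ∫ x, (K x * U x) ^ 2) ≤
      (1 + 1 / δ) * B ^ 2 * ∫ x, U x ^ 2 := by
    have hA : (1 - ε) * (∫ x, ‖K x • gU x + U x • G x‖ ^ 2) +
        (μ ^ 2 - ε) * (∫ x, (K x * U x) ^ 2) ≤
        (1 + δ) * k ^ 2 * (∫ x, (K x * U x) ^ 2) + (1 + 1 / δ) * B ^ 2 * ∫ x, U x ^ 2 := by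
      linarith
    have h5 : (1 + δ) * k ^ 2 = k ^ 2 + d / 4 := by rw [← hδk]; ring
    rw [h5] at hA
    have h6 : μ ^ 2 = d + k ^ 2 := by rw [hd']; ring
    rw [h6] at hA
    have h7 : c * (∫ x, ‖K x • gU x + U x • G x‖ ^ 2) ≤
        (1 - ε) * (∫ x, ‖K x • gU x + U x • G x‖ ^ 2) :=
      mul_le_mul_of_nonneg_right (by linarith) hgnn
    have h8 : c * (∫ x, (K x * U x) ^ 2) ≤ (d - ε - d / 4) * (∫ x, (K x * U x) ^ 2) :=
      mul_le_mul_of_nonneg_right (by linarith) hfnn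
    rw [mul_add]
    linarith
  calc (∫ x, ‖K x • gU x + U x • G x‖ ^ 2) + ∫ x, (K x * U x) ^ 2
      = c⁻¹ * (c * ((∫ x, ‖K x • gU x + U x • G x‖ ^ 2) + ∫ x, (K x * U x) ^ 2)) := by
        rw [← mul_assoc, inv_mul_cancel₀ hc.ne', one_mul]
    _ ≤ c⁻¹ * ((1 + 1 / δ) * B ^ 2 * ∫ x, U x ^ 2) :=
        mul_le_mul_of_nonneg_left key (inv_nonneg.2 hc.le)
    _ = c⁻¹ * ((1 + 1 / δ) * ∫ x, U x ^ 2) * B ^ 2 := by ring


/-- if `∫‖∇f‖² + 2∫(v-e₁) f² ≥ (1-ε)∫‖∇f‖² + (μ²-ε)∫ f²` near infinity for every `ε`, then a bounded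
eigenfunction `U` decays like `exp (-k ‖x‖)` for every `k < μ` -/
theorem agmon {v U : Pos3 → ℝ} {gU : Pos3 → Pos3} {e μ k : ℝ} (hv : IsSumClassPotential v)
    (hU : H1 U gU) {C : ℝ} (hb : ∀ᵐ x, |U x| ≤ C) (heq : WeakEq v e U gU) (hk : 0 < k)
    (hkμ : k < μ)
    (hform : ∀ ε : ℝ, 0 < ε → ∃ R : ℝ, ∀ f g, BT f g → (∀ᵐ x : Pos3, ‖x‖ ≤ R → f x = 0) →
      (μ ^ 2 - ε) * (∫ x, f x ^ 2) - ε * (∫ x, ‖g x‖ ^ 2) ≤ 2 * ∫ x, (v x - e) * f x ^ 2) :
    ∃ R M : ℝ, ∀ n : ℕ, ∃ f g, H1 f g ∧ (∀ x : Pos3, R ≤ ‖x‖ → f x = wexp k n x * U x) ∧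
      (∫ x, ‖g x‖ ^ 2) + (∫ x, f x ^ 2) ≤ M := by
  obtain ⟨R, M, hR1, hM, hcore⟩ := agmon_core hv hU hb heq hk hkμ hform
  obtain ⟨C0, hC0, hcut⟩ := exists_cutoff_ball (ι := Fin 3)
  obtain ⟨η, hη, hη01, hη1, hη0, hηg⟩ := hcut R hR1
  have hR0 : 0 < R := by linarith
  -- the inner cutoff
  set ζ : Pos3 → ℝ := fun x => 1 - η x with hζ
  have hζs : ContDiff ℝ ∞ ζ := contDiff_const.sub hη.smooth
  have hζ01 : ∀ x, ζ x ∈ Icc (0 : ℝ) 1 := fun x => by
    have := hη01 x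
    simp only [hζ, mem_Icc]
    constructor <;> linarith [this.1, this.2]
  have hζ0 : ∀ x, ‖x‖ ≤ R → ζ x = 0 := fun x hx => by simp only [hζ, hη1 x hx, sub_self]
  have hζ1 : ∀ x, 2 * R ≤ ‖x‖ → ζ x = 1 := fun x hx => by simp only [hζ, hη0 x hx, sub_zero]
  have hζg : ∀ x, ‖gr ζ x‖ ≤ C0 := by
    intro x
    have h1 : gr ζ x = - gr η x := by
      ext i
      simp only [gr_apply, pd, PiLp.neg_apply, hζ]
      rw [fderiv_const_sub]
      simp
    rw [h1, norm_neg]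
    refine (hηg x).trans ?_
    exact div_le_self hC0 hR1
  have hζg0 : ∀ x, 2 * R < ‖x‖ → gr ζ x = 0 := by
    intro x hx
    have h1 : ζ =ᶠ[𝓝 x] fun _ => (1 : ℝ) := by
      have : ∀ᶠ y in 𝓝 x, 2 * R < ‖y‖ :=
        (isOpen_lt continuous_const continuous_norm).mem_nhds hx
      filter_upwards [this] with y hy using hζ1 y hy.le
    ext i
    rw [gr_apply, pd_congr_of_eventuallyEq h1]
    simp [pd]
  refine ⟨2 * R, M * (Real.exp (k * (2 * R)) * C0 + 1) ^ 2, fun n => ?_⟩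
  obtain ⟨l, hl, hlb⟩ := wexp_WG hk n
  -- the limit function
  have hKζ : WG univ (fun x => ζ x * wexp k n x) (fun x => ζ x • l x + wexp k n x • gr ζ x) :=
    WG.mul_smooth isOpen_univ hl hζs
  have hKn : ∀ x, |ζ x * wexp k n x| ≤ Real.exp (k * n) * (1 + k + C0) := by
    intro x
    have h0 := wexp_pos k n x
    rw [abs_of_nonneg (mul_nonneg (hζ01 x).1 h0.le)]
    have h1 := wexp_le hk n x
    have h2 := (hζ01 x).2
    have h3 := (hζ01 x).1
    have h4 : ζ x * wexp k n x ≤ Real.exp (k * n) := by nlinarith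
    have h5 : 0 < Real.exp (k * n) := Real.exp_pos _
    nlinarith [mul_pos h5 hk, mul_nonneg h5.le hC0]
  have hGn : ∀ x, ‖ζ x • l x + wexp k n x • gr ζ x‖ ≤ Real.exp (k * n) * (1 + k + C0) := by
    intro x
    have h0 := wexp_pos k n x
    refine (norm_add_le _ _).trans ?_
    rw [norm_smul, norm_smul, Real.norm_eq_abs, Real.norm_eq_abs, abs_of_nonneg (hζ01 x).1,
      abs_of_pos h0]
    have h1 := wexp_le hk n x
    have h2 := (hζ01 x).2
    have h3 := (hζ01 x).1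
    have h5 : 0 < Real.exp (k * n) := Real.exp_pos _
    have e1 : ζ x * ‖l x‖ ≤ k * Real.exp (k * n) := by
      calc ζ x * ‖l x‖ ≤ 1 * (k * wexp k n x) :=
            mul_le_mul h2 (hlb x) (norm_nonneg _) zero_le_one
        _ ≤ k * Real.exp (k * n) := by
            rw [one_mul]; exact mul_le_mul_of_nonneg_left h1 hk.le
    have e2 : wexp k n x * ‖gr ζ x‖ ≤ Real.exp (k * n) * C0 :=
      mul_le_mul h1 (hζg x) (norm_nonneg _) h5.le
    nlinarith
  have hH := H1.mul_bdd hU hKζ hKn hGn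
  refine ⟨_, _, hH, fun x hx => by simp only [hζ1 x hx, one_mul], ?_⟩
  set f : Pos3 → ℝ := fun x => ζ x * wexp k n x * U x with hf
  set g : Pos3 → Pos3 := fun x => (ζ x * wexp k n x) • gU x +
    U x • (ζ x • l x + wexp k n x • gr ζ x) with hg
  have hfi : Integrable (fun x => f x ^ 2) := hH.memf.integrable_sq
  have hgi : Integrable (fun x => ‖g x‖ ^ 2) := hH.memg.integrable_norm_pow (by norm_num)
  rw [← integral_add hgi hfi]
  -- bound on balls
  have hball : ∀ᶠ N : ℕ in atTop, ∫ x in Metric.ball (0 : Pos3) (N : ℝ), (‖g x‖ ^ 2 + f x ^ 2) ≤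
      M * (Real.exp (k * (2 * R)) * C0 + 1) ^ 2 := by
    filter_upwards [Filter.tendsto_atTop.1 tendsto_natCast_atTop_atTop (max (2 * R)
      (Real.exp (k * n) * C0 + 1))] with N hN
    have hN1 : 2 * R ≤ (N : ℝ) := (le_max_left _ _).trans hN
    have hN2 : Real.exp (k * n) * C0 + 1 ≤ (N : ℝ) := (le_max_right _ _).trans hN
    have hN0 : (1 : ℝ) ≤ N := by linarith
    obtain ⟨θ, hθ, hθ01, hθ1, hθ0, hθg⟩ := hcut N hN0
    have hχt : Test univ (fun x => ζ x * θ x) := hθ.mul_left hζs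
    have hgr : ∀ x, gr (fun x => ζ x * θ x) x = ζ x • gr θ x + θ x • gr ζ x := fun x =>
      gr_mul ((hζs.differentiable (by simp)) x) (hθ.differentiableAt x)
    have hθgr0 : ∀ x, ‖x‖ < N → gr θ x = 0 := by
      intro x hx
      have h1 : θ =ᶠ[𝓝 x] fun _ => (1 : ℝ) := by
        have : ∀ᶠ y in 𝓝 x, ‖y‖ < N :=
          (isOpen_lt continuous_norm continuous_const).mem_nhds hx
        filter_upwards [this] with y hy using hθ1 y hy.le
      ext i
      rw [gr_apply, pd_congr_of_eventuallyEq h1]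
      simp [pd]
    obtain ⟨hH', hB'⟩ := hcore n (fun x => ζ x * θ x) hχt
      (fun x => ⟨mul_nonneg (hζ01 x).1 (hθ01 x).1, mul_le_one₀ (hζ01 x).2 (hθ01 x).1 (hθ01 x).2⟩)
      (fun x hx => by simp only [hζ0 x hx, zero_mul]) l hl hlb
      (Real.exp (k * (2 * R)) * C0 + 1) (fun x => by
        rw [hgr]
        have h0 := wexp_pos k n x
        have h5 : 0 < Real.exp (k * n) := Real.exp_pos _
        have e0 : ‖ζ x • gr θ x + θ x • gr ζ x‖ ≤ ‖gr θ x‖ + ‖gr ζ x‖ := by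
          refine (norm_add_le _ _).trans ?_
          rw [norm_smul, norm_smul, Real.norm_eq_abs, Real.norm_eq_abs,
            abs_of_nonneg (hζ01 x).1, abs_of_nonneg (hθ01 x).1]
          have := mul_le_mul_of_nonneg_right (hζ01 x).2 (norm_nonneg (gr θ x))
          have := mul_le_mul_of_nonneg_right (hθ01 x).2 (norm_nonneg (gr ζ x))
          linarith
        have e1 : wexp k n x * ‖gr θ x‖ ≤ 1 := by
          calc wexp k n x * ‖gr θ x‖ ≤ Real.exp (k * n) * (C0 / N) :=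
                mul_le_mul (wexp_le hk n x) (hθg x) (norm_nonneg _) h5.le
            _ = (Real.exp (k * n) * C0) / N := by ring
            _ ≤ 1 := by
                rw [div_le_one (by linarith)]
                linarith
        have e2 : wexp k n x * ‖gr ζ x‖ ≤ Real.exp (k * (2 * R)) * C0 := by
          by_cases hx : ‖x‖ ≤ 2 * R
          · exact mul_le_mul (wexp_le_norm hk n hx) (hζg x) (norm_nonneg _) (Real.exp_pos _).le
          · rw [hζg0 x (not_le.1 hx), norm_zero, mul_zero]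
            positivity
        have := mul_le_mul_of_nonneg_left e0 h0.le
        linarith)
    have hf'i : Integrable (fun x => ((ζ x * θ x) * wexp k n x * U x) ^ 2) :=
      hH'.memf.integrable_sq
    have hg'i : Integrable (fun x => ‖((ζ x * θ x) * wexp k n x) • gU x +
        U x • ((ζ x * θ x) • l x + wexp k n x • gr (fun x => ζ x * θ x) x)‖ ^ 2) :=
      hH'.memg.integrable_norm_pow (by norm_num)
    rw [← integral_add hg'i hf'i] at hB'
    refine le_trans (le_of_eq ?_) ((setIntegral_le_integral (hg'i.add hf'i)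
      (s := Metric.ball (0 : Pos3) (N : ℝ)) (Eventually.of_forall fun x => ?_)).trans hB')
    · refine setIntegral_congr_fun Metric.isOpen_ball.measurableSet fun x hx => ?_
      rw [mem_ball_zero_iff] at hx
      simp only [hf, hg, Pi.add_apply, hgr x, hθgr0 x hx, hθ1 x hx.le, mul_one, one_smul,
        smul_zero, zero_add]
    · simp only [Pi.zero_apply, Pi.add_apply]
      positivity
  have hlim := (aecover_ball (μ := (volume : Measure Pos3)) (x := 0)
    (r := fun N : ℕ => (N : ℝ)) tendsto_natCast_atTop_atTop).integral_tendsto_of_countably_generated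
    (hgi.add hfi)
  exact le_of_tendsto hlim hball

end Crest.Agent.R335
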