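import Crest.Agent.R335.KDefs
import Crest.Agent.R335.HSob
import Crest.Agent.R335.HFourier

/-!
Row 335 (S0521): one-body density of a fermionic wave function, potential energy through the
density (task KDens).
-/

set_option autoImplicit false
set_option linter.unusedVariables false
set_option linter.unusedSectionVars false

open MeasureTheory Filter Set Crest.MathPhysics.ThreeBody
open scoped ENNReal Topology ContDiff

noncomputable section
namespace Crest.Agent.R335

namespace KD

/-- `elPos i` as a linear map -/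
def elL (i : Fin 3) : Config3 →ₗ[ℝ] Pos3 where
  toFun := elPos i
  map_add' x y := by ext c; simp [elPos]
  map_smul' a x := by ext c; simp [elPos]

@[simp] theorem elL_apply (i : Fin 3) (x : Config3) : elL i x = elPos i x := rfl

theorem elL_surj (i : Fin 3) : Function.Surjective (elL i) := fun y =>
  ⟨WithLp.toLp 2 (fun ic => y ic.2), by ext c; simp [elPos]⟩

theorem continuous_elPos (i : Fin 3) : Continuous (elPos i) :=
  (LinearMap.continuous_of_finiteDimensional (elL i))

theorem measurable_elPos (i : Fin 3) : Measurable (elPos i) := (continuous_elPos i).measurable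

theorem qmp_elPos (i : Fin 3) :
    Measure.QuasiMeasurePreserving (elPos i) (volume : Measure Config3)
      (volume : Measure Pos3) := by
  refine ⟨measurable_elPos i, Measure.AbsolutelyContinuous.mk fun s hs h0 => ?_⟩
  rw [Measure.map_apply (measurable_elPos i) hs]
  have h1 : ∀ᵐ y ∂(volume : Measure Pos3), y ∈ sᶜ := by
    rw [ae_iff]
    simpa using h0
  have h2 := (ae_comp_linearMap_mem_iff (L := elL i) (μ := (volume : Measure Config3))
    (ν := (volume : Measure Pos3)) (elL_surj i) hs.compl).2 h1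
  rw [ae_iff] at h2
  have h3 : {a : Config3 | ¬ (elL i a ∈ sᶜ)} = elPos i ⁻¹' s := by
    ext a; simp
  rwa [h3] at h2

/-- weight `‖Φ s‖²` -/
def wt (Φ : Wave3) (s : Spin3) (x : Config3) : ℝ≥0∞ := ‖Φ s x‖ₑ ^ 2

theorem aemeasurable_wt {Φ : Wave3} (hΦ : IsFermionic Φ) (s : Spin3) :
    AEMeasurable (wt Φ s) volume := by
  unfold wt
  exact ((hΦ.1 s).aestronglyMeasurable.enorm.pow_const 2)

theorem lintegral_wt_lt_top {Φ : Wave3} (hΦ : IsFermionic Φ) (s : Spin3) :
    ∫⁻ x, wt Φ s x < ⊤ := by
  have h := (hΦ.1 s).eLpNorm_lt_top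
  rw [eLpNorm_lt_top_iff_lintegral_rpow_enorm_lt_top (by norm_num) (by norm_num)] at h
  unfold wt
  simpa using h

/-- the measure of electrons `i`, spin component `s` -/
def dm1 (Φ : Wave3) (s : Spin3) (i : Fin 3) : Measure Pos3 :=
  ((volume : Measure Config3).withDensity (wt Φ s)).map (elPos i)

/-- the one-body density as a measure -/
def dm (Φ : Wave3) : Measure Pos3 := ∑ s : Spin3, ∑ i : Fin 3, dm1 Φ s i

theorem dm1_ac (Φ : Wave3) (s : Spin3) (i : Fin 3) : dm1 Φ s i ≪ (volume : Measure Pos3) := by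
  have h1 : (volume : Measure Config3).withDensity (wt Φ s) ≪ volume :=
    withDensity_absolutelyContinuous _ _
  exact (h1.map (measurable_elPos i)).trans (qmp_elPos i).absolutelyContinuous

theorem dm_ac (Φ : Wave3) : dm Φ ≪ (volume : Measure Pos3) := by
  intro A hA
  unfold dm
  simp only [Measure.coe_finsetSum, Finset.sum_apply]
  refine Finset.sum_eq_zero fun s _ => Finset.sum_eq_zero fun i _ => dm1_ac Φ s i hA

theorem dm_apply {Φ : Wave3} (hΦ : IsFermionic Φ) {A : Set Pos3} (hA : MeasurableSet A) :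
    dm Φ A = densityOn Φ A := by
  unfold dm densityOn
  simp only [Measure.coe_finsetSum, Finset.sum_apply]
  refine Finset.sum_congr rfl fun s _ => ?_
  have e1 : (fun x => (∑ i : Fin 3, A.indicator (fun _ => (1 : ℝ≥0∞)) (elPos i x)) * ‖Φ s x‖ₑ ^ 2)
      = fun x => ∑ i : Fin 3, (elPos i ⁻¹' A).indicator (wt Φ s) x := by
    funext x
    rw [Finset.sum_mul]
    refine Finset.sum_congr rfl fun i _ => ?_
    unfold wt
    by_cases hx : elPos i x ∈ A
    · rw [Set.indicator_of_mem hx, Set.indicator_of_mem (show x ∈ elPos i ⁻¹' A from hx), one_mul]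
    · rw [Set.indicator_of_notMem hx,
        Set.indicator_of_notMem (show x ∉ elPos i ⁻¹' A from hx), zero_mul]
  rw [e1, lintegral_finsetSum' _ fun i _ =>
    (aemeasurable_wt hΦ s).indicator (measurable_elPos i hA)]
  refine Finset.sum_congr rfl fun i _ => ?_
  unfold dm1
  rw [Measure.map_apply (measurable_elPos i) hA, withDensity_apply _ (measurable_elPos i hA),
    lintegral_indicator (measurable_elPos i hA)]

theorem dm1_finite {Φ : Wave3} (hΦ : IsFermionic Φ) (s : Spin3) (i : Fin 3) :
    IsFiniteMeasure (dm1 Φ s i) := by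
  refine ⟨?_⟩
  unfold dm1
  rw [Measure.map_apply (measurable_elPos i) MeasurableSet.univ, Set.preimage_univ,
    withDensity_apply _ MeasurableSet.univ, Measure.restrict_univ]
  exact lintegral_wt_lt_top hΦ s

theorem dm_finite {Φ : Wave3} (hΦ : IsFermionic Φ) : IsFiniteMeasure (dm Φ) := by
  refine ⟨?_⟩
  unfold dm
  simp only [Measure.coe_finsetSum, Finset.sum_apply]
  refine ENNReal.sum_lt_top.2 fun s _ => ENNReal.sum_lt_top.2 fun i _ => ?_
  have := dm1_finite hΦ s i
  exact measure_lt_top _ _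

end KD

open KD

/-- every fermionic wave function of finite kinetic energy has a density -/
theorem density_exists {Φ : Wave3} (hΦ : IsFermionic Φ) :
    ∃ ρ : Pos3 → ℝ≥0∞, Measurable ρ ∧
      ∀ A : Set Pos3, MeasurableSet A → densityOn Φ A = ∫⁻ x in A, ρ x := by
  have := dm_finite hΦ
  refine ⟨(dm Φ).rnDeriv volume, Measure.measurable_rnDeriv _ _, fun A hA => ?_⟩
  rw [← dm_apply hΦ hA, ← withDensity_apply _ hA,
    Measure.withDensity_rnDeriv_eq _ _ (dm_ac Φ)]

namespace KD

theorem dm_eq_withDensity {Φ : Wave3} (hΦ : IsFermionic Φ) {ρ : Pos3 → ℝ≥0∞}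
    (hρ : ∀ A : Set Pos3, MeasurableSet A → densityOn Φ A = ∫⁻ x in A, ρ x) :
    dm Φ = (volume : Measure Pos3).withDensity ρ := by
  refine Measure.ext fun A hA => ?_
  rw [dm_apply hΦ hA, hρ A hA, withDensity_apply _ hA]

theorem rho_lt_top {Φ : Wave3} (hΦ : IsFermionic Φ) {ρ : Pos3 → ℝ≥0∞} (hρm : Measurable ρ)
    (hρ : ∀ A : Set Pos3, MeasurableSet A → densityOn Φ A = ∫⁻ x in A, ρ x) :
    ∀ᵐ x, ρ x < ⊤ := by
  have h1 : ∫⁻ x, ρ x < ⊤ := by
    have := dm_finite hΦ
    have h2 : dm Φ univ < ⊤ := measure_lt_top _ _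
    rw [dm_eq_withDensity hΦ hρ, withDensity_apply _ MeasurableSet.univ,
      Measure.restrict_univ] at h2
    exact h2
  exact ae_lt_top hρm h1.ne

/-- split `Fin 3 × Fin 3` as coordinates of electron `i` and the rest -/
def spl (i : Fin 3) : Fin 3 × Fin 3 ≃ Fin 3 ⊕ {p : Fin 3 × Fin 3 // p.1 ≠ i} where
  toFun p := if h : p.1 = i then Sum.inl p.2 else Sum.inr ⟨p, h⟩
  invFun q := Sum.elim (fun c => (i, c)) (fun p => p.1) q
  left_inv p := by
    by_cases h : p.1 = i
    · simp only [h, ↓reduceDIte, Sum.elim_inl]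
      exact Prod.ext h.symm rfl
    · simp only [h, ↓reduceDIte, Sum.elim_inr]
  right_inv q := by
    rcases q with c | ⟨p, hp⟩
    · simp
    · simp [hp]

theorem pr1_spl (i : Fin 3) (X : Config3) : pr1 (spl i) X = elPos i X := by
  ext c
  simp [pr1, spl, elPos]

theorem integrable_v_wt {v : Pos3 → ℝ} (hv : IsSumClassPotential v) {Φ : Wave3}
    (hΦ : IsFermionic Φ) (hk : kinetic Φ < ⊤) (s : Spin3) (i : Fin 3) :
    Integrable (fun x => v (elPos i x) * ‖Φ s x‖ ^ 2) := by
  have hks : kineticOne (Φ s) < ⊤ := by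
    unfold kinetic at hk
    exact (ENNReal.sum_lt_top.1 hk) s (Finset.mem_univ s)
  obtain ⟨g₁, g₂, h1, h2⟩ := H1_of_kineticOne hks
  obtain ⟨C, -, hC⟩ := formBound_sumClass_pr (ι := Fin 3 × Fin 3)
    (κ' := {p : Fin 3 × Fin 3 // p.1 ≠ i}) hv (ε := 1) one_pos
  have i1 := (hC (spl i) _ _ h1).1
  have i2 := (hC (spl i) _ _ h2).1
  refine (i1.add i2).congr (Eventually.of_forall fun x => ?_)
  simp only [Pi.add_apply, pr1_spl]
  rw [← mul_add, ← Complex.normSq_eq_norm_sq, Complex.normSq_apply]
  ring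

theorem toReal_wt (Φ : Wave3) (s : Spin3) (x : Config3) : (wt Φ s x).toReal = ‖Φ s x‖ ^ 2 := by
  unfold wt
  rw [ENNReal.toReal_pow, toReal_enorm]

theorem wt_lt_top (Φ : Wave3) (s : Spin3) (x : Config3) : wt Φ s x < ⊤ := by
  unfold wt
  exact ENNReal.pow_lt_top (by simp)

theorem aesm_class {v : Pos3 → ℝ} (hv : IsSumClassPotential v) :
    AEStronglyMeasurable v (volume : Measure Pos3) := by
  obtain ⟨v₁, v₂, rfl, h1, h2⟩ := hv
  exact h1.aestronglyMeasurable.add h2.aestronglyMeasurable

theorem dm1_int {v : Pos3 → ℝ} (hv : IsSumClassPotential v) {Φ : Wave3}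
    (hΦ : IsFermionic Φ) (hk : kinetic Φ < ⊤) (s : Spin3) (i : Fin 3) :
    Integrable v (dm1 Φ s i) ∧
      ∫ y, v y ∂(dm1 Φ s i) = ∫ x, v (elPos i x) * ‖Φ s x‖ ^ 2 := by
  have hsm : AEStronglyMeasurable v (dm1 Φ s i) := (aesm_class hv).mono_ac (dm1_ac Φ s i)
  have h1 : Integrable (fun x => v (elPos i x))
      ((volume : Measure Config3).withDensity (wt Φ s)) := by
    rw [integrable_withDensity_iff_integrable_smul₀' (aemeasurable_wt hΦ s)
      (Eventually.of_forall (wt_lt_top Φ s))]
    refine (integrable_v_wt hv hΦ hk s i).congr (Eventually.of_forall fun x => ?_)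
    simp only [toReal_wt, smul_eq_mul]
    ring
  constructor
  · unfold dm1 at hsm ⊢
    rw [integrable_map_measure hsm (measurable_elPos i).aemeasurable]
    exact h1
  · unfold dm1 at hsm ⊢
    rw [integral_map (measurable_elPos i).aemeasurable hsm,
      integral_withDensity_eq_integral_toReal_smul₀ (aemeasurable_wt hΦ s)
        (Eventually.of_forall (wt_lt_top Φ s))]
    refine integral_congr_ae (Eventually.of_forall fun x => ?_)
    simp only [toReal_wt, smul_eq_mul]
    ring

end KD

/-- potential energy through the density -/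
theorem potential_density {v : Pos3 → ℝ} (hv : IsSumClassPotential v) {Φ : Wave3}
    (hΦ : IsFermionic Φ) (hk : kinetic Φ < ⊤) {ρ : Pos3 → ℝ≥0∞} (hρm : Measurable ρ)
    (hρ : ∀ A : Set Pos3, MeasurableSet A → densityOn Φ A = ∫⁻ x in A, ρ x) :
    IsAdmissible (oneBodyPotential v) Φ ∧ Integrable (fun x => v x * (ρ x).toReal) ∧
      potentialEnergy (oneBodyPotential v) Φ = ∫ x, v x * (ρ x).toReal := by
  have hadm : ∀ s : Spin3, Integrable (fun x => oneBodyPotential v x * ‖Φ s x‖ ^ 2) := by
    intro s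
    have : (fun x => oneBodyPotential v x * ‖Φ s x‖ ^ 2) =
        fun x => ∑ i : Fin 3, v (elPos i x) * ‖Φ s x‖ ^ 2 := by
      funext x
      unfold oneBodyPotential
      rw [Finset.sum_mul]
    rw [this]
    exact integrable_finsetSum _ fun i _ => integrable_v_wt hv hΦ hk s i
  have hint : Integrable v (dm Φ) := by
    unfold dm
    refine (integrable_finsetSum_measure).2 fun s _ => (integrable_finsetSum_measure).2 fun i _ =>
      (dm1_int hv hΦ hk s i).1
  have hval : ∫ y, v y ∂(dm Φ) = potentialEnergy (oneBodyPotential v) Φ := by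
    unfold dm potentialEnergy
    rw [integral_finsetSum_measure fun s _ => (integrable_finsetSum_measure).2 fun i _ =>
      (dm1_int hv hΦ hk s i).1]
    refine Finset.sum_congr rfl fun s _ => ?_
    rw [integral_finsetSum_measure fun i _ => (dm1_int hv hΦ hk s i).1]
    rw [Finset.sum_congr rfl fun i _ => (dm1_int hv hΦ hk s i).2]
    rw [← integral_finsetSum _ fun i _ => integrable_v_wt hv hΦ hk s i]
    refine integral_congr_ae (Eventually.of_forall fun x => ?_)
    simp only [oneBodyPotential, Finset.sum_mul]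
  have hlt := rho_lt_top hΦ hρm hρ
  rw [dm_eq_withDensity hΦ hρ] at hint hval
  rw [integrable_withDensity_iff_integrable_smul₀' hρm.aemeasurable hlt] at hint
  rw [integral_withDensity_eq_integral_toReal_smul₀ hρm.aemeasurable hlt] at hval
  refine ⟨⟨hΦ, hk, hadm⟩, ?_, ?_⟩
  · refine hint.congr (Eventually.of_forall fun x => ?_)
    simp only [smul_eq_mul]
    ring
  · rw [← hval]
    refine integral_congr_ae (Eventually.of_forall fun x => ?_)
    simp only [smul_eq_mul]
    ring

end Crest.Agent.R335
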