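import Crest.Agent.R335.KDefs
import Crest.Agent.R335.KPot
import Crest.Agent.R335.HGlob

/-!
Row 335 (S0521): one-body calculus (task KEq): minimality of `2 q(a) + q(b)` over orthonormal pairs
gives the two weak Schrödinger equations.
-/

set_option autoImplicit false
set_option linter.unusedVariables false
set_option linter.unusedSectionVars false

open MeasureTheory Filter Set Crest.MathPhysics.ThreeBody
open scoped ENNReal Topology ContDiff

noncomputable section
namespace Crest.Agent.R335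

namespace KE

theorem quad_zero {β γ : ℝ} (h : ∀ r : ℝ, 0 ≤ 2 * r * β + r ^ 2 * γ) : β = 0 := by
  by_contra hβ
  have hg : 0 < |γ| + 1 := by positivity
  have h1 := h (-β / (|γ| + 1))
  have h2 : 2 * (-β / (|γ| + 1)) * β + (-β / (|γ| + 1)) ^ 2 * γ =
      β ^ 2 / (|γ| + 1) ^ 2 * (γ - 2 * (|γ| + 1)) := by
    field_simp
    ring
  rw [h2] at h1
  have h3 : 0 < β ^ 2 / (|γ| + 1) ^ 2 := by positivity
  have h4 : γ - 2 * (|γ| + 1) < 0 := by
    have := le_abs_self γ
    have := abs_nonneg γ
    linarith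
  have := mul_neg_of_pos_of_neg h3 h4
  linarith

/-- abstract stationarity -/
theorem abs_min {V : Type*} [AddCommGroup V] [Module ℝ V] (B N : V →ₗ[ℝ] V →ₗ[ℝ] ℝ)
    (hB : ∀ x y, B x y = B y x) (hN : ∀ x y, N x y = N y x) (hN0 : ∀ x, 0 ≤ N x x)
    {u w : V} (huu : N u u = 1) (hww : N w w = 1) (huw : N u w = 0)
    (hmin : ∀ a b, N a a = 1 → N b b = 1 → N a b = 0 →
      2 * B u u + B w w ≤ 2 * B a a + B b b) :
    (∀ φ, B u φ = B u u * N u φ) ∧ ∀ φ, B w φ = B w w * N w φ := by
  -- (1) orthogonal test vectors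
  have hs : ∀ t : ℝ, 0 < t → ∃ s : ℝ, s ^ 2 * t = 1 := fun t ht =>
    ⟨(√t)⁻¹, by rw [inv_pow, Real.sq_sqrt ht.le, inv_mul_cancel₀ ht.ne']⟩
  have hu0 : ∀ φ, N u φ = 0 → N w φ = 0 → B u φ = 0 := by
    intro φ h1 h2
    apply quad_zero (γ := B φ φ - N φ φ * B u u)
    intro r
    obtain ⟨s, hs⟩ := hs (1 + r ^ 2 * N φ φ) (by have := hN0 φ; positivity)
    have e1 : N (s • (u + r • φ)) (s • (u + r • φ)) = 1 := by
      simp only [map_smul, map_add, LinearMap.smul_apply, LinearMap.add_apply, smul_eq_mul,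
        huu, h1, hN φ u]
      linarith
    have e2 : N (s • (u + r • φ)) w = 0 := by
      simp only [map_smul, map_add, LinearMap.smul_apply, LinearMap.add_apply, smul_eq_mul,
        huw, hN φ w, h2]
      ring
    have h3 := hmin _ _ e1 hww e2
    have e3 : B (s • (u + r • φ)) (s • (u + r • φ)) =
        s ^ 2 * (B u u + 2 * r * B u φ + r ^ 2 * B φ φ) := by
      simp only [map_smul, map_add, LinearMap.smul_apply, LinearMap.add_apply, smul_eq_mul,
        hB φ u]
      ring
    rw [e3] at h3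
    have h4 : B u u ≤ s ^ 2 * (B u u + 2 * r * B u φ + r ^ 2 * B φ φ) := by linarith
    have hpos : 0 < 1 + r ^ 2 * N φ φ := by have := hN0 φ; positivity
    have h5 := mul_le_mul_of_nonneg_right h4 hpos.le
    have e4 : s ^ 2 * (B u u + 2 * r * B u φ + r ^ 2 * B φ φ) * (1 + r ^ 2 * N φ φ) =
        (s ^ 2 * (1 + r ^ 2 * N φ φ)) * (B u u + 2 * r * B u φ + r ^ 2 * B φ φ) := by ring
    rw [e4, hs] at h5
    linarith
  have hw0 : ∀ φ, N u φ = 0 → N w φ = 0 → B w φ = 0 := by
    intro φ h1 h2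
    apply quad_zero (γ := B φ φ - N φ φ * B w w)
    intro r
    obtain ⟨s, hs⟩ := hs (1 + r ^ 2 * N φ φ) (by have := hN0 φ; positivity)
    have e1 : N (s • (w + r • φ)) (s • (w + r • φ)) = 1 := by
      simp only [map_smul, map_add, LinearMap.smul_apply, LinearMap.add_apply, smul_eq_mul,
        hww, h2, hN φ w]
      linarith
    have e2 : N u (s • (w + r • φ)) = 0 := by
      simp only [map_smul, map_add, smul_eq_mul, huw, h1]
      ring
    have h3 := hmin _ _ huu e1 e2
    have e3 : B (s • (w + r • φ)) (s • (w + r • φ)) =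
        s ^ 2 * (B w w + 2 * r * B w φ + r ^ 2 * B φ φ) := by
      simp only [map_smul, map_add, LinearMap.smul_apply, LinearMap.add_apply, smul_eq_mul,
        hB φ w]
      ring
    rw [e3] at h3
    have h4 : B w w ≤ s ^ 2 * (B w w + 2 * r * B w φ + r ^ 2 * B φ φ) := by linarith
    have hpos : 0 < 1 + r ^ 2 * N φ φ := by have := hN0 φ; positivity
    have h5 := mul_le_mul_of_nonneg_right h4 hpos.le
    have e4 : s ^ 2 * (B w w + 2 * r * B w φ + r ^ 2 * B φ φ) * (1 + r ^ 2 * N φ φ) =
        (s ^ 2 * (1 + r ^ 2 * N φ φ)) * (B w w + 2 * r * B w φ + r ^ 2 * B φ φ) := by ring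
    rw [e4, hs] at h5
    linarith
  -- (2) rotation
  have hBuw : B u w = 0 := by
    apply quad_zero (γ := B w w - B u u)
    intro r
    obtain ⟨s, hs⟩ := hs (1 + r ^ 2) (by positivity)
    have e1 : N (s • (u + r • w)) (s • (u + r • w)) = 1 := by
      simp only [map_smul, map_add, LinearMap.smul_apply, LinearMap.add_apply, smul_eq_mul,
        huu, hww, huw, hN w u]
      linarith
    have e2 : N (s • (w - r • u)) (s • (w - r • u)) = 1 := by
      simp only [map_smul, map_sub, LinearMap.smul_apply, LinearMap.sub_apply, smul_eq_mul,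
        huu, hww, huw, hN w u]
      linarith
    have e3 : N (s • (u + r • w)) (s • (w - r • u)) = 0 := by
      simp only [map_smul, map_add, map_sub, LinearMap.smul_apply, LinearMap.add_apply,
        smul_eq_mul, huu, hww, huw, hN w u]
      ring
    have h3 := hmin _ _ e1 e2 e3
    have e4 : B (s • (u + r • w)) (s • (u + r • w)) =
        s ^ 2 * (B u u + 2 * r * B u w + r ^ 2 * B w w) := by
      simp only [map_smul, map_add, LinearMap.smul_apply, LinearMap.add_apply, smul_eq_mul,
        hB w u]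
      ring
    have e5 : B (s • (w - r • u)) (s • (w - r • u)) =
        s ^ 2 * (B w w - 2 * r * B u w + r ^ 2 * B u u) := by
      simp only [map_smul, map_sub, LinearMap.smul_apply, LinearMap.sub_apply, smul_eq_mul,
        hB w u]
      ring
    rw [e4, e5] at h3
    have hpos : 0 < 1 + r ^ 2 := by positivity
    have h5 := mul_le_mul_of_nonneg_right h3 hpos.le
    have e6 : (2 * (s ^ 2 * (B u u + 2 * r * B u w + r ^ 2 * B w w)) +
        s ^ 2 * (B w w - 2 * r * B u w + r ^ 2 * B u u)) * (1 + r ^ 2) =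
        (s ^ 2 * (1 + r ^ 2)) * (2 * (B u u + 2 * r * B u w + r ^ 2 * B w w) +
          (B w w - 2 * r * B u w + r ^ 2 * B u u)) := by ring
    rw [e6, hs] at h5
    linarith
  -- (3) general test vectors
  have hdec : ∀ φ, N u (φ - N u φ • u - N w φ • w) = 0 ∧ N w (φ - N u φ • u - N w φ • w) = 0 := by
    intro φ
    simp only [map_sub, map_smul, smul_eq_mul, huu, hww, huw, hN w u]
    constructor <;> ring
  constructor
  · intro φ
    have h := hu0 _ (hdec φ).1 (hdec φ).2
    simp only [map_sub, map_smul, smul_eq_mul, hBuw] at h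
    linarith
  · intro φ
    have h := hw0 _ (hdec φ).1 (hdec φ).2
    simp only [map_sub, map_smul, smul_eq_mul, hBuw, hB w u] at h
    linarith

/-- the vector space of `H¹` functions with gradient -/
def SH : Submodule ℝ ((Pos3 → ℝ) × (Pos3 → Pos3)) where
  carrier := {p | H1 p.1 p.2}
  add_mem' := fun {a b} ha hb => H1.add (show H1 a.1 a.2 from ha) (show H1 b.1 b.2 from hb)
  zero_mem' := by
    refine ⟨MemLp.zero, MemLp.zero, ⟨locallyIntegrable_zero.locallyIntegrableOn _,
      locallyIntegrable_zero.locallyIntegrableOn _, fun φ _ i => ?_⟩⟩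
    simp
  smul_mem' := fun c {p} hp => H1.const_mul (show H1 p.1 p.2 from hp) c

theorem SH.h1 (p : SH) : H1 p.1.1 p.1.2 := p.2

theorem int_mul {f f' : Pos3 → ℝ} (h : MemLp f 2 volume) (h' : MemLp f' 2 volume) :
    Integrable (fun x => f x * f' x) := h.integrable_mul h'

theorem int_inner {g g' : Pos3 → Pos3} (h : MemLp g 2 volume) (h' : MemLp g' 2 volume) :
    Integrable (fun x => inner ℝ (g x) (g' x)) := by
  have h1 : Integrable (fun x => ‖g x‖ * ‖g' x‖) := h.norm.integrable_mul h'.norm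
  refine h1.mono (h.aestronglyMeasurable.inner h'.aestronglyMeasurable)
    (Eventually.of_forall fun x => ?_)
  rw [Real.norm_eq_abs, Real.norm_eq_abs, abs_of_nonneg (by positivity : 0 ≤ ‖g x‖ * ‖g' x‖)]
  exact abs_real_inner_le_norm _ _

theorem int_v {v : Pos3 → ℝ} (hv : IsSumClassPotential v) {f f' : Pos3 → ℝ} {g g' : Pos3 → Pos3}
    (h : H1 f g) (h' : H1 f' g') : Integrable (fun x => v x * (f x * f' x)) := by
  obtain ⟨C, -, hC⟩ := class_bound hv (ε := 1) one_pos
  have i1 := (hC _ _ h).1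
  have i2 := (hC _ _ h').1
  have hvm : AEStronglyMeasurable v volume := by
    obtain ⟨v₁, v₂, rfl, h1, h2⟩ := hv
    exact h1.aestronglyMeasurable.add h2.aestronglyMeasurable
  refine (i1.add i2).mono
    (hvm.mul (h.memf.aestronglyMeasurable.mul h'.memf.aestronglyMeasurable))
    (Eventually.of_forall fun x => ?_)
  simp only [Pi.add_apply, Real.norm_eq_abs, abs_mul]
  rw [abs_of_nonneg (show 0 ≤ |v x| * f x ^ 2 + |v x| * f' x ^ 2 by positivity), ← mul_add]
  refine mul_le_mul_of_nonneg_left ?_ (abs_nonneg _)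
  have := sq_nonneg (|f x| - |f' x|)
  have h3 := sq_abs (f x)
  have h4 := sq_abs (f' x)
  have h5 := sq_nonneg (f x)
  have h6 := sq_nonneg (f' x)
  nlinarith [abs_nonneg (f x), abs_nonneg (f' x)]

/-- the norm form -/
def NF : SH →ₗ[ℝ] SH →ₗ[ℝ] ℝ :=
  LinearMap.mk₂ ℝ (fun p q => ∫ x, p.1.1 x * q.1.1 x)
    (fun p p' q => by
      rw [← integral_add (int_mul (SH.h1 p).memf (SH.h1 q).memf)
        (int_mul (SH.h1 p').memf (SH.h1 q).memf)]
      refine integral_congr_ae (Eventually.of_forall fun x => ?_)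
      simp only [Submodule.coe_add, Prod.fst_add, Pi.add_apply]
      ring)
    (fun c p q => by
      rw [smul_eq_mul, ← integral_const_mul]
      refine integral_congr_ae (Eventually.of_forall fun x => ?_)
      simp only [Submodule.coe_smul, Prod.smul_fst, Pi.smul_apply, smul_eq_mul]
      ring)
    (fun p q q' => by
      rw [← integral_add (int_mul (SH.h1 p).memf (SH.h1 q).memf)
        (int_mul (SH.h1 p).memf (SH.h1 q').memf)]
      refine integral_congr_ae (Eventually.of_forall fun x => ?_)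
      simp only [Submodule.coe_add, Prod.fst_add, Pi.add_apply]
      ring)
    (fun c p q => by
      rw [smul_eq_mul, ← integral_const_mul]
      refine integral_congr_ae (Eventually.of_forall fun x => ?_)
      simp only [Submodule.coe_smul, Prod.smul_fst, Pi.smul_apply, smul_eq_mul]
      ring)

theorem NF_apply (p q : SH) : NF p q = ∫ x, p.1.1 x * q.1.1 x := rfl

/-- the Dirichlet form -/
def DF : SH →ₗ[ℝ] SH →ₗ[ℝ] ℝ :=
  LinearMap.mk₂ ℝ (fun p q => ∫ x, inner ℝ (p.1.2 x) (q.1.2 x))
    (fun p p' q => by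
      rw [← integral_add (int_inner (SH.h1 p).memg (SH.h1 q).memg)
        (int_inner (SH.h1 p').memg (SH.h1 q).memg)]
      refine integral_congr_ae (Eventually.of_forall fun x => ?_)
      simp only [Submodule.coe_add, Prod.snd_add, Pi.add_apply, inner_add_left])
    (fun c p q => by
      rw [smul_eq_mul, ← integral_const_mul]
      refine integral_congr_ae (Eventually.of_forall fun x => ?_)
      simp only [Submodule.coe_smul, Prod.smul_snd, Pi.smul_apply, real_inner_smul_left])
    (fun p q q' => by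
      rw [← integral_add (int_inner (SH.h1 p).memg (SH.h1 q).memg)
        (int_inner (SH.h1 p).memg (SH.h1 q').memg)]
      refine integral_congr_ae (Eventually.of_forall fun x => ?_)
      simp only [Submodule.coe_add, Prod.snd_add, Pi.add_apply, inner_add_right])
    (fun c p q => by
      rw [smul_eq_mul, ← integral_const_mul]
      refine integral_congr_ae (Eventually.of_forall fun x => ?_)
      simp only [Submodule.coe_smul, Prod.smul_snd, Pi.smul_apply, real_inner_smul_right])

theorem DF_apply (p q : SH) : DF p q = ∫ x, inner ℝ (p.1.2 x) (q.1.2 x) := rfl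

/-- the potential form -/
def VF {v : Pos3 → ℝ} (hv : IsSumClassPotential v) : SH →ₗ[ℝ] SH →ₗ[ℝ] ℝ :=
  LinearMap.mk₂ ℝ (fun p q => ∫ x, v x * (p.1.1 x * q.1.1 x))
    (fun p p' q => by
      rw [← integral_add (int_v hv (SH.h1 p) (SH.h1 q)) (int_v hv (SH.h1 p') (SH.h1 q))]
      refine integral_congr_ae (Eventually.of_forall fun x => ?_)
      simp only [Submodule.coe_add, Prod.fst_add, Pi.add_apply]
      ring)
    (fun c p q => by
      rw [smul_eq_mul, ← integral_const_mul]
      refine integral_congr_ae (Eventually.of_forall fun x => ?_)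
      simp only [Submodule.coe_smul, Prod.smul_fst, Pi.smul_apply, smul_eq_mul]
      ring)
    (fun p q q' => by
      rw [← integral_add (int_v hv (SH.h1 p) (SH.h1 q)) (int_v hv (SH.h1 p) (SH.h1 q'))]
      refine integral_congr_ae (Eventually.of_forall fun x => ?_)
      simp only [Submodule.coe_add, Prod.fst_add, Pi.add_apply]
      ring)
    (fun c p q => by
      rw [smul_eq_mul, ← integral_const_mul]
      refine integral_congr_ae (Eventually.of_forall fun x => ?_)
      simp only [Submodule.coe_smul, Prod.smul_fst, Pi.smul_apply, smul_eq_mul]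
      ring)

theorem VF_apply {v : Pos3 → ℝ} (hv : IsSumClassPotential v) (p q : SH) :
    VF hv p q = ∫ x, v x * (p.1.1 x * q.1.1 x) := rfl

/-- from the bilinear identity to the weak equation -/
theorem weakEq_of {v : Pos3 → ℝ} (hv : IsSumClassPotential v) {f : Pos3 → ℝ} {g : Pos3 → Pos3}
    (h : H1 f g) {e : ℝ}
    (hB : ∀ q : SH, (1 / 2) * (∫ x, inner ℝ (g x) (q.1.2 x)) + ∫ x, v x * (f x * q.1.1 x) =
      e * ∫ x, f x * q.1.1 x) : WeakEq v e f g := by
  intro φ hφ
  have hφ1 : H1 φ (gr φ) := H1.of_test hφ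
  have h1 := hB ⟨(φ, gr φ), hφ1⟩
  simp only at h1
  have h2 : ∫ x, (v x - e) * f x * φ x =
      (∫ x, v x * (f x * φ x)) - e * ∫ x, f x * φ x := by
    rw [← integral_const_mul, ← integral_sub (int_v hv h hφ1)
      ((int_mul h.memf hφ1.memf).const_mul e)]
    refine integral_congr_ae (Eventually.of_forall fun x => ?_)
    ring
  rw [h2]
  linarith

end KE

open KE

/-- one-body calculus: minimality of `2 q(a) + q(b)` over orthonormal pairs gives the equations -/
theorem eq_of_min {v u w : Pos3 → ℝ} {gu gw : Pos3 → Pos3} (hv : IsSumClassPotential v)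
    (hu : H1 u gu) (hw : H1 w gw) (huu : ∫ x, u x ^ 2 = 1) (hww : ∫ x, w x ^ 2 = 1)
    (huw : ∫ x, u x * w x = 0)
    (hmin : ∀ a ga b gb, H1 a ga → H1 b gb → ∫ x, a x ^ 2 = 1 → ∫ x, b x ^ 2 = 1 →
      ∫ x, a x * b x = 0 →
      ((∫ x, ‖gu x‖ ^ 2) + 2 * (∫ x, v x * u x ^ 2)) +
          ((1 / 2) * (∫ x, ‖gw x‖ ^ 2) + ∫ x, v x * w x ^ 2) ≤
        ((∫ x, ‖ga x‖ ^ 2) + 2 * (∫ x, v x * a x ^ 2)) +
          ((1 / 2) * (∫ x, ‖gb x‖ ^ 2) + ∫ x, v x * b x ^ 2)) :
    ∃ e₁ e₂ : ℝ, WeakEq v e₁ u gu ∧ WeakEq v e₂ w gw := by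
  set B : SH →ₗ[ℝ] SH →ₗ[ℝ] ℝ := (1 / 2 : ℝ) • DF + VF hv with hBdef
  have hBa : ∀ p q : SH, B p q =
      (1 / 2) * (∫ x, inner ℝ (p.1.2 x) (q.1.2 x)) + ∫ x, v x * (p.1.1 x * q.1.1 x) := by
    intro p q
    rw [hBdef]
    simp only [LinearMap.add_apply, LinearMap.smul_apply, smul_eq_mul, DF_apply, VF_apply]
  have hBs : ∀ p : SH, B p p =
      (1 / 2) * (∫ x, ‖p.1.2 x‖ ^ 2) + ∫ x, v x * p.1.1 x ^ 2 := by
    intro p
    rw [hBa]
    simp only [real_inner_self_eq_norm_sq, ← sq]
  have hNs : ∀ p : SH, NF p p = ∫ x, p.1.1 x ^ 2 := by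
    intro p
    rw [NF_apply]
    simp only [← sq]
  obtain ⟨h1, h2⟩ := abs_min B NF
    (fun p q => by rw [hBa, hBa]; simp only [real_inner_comm, mul_comm])
    (fun p q => by rw [NF_apply, NF_apply]; simp only [mul_comm])
    (fun p => by rw [hNs]; exact integral_nonneg fun x => sq_nonneg _)
    (u := ⟨(u, gu), hu⟩) (w := ⟨(w, gw), hw⟩) (by rw [hNs]; exact huu) (by rw [hNs]; exact hww)
    (by rw [NF_apply]; exact huw)
    (fun a b ha hb hab => by
      rw [hNs] at ha hb
      rw [NF_apply] at hab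
      have := hmin _ _ _ _ (SH.h1 a) (SH.h1 b) ha hb hab
      rw [hBs, hBs, hBs, hBs]
      simp only
      linarith)
  refine ⟨B ⟨(u, gu), hu⟩ ⟨(u, gu), hu⟩, B ⟨(w, gw), hw⟩ ⟨(w, gw), hw⟩,
    weakEq_of hv hu fun q => ?_, weakEq_of hv hw fun q => ?_⟩
  · have := h1 q
    rw [hBa, NF_apply] at this
    exact this
  · have := h2 q
    rw [hBa, NF_apply] at this
    exact this

end Crest.Agent.R335
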