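import Crest.Agent.R335.KWave
import Crest.Agent.R335.HSlice

/-!
Row 335 (S0521): Slater determinants `a↑ a↓ b↑` of two real orthonormal `H¹` orbitals (helper50).
-/

set_option autoImplicit false

open MeasureTheory Filter Set Crest.MathPhysics.ThreeBody
open scoped ENNReal Topology ContDiff

noncomputable section
namespace Crest.Agent.R335

namespace KS

/-- `ℝ⁹ = ℝ³ × ℝ⁶` -/
def p9 : Fin 3 × Fin 3 ≃ Fin 3 ⊕ (Fin 3 ⊕ Fin 3) where
  toFun q := if q.1 = 0 then Sum.inl q.2 else if q.1 = 1 then Sum.inr (Sum.inl q.2)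
    else Sum.inr (Sum.inr q.2)
  invFun := Sum.elim (fun c => (0, c)) (Sum.elim (fun c => (1, c)) (fun c => (2, c)))
  left_inv := by decide
  right_inv := by decide

/-- `ℝ⁶ = ℝ³ × ℝ³` -/
def p6 : Fin 3 ⊕ Fin 3 ≃ Fin 3 ⊕ Fin 3 := Equiv.refl _

theorem pr1_p9 (X : Config3) : pr1 p9 X = elPos 0 X := by
  ext c; simp [pr1, p9, elPos]

theorem pr1_p6 (X : Config3) : pr1 p6 (pr2 p9 X) = elPos 1 X := by
  ext c; simp [pr1, pr2, p9, p6, elPos]

theorem pr2_p6 (X : Config3) : pr2 p6 (pr2 p9 X) = elPos 2 X := by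
  ext c; simp [pr2, p9, p6, elPos]

theorem measurable_elPos (i : Fin 3) : Measurable (elPos i) := by
  unfold elPos
  exact (PiLp.continuous_toLp 2 _).measurable.comp (by fun_prop)

/-- splitting of the configuration space into the three positions -/
def e9 : Config3 ≃ᵐ Pos3 × (Pos3 × Pos3) where
  toFun X := (elPos 0 X, (elPos 1 X, elPos 2 X))
  invFun q := jn p9 q.1 (jn p6 q.2.1 q.2.2)
  left_inv X := by
    show jn p9 (elPos 0 X) (jn p6 (elPos 1 X) (elPos 2 X)) = X
    rw [← pr1_p9, ← pr1_p6, ← pr2_p6, jn_pr, jn_pr]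
  right_inv q := by
    show (elPos 0 _, (elPos 1 _, elPos 2 _)) = q
    rw [← pr1_p9, ← pr1_p6, ← pr2_p6]
    simp
  measurable_toFun := (measurable_elPos 0).prodMk ((measurable_elPos 1).prodMk (measurable_elPos 2))
  measurable_invFun := by
    have h6 := (measurableEmbedding_jn p6).measurable
    have h9 := (measurableEmbedding_jn p9).measurable
    exact h9.comp (measurable_fst.prodMk (h6.comp measurable_snd))

theorem e9_apply (X : Config3) : e9 X = (elPos 0 X, (elPos 1 X, elPos 2 X)) := rfl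

theorem mp_e9_symm : MeasurePreserving e9.symm
    ((volume : Measure Pos3).prod ((volume : Measure Pos3).prod (volume : Measure Pos3)))
    (volume : Measure Config3) := by
  have h6 := measurePreserving_jn p6
  have h9 := measurePreserving_jn p9
  exact h9.comp ((MeasurePreserving.id (volume : Measure Pos3)).prod h6)

theorem mp_e9 : MeasurePreserving e9 (volume : Measure Config3)
    ((volume : Measure Pos3).prod ((volume : Measure Pos3).prod (volume : Measure Pos3))) := by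
  have := mp_e9_symm.symm e9.symm
  simpa using this

/-- products of one-body functions -/
def Q (f k m : Pos3 → ℝ) (X : Config3) : ℝ := f (elPos 0 X) * (k (elPos 1 X) * m (elPos 2 X))

theorem integral_Q (f k m : Pos3 → ℝ) : ∫ X, Q f k m X = (∫ x, f x) * ((∫ x, k x) * ∫ x, m x) := by
  have h := mp_e9.integral_comp' (fun q : Pos3 × (Pos3 × Pos3) => f q.1 * (k q.2.1 * m q.2.2))
  have h2 : ∫ X, Q f k m X =
      ∫ X, (fun q : Pos3 × (Pos3 × Pos3) => f q.1 * (k q.2.1 * m q.2.2)) (e9 X) := rfl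
  rw [h2, h]
  rw [integral_prod_mul (μ := (volume : Measure Pos3))
    (ν := (volume : Measure Pos3).prod (volume : Measure Pos3)) f (fun q => k q.1 * m q.2),
    integral_prod_mul (μ := (volume : Measure Pos3)) (ν := (volume : Measure Pos3)) k m]

theorem integrable_Q {f k m : Pos3 → ℝ} (hf : Integrable f) (hk : Integrable k)
    (hm : Integrable m) : Integrable (Q f k m) := by
  have h := hf.mul_prod (hk.mul_prod hm)
  exact mp_e9.integrable_comp_of_integrable h

theorem comb3 {f k m : Config3 → ℝ} (hf : Integrable f) (hk : Integrable k)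
    (hm : Integrable m) : Integrable (fun X => f X + k X - 2 * m X) ∧
      ∫ X, (f X + k X - 2 * m X) = (∫ X, f X) + (∫ X, k X) - 2 * ∫ X, m X := by
  have h1 : Integrable (fun X => f X + k X) := hf.add hk
  have h2 : Integrable (fun X => 2 * m X) := hm.const_mul 2
  refine ⟨h1.sub h2, ?_⟩
  rw [integral_sub h1 h2, integral_add hf hk, integral_const_mul]

theorem sum3 {f k m : Config3 → ℝ} (hf : Integrable f) (hk : Integrable k)
    (hm : Integrable m) : Integrable (fun X => f X + k X + m X) ∧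
      ∫ X, (f X + k X + m X) = (∫ X, f X) + (∫ X, k X) + ∫ X, m X := by
  have h1 : Integrable (fun X => f X + k X) := hf.add hk
  refine ⟨h1.add hm, ?_⟩
  rw [integral_add h1 hm, integral_add hf hk]

section
variable {a b : Pos3 → ℝ} {ga gb : Pos3 → Pos3}

theorem int_sq {a : Pos3 → ℝ} (ha : MemLp a 2 volume) : Integrable (fun x => a x * a x) :=
  ha.integrable_mul ha

theorem int_mul {a b : Pos3 → ℝ} (ha : MemLp a 2 volume) (hb : MemLp b 2 volume) :
    Integrable (fun x => a x * b x) := ha.integrable_mul hb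

theorem int_norm_sq {g : Pos3 → Pos3} (hg : MemLp g 2 volume) :
    Integrable (fun x => ‖g x‖ ^ 2) := hg.integrable_norm_pow (by norm_num)

theorem int_inner {g h : Pos3 → Pos3} (hg : MemLp g 2 volume) (hh : MemLp h 2 volume) :
    Integrable (fun x => (inner ℝ (g x) (h x) : ℝ)) := by
  have h1 := L2.integrable_inner (𝕜 := ℝ) (hg.toLp _) (hh.toLp _)
  refine h1.congr ?_
  filter_upwards [hg.coeFn_toLp, hh.coeFn_toLp] with x e1 e2
  rw [e1, e2]

/-- the spatial part of the Slater determinant -/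
def Fab (a b : Pos3 → ℝ) (X : Config3) : ℝ :=
  (√2)⁻¹ * (a (elPos 0 X) * (b (elPos 1 X) * a (elPos 2 X)) -
    b (elPos 0 X) * (a (elPos 1 X) * a (elPos 2 X)))

/-- its gradient -/
def Gab (a b : Pos3 → ℝ) (ga gb : Pos3 → Pos3) (X : Config3) : Config3 :=
  (√2)⁻¹ • (jn p9 ((b (elPos 1 X) * a (elPos 2 X)) • ga (elPos 0 X))
      (a (elPos 0 X) • jn p6 (a (elPos 2 X) • gb (elPos 1 X)) (b (elPos 1 X) • ga (elPos 2 X))) -
    jn p9 ((a (elPos 1 X) * a (elPos 2 X)) • gb (elPos 0 X))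
      (b (elPos 0 X) • jn p6 (a (elPos 2 X) • ga (elPos 1 X)) (a (elPos 1 X) • ga (elPos 2 X))))

theorem H1_Fab (ha : H1 a ga) (hb : H1 b gb) : H1 (Fab a b) (Gab a b ga gb) := by
  have h1 := H1.tensor p9 ha (H1.tensor p6 hb ha)
  have h2 := H1.tensor p9 hb (H1.tensor p6 ha ha)
  have h3 := (h1.sub h2).const_mul (√2)⁻¹
  simp only [pr1_p9, pr1_p6, pr2_p6] at h3
  exact h3

theorem Fab_anti (a b : Pos3 → ℝ) (x : Config3) :
    Fab a b (permConfig (Equiv.swap 0 1) x) = - Fab a b x := by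
  unfold Fab
  simp only [elPos_permConfig]
  have e0 : (Equiv.swap (0 : Fin 3) 1) 0 = 1 := by decide
  have e1 : (Equiv.swap (0 : Fin 3) 1) 1 = 0 := by decide
  have e2 : (Equiv.swap (0 : Fin 3) 1) 2 = 2 := by decide
  rw [e0, e1, e2]
  ring

theorem sqrt2_inv_sq : (√2 : ℝ)⁻¹ ^ 2 = 1 / 2 := by
  rw [inv_pow, Real.sq_sqrt (by norm_num)]; norm_num

theorem Fab_sq (a b : Pos3 → ℝ) (X : Config3) :
    Fab a b X ^ 2 = (1 / 2) * (Q (fun x => a x * a x) (fun x => b x * b x) (fun x => a x * a x) X +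
      Q (fun x => b x * b x) (fun x => a x * a x) (fun x => a x * a x) X -
      2 * Q (fun x => a x * b x) (fun x => a x * b x) (fun x => a x * a x) X) := by
  unfold Fab Q
  rw [mul_pow, sqrt2_inv_sq]
  ring

/-- weighted squares -/
theorem integral_weight (ha : MemLp a 2 volume) (hb : MemLp b 2 volume) {c0 c1 c2 : Pos3 → ℝ}
    (h0 : Measurable c0) (h1 : Measurable c1) (h2 : Measurable c2)
    (b0 : ∀ x, |c0 x| ≤ 1) (b1 : ∀ x, |c1 x| ≤ 1) (b2 : ∀ x, |c2 x| ≤ 1) :
    Integrable (fun X => Q c0 c1 c2 X * Fab a b X ^ 2) ∧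
    ∫ X, Q c0 c1 c2 X * Fab a b X ^ 2 = (1 / 2) *
      ((∫ x, c0 x * (a x * a x)) * ((∫ x, c1 x * (b x * b x)) * ∫ x, c2 x * (a x * a x)) +
      (∫ x, c0 x * (b x * b x)) * ((∫ x, c1 x * (a x * a x)) * ∫ x, c2 x * (a x * a x)) -
      2 * ((∫ x, c0 x * (a x * b x)) * ((∫ x, c1 x * (a x * b x)) * ∫ x, c2 x * (a x * a x)))) := by
  have bm : ∀ {c f : Pos3 → ℝ}, Measurable c → (∀ x, |c x| ≤ 1) → Integrable f →
      Integrable (fun x => c x * f x) := by
    intro c f hc hb hf
    exact hf.bdd_mul hc.aestronglyMeasurable (Eventually.of_forall fun x => by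
      simpa using hb x)
  have iaa := int_sq ha
  have ibb := int_sq hb
  have iab := int_mul ha hb
  have e : ∀ X, Q c0 c1 c2 X * Fab a b X ^ 2 = (1 / 2) *
      (Q (fun x => c0 x * (a x * a x)) (fun x => c1 x * (b x * b x)) (fun x => c2 x * (a x * a x)) X +
      Q (fun x => c0 x * (b x * b x)) (fun x => c1 x * (a x * a x)) (fun x => c2 x * (a x * a x)) X -
      2 * Q (fun x => c0 x * (a x * b x)) (fun x => c1 x * (a x * b x))
        (fun x => c2 x * (a x * a x)) X) := by
    intro X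
    rw [Fab_sq]
    unfold Q
    ring
  have i1 := integrable_Q (bm h0 b0 iaa) (bm h1 b1 ibb) (bm h2 b2 iaa)
  have i2 := integrable_Q (bm h0 b0 ibb) (bm h1 b1 iaa) (bm h2 b2 iaa)
  have i3 := integrable_Q (bm h0 b0 iab) (bm h1 b1 iab) (bm h2 b2 iaa)
  obtain ⟨j1, j2⟩ := comb3 i1 i2 i3
  constructor
  · simp only [e]
    exact j1.const_mul (1 / 2)
  · simp only [e]
    rw [integral_const_mul, j2, integral_Q, integral_Q, integral_Q]

theorem norm_sq_jn' {ι κ κ' : Type*} [Fintype ι] [DecidableEq ι] [Fintype κ] [DecidableEq κ]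
    [Fintype κ'] [DecidableEq κ'] (p : ι ≃ κ ⊕ κ') (A : EuclideanSpace ℝ κ)
    (B : EuclideanSpace ℝ κ') : ‖jn p A B‖ ^ 2 = ‖A‖ ^ 2 + ‖B‖ ^ 2 := by
  rw [norm_sq_jn p, pr1_jn, pr2_jn]

theorem jn_sub {ι κ κ' : Type*} [Fintype ι] [DecidableEq ι] [Fintype κ] [DecidableEq κ]
    [Fintype κ'] [DecidableEq κ'] (p : ι ≃ κ ⊕ κ') (A A' : EuclideanSpace ℝ κ)
    (B B' : EuclideanSpace ℝ κ') : jn p A B - jn p A' B' = jn p (A - A') (B - B') := by
  ext i
  rcases h : p i with k | k <;> simp [jn_apply, h]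

theorem jn_smul {ι κ κ' : Type*} [Fintype ι] [DecidableEq ι] [Fintype κ] [DecidableEq κ]
    [Fintype κ'] [DecidableEq κ'] (p : ι ≃ κ ⊕ κ') (c : ℝ) (A : EuclideanSpace ℝ κ)
    (B : EuclideanSpace ℝ κ') : c • jn p A B = jn p (c • A) (c • B) := by
  ext i
  rcases h : p i with k | k <;> simp [jn_apply, h]

theorem norm_sub_smul_sq (r t : ℝ) (x y : Pos3) :
    ‖r • x - t • y‖ ^ 2 = r ^ 2 * ‖x‖ ^ 2 + t ^ 2 * ‖y‖ ^ 2 - 2 * (r * t) * inner ℝ x y := by
  rw [norm_sub_sq_real, norm_smul, norm_smul, inner_smul_left, inner_smul_right]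
  simp only [mul_pow, Real.norm_eq_abs, sq_abs, conj_trivial]
  ring

theorem Gab_sq (a b : Pos3 → ℝ) (ga gb : Pos3 → Pos3) (X : Config3) :
    ‖Gab a b ga gb X‖ ^ 2 = (1 / 2) * (
      (Q (fun x => ‖ga x‖ ^ 2) (fun x => b x * b x) (fun x => a x * a x) X +
       Q (fun x => ‖gb x‖ ^ 2) (fun x => a x * a x) (fun x => a x * a x) X -
       2 * Q (fun x => inner ℝ (ga x) (gb x)) (fun x => a x * b x) (fun x => a x * a x) X) +
      (Q (fun x => a x * a x) (fun x => ‖gb x‖ ^ 2) (fun x => a x * a x) X +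
       Q (fun x => b x * b x) (fun x => ‖ga x‖ ^ 2) (fun x => a x * a x) X -
       2 * Q (fun x => a x * b x) (fun x => inner ℝ (ga x) (gb x)) (fun x => a x * a x) X) +
      (Q (fun x => a x * a x) (fun x => b x * b x) (fun x => ‖ga x‖ ^ 2) X +
       Q (fun x => b x * b x) (fun x => a x * a x) (fun x => ‖ga x‖ ^ 2) X -
       2 * Q (fun x => a x * b x) (fun x => a x * b x) (fun x => ‖ga x‖ ^ 2) X)) := by
  unfold Gab
  rw [norm_smul, mul_pow, norm_inv, Real.norm_eq_abs, abs_of_nonneg (Real.sqrt_nonneg 2),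
    sqrt2_inv_sq, jn_sub, norm_sq_jn', jn_smul, jn_smul, jn_sub, norm_sq_jn', norm_sub_smul_sq]
  simp only [smul_smul]
  rw [norm_sub_smul_sq, norm_sub_smul_sq, real_inner_self_eq_norm_sq,
    real_inner_comm (ga (elPos 1 X)) (gb (elPos 1 X))]
  unfold Q
  ring

theorem integral_Gab (ha : H1 a ga) (hb : H1 b gb)
    (haa : ∫ x, a x ^ 2 = 1) (hbb : ∫ x, b x ^ 2 = 1) (hab : ∫ x, a x * b x = 0) :
    ∫ X, ‖Gab a b ga gb X‖ ^ 2 = 2 * (∫ x, ‖ga x‖ ^ 2) + ∫ x, ‖gb x‖ ^ 2 := by
  have iaa := int_sq ha.memf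
  have ibb := int_sq hb.memf
  have iab := int_mul ha.memf hb.memf
  have iga := int_norm_sq ha.memg
  have igb := int_norm_sq hb.memg
  have igg := int_inner ha.memg hb.memg
  have naa : ∫ x, a x * a x = 1 := by rw [← haa]; simp only [pow_two]
  have nbb : ∫ x, b x * b x = 1 := by rw [← hbb]; simp only [pow_two]
  simp only [Gab_sq]
  obtain ⟨A1, A2⟩ := comb3 (integrable_Q iga ibb iaa) (integrable_Q igb iaa iaa)
    (integrable_Q igg iab iaa)
  obtain ⟨B1, B2⟩ := comb3 (integrable_Q iaa igb iaa) (integrable_Q ibb iga iaa)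
    (integrable_Q iab igg iaa)
  obtain ⟨C1, C2⟩ := comb3 (integrable_Q iaa ibb iga) (integrable_Q ibb iaa iga)
    (integrable_Q iab iab iga)
  rw [integral_const_mul, (sum3 A1 B1 C1).2, A2, B2, C2]
  simp only [integral_Q, naa, nbb, hab]
  ring

end

end KS

open KS

/-- `KI.slater` -/
theorem slater {a b : Pos3 → ℝ} {ga gb : Pos3 → Pos3} (ha : H1 a ga) (hb : H1 b gb)
    (haa : ∫ x, a x ^ 2 = 1) (hbb : ∫ x, b x ^ 2 = 1) (hab : ∫ x, a x * b x = 0) :
    ∃ Φ : Wave3, IsFermionic Φ ∧ normSq Φ = 1 ∧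
      kinetic Φ = ENNReal.ofReal ((∫ x, ‖ga x‖ ^ 2) + (1 / 2) * ∫ x, ‖gb x‖ ^ 2) ∧
      ∀ A : Set Pos3, MeasurableSet A →
        densityOn Φ A = ∫⁻ x in A, ENNReal.ofReal (2 * a x ^ 2 + b x ^ 2) := by
  have hF := H1_Fab ha hb
  have naa : ∫ x, a x * a x = 1 := by rw [← haa]; simp only [pow_two]
  have nbb : ∫ x, b x * b x = 1 := by rw [← hbb]; simp only [pow_two]
  refine ⟨waveOf (Fab a b), waveOf_isFermionic hF.memf (Fab_anti a b), ?_, ?_, ?_⟩
  · rw [normSq_waveOf]
    obtain ⟨h1, h2⟩ := integral_weight ha.memf hb.memf (c0 := fun _ => 1) (c1 := fun _ => 1)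
      (c2 := fun _ => 1) measurable_const measurable_const measurable_const (by simp) (by simp)
      (by simp)
    have e : ∀ X, Q (fun _ => 1) (fun _ => 1) (fun _ => 1) X * Fab a b X ^ 2 = Fab a b X ^ 2 := by
      intro X; simp [Q]
    simp only [e, one_mul, naa, nbb, hab] at h1 h2
    rw [← ofReal_integral_eq_lintegral_ofReal h1 (Eventually.of_forall fun x => by positivity), h2]
    norm_num
  · rw [kinetic_waveOf hF, integral_Gab ha hb haa hbb hab]
    congr 1
    ring
  · intro A hA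
    rw [densityOn_waveOf]
    set χ : Pos3 → ℝ := A.indicator (fun _ => (1 : ℝ)) with hχ
    have hχm : Measurable χ := measurable_const.indicator hA
    have hχ0 : ∀ x, 0 ≤ χ x := fun x => Set.indicator_nonneg (fun _ _ => zero_le_one) x
    have hχ1 : ∀ x, |χ x| ≤ 1 := by
      intro x
      by_cases hx : x ∈ A <;> simp [hχ, hx]
    have hχe : ∀ x, A.indicator (fun _ => (1 : ℝ≥0∞)) x = ENNReal.ofReal (χ x) := by
      intro x
      by_cases hx : x ∈ A <;> simp [hχ, hx]
    have h1m : ∀ x : Pos3, |(1 : ℝ)| ≤ 1 := by simp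
    obtain ⟨i0, I0⟩ := integral_weight ha.memf hb.memf (c0 := χ) (c1 := fun _ => 1)
      (c2 := fun _ => 1) hχm measurable_const measurable_const hχ1 h1m h1m
    obtain ⟨i1, I1⟩ := integral_weight ha.memf hb.memf (c0 := fun _ => 1) (c1 := χ)
      (c2 := fun _ => 1) measurable_const hχm measurable_const h1m hχ1 h1m
    obtain ⟨i2, I2⟩ := integral_weight ha.memf hb.memf (c0 := fun _ => 1) (c1 := fun _ => 1)
      (c2 := χ) measurable_const measurable_const hχm h1m h1m hχ1
    have e : ∀ X, (∑ i : Fin 3, A.indicator (fun _ => (1 : ℝ≥0∞)) (elPos i X)) *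
        ENNReal.ofReal (Fab a b X ^ 2) = ENNReal.ofReal
          (Q χ (fun _ => 1) (fun _ => 1) X * Fab a b X ^ 2 +
            Q (fun _ => 1) χ (fun _ => 1) X * Fab a b X ^ 2 +
            Q (fun _ => 1) (fun _ => 1) χ X * Fab a b X ^ 2) := by
      intro X
      rw [Fin.sum_univ_three, hχe, hχe, hχe, ← ENNReal.ofReal_add (hχ0 _) (hχ0 _),
        ← ENNReal.ofReal_add (add_nonneg (hχ0 _) (hχ0 _)) (hχ0 _), ← ENNReal.ofReal_mul
        (add_nonneg (add_nonneg (hχ0 _) (hχ0 _)) (hχ0 _))]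
      congr 1
      unfold Q
      ring
    simp only [e]
    obtain ⟨S1, S2⟩ := sum3 i0 i1 i2
    rw [← ofReal_integral_eq_lintegral_ofReal S1 (Eventually.of_forall fun X => by
      have := hχ0 (elPos 0 X)
      have := hχ0 (elPos 1 X)
      have := hχ0 (elPos 2 X)
      unfold Q
      simp only [Pi.zero_apply]
      positivity), S2, I0, I1, I2]
    have iaa := int_sq ha.memf
    have ibb := int_sq hb.memf
    have j1 : Integrable (fun x => 2 * a x ^ 2 + b x ^ 2) := by
      have := (iaa.const_mul 2).add ibb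
      refine this.congr (Eventually.of_forall fun x => ?_)
      simp only [Pi.add_apply]
      ring
    rw [← ofReal_integral_eq_lintegral_ofReal j1.integrableOn
      (Eventually.of_forall fun x => by positivity)]
    congr 1
    have k1 : ∫ x in A, (2 * a x ^ 2 + b x ^ 2) =
        2 * (∫ x, χ x * (a x * a x)) + ∫ x, χ x * (b x * b x) := by
      rw [← integral_indicator hA, ← integral_const_mul, ← integral_add]
      · refine integral_congr_ae (Eventually.of_forall fun x => ?_)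
        by_cases hx : x ∈ A
        · simp [hχ, hx]; ring
        · simp [hχ, hx]
      · exact (iaa.bdd_mul hχm.aestronglyMeasurable (Eventually.of_forall fun x => by
          simpa using hχ1 x)).const_mul 2
      · exact ibb.bdd_mul hχm.aestronglyMeasurable (Eventually.of_forall fun x => by
          simpa using hχ1 x)
    rw [k1]
    simp only [one_mul, naa, nbb, hab]
    ring

end Crest.Agent.R335
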