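import Crest.Agent.R335.KTmin
import Crest.Agent.R335.HGlob
import Crest.Agent.R335.KPot
import Crest.Agent.R335.KTest
import Crest.Agent.R335.KDens
import Crest.Agent.R335.KSlater
import Crest.Agent.R335.KEq

/-!
Row 335 (S0521), Kohn-Sham side: the ensemble-representation hypothesis gives the weak
one-body equations of the pair (theorem `HK` of KIface).
-/

set_option autoImplicit false
set_option linter.unusedVariables false

open MeasureTheory Filter Set Crest.MathPhysics.ThreeBody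
open scoped ENNReal Topology ContDiff

noncomputable section
namespace Crest.Agent.R335

namespace HKaux

/-- class potentials are a.e. strongly measurable -/
theorem class_aesm {v : Pos3 → ℝ} (hv : IsSumClassPotential v) :
    AEStronglyMeasurable v volume := by
  obtain ⟨v₁, v₂, rfl, h1, h2⟩ := hv
  exact h1.1.add h2.1

theorem class_int {v : Pos3 → ℝ} (hv : IsSumClassPotential v) {f : Pos3 → ℝ} {g : Pos3 → Pos3}
    (hf : H1 f g) : Integrable (fun x => v x * f x ^ 2) := by
  obtain ⟨C, -, hC⟩ := class_bound hv one_pos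
  have h := (hC f g hf).1
  refine h.mono ((class_aesm hv).mul (hf.memf.1.pow 2)) (ae_of_all _ fun x => ?_)
  simp

theorem H1.int_sq {f : Pos3 → ℝ} {g : Pos3 → Pos3} (hf : H1 f g) :
    Integrable (fun x => f x ^ 2) := hf.memf.integrable_sq

/-- energy of a Slater state -/
theorem slater_energy {v : Pos3 → ℝ} (hv : IsSumClassPotential v) {a b : Pos3 → ℝ}
    {ga gb : Pos3 → Pos3} (ha : H1 a ga) (hb : H1 b gb)
    (haa : ∫ x, a x ^ 2 = 1) (hbb : ∫ x, b x ^ 2 = 1) (hab : ∫ x, a x * b x = 0) :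
    ∃ Φ : Wave3, IsAdmissible (oneBodyPotential v) Φ ∧ normSq Φ = 1 ∧
      energy (oneBodyPotential v) Φ =
        ((∫ x, ‖ga x‖ ^ 2) + 2 * (∫ x, v x * a x ^ 2)) +
          ((1 / 2) * (∫ x, ‖gb x‖ ^ 2) + ∫ x, v x * b x ^ 2) := by
  obtain ⟨Φ, hΦ, hn, hk, hd⟩ := slater ha hb haa hbb hab
  have hk' : kinetic Φ < ⊤ := by rw [hk]; exact ENNReal.ofReal_lt_top
  have hm : AEMeasurable (fun x => ENNReal.ofReal (2 * a x ^ 2 + b x ^ 2)) volume := by
    exact (((ha.memf.1.aemeasurable.pow_const 2).const_mul 2).add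
      (hb.memf.1.aemeasurable.pow_const 2)).ennreal_ofReal
  have hd' : ∀ A : Set Pos3, MeasurableSet A → densityOn Φ A = ∫⁻ x in A, hm.mk _ x := by
    intro A hA
    rw [hd A hA]
    exact lintegral_congr_ae (ae_restrict_of_ae hm.ae_eq_mk)
  obtain ⟨hadm, hint, hpot⟩ := potential_density hv hΦ hk' hm.measurable_mk hd'
  refine ⟨Φ, hadm, hn, ?_⟩
  have h1 : ∫ x, v x * (hm.mk _ x).toReal = ∫ x, (2 * (v x * a x ^ 2) + v x * b x ^ 2) := by
    refine integral_congr_ae ?_
    filter_upwards [hm.ae_eq_mk] with x hx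
    rw [← hx, ENNReal.toReal_ofReal (by positivity)]
    ring
  have hia := class_int hv ha
  have hib := class_int hv hb
  unfold energy
  rw [hpot, h1, integral_add (hia.const_mul 2) hib, integral_const_mul, hk,
    ENNReal.toReal_ofReal]
  · ring
  · have h2 : 0 ≤ ∫ x, ‖ga x‖ ^ 2 := integral_nonneg fun x => by positivity
    have h3 : 0 ≤ ∫ x, ‖gb x‖ ^ 2 := integral_nonneg fun x => by positivity
    positivity

/-- the kinetic energy of the ensemble through the density -/
theorem ens_kin {v : Pos3 → ℝ} (hv : IsSumClassPotential v) {s : Pos3 → ℝ} {gs : Pos3 → Pos3}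
    (hs : H1 s gs) {p : ℕ → ℝ≥0∞} {Φ : ℕ → Wave3} (hp1 : ∑' k, p k = 1)
    (hgs : ∀ k, IsGroundState (oneBodyPotential v) (Φ k))
    (hρ : ∀ A : Set Pos3, MeasurableSet A →
      ∑' k, p k * densityOn (Φ k) A = ∫⁻ x in A, ENNReal.ofReal (s x ^ 2)) :
    ∃ E0 : ℝ,
      (∀ Φ' : Wave3, IsAdmissible (oneBodyPotential v) Φ' → normSq Φ' = 1 →
        E0 ≤ energy (oneBodyPotential v) Φ') ∧
      ∑' k, p k * kinetic (Φ k) = ENNReal.ofReal (E0 - ∫ x, v x * s x ^ 2) ∧
      0 ≤ E0 - ∫ x, v x * s x ^ 2 := by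
  choose ρ hρm hρd using fun k => density_exists (hgs k).1.1
  have hpd := fun k => potential_density hv (hgs k).1.1 (hgs k).1.2.1 (hρm k) (hρd k)
  set E0 : ℝ := energy (oneBodyPotential v) (Φ 0) with hE0
  have hEk : ∀ k, energy (oneBodyPotential v) (Φ k) = E0 := fun k =>
    le_antisymm ((hgs k).2.2 _ (hgs 0).1 (hgs 0).2.1) ((hgs 0).2.2 _ (hgs k).1 (hgs k).2.1)
  have hkin : ∀ k, (kinetic (Φ k)).toReal = E0 - ∫ x, v x * (ρ k x).toReal := by
    intro k
    have := hEk k
    unfold energy at this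
    rw [(hpd k).2.2] at this
    linarith
  -- p k ≤ 1
  have hp_le : ∀ k, p k ≤ 1 := fun k => by rw [← hp1]; exact ENNReal.le_tsum k
  have hp_top : ∀ k, p k ≠ ⊤ := fun k => ((hp_le k).trans_lt ENNReal.one_lt_top).ne
  have hq : HasSum (fun k => (p k).toReal) 1 := by
    have h := ENNReal.hasSum_toReal (f := p) (by rw [hp1]; exact ENNReal.one_ne_top)
    rw [← ENNReal.tsum_toReal_eq hp_top, hp1] at h
    simpa using h
  -- density of the mixture
  have hmeas_sum : Measurable fun x => ∑' k, p k * ρ k x :=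
    Measurable.ennreal_tsum fun k => (hρm k).const_mul _
  have hs_aem : AEMeasurable (fun x => ENNReal.ofReal (s x ^ 2)) volume :=
    (hs.memf.1.aemeasurable.pow_const 2).ennreal_ofReal
  have hae : (fun x => ∑' k, p k * ρ k x) =ᵐ[volume] fun x => ENNReal.ofReal (s x ^ 2) := by
    refine ae_eq_of_forall_setLIntegral_eq_of_sigmaFinite₀ hmeas_sum.aemeasurable hs_aem ?_
    intro A hA _
    rw [← hρ A hA, lintegral_tsum fun k => ((hρm k).const_mul _).aemeasurable]
    refine tsum_congr fun k => ?_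
    rw [lintegral_const_mul _ (hρm k), hρd k A hA]
  -- the real version
  have hae2 : ∀ᵐ x ∂(volume : Measure Pos3),
      HasSum (fun k => (p k).toReal * (ρ k x).toReal) (s x ^ 2) := by
    filter_upwards [hae] with x hx
    have hx' : ∑' k, p k * ρ k x ≠ ⊤ := by rw [hx]; exact ENNReal.ofReal_ne_top
    have h := ENNReal.hasSum_toReal (f := fun k => p k * ρ k x) hx'
    have hk : ∀ k, p k * ρ k x ≠ ⊤ := ENNReal.ne_top_of_tsum_ne_top hx'
    rw [← ENNReal.tsum_toReal_eq hk, hx, ENNReal.toReal_ofReal (by positivity)] at h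
    simpa [ENNReal.toReal_mul] using h
  -- integrability of the mixture
  have hvm : AEStronglyMeasurable v volume := class_aesm hv
  have hvs := class_int hv hs
  have hFint : ∀ k, Integrable (fun x => (p k).toReal * (v x * (ρ k x).toReal)) := fun k =>
    ((hpd k).2.1).const_mul _
  have hFsum : Summable fun k => ∫ x, ‖(p k).toReal * (v x * (ρ k x).toReal)‖ := by
    have h1 : ∑' k, ∫⁻ x, ‖(p k).toReal * (v x * (ρ k x).toReal)‖ₑ ≤
        ∫⁻ x, ‖v x * s x ^ 2‖ₑ := by
      rw [← lintegral_tsum fun k => (hFint k).1.enorm]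
      refine lintegral_mono_ae ?_
      filter_upwards [hae2] with x hx
      have h2 : ∀ k, ‖(p k).toReal * (v x * (ρ k x).toReal)‖ₑ =
          ENNReal.ofReal (|v x| * ((p k).toReal * (ρ k x).toReal)) := by
        intro k
        rw [← ofReal_norm_eq_enorm, Real.norm_eq_abs, abs_mul, abs_mul,
          abs_of_nonneg ENNReal.toReal_nonneg, abs_of_nonneg ENNReal.toReal_nonneg]
        congr 1; ring
      simp_rw [h2]
      rw [← ENNReal.ofReal_tsum_of_nonneg (fun k => by positivity) (hx.mul_left _).summable,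
        (hx.mul_left _).tsum_eq, ← ofReal_norm_eq_enorm, Real.norm_eq_abs, abs_mul,
        abs_of_nonneg (sq_nonneg (s x))]
    have h2 : ∑' k, ∫⁻ x, ‖(p k).toReal * (v x * (ρ k x).toReal)‖ₑ ≠ ⊤ :=
      (h1.trans_lt hvs.2).ne
    have h3 := ENNReal.summable_toReal h2
    refine h3.congr fun k => ?_
    rw [integral_norm_eq_lintegral_enorm (hFint k).1]
  have hsum1 := hasSum_integral_of_summable_integral_norm hFint hFsum
  have hsum2 : HasSum (fun k => (p k).toReal * ∫ x, v x * (ρ k x).toReal)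
      (∫ x, v x * s x ^ 2) := by
    have h1 : ∫ x, ∑' k, (p k).toReal * (v x * (ρ k x).toReal) = ∫ x, v x * s x ^ 2 := by
      refine integral_congr_ae ?_
      filter_upwards [hae2] with x hx
      have : (fun k => (p k).toReal * (v x * (ρ k x).toReal)) =
          fun k => v x * ((p k).toReal * (ρ k x).toReal) := by funext k; ring
      rw [this, (hx.mul_left _).tsum_eq]
    rw [h1] at hsum1
    simpa only [integral_const_mul] using hsum1
  have hsum3 : HasSum (fun k => (p k).toReal * (kinetic (Φ k)).toReal)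
      (E0 - ∫ x, v x * s x ^ 2) := by
    have h1 := (hq.mul_right E0).sub hsum2
    rw [one_mul] at h1
    have h2 : (fun k => (p k).toReal * (kinetic (Φ k)).toReal) =
        fun k => (p k).toReal * E0 - (p k).toReal * ∫ x, v x * (ρ k x).toReal := by
      funext k; rw [hkin k]; ring
    rw [h2]; exact h1
  refine ⟨E0, (hgs 0).2.2, ?_, ?_⟩
  · rw [← hsum3.tsum_eq, ENNReal.ofReal_tsum_of_nonneg (fun k => by positivity) hsum3.summable]
    refine tsum_congr fun k => ?_
    rw [ENNReal.ofReal_mul ENNReal.toReal_nonneg, ENNReal.ofReal_toReal (hp_top k),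
      ENNReal.ofReal_toReal (hgs k).1.2.1.ne]
  · exact hsum3.nonneg fun k => by positivity

theorem integrable_inner_of {f g : Pos3 → Pos3} (hf : MemLp f 2 volume)
    (hg : MemLp g 2 volume) : Integrable (fun x => inner ℝ (f x) (g x)) := by
  refine (hf.norm.integrable_mul hg.norm).mono (hf.1.inner hg.1) (ae_of_all _ fun x => ?_)
  rw [Pi.mul_apply, Real.norm_eq_abs, Real.norm_eq_abs, abs_mul, abs_norm, abs_norm]
  exact abs_real_inner_le_norm _ _

/-- odd functions have integral zero -/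
theorem integral_odd {f : Pos3 → ℝ} (h : ∀ x, f (rz x) = - f x) : ∫ x, f x = 0 := by
  have h1 : ∫ x, f (rz x) = ∫ x, f x := rz.measurePreserving.integral_comp' (f := rz.toHomeomorph.toMeasurableEquiv) f
  have h2 : ∫ x, f (rz x) = - ∫ x, f x := by
    simp_rw [h]; exact integral_neg _
  linarith

theorem WeakEq.smul {v : Pos3 → ℝ} {e : ℝ} {f : Pos3 → ℝ} {g : Pos3 → Pos3}
    (h : WeakEq v e f g) (c : ℝ) : WeakEq v e (fun x => c * f x) (fun x => c • g x) := by
  intro φ hφ
  have h1 := h φ hφ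
  have h2 : ∫ x, inner ℝ (c • g x) (gr φ x) = c * ∫ x, inner ℝ (g x) (gr φ x) := by
    simp_rw [real_inner_smul_left]; exact integral_const_mul _ _
  have h3 : ∫ x, (v x - e) * (c * f x) * φ x = c * ∫ x, (v x - e) * f x * φ x := by
    rw [← integral_const_mul]; congr 1; funext x; ring
  rw [h2, h3]
  linear_combination c * h1

end HKaux

open HKaux in
theorem HK {s U w : Pos3 → ℝ} {gs gU gw : Pos3 → Pos3} {om : ℝ} (hs : Amp s gs)
    (hp : Pair s U gU w gw om) (hsp : ∀ f g, H1 f g → SPIneq s gs U gU w gw om f g)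
    {Ψ : Wave3}
    (hΨ : ∀ A : Set Pos3, MeasurableSet A →
      densityOn Ψ A = ∫⁻ x in A, ENNReal.ofReal (s x ^ 2))
    (hrep : HasEnsembleRep Ψ) :
    ∃ (v : Pos3 → ℝ) (e : ℝ), IsSumClassPotential v ∧ WeakEq v e U gU ∧
      WeakEq v (e + om) w gw := by
  obtain ⟨v, hv, p, Φ, hp1, hgs, hρ0⟩ := hrep
  have hρ : ∀ A : Set Pos3, MeasurableSet A →
      ∑' k, p k * densityOn (Φ k) A = ∫⁻ x in A, ENNReal.ofReal (s x ^ 2) := by
    intro A hA
    rw [← hρ0 A hA, hΨ A hA]
  obtain ⟨E0, hE0, hkin, hpos⟩ := ens_kin hv hs.h1 hp1 hgs hρ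
  have hT := T_min hs hp hsp hp1 (fun k => (hgs k).1.1) (fun k => (hgs k).2.1)
    (fun k => (hgs k).1.2.1) hρ
  rw [hkin, ENNReal.ofReal_le_ofReal_iff hpos] at hT
  -- the pair as an orthonormal pair
  have hHU := hp.adm.hU
  have hHw := hp.adm.hw
  set c : ℝ := (√2)⁻¹ with hc
  have hc2 : c ^ 2 = 1 / 2 := by
    rw [hc, inv_pow, Real.sq_sqrt (by norm_num)]; norm_num
  have hcc : √2 * c = 1 := by
    rw [hc]; exact mul_inv_cancel₀ (by positivity)
  have hu : H1 (fun x => c * U x) (fun x => c • gU x) := H1.const_mul hHU c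
  have huu : ∫ x, (c * U x) ^ 2 = 1 := by
    simp_rw [mul_pow]
    rw [integral_const_mul, hp.adm.nU, hc2]; norm_num
  have huw : ∫ x, (c * U x) * w x = 0 := by
    refine integral_odd fun x => ?_
    rw [hp.adm.evenU, hp.adm.oddw]; ring
  have hvU := class_int hv hHU
  have hvw := class_int hv hHw
  have hvs := class_int hv hs.h1
  have hsplit : ∫ x, v x * s x ^ 2 = (∫ x, v x * U x ^ 2) + ∫ x, v x * w x ^ 2 := by
    rw [← integral_add hvU hvw]
    congr 1; funext x; rw [← hp.adm.sq x]; ring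
  have hun : ∫ x, ‖c • gU x‖ ^ 2 = (1 / 2) * ∫ x, ‖gU x‖ ^ 2 := by
    rw [← integral_const_mul]
    congr 1; funext x
    rw [norm_smul, mul_pow, Real.norm_eq_abs, sq_abs, hc2]
  have huv : ∫ x, v x * (c * U x) ^ 2 = (1 / 2) * ∫ x, v x * U x ^ 2 := by
    rw [← integral_const_mul]
    congr 1; funext x
    rw [mul_pow, hc2]; ring
  have hmin : ∀ a ga b gb, H1 a ga → H1 b gb → ∫ x, a x ^ 2 = 1 → ∫ x, b x ^ 2 = 1 →
      ∫ x, a x * b x = 0 →
      ((∫ x, ‖c • gU x‖ ^ 2) + 2 * (∫ x, v x * (c * U x) ^ 2)) +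
          ((1 / 2) * (∫ x, ‖gw x‖ ^ 2) + ∫ x, v x * w x ^ 2) ≤
        ((∫ x, ‖ga x‖ ^ 2) + 2 * (∫ x, v x * a x ^ 2)) +
          ((1 / 2) * (∫ x, ‖gb x‖ ^ 2) + ∫ x, v x * b x ^ 2) := by
    intro a ga b gb ha hb haa hbb hab
    obtain ⟨Φ', h1, h2, h3⟩ := slater_energy hv ha hb haa hbb hab
    have h4 := hE0 Φ' h1 h2
    rw [h3] at h4
    rw [hun, huv]
    linarith
  obtain ⟨e₁, e₂, hw1, hw2⟩ := eq_of_min hv hu hHw huu hp.adm.nw huw hmin
  -- back to `U`
  have hWU : WeakEq v e₁ U gU := by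
    have h1 := WeakEq.smul hw1 (√2)
    have h2 : (fun x => √2 * (c * U x)) = U := by
      funext x; rw [← mul_assoc, hcc, one_mul]
    have h3 : (fun x => √2 • c • gU x) = gU := by
      funext x; rw [smul_smul, hcc, one_smul]
    rwa [h2, h3] at h1
  refine ⟨v, e₁, hv, hWU, ?_⟩
  -- the eigenvalue difference
  suffices he : e₂ = e₁ + om by rwa [← he]
  obtain ⟨ψ, gψ, hψ, hne⟩ := hp.nd
  obtain ⟨C, hC⟩ := hs.bdd
  have hC0 : 0 ≤ C := (hs.pos 0).le.trans (hC 0)
  have hUb : ∀ x, |U x| ≤ C := fun x => by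
    have h1 := hp.adm.sq x
    have h2 : |U x| ^ 2 ≤ C ^ 2 := by
      rw [sq_abs]
      nlinarith [sq_nonneg (w x), hC x, (hs.pos x).le]
    exact (abs_le_of_sq_le_sq' (by rwa [sq_abs] at h2) hC0) |> fun h => abs_le.2 h
  have hwb : ∀ x, |w x| ≤ C := fun x => by
    have h1 := hp.adm.sq x
    have h2 : w x ^ 2 ≤ C ^ 2 := by
      nlinarith [sq_nonneg (U x), hC x, (hs.pos x).le]
    exact (abs_le_of_sq_le_sq' h2 hC0) |> fun h => abs_le.2 h
  have hli := class_locInt hv
  have hbw := BT.mul hψ hHw ⟨C, ae_of_all _ hwb⟩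
  have hbU := BT.mul hψ hHU ⟨C, ae_of_all _ hUb⟩
  have eq1 := WeakEq.bt hli hHU (ae_of_all _ hUb) hWU hbw
  have eq2 := WeakEq.bt hli hHw (ae_of_all _ hwb) hw2 hbU
  have hel := hp.el ψ gψ hψ
  -- integrability
  obtain ⟨D, hD⟩ := hψ.bdd
  have hi1 : Integrable (fun x => inner ℝ (gU x) (ψ x • gw x + w x • gψ x)) :=
    integrable_inner_of hHU.memg hbw.h1.memg
  have hi2 : Integrable (fun x => inner ℝ (gw x) (ψ x • gU x + U x • gψ x)) :=
    integrable_inner_of hHw.memg hbU.h1.memg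
  have hvUw : Integrable (fun x => v x * (U x * w x)) := by
    have h1 : Integrable (fun x => |v x| * s x ^ 2) :=
      (((class_bound hv one_pos).choose_spec.2) s gs hs.h1).1
    refine h1.mono ((class_aesm hv).mul (hHU.memf.1.mul hHw.memf.1)) (ae_of_all _ fun x => ?_)
    rw [Real.norm_eq_abs, Real.norm_eq_abs, abs_mul, abs_mul (|v x|), abs_abs,
      abs_of_nonneg (sq_nonneg (s x)), ← hp.adm.sq x]
    refine mul_le_mul_of_nonneg_left ?_ (abs_nonneg _)
    rw [abs_mul]
    nlinarith [sq_nonneg (|U x| - |w x|), sq_abs (U x), sq_abs (w x)]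
  have hUw : Integrable (fun x => U x * w x) :=
    hHU.memf.integrable_mul hHw.memf
  have hψm : AEStronglyMeasurable ψ volume := hψ.h1.memf.1
  have hi3 : Integrable (fun x => ψ x * (v x * (U x * w x))) :=
    hvUw.bdd_mul hψm (c := D) (by simpa [Real.norm_eq_abs] using hD)
  have hi4 : Integrable (fun x => ψ x * (U x * w x)) :=
    hUw.bdd_mul hψm (c := D) (by simpa [Real.norm_eq_abs] using hD)
  set X : ℝ := ∫ x, U x * w x * ψ x with hX
  have hX' : ∫ x, ψ x * (U x * w x) = X := by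
    rw [hX]; congr 1; funext x; ring
  have e1 : ∫ x, (v x - e₁) * U x * (ψ x * w x) =
      (∫ x, ψ x * (v x * (U x * w x))) - e₁ * X := by
    rw [← hX', ← integral_const_mul, ← integral_sub hi3 (hi4.const_mul _)]
    congr 1; funext x; ring
  have e2 : ∫ x, (v x - e₂) * w x * (ψ x * U x) =
      (∫ x, ψ x * (v x * (U x * w x))) - e₂ * X := by
    rw [← hX', ← integral_const_mul, ← integral_sub hi3 (hi4.const_mul _)]
    congr 1; funext x; ring
  have e3 : (∫ x, inner ℝ (gU x) (ψ x • gw x + w x • gψ x)) -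
      (∫ x, inner ℝ (gw x) (ψ x • gU x + U x • gψ x)) = - (2 * om) * X := by
    rw [← hel, ← integral_sub hi1 hi2]
    congr 1; funext x
    rw [J, inner_add_right, inner_add_right, inner_smul_right, inner_smul_right,
      inner_smul_right, inner_smul_right, inner_sub_left, real_inner_smul_left,
      real_inner_smul_left, real_inner_comm (gU x) (gw x)]
    ring
  rw [e1] at eq1
  rw [e2] at eq2
  have h5 : (e₂ - e₁ - om) * X = 0 := by linear_combination eq1 - eq2 - (1 / 2) * e3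
  have h6 := (mul_eq_zero.1 h5).resolve_right hne
  linarith

end Crest.Agent.R335
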