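import Crest.Agent.R335.KForm
import Crest.Agent.R335.KAgmon

/-!
Row 335 (S0521), Kohn-Sham side: `plane_contra`, `K_contra`.
-/

set_option autoImplicit false

open MeasureTheory Filter Set Crest.MathPhysics.ThreeBody
open scoped ENNReal Topology ContDiff

noncomputable section
namespace Crest.Agent.R335

/-- projection to the plane `z = 0` -/
def prP (x : Pos3) : Pos3 := WithLp.toLp 2 (fun i => if i = 2 then 0 else x i)

theorem prP_two (x : Pos3) : prP x 2 = 0 := by simp [prP]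

theorem norm_sub_prP (x : Pos3) : ‖x - prP x‖ = |x 2| := by
  rw [EuclideanSpace.norm_eq]
  have : ∑ i, ‖(x - prP x) i‖ ^ 2 = (x 2) ^ 2 := by
    simp [Fin.sum_univ_three, prP]
  rw [this, Real.sqrt_sq_eq_abs]

theorem norm_prP_le (x : Pos3) : ‖prP x‖ ≤ ‖x‖ := by
  rw [EuclideanSpace.norm_eq, EuclideanSpace.norm_eq]
  apply Real.sqrt_le_sqrt
  apply Finset.sum_le_sum
  intro i _
  by_cases h : i = 2
  · have : (prP x) i = 0 := by simp [prP, h]
    rw [this]
    nlinarith [norm_nonneg (x i), norm_zero (E := ℝ), sq_nonneg ‖x i‖]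
  · simp [prP, h]

theorem le_norm_prP (x : Pos3) : ‖x‖ - |x 2| ≤ ‖prP x‖ := by
  have := norm_sub_norm_le x (prP x)
  rw [norm_sub_prP] at this
  linarith

/-- box in `Pos3` -/
def boxS (a b c d : ℝ) : Set Pos3 :=
  {x : Pos3 | x 0 ∈ Icc a b ∧ x 1 ∈ Icc 0 c ∧ x 2 ∈ Icc (-d) d}

theorem boxS_eq (a b c d : ℝ) : boxS a b c d =
    (@WithLp.ofLp 2 (Fin 3 → ℝ)) ⁻¹' (Icc ![a, 0, -d] ![b, c, d]) := by
  ext x
  constructor
  · rintro ⟨⟨h0, h0'⟩, ⟨h1, h1'⟩, ⟨h2, h2'⟩⟩
    refine ⟨?_, ?_⟩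
    · intro i; fin_cases i
      · exact h0
      · exact h1
      · exact h2
    · intro i; fin_cases i
      · exact h0'
      · exact h1'
      · exact h2'
  · rintro ⟨h, h'⟩
    exact ⟨⟨h 0, h' 0⟩, ⟨h 1, h' 1⟩, ⟨h 2, h' 2⟩⟩

theorem boxS_meas (a b c d : ℝ) : MeasurableSet (boxS a b c d) := by
  rw [boxS_eq]
  exact (PiLp.volume_preserving_ofLp (Fin 3)).measurable measurableSet_Icc

theorem boxS_volume {a b c d : ℝ} (hab : a ≤ b) (hc : 0 ≤ c) (hd : 0 ≤ d) :
    volume (boxS a b c d) = ENNReal.ofReal ((b - a) * c * (2 * d)) := by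
  rw [boxS_eq, (PiLp.volume_preserving_ofLp (Fin 3)).measure_preimage
    measurableSet_Icc.nullMeasurableSet, Real.volume_Icc_pi, Fin.prod_univ_three]
  simp only [Matrix.cons_val_zero, Matrix.cons_val_one, Matrix.cons_val]
  rw [← ENNReal.ofReal_mul (by linarith), ← ENNReal.ofReal_mul (by
    apply mul_nonneg <;> linarith)]
  congr 1
  ring

/-- the annular part of the slab where the estimate is done -/
theorem boxS_norm {N R d : ℝ} (hN : 2 ≤ N) (hR : 0 ≤ R) (hd : 0 ≤ d) (hd1 : d ≤ 1)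
    {x : Pos3} (hx : x ∈ boxS R (N / 2) (N / 2) d) : R ≤ ‖x‖ ∧ ‖x‖ ≤ N ∧ |x 2| ≤ d := by
  obtain ⟨⟨h0, h0'⟩, ⟨h1, h1'⟩, ⟨h2, h2'⟩⟩ := hx
  have hn : ‖x‖ ^ 2 = x 0 ^ 2 + x 1 ^ 2 + x 2 ^ 2 := by
    rw [EuclideanSpace.norm_sq_eq, Fin.sum_univ_three]
    simp
  have hx2 : |x 2| ≤ d := abs_le.2 ⟨h2, h2'⟩
  have hx2' : x 2 ^ 2 ≤ 1 := by
    rw [← sq_abs]
    have := abs_nonneg (x 2)
    nlinarith
  refine ⟨?_, ?_, hx2⟩
  · apply le_of_sq_le_sq _ (norm_nonneg x)
    rw [hn]
    nlinarith [sq_nonneg (x 1), sq_nonneg (x 2)]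
  · apply le_of_sq_le_sq _ (by linarith)
    rw [hn]
    have : x 0 ^ 2 ≤ (N / 2) ^ 2 := by
      have : 0 ≤ x 0 := hR.trans h0
      nlinarith
    have : x 1 ^ 2 ≤ (N / 2) ^ 2 := by nlinarith
    nlinarith

theorem plane_contra {s U w : Pos3 → ℝ} {gs gU gw : Pos3 → Pos3} {κ k : ℝ} (hs : Amp s gs)
    (hp : PairAdm s U gU w gw) (hκ : 0 < κ) (hk : κ < k) (hlow : PlaneLow s κ)
    (hag : ∃ R M : ℝ, ∀ n : ℕ, ∃ f g, H1 f g ∧ (∀ x : Pos3, R ≤ ‖x‖ → f x = wexp k n x * U x) ∧
      (∫ x, ‖g x‖ ^ 2) + (∫ x, f x ^ 2) ≤ M) : False := by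
  obtain ⟨R, M, hag⟩ := hag
  set ε : ℝ := (k - κ) / 2 with hε
  have hε0 : 0 < ε := by rw [hε]; linarith
  obtain ⟨R₀, hR₀⟩ := hlow ε hε0
  set R₁ : ℝ := max (max R R₀) 0 + 1 with hR₁
  have hR₁R : R ≤ R₁ := by
    have := le_max_left R R₀; have := le_max_left (max R R₀) 0; linarith
  have hR₁R₀ : R₀ + 1 ≤ R₁ := by
    have := le_max_right R R₀; have := le_max_left (max R R₀) 0; linarith
  have hR₁0 : 1 ≤ R₁ := by
    have := le_max_right (max R R₀) 0; linarith
  set N : ℝ := 2 * R₁ + 2 + 4 * (2 * |M| + 2) with hN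
  have hM0 := abs_nonneg M
  have hMle := le_abs_self M
  have hN2 : 2 ≤ N := by rw [hN]; linarith
  -- uniform continuity
  have hFc : Continuous fun x : Pos3 => s x * Real.exp ((κ + ε) * ‖x‖) :=
    hs.cont.mul (Real.continuous_exp.comp (continuous_const.mul continuous_norm))
  have hUC := (isCompact_closedBall (0 : Pos3) N).uniformContinuousOn_of_continuous
    hFc.continuousOn
  rw [Metric.uniformContinuousOn_iff] at hUC
  obtain ⟨δ, hδ, hUC⟩ := hUC (1 / 2) (by norm_num)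
  obtain ⟨n, hn⟩ := exists_nat_ge N
  obtain ⟨f, g, hfH, hfU, hfM⟩ := hag n
  set G : ℝ := ∫ x, ‖gw x‖ ^ 2 with hG
  have hG0 : 0 ≤ G := integral_nonneg fun x => by positivity
  set A : ℝ := Real.exp (2 * k * N) * (G + 1) with hA
  have hA0 : 0 < A := by positivity
  set d : ℝ := min (min 1 (δ / 2)) (1 / A) with hd
  have hd0 : 0 < d := by
    rw [hd]; refine lt_min (lt_min one_pos (by linarith)) (by positivity)
  have hd1 : d ≤ 1 := (min_le_left _ _).trans (min_le_left _ _)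
  have hdδ : d < δ := lt_of_le_of_lt ((min_le_left _ _).trans (min_le_right _ _)) (by linarith)
  have hdA : d * A ≤ 1 := by
    have : d ≤ 1 / A := min_le_right _ _
    rwa [le_div_iff₀ hA0] at this
  set S : Set Pos3 := boxS R₁ (N / 2) (N / 2) d with hS
  have hSm : MeasurableSet S := boxS_meas _ _ _ _
  -- pointwise bound
  have hpt : ∀ x ∈ S, (1 : ℝ) / 4 ≤ f x ^ 2 + Real.exp (2 * k * N) * w x ^ 2 := by
    intro x hx
    obtain ⟨h1, h2, h3⟩ := boxS_norm hN2 (by linarith) hd0.le hd1 hx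
    have hy0 : prP x 2 = 0 := prP_two x
    have hyn : R₀ ≤ ‖prP x‖ := by
      have := le_norm_prP x; linarith
    have hyN : ‖prP x‖ ≤ N := (norm_prP_le x).trans h2
    have hFy : 1 ≤ s (prP x) * Real.exp ((κ + ε) * ‖prP x‖) := by
      have := hR₀ (prP x) hy0 hyn
      calc (1 : ℝ) = Real.exp (-(κ + ε) * ‖prP x‖) * Real.exp ((κ + ε) * ‖prP x‖) := by
            rw [← Real.exp_add, show -(κ + ε) * ‖prP x‖ + (κ + ε) * ‖prP x‖ = 0 by ring,
              Real.exp_zero]
        _ ≤ _ := mul_le_mul_of_nonneg_right this (Real.exp_pos _).le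
    have hdist : dist x (prP x) < δ := by
      rw [dist_eq_norm, norm_sub_prP]; linarith
    have hF := hUC x (by simpa using h2) (prP x) (by simpa using hyN) hdist
    rw [Real.dist_eq, abs_lt] at hF
    have hFx : 1 / 2 ≤ s x * Real.exp ((κ + ε) * ‖x‖) := by linarith [hF.1]
    have hsx : 0 < s x := hs.pos x
    -- wexp
    have hw : wexp k n x = Real.exp (k * ‖x‖) := by
      unfold wexp
      rw [min_eq_left (h2.trans hn)]
    have hge : 1 / 2 ≤ wexp k n x * s x := by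
      rw [hw, mul_comm]
      refine hFx.trans (mul_le_mul_of_nonneg_left ?_ hsx.le)
      apply Real.exp_le_exp.2
      apply mul_le_mul_of_nonneg_right _ (norm_nonneg x)
      rw [hε]; linarith
    have hle : wexp k n x ≤ Real.exp (k * N) := by
      rw [hw]
      apply Real.exp_le_exp.2
      exact mul_le_mul_of_nonneg_left h2 (by linarith)
    have hwp : 0 < wexp k n x := by rw [hw]; exact Real.exp_pos _
    have hf := hfU x (hR₁R.trans h1)
    have hsq := hp.sq x
    rw [hf]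
    have hE : Real.exp (2 * k * N) = Real.exp (k * N) ^ 2 := by
      rw [← Real.exp_nat_mul]; congr 1; push_cast; ring
    rw [hE]
    calc (1 : ℝ) / 4 = (1 / 2) ^ 2 := by norm_num
      _ ≤ (wexp k n x * s x) ^ 2 := pow_le_pow_left₀ (by norm_num) hge 2
      _ = (wexp k n x * U x) ^ 2 + wexp k n x ^ 2 * w x ^ 2 := by
          rw [mul_pow, ← hsq]; ring
      _ ≤ _ := by
          have : wexp k n x ^ 2 ≤ Real.exp (k * N) ^ 2 := pow_le_pow_left₀ hwp.le hle 2
          nlinarith [mul_le_mul_of_nonneg_right this (sq_nonneg (w x))]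
  -- integrate
  have hfi : Integrable (fun x => f x ^ 2) := hfH.memf.integrable_sq
  have hwi : Integrable (fun x => w x ^ 2) := hp.hw.memf.integrable_sq
  have hvol : volume S = ENNReal.ofReal ((N / 2 - R₁) * (N / 2) * (2 * d)) :=
    boxS_volume (by rw [hN]; linarith) (by linarith) hd0.le
  have hvolr : volume.real S = (N / 2 - R₁) * (N / 2) * (2 * d) := by
    rw [Measure.real, hvol, ENNReal.toReal_ofReal]
    apply mul_nonneg (mul_nonneg _ (by linarith)) (by linarith)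
    rw [hN]; linarith
  have hSsub : S ⊆ {x : Pos3 | |x 2| ≤ d} := by
    intro x hx
    exact (boxS_norm hN2 (by linarith) hd0.le hd1 hx).2.2
  have h1 : (1 : ℝ) / 4 * volume.real S ≤
      ∫ x in S, (f x ^ 2 + Real.exp (2 * k * N) * w x ^ 2) := by
    have : ∫ x in S, (1 : ℝ) / 4 = 1 / 4 * volume.real S := by
      rw [setIntegral_const, smul_eq_mul, mul_comm]
    rw [← this]
    apply setIntegral_mono_on _ _ hSm hpt
    · exact integrableOn_const (by rw [hvol]; exact ENNReal.ofReal_ne_top)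
    · exact (hfi.add (hwi.const_mul _)).integrableOn
  have h2 : ∫ x in S, (f x ^ 2 + Real.exp (2 * k * N) * w x ^ 2) ≤
      2 * d * M + Real.exp (2 * k * N) * (d ^ 2 * G) := by
    rw [integral_add hfi.integrableOn (hwi.const_mul _).integrableOn, integral_const_mul]
    have ha : ∫ x in S, f x ^ 2 ≤ 2 * d * M := by
      calc ∫ x in S, f x ^ 2 ≤ ∫ x in {x : Pos3 | |x 2| ≤ d}, f x ^ 2 := by
            apply setIntegral_mono_set hfi.integrableOn
            · exact Eventually.of_forall fun x => sq_nonneg _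
            · exact hSsub.eventuallyLE
        _ ≤ 2 * d * ((∫ x, ‖g x‖ ^ 2) + ∫ x, f x ^ 2) := slab_bound hfH hd0
        _ ≤ 2 * d * M := mul_le_mul_of_nonneg_left hfM (by linarith)
    have hb : ∫ x in S, w x ^ 2 ≤ d ^ 2 * G := by
      calc ∫ x in S, w x ^ 2 ≤ ∫ x in {x : Pos3 | |x 2| ≤ d}, w x ^ 2 := by
            apply setIntegral_mono_set hwi.integrableOn
            · exact Eventually.of_forall fun x => sq_nonneg _
            · exact hSsub.eventuallyLE
        _ ≤ d ^ 2 * G := slab_odd hp.hw hp.oddw hd0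
    exact add_le_add ha (mul_le_mul_of_nonneg_left hb (Real.exp_pos _).le)
  have h3 := h1.trans h2
  rw [hvolr] at h3
  have h4 : Real.exp (2 * k * N) * (d ^ 2 * G) ≤ d := by
    calc Real.exp (2 * k * N) * (d ^ 2 * G) = d * (d * (Real.exp (2 * k * N) * G)) := by ring
      _ ≤ d * (d * A) := by
          apply mul_le_mul_of_nonneg_left _ hd0.le
          apply mul_le_mul_of_nonneg_left _ hd0.le
          rw [hA]
          exact mul_le_mul_of_nonneg_left (by linarith) (Real.exp_pos _).le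
      _ ≤ d * 1 := mul_le_mul_of_nonneg_left hdA hd0.le
      _ = d := mul_one d
  have h5 : 1 / 4 * ((N / 2 - R₁) * (N / 2) * 2) ≤ 2 * M + 1 := by
    have : d * (1 / 4 * ((N / 2 - R₁) * (N / 2) * 2)) ≤ d * (2 * M + 1) := by
      calc d * (1 / 4 * ((N / 2 - R₁) * (N / 2) * 2)) =
            1 / 4 * ((N / 2 - R₁) * (N / 2) * (2 * d)) := by ring
        _ ≤ 2 * d * M + d := h3.trans (by linarith)
        _ = d * (2 * M + 1) := by ring
    exact le_of_mul_le_mul_left this hd0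
  have h6 : 1 ≤ N / 2 - R₁ := by rw [hN]; linarith
  have h7 : N / 4 ≤ 1 / 4 * ((N / 2 - R₁) * (N / 2) * 2) := by nlinarith
  have h8 : 2 * |M| + 2 ≤ N / 4 := by rw [hN]; linarith
  linarith

theorem class_aesm {v : Pos3 → ℝ} (hv : IsSumClassPotential v) :
    AEStronglyMeasurable v volume := by
  obtain ⟨v₁, v₂, rfl, h₁, h₂⟩ := hv
  exact h₁.1.add h₂.1

theorem class_integrable {v : Pos3 → ℝ} (hv : IsSumClassPotential v) {f : Pos3 → ℝ}
    {g : Pos3 → Pos3} (hf : H1 f g) : Integrable (fun x => v x * f x ^ 2) := by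
  obtain ⟨C, hC, hb⟩ := class_bound hv one_pos
  have h := (hb f g hf).1
  refine (integrable_norm_iff ((class_aesm hv).mul (hf.memf.1.pow 2))).1 ?_
  refine h.congr (Eventually.of_forall fun x => ?_)
  show |v x| * f x ^ 2 = ‖v x * f x ^ 2‖
  rw [norm_mul, Real.norm_eq_abs, norm_pow, Real.norm_eq_abs, sq_abs]

theorem K_contra {v s U w : Pos3 → ℝ} {gs gU gw : Pos3 → Pos3} {om e κ : ℝ} (hs : Amp s gs)
    (hp : Pair s U gU w gw om) (hκ : 0 < κ) (hkato : KatoInf s gs κ) (hlow : PlaneLow s κ)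
    (hsm : SmallU s U) (hv : IsSumClassPotential v) (hU : WeakEq v e U gU)
    (hw : WeakEq v (e + om) w gw) : False := by
  have hom := hp.om_pos
  set μ : ℝ := √(κ ^ 2 + 2 * om) with hμ
  have hμ2 : μ ^ 2 = κ ^ 2 + 2 * om := Real.sq_sqrt (by positivity)
  have hκμ : κ < μ := by
    apply lt_of_pow_lt_pow_left₀ 2 (Real.sqrt_nonneg _)
    rw [← hμ, hμ2]; linarith
  obtain ⟨C, hC⟩ := hs.bdd
  have hUb : ∀ᵐ x, |U x| ≤ C := by
    refine Eventually.of_forall fun x => ?_
    refine le_trans ?_ (hC x)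
    apply abs_le_of_sq_le_sq _ (hs.pos x).le
    have := hp.adm.sq x
    nlinarith [sq_nonneg (w x)]
  refine plane_contra hs hp.adm hκ (k := (κ + μ) / 2) (by linarith) hlow ?_
  refine agmon (μ := μ) hv hp.adm.hU hUb hU (by linarith) (by linarith) ?_
  intro ε hε
  obtain ⟨R, hR⟩ := form_infty hs hp hv hw hkato hsm hε
  refine ⟨R, fun f g hf hsupp => ?_⟩
  have h := hR f g hf hsupp
  have hi : Integrable (fun x => v x * f x ^ 2) := class_integrable hv hf.h1
  have hf2 : Integrable (fun x => f x ^ 2) := hf.h1.memf.integrable_sq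
  have e1 : ∫ x, (v x - (e + om)) * f x ^ 2 =
      (∫ x, (v x - e) * f x ^ 2) - om * ∫ x, f x ^ 2 := by
    rw [← integral_const_mul, ← integral_sub _ (hf2.const_mul _)]
    · congr 1
      ext x; ring
    · have : (fun x => (v x - e) * f x ^ 2) = fun x => v x * f x ^ 2 - e * f x ^ 2 := by
        ext x; ring
      rw [this]
      exact hi.sub (hf2.const_mul _)
  rw [e1] at h
  rw [hμ2]
  linarith

end Crest.Agent.R335
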