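import Crest.Agent.R335.KSP
import Crest.Agent.R335.HHalf

/-!
Row 335 (S0521), Kohn-Sham side: the one-body spectral inequality, odd sector and assembly
(`sp_odd`, `sp_all`).
-/

set_option autoImplicit false
set_option linter.unusedVariables false

open MeasureTheory Filter Set Crest.MathPhysics.ThreeBody
open scoped ENNReal Topology ContDiff

noncomputable section
namespace Crest.Agent.R335

theorem kp_rz_rz (x : Pos3) : rz (rz x) = x := by
  ext i
  rw [rz_apply, rz_apply]
  split_ifs <;> simp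

theorem kp_rz_symm (x : Pos3) : rz.symm x = rz x := by
  rw [LinearIsometryEquiv.symm_apply_eq, kp_rz_rz]

theorem kp_rz_rfl' (x : Pos3) : rfl' 2 x = rz x := by
  ext i
  rw [rz_apply, rfl'_apply]

theorem KP.rz_emb : MeasurableEmbedding (rz : Pos3 → Pos3) :=
  rz.toHomeomorph.measurableEmbedding

theorem KP.rz_lint (F : Pos3 → ℝ≥0∞) : ∫⁻ x, F (rz x) = ∫⁻ x, F x :=
  rz.measurePreserving.lintegral_comp_emb KP.rz_emb F

theorem KP.rz_int (F : Pos3 → ℝ) : ∫ x, F (rz x) = ∫ x, F x :=
  rz.measurePreserving.integral_comp KP.rz_emb F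

theorem KP.rz_ae {P : Pos3 → Prop} (h : ∀ᵐ x, P x) : ∀ᵐ x, P (rz x) :=
  (rz.measurePreserving.quasiMeasurePreserving).ae h

/-- symmetrisation of a lower integral -/
theorem KP.sym_lint {F : Pos3 → ℝ≥0∞} (hF : AEMeasurable F volume) :
    ∫⁻ x, F x = ∫⁻ x, (2⁻¹ * (F x + F (rz x))) := by
  rw [lintegral_const_mul' _ _ (by simp), lintegral_add_left' hF, KP.rz_lint, ← two_mul,
    ← mul_assoc, ENNReal.inv_mul_cancel (by norm_num) (by norm_num), one_mul]

theorem KP.H1_rz {f : Pos3 → ℝ} {g : Pos3 → Pos3} (h : H1 f g) :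
    H1 (fun x => f (rz x)) (fun x => rz (g (rz x))) := by
  have := H1.comp_isometry h rz 0
  simpa only [add_zero, kp_rz_symm] using this

/-- parity of the gradient -/
theorem KP.par {f : Pos3 → ℝ} {g : Pos3 → Pos3} (h : H1 f g) {σ : ℝ}
    (hf : ∀ x, f (rz x) = σ * f x) : ∀ᵐ x, rz (g (rz x)) = σ • g x := by
  have h1 := KP.H1_rz h
  have h2 : H1 (fun x => f (rz x)) (fun x => σ • g x) := by
    have := H1.const_mul h σ
    have e : (fun x => f (rz x)) = fun x => σ * f x := funext hf
    rw [e]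
    exact this
  exact H1.unique h1 h2

theorem KP.par' {f : Pos3 → ℝ} {g : Pos3 → Pos3} (h : H1 f g) {σ : ℝ}
    (hf : ∀ x, f (rz x) = σ * f x) : ∀ᵐ x, g (rz x) = σ • rz (g x) := by
  filter_upwards [KP.par h hf] with x hx
  rw [← kp_rz_rz (g (rz x)), hx, map_smul]

theorem KP.J_rz {s U w : Pos3 → ℝ} {gU gw : Pos3 → Pos3}
    (hp : PairAdm s U gU w gw) : ∀ᵐ x, J U gU w gw (rz x) = - rz (J U gU w gw x) := by
  have h1 := KP.par' hp.hU (σ := 1) (fun x => by rw [hp.evenU, one_mul])
  have h2 := KP.par' hp.hw (σ := -1) (fun x => by rw [hp.oddw]; ring)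
  filter_upwards [h1, h2] with x e1 e2
  unfold J
  rw [e1, e2, hp.evenU, hp.oddw, map_sub, map_smul, map_smul]
  module

theorem KP.gs_rz {s : Pos3 → ℝ} {gs : Pos3 → Pos3} (hs : Amp s gs) :
    ∀ᵐ x, gs (rz x) = rz (gs x) := by
  have h1 := KP.par' hs.h1 (σ := 1) (fun x => by rw [hs.even, one_mul])
  filter_upwards [h1] with x e1
  rw [e1, one_smul]

theorem KP.kpSpW_rz {s U w : Pos3 → ℝ} {gs gU gw : Pos3 → Pos3} {om : ℝ} (hs : Amp s gs)
    (hp : PairAdm s U gU w gw) :
    ∀ᵐ x, kpSpW s U w gU gw om (rz x) = kpSpW s U w gU gw om x := by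
  filter_upwards [KP.J_rz hp] with x hx
  unfold kpSpW
  rw [hx, norm_neg, LinearIsometryEquiv.norm_map, hs.even, hp.evenU]

/-- odd sector -/
theorem sp_odd {s U w : Pos3 → ℝ} {gs gU gw : Pos3 → Pos3} {om : ℝ} (hs : Amp s gs)
    (hp : Pair s U gU w gw om) {f : Pos3 → ℝ} {g : Pos3 → Pos3} (hf : H1 f g)
    (hodd : ∀ x, f (rz x) = - f x) : SPIneq s gs U gU w gw om f g := by
  unfold SPIneq
  refine le_trans ?_ (le_self_add)
  rw [KP.lhs_eq hs hp.adm hp.om_pos hf.memf]
  have hplus : H1 (fun x : Pos3 => if 0 < x 2 then f x else 0)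
      (fun x : Pos3 => if 0 < x 2 then g x else 0) :=
    (H10.half_of_odd (2 : Fin 3) hf
      (Eventually.of_forall fun x => by rw [kp_rz_rfl', hodd])).h1
  have hsp := sp_half hs hp hplus (fun x hx => by simp [not_lt.2 hx])
  rw [KP.lhs_eq hs hp.adm hp.om_pos hplus.memf] at hsp
  set fp : Pos3 → ℝ := fun x => if 0 < x 2 then f x else 0 with hfp
  set gp : Pos3 → Pos3 := fun x => if 0 < x 2 then g x else 0 with hgp
  have hWm : AEMeasurable (kpSpW s U w gU gw om) volume := (kpSpW_int hs hp.adm).1.aemeasurable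
  have hsm : AEMeasurable s volume := hs.cont.measurable.aemeasurable
  set L : Pos3 → ℝ≥0∞ := fun x => ENNReal.ofReal (kpSpW s U w gU gw om x * (fp x / s x) ^ 2) with hL
  set R : Pos3 → ℝ≥0∞ := fun x => ENNReal.ofReal (‖gp x - (fp x / s x) • gs x‖ ^ 2) with hR
  have hLm : AEMeasurable L volume :=
    (hWm.mul ((hplus.memf.1.aemeasurable.div hsm).pow_const 2)).ennreal_ofReal
  have hRm : AEMeasurable R volume := by
    have : AEStronglyMeasurable (fun x => gp x - (fp x / s x) • gs x) volume :=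
      hplus.memg.1.sub ((hplus.memf.1.aemeasurable.div hsm).aestronglyMeasurable.smul
        hs.h1.memg.1)
    exact (this.norm.aemeasurable.pow_const 2).ennreal_ofReal
  have e1 : ∫⁻ x, ENNReal.ofReal (kpSpW s U w gU gw om x * (f x / s x) ^ 2) =
      (∫⁻ x, L x) + ∫⁻ x, L x := by
    nth_rewrite 2 [← KP.rz_lint L]
    rw [← lintegral_add_left' hLm]
    refine lintegral_congr_ae ?_
    filter_upwards [KP.kpSpW_rz (om := om) hs hp.adm] with x hx
    simp only [hL]
    rw [hx, hs.even]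
    have hW := kpSpW_nonneg (s := s) (U := U) (w := w) (gU := gU) (gw := gw) hp.om_pos x
    rw [← ENNReal.ofReal_add (by positivity) (by positivity)]
    congr 1
    have hrz2 : (rz x) 2 = - x 2 := by rw [rz_apply]; simp
    rcases lt_trichotomy (x 2) 0 with h | h | h
    · have h1 : ¬ 0 < x 2 := not_lt.2 h.le
      have h2 : 0 < (rz x) 2 := by rw [hrz2]; linarith
      simp only [hfp, h1, h2, if_true, if_false, hodd]
      ring
    · have h1 : ¬ 0 < x 2 := not_lt.2 h.le
      have h2 : ¬ 0 < (rz x) 2 := by rw [hrz2]; linarith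
      have h3 : rz x = x := by
        ext i
        rw [rz_apply]
        split_ifs with hi
        · rw [hi, h, neg_zero]
        · rfl
      have h4 := hodd x
      rw [h3] at h4
      have h5 : f x = 0 := by linarith
      simp only [hfp, h1, h2, if_false, h5]
      ring
    · have h2 : ¬ 0 < (rz x) 2 := by rw [hrz2]; linarith
      simp only [hfp, h, h2, if_true, if_false]
      ring
  have e2 : (∫⁻ x, R x) + ∫⁻ x, R x ≤
      ∫⁻ x, ENNReal.ofReal (‖g x - (f x / s x) • gs x‖ ^ 2) := by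
    nth_rewrite 2 [← KP.rz_lint R]
    rw [← lintegral_add_left' hRm]
    refine lintegral_mono_ae ?_
    have hgrz := KP.par' hf (σ := -1) (fun x => by rw [hodd]; ring)
    filter_upwards [KP.gs_rz hs, hgrz] with x hx hx'
    simp only [hR]
    have hrz2 : (rz x) 2 = - x 2 := by rw [rz_apply]; simp
    rcases lt_trichotomy (x 2) 0 with h | h | h
    · have h1 : ¬ 0 < x 2 := not_lt.2 h.le
      have h2 : 0 < (rz x) 2 := by rw [hrz2]; linarith
      simp only [hfp, hgp, h1, h2, if_true, if_false, zero_div, zero_smul, sub_zero, norm_zero]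
      rw [hx', hx, hs.even, hodd]
      have e3 : (-1 : ℝ) • rz (g x) - (-f x / s x) • rz (gs x) =
          - rz (g x - (f x / s x) • gs x) := by
        rw [map_sub, map_smul]
        module
      rw [e3, norm_neg, LinearIsometryEquiv.norm_map]
      simp
    · have h1 : ¬ 0 < x 2 := not_lt.2 h.le
      have h2 : ¬ 0 < (rz x) 2 := by rw [hrz2]; linarith
      simp only [hfp, hgp, h1, h2, if_false, zero_div, zero_smul, sub_zero, norm_zero]
      simp
    · have h2 : ¬ 0 < (rz x) 2 := by rw [hrz2]; linarith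
      simp only [hfp, hgp, h, h2, if_true, if_false, zero_div, zero_smul, sub_zero, norm_zero]
      simp
  rw [e1]
  exact (add_le_add hsp hsp).trans e2

/-- the full spectral inequality from its even sector -/
theorem sp_all {s U w : Pos3 → ℝ} {gs gU gw : Pos3 → Pos3} {om : ℝ} (hs : Amp s gs)
    (hp : Pair s U gU w gw om)
    (heven : ∀ f g, H1 f g → (∀ x, f (rz x) = f x) → SPIneq s gs U gU w gw om f g)
    {f : Pos3 → ℝ} {g : Pos3 → Pos3} (hf : H1 f g) : SPIneq s gs U gU w gw om f g := by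
  have hrz := KP.H1_rz hf
  set fe : Pos3 → ℝ := fun x => (1 / 2) * (f x + f (rz x)) with hfe
  set ge : Pos3 → Pos3 := fun x => (1 / 2 : ℝ) • (g x + rz (g (rz x))) with hge
  set fo : Pos3 → ℝ := fun x => (1 / 2) * (f x - f (rz x)) with hfo
  set go : Pos3 → Pos3 := fun x => (1 / 2 : ℝ) • (g x - rz (g (rz x))) with hgo
  have h1e : H1 fe ge := H1.const_mul (H1.add hf hrz) (1 / 2)
  have h1o : H1 fo go := H1.const_mul (H1.sub hf hrz) (1 / 2)
  have spe := heven fe ge h1e (fun x => by simp only [hfe, kp_rz_rz]; ring)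
  have hoddo : ∀ x, fo (rz x) = - fo x := fun x => by simp only [hfo, kp_rz_rz]; ring
  have spo := sp_odd hs hp h1o hoddo
  unfold SPIneq at spe spo ⊢
  rw [KP.lhs_eq hs hp.adm hp.om_pos h1e.memf] at spe
  rw [KP.lhs_eq hs hp.adm hp.om_pos h1o.memf] at spo
  rw [KP.lhs_eq hs hp.adm hp.om_pos hf.memf]
  have hWm : AEMeasurable (kpSpW s U w gU gw om) volume := (kpSpW_int hs hp.adm).1.aemeasurable
  have hsm : AEMeasurable s volume := hs.cont.measurable.aemeasurable
  have hLm : ∀ {k : Pos3 → ℝ} {l : Pos3 → Pos3}, H1 k l →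
      AEMeasurable (fun x => ENNReal.ofReal (kpSpW s U w gU gw om x * (k x / s x) ^ 2)) volume :=
    fun hk => (hWm.mul ((hk.memf.1.aemeasurable.div hsm).pow_const 2)).ennreal_ofReal
  have hRm : ∀ {k : Pos3 → ℝ} {l : Pos3 → Pos3}, H1 k l →
      AEMeasurable (fun x => ENNReal.ofReal (‖l x - (k x / s x) • gs x‖ ^ 2)) volume := by
    intro k l hk
    have : AEStronglyMeasurable (fun x => l x - (k x / s x) • gs x) volume :=
      hk.memg.1.sub ((hk.memf.1.aemeasurable.div hsm).aestronglyMeasurable.smul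
        hs.h1.memg.1)
    exact (this.norm.aemeasurable.pow_const 2).ennreal_ofReal
  have half : (2⁻¹ : ℝ≥0∞) = ENNReal.ofReal (1 / 2) := by
    rw [one_div, ENNReal.ofReal_inv_of_pos (by norm_num)]
    norm_num
  have eL : ∫⁻ x, ENNReal.ofReal (kpSpW s U w gU gw om x * (f x / s x) ^ 2) =
      (∫⁻ x, ENNReal.ofReal (kpSpW s U w gU gw om x * (fe x / s x) ^ 2)) +
        ∫⁻ x, ENNReal.ofReal (kpSpW s U w gU gw om x * (fo x / s x) ^ 2) := by
    rw [KP.sym_lint (hLm hf), ← lintegral_add_left' (hLm h1e)]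
    refine lintegral_congr_ae ?_
    filter_upwards [KP.kpSpW_rz (om := om) hs hp.adm] with x hx
    have hW := kpSpW_nonneg (s := s) (U := U) (w := w) (gU := gU) (gw := gw) hp.om_pos x
    rw [hx, hs.even, ← ENNReal.ofReal_add (by positivity) (by positivity),
      ← ENNReal.ofReal_add (by positivity) (by positivity), half,
      ← ENNReal.ofReal_mul (by norm_num)]
    congr 1
    simp only [hfe, hfo]
    ring
  have eR : ∫⁻ x, ENNReal.ofReal (‖g x - (f x / s x) • gs x‖ ^ 2) =
      (∫⁻ x, ENNReal.ofReal (‖ge x - (fe x / s x) • gs x‖ ^ 2)) +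
        ∫⁻ x, ENNReal.ofReal (‖go x - (fo x / s x) • gs x‖ ^ 2) := by
    rw [KP.sym_lint (hRm hf), ← lintegral_add_left' (hRm h1e)]
    refine lintegral_congr_ae ?_
    filter_upwards [KP.gs_rz hs] with x hx
    rw [← ENNReal.ofReal_add (by positivity) (by positivity),
      ← ENNReal.ofReal_add (by positivity) (by positivity), half,
      ← ENNReal.ofReal_mul (by norm_num)]
    congr 1
    set a := g x - (f x / s x) • gs x with ha
    set b := rz (g (rz x) - (f (rz x) / s (rz x)) • gs (rz x)) with hb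
    have hb' : b = rz (g (rz x)) - (f (rz x) / s x) • gs x := by
      rw [hb, map_sub, map_smul, hx, kp_rz_rz, hs.even]
    have e1 : ge x - (fe x / s x) • gs x = (1 / 2 : ℝ) • (a + b) := by
      rw [ha, hb']
      simp only [hge, hfe]
      module
    have e2 : go x - (fo x / s x) • gs x = (1 / 2 : ℝ) • (a - b) := by
      rw [ha, hb']
      simp only [hgo, hfo]
      module
    have e3 : ‖g (rz x) - (f (rz x) / s (rz x)) • gs (rz x)‖ = ‖b‖ := by
      rw [hb, LinearIsometryEquiv.norm_map]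
    rw [e1, e2, e3, norm_smul, norm_smul, mul_pow, mul_pow]
    have hpar := parallelogram_law_with_norm ℝ a b
    rw [Real.norm_eq_abs, abs_of_pos (by norm_num : (0 : ℝ) < 1 / 2)]
    nlinarith
  have hUf : ∀ {k : Pos3 → ℝ} {l : Pos3 → Pos3}, H1 k l → Integrable (fun x => U x * k x) :=
    fun hk => MemLp.integrable_mul hp.adm.hU.memf hk.memf
  have hUo : ∫ x, U x * fo x = 0 := by
    have h1 := KP.rz_int (fun x => U x * fo x)
    have h2 : (fun x => U (rz x) * fo (rz x)) = fun x => -(U x * fo x) := by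
      ext x
      rw [hp.adm.evenU, hoddo]
      ring
    simp only [h2] at h1
    rw [integral_neg] at h1
    linarith
  have hUe : ∫ x, U x * f x = ∫ x, U x * fe x := by
    have h1 : ∫ x, U x * f x = (∫ x, U x * fe x) + ∫ x, U x * fo x := by
      rw [← integral_add (hUf h1e) (hUf h1o)]
      congr 1
      ext x
      simp only [hfe, hfo]
      ring
    rw [h1, hUo, add_zero]
  rw [hUo] at spo
  have hz : ENNReal.ofReal (2 * om * ((1 / 2) * (0 : ℝ) ^ 2)) = 0 := by simp
  rw [hz, add_zero] at spo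
  rw [eL, eR, hUe]
  calc _ ≤ ((∫⁻ x, ENNReal.ofReal (‖ge x - (fe x / s x) • gs x‖ ^ 2)) +
        ENNReal.ofReal (2 * om * ((1 / 2) * (∫ x, U x * fe x) ^ 2))) +
        ∫⁻ x, ENNReal.ofReal (‖go x - (fo x / s x) • gs x‖ ^ 2) := add_le_add spe spo
    _ = _ := by ring

end Crest.Agent.R335
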