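import Crest.Agent.R335.KPosBase
import Crest.Agent.R335.HPoin

/-!
Row 335 (S0521), Kohn-Sham side: zero set dichotomy on cubes for functions with
`∇ log (c + ε)` bounded in `L²` uniformly in `ε`.
-/

set_option autoImplicit false
set_option linter.unusedVariables false

open MeasureTheory Filter Set Crest.MathPhysics.ThreeBody
open scoped ENNReal Topology ContDiff

noncomputable section
namespace Crest.Agent.R335

/-- open kpCube with corner `b` and side `a` -/
def kpCube (b : Pos3) (a : ℝ) : Set Pos3 := {x | ∀ i, b i < x i ∧ x i < b i + a}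

theorem isOpen_kpCube (b : Pos3) (a : ℝ) : IsOpen (kpCube b a) := by
  have : kpCube b a = ⋂ i : Fin 3, {x : Pos3 | b i < x i ∧ x i < b i + a} := by
    ext x; simp [kpCube]
  rw [this]
  refine isOpen_iInter_of_finite fun i => ?_
  have hc : Continuous fun x : Pos3 => x i := by fun_prop
  exact (isOpen_lt continuous_const hc).inter (isOpen_lt hc continuous_const)

theorem volume_kpCube (b : Pos3) {a : ℝ} (ha : 0 < a) :
    volume (kpCube b a) = ENNReal.ofReal (a ^ 3) := by
  have h : kpCube b a = (WithLp.ofLp : Pos3 → (Fin 3 → ℝ)) ⁻¹'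
      (Set.pi univ fun i => Ioo (b i) (b i + a)) := by
    ext x
    simp [kpCube]
  rw [h, (PiLp.volume_preserving_ofLp (Fin 3)).measure_preimage
    (MeasurableSet.univ_pi fun i => measurableSet_Ioo).nullMeasurableSet, Real.volume_pi_Ioo]
  simp [ENNReal.ofReal_pow ha.le]

theorem KP.integral_cauchy {α : Type*} [MeasurableSpace α] {μ : Measure α} [IsFiniteMeasure μ]
    {f : α → ℝ} (hf : MemLp f 2 μ) {A : Set α} (hA : MeasurableSet A)
    (hfA : ∀ᵐ x ∂μ, x ∉ A → f x = 0) (hm : 0 < μ.real A) :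
    (∫ x, f x ∂μ) ^ 2 ≤ μ.real A * ∫ x, f x ^ 2 ∂μ := by
  have hfi : Integrable f μ := hf.integrable (by norm_num)
  have hf2 : Integrable (fun x => f x ^ 2) μ := hf.integrable_sq
  set t : ℝ := (∫ x, f x ∂μ) / μ.real A with ht
  have h1 : ∫ x, (f x - t * A.indicator (fun _ => (1 : ℝ)) x) ^ 2 ∂μ =
      (∫ x, f x ^ 2 ∂μ) - 2 * t * (∫ x, f x ∂μ) + t ^ 2 * μ.real A := by
    have hi : Integrable (A.indicator (fun _ => (1 : ℝ))) μ :=
      (integrable_const (1 : ℝ)).indicator hA
    have e : (fun x => (f x - t * A.indicator (fun _ => (1 : ℝ)) x) ^ 2) =ᵐ[μ]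
        fun x => f x ^ 2 - 2 * t * f x + t ^ 2 * A.indicator (fun _ => (1 : ℝ)) x := by
      filter_upwards [hfA] with x hx
      by_cases hxA : x ∈ A
      · simp only [indicator_of_mem hxA]
        ring
      · simp only [indicator_of_notMem hxA, hx hxA]
        ring
    rw [integral_congr_ae e, integral_add, integral_sub, integral_const_mul, integral_const_mul,
      integral_indicator hA]
    · simp
    · exact hf2
    · exact hfi.const_mul _
    · exact hf2.sub (hfi.const_mul _)
    · exact hi.const_mul _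
  have h2 : 0 ≤ ∫ x, (f x - t * A.indicator (fun _ => (1 : ℝ)) x) ^ 2 ∂μ :=
    integral_nonneg fun x => sq_nonneg _
  rw [h1] at h2
  have h3 : t * μ.real A = ∫ x, f x ∂μ := by
    rw [ht]; field_simp
  have h4 : (∫ x, f x ^ 2 ∂μ) - t * (∫ x, f x ∂μ) ≥ 0 := by
    rw [← h3] at h2 ⊢
    nlinarith
  have h5 := mul_le_mul_of_nonneg_left (sub_nonneg.1 h4) hm.le
  calc (∫ x, f x ∂μ) ^ 2 = μ.real A * (t * ∫ x, f x ∂μ) := by
        rw [← h3]; ring
    _ ≤ _ := h5

theorem KP.wg_log {V : Set Pos3} (hV : IsOpen V) {c : Pos3 → ℝ} {gc : Pos3 → Pos3}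
    (hc : WG V c gc) (h01 : ∀ x ∈ V, 0 ≤ c x ∧ c x ≤ 1) {ε : ℝ} (hε : 0 < ε) :
    WG V (fun x => Real.log (c x + ε) - Real.log ε) (fun x => (1 / (c x + ε)) • gc x) := by
  refine WG.comp_on (F := fun t => Real.log (t + ε) - Real.log ε) (F' := fun t => 1 / (t + ε))
    (a := ((0 : ℝ) : EReal)) (b := ⊤) hV hc ?_ ?_ ?_ (C := 1 / ε) ?_
  · refine (ae_restrict_iff' hV.measurableSet).2 (Eventually.of_forall fun y hy => ?_)
    exact ⟨by exact_mod_cast (h01 y hy).1, le_top⟩
  · intro t ht _
    have ht0 : 0 ≤ t := by exact_mod_cast ht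
    have h1 : HasDerivAt (fun t => t + ε) 1 t := (hasDerivAt_id t).add_const ε
    have h2 := (h1.log (by positivity)).sub_const (Real.log ε)
    simpa using h2
  · refine ContinuousOn.div continuousOn_const (by fun_prop) ?_
    intro t ht
    have ht0 : 0 ≤ t := by exact_mod_cast ht.1
    positivity
  · intro t ht _
    have ht0 : 0 ≤ t := by exact_mod_cast ht
    rw [abs_of_pos (by positivity)]
    exact one_div_le_one_div_of_le hε (by linarith)

theorem KP.dich {V : Set Pos3} (hV : IsOpen V) {c : Pos3 → ℝ} {gc : Pos3 → Pos3} (hc : WG V c gc)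
    (h01 : ∀ x ∈ V, 0 ≤ c x ∧ c x ≤ 1) (hl : L2locV V gc) (b : Pos3) {a : ℝ} (ha : 0 < a)
    (hQ : {x : Pos3 | ∀ i, b i ≤ x i ∧ x i ≤ b i + a} ⊆ V) {M : ℝ}
    (hM : ∀ ε : ℝ, 0 < ε → ∫ x in kpCube b a, ‖(1 / (c x + ε)) • gc x‖ ^ 2 ≤ M) :
    (∀ᵐ x ∂(volume.restrict (kpCube b a)), c x ≠ 0) ∨
      (∀ᵐ x ∂(volume.restrict (kpCube b a)), c x = 0) := by
  by_contra hcon
  rw [not_or] at hcon
  obtain ⟨h1, h2⟩ := hcon
  have hQV : kpCube b a ⊆ V := fun x hx => hQ fun i => ⟨(hx i).1.le, (hx i).2.le⟩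
  have hvol := volume_kpCube b ha
  set μ : Measure Pos3 := volume.restrict (kpCube b a) with hμ
  have : IsFiniteMeasure μ := ⟨by rw [hμ, Measure.restrict_apply_univ, hvol]; simp⟩
  have hTreal : μ.real univ = a ^ 3 := by
    rw [Measure.real, hμ, Measure.restrict_apply_univ, hvol, ENNReal.toReal_ofReal (by positivity)]
  have hcm : AEStronglyMeasurable c μ :=
    (hc.intf.aestronglyMeasurable).mono_measure (Measure.restrict_mono hQV le_rfl)
  have hgm : AEStronglyMeasurable gc μ :=
    (hc.intg.aestronglyMeasurable).mono_measure (Measure.restrict_mono hQV le_rfl)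
  obtain ⟨c', hc'm, hcc'⟩ := hcm
  have hc'0 : ∀ᵐ x ∂μ, 0 ≤ c' x ∧ c' x ≤ 1 := by
    have : ∀ᵐ x ∂μ, x ∈ kpCube b a := ae_restrict_mem (isOpen_kpCube b a).measurableSet
    filter_upwards [this, hcc'] with x hx he
    rw [← he]
    exact h01 x (hQV hx)
  have h1' : ¬ ∀ᵐ x ∂μ, c' x ≠ 0 := fun h => h1 (by
    filter_upwards [h, hcc'] with x hx he
    rwa [he])
  have h2' : ¬ ∀ᵐ x ∂μ, c' x = 0 := fun h => h2 (by
    filter_upwards [h, hcc'] with x hx he
    rwa [he])
  -- the set where `c' ≠ 0`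
  set A : Set Pos3 := {x | c' x ≠ 0} with hAdef
  have hA : MeasurableSet A := (hc'm.measurable (measurableSet_singleton (0 : ℝ))).compl
  have hm0 : 0 < μ.real A := by
    rw [Measure.real, ENNReal.toReal_pos_iff]
    refine ⟨pos_iff_ne_zero.2 fun h => h2' ?_, measure_lt_top _ _⟩
    rw [ae_iff]
    exact h
  have hmT : μ.real A < a ^ 3 := by
    have hcompl : 0 < μ.real Aᶜ := by
      rw [Measure.real, ENNReal.toReal_pos_iff]
      refine ⟨pos_iff_ne_zero.2 fun h => h1' ?_, measure_lt_top _ _⟩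
      rw [ae_iff]
      exact h
    have := measureReal_add_measureReal_compl (μ := μ) hA
    rw [hTreal] at this
    linarith
  -- a level `δ`
  obtain ⟨δ, hδ, hδm⟩ : ∃ δ : ℝ, 0 < δ ∧ 0 < μ.real {x | δ ≤ c' x} := by
    by_contra hno
    push Not at hno
    apply h2'
    have hz : ∀ n : ℕ, ∀ᵐ x ∂μ, ¬ (1 / ((n : ℝ) + 1) ≤ c' x) := by
      intro n
      have := hno (1 / ((n : ℝ) + 1)) (by positivity)
      have h0 : μ {x | 1 / ((n : ℝ) + 1) ≤ c' x} = 0 := by
        have h3 : μ.real {x | 1 / ((n : ℝ) + 1) ≤ c' x} = 0 := le_antisymm this measureReal_nonneg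
        rw [Measure.real, ENNReal.toReal_eq_zero_iff] at h3
        rcases h3 with h3 | h3
        · exact h3
        · exact absurd h3 (measure_ne_top _ _)
      rw [ae_iff]
      simpa using h0
    filter_upwards [ae_all_iff.2 hz, hc'0] with x hx hx0
    by_contra hne
    have hpos : 0 < c' x := lt_of_le_of_ne hx0.1 (Ne.symm hne)
    obtain ⟨n, hn⟩ := exists_nat_one_div_lt hpos
    exact hx n hn.le
  -- the uniform bound
  set θ : ℝ := μ.real A / a ^ 3 with hθ
  have hθ1 : θ < 1 := by rw [hθ, div_lt_one (by positivity)]; exact hmT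
  set r : ℝ := μ.real {x | δ ≤ c' x} with hr
  set K : ℝ := 3 * a ^ 2 * M / (1 - θ) with hK
  have key : ∀ ε : ℝ, 0 < ε →
      ∫ x, (Real.log (c x + ε) - Real.log ε) ^ 2 ∂μ ≤ K := by
    intro ε hε
    have hwg := KP.wg_log hV hc h01 hε
    have hbound : ∀ x ∈ V, |Real.log (c x + ε) - Real.log ε| ≤ |Real.log (1 + ε)| + |Real.log ε| +
        |Real.log ε| := by
      intro x hx
      obtain ⟨hx0, hx1⟩ := h01 x hx
      have a1 : Real.log ε ≤ Real.log (c x + ε) := Real.log_le_log hε (by linarith)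
      have a2 : Real.log (c x + ε) ≤ Real.log (1 + ε) := Real.log_le_log (by linarith) (by linarith)
      rw [abs_of_nonneg (by linarith)]
      have := le_abs_self (Real.log (1 + ε))
      have := neg_abs_le (Real.log ε)
      have := abs_nonneg (Real.log ε)
      linarith
    have hfL2 : L2loc V (fun x => Real.log (c x + ε) - Real.log ε) := by
      intro K hK hKV
      have : IsFiniteMeasure (volume.restrict K) :=
        ⟨by rw [Measure.restrict_apply_univ]; exact hK.measure_lt_top⟩
      have hm1 : AEStronglyMeasurable (fun x => Real.log (c x + ε) - Real.log ε)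
          (volume.restrict K) :=
        (hwg.intf.aestronglyMeasurable).mono_measure (Measure.restrict_mono hKV le_rfl)
      refine MemLp.of_bound hm1 (|Real.log (1 + ε)| + |Real.log ε| + |Real.log ε|) ?_
      refine (ae_restrict_iff' hK.measurableSet).2 (Eventually.of_forall fun y hy => ?_)
      exact hbound y (hKV hy)
    have hgL2 : L2locV V (fun x => (1 / (c x + ε)) • gc x) := by
      intro K hK hKV
      have hm1 : AEStronglyMeasurable (fun x => (1 / (c x + ε)) • gc x)
          (volume.restrict K) :=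
        (hwg.intg.aestronglyMeasurable).mono_measure (Measure.restrict_mono hKV le_rfl)
      refine MemLp.of_le_mul (c := 1 / ε) (hl K hK hKV) hm1 ?_
      refine (ae_restrict_iff' hK.measurableSet).2 (Eventually.of_forall fun y hy => ?_)
      obtain ⟨hx0, hx1⟩ := h01 y (hKV hy)
      rw [norm_smul, Real.norm_eq_abs, abs_of_pos (by positivity)]
      exact mul_le_mul_of_nonneg_right (one_div_le_one_div_of_le hε (by linarith)) (norm_nonneg _)
    have hP := poincare_cube hV hwg hfL2 hgL2 b ha hQ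
    have hPM := hM ε hε
    have hfm : MemLp (fun x => Real.log (c x + ε) - Real.log ε) 2 μ := by
      have hm1 : AEStronglyMeasurable (fun x => Real.log (c x + ε) - Real.log ε) μ :=
        (hwg.intf.aestronglyMeasurable).mono_measure (Measure.restrict_mono hQV le_rfl)
      refine MemLp.of_bound hm1 (|Real.log (1 + ε)| + |Real.log ε| + |Real.log ε|) ?_
      refine (ae_restrict_iff' (isOpen_kpCube b a).measurableSet).2
        (Eventually.of_forall fun y hy => ?_)
      exact hbound y (hQV hy)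
    have hCS := KP.integral_cauchy hfm hA (by
      filter_upwards [hcc'] with x hx hxA
      have : c' x = 0 := by simpa [hAdef] using hxA
      rw [hx, this, zero_add, sub_self]) hm0
    have hP' : ∫ x, (Real.log (c x + ε) - Real.log ε) ^ 2 ∂μ ≤
        3 * a ^ 2 * M + (1 / a ^ 3) * (∫ x, (Real.log (c x + ε) - Real.log ε) ∂μ) ^ 2 := by
      refine hP.trans ?_
      have e1 : ((Fintype.card (Fin 3) : ℕ) : ℝ) = 3 := by norm_num
      have e2 : a⁻¹ ^ (Fintype.card (Fin 3)) = 1 / a ^ 3 := by
        simp [Fintype.card_fin]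
      rw [e1, e2]
      have : 3 * a ^ 2 * (∫ x in kpCube b a, ‖(1 / (c x + ε)) • gc x‖ ^ 2) ≤ 3 * a ^ 2 * M :=
        mul_le_mul_of_nonneg_left hPM (by positivity)
      exact add_le_add this le_rfl
    set Y : ℝ := ∫ x, (Real.log (c x + ε) - Real.log ε) ^ 2 ∂μ with hY
    have h3 : Y ≤ 3 * a ^ 2 * M + θ * Y := by
      refine hP'.trans (add_le_add le_rfl ?_)
      calc (1 / a ^ 3) * (∫ x, (Real.log (c x + ε) - Real.log ε) ∂μ) ^ 2
          ≤ (1 / a ^ 3) * (μ.real A * Y) := mul_le_mul_of_nonneg_left hCS (by positivity)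
        _ = θ * Y := by rw [hθ]; ring
    rw [hK, le_div_iff₀ (by linarith)]
    linarith
  -- choose `ε`
  set L : ℝ := Real.sqrt ((|K| + 1) / r) with hL
  have hr0 : 0 < r := hδm
  have hL2 : r * L ^ 2 = |K| + 1 := by
    rw [hL, Real.sq_sqrt (by positivity)]
    field_simp
  have hL0 : 0 ≤ L := Real.sqrt_nonneg _
  set ε : ℝ := δ / Real.exp L with hεdef
  have hε : 0 < ε := by positivity
  have hlow : ∀ᵐ x ∂μ, x ∈ {x | δ ≤ c' x} → L ^ 2 ≤ (Real.log (c x + ε) - Real.log ε) ^ 2 := by
    filter_upwards [hcc'] with x hx hxδ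
    have hxδ' : δ ≤ c x := by rw [hx]; exact hxδ
    have hpos : 0 < c x + ε := by linarith
    have h3 : L ≤ Real.log (c x + ε) - Real.log ε := by
      rw [← Real.log_div hpos.ne' hε.ne']
      rw [Real.le_log_iff_exp_le (div_pos hpos hε)]
      rw [le_div_iff₀ hε, hεdef]
      have : Real.exp L * (δ / Real.exp L) = δ := by field_simp
      rw [this]
      have : 0 < δ / Real.exp L := by positivity
      linarith
    exact pow_le_pow_left₀ hL0 h3 2
  have hkey := key ε hε
  have hδmeas : MeasurableSet {x | δ ≤ c' x} := hc'm.measurable measurableSet_Ici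
  have hge : r * L ^ 2 ≤ ∫ x, (Real.log (c x + ε) - Real.log ε) ^ 2 ∂μ := by
    have hi : ∫ x, ({x | δ ≤ c' x} : Set Pos3).indicator (fun _ => L ^ 2) x ∂μ = r * L ^ 2 := by
      rw [integral_indicator hδmeas]
      simp [hr]
    rw [← hi]
    have hwg := KP.wg_log hV hc h01 hε
    have hfm : MemLp (fun x => Real.log (c x + ε) - Real.log ε) 2 μ := by
      have hm1 : AEStronglyMeasurable (fun x => Real.log (c x + ε) - Real.log ε) μ :=
        (hwg.intf.aestronglyMeasurable).mono_measure (Measure.restrict_mono hQV le_rfl)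
      refine MemLp.of_bound hm1 (|Real.log (1 + ε)| + |Real.log ε| + |Real.log ε|) ?_
      refine (ae_restrict_iff' (isOpen_kpCube b a).measurableSet).2
        (Eventually.of_forall fun y hy => ?_)
      obtain ⟨hx0, hx1⟩ := h01 y (hQV hy)
      have a1 : Real.log ε ≤ Real.log (c y + ε) := Real.log_le_log hε (by linarith)
      have a2 : Real.log (c y + ε) ≤ Real.log (1 + ε) := Real.log_le_log (by linarith) (by linarith)
      rw [Real.norm_eq_abs, abs_of_nonneg (by linarith)]
      have := le_abs_self (Real.log (1 + ε))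
      have := neg_abs_le (Real.log ε)
      have := abs_nonneg (Real.log ε)
      linarith
    refine integral_mono_ae ((integrable_const _).indicator hδmeas) hfm.integrable_sq ?_
    filter_upwards [hlow] with x hx
    by_cases hxm : x ∈ ({x | δ ≤ c' x} : Set Pos3)
    · rw [indicator_of_mem hxm]
      exact hx hxm
    · rw [indicator_of_notMem hxm]
      exact sq_nonneg _
  rw [hL2] at hge
  have := le_abs_self K
  linarith

end Crest.Agent.R335
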