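import Crest.Agent.R335.KPosEq
import Crest.Agent.R335.KPosDich

/-!
Row 335 (S0521), Kohn-Sham side: `w > 0` for `z > 0` and `U > 0`, almost everywhere.
-/

set_option autoImplicit false
set_option linter.unusedVariables false

open MeasureTheory Filter Set Crest.MathPhysics.ThreeBody
open scoped ENNReal Topology ContDiff

noncomputable section
namespace Crest.Agent.R335

/-- gradient of `A/s` -/
def kpGq (s : Pos3 → ℝ) (gs : Pos3 → Pos3) (A : Pos3 → ℝ) (gA : Pos3 → Pos3) (x : Pos3) : Pos3 :=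
  (1 / s x) • gA x - (A x / s x ^ 2) • gs x

theorem KP.gq_w {s U w : Pos3 → ℝ} {gs gU gw : Pos3 → Pos3} (hs : Amp s gs)
    (hp : PairAdm s U gU w gw) :
    ∀ᵐ x, kpGq s gs w gw x = (-(U x / s x ^ 3)) • J U gU w gw x := by
  filter_upwards [pair_grad hs hp] with x hx
  have hsx := (hs.pos x).ne'
  have hsq := hp.sq x
  have e : gs x = (1 / s x) • (U x • gU x + w x • gw x) := by
    rw [← hx.1, smul_smul, one_div_mul_cancel hsx, one_smul]
  have e2 : (1 / s x) • gw x = ((U x ^ 2 + w x ^ 2) / s x ^ 3) • gw x := by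
    congr 1
    rw [hsq]
    field_simp
  unfold kpGq J
  rw [e, e2]
  have e3 : (w x / s x ^ 2) • (1 / s x) • (U x • gU x + w x • gw x) =
      (w x / s x ^ 3) • (U x • gU x + w x • gw x) := by
    rw [smul_smul]
    congr 1
    field_simp
  rw [e3]
  module

theorem KP.gq_U {s U w : Pos3 → ℝ} {gs gU gw : Pos3 → Pos3} (hs : Amp s gs)
    (hp : PairAdm s U gU w gw) :
    ∀ᵐ x, kpGq s gs U gU x = (w x / s x ^ 3) • J U gU w gw x := by
  filter_upwards [pair_grad hs hp] with x hx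
  have hsx := (hs.pos x).ne'
  have hsq := hp.sq x
  have e : gs x = (1 / s x) • (U x • gU x + w x • gw x) := by
    rw [← hx.1, smul_smul, one_div_mul_cancel hsx, one_smul]
  have e2 : (1 / s x) • gU x = ((U x ^ 2 + w x ^ 2) / s x ^ 3) • gU x := by
    congr 1
    rw [hsq]
    field_simp
  unfold kpGq J
  rw [e, e2]
  have e3 : (U x / s x ^ 2) • (1 / s x) • (U x • gU x + w x • gw x) =
      (U x / s x ^ 3) • (U x • gU x + w x • gw x) := by
    rw [smul_smul]
    congr 1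
    field_simp
  rw [e3]
  module

/-- local square integrability from a bound by `‖J‖/s²` -/
theorem KP.l2loc_of_J {s U w : Pos3 → ℝ} {gs gU gw : Pos3 → Pos3} (hs : Amp s gs)
    (hp : PairAdm s U gU w gw) {g : Pos3 → Pos3} (hg : AEStronglyMeasurable g volume)
    (hb : ∀ᵐ x, ‖g x‖ ≤ ‖J U gU w gw x‖ / s x ^ 2) : L2locV univ g := by
  intro K hK _
  obtain ⟨R, hR⟩ := hK.isBounded.subset_closedBall (0 : Pos3)
  obtain ⟨c, hc, hlow⟩ := hs.kpLow R
  refine MemLp.of_le_mul (c := 1 / c ^ 2) ((hp.kpJ2 hs).restrict K) hg.restrict ?_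
  refine (ae_restrict_iff' hK.measurableSet).2 ?_
  filter_upwards [hb] with x hx hxK
  have hxR : ‖x‖ ≤ R := by simpa [Metric.mem_closedBall, dist_zero_right] using hR hxK
  have h1 := hlow x hxR
  refine hx.trans ?_
  rw [div_eq_mul_one_div, mul_comm]
  exact mul_le_mul_of_nonneg_right
    (one_div_le_one_div_of_le (by positivity) (by gcongr)) (norm_nonneg _)

theorem KP.gq_w_le {s U w : Pos3 → ℝ} {gs gU gw : Pos3 → Pos3} (hs : Amp s gs)
    (hp : PairAdm s U gU w gw) : ∀ᵐ x, ‖kpGq s gs w gw x‖ ≤ ‖J U gU w gw x‖ / s x ^ 2 := by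
  filter_upwards [KP.gq_w hs hp] with x hx
  have hsx := hs.pos x
  have h1 := hp.kpU_le hs x
  rw [hx, norm_smul, Real.norm_eq_abs, abs_neg, abs_div, abs_of_pos (pow_pos hsx 3)]
  have : |U x| / s x ^ 3 ≤ 1 / s x ^ 2 := by
    rw [div_le_div_iff₀ (by positivity) (by positivity)]
    nlinarith [mul_le_mul_of_nonneg_right h1 (sq_nonneg (s x))]
  calc |U x| / s x ^ 3 * ‖J U gU w gw x‖ ≤ 1 / s x ^ 2 * ‖J U gU w gw x‖ :=
        mul_le_mul_of_nonneg_right this (norm_nonneg _)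
    _ = _ := by ring

theorem KP.gq_U_le {s U w : Pos3 → ℝ} {gs gU gw : Pos3 → Pos3} (hs : Amp s gs)
    (hp : PairAdm s U gU w gw) : ∀ᵐ x, ‖kpGq s gs U gU x‖ ≤ ‖J U gU w gw x‖ / s x ^ 2 := by
  filter_upwards [KP.gq_U hs hp] with x hx
  have hsx := hs.pos x
  have h1 := hp.kpw_le hs x
  rw [hx, norm_smul, Real.norm_eq_abs, abs_div, abs_of_pos (pow_pos hsx 3)]
  have : |w x| / s x ^ 3 ≤ 1 / s x ^ 2 := by
    rw [div_le_div_iff₀ (by positivity) (by positivity)]
    nlinarith [mul_le_mul_of_nonneg_right h1 (sq_nonneg (s x))]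
  calc |w x| / s x ^ 3 * ‖J U gU w gw x‖ ≤ 1 / s x ^ 2 * ‖J U gU w gw x‖ :=
        mul_le_mul_of_nonneg_right this (norm_nonneg _)
    _ = _ := by ring

theorem KP.aesm_of_wg {f : Pos3 → ℝ} {g : Pos3 → Pos3} (h : WG univ f g) :
    AEStronglyMeasurable f volume ∧ AEStronglyMeasurable g volume := by
  have h1 := h.intf.aestronglyMeasurable
  have h2 := h.intg.aestronglyMeasurable
  rw [Measure.restrict_univ] at h1 h2
  exact ⟨h1, h2⟩

theorem KP.recip_wg {k : Pos3 → ℝ} {gk : Pos3 → Pos3} (hk : WG univ k gk) (h0 : ∀ x, 0 ≤ k x)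
    {ε : ℝ} (hε : 0 < ε) :
    WG univ (fun x => 1 / (k x + ε)) (fun x => (-(1 / (k x + ε) ^ 2)) • gk x) := by
  refine WG.comp_on (F := fun t => 1 / (t + ε)) (F' := fun t => -(1 / (t + ε) ^ 2))
    (a := ((0 : ℝ) : EReal)) (b := ⊤) isOpen_univ hk ?_ ?_ ?_ (C := 1 / ε ^ 2) ?_
  · exact Eventually.of_forall fun y => ⟨by exact_mod_cast h0 y, le_top⟩
  · intro t ht _
    have ht0 : 0 ≤ t := by exact_mod_cast ht
    have h1 : HasDerivAt (fun t => t + ε) 1 t := (hasDerivAt_id t).add_const ε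
    have hne : t + ε ≠ 0 := by positivity
    have h2 := h1.inv hne
    have e : (fun t => 1 / (t + ε)) = (fun t => t + ε)⁻¹ := by
      ext t; simp
    rw [e]
    have e3 : -(1 / (t + ε) ^ 2) = -1 / (t + ε) ^ 2 := by ring
    rw [e3]
    exact h2
  · refine ContinuousOn.neg (ContinuousOn.div continuousOn_const (by fun_prop) ?_)
    intro t ht
    have ht0 : 0 ≤ t := by exact_mod_cast ht.1
    positivity
  · intro t ht _
    have ht0 : 0 ≤ t := by exact_mod_cast ht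
    rw [abs_neg, abs_of_pos (by positivity)]
    exact one_div_le_one_div_of_le (by positivity) (by gcongr; linarith)

theorem KP.l2loc_recip {k : Pos3 → ℝ} {gk : Pos3 → Pos3} (hk : WG univ k gk) (h0 : ∀ x, 0 ≤ k x)
    (hl : L2locV univ gk) {ε : ℝ} (hε : 0 < ε) :
    L2locV univ (fun x => (-(1 / (k x + ε) ^ 2)) • gk x) := by
  intro K hK hKu
  have hm := (KP.aesm_of_wg (KP.recip_wg hk h0 hε)).2
  refine MemLp.of_le_mul (c := 1 / ε ^ 2) (hl K hK hKu) hm.restrict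
    (Eventually.of_forall fun x => ?_)
  have h1 := h0 x
  rw [norm_smul, Real.norm_eq_abs, abs_neg, abs_of_pos (by positivity)]
  exact mul_le_mul_of_nonneg_right
    (one_div_le_one_div_of_le (by positivity) (by gcongr; linarith)) (norm_nonneg _)

/-- the Picone test function `p²/(k+ε)` -/
theorem KP.picone_bt {p k : Pos3 → ℝ} {gp gk : Pos3 → Pos3} (hp : BT p gp) (hk : WG univ k gk)
    (h0 : ∀ x, 0 ≤ k x) (hl : L2locV univ gk) {ε : ℝ} (hε : 0 < ε) :
    BT (fun x => p x ^ 2 * (1 / (k x + ε)))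
      (fun x => (2 * p x / (k x + ε)) • gp x - (p x ^ 2 / (k x + ε) ^ 2) • gk x) := by
  have h1 : BT (fun x => p x * p x) (fun x => p x • gp x + p x • gp x) := BT.mul hp hp.h1 hp.bdd
  have h2 := BT.kpMulWG h1 (KP.recip_wg hk h0 hε)
    ⟨1 / ε, Eventually.of_forall fun x => by
      have := h0 x
      rw [abs_of_pos (by positivity)]
      exact one_div_le_one_div_of_le hε (by linarith)⟩ (KP.l2loc_recip hk h0 hl hε)
  have e1 : (fun x => p x ^ 2 * (1 / (k x + ε))) = fun x => p x * p x * (1 / (k x + ε)) := by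
    ext x; ring
  have e2 : (fun x => (2 * p x / (k x + ε)) • gp x - (p x ^ 2 / (k x + ε) ^ 2) • gk x) =
      fun x => (p x * p x) • (-(1 / (k x + ε) ^ 2)) • gk x +
        (1 / (k x + ε)) • (p x • gp x + p x • gp x) := by
    ext1 x
    module
  rw [e1, e2]
  exact h2

/-- the term `X = p² s² ‖gk‖² / (k+ε)²` -/
theorem KP.X_int {s U w : Pos3 → ℝ} {gs gU gw : Pos3 → Pos3} (hs : Amp s gs)
    (hp : PairAdm s U gU w gw) {p k : Pos3 → ℝ} {gp gk : Pos3 → Pos3} (hpt : BT p gp)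
    (hk : WG univ k gk) (h0 : ∀ x, 0 ≤ k x)
    (hb : ∀ᵐ x, ‖gk x‖ ≤ ‖J U gU w gw x‖ / s x ^ 2) {ε : ℝ} (hε : 0 < ε) :
    Integrable (fun x => p x ^ 2 / (k x + ε) ^ 2 * (s x ^ 2 * ‖gk x‖ ^ 2)) := by
  obtain ⟨D, hD⟩ := hpt.bdd
  obtain ⟨hkm, hgkm⟩ := KP.aesm_of_wg hk
  have h1 : Integrable (fun x => s x ^ 2 * ‖gk x‖ ^ 2) := by
    refine (hp.kpJi hs).mono' ?_ ?_
    · exact (hs.cont.aestronglyMeasurable.pow 2).mul (hgkm.norm.pow 2)
    · filter_upwards [hb] with x hx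
      have hsx := hs.pos x
      rw [Real.norm_eq_abs, abs_of_nonneg (by positivity)]
      have h2 : ‖gk x‖ ^ 2 ≤ (‖J U gU w gw x‖ / s x ^ 2) ^ 2 :=
        pow_le_pow_left₀ (norm_nonneg _) hx 2
      calc s x ^ 2 * ‖gk x‖ ^ 2 ≤ s x ^ 2 * (‖J U gU w gw x‖ / s x ^ 2) ^ 2 :=
            mul_le_mul_of_nonneg_left h2 (sq_nonneg _)
        _ = _ := by field_simp
  refine KP.bdd_mul h1 ?_ (C := D ^ 2 / ε ^ 2) ?_
  · exact ((hpt.h1.memf.1.aemeasurable.pow_const 2).div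
      ((hkm.aemeasurable.add_const ε).pow_const 2)).aestronglyMeasurable
  · filter_upwards [hD] with x hx
    have hkx := h0 x
    rw [abs_of_nonneg (by positivity)]
    have h2 : p x ^ 2 ≤ D ^ 2 := by
      rw [← sq_abs (p x)]
      exact pow_le_pow_left₀ (abs_nonneg _) hx 2
    exact div_le_div₀ (sq_nonneg _) h2 (by positivity) (by gcongr; linarith)

theorem KP.sg_int {s : Pos3 → ℝ} {gs : Pos3 → Pos3} (hs : Amp s gs) {g : Pos3 → Pos3}
    (hg : MemLp g 2 volume) : Integrable (fun x => s x ^ 2 * ‖g x‖ ^ 2) := by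
  obtain ⟨C, hC0, hC⟩ := hs.kpUpper
  refine KP.bdd_mul (KP.integrable_norm_sq hg) (hs.cont.pow 2).aestronglyMeasurable
    (C := C ^ 2) (Eventually.of_forall fun x => ?_)
  rw [abs_pow]
  exact pow_le_pow_left₀ (abs_nonneg _) (hC x) 2

theorem KP.tested_int {s U w : Pos3 → ℝ} {gs gU gw : Pos3 → Pos3} (hs : Amp s gs)
    (hp : PairAdm s U gU w gw) {p k : Pos3 → ℝ} {gp gk : Pos3 → Pos3} (hpt : BT p gp)
    (hk : WG univ k gk) (h0 : ∀ x, 0 ≤ k x)
    (hb : ∀ᵐ x, ‖gk x‖ ≤ ‖J U gU w gw x‖ / s x ^ 2) {ε : ℝ} (hε : 0 < ε) :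
    Integrable fun x => s x ^ 2 * inner ℝ (gk x)
      ((2 * p x / (k x + ε)) • gp x - (p x ^ 2 / (k x + ε) ^ 2) • gk x) := by
  obtain ⟨D, hD⟩ := hpt.bdd
  obtain ⟨hkm, hgkm⟩ := KP.aesm_of_wg hk
  have hX := KP.X_int hs hp hpt hk h0 hb hε
  have h1 : Integrable (fun x => s x ^ 2 * inner ℝ (gk x) (gp x)) := by
    have hJg := MemLp.integrable_mul (hp.kpJ2 hs).norm hpt.h1.memg.norm
    refine hJg.mono' ((hs.cont.pow 2).aestronglyMeasurable.mul (hgkm.inner hpt.h1.memg.1)) ?_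
    filter_upwards [hb] with x hx
    have hsx := hs.pos x
    rw [Real.norm_eq_abs, abs_mul, abs_of_pos (pow_pos hsx 2)]
    have h2 := abs_real_inner_le_norm (gk x) (gp x)
    calc s x ^ 2 * |inner ℝ (gk x) (gp x)| ≤ s x ^ 2 * (‖gk x‖ * ‖gp x‖) :=
          mul_le_mul_of_nonneg_left h2 (sq_nonneg _)
      _ ≤ s x ^ 2 * (‖J U gU w gw x‖ / s x ^ 2 * ‖gp x‖) := by gcongr
      _ = ‖J U gU w gw x‖ * ‖gp x‖ := by field_simp
  have h2 : Integrable (fun x => (2 * p x / (k x + ε)) * (s x ^ 2 * inner ℝ (gk x) (gp x))) := by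
    refine KP.bdd_mul h1 ?_ (C := 2 * D / ε) ?_
    · exact ((hpt.h1.memf.1.aemeasurable.const_mul 2).div
        (hkm.aemeasurable.add_const ε)).aestronglyMeasurable
    · filter_upwards [hD] with x hx
      have hkx := h0 x
      rw [abs_div, abs_mul, abs_of_pos (show 0 < k x + ε by positivity),
        abs_of_pos (two_pos : (0:ℝ) < 2)]
      have hD0 : 0 ≤ D := (abs_nonneg _).trans hx
      exact div_le_div₀ (by positivity) (by gcongr) (by positivity) (by linarith)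
  refine (h2.sub hX).congr (Eventually.of_forall fun x => ?_)
  simp only [Pi.sub_apply]
  rw [inner_sub_right, inner_smul_right, inner_smul_right, real_inner_self_eq_norm_sq]
  ring

/-- energy estimate from a lower bound of the tested equation -/
theorem KP.energy {s U w : Pos3 → ℝ} {gs gU gw : Pos3 → Pos3} (hs : Amp s gs)
    (hp : PairAdm s U gU w gw) {p k : Pos3 → ℝ} {gp gk : Pos3 → Pos3} (hpt : BT p gp)
    (hk : WG univ k gk) (h0 : ∀ x, 0 ≤ k x)
    (hb : ∀ᵐ x, ‖gk x‖ ≤ ‖J U gU w gw x‖ / s x ^ 2) {ε : ℝ} (hε : 0 < ε) {B : ℝ}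
    (H : -B ≤ ∫ x, s x ^ 2 * inner ℝ (gk x)
      ((2 * p x / (k x + ε)) • gp x - (p x ^ 2 / (k x + ε) ^ 2) • gk x)) :
    ∫ x, p x ^ 2 / (k x + ε) ^ 2 * (s x ^ 2 * ‖gk x‖ ^ 2) ≤
      4 * (∫ x, s x ^ 2 * ‖gp x‖ ^ 2) + 2 * B := by
  have hX := KP.X_int hs hp hpt hk h0 hb hε
  have hG := KP.sg_int hs hpt.h1.memg
  have hle : ∀ x, s x ^ 2 * inner ℝ (gk x)
      ((2 * p x / (k x + ε)) • gp x - (p x ^ 2 / (k x + ε) ^ 2) • gk x) ≤
      2 * (s x ^ 2 * ‖gp x‖ ^ 2) -
        (1 / 2) * (p x ^ 2 / (k x + ε) ^ 2 * (s x ^ 2 * ‖gk x‖ ^ 2)) := by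
    intro x
    have hkx := h0 x
    have hpos : 0 < k x + ε := by positivity
    rw [inner_sub_right, inner_smul_right, inner_smul_right, real_inner_self_eq_norm_sq]
    have h1 : 2 * p x / (k x + ε) * inner ℝ (gk x) (gp x) ≤
        2 * (|p x| / (k x + ε) * ‖gk x‖) * ‖gp x‖ := by
      have h2 := abs_real_inner_le_norm (gk x) (gp x)
      calc 2 * p x / (k x + ε) * inner ℝ (gk x) (gp x)
          ≤ |2 * p x / (k x + ε) * inner ℝ (gk x) (gp x)| := le_abs_self _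
        _ = 2 * (|p x| / (k x + ε)) * |inner ℝ (gk x) (gp x)| := by
            rw [abs_mul, abs_div, abs_mul, abs_of_pos hpos, abs_of_pos (two_pos : (0:ℝ) < 2)]
            ring
        _ ≤ 2 * (|p x| / (k x + ε)) * (‖gk x‖ * ‖gp x‖) :=
            mul_le_mul_of_nonneg_left h2 (by positivity)
        _ = _ := by ring
    have h3 : p x ^ 2 / (k x + ε) ^ 2 * ‖gk x‖ ^ 2 = (|p x| / (k x + ε) * ‖gk x‖) ^ 2 := by
      rw [mul_pow, div_pow, sq_abs]
    have h4 : 2 * (|p x| / (k x + ε) * ‖gk x‖) * ‖gp x‖ ≤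
        (1 / 2) * (|p x| / (k x + ε) * ‖gk x‖) ^ 2 + 2 * ‖gp x‖ ^ 2 := by
      nlinarith [sq_nonneg (|p x| / (k x + ε) * ‖gk x‖ - 2 * ‖gp x‖)]
    have h5 := mul_le_mul_of_nonneg_left (h1.trans h4) (sq_nonneg (s x))
    have h6 : p x ^ 2 / (k x + ε) ^ 2 * (s x ^ 2 * ‖gk x‖ ^ 2) =
        s x ^ 2 * (|p x| / (k x + ε) * ‖gk x‖) ^ 2 := by
      rw [← h3]; ring
    rw [h6, mul_sub, h3]
    linarith
  have hint : Integrable fun x => 2 * (s x ^ 2 * ‖gp x‖ ^ 2) -
        (1 / 2) * (p x ^ 2 / (k x + ε) ^ 2 * (s x ^ 2 * ‖gk x‖ ^ 2)) :=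
    (hG.const_mul 2).sub (hX.const_mul (1 / 2))
  have hmain : ∫ x, s x ^ 2 * inner ℝ (gk x)
      ((2 * p x / (k x + ε)) • gp x - (p x ^ 2 / (k x + ε) ^ 2) • gk x) ≤
      ∫ x, (2 * (s x ^ 2 * ‖gp x‖ ^ 2) -
        (1 / 2) * (p x ^ 2 / (k x + ε) ^ 2 * (s x ^ 2 * ‖gk x‖ ^ 2))) := by
    refine integral_mono ?_ hint hle
    exact KP.tested_int hs hp hpt hk h0 hb hε
  rw [integral_sub (hG.const_mul 2) (hX.const_mul (1 / 2)), integral_const_mul,
    integral_const_mul] at hmain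
  linarith

/-! ### tested equations -/

/-- `|w/s|` -/
def kpKw (s w : Pos3 → ℝ) (x : Pos3) : ℝ := |w x / s x|

/-- gradient of `|w/s|` -/
def kpGkw (s : Pos3 → ℝ) (gs : Pos3 → Pos3) (w : Pos3 → ℝ) (gw : Pos3 → Pos3) (x : Pos3) : Pos3 :=
  if 0 < w x / s x then kpGq s gs w gw x else - kpGq s gs w gw x

theorem kpKw_wg {s U w : Pos3 → ℝ} {gs gU gw : Pos3 → Pos3} (hs : Amp s gs)
    (hp : PairAdm s U gU w gw) : WG univ (kpKw s w) (kpGkw s gs w gw) :=
  WG.abs isOpen_univ (hs.kpQuot hp.hw)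

theorem kpKw_nonneg (s w : Pos3 → ℝ) (x : Pos3) : 0 ≤ kpKw s w x := abs_nonneg _

theorem kpKw_le_one {s U w : Pos3 → ℝ} {gs gU gw : Pos3 → Pos3} (hs : Amp s gs)
    (hp : PairAdm s U gU w gw) (x : Pos3) : kpKw s w x ≤ 1 := by
  unfold kpKw
  rw [abs_div, abs_of_pos (hs.pos x)]
  exact (div_le_one (hs.pos x)).2 (hp.kpw_le hs x)

theorem kpGkw_le {s U w : Pos3 → ℝ} {gs gU gw : Pos3 → Pos3} (hs : Amp s gs)
    (hp : PairAdm s U gU w gw) : ∀ᵐ x, ‖kpGkw s gs w gw x‖ ≤ ‖J U gU w gw x‖ / s x ^ 2 := by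
  filter_upwards [KP.gq_w_le hs hp] with x hx
  unfold kpGkw
  split_ifs
  · exact hx
  · rw [norm_neg]; exact hx

theorem kpGkw_l2 {s U w : Pos3 → ℝ} {gs gU gw : Pos3 → Pos3} (hs : Amp s gs)
    (hp : PairAdm s U gU w gw) : L2locV univ (kpGkw s gs w gw) :=
  KP.l2loc_of_J hs hp (KP.aesm_of_wg (kpKw_wg hs hp)).2 (kpGkw_le hs hp)

/-- on the upper half space `kpGkw` is the gradient of `w/s` -/
theorem kpGkw_eq {s U w : Pos3 → ℝ} {gs gU gw : Pos3 → Pos3} {om : ℝ} (hs : Amp s gs)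
    (hp : Pair s U gU w gw om) :
    ∀ᵐ x : Pos3, 0 < x 2 → kpGkw s gs w gw x = (-(U x / s x ^ 3)) • J U gU w gw x := by
  have hz := WG.zero_of_level isOpen_univ (hs.kpQuot hp.adm.hw) 0
  rw [Measure.restrict_univ] at hz
  filter_upwards [KP.gq_w hs hp.adm, hz] with x h1 h2 hx
  unfold kpGkw
  split_ifs with hc
  · exact h1
  · have hc0 : w x / s x = 0 :=
      le_antisymm (not_lt.1 hc) (div_nonneg (hp.w0 x hx) (hs.pos x).le)
    have h3 : kpGq s gs w gw x = 0 := h2 hc0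
    rw [h3, neg_zero, ← h1, h3]

/-- the equation of `w/s` tested with `p²/(|w/s| + ε)` -/
theorem KP.cos_tested {s U w : Pos3 → ℝ} {gs gU gw : Pos3 → Pos3} {om : ℝ} (hs : Amp s gs)
    (hp : Pair s U gU w gw om) {p : Pos3 → ℝ} {gp : Pos3 → Pos3} (hpt : BT p gp)
    (hp0 : ∀ᵐ x : Pos3, x 2 ≤ 0 → p x = 0) {ε : ℝ} (hε : 0 < ε) :
    ∫ x, s x ^ 2 * inner ℝ (kpGkw s gs w gw x)
      ((2 * p x / (kpKw s w x + ε)) • gp x - (p x ^ 2 / (kpKw s w x + ε) ^ 2) • kpGkw s gs w gw x) =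
    ∫ x, (2 * om * U x ^ 2 * w x / s x + w x / s x ^ 3 * ‖J U gU w gw x‖ ^ 2) *
      (p x ^ 2 * (1 / (kpKw s w x + ε))) := by
  have hbt := KP.picone_bt hpt (kpKw_wg hs hp.adm) (kpKw_nonneg s w) (kpGkw_l2 hs hp.adm) hε
  rw [← cos_eq hs hp hbt]
  refine integral_congr_ae ?_
  filter_upwards [hp0, kpGkw_eq hs hp] with x h1 h2
  by_cases hx : 0 < x 2
  · have h3 := h2 hx
    have hsx := (hs.pos x).ne'
    set v := (2 * p x / (kpKw s w x + ε)) • gp x - (p x ^ 2 / (kpKw s w x + ε) ^ 2) • kpGkw s gs w gw x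
    rw [h3, real_inner_smul_left, ← mul_assoc]
    congr 1
    field_simp
  · rw [h1 (not_lt.1 hx)]
    simp

/-- gradient bound for `U/s` -/
theorem KP.sin_tested {s U w : Pos3 → ℝ} {gs gU gw : Pos3 → Pos3} {om : ℝ} (hs : Amp s gs)
    (hp : Pair s U gU w gw om) {p : Pos3 → ℝ} {gp : Pos3 → Pos3} (hpt : BT p gp)
    {ε : ℝ} (hε : 0 < ε) :
    ∫ x, s x ^ 2 * inner ℝ (kpGq s gs U gU x)
      ((2 * p x / (U x / s x + ε)) • gp x - (p x ^ 2 / (U x / s x + ε) ^ 2) • kpGq s gs U gU x) =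
    - ∫ x, (2 * om * U x * w x ^ 2 / s x - U x / s x ^ 3 * ‖J U gU w gw x‖ ^ 2) *
      (p x ^ 2 * (1 / (U x / s x + ε))) := by
  have hwg : WG univ (fun x => U x / s x) (kpGq s gs U gU) := hs.kpQuot hp.adm.hU
  have hl := KP.l2loc_of_J hs hp.adm (KP.aesm_of_wg hwg).2 (KP.gq_U_le hs hp.adm)
  have hbt := KP.picone_bt hpt hwg (fun x => div_nonneg (hp.U0 x) (hs.pos x).le) hl hε
  rw [← sin_eq hs hp hbt]
  refine integral_congr_ae ?_
  filter_upwards [KP.gq_U hs hp.adm] with x h3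
  have hsx := (hs.pos x).ne'
  set v := (2 * p x / (U x / s x + ε)) • gp x - (p x ^ 2 / (U x / s x + ε) ^ 2) • kpGq s gs U gU x
  rw [h3, real_inner_smul_left, ← mul_assoc]
  congr 1
  field_simp

/-! ### exhaustion -/

theorem KP.exhaust {V : Set Pos3} {b : ℕ → Pos3} {a : ℕ → ℝ}
    (hmono : ∀ n m, n ≤ m → kpCube (b n) (a n) ⊆ kpCube (b m) (a m))
    (hcov : V ⊆ ⋃ n, kpCube (b n) (a n)) {c : Pos3 → ℝ}
    (hd : ∀ n, (∀ᵐ x ∂(volume.restrict (kpCube (b n) (a n))), c x ≠ 0) ∨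
      (∀ᵐ x ∂(volume.restrict (kpCube (b n) (a n))), c x = 0)) :
    (∀ᵐ x, x ∈ V → c x ≠ 0) ∨ (∀ᵐ x, x ∈ V → c x = 0) := by
  have key : ∀ P : Pos3 → Prop, (∃ n0, ∀ n, n0 ≤ n →
      ∀ᵐ x ∂(volume.restrict (kpCube (b n) (a n))), P x) → ∀ᵐ x, x ∈ V → P x := by
    rintro P ⟨n0, hn⟩
    have h1 : ∀ n, ∀ᵐ x, n0 ≤ n → x ∈ kpCube (b n) (a n) → P x := by
      intro n
      by_cases hnn : n0 ≤ n
      · have := (ae_restrict_iff' (isOpen_kpCube (b n) (a n)).measurableSet).1 (hn n hnn)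
        filter_upwards [this] with x hx _
        exact hx
      · exact Eventually.of_forall fun x h => absurd h hnn
    filter_upwards [ae_all_iff.2 h1] with x hx hxV
    obtain ⟨m, hm⟩ := mem_iUnion.1 (hcov hxV)
    exact hx (max m n0) (le_max_right _ _) (hmono m _ (le_max_left _ _) hm)
  by_cases hall : ∀ n, ∀ᵐ x ∂(volume.restrict (kpCube (b n) (a n))), c x ≠ 0
  · exact Or.inl (key _ ⟨0, fun n _ => hall n⟩)
  · push Not at hall
    obtain ⟨n0, hn0⟩ := hall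
    refine Or.inr (key _ ⟨n0, fun n hn => ?_⟩)
    rcases hd n with h | h
    · exact absurd (ae_restrict_of_ae_restrict_of_subset (hmono n0 n hn) h) hn0
    · exact h

theorem KP.closedCube_compact (b : Pos3) (a : ℝ) :
    IsCompact {x : Pos3 | ∀ i, b i ≤ x i ∧ x i ≤ b i + a} := by
  have h : {x : Pos3 | ∀ i, b i ≤ x i ∧ x i ≤ b i + a} = (WithLp.toLp 2) ''
      (Set.pi univ fun i : Fin 3 => Icc (b i) (b i + a)) := by
    ext x
    constructor
    · intro hx
      exact ⟨WithLp.ofLp x, fun i _ => hx i, rfl⟩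
    · rintro ⟨y, hy, rfl⟩
      exact fun i => hy i (mem_univ i)
  rw [h]
  refine (isCompact_univ_pi fun i => isCompact_Icc).image ?_
  fun_prop

/-- from the energy estimate to the hypothesis of `KP.dich` -/
theorem KP.cube_bound {s : Pos3 → ℝ} {gs : Pos3 → Pos3} (hs : Amp s gs) {k p : Pos3 → ℝ}
    {gk gc : Pos3 → Pos3} {c : Pos3 → ℝ} {b : Pos3} {a : ℝ} {c0 : ℝ} (hc0 : 0 < c0)
    (hlow : ∀ x ∈ kpCube b a, c0 ≤ s x) (hp1 : ∀ x ∈ kpCube b a, p x = 1)
    (hck : ∀ x ∈ kpCube b a, c x = k x) (hk0 : ∀ x, 0 ≤ k x)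
    (hgk : ∀ᵐ x, x ∈ kpCube b a → ‖gc x‖ = ‖gk x‖) {ε : ℝ} (hε : 0 < ε)
    (hX : Integrable (fun x => p x ^ 2 / (k x + ε) ^ 2 * (s x ^ 2 * ‖gk x‖ ^ 2))) :
    ∫ x in kpCube b a, ‖(1 / (c x + ε)) • gc x‖ ^ 2 ≤
      (1 / c0 ^ 2) * ∫ x, p x ^ 2 / (k x + ε) ^ 2 * (s x ^ 2 * ‖gk x‖ ^ 2) := by
  have hnn : ∀ x, 0 ≤ p x ^ 2 / (k x + ε) ^ 2 * (s x ^ 2 * ‖gk x‖ ^ 2) := fun x => by
    have := hk0 x
    positivity
  have h1 : ∫ x in kpCube b a, ‖(1 / (c x + ε)) • gc x‖ ^ 2 ≤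
      ∫ x in kpCube b a, (1 / c0 ^ 2) * (p x ^ 2 / (k x + ε) ^ 2 * (s x ^ 2 * ‖gk x‖ ^ 2)) := by
    refine integral_mono_of_nonneg (Eventually.of_forall fun x => sq_nonneg _)
      ((hX.const_mul _).integrableOn) ?_
    refine (ae_restrict_iff' (isOpen_kpCube b a).measurableSet).2 ?_
    filter_upwards [hgk] with x hx hxQ
    have hkx := hk0 x
    have hpos : 0 < k x + ε := by positivity
    rw [norm_smul, mul_pow, hx hxQ, hck x hxQ, hp1 x hxQ, Real.norm_eq_abs, sq_abs]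
    have h2 : c0 ^ 2 ≤ s x ^ 2 := pow_le_pow_left₀ hc0.le (hlow x hxQ) 2
    have h3 : (1 : ℝ) ≤ (1 / c0 ^ 2) * s x ^ 2 := by
      rw [one_div, inv_mul_eq_div, le_div_iff₀ (by positivity)]
      linarith
    calc (1 / (k x + ε)) ^ 2 * ‖gk x‖ ^ 2 = (1 / (k x + ε)) ^ 2 * ‖gk x‖ ^ 2 * 1 := by ring
      _ ≤ (1 / (k x + ε)) ^ 2 * ‖gk x‖ ^ 2 * ((1 / c0 ^ 2) * s x ^ 2) :=
          mul_le_mul_of_nonneg_left h3 (by positivity)
      _ = _ := by field_simp
  refine h1.trans ?_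
  rw [integral_const_mul]
  refine mul_le_mul_of_nonneg_left ?_ (by positivity)
  exact setIntegral_le_integral hX (Eventually.of_forall hnn)

theorem KP.dich_w {s U w : Pos3 → ℝ} {gs gU gw : Pos3 → Pos3} {om : ℝ} (hs : Amp s gs)
    (hp : Pair s U gU w gw om) (b : Pos3) {a : ℝ} (ha : 0 < a)
    (hQ : {x : Pos3 | ∀ i, b i ≤ x i ∧ x i ≤ b i + a} ⊆ {x : Pos3 | 0 < x 2}) :
    (∀ᵐ x ∂(volume.restrict (kpCube b a)), w x / s x ≠ 0) ∨
      (∀ᵐ x ∂(volume.restrict (kpCube b a)), w x / s x = 0) := by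
  have hV : IsOpen {x : Pos3 | 0 < x 2} :=
    isOpen_lt continuous_const (by fun_prop : Continuous fun x : Pos3 => x 2)
  have hcomp := KP.closedCube_compact b a
  obtain ⟨χ, hχ, hχ01, W, hWo, hKW, hWV, hχ1⟩ := exists_cutoff hcomp hV hQ
  have hsub : kpCube b a ⊆ {x : Pos3 | ∀ i, b i ≤ x i ∧ x i ≤ b i + a} :=
    fun x hx i => ⟨(hx i).1.le, (hx i).2.le⟩
  obtain ⟨R, hR⟩ := hcomp.isBounded.subset_closedBall (0 : Pos3)
  obtain ⟨c0, hc0, hlow⟩ := hs.kpLow R
  have hbt := BT.kpTest hχ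
  have hp0 : ∀ᵐ x : Pos3, x 2 ≤ 0 → χ x = 0 := by
    refine Eventually.of_forall fun x hx => ?_
    by_contra hne
    have : x ∈ tsupport χ := subset_tsupport _ (by simpa using hne)
    exact absurd (hχ.sub this) (by simpa using hx)
  have hwg : WG {x : Pos3 | 0 < x 2} (fun x => w x / s x) (kpGq s gs w gw) :=
    WG.mono (hs.kpQuot hp.adm.hw) (subset_univ _)
  have hgl : L2locV univ (kpGq s gs w gw) :=
    KP.l2loc_of_J hs hp.adm (KP.aesm_of_wg (hs.kpQuot hp.adm.hw)).2 (KP.gq_w_le hs hp.adm)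
  refine KP.dich hV hwg ?_ (fun K hK _ => hgl K hK (subset_univ _)) b ha hQ
    (M := (1 / c0 ^ 2) * (4 * ∫ x, s x ^ 2 * ‖gr χ x‖ ^ 2)) ?_
  · intro x hx
    refine ⟨div_nonneg (hp.w0 x hx) (hs.pos x).le, ?_⟩
    exact (div_le_one (hs.pos x)).2 ((le_abs_self _).trans (hp.adm.kpw_le hs x))
  · intro ε hε
    have hX := KP.X_int hs hp.adm hbt (kpKw_wg hs hp.adm) (kpKw_nonneg s w) (kpGkw_le hs hp.adm) hε
    have hen := KP.energy hs hp.adm hbt (kpKw_wg hs hp.adm) (kpKw_nonneg s w) (kpGkw_le hs hp.adm) hε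
      (B := 0) (by
        rw [neg_zero, KP.cos_tested hs hp hbt hp0 hε]
        refine integral_nonneg_of_ae ?_
        filter_upwards [hp0] with x hx
        simp only [Pi.zero_apply]
        by_cases hx2 : 0 < x 2
        · have h1 := hp.w0 x hx2
          have h2 := hs.pos x
          have h3 := hp.om_pos
          have h4 := kpKw_nonneg s w x
          positivity
        · rw [hx (not_lt.1 hx2)]
          simp)
    have hcb := KP.cube_bound hs (k := kpKw s w) (p := χ) (gk := kpGkw s gs w gw)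
      (gc := kpGq s gs w gw) (c := fun x => w x / s x) (b := b) (a := a) hc0
      (fun x hx => hlow x (by simpa [Metric.mem_closedBall, dist_zero_right] using hR (hsub hx)))
      (fun x hx => hχ1 x (hKW (hsub hx)))
      (fun x hx => by
        unfold kpKw
        rw [abs_of_nonneg]
        exact div_nonneg (hp.w0 x (hQ (hsub hx))) (hs.pos x).le) (kpKw_nonneg s w)
      (Eventually.of_forall fun x _ => by
        unfold kpGkw
        split_ifs
        · rfl
        · rw [norm_neg]) hε hX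
    refine hcb.trans (mul_le_mul_of_nonneg_left ?_ (by positivity))
    linarith

theorem KP.dich_U {s U w : Pos3 → ℝ} {gs gU gw : Pos3 → Pos3} {om : ℝ} (hs : Amp s gs)
    (hp : Pair s U gU w gw om) (b : Pos3) {a : ℝ} (ha : 0 < a) :
    (∀ᵐ x ∂(volume.restrict (kpCube b a)), U x / s x ≠ 0) ∨
      (∀ᵐ x ∂(volume.restrict (kpCube b a)), U x / s x = 0) := by
  have hcomp := KP.closedCube_compact b a
  obtain ⟨χ, hχ, hχ01, W, hWo, hKW, hWV, hχ1⟩ := exists_cutoff hcomp isOpen_univ (subset_univ _)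
  have hsub : kpCube b a ⊆ {x : Pos3 | ∀ i, b i ≤ x i ∧ x i ≤ b i + a} :=
    fun x hx i => ⟨(hx i).1.le, (hx i).2.le⟩
  obtain ⟨R, hR⟩ := hcomp.isBounded.subset_closedBall (0 : Pos3)
  obtain ⟨c0, hc0, hlow⟩ := hs.kpLow R
  have hbt := BT.kpTest hχ
  have hwg : WG univ (fun x => U x / s x) (kpGq s gs U gU) := hs.kpQuot hp.adm.hU
  have hgl : L2locV univ (kpGq s gs U gU) :=
    KP.l2loc_of_J hs hp.adm (KP.aesm_of_wg hwg).2 (KP.gq_U_le hs hp.adm)
  have hk0 : ∀ x, 0 ≤ U x / s x := fun x => div_nonneg (hp.U0 x) (hs.pos x).le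
  have hsχ : Integrable (fun x => s x ^ 2 * χ x ^ 2) := by
    obtain ⟨C, hC0, hC⟩ := hs.kpUpper
    refine KP.bdd_mul (KP.integrable_sq hbt.h1.memf) (hs.cont.pow 2).aestronglyMeasurable
      (C := C ^ 2) (Eventually.of_forall fun x => ?_)
    rw [abs_pow]
    exact pow_le_pow_left₀ (abs_nonneg _) (hC x) 2
  refine KP.dich isOpen_univ hwg ?_ hgl b ha (subset_univ _)
    (M := (1 / c0 ^ 2) * (4 * (∫ x, s x ^ 2 * ‖gr χ x‖ ^ 2) +
      2 * (2 * om * ∫ x, s x ^ 2 * χ x ^ 2))) ?_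
  · intro x _
    refine ⟨hk0 x, ?_⟩
    exact (div_le_one (hs.pos x)).2 ((le_abs_self _).trans (hp.adm.kpU_le hs x))
  · intro ε hε
    have hX := KP.X_int hs hp.adm hbt hwg hk0 (KP.gq_U_le hs hp.adm) hε
    have hen := KP.energy hs hp.adm hbt hwg hk0 (KP.gq_U_le hs hp.adm) hε
      (B := 2 * om * ∫ x, s x ^ 2 * χ x ^ 2) (by
        rw [KP.sin_tested hs hp hbt hε, neg_le_neg_iff, ← integral_const_mul]
        have hpb := KP.picone_bt hbt hwg hk0 hgl hε
        have i2 := KP.int2 hs hp.adm hp.adm.hU (hp.adm.kpU_le hs) hpb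
        have i3 := KP.int3 hs hp.adm.kpMU hp.adm.kpMw hp.adm.kpMw (hp.adm.kpU_le hs)
          (hp.adm.kpw_le hs) (hp.adm.kpw_le hs) hpb
        refine integral_mono ?_ (hsχ.const_mul _) ?_
        · refine ((i3.const_mul (2 * om)).sub i2).congr (Eventually.of_forall fun x => ?_)
          simp only [Pi.sub_apply]
          ring
        · intro x
          simp only
          have h2 := hs.pos x
          have h3 := hp.om_pos
          have h4 := hk0 x
          have h5 := hp.U0 x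
          have h6 : w x ^ 2 ≤ s x ^ 2 := by
            have := hp.adm.sq x
            nlinarith [sq_nonneg (U x)]
          have hpos : 0 < U x / s x + ε := by positivity
          have h7 : (U x / s x) / (U x / s x + ε) ≤ 1 := by
            rw [div_le_one hpos]; linarith
          have h8 : 0 ≤ U x / s x ^ 3 * ‖J U gU w gw x‖ ^ 2 * (χ x ^ 2 * (1 / (U x / s x + ε))) := by
            positivity
          have h9 : 2 * om * U x * w x ^ 2 / s x * (χ x ^ 2 * (1 / (U x / s x + ε))) =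
              (2 * om) * (w x ^ 2 * χ x ^ 2) * ((U x / s x) / (U x / s x + ε)) := by
            ring
          have h10 : (2 * om) * (w x ^ 2 * χ x ^ 2) * ((U x / s x) / (U x / s x + ε)) ≤
              (2 * om) * (s x ^ 2 * χ x ^ 2) * 1 := by
            gcongr
          rw [sub_mul, h9]
          linarith)
    have hcb := KP.cube_bound hs (k := fun x => U x / s x) (p := χ) (gk := kpGq s gs U gU)
      (gc := kpGq s gs U gU) (c := fun x => U x / s x) (b := b) (a := a) hc0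
      (fun x hx => hlow x (by simpa [Metric.mem_closedBall, dist_zero_right] using hR (hsub hx)))
      (fun x hx => hχ1 x (hKW (hsub hx)))
      (fun x hx => rfl) hk0 (Eventually.of_forall fun x _ => rfl) hε hX
    exact hcb.trans (mul_le_mul_of_nonneg_left hen (by positivity))

/-! ### positivity -/

theorem U_pos {s U w : Pos3 → ℝ} {gs gU gw : Pos3 → Pos3} {om : ℝ} (hs : Amp s gs)
    (hp : Pair s U gU w gw om) : ∀ᵐ x : Pos3, 0 < U x := by
  set b : ℕ → Pos3 := fun n => WithLp.toLp 2 fun _ => -((n : ℝ) + 1) with hb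
  set a : ℕ → ℝ := fun n => 2 * ((n : ℝ) + 1) with ha
  have hmem : ∀ n x, x ∈ kpCube (b n) (a n) ↔ ∀ i, |x i| < (n : ℝ) + 1 := by
    intro n x
    have e : ∀ i, b n i = -((n : ℝ) + 1) := fun i => rfl
    simp only [kpCube, ha]
    constructor
    · intro h i
      have := h i
      rw [e] at this
      rw [abs_lt]
      constructor <;> linarith [this.1, this.2]
    · intro h i
      have := abs_lt.1 (h i)
      rw [e]
      constructor <;> linarith [this.1, this.2]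
  have hd := KP.exhaust (V := univ) (b := b) (a := a) (c := fun x => U x / s x) ?_ ?_
    (fun n => KP.dich_U hs hp (b n) (by simp only [ha]; positivity))
  · rcases hd with h | h
    · filter_upwards [h] with x hx
      refine lt_of_le_of_ne (hp.U0 x) (fun h0 => hx (mem_univ x) ?_)
      rw [← h0, zero_div]
    · exfalso
      have h1 : ∀ᵐ x, U x ^ 2 = (0 : ℝ) := by
        filter_upwards [h] with x hx
        have := hx (mem_univ x)
        rw [div_eq_zero_iff] at this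
        rcases this with h2 | h2
        · rw [h2]; norm_num
        · exact absurd h2 (hs.pos x).ne'
      have h2 := hp.adm.nU
      rw [integral_congr_ae h1] at h2
      simp at h2
  · intro n m hnm x hx
    rw [hmem] at hx ⊢
    intro i
    have : (n : ℝ) ≤ m := by exact_mod_cast hnm
    linarith [hx i]
  · intro x _
    obtain ⟨n, hn⟩ := exists_nat_gt ‖x‖
    refine mem_iUnion.2 ⟨n, ?_⟩
    rw [hmem]
    intro i
    have := PiLp.norm_apply_le x i
    rw [Real.norm_eq_abs] at this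
    linarith

theorem w_pos {s U w : Pos3 → ℝ} {gs gU gw : Pos3 → Pos3} {om : ℝ} (hs : Amp s gs)
    (hp : Pair s U gU w gw om) : ∀ᵐ x : Pos3, 0 < x 2 → 0 < w x := by
  set b : ℕ → Pos3 := fun n => WithLp.toLp 2 fun i =>
    if i = 2 then 1 / ((n : ℝ) + 1) else -((n : ℝ) + 1) with hb
  set a : ℕ → ℝ := fun n => 2 * ((n : ℝ) + 1) with ha
  have hb2 : ∀ n, b n 2 = 1 / ((n : ℝ) + 1) := fun n => by simp [hb]
  have hbi : ∀ n i, i ≠ 2 → b n i = -((n : ℝ) + 1) := fun n i hi => by simp [hb, hi]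
  have hd := KP.exhaust (V := {x : Pos3 | 0 < x 2}) (b := b) (a := a) (c := fun x => w x / s x)
    ?_ ?_ (fun n => KP.dich_w hs hp (b n) (by simp only [ha]; positivity) ?_)
  · rcases hd with h | h
    · filter_upwards [h] with x hx hx2
      refine lt_of_le_of_ne (hp.w0 x hx2) (fun h0 => hx hx2 ?_)
      rw [← h0, zero_div]
    · exfalso
      have h1 : ∀ᵐ x : Pos3, 0 < x 2 → w x = 0 := by
        filter_upwards [h] with x hx hx2
        have := hx hx2
        rw [div_eq_zero_iff] at this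
        rcases this with h2 | h2
        · exact h2
        · exact absurd h2 (hs.pos x).ne'
      have h2 : ∀ᵐ x : Pos3, 0 < (rz x) 2 → w (rz x) = 0 :=
        (rz.measurePreserving.quasiMeasurePreserving).ae h1
      have h3 : ∀ᵐ x : Pos3, w x ^ 2 = (0 : ℝ) := by
        filter_upwards [h1, h2] with x h1 h2
        rcases lt_trichotomy (x 2) 0 with h | h | h
        · have h4 : 0 < (rz x) 2 := by
            rw [rz_apply]
            simpa using h
          have h5 := h2 h4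
          rw [hp.adm.oddw, neg_eq_zero] at h5
          rw [h5]; norm_num
        · have h4 : rz x = x := by
            ext i
            rw [rz_apply]
            split_ifs with hi
            · rw [hi, h, neg_zero]
            · rfl
          have h5 := hp.adm.oddw x
          rw [h4] at h5
          have : w x = 0 := by linarith
          rw [this]; norm_num
        · rw [h1 h]; norm_num
      have h4 := hp.adm.nw
      rw [integral_congr_ae h3] at h4
      simp at h4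
  · intro n m hnm x hx i
    have hnm' : (n : ℝ) ≤ m := by exact_mod_cast hnm
    have hxi := hx i
    by_cases hi : i = 2
    · subst hi
      rw [hb2] at hxi ⊢
      simp only [ha] at hxi ⊢
      have h1 : 1 / ((m : ℝ) + 1) ≤ 1 / ((n : ℝ) + 1) :=
        one_div_le_one_div_of_le (by positivity) (by linarith)
      refine ⟨lt_of_le_of_lt h1 hxi.1, lt_of_lt_of_le hxi.2 ?_⟩
      rcases eq_or_lt_of_le hnm with he | hlt
      · rw [he]
      · have h2 : (n : ℝ) + 1 ≤ m := by exact_mod_cast hlt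
        have h3 : 1 / ((n : ℝ) + 1) ≤ 1 := by
          rw [div_le_one (by positivity)]
          have : (0 : ℝ) ≤ n := Nat.cast_nonneg n
          linarith
        have h4 : 0 ≤ 1 / ((m : ℝ) + 1) := by positivity
        linarith
    · rw [hbi _ _ hi] at hxi ⊢
      simp only [ha] at hxi ⊢
      constructor <;> linarith [hxi.1, hxi.2]
  · intro x hx
    have hx2 : 0 < x 2 := hx
    obtain ⟨n1, hn1⟩ := exists_nat_gt ‖x‖
    obtain ⟨n2, hn2⟩ := exists_nat_one_div_lt hx2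
    refine mem_iUnion.2 ⟨max n1 n2, fun i => ?_⟩
    have h1 : ((n1 : ℕ) : ℝ) ≤ ((max n1 n2 : ℕ) : ℝ) := by exact_mod_cast le_max_left _ _
    have h2 : ((n2 : ℕ) : ℝ) ≤ ((max n1 n2 : ℕ) : ℝ) := by exact_mod_cast le_max_right _ _
    have hni := PiLp.norm_apply_le x i
    rw [Real.norm_eq_abs] at hni
    have habs := abs_le.1 hni
    by_cases hi : i = 2
    · subst hi
      rw [hb2]
      simp only [ha]
      have h3 : 1 / (((max n1 n2 : ℕ) : ℝ) + 1) ≤ 1 / ((n2 : ℝ) + 1) :=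
        one_div_le_one_div_of_le (by positivity) (by linarith)
      have h4 : 0 < 1 / (((max n1 n2 : ℕ) : ℝ) + 1) := by positivity
      refine ⟨lt_of_le_of_lt h3 hn2, ?_⟩
      linarith [habs.2]
    · rw [hbi _ _ hi]
      simp only [ha]
      constructor <;> linarith [habs.1, habs.2]
  · intro x hx
    have h1 := (hx 2).1
    rw [hb2] at h1
    have : 0 < 1 / ((n : ℝ) + 1) := by positivity
    exact lt_of_lt_of_le this h1

end Crest.Agent.R335
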