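import Crest.Agent.R335.KTest
import Crest.Agent.R335.HLip
import Crest.Agent.R335.HProd

/-!
# Row 335 (S0521): Kohn-Sham side, module KTrunc

Truncation of `H¹` functions: `F n = χ_n · clamp(f, ±(n+1) s)`, and the passage to the limit in the
spectral inequality.
-/

set_option autoImplicit false
set_option linter.unusedVariables false
set_option linter.unusedSectionVars false

open MeasureTheory Filter Set Crest.MathPhysics.ThreeBody
open scoped ENNReal Topology ContDiff

noncomputable section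
namespace Crest.Agent.R335

/-- cut-off: `1` for `‖x‖ ≤ n+1`, `0` for `‖x‖ ≥ 2(n+1)`, Lipschitz constant `1/(n+1)` -/
def kchi (n : ℕ) (x : Pos3) : ℝ := max 0 (min 1 (2 - ‖x‖ / ((n : ℝ) + 1)))

theorem kchi_nonneg (n : ℕ) (x : Pos3) : 0 ≤ kchi n x := le_max_left _ _

theorem kchi_le_one (n : ℕ) (x : Pos3) : kchi n x ≤ 1 :=
  max_le zero_le_one (min_le_left _ _)

theorem kchi_one {n : ℕ} {x : Pos3} (h : ‖x‖ ≤ (n : ℝ) + 1) : kchi n x = 1 := by
  have hn : (0 : ℝ) < (n : ℝ) + 1 := by positivity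
  have h1 : ‖x‖ / ((n : ℝ) + 1) ≤ 1 := (div_le_one hn).2 h
  unfold kchi
  rw [min_eq_left (by linarith), max_eq_right zero_le_one]

theorem kchi_zero {n : ℕ} {x : Pos3} (h : 2 * ((n : ℝ) + 1) ≤ ‖x‖) : kchi n x = 0 := by
  have hn : (0 : ℝ) < (n : ℝ) + 1 := by positivity
  have h1 : 2 ≤ ‖x‖ / ((n : ℝ) + 1) := (le_div_iff₀ hn).2 h
  unfold kchi
  refine max_eq_left ((min_le_right _ _).trans ?_)
  linarith

theorem kchi_rz (n : ℕ) (x : Pos3) : kchi n (rz x) = kchi n x := by
  unfold kchi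
  rw [LinearIsometryEquiv.norm_map]

theorem kchi_lip (n : ℕ) : LipschitzWith (Real.toNNReal (1 / ((n : ℝ) + 1))) (kchi n) := by
  have hn : (0 : ℝ) < (n : ℝ) + 1 := by positivity
  have h1 : LipschitzWith (Real.toNNReal (1 / ((n : ℝ) + 1)))
      (fun x : Pos3 => 2 - ‖x‖ / ((n : ℝ) + 1)) := by
    refine LipschitzWith.of_dist_le_mul fun x y => ?_
    rw [Real.coe_toNNReal _ (by positivity), Real.dist_eq, dist_eq_norm]
    have e : 2 - ‖x‖ / ((n : ℝ) + 1) - (2 - ‖y‖ / ((n : ℝ) + 1)) =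
        (1 / ((n : ℝ) + 1)) * (‖y‖ - ‖x‖) := by ring
    rw [e, abs_mul, abs_of_pos (by positivity : (0 : ℝ) < 1 / ((n : ℝ) + 1))]
    refine mul_le_mul_of_nonneg_left ?_ (by positivity)
    rw [abs_sub_comm]
    exact abs_norm_sub_norm_le x y
  have h2 := (h1.const_min 1).const_max 0
  exact h2

/-- truncation of `H¹` functions by multiples of `s` and by cut-offs -/
theorem sp_trunc {s : Pos3 → ℝ} {gs : Pos3 → Pos3} (hs : Amp s gs) {f : Pos3 → ℝ}
    {g : Pos3 → Pos3} (hf : H1 f g) :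
    ∃ (F : ℕ → Pos3 → ℝ) (G : ℕ → Pos3 → Pos3), (∀ n, BT (F n) (G n)) ∧
      (∀ n x, |F n x| ≤ |f x|) ∧
      (∀ n x, |F n x| ≤ ((n : ℝ) + 1) * s x) ∧
      (∀ n x, 0 ≤ F n x * f x) ∧
      (∀ (n : ℕ) x, 2 * ((n : ℝ) + 1) ≤ ‖x‖ → F n x = 0) ∧
      (∀ x, ∀ᶠ n in atTop, F n x = f x) ∧
      ((∀ x, f (rz x) = f x) → ∀ n x, F n (rz x) = F n x) ∧
      ((∀ x, f (rz x) = - f x) → ∀ n x, F n (rz x) = - F n x) ∧
      (∀ (n : ℕ) x, ‖G n x - (F n x / s x) • gs x‖ ≤
        ‖g x - (f x / s x) • gs x‖ + |f x| / ((n : ℝ) + 1)) := by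
  obtain ⟨C, hC⟩ := hs.bdd
  set c : ℕ → ℝ := fun n => (n : ℝ) + 1 with hc
  have c0 : ∀ n, 0 < c n := fun n => by simp only [hc]; positivity
  set cl : ℕ → Pos3 → ℝ := fun n x => max (min (f x) (c n * s x)) (-(c n) * s x) with hcl
  set gcl : ℕ → Pos3 → Pos3 := fun n x =>
    if -(c n) * s x < min (f x) (c n * s x) then (if f x < c n * s x then g x else c n • gs x)
      else (-(c n)) • gs x with hgcl
  have hH : ∀ n, H1 (cl n) (gcl n) := fun n =>
    (hf.min (hs.h1.const_mul (c n))).max (hs.h1.const_mul (-(c n)))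
  -- pointwise description
  have hcase : ∀ n x, (|f x| < c n * s x ∧ cl n x = f x ∧ gcl n x = g x) ∨
      (c n * s x ≤ f x ∧ cl n x = c n * s x ∧ gcl n x = c n • gs x) ∨
      (f x ≤ - (c n * s x) ∧ cl n x = - (c n * s x) ∧ gcl n x = (-(c n)) • gs x) := by
    intro n x
    have hp : 0 < c n * s x := mul_pos (c0 n) (hs.pos x)
    rcases lt_or_ge (f x) (c n * s x) with h1 | h1
    · rcases lt_or_ge (-(c n * s x)) (f x) with h2 | h2
      · left
        refine ⟨abs_lt.2 ⟨h2, h1⟩, ?_, ?_⟩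
        · simp only [hcl]
          rw [min_eq_left h1.le, max_eq_left]
          rw [neg_mul]; exact h2.le
        · simp only [hgcl]
          rw [min_eq_left h1.le, if_pos, if_pos h1]
          rw [neg_mul]; exact h2
      · right; right
        refine ⟨h2, ?_, ?_⟩
        · simp only [hcl]
          rw [min_eq_left h1.le, max_eq_right, neg_mul]
          rw [neg_mul]; exact h2
        · simp only [hgcl]
          rw [min_eq_left h1.le, if_neg]
          rw [neg_mul]; exact not_lt.2 h2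
    · right; left
      refine ⟨h1, ?_, ?_⟩
      · simp only [hcl]
        rw [min_eq_right h1, max_eq_left]
        rw [neg_mul]; linarith
      · simp only [hgcl]
        rw [min_eq_right h1, if_pos, if_neg (not_lt.2 h1)]
        rw [neg_mul]; linarith
  have hclf : ∀ n x, |cl n x| ≤ |f x| := by
    intro n x
    have hp : 0 < c n * s x := mul_pos (c0 n) (hs.pos x)
    rcases hcase n x with ⟨h1, h2, -⟩ | ⟨h1, h2, -⟩ | ⟨h1, h2, -⟩
    · rw [h2]
    · rw [h2, abs_of_pos hp]; exact h1.trans (le_abs_self _)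
    · rw [h2, abs_neg, abs_of_pos hp]
      have := neg_abs_le (f x)
      have h3 : f x < 0 := by linarith
      rw [abs_of_neg h3]; linarith
  have hcls : ∀ n x, |cl n x| ≤ c n * s x := by
    intro n x
    have hp : 0 < c n * s x := mul_pos (c0 n) (hs.pos x)
    rcases hcase n x with ⟨h1, h2, -⟩ | ⟨h1, h2, -⟩ | ⟨h1, h2, -⟩
    · rw [h2]; exact h1.le
    · rw [h2, abs_of_pos hp]
    · rw [h2, abs_neg, abs_of_pos hp]
  have hclm : ∀ n x, 0 ≤ cl n x * f x := by
    intro n x
    have hp : 0 < c n * s x := mul_pos (c0 n) (hs.pos x)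
    rcases hcase n x with ⟨h1, h2, -⟩ | ⟨h1, h2, -⟩ | ⟨h1, h2, -⟩
    · rw [h2]; exact mul_self_nonneg _
    · rw [h2]; exact mul_nonneg hp.le (hp.le.trans h1)
    · rw [h2]; exact mul_nonneg_of_nonpos_of_nonpos (by linarith) (by linarith)
  have hclg : ∀ n x, ‖gcl n x - (cl n x / s x) • gs x‖ ≤ ‖g x - (f x / s x) • gs x‖ := by
    intro n x
    have hs0 := (hs.pos x).ne'
    rcases hcase n x with ⟨h1, h2, h3⟩ | ⟨h1, h2, h3⟩ | ⟨h1, h2, h3⟩
    · rw [h2, h3]
    · rw [h2, h3, mul_div_assoc, div_self hs0, mul_one, sub_self, norm_zero]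
      exact norm_nonneg _
    · rw [h2, h3, neg_div, mul_div_assoc, div_self hs0, mul_one, sub_self, norm_zero]
      exact norm_nonneg _
  have hK : ∀ n : ℕ, ((Real.toNNReal (1 / ((n : ℝ) + 1)) : NNReal) : ℝ) = 1 / ((n : ℝ) + 1) :=
    fun n => Real.coe_toNNReal _ (by positivity)
  have hl : ∀ n x, ‖gr (kchi n) x‖ ≤ 1 / ((n : ℝ) + 1) := fun n x => by
    have := (WG.of_lipschitz (kchi_lip n)).2 x
    rwa [hK] at this
  have hBT : ∀ n, BT (fun x => kchi n x * cl n x)
      (fun x => kchi n x • gcl n x + cl n x • gr (kchi n) x) := by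
    intro n
    refine ⟨?_, ⟨c n * C, ?_⟩, ⟨2 * ((n : ℝ) + 1), ?_⟩⟩
    · refine H1.mul_bdd (hH n) (WG.of_lipschitz (kchi_lip n)).1 (C := 1) (fun x => ?_) (fun x => ?_)
      · rw [abs_of_nonneg (kchi_nonneg n x)]; exact kchi_le_one n x
      · refine (hl n x).trans ?_
        rw [div_le_one (by positivity)]
        have : (0 : ℝ) ≤ n := Nat.cast_nonneg n
        linarith
    · refine Eventually.of_forall fun x => ?_
      rw [abs_mul, abs_of_nonneg (kchi_nonneg n x)]
      calc kchi n x * |cl n x| ≤ 1 * (c n * s x) :=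
            mul_le_mul (kchi_le_one n x) (hcls n x) (abs_nonneg _) zero_le_one
        _ ≤ c n * C := by
            rw [one_mul]; exact mul_le_mul_of_nonneg_left (hC x) (c0 n).le
    · refine Eventually.of_forall fun x hx => ?_
      rw [kchi_zero hx, zero_mul]
  refine ⟨fun n x => kchi n x * cl n x,
    fun n x => kchi n x • gcl n x + cl n x • gr (kchi n) x, hBT, ?_, ?_, ?_, ?_, ?_, ?_, ?_, ?_⟩
  · intro n x
    rw [abs_mul, abs_of_nonneg (kchi_nonneg n x)]
    calc kchi n x * |cl n x| ≤ 1 * |f x| :=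
          mul_le_mul (kchi_le_one n x) (hclf n x) (abs_nonneg _) zero_le_one
      _ = |f x| := one_mul _
  · intro n x
    rw [abs_mul, abs_of_nonneg (kchi_nonneg n x)]
    calc kchi n x * |cl n x| ≤ 1 * (c n * s x) :=
          mul_le_mul (kchi_le_one n x) (hcls n x) (abs_nonneg _) zero_le_one
      _ = ((n : ℝ) + 1) * s x := one_mul _
  · intro n x
    rw [mul_assoc]
    exact mul_nonneg (kchi_nonneg n x) (hclm n x)
  · intro n x hx
    simp only
    rw [kchi_zero hx, zero_mul]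
  · intro x
    have hs0 := hs.pos x
    obtain ⟨N, hN⟩ := exists_nat_ge (max ‖x‖ (|f x| / s x))
    filter_upwards [eventually_ge_atTop N] with n hn
    have hn' : (N : ℝ) ≤ n := by exact_mod_cast hn
    have h1 : ‖x‖ ≤ (n : ℝ) + 1 := by
      have := le_max_left ‖x‖ (|f x| / s x)
      linarith
    have h2 : |f x| / s x < (n : ℝ) + 1 := by
      have := le_max_right ‖x‖ (|f x| / s x)
      linarith
    have h3 : |f x| < c n * s x := (div_lt_iff₀ hs0).1 h2
    rw [kchi_one h1, one_mul]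
    rcases hcase n x with ⟨-, h4, -⟩ | ⟨h4, -, -⟩ | ⟨h4, -, -⟩
    · exact h4
    · exact absurd h3 (not_lt.2 (h4.trans (le_abs_self _)))
    · refine absurd h3 (not_lt.2 ?_)
      have := neg_abs_le (f x)
      linarith
  · intro he n x
    simp only [hcl]
    rw [kchi_rz, he, hs.even]
  · intro ho n x
    simp only [hcl]
    rw [kchi_rz, ho, hs.even, ← mul_neg]
    congr 1
    have hp : 0 < c n * s x := mul_pos (c0 n) (hs.pos x)
    rw [neg_mul]
    rcases le_total (f x) (c n * s x) with h1 | h1 <;>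
      rcases le_total (-(c n * s x)) (f x) with h2 | h2
    · rw [min_eq_left h1, max_eq_left h2, min_eq_left (by linarith), max_eq_left (by linarith)]
    · rw [min_eq_left h1, max_eq_right h2, min_eq_right (by linarith), max_eq_left (by linarith)]
      ring
    · rw [min_eq_right h1, max_eq_left (by linarith : -(c n * s x) ≤ c n * s x),
        min_eq_left (by linarith), max_eq_right (by linarith)]
    · exact absurd hp (by linarith)
  · intro n x
    simp only
    have e : kchi n x • gcl n x + cl n x • gr (kchi n) x -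
        (kchi n x * cl n x / s x) • gs x =
        kchi n x • (gcl n x - (cl n x / s x) • gs x) + cl n x • gr (kchi n) x := by
      rw [smul_sub, smul_smul, mul_div_assoc]
      abel
    rw [e]
    refine (norm_add_le _ _).trans (add_le_add ?_ ?_)
    · rw [norm_smul, Real.norm_eq_abs, abs_of_nonneg (kchi_nonneg n x)]
      calc kchi n x * ‖gcl n x - (cl n x / s x) • gs x‖
          ≤ 1 * ‖g x - (f x / s x) • gs x‖ :=
            mul_le_mul (kchi_le_one n x) (hclg n x) (norm_nonneg _) zero_le_one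
        _ = _ := one_mul _
    · rw [norm_smul, Real.norm_eq_abs, div_eq_mul_one_div]
      exact mul_le_mul (hclf n x) (hl n x) (norm_nonneg _) (abs_nonneg _)

/-- passage to the limit in the spectral inequality -/
theorem sp_limit {s : Pos3 → ℝ} {gs : Pos3 → Pos3} (hs : Amp s gs) {f : Pos3 → ℝ}
    {g : Pos3 → Pos3} (hf : H1 f g) {d : Pos3 → ℝ} (hd : AEStronglyMeasurable d volume)
    {F : ℕ → Pos3 → ℝ} {G : ℕ → Pos3 → Pos3} (hF : ∀ n, AEStronglyMeasurable (F n) volume)
    (hlim : ∀ x, ∀ᶠ n in atTop, F n x = f x)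
    (hG : ∀ (n : ℕ) x, ‖G n x - (F n x / s x) • gs x‖ ≤
        ‖g x - (f x / s x) • gs x‖ + |f x| / ((n : ℝ) + 1))
    {cn : ℕ → ℝ} {c : ℝ} (hc : Tendsto cn atTop (𝓝 c))
    (h : ∀ n, (∫⁻ x, ENNReal.ofReal (d x * F n x ^ 2)) ≤
      (∫⁻ x, ENNReal.ofReal (‖G n x - (F n x / s x) • gs x‖ ^ 2)) + ENNReal.ofReal (cn n)) :
    (∫⁻ x, ENNReal.ofReal (d x * f x ^ 2)) ≤
      (∫⁻ x, ENNReal.ofReal (‖g x - (f x / s x) • gs x‖ ^ 2)) + ENNReal.ofReal c := by
  set A : ℝ≥0∞ := ∫⁻ x, ENNReal.ofReal (‖g x - (f x / s x) • gs x‖ ^ 2) with hA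
  rcases eq_or_ne A ⊤ with hAt | hAt
  · rw [hAt]; simp
  set N : ℝ≥0∞ := ∫⁻ x, ENNReal.ofReal (f x ^ 2) with hN
  have hNt : N ≠ ⊤ := by
    have h1 : Integrable (fun x => f x ^ 2) volume := hf.memf.integrable_sq
    exact h1.lintegral_lt_top.ne
  have hsm : AEStronglyMeasurable s volume := hs.h1.memf.aestronglyMeasurable
  have hfm := hf.memf.aestronglyMeasurable
  have hXm : AEStronglyMeasurable (fun x => g x - (f x / s x) • gs x) volume := by
    refine hf.memg.aestronglyMeasurable.sub ?_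
    exact (hfm.aemeasurable.div hsm.aemeasurable).aestronglyMeasurable.smul
      hs.h1.memg.aestronglyMeasurable
  -- upper bound of the right-hand side
  have hR : ∀ n : ℕ, (∫⁻ x, ENNReal.ofReal (‖G n x - (F n x / s x) • gs x‖ ^ 2)) ≤
      ENNReal.ofReal (1 + 1 / ((n : ℝ) + 1)) * A + ENNReal.ofReal (2 / ((n : ℝ) + 1)) * N := by
    intro n
    have hn : (0 : ℝ) < (n : ℝ) + 1 := by positivity
    have hn1 : (1 : ℝ) ≤ (n : ℝ) + 1 := by
      have : (0 : ℝ) ≤ n := Nat.cast_nonneg n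
      linarith
    have hm1 : AEMeasurable (fun x => ENNReal.ofReal (‖g x - (f x / s x) • gs x‖ ^ 2)) volume :=
      (hXm.norm.aemeasurable.pow_const 2).ennreal_ofReal
    have hm2 : AEMeasurable (fun x => ENNReal.ofReal (f x ^ 2)) volume :=
      (hfm.aemeasurable.pow_const 2).ennreal_ofReal
    rw [hA, hN, ← lintegral_const_mul'' _ hm1, ← lintegral_const_mul'' _ hm2,
      ← lintegral_add_left' (hm1.const_mul _)]
    refine lintegral_mono fun x => ?_
    rw [← ENNReal.ofReal_mul (by positivity), ← ENNReal.ofReal_mul (by positivity),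
      ← ENNReal.ofReal_add (by positivity) (by positivity)]
    refine ENNReal.ofReal_le_ofReal ?_
    set a := ‖g x - (f x / s x) • gs x‖ with ha
    have ha0 : 0 ≤ a := norm_nonneg _
    set b := |f x| with hb
    have hb0 : 0 ≤ b := abs_nonneg _
    have hb2 : f x ^ 2 = b ^ 2 := (sq_abs _).symm
    set m := (n : ℝ) + 1 with hm
    have h1 : ‖G n x - (F n x / s x) • gs x‖ ^ 2 ≤ (a + b / m) ^ 2 :=
      pow_le_pow_left₀ (norm_nonneg _) (hG n x) 2
    refine h1.trans ?_
    rw [hb2]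
    have h2 : 0 ≤ (a - b) ^ 2 / m := by positivity
    have h3 : b ^ 2 / m ^ 2 ≤ b ^ 2 / m := by
      refine div_le_div_of_nonneg_left (by positivity) (by positivity) ?_
      nlinarith
    have e1 : (a + b / m) ^ 2 = a ^ 2 + 2 * a * b / m + b ^ 2 / m ^ 2 := by
      field_simp; ring
    have e2 : (1 + 1 / m) * a ^ 2 + 2 / m * b ^ 2 =
        a ^ 2 + a ^ 2 / m + b ^ 2 / m + b ^ 2 / m := by
      field_simp; ring
    have e3 : (a - b) ^ 2 / m = a ^ 2 / m - 2 * a * b / m + b ^ 2 / m := by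
      field_simp; ring
    rw [e1, e2]
    linarith
  -- limit of the right-hand sides
  have hlimR : Tendsto (fun n : ℕ => (ENNReal.ofReal (1 + 1 / ((n : ℝ) + 1)) * A +
      ENNReal.ofReal (2 / ((n : ℝ) + 1)) * N) + ENNReal.ofReal (cn n)) atTop
      (𝓝 (A + ENNReal.ofReal c)) := by
    have t0 : Tendsto (fun n : ℕ => 1 / ((n : ℝ) + 1)) atTop (𝓝 0) :=
      tendsto_one_div_add_atTop_nhds_zero_nat
    have t1 : Tendsto (fun n : ℕ => ENNReal.ofReal (1 + 1 / ((n : ℝ) + 1))) atTop (𝓝 1) := by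
      have := ENNReal.tendsto_ofReal (t0.const_add 1)
      simpa using this
    have t2 : Tendsto (fun n : ℕ => ENNReal.ofReal (2 / ((n : ℝ) + 1))) atTop (𝓝 0) := by
      have h3 : Tendsto (fun n : ℕ => 2 / ((n : ℝ) + 1)) atTop (𝓝 0) := by
        have := t0.const_mul 2
        rw [mul_zero] at this
        refine this.congr fun n => ?_
        ring
      have := ENNReal.tendsto_ofReal h3
      simpa using this
    have t3 := ENNReal.Tendsto.mul_const (b := A) t1 (Or.inr hAt)
    have t4 := ENNReal.Tendsto.mul_const (b := N) t2 (Or.inr hNt)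
    have t5 := (t3.add t4).add (ENNReal.tendsto_ofReal hc)
    simpa using t5
  -- Fatou
  have hfatou : (∫⁻ x, ENNReal.ofReal (d x * f x ^ 2)) ≤
      liminf (fun n => ∫⁻ x, ENNReal.ofReal (d x * F n x ^ 2)) atTop := by
    have e : (fun x => ENNReal.ofReal (d x * f x ^ 2)) =
        fun x => liminf (fun n => ENNReal.ofReal (d x * F n x ^ 2)) atTop := by
      ext x
      have ht : Tendsto (fun n => ENNReal.ofReal (d x * F n x ^ 2)) atTop
          (𝓝 (ENNReal.ofReal (d x * f x ^ 2))) := by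
        refine tendsto_const_nhds.congr' ?_
        filter_upwards [hlim x] with n hn
        rw [hn]
      exact ht.liminf_eq.symm
    rw [e]
    refine lintegral_liminf_le' fun n => ?_
    exact (hd.aemeasurable.mul ((hF n).aemeasurable.pow_const 2)).ennreal_ofReal
  refine hfatou.trans ?_
  rw [← hlimR.liminf_eq]
  refine liminf_le_liminf (Eventually.of_forall fun n => ?_)
  exact (h n).trans (add_le_add_left (hR n) _)

end Crest.Agent.R335
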