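import Crest.Agent.R335.KDefs2
import Crest.Agent.R335.KTrunc
import Crest.Agent.R335.KPos

/-!
# Row 335 (S0521): Kohn-Sham side, module KSPEven

The even sector of the spectral inequality of the pair, from the Poincaré inequality (G).
-/

set_option autoImplicit false
set_option linter.unusedVariables false
set_option linter.unusedSectionVars false

open MeasureTheory Filter Set Crest.MathPhysics.ThreeBody
open scoped ENNReal Topology ContDiff

noncomputable section
namespace Crest.Agent.R335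

theorem ke_low {s : Pos3 → ℝ} {gs : Pos3 → Pos3} (hs : Amp s gs) (R : ℝ) :
    ∃ c : ℝ, 0 < c ∧ ∀ x, ‖x‖ ≤ R → c ≤ s x := by
  rcases lt_or_ge R 0 with hR | hR
  · exact ⟨1, one_pos, fun x hx => absurd (norm_nonneg x) (by linarith)⟩
  · obtain ⟨x0, -, hmin⟩ := (isCompact_closedBall (0 : Pos3) R).exists_isMinOn
      ⟨0, by simpa using hR⟩ hs.cont.continuousOn
    exact ⟨s x0, hs.pos x0, fun x hx => hmin (by simpa using hx)⟩

theorem ke_U_le {s U w : Pos3 → ℝ} {gs gU gw : Pos3 → Pos3} (hs : Amp s gs)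
    (hp : PairAdm s U gU w gw) (x : Pos3) : |U x| ≤ s x := by
  have h := hp.sq x
  refine abs_le_of_sq_le_sq ?_ (hs.pos x).le
  nlinarith [sq_nonneg (w x)]

theorem ke_w_le {s U w : Pos3 → ℝ} {gs gU gw : Pos3 → Pos3} (hs : Amp s gs)
    (hp : PairAdm s U gU w gw) (x : Pos3) : |w x| ≤ s x := by
  have h := hp.sq x
  refine abs_le_of_sq_le_sq ?_ (hs.pos x).le
  nlinarith [sq_nonneg (U x)]

/-- the quotient `F / s` -/
theorem ke_div {s : Pos3 → ℝ} {gs : Pos3 → Pos3} (hs : Amp s gs) {F : Pos3 → ℝ}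
    {G : Pos3 → Pos3} (hF : BT F G) :
    BT (fun x => F x / s x) (fun x => (1 / s x) • G x - (F x / s x ^ 2) • gs x) := by
  obtain ⟨R, hR⟩ := hF.cpt
  obtain ⟨c, hc, hlow⟩ := ke_low hs R
  obtain ⟨C, hC⟩ := hs.bdd
  refine hF.div hs.h1 ⟨C, Eventually.of_forall fun x => ?_⟩ hc ?_
  · rw [abs_of_pos (hs.pos x)]; exact hC x
  · filter_upwards [hR] with x hx hFx
    rw [abs_of_pos (hs.pos x)]
    refine hlow x (not_lt.1 fun h => hFx (hx h.le))

theorem ke_aesm_J {s U w : Pos3 → ℝ} {gU gw : Pos3 → Pos3}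
    (hp : PairAdm s U gU w gw) : AEStronglyMeasurable (J U gU w gw) volume := by
  unfold J
  exact (hp.hw.memf.aestronglyMeasurable.smul hp.hU.memg.aestronglyMeasurable).sub
    (hp.hU.memf.aestronglyMeasurable.smul hp.hw.memg.aestronglyMeasurable)

theorem ke_aesm_d {s U w : Pos3 → ℝ} {gs gU gw : Pos3 → Pos3} (hs : Amp s gs)
    (hp : PairAdm s U gU w gw) :
    AEStronglyMeasurable (fun x => ‖J U gU w gw x‖ ^ 2 / s x ^ 4) volume := by
  have h1 := (ke_aesm_J hp).norm.aemeasurable.pow_const 2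
  exact (h1.div (hs.cont.measurable.pow_const 4).aemeasurable).aestronglyMeasurable

/-- integrability of `|∇η|² F²` -/
theorem ke_int4 {s U w : Pos3 → ℝ} {gs gU gw : Pos3 → Pos3} (hs : Amp s gs)
    (hp : PairAdm s U gU w gw) {F : Pos3 → ℝ} {G : Pos3 → Pos3} (hF : BT F G) :
    Integrable (fun x => ‖J U gU w gw x‖ ^ 2 / s x ^ 4 * F x ^ 2) volume := by
  obtain ⟨C, hC0, hC⟩ := (ke_div hs hF).bound
  have h1 : Integrable (fun x => C ^ 2 * (‖gU x‖ ^ 2 + ‖gw x‖ ^ 2)) volume := by
    have i1 := hp.hU.memg.integrable_norm_pow (p := 2) (by norm_num)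
    have i2 := hp.hw.memg.integrable_norm_pow (p := 2) (by norm_num)
    exact (i1.add i2).const_mul (C ^ 2)
  refine h1.mono' ((ke_aesm_d hs hp).mul (hF.h1.memf.aestronglyMeasurable.pow 2)) ?_
  filter_upwards [hC, pair_grad hs hp] with x hx hpg
  have hs0 := hs.pos x
  have e : ‖J U gU w gw x‖ ^ 2 / s x ^ 4 * F x ^ 2 =
      (F x / s x) ^ 2 * (‖J U gU w gw x‖ ^ 2 / s x ^ 2) := by
    field_simp
  rw [Real.norm_of_nonneg (by positivity), e]
  have h2 : (F x / s x) ^ 2 ≤ C ^ 2 := by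
    rw [← sq_abs]; exact pow_le_pow_left₀ (abs_nonneg _) hx 2
  have h3 : ‖J U gU w gw x‖ ^ 2 / s x ^ 2 ≤ ‖gU x‖ ^ 2 + ‖gw x‖ ^ 2 := by
    rw [hpg.2]
    have := sq_nonneg ‖gs x‖
    linarith
  exact mul_le_mul h2 h3 (by positivity) (by positivity)

theorem ke_intF {F : Pos3 → ℝ} {G : Pos3 → Pos3} (hF : H1 F G) {m : Pos3 → ℝ}
    (hm : AEStronglyMeasurable m volume) (h1 : ∀ x, |m x| ≤ 1) :
    Integrable (fun x => m x * F x ^ 2) volume := by
  refine hF.memf.integrable_sq.mono' (hm.mul (hF.memf.aestronglyMeasurable.pow 2)) ?_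
  refine Eventually.of_forall fun x => ?_
  rw [norm_mul, Real.norm_eq_abs, Real.norm_of_nonneg (sq_nonneg _)]
  calc |m x| * F x ^ 2 ≤ 1 * F x ^ 2 := mul_le_mul_of_nonneg_right (h1 x) (sq_nonneg _)
    _ = F x ^ 2 := one_mul _

theorem ke_intX {s : Pos3 → ℝ} {gs : Pos3 → Pos3} (hs : Amp s gs) {F : Pos3 → ℝ}
    {G : Pos3 → Pos3} (hF : BT F G) :
    Integrable (fun x => ‖G x - (F x / s x) • gs x‖ ^ 2) volume := by
  obtain ⟨C, hC⟩ := hs.bdd
  have h1 : MemLp (fun x => G x - (F x / s x) • gs x) 2 volume := by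
    refine (ke_div hs hF).h1.memg.of_le_mul (c := C) ?_ (Eventually.of_forall fun x => ?_)
    · refine hF.h1.memg.aestronglyMeasurable.sub ?_
      exact (ke_div hs hF).h1.memf.aestronglyMeasurable.smul hs.h1.memg.aestronglyMeasurable
    · have hs0 := hs.pos x
      have e : G x - (F x / s x) • gs x =
          s x • ((1 / s x) • G x - (F x / s x ^ 2) • gs x) := by
        rw [smul_sub, smul_smul, smul_smul]
        congr 1
        · rw [mul_one_div_cancel hs0.ne', one_smul]
        · congr 1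
          field_simp
      rw [e, norm_smul, Real.norm_of_nonneg hs0.le]
      exact mul_le_mul_of_nonneg_right (hC x) (norm_nonneg _)
  exact h1.integrable_norm_pow (p := 2) (by norm_num)

/-- pointwise identity of the ground state representation -/
theorem ke_pointwise {s U w τ F P : ℝ} {G gs gU gw : Pos3} (hs : 0 < s) (hP : 0 < P)
    (hPe : P = U + τ * s) (hsq : U ^ 2 + w ^ 2 = s ^ 2) (hgs : s • gs = U • gU + w • gw) :
    ‖G - (F / s) • gs‖ ^ 2 =
      P ^ 2 * ‖(1 / P) • G - (F / P ^ 2) • (gU + τ • gs)‖ ^ 2 +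
        (w / s) * inner ℝ (w • gU - U • gw)
          ((F / s) • ((1 / P) • G - (F / P ^ 2) • (gU + τ • gs)) +
            (F / P) • ((1 / s) • G - (F / s ^ 2) • gs)) := by
  set V : Pos3 := G - (F / P) • (gU + τ • gs) with hV
  set X : Pos3 := G - (F / s) • gs with hX
  have e1 : (1 / P) • G - (F / P ^ 2) • (gU + τ • gs) = (1 / P) • V := by
    rw [hV, smul_sub, smul_smul]
    congr 2
    field_simp
  have e2 : (1 / s) • G - (F / s ^ 2) • gs = (1 / s) • X := by
    rw [hX, smul_sub, smul_smul]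
    congr 2
    field_simp
  have e3 : X - V = (F * w / (P * s ^ 2)) • (w • gU - U • gw) := by
    have hgs' : gs = (1 / s) • (U • gU + w • gw) := by
      rw [← hgs, smul_smul, one_div_mul_cancel hs.ne', one_smul]
    have h1 : X - V = (F / P) • gU + (F * τ / P - F / s) • gs := by
      rw [hX, hV]
      module
    have h2 : F * τ / P - F / s = - (F * U / (P * s)) := by
      field_simp
      rw [hPe]; ring
    rw [h1, h2, hgs']
    have h3 : F / P = F * (U ^ 2 + w ^ 2) / (P * s ^ 2) := by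
      rw [hsq]; field_simp
    rw [h3]
    match_scalars
    · field_simp; ring
    · field_simp
  have e4 : ‖X‖ ^ 2 = ‖V‖ ^ 2 + inner ℝ (X - V) (X + V) := by
    rw [inner_sub_left, inner_add_right, inner_add_right, real_inner_self_eq_norm_sq,
      real_inner_self_eq_norm_sq, real_inner_comm X V]
    ring
  rw [e1, e2, e4, e3, norm_smul, Real.norm_of_nonneg (by positivity : (0 : ℝ) ≤ 1 / P)]
  have e5 : (F / s) • (1 / P) • V + (F / P) • (1 / s) • X = (F / (s * P)) • (X + V) := by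
    rw [smul_smul, smul_smul, smul_add, add_comm]
    congr 2 <;> field_simp
  rw [e5, real_inner_smul_left, real_inner_smul_right]
  have e6 : P ^ 2 * (1 / P * ‖V‖) ^ 2 = ‖V‖ ^ 2 := by field_simp
  rw [e6]
  congr 1
  have e7 : w / s * (F / (s * P) * inner ℝ (w • gU - U • gw) (X + V)) =
      F * w / (P * s ^ 2) * inner ℝ (w • gU - U • gw) (X + V) := by
    field_simp
  rw [e7]

/-- one step: the inequality with the regularised ground state `U + τ s` -/
theorem ke_step {s U w : Pos3 → ℝ} {gs gU gw : Pos3 → Pos3} {om : ℝ} (hs : Amp s gs)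
    (hp : Pair s U gU w gw om) (hG : PoinG U om) {F : Pos3 → ℝ} {G : Pos3 → Pos3}
    (hF : BT F G) (he : ∀ x, F (rz x) = F x) {τ : ℝ} (hτ : 0 < τ) :
    2 * om * ((∫ x, (U x / (U x + τ * s x)) ^ 2 * F x ^ 2) -
        (1 / 2) * (∫ x, U x / (U x + τ * s x) * (U x * F x)) ^ 2) +
      ((∫ x, U x / (U x + τ * s x) * (‖J U gU w gw x‖ ^ 2 / s x ^ 4 * F x ^ 2)) -
        2 * om * ∫ x, U x / (U x + τ * s x) * (w x ^ 2 / s x ^ 2 * F x ^ 2)) ≤
      ∫ x, ‖G x - (F x / s x) • gs x‖ ^ 2 := by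
  obtain ⟨R, hR⟩ := hF.cpt
  obtain ⟨c, hc, hlow⟩ := ke_low hs R
  obtain ⟨C, hC⟩ := hs.bdd
  have hUs := ke_U_le hs hp.adm
  have hws := ke_w_le hs hp.adm
  have hU0 := hp.U0
  have hs0 := hs.pos
  have hPpos : ∀ x, 0 < U x + τ * s x := fun x =>
    add_pos_of_nonneg_of_pos (hU0 x) (mul_pos hτ (hs0 x))
  have hP : H1 (fun x => U x + τ * s x) (fun x => gU x + τ • gs x) :=
    hp.adm.hU.add (hs.h1.const_mul τ)
  have hPb : ∀ x, |U x + τ * s x| ≤ (1 + τ) * C := by
    intro x
    rw [abs_of_pos (hPpos x)]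
    have h1 := (le_abs_self _).trans (hUs x)
    have h2 := hC x
    nlinarith
  have hlowP : ∀ᵐ x, F x ≠ 0 → τ * c ≤ |U x + τ * s x| := by
    filter_upwards [hR] with x hx hFx
    have h1 : c ≤ s x := hlow x (not_lt.1 fun h => hFx (hx h.le))
    rw [abs_of_pos (hPpos x)]
    have h2 := hU0 x
    nlinarith
  have hg := hF.div hP ⟨_, Eventually.of_forall hPb⟩ (mul_pos hτ hc) hlowP
  have hh := ke_div hs hF
  have hφ := hh.mul hg.h1 hg.bdd
  have hsin := sin_eq hs hp hφ
  have hpoin := hG _ _ hg (fun x => by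
    rw [he, hp.adm.evenU, hs.even])
  -- the integrability facts
  have hX := ke_intX hs hF
  have hPD : Integrable (fun x => (U x + τ * s x) ^ 2 * ‖(1 / (U x + τ * s x)) • G x -
      (F x / (U x + τ * s x) ^ 2) • (gU x + τ • gs x)‖ ^ 2) volume := by
    have h1 := hg.h1.memg.integrable_norm_pow (p := 2) (by norm_num)
    refine (h1.const_mul (((1 + τ) * C) ^ 2)).mono' ?_ (Eventually.of_forall fun x => ?_)
    · exact (hP.memf.aestronglyMeasurable.pow 2).mul (hg.h1.memg.aestronglyMeasurable.norm.pow 2)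
    · rw [Real.norm_of_nonneg (by positivity)]
      refine mul_le_mul_of_nonneg_right ?_ (by positivity)
      rw [← sq_abs]
      exact pow_le_pow_left₀ (abs_nonneg _) (hPb x) 2
  have hpt : ∀ᵐ x, ‖G x - (F x / s x) • gs x‖ ^ 2 =
      (U x + τ * s x) ^ 2 * ‖(1 / (U x + τ * s x)) • G x -
        (F x / (U x + τ * s x) ^ 2) • (gU x + τ • gs x)‖ ^ 2 +
      (w x / s x) * inner ℝ (J U gU w gw x)
          ((F x / s x) • ((1 / (U x + τ * s x)) • G x -
            (F x / (U x + τ * s x) ^ 2) • (gU x + τ • gs x)) +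
            (F x / (U x + τ * s x)) • ((1 / s x) • G x - (F x / s x ^ 2) • gs x)) := by
    filter_upwards [pair_grad hs hp.adm] with x hx
    exact ke_pointwise (hs0 x) (hPpos x) rfl (hp.adm.sq x) hx.1
  have hI : Integrable (fun x => (w x / s x) * inner ℝ (J U gU w gw x)
          ((F x / s x) • ((1 / (U x + τ * s x)) • G x -
            (F x / (U x + τ * s x) ^ 2) • (gU x + τ • gs x)) +
            (F x / (U x + τ * s x)) • ((1 / s x) • G x - (F x / s x ^ 2) • gs x))) volume := by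
    refine (hX.sub hPD).congr ?_
    filter_upwards [hpt] with x hx
    rw [Pi.sub_apply, hx]
    ring
  have hsum : ∫ x, ‖G x - (F x / s x) • gs x‖ ^ 2 =
      (∫ x, (U x + τ * s x) ^ 2 * ‖(1 / (U x + τ * s x)) • G x -
        (F x / (U x + τ * s x) ^ 2) • (gU x + τ • gs x)‖ ^ 2) +
      ∫ x, (w x / s x) * inner ℝ (J U gU w gw x)
          ((F x / s x) • ((1 / (U x + τ * s x)) • G x -
            (F x / (U x + τ * s x) ^ 2) • (gU x + τ • gs x)) +
            (F x / (U x + τ * s x)) • ((1 / s x) • G x - (F x / s x ^ 2) • gs x)) := by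
    rw [← integral_add hPD hI]
    exact integral_congr_ae hpt
  -- ratio
  have hr0 : ∀ x, 0 ≤ U x / (U x + τ * s x) := fun x => div_nonneg (hU0 x) (hPpos x).le
  have hr1 : ∀ x, U x / (U x + τ * s x) ≤ 1 := fun x => by
    rw [div_le_one (hPpos x)]
    have := mul_pos hτ (hs0 x)
    linarith
  have hUm := hp.adm.hU.memf.aestronglyMeasurable
  have hwm := hp.adm.hw.memf.aestronglyMeasurable
  have hsm := hs.h1.memf.aestronglyMeasurable
  have hrm : AEStronglyMeasurable (fun x => U x / (U x + τ * s x)) volume :=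
    (hUm.aemeasurable.div hP.memf.aestronglyMeasurable.aemeasurable).aestronglyMeasurable
  have hi4 : Integrable (fun x => U x / (U x + τ * s x) *
      (‖J U gU w gw x‖ ^ 2 / s x ^ 4 * F x ^ 2)) volume := by
    refine (ke_int4 hs hp.adm hF).mono' (hrm.mul (ke_int4 hs hp.adm hF).aestronglyMeasurable)
      (Eventually.of_forall fun x => ?_)
    have h1 : 0 ≤ ‖J U gU w gw x‖ ^ 2 / s x ^ 4 * F x ^ 2 := by positivity
    rw [Real.norm_of_nonneg (mul_nonneg (hr0 x) h1)]
    exact mul_le_of_le_one_left h1 (hr1 x)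
  have hm3 : AEStronglyMeasurable (fun x => w x ^ 2 / s x ^ 2) volume :=
    ((hwm.aemeasurable.pow_const 2).div (hsm.aemeasurable.pow_const 2)).aestronglyMeasurable
  have hi3' : Integrable (fun x => w x ^ 2 / s x ^ 2 * F x ^ 2) volume := by
    refine ke_intF hF.h1 hm3 fun x => ?_
    rw [abs_of_nonneg (by positivity), div_le_one (pow_pos (hs0 x) 2), ← sq_abs (w x)]
    exact pow_le_pow_left₀ (abs_nonneg _) (hws x) 2
  have hi3 : Integrable (fun x => U x / (U x + τ * s x) *
      (w x ^ 2 / s x ^ 2 * F x ^ 2)) volume := by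
    refine hi3'.mono' (hrm.mul hi3'.aestronglyMeasurable) (Eventually.of_forall fun x => ?_)
    have h1 : 0 ≤ w x ^ 2 / s x ^ 2 * F x ^ 2 := by positivity
    rw [Real.norm_of_nonneg (mul_nonneg (hr0 x) h1)]
    exact mul_le_of_le_one_left h1 (hr1 x)
  have hrhs : ∫ x, (2 * om * U x * w x ^ 2 / s x - U x / s x ^ 3 * ‖J U gU w gw x‖ ^ 2) *
      (F x / s x * (F x / (U x + τ * s x))) =
      2 * om * (∫ x, U x / (U x + τ * s x) * (w x ^ 2 / s x ^ 2 * F x ^ 2)) -
      ∫ x, U x / (U x + τ * s x) * (‖J U gU w gw x‖ ^ 2 / s x ^ 4 * F x ^ 2) := by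
    rw [← integral_const_mul, ← integral_sub (hi3.const_mul _) hi4]
    congr 1
    ext x
    have h1 := (hs0 x).ne'
    have h2 := (hPpos x).ne'
    field_simp
  rw [hrhs] at hsin
  -- Poincare side
  have hp1 : ∫ x, U x ^ 2 * (F x / (U x + τ * s x)) ^ 2 =
      ∫ x, (U x / (U x + τ * s x)) ^ 2 * F x ^ 2 := by
    congr 1; ext x; ring
  have hp2 : ∫ x, U x ^ 2 * (F x / (U x + τ * s x)) =
      ∫ x, U x / (U x + τ * s x) * (U x * F x) := by
    congr 1; ext x; ring
  have hp3 : ∫ x, U x ^ 2 * ‖(1 / (U x + τ * s x)) • G x -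
      (F x / (U x + τ * s x) ^ 2) • (gU x + τ • gs x)‖ ^ 2 ≤
      ∫ x, (U x + τ * s x) ^ 2 * ‖(1 / (U x + τ * s x)) • G x -
        (F x / (U x + τ * s x) ^ 2) • (gU x + τ • gs x)‖ ^ 2 := by
    refine integral_mono_of_nonneg (Eventually.of_forall fun x => by positivity) hPD
      (Eventually.of_forall fun x => ?_)
    refine mul_le_mul_of_nonneg_right ?_ (by positivity)
    have h1 := mul_pos hτ (hs0 x)
    exact pow_le_pow_left₀ (hU0 x) (by linarith) 2
  rw [hp1, hp2] at hpoin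
  rw [hsum, hsin]
  linarith

/-- dominated convergence for ratios tending to `1` -/
theorem ke_ratio_lim {m : Pos3 → ℝ} (hm : Integrable m volume) {r : ℕ → Pos3 → ℝ}
    (hr : ∀ n, AEStronglyMeasurable (r n) volume) (hr1 : ∀ n x, |r n x| ≤ 1)
    (hlim : ∀ᵐ x, Tendsto (fun n => r n x) atTop (𝓝 1)) :
    Tendsto (fun n => ∫ x, r n x * m x) atTop (𝓝 (∫ x, m x)) := by
  refine tendsto_integral_of_dominated_convergence (fun x => |m x|)
    (fun n => (hr n).mul hm.aestronglyMeasurable) hm.abs (fun n => ?_) ?_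
  · refine Eventually.of_forall fun x => ?_
    rw [norm_mul, Real.norm_eq_abs, Real.norm_eq_abs]
    exact mul_le_of_le_one_left (abs_nonneg _) (hr1 n x)
  · filter_upwards [hlim] with x hx
    simpa using hx.mul_const (m x)

/-- the even sector for bounded compactly supported functions -/
theorem ke_bt {s U w : Pos3 → ℝ} {gs gU gw : Pos3 → Pos3} {om : ℝ} (hs : Amp s gs)
    (hp : Pair s U gU w gw om) (hG : PoinG U om) {F : Pos3 → ℝ} {G : Pos3 → Pos3}
    (hF : BT F G) (he : ∀ x, F (rz x) = F x) :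
    (∫ x, ‖J U gU w gw x‖ ^ 2 / s x ^ 4 * F x ^ 2) +
        2 * om * (∫ x, U x ^ 2 / s x ^ 2 * F x ^ 2) ≤
      (∫ x, ‖G x - (F x / s x) • gs x‖ ^ 2) + 2 * om * ((1 / 2) * (∫ x, U x * F x) ^ 2) := by
  have hUs := ke_U_le hs hp.adm
  have hws := ke_w_le hs hp.adm
  have hU0 := hp.U0
  have hs0 := hs.pos
  have hUm := hp.adm.hU.memf.aestronglyMeasurable
  have hwm := hp.adm.hw.memf.aestronglyMeasurable
  have hsm := hs.h1.memf.aestronglyMeasurable
  set r : ℕ → Pos3 → ℝ := fun n x => U x / (U x + (1 / ((n : ℝ) + 1)) * s x) with hr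
  have hτ : ∀ n : ℕ, (0 : ℝ) < 1 / ((n : ℝ) + 1) := fun n => by positivity
  have hPpos : ∀ (n : ℕ) x, 0 < U x + (1 / ((n : ℝ) + 1)) * s x := fun n x =>
    add_pos_of_nonneg_of_pos (hU0 x) (mul_pos (hτ n) (hs0 x))
  have hrm : ∀ n, AEStronglyMeasurable (r n) volume := fun n =>
    (hUm.aemeasurable.div (hUm.aemeasurable.add
      (hsm.aemeasurable.const_mul _))).aestronglyMeasurable
  have hr0 : ∀ n x, 0 ≤ r n x := fun n x => div_nonneg (hU0 x) (hPpos n x).le
  have hr1 : ∀ n x, r n x ≤ 1 := fun n x => by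
    simp only [hr]
    rw [div_le_one (hPpos n x)]
    have := mul_pos (hτ n) (hs0 x)
    linarith
  have hra : ∀ n x, |r n x| ≤ 1 := fun n x => by
    rw [abs_of_nonneg (hr0 n x)]; exact hr1 n x
  have hlim : ∀ᵐ x, Tendsto (fun n => r n x) atTop (𝓝 1) := by
    filter_upwards [U_pos hs hp] with x hx
    have t0 : Tendsto (fun n : ℕ => 1 / ((n : ℝ) + 1)) atTop (𝓝 0) :=
      tendsto_one_div_add_atTop_nhds_zero_nat
    have t1 : Tendsto (fun n : ℕ => U x + (1 / ((n : ℝ) + 1)) * s x) atTop (𝓝 (U x)) := by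
      simpa using (t0.mul_const (s x)).const_add (U x)
    have t2 := (tendsto_const_nhds (x := U x) (f := (atTop : Filter ℕ))).div t1 hx.ne'
    rwa [div_self hx.ne'] at t2
  have hm3 : AEStronglyMeasurable (fun x => w x ^ 2 / s x ^ 2) volume :=
    ((hwm.aemeasurable.pow_const 2).div (hsm.aemeasurable.pow_const 2)).aestronglyMeasurable
  have hi3 : Integrable (fun x => w x ^ 2 / s x ^ 2 * F x ^ 2) volume := by
    refine ke_intF hF.h1 hm3 fun x => ?_
    rw [abs_of_nonneg (by positivity), div_le_one (pow_pos (hs0 x) 2), ← sq_abs (w x)]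
    exact pow_le_pow_left₀ (abs_nonneg _) (hws x) 2
  have hi4 := ke_int4 hs hp.adm hF
  have hi1 : Integrable (fun x => F x ^ 2) volume := hF.h1.memf.integrable_sq
  have hi2 : Integrable (fun x => U x * F x) volume := hp.adm.hU.memf.integrable_mul hF.h1.memf
  have t1 : Tendsto (fun n => ∫ x, r n x ^ 2 * F x ^ 2) atTop (𝓝 (∫ x, F x ^ 2)) := by
    refine ke_ratio_lim hi1 (r := fun n x => r n x ^ 2) (fun n => (hrm n).pow 2) ?_ ?_
    · intro n x
      rw [abs_of_nonneg (sq_nonneg _)]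
      exact pow_le_one₀ (hr0 n x) (hr1 n x)
    · filter_upwards [hlim] with x hx
      simpa using hx.pow 2
  have t2 := ke_ratio_lim hi2 hrm hra hlim
  have t3 := ke_ratio_lim hi3 hrm hra hlim
  have t4 := ke_ratio_lim hi4 hrm hra hlim
  have t5 := ((t1.sub ((t2.pow 2).const_mul (1 / 2))).const_mul (2 * om)).add
    (t4.sub (t3.const_mul (2 * om)))
  have hle := le_of_tendsto t5 (Eventually.of_forall fun n =>
    ke_step hs hp hG hF he (hτ n))
  have e3 : ∫ x, w x ^ 2 / s x ^ 2 * F x ^ 2 =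
      (∫ x, F x ^ 2) - ∫ x, U x ^ 2 / s x ^ 2 * F x ^ 2 := by
    have hi5 : Integrable (fun x => U x ^ 2 / s x ^ 2 * F x ^ 2) volume := by
      refine (hi1.sub hi3).congr (Eventually.of_forall fun x => ?_)
      have h1 := (hs0 x).ne'
      have h2 := hp.adm.sq x
      simp only [Pi.sub_apply]
      have h3 : U x ^ 2 = s x ^ 2 - w x ^ 2 := by linarith
      rw [h3]
      field_simp
    rw [← integral_sub hi1 hi5]
    congr 1
    ext x
    have h1 := (hs0 x).ne'
    have h2 := hp.adm.sq x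
    have h3 : w x ^ 2 = s x ^ 2 - U x ^ 2 := by linarith
    rw [h3]
    field_simp
  rw [e3] at hle
  linarith

/-- even sector of the spectral inequality from the Poincaré inequality (G) -/
theorem sp_even {s U w : Pos3 → ℝ} {gs gU gw : Pos3 → Pos3} {om : ℝ} (hs : Amp s gs)
    (hp : Pair s U gU w gw om) (hG : PoinG U om) {f : Pos3 → ℝ} {g : Pos3 → Pos3} (hf : H1 f g)
    (heven : ∀ x, f (rz x) = f x) : SPIneq s gs U gU w gw om f g := by
  have hUs := ke_U_le hs hp.adm
  have hs0 := hs.pos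
  have hom := hp.om_pos
  have hUm := hp.adm.hU.memf.aestronglyMeasurable
  have hsm := hs.h1.memf.aestronglyMeasurable
  obtain ⟨F, G, hBT, hFf, hFs, hFm, hF0, hlim, hev, -, hGG⟩ := sp_trunc hs hf
  have hmU : AEStronglyMeasurable (fun x => U x ^ 2 / s x ^ 2) volume :=
    ((hUm.aemeasurable.pow_const 2).div (hsm.aemeasurable.pow_const 2)).aestronglyMeasurable
  have hmU1 : ∀ x, |U x ^ 2 / s x ^ 2| ≤ 1 := fun x => by
    rw [abs_of_nonneg (by positivity), div_le_one (pow_pos (hs0 x) 2), ← sq_abs (U x)]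
    exact pow_le_pow_left₀ (abs_nonneg _) (hUs x) 2
  have hd := ke_aesm_d hs hp.adm
  -- rewriting of the left-hand side
  have hL : ∀ {h : Pos3 → ℝ} {k : Pos3 → Pos3}, H1 h k →
      (∫⁻ x, ENNReal.ofReal (‖J U gU w gw x‖ ^ 2 / s x ^ 4 * h x ^ 2)) +
        ENNReal.ofReal (2 * om * ∫ x, U x ^ 2 / s x ^ 2 * h x ^ 2) =
      ∫⁻ x, ENNReal.ofReal ((‖J U gU w gw x‖ ^ 2 / s x ^ 4 + 2 * om * (U x ^ 2 / s x ^ 2)) *
        h x ^ 2) := by
    intro h k hh
    have hi := (ke_intF hh hmU hmU1).const_mul (2 * om)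
    have hm : AEMeasurable (fun x => ENNReal.ofReal (‖J U gU w gw x‖ ^ 2 / s x ^ 4 * h x ^ 2))
        volume := (hd.aemeasurable.mul
        (hh.memf.aestronglyMeasurable.aemeasurable.pow_const 2)).ennreal_ofReal
    rw [← integral_const_mul, ofReal_integral_eq_lintegral_ofReal hi
      (Eventually.of_forall fun x => by positivity), ← lintegral_add_left' hm]
    congr 1
    ext x
    rw [← ENNReal.ofReal_add (by positivity) (by positivity)]
    congr 1
    ring
  -- convergence of the rank-one terms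
  have hc : Tendsto (fun n => 2 * om * ((1 / 2) * (∫ x, U x * F n x) ^ 2)) atTop
      (𝓝 (2 * om * ((1 / 2) * (∫ x, U x * f x) ^ 2))) := by
    have t1 : Tendsto (fun n => ∫ x, U x * F n x) atTop (𝓝 (∫ x, U x * f x)) := by
      refine tendsto_integral_of_dominated_convergence (fun x => |U x * f x|)
        (fun n => hUm.mul (hBT n).h1.memf.aestronglyMeasurable)
        (hp.adm.hU.memf.integrable_mul hf.memf).abs (fun n => ?_) ?_
      · refine Eventually.of_forall fun x => ?_
        rw [norm_mul, Real.norm_eq_abs, Real.norm_eq_abs, abs_mul]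
        exact mul_le_mul_of_nonneg_left (hFf n x) (abs_nonneg _)
      · refine Eventually.of_forall fun x => ?_
        refine tendsto_const_nhds.congr' ?_
        filter_upwards [hlim x] with n hn
        rw [hn]
    exact ((t1.pow 2).const_mul (1 / 2)).const_mul (2 * om)
  unfold SPIneq
  rw [hL hf]
  have hdm : AEStronglyMeasurable (fun x => ‖J U gU w gw x‖ ^ 2 / s x ^ 4 +
      2 * om * (U x ^ 2 / s x ^ 2)) volume := hd.add (hmU.const_mul (2 * om))
  refine sp_limit hs hf hdm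
    (fun n => (hBT n).h1.memf.aestronglyMeasurable) hlim hGG hc fun n => ?_
  rw [← hL (hBT n).h1]
  have hb := ke_bt hs hp hG (hBT n) (hev heven n)
  have hi4 := ke_int4 hs hp.adm (hBT n)
  have hX := ke_intX hs (hBT n)
  rw [← ofReal_integral_eq_lintegral_ofReal hi4 (Eventually.of_forall fun x => by positivity),
    ← ofReal_integral_eq_lintegral_ofReal hX (Eventually.of_forall fun x => by positivity),
    ← ENNReal.ofReal_add (integral_nonneg fun x => by positivity)
      (mul_nonneg (by positivity) (integral_nonneg fun x => by positivity)),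
    ← ENNReal.ofReal_add (integral_nonneg fun x => by positivity) (by positivity)]
  exact ENNReal.ofReal_le_ofReal hb

end Crest.Agent.R335
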