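import Crest.Agent.R335.KDefs2
import Crest.Agent.R335.KSPEven
import Crest.Agent.R335.KSPAll
import Crest.Agent.R335.KHK
import Crest.Agent.R335.KMain

/-!
Row 335 (S0521), Kohn-Sham side: the final theorem `not_rep`.
-/

set_option autoImplicit false

open MeasureTheory Filter Set Crest.MathPhysics.ThreeBody
open scoped ENNReal Topology ContDiff

noncomputable section
namespace Crest.Agent.R335

theorem not_rep {s U w : Pos3 → ℝ} {gs gU gw : Pos3 → Pos3} {om κ : ℝ} (hs : Amp s gs)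
    (hp : Pair s U gU w gw om)
    (heven : ∀ f g, H1 f g → (∀ x, f (rz x) = f x) → SPIneq s gs U gU w gw om f g)
    (hκ : 0 < κ) (hkato : KatoInf s gs κ) (hlow : PlaneLow s κ) (hsm : SmallU s U)
    {Ψ : Wave3}
    (hΨ : ∀ A : Set Pos3, MeasurableSet A →
      densityOn Ψ A = ∫⁻ x in A, ENNReal.ofReal (s x ^ 2)) :
    ¬ HasEnsembleRep Ψ := by
  intro hrep
  obtain ⟨v, e, hv, hU, hw⟩ :=
    HK hs hp (fun f g hf => sp_all hs hp heven hf) hΨ hrep
  exact K_contra hs hp hκ hkato hlow hsm hv hU hw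

/-- the final statement with the outputs (G), (U) of part C -/
theorem not_rep' {s U w : Pos3 → ℝ} {gs gU gw : Pos3 → Pos3} {om κ : ℝ} (hs : Amp s gs)
    (hp : Pair s U gU w gw om) (hG : PoinG U om)
    (hκ : 0 < κ) (hkato : KatoInf s gs κ) (hlow : PlaneLow s κ) (hsm : SmallU s U)
    {Ψ : Wave3}
    (hΨ : ∀ A : Set Pos3, MeasurableSet A →
      densityOn Ψ A = ∫⁻ x in A, ENNReal.ofReal (s x ^ 2)) :
    ¬ HasEnsembleRep Ψ :=
  not_rep hs hp (fun _ _ hf he => sp_even hs hp hG hf he) hκ hkato hlow hsm hΨ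

end Crest.Agent.R335
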