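import Crest.Agent.R335.KOff
import Crest.Agent.R335.HPre

/-!
# Row 335 (S0521): Kohn-Sham side, module KForm : the form inequality near infinity
-/

set_option autoImplicit false
set_option linter.unusedVariables false
set_option linter.unusedSectionVars false

open MeasureTheory Filter Set Crest.MathPhysics.ThreeBody
open scoped ENNReal Topology ContDiff

noncomputable section
namespace Crest.Agent.R335

/-! ### a cutoff in the vertical variable -/

def zc (h z : ℝ) : ℝ := Real.smoothTransition ((z ^ 2 - h ^ 2) / (3 * h ^ 2))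

theorem zc_contDiff (h : ℝ) : ContDiff ℝ ∞ (zc h) := by
  unfold zc
  exact Real.smoothTransition.contDiff.comp (by fun_prop)

theorem zc_nonneg (h z : ℝ) : 0 ≤ zc h z := Real.smoothTransition.nonneg _
theorem zc_le_one (h z : ℝ) : zc h z ≤ 1 := Real.smoothTransition.le_one _

theorem zc_zero {h z : ℝ} (hh : 0 < h) (hz : |z| ≤ h) : zc h z = 0 := by
  refine Real.smoothTransition.zero_of_nonpos ?_
  refine div_nonpos_of_nonpos_of_nonneg ?_ (by positivity)
  rw [← sq_abs z]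
  nlinarith [abs_nonneg z]

theorem zc_one {h z : ℝ} (hh : 0 < h) (hz : 2 * h ≤ |z|) : zc h z = 1 := by
  refine Real.smoothTransition.one_of_one_le ?_
  rw [le_div_iff₀ (by positivity), ← sq_abs z]
  nlinarith [abs_nonneg z]

theorem zc_deriv_bdd {h : ℝ} (hh : 0 < h) : ∃ K : ℝ, 0 ≤ K ∧ ∀ z, |deriv (zc h) z| ≤ K := by
  have hc : Continuous (deriv (zc h)) := (zc_contDiff h).continuous_deriv (by simp)
  obtain ⟨K, hK⟩ := (isCompact_Icc (a := -(2 * h)) (b := 2 * h)).exists_bound_of_continuousOn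
    hc.continuousOn
  refine ⟨max K 0, le_max_right _ _, fun z => ?_⟩
  by_cases hz : |z| ≤ 2 * h
  · exact (hK z (abs_le.1 hz)).trans (le_max_left _ _)
  · have : zc h =ᶠ[𝓝 z] fun _ => 1 := by
      have hmem : {z : ℝ | 2 * h < |z|} ∈ 𝓝 z :=
        (isOpen_lt continuous_const continuous_abs).mem_nhds (not_le.1 hz)
      filter_upwards [hmem] with y hy
      exact zc_one hh (le_of_lt hy)
    rw [this.deriv_eq]
    simp

theorem gr_zc (h : ℝ) (x : Pos3) :
    gr (fun x : Pos3 => zc h (x 2)) x = deriv (zc h) (x 2) • EuclideanSpace.single 2 (1 : ℝ) := by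
  have h1 : HasFDerivAt (fun x : Pos3 => zc h (x 2))
      (deriv (zc h) (x 2) • (EuclideanSpace.proj 2 : Pos3 →L[ℝ] ℝ)) x := by
    have hd : HasDerivAt (zc h) (deriv (zc h) (x 2)) (x 2) :=
      ((zc_contDiff h).differentiable (by simp) _).hasDerivAt
    exact HasDerivAt.comp_hasFDerivAt (h₂ := zc h) (f := fun x : Pos3 => x 2) x hd
      (EuclideanSpace.proj 2 : Pos3 →L[ℝ] ℝ).hasFDerivAt
  ext i
  rw [gr_apply]
  unfold pd
  rw [h1.fderiv]
  simp [eq_comm]

theorem zc_smooth (h : ℝ) : ContDiff ℝ ∞ (fun x : Pos3 => zc h (x 2)) :=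
  (zc_contDiff h).comp (EuclideanSpace.proj 2 : Pos3 →L[ℝ] ℝ).contDiff

/-! ### the potential class -/

theorem class_int {v : Pos3 → ℝ} (hv : IsSumClassPotential v) (c : ℝ) {f : Pos3 → ℝ}
    {g : Pos3 → Pos3} (h : H1 f g) : Integrable (fun x => (v x - c) * f x ^ 2) ∧
      Integrable (fun x => (|v x| + |c|) * f x ^ 2) := by
  obtain ⟨C, hC0, hC⟩ := class_bound hv one_pos
  obtain ⟨h1, -⟩ := hC f g h
  have hvm : AEStronglyMeasurable v volume := (class_locInt hv).aestronglyMeasurable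
  have h2 : Integrable (fun x => (|v x| + |c|) * f x ^ 2) := by
    have := h1.add (h.memf.integrable_sq.const_mul |c|)
    refine this.congr (Eventually.of_forall fun x => ?_)
    simp only [Pi.add_apply]; ring
  refine ⟨h2.mono' ?_ (Eventually.of_forall fun x => ?_), h2⟩
  · exact (hvm.sub aestronglyMeasurable_const).mul (h.memf.1.pow 2)
  · rw [Real.norm_eq_abs, abs_mul, abs_of_nonneg (sq_nonneg (f x))]
    exact mul_le_mul_of_nonneg_right (abs_sub _ _) (sq_nonneg _)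

theorem tendsto_integral_sq_of_eLpNorm {α F : Type*} [MeasurableSpace α] {μ : Measure α}
    [NormedAddCommGroup F] [InnerProductSpace ℝ F] {a : ℕ → α → F} (ha : ∀ n, MemLp (a n) 2 μ)
    (h : Tendsto (fun n => eLpNorm (a n) 2 μ) atTop (𝓝 0)) :
    Tendsto (fun n => ∫ x, ‖a n x‖ ^ 2 ∂μ) atTop (𝓝 0) := by
  have h1 : Tendsto (fun n => (eLpNorm (a n) 2 μ).toReal) atTop (𝓝 0) := by
    have := (ENNReal.tendsto_toReal ENNReal.zero_ne_top).comp h
    simpa [Function.comp_def] using this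
  have h2 := h1.pow 2
  rw [zero_pow two_ne_zero] at h2
  refine h2.congr fun n => ?_
  rw [g2_integral_norm_sq_eq (ha n)]

/-- convergence of the square integrals -/
theorem tendsto_integral_sq_L2 {α F : Type*} [MeasurableSpace α] {μ : Measure α}
    [NormedAddCommGroup F] [InnerProductSpace ℝ F] {a : ℕ → α → F} {b : α → F}
    (ha : ∀ n, MemLp (a n) 2 μ) (hb : MemLp b 2 μ)
    (h : Tendsto (fun n => eLpNorm (fun x => a n x - b x) 2 μ) atTop (𝓝 0)) :
    Tendsto (fun n => ∫ x, ‖a n x‖ ^ 2 ∂μ) atTop (𝓝 (∫ x, ‖b x‖ ^ 2 ∂μ)) := by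
  have h1 : Tendsto (fun n => (ha n).toLp (a n)) atTop (𝓝 (hb.toLp b)) := by
    rw [tendsto_iff_edist_tendsto_0]
    refine h.congr fun n => ?_
    rw [Lp.edist_toLp_toLp]
    rfl
  have h2 := (h1.norm).pow 2
  rw [norm_toLp_sq hb] at h2
  refine h2.congr fun n => ?_
  rw [norm_toLp_sq (ha n)]

/-- continuity of the potential energy on `H¹` -/
theorem class_tendsto {v : Pos3 → ℝ} (hv : IsSumClassPotential v) (c : ℝ) {fn : ℕ → Pos3 → ℝ}
    {gn : ℕ → Pos3 → Pos3} {f : Pos3 → ℝ} {g : Pos3 → Pos3} (hn : ∀ n, H1 (fn n) (gn n))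
    (h : H1 f g) (t1 : Tendsto (fun n => eLpNorm (fun x => fn n x - f x) 2 volume) atTop (𝓝 0))
    (t2 : Tendsto (fun n => eLpNorm (fun x => gn n x - g x) 2 volume) atTop (𝓝 0)) :
    Tendsto (fun n => ∫ x, (v x - c) * fn n x ^ 2) atTop (𝓝 (∫ x, (v x - c) * f x ^ 2)) := by
  obtain ⟨C, hC0, hC⟩ := class_bound hv one_pos
  set M : ℝ := ∫ x, (|v x| + |c|) * f x ^ 2 with hM
  have hM0 : 0 ≤ M := integral_nonneg fun x => by positivity
  -- the weighted distance tends to zero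
  set D : ℕ → ℝ := fun n => ∫ x, (|v x| + |c|) * (fn n x - f x) ^ 2 with hD
  have hsub : ∀ n, H1 (fun x => fn n x - f x) (fun x => gn n x - g x) := fun n =>
    H1.sub (hn n) h
  have hD0 : ∀ n, 0 ≤ D n := fun n => integral_nonneg fun x => by positivity
  have s1 := tendsto_integral_sq_of_eLpNorm (fun n => (hsub n).memf) t1
  have s2 := tendsto_integral_sq_of_eLpNorm (fun n => (hsub n).memg) t2
  have hDt : Tendsto D atTop (𝓝 0) := by
    have hle : ∀ n, D n ≤ (∫ x, ‖gn n x - g x‖ ^ 2) + (C + |c|) * ∫ x, ‖fn n x - f x‖ ^ 2 := by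
      intro n
      obtain ⟨h1, h2⟩ := hC _ _ (hsub n)
      have e1 : D n = (∫ x, |v x| * (fn n x - f x) ^ 2) + |c| * ∫ x, (fn n x - f x) ^ 2 := by
        show ∫ x, (|v x| + |c|) * (fn n x - f x) ^ 2 = _
        rw [← integral_const_mul, ← integral_add h1 ((hsub n).memf.integrable_sq.const_mul _)]
        congr 1; ext x; ring
      have e2 : ∫ x, ‖fn n x - f x‖ ^ 2 = ∫ x, (fn n x - f x) ^ 2 := by
        congr 1; ext x; rw [Real.norm_eq_abs, sq_abs]
      rw [e1, e2]
      linarith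
    have hlim : Tendsto (fun n => (∫ x, ‖gn n x - g x‖ ^ 2) + (C + |c|) * ∫ x, ‖fn n x - f x‖ ^ 2)
        atTop (𝓝 0) := by
      have := s2.add (s1.const_mul (C + |c|))
      simpa using this
    exact squeeze_zero hD0 hle hlim
  rw [Metric.tendsto_atTop]
  intro ε hε
  -- choose δ
  set δ : ℝ := ε / (2 * (M + 1)) with hδ
  have hδ0 : 0 < δ := by positivity
  have hδM : δ * M < ε / 2 + 0 := by
    rw [add_zero, hδ, div_mul_eq_mul_div, div_lt_iff₀ (by positivity)]
    nlinarith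
  have hev : ∀ᶠ n in atTop, (1 + 1 / δ) * D n < ε / 2 := by
    have h3 : Tendsto (fun n => (1 + 1 / δ) * D n) atTop (𝓝 0) := by
      simpa using hDt.const_mul (1 + 1 / δ)
    exact h3.eventually (gt_mem_nhds (by positivity))
  obtain ⟨N, hN⟩ := eventually_atTop.1 hev
  refine ⟨N, fun n hnN => ?_⟩
  obtain ⟨i1, -⟩ := class_int hv c (hn n)
  obtain ⟨i2, i2'⟩ := class_int hv c h
  obtain ⟨-, i3⟩ := class_int hv c (hsub n)
  rw [Real.dist_eq, ← integral_sub i1 i2]
  have i4 : Integrable (fun x => δ * ((|v x| + |c|) * f x ^ 2) +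
      (1 + 1 / δ) * ((|v x| + |c|) * (fn n x - f x) ^ 2)) :=
    (i2'.const_mul _).add (i3.const_mul _)
  have h5 : |∫ x, ((v x - c) * fn n x ^ 2 - (v x - c) * f x ^ 2)| ≤
      ∫ x, (δ * ((|v x| + |c|) * f x ^ 2) +
        (1 + 1 / δ) * ((|v x| + |c|) * (fn n x - f x) ^ 2)) := by
    rw [← Real.norm_eq_abs]
    refine norm_integral_le_of_norm_le i4 (Eventually.of_forall fun x => ?_)
    rw [Real.norm_eq_abs, ← mul_sub, abs_mul]
    have h6 : |v x - c| ≤ |v x| + |c| := abs_sub _ _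
    have h7 : |fn n x ^ 2 - f x ^ 2| ≤ δ * f x ^ 2 + (1 + 1 / δ) * (fn n x - f x) ^ 2 := by
      set a := fn n x
      set b := f x
      have h8 : 2 * |b * (a - b)| ≤ δ * b ^ 2 + 1 / δ * (a - b) ^ 2 := by
        have h9 : 0 ≤ (δ * |b| - |a - b|) ^ 2 / δ := by positivity
        have h10 : (δ * |b| - |a - b|) ^ 2 / δ = δ * |b| ^ 2 - 2 * (|b| * |a - b|) +
            1 / δ * |a - b| ^ 2 := by
          field_simp
          ring
        rw [h10, sq_abs, sq_abs, ← abs_mul] at h9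
        linarith
      have h11 := abs_le.1 (le_refl |b * (a - b)|)
      rw [abs_le]
      constructor
      · nlinarith [sq_nonneg (a - b), h11.1]
      · nlinarith [sq_nonneg (a - b), h11.2]
    calc |v x - c| * |fn n x ^ 2 - f x ^ 2| ≤ (|v x| + |c|) * (δ * f x ^ 2 +
          (1 + 1 / δ) * (fn n x - f x) ^ 2) := mul_le_mul h6 h7 (abs_nonneg _) (by positivity)
      _ = _ := by ring
  rw [integral_add (i2'.const_mul _) (i3.const_mul _), integral_const_mul,
    integral_const_mul] at h5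
  have h12 := hN n hnN
  have h13 : (1 + 1 / δ) * D n = (1 + 1 / δ) * ∫ x, (|v x| + |c|) * (fn n x - f x) ^ 2 := rfl
  linarith

/-! ### the form inequality -/

theorem form_arith {κ ε h K e' G F FS VS P Gp Vp Vf ε' : ℝ} (hG : 0 ≤ G) (hF : 0 ≤ F)
    (hP : 0 ≤ P) (he0 : 0 ≤ e') (hε' : 0 < ε')
    (hh : 4 * h * (κ ^ 2 + 2 * e') ≤ ε / 4) (hε2 : ε' * (2 + 2 * K ^ 2) ≤ ε / 4)
    (hPF : P ≤ F) (hP2 : F - FS ≤ P) (hFS : FS ≤ 4 * h * (G + F)) (hVS : VS ≤ ε / 16 * (G + F))
    (hGp : Gp ≤ 2 * G + 2 * K ^ 2 * F)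
    (hoff : (κ ^ 2 - ε') * P - ε' * Gp ≤ 2 * Vp) (hVf : Vp - (VS + e' * FS) ≤ Vf) :
    (κ ^ 2 - ε) * F - ε * G ≤ 2 * Vf := by
  have hk : 0 ≤ κ ^ 2 := sq_nonneg κ
  have hK2 : 0 ≤ K ^ 2 := sq_nonneg K
  have h1 : κ ^ 2 * (F - FS) ≤ κ ^ 2 * P := mul_le_mul_of_nonneg_left hP2 hk
  have h2 : κ ^ 2 * FS + 2 * (e' * FS) ≤ ε / 4 * (G + F) := by
    have h3 : (κ ^ 2 + 2 * e') * FS ≤ (κ ^ 2 + 2 * e') * (4 * h * (G + F)) :=
      mul_le_mul_of_nonneg_left hFS (by positivity)
    have h4 : 4 * h * (κ ^ 2 + 2 * e') * (G + F) ≤ ε / 4 * (G + F) :=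
      mul_le_mul_of_nonneg_right hh (by positivity)
    have e1 : (κ ^ 2 + 2 * e') * (4 * h * (G + F)) = 4 * h * (κ ^ 2 + 2 * e') * (G + F) := by ring
    have e2 : (κ ^ 2 + 2 * e') * FS = κ ^ 2 * FS + 2 * (e' * FS) := by ring
    linarith
  have h5 : ε' * P ≤ ε' * F := mul_le_mul_of_nonneg_left hPF hε'.le
  have h6 : ε' * Gp ≤ ε' * (2 * G + 2 * K ^ 2 * F) := mul_le_mul_of_nonneg_left hGp hε'.le
  have h7 : ε' * F + ε' * (2 * G + 2 * K ^ 2 * F) ≤ ε' * (2 + 2 * K ^ 2) * (G + F) := by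
    have : 0 ≤ ε' * F := by positivity
    have : 0 ≤ ε' * K ^ 2 * G := by positivity
    nlinarith
  have h8 : ε' * (2 + 2 * K ^ 2) * (G + F) ≤ ε / 4 * (G + F) :=
    mul_le_mul_of_nonneg_right hε2 (by positivity)
  have hε : 0 ≤ ε * (G + F) := by
    have : 0 ≤ ε / 4 := le_trans (by positivity) hε2
    have : 0 ≤ ε := by linarith
    positivity
  nlinarith

/-- test functions -/
theorem form_test {v s U w : Pos3 → ℝ} {gs gU gw : Pos3 → Pos3} {om e κ : ℝ} (hs : Amp s gs)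
    (hp : Pair s U gU w gw om) (hv : IsSumClassPotential v) (hw : WeakEq v e w gw)
    (hkato : KatoInf s gs κ) (hsm : SmallU s U) {ε : ℝ} (hε : 0 < ε) :
    ∃ R : ℝ, ∀ f, Test univ f → (∀ x : Pos3, ‖x‖ ≤ R → f x = 0) →
      (κ ^ 2 - ε) * (∫ x, f x ^ 2) - ε * (∫ x, ‖gr f x‖ ^ 2) ≤
        2 * ∫ x, (v x - e) * f x ^ 2 := by
  obtain ⟨d, hd, hslab⟩ := class_slab hv (ε := ε / 16) (by positivity)
  obtain ⟨h, hh, hhd, hhe⟩ : ∃ h : ℝ, 0 < h ∧ 2 * h ≤ d ∧ 4 * h * (κ ^ 2 + 2 * |e|) ≤ ε / 4 := by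
    refine ⟨min (d / 2) (ε / (16 * (κ ^ 2 + 2 * |e| + 1))), lt_min (by positivity)
      (by positivity), ?_, ?_⟩
    · have := min_le_left (d / 2) (ε / (16 * (κ ^ 2 + 2 * |e| + 1)))
      linarith
    · have h1 := min_le_right (d / 2) (ε / (16 * (κ ^ 2 + 2 * |e| + 1)))
      set m := min (d / 2) (ε / (16 * (κ ^ 2 + 2 * |e| + 1)))
      have hm0 : 0 < m := lt_min (by positivity) (by positivity)
      rw [le_div_iff₀ (by positivity)] at h1
      nlinarith
  obtain ⟨K, hK0, hK⟩ := zc_deriv_bdd hh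
  set ε' : ℝ := ε / (8 * (1 + K ^ 2)) with hε'
  have hε'0 : 0 < ε' := by positivity
  have hε2 : ε' * (2 + 2 * K ^ 2) ≤ ε / 4 := by
    rw [hε']
    apply le_of_eq
    field_simp
    ring
  obtain ⟨R, hR⟩ := off_bound hs hp hv hw hkato hsm hh hε'0
  refine ⟨R, fun f hf hfR => ?_⟩
  set p : Pos3 → ℝ := fun x => zc h (x 2) * f x with hpdef
  have hpt : Test univ p := hf.mul_left (zc_smooth h)
  have hoff := hR p hpt (fun x hx => by simp only [hpdef]; rw [zc_zero hh hx, zero_mul])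
    (fun x hx => by simp only [hpdef]; rw [hfR x hx, mul_zero])
  have Hf := (BT.of_test hf).h1
  have Hp := (BT.of_test hpt).h1
  obtain ⟨iV1, iV2⟩ := class_int hv e Hf
  obtain ⟨iP1, iP2⟩ := class_int hv e Hp
  set S : Set Pos3 := {x : Pos3 | |x 2| ≤ 2 * h} with hS
  have hSm : MeasurableSet S := by
    refine measurableSet_le ?_ measurable_const
    exact (EuclideanSpace.proj 2 : Pos3 →L[ℝ] ℝ).continuous.measurable.abs
  have hone : ∀ x, x ∉ S → zc h (x 2) = 1 := fun x hx => zc_one hh (le_of_lt (not_le.1 hx))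
  have hp2 : ∀ x, p x ^ 2 = zc h (x 2) ^ 2 * f x ^ 2 := fun x => by
    simp only [hpdef]; ring
  have hz2 : ∀ x : Pos3, zc h (x 2) ^ 2 ≤ 1 := fun x => by
    have h1 := zc_nonneg h (x 2)
    have h2 := zc_le_one h (x 2)
    nlinarith
  refine form_arith (h := h) (K := K) (e' := |e|) (FS := ∫ x in S, f x ^ 2)
    (VS := ∫ x in S, |v x| * f x ^ 2) (P := ∫ x, p x ^ 2) (Gp := ∫ x, ‖gr p x‖ ^ 2)
    (Vp := ∫ x, (v x - e) * p x ^ 2) (integral_nonneg fun x => by positivity)
    (integral_nonneg fun x => by positivity) (integral_nonneg fun x => by positivity)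
    (abs_nonneg e) hε'0 hhe hε2 ?_ ?_ ?_ ?_ ?_ hoff ?_
  · -- P ≤ F
    refine integral_mono Hp.memf.integrable_sq Hf.memf.integrable_sq fun x => ?_
    show p x ^ 2 ≤ f x ^ 2
    rw [hp2]
    nlinarith [hz2 x, sq_nonneg (f x)]
  · -- F - FS ≤ P
    rw [← integral_indicator hSm, ← integral_sub Hf.memf.integrable_sq
      (Hf.memf.integrable_sq.indicator hSm)]
    refine integral_mono (Hf.memf.integrable_sq.sub (Hf.memf.integrable_sq.indicator hSm))
      Hp.memf.integrable_sq fun x => ?_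
    show f x ^ 2 - S.indicator (fun x => f x ^ 2) x ≤ p x ^ 2
    by_cases hx : x ∈ S
    · rw [indicator_of_mem hx]; nlinarith [sq_nonneg (p x)]
    · rw [indicator_of_notMem hx, hp2, hone x hx]; linarith
  · -- slab
    have := slab_bound Hf (d := 2 * h) (by positivity)
    have e1 : 2 * (2 * h) * ((∫ x, ‖gr f x‖ ^ 2) + ∫ x, f x ^ 2) =
      4 * h * ((∫ x, ‖gr f x‖ ^ 2) + ∫ x, f x ^ 2) := by ring
    rw [e1] at this
    exact this
  · -- potential slab
    have h1 := hslab f (gr f) Hf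
    refine le_trans ?_ h1
    have hvi : Integrable (fun x => |v x| * f x ^ 2) := by
      obtain ⟨C, hC0, hC⟩ := class_bound hv one_pos
      exact (hC f _ Hf).1
    refine setIntegral_mono_set hvi.integrableOn
      (Eventually.of_forall fun x => by positivity) ?_
    exact Eventually.of_forall fun x hx => le_trans hx hhd
  · -- gradient
    have i5 : Integrable (fun x => ‖gr f x‖ ^ 2) := Hf.memg.integrable_norm_pow (by norm_num)
    have i6 : Integrable (fun x => ‖gr p x‖ ^ 2) := Hp.memg.integrable_norm_pow (by norm_num)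
    have i7 := Hf.memf.integrable_sq
    rw [← integral_const_mul, ← integral_const_mul, ← integral_add (i5.const_mul _) (i7.const_mul _)]
    refine integral_mono i6 ((i5.const_mul _).add (i7.const_mul _)) fun x => ?_
    show ‖gr p x‖ ^ 2 ≤ 2 * ‖gr f x‖ ^ 2 + 2 * K ^ 2 * f x ^ 2
    have e1 : gr p x = zc h (x 2) • gr f x + f x • gr (fun x : Pos3 => zc h (x 2)) x :=
      gr_mul ((zc_smooth h).differentiable (by simp) x) (hf.smooth.differentiable (by simp) x)
    rw [e1]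
    have n1 : ‖zc h (x 2) • gr f x‖ ≤ ‖gr f x‖ := by
      rw [norm_smul, Real.norm_eq_abs, abs_of_nonneg (zc_nonneg _ _)]
      nlinarith [zc_le_one h (x 2), norm_nonneg (gr f x)]
    have n2 : ‖f x • gr (fun x : Pos3 => zc h (x 2)) x‖ ≤ K * |f x| := by
      rw [gr_zc, norm_smul, norm_smul, PiLp.norm_single, norm_one, mul_one,
        Real.norm_eq_abs, Real.norm_eq_abs, mul_comm]
      exact mul_le_mul_of_nonneg_right (hK _) (abs_nonneg _)
    have n3 := norm_add_le (zc h (x 2) • gr f x) (f x • gr (fun x : Pos3 => zc h (x 2)) x)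
    have n4 : ‖zc h (x 2) • gr f x + f x • gr (fun x : Pos3 => zc h (x 2)) x‖ ≤
        ‖gr f x‖ + K * |f x| := n3.trans (add_le_add n1 n2)
    have n5 := pow_le_pow_left₀ (norm_nonneg _) n4 2
    refine n5.trans ?_
    rw [← sq_abs (f x)]
    nlinarith [sq_nonneg (‖gr f x‖ - K * |f x|)]
  · -- the potential
    have hvi : Integrable (fun x => |v x| * f x ^ 2) := by
      obtain ⟨C, hC0, hC⟩ := class_bound hv one_pos
      exact (hC f _ Hf).1
    have i8 : Integrable (S.indicator fun x => |v x| * f x ^ 2) := hvi.indicator hSm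
    have i9 : Integrable (S.indicator fun x => f x ^ 2) := Hf.memf.integrable_sq.indicator hSm
    have i10 : Integrable (fun x => S.indicator (fun x => |v x| * f x ^ 2) x +
      |e| * S.indicator (fun x => f x ^ 2) x) := i8.add (i9.const_mul _)
    rw [← integral_indicator hSm, ← integral_indicator hSm, ← integral_const_mul,
      ← integral_add i8 (i9.const_mul _), ← integral_sub iP1 i10]
    refine integral_mono (iP1.sub i10) iV1 fun x => ?_
    show (v x - e) * p x ^ 2 - (S.indicator (fun x => |v x| * f x ^ 2) x +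
      |e| * S.indicator (fun x => f x ^ 2) x) ≤ (v x - e) * f x ^ 2
    by_cases hx : x ∈ S
    · rw [indicator_of_mem hx, indicator_of_mem hx, hp2]
      have h1 : |v x - e| ≤ |v x| + |e| := abs_sub _ _
      have h2 := neg_abs_le (v x - e)
      have h3 : 0 ≤ (1 - zc h (x 2) ^ 2) * f x ^ 2 :=
        mul_nonneg (by linarith [hz2 x]) (sq_nonneg _)
      have h4 : (1 - zc h (x 2) ^ 2) * f x ^ 2 ≤ f x ^ 2 := by
        nlinarith [sq_nonneg (zc h (x 2)), sq_nonneg (f x)]
      have h5 : -((|v x| + |e|) * f x ^ 2) ≤ (v x - e) * ((1 - zc h (x 2) ^ 2) * f x ^ 2) := by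
        have h6 : -((|v x| + |e|) * ((1 - zc h (x 2) ^ 2) * f x ^ 2)) ≤
            (v x - e) * ((1 - zc h (x 2) ^ 2) * f x ^ 2) := by
          rw [← neg_mul]
          exact mul_le_mul_of_nonneg_right (by linarith) h3
        have h7 : (|v x| + |e|) * ((1 - zc h (x 2) ^ 2) * f x ^ 2) ≤ (|v x| + |e|) * f x ^ 2 :=
          mul_le_mul_of_nonneg_left h4 (by positivity)
        linarith
      nlinarith
    · rw [indicator_of_notMem hx, indicator_of_notMem hx, hp2, hone x hx]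
      linarith

theorem form_infty {v s U w : Pos3 → ℝ} {gs gU gw : Pos3 → Pos3} {om e κ : ℝ} (hs : Amp s gs)
    (hp : Pair s U gU w gw om) (hv : IsSumClassPotential v) (hw : WeakEq v e w gw)
    (hkato : KatoInf s gs κ) (hsm : SmallU s U) {ε : ℝ} (hε : 0 < ε) :
    ∃ R : ℝ, ∀ f g, BT f g → (∀ᵐ x : Pos3, ‖x‖ ≤ R → f x = 0) →
      (κ ^ 2 - ε) * (∫ x, f x ^ 2) - ε * (∫ x, ‖g x‖ ^ 2) ≤
        2 * ∫ x, (v x - e) * f x ^ 2 := by
  obtain ⟨R, hR⟩ := form_test hs hp hv hw hkato hsm hε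
  refine ⟨R + 1, fun f g hf hfR => ?_⟩
  obtain ⟨R2, hR2⟩ := hf.cpt
  set f' : Pos3 → ℝ := fun x => if R + 1 ≤ ‖x‖ ∧ ‖x‖ ≤ R2 then f x else 0 with hf'
  have e1 : f' =ᵐ[volume] f := by
    filter_upwards [hfR, hR2] with x h1 h2
    simp only [hf']
    split_ifs with hx
    · rfl
    · rw [not_and_or] at hx
      rcases hx with hx | hx
      · exact (h1 (not_le.1 hx).le).symm
      · exact (h2 (not_le.1 hx).le).symm
  have hH : H1 f' g := H1.congr hf.h1 e1.symm (ae_eq_refl _)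
  set K : Set Pos3 := {x | R + 1 ≤ ‖x‖ ∧ ‖x‖ ≤ R2} with hK
  have hKc : IsCompact K := by
    refine (isCompact_closedBall (0 : Pos3) R2).of_isClosed_subset ?_ ?_
    · exact (isClosed_le continuous_const continuous_norm).inter
        (isClosed_le continuous_norm continuous_const)
    · intro x hx
      simpa using hx.2
  have hUo : IsOpen {x : Pos3 | R < ‖x‖} := isOpen_lt continuous_const continuous_norm
  obtain ⟨φn, K', hK', hKU, hT, hS, h2, h3, -⟩ := H1.approx_of_supp hUo hH hKc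
    (fun x hx => by
      have := hx.1
      show R < ‖x‖
      linarith) (fun x hx => by
      exact if_neg hx)
  have hTu : ∀ n, Test univ (φn n) := fun n => (hT n).mono (subset_univ _)
  have hHn : ∀ n, H1 (φn n) (gr (φn n)) := fun n => H1.of_test (hTu n)
  have hin : ∀ n, (κ ^ 2 - ε) * (∫ x, φn n x ^ 2) - ε * (∫ x, ‖gr (φn n) x‖ ^ 2) ≤
        2 * ∫ x, (v x - e) * φn n x ^ 2 := by
    intro n
    refine hR _ (hTu n) fun x hx => ?_
    by_contra h0
    have := hKU (by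
      by_contra hc
      exact h0 (hS n x hc) : x ∈ K')
    have : R < ‖x‖ := this
    linarith
  have t1 := tendsto_integral_sq_L2 (fun n => (hHn n).memf) hH.memf h2
  have t2 := tendsto_integral_sq_L2 (fun n => (hHn n).memg) hH.memg h3
  have t3 := class_tendsto hv e hHn hH h2 h3
  simp only [Real.norm_eq_abs, sq_abs] at t1
  have h4 := le_of_tendsto_of_tendsto' ((t1.const_mul (κ ^ 2 - ε)).sub (t2.const_mul ε))
    (t3.const_mul 2) hin
  have e2 : ∫ x, f' x ^ 2 = ∫ x, f x ^ 2 := integral_congr_ae (by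
    filter_upwards [e1] with x hx
    rw [hx])
  have e3 : ∫ x, (v x - e) * f' x ^ 2 = ∫ x, (v x - e) * f x ^ 2 := integral_congr_ae (by
    filter_upwards [e1] with x hx
    rw [hx])
  rw [e2, e3] at h4
  exact h4

end Crest.Agent.R335
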