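import Crest.Agent.R335.KGround
import Crest.Agent.R335.HSlice
import Crest.Agent.R335.HIface2
import Crest.Agent.R335.BSys

/-!
Row 335 (S0521): from the scaled three-body problem of part B to the frozen statement: symmetry and
scaling of the potential, density, ground state property (helper50).
-/

set_option autoImplicit false

open MeasureTheory Filter Set Crest.MathPhysics.ThreeBody
open scoped ENNReal Topology ContDiff

noncomputable section
namespace Crest.Agent.R335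

namespace KL

/-! ### symmetry -/

theorem V9_eq (D lam : ℝ) (x : Config3) : V9 D lam x = (∑ i, V2 D (elPos i x)) +
    lam / 2 * ∑ i, ∑ j, 1 / ‖elPos i x - elPos j x‖ := by
  unfold V9
  simp only [Fin.sum_univ_three, sub_self, norm_zero, div_zero]
  rw [norm_sub_rev (elPos 1 x) (elPos 0 x), norm_sub_rev (elPos 2 x) (elPos 0 x),
    norm_sub_rev (elPos 2 x) (elPos 1 x)]
  ring

theorem V9_perm (D lam : ℝ) (σ : Equiv.Perm (Fin 3)) (x : Config3) :
    V9 D lam (permConfig σ x) = V9 D lam x := by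
  rw [V9_eq, V9_eq]
  simp only [elPos_permConfig]
  rw [Equiv.sum_comp σ (fun i => V2 D (elPos i x))]
  congr 2
  rw [← Equiv.sum_comp σ (fun i => ∑ j, 1 / ‖elPos i x - elPos j x‖)]
  refine Finset.sum_congr rfl fun i _ => ?_
  exact Equiv.sum_comp σ (fun j => 1 / ‖elPos (σ i) x - elPos j x‖)

/-! ### scaling -/

theorem elPos_smul (c : ℝ) (i : Fin 3) (x : Config3) : elPos i (c • x) = c • elPos i x := by
  ext k; simp [elPos]

theorem coulomb_eq (Z : ℕ) (R₁ R₂ : Pos3) (x : Config3) : coulombPotential Z R₁ R₂ x =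
    (∑ i, (-(Z : ℝ) / ‖elPos i x - R₁‖ - (Z : ℝ) / ‖elPos i x - R₂‖)) +
      (1 / ‖elPos 0 x - elPos 1 x‖ + 1 / ‖elPos 0 x - elPos 2 x‖ +
      1 / ‖elPos 1 x - elPos 2 x‖) := by
  unfold coulombPotential
  congr 1
  simp only [Fin.sum_univ_three]
  simp

theorem coulomb_scale {Z : ℕ} (hZ : 1 ≤ Z) (D : ℝ) (x : Config3) :
    coulombPotential Z (EuclideanSpace.single 2 (D / Z)) (EuclideanSpace.single 2 (-(D / Z))) x =
      (Z : ℝ) ^ 2 * V9 D (1 / Z) ((Z : ℝ) • x) := by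
  have hZ0 : (0 : ℝ) < Z := by exact_mod_cast hZ
  have h1 : ∀ (y : Pos3) (d : ℝ), ‖(Z : ℝ) • y - nuc d‖ =
      Z * ‖y - EuclideanSpace.single 2 (d / Z)‖ := by
    intro y d
    have : (Z : ℝ) • y - nuc d = (Z : ℝ) • (y - EuclideanSpace.single 2 (d / Z)) := by
      rw [smul_sub]
      congr 1
      unfold nuc
      ext k
      by_cases hk : k = 2
      · subst hk; simp; field_simp
      · simp [hk]
    rw [this, norm_smul, Real.norm_eq_abs, abs_of_pos hZ0]
  have h2 : ∀ i j, ‖(Z : ℝ) • elPos i x - (Z : ℝ) • elPos j x‖ = Z * ‖elPos i x - elPos j x‖ := by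
    intro i j
    rw [← smul_sub, norm_smul, Real.norm_eq_abs, abs_of_pos hZ0]
  have h3 : -(D / Z) = (-D) / Z := by ring
  rw [coulomb_eq]
  unfold V9 V2
  simp only [elPos_smul, h1, h2, Fin.sum_univ_three, h3]
  have e : ∀ a : ℝ, 1 / (Z * a) = (1 / Z) * (1 / a) := fun a => by
    rw [one_div_mul_one_div]
  simp only [e]
  have e2 : ∀ a : ℝ, (Z : ℝ) / a = Z * (1 / a) := fun a => by ring
  have e3 : ∀ a : ℝ, -(Z : ℝ) / a = - (Z * (1 / a)) := fun a => by ring
  simp only [e2, e3]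
  have hZ1 : (Z : ℝ) * (1 / Z) = 1 := by field_simp
  generalize 1 / ‖elPos 0 x - EuclideanSpace.single 2 (D / ↑Z)‖ = a1
  generalize 1 / ‖elPos 1 x - EuclideanSpace.single 2 (D / ↑Z)‖ = a2
  generalize 1 / ‖elPos 2 x - EuclideanSpace.single 2 (D / ↑Z)‖ = a3
  generalize 1 / ‖elPos 0 x - EuclideanSpace.single 2 (-D / ↑Z)‖ = b1
  generalize 1 / ‖elPos 1 x - EuclideanSpace.single 2 (-D / ↑Z)‖ = b2
  generalize 1 / ‖elPos 2 x - EuclideanSpace.single 2 (-D / ↑Z)‖ = b3
  generalize 1 / ‖elPos 0 x - elPos 1 x‖ = c1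
  generalize 1 / ‖elPos 0 x - elPos 2 x‖ = c2
  generalize 1 / ‖elPos 1 x - elPos 2 x‖ = c3
  field_simp

theorem scaleW_inv {c : ℝ} (hc : 0 < c) (Ψ : Wave3) : scaleW c⁻¹ (scaleW c Ψ) = Ψ := by
  funext s x
  unfold scaleW
  rw [smul_smul, mul_inv_cancel₀ hc.ne', one_smul, ← mul_assoc, ← Complex.ofReal_mul,
    ← Real.mul_rpow (by positivity) hc.le, inv_mul_cancel₀ hc.ne', Real.one_rpow]
  simp

end KL

open KL

/-- **Assembly**: the statement S0521 follows from its scaled form. -/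
theorem result_of_scaled (h : ∃ D₀ : ℝ, ∀ D : ℝ, D₀ ≤ D → ∃ l' : ℝ, 0 < l' ∧ ∀ lam : ℝ, 0 < lam →
    lam ≤ l' → ∃ Ψ : Wave3, IsGroundState (V9 D lam) Ψ ∧ ¬ HasEnsembleRep Ψ) :
    ∃ D₀ : ℝ, ∀ D : ℝ, D₀ ≤ D → ∃ Z₀ : ℕ, ∀ Z : ℕ, Z₀ ≤ Z →
      ∃ Ψ : Wave3, IsGroundState (coulombPotential Z (EuclideanSpace.single 2 (D / Z))
          (EuclideanSpace.single 2 (-(D / Z)))) Ψ ∧ ¬ HasEnsembleRep Ψ := by
  obtain ⟨D₀, h⟩ := h
  refine ⟨D₀, fun D hD => ?_⟩
  obtain ⟨l', hl', h⟩ := h D hD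
  obtain ⟨N, hN⟩ := exists_nat_ge (1 / l')
  refine ⟨N + 1, fun Z hZ => ?_⟩
  have hZ1 : 1 ≤ Z := le_trans (Nat.le_add_left 1 N) hZ
  have hZ0 : (0 : ℝ) < Z := by exact_mod_cast hZ1
  obtain ⟨Ψ, hg, hr⟩ := h (1 / Z) (by positivity) (by
    rw [div_le_iff₀ hZ0]
    have h1 : (1 : ℝ) / l' ≤ Z := hN.trans (by exact_mod_cast (Nat.le_of_succ_le hZ))
    rw [div_le_iff₀ hl'] at h1
    linarith)
  refine ⟨scaleW Z Ψ, ?_, fun hrep => hr ?_⟩
  · have := scale_groundState hZ0 hg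
    have e : (fun x : Config3 => (Z : ℝ) ^ 2 * V9 D (1 / Z) ((Z : ℝ) • x)) =
        coulombPotential Z (EuclideanSpace.single 2 (D / Z))
          (EuclideanSpace.single 2 (-(D / Z))) :=
      funext fun x => (coulomb_scale hZ1 D x).symm
    rwa [e] at this
  · have := scale_rep (inv_pos.2 hZ0) hrep
    rwa [scaleW_inv hZ0] at this

/-! ### form domain -/

namespace KL

/-- `elPos i` as continuous linear map -/
def elC (i : Fin 3) : Config3 →L[ℝ] Pos3 :=
  LinearMap.toContinuousLinearMap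
    { toFun := elPos i
      map_add' := fun x y => by ext c; simp [elPos]
      map_smul' := fun a x => by ext c; simp [elPos] }

@[simp] theorem elC_apply (i : Fin 3) (x : Config3) : elC i x = elPos i x := rfl

theorem elPos_single (i j c : Fin 3) : elPos i (EuclideanSpace.single (j, c) (1 : ℝ)) =
    if i = j then EuclideanSpace.single c (1 : ℝ) else 0 := by
  ext k
  by_cases h : i = j
  · subst h
    simp [elPos, Pi.single_apply]
  · simp [elPos, Pi.single_apply, h]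

theorem int_nuc {f : Config3 → ℝ} {g : Config3 → Config3} (h : H1 f g) (i : Fin 3) (a : Pos3) :
    Integrable (fun x => f x ^ 2 / ‖elPos i x - a‖) := by
  have := (I.coulomb_le h (elC i) (fun c => EuclideanSpace.single (i, c) (1 : ℝ)) (fun c => by
    rw [elC_apply, elPos_single, if_pos rfl]) a (ε := 1) one_pos).1
  simpa using this

theorem int_pair {f : Config3 → ℝ} {g : Config3 → Config3} (h : H1 f g) {i j : Fin 3}
    (hij : i ≠ j) : Integrable (fun x => f x ^ 2 / ‖elPos i x - elPos j x‖) := by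
  have := (I.coulomb_le h (elC i - elC j)
    (fun c => (1 / 2 : ℝ) • (EuclideanSpace.single (i, c) (1 : ℝ) -
      EuclideanSpace.single (j, c) (1 : ℝ))) (fun c => by
    simp only [ContinuousLinearMap.map_smul, map_sub, sub_apply, elC_apply,
      elPos_single, if_true, if_neg hij, if_neg hij.symm]
    ext k
    by_cases hk : k = c
    · subst hk; simp
      norm_num
    · simp [hk]) 0 (ε := 1) one_pos).1
  simpa using this

theorem int_V9 {f : Config3 → ℝ} {g : Config3 → Config3} (h : H1 f g) (D lam : ℝ) :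
    Integrable (fun x => V9 D lam x * f x ^ 2) := by
  have n1 := fun i => (int_nuc h i (nuc D)).neg
  have n2 := fun i => (int_nuc h i (nuc (-D))).neg
  have p01 := (int_pair h (show (0 : Fin 3) ≠ 1 by decide)).const_mul lam
  have p02 := (int_pair h (show (0 : Fin 3) ≠ 2 by decide)).const_mul lam
  have p12 := (int_pair h (show (1 : Fin 3) ≠ 2 by decide)).const_mul lam
  have hs := ((((((n1 0).add (n2 0)).add ((n1 1).add (n2 1))).add ((n1 2).add (n2 2))).add
    p01).add p02).add p12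
  refine hs.congr (Eventually.of_forall fun x => ?_)
  simp only [Pi.add_apply, Pi.neg_apply]
  unfold V9 V2
  ring

end KL

/-- the three-body ground state gives a ground state of the scaled problem -/
theorem ground_of_three {D lam E : ℝ} {ψ : Config3 → ℝ} {dψ : Config3 → Config3}
    (tb : ThreeBody D lam E ψ dψ)
    (hmin : ∀ k dk, H1 k dk → (∀ᵐ x, k (permConfig (Equiv.swap 0 1) x) = - k x) →
      E * (∫ x, k x ^ 2) ≤ q3 D lam k dk k dk) :
    IsGroundState (V9 D lam) (waveOf ψ) := by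
  have hq : ∀ (k : Config3 → ℝ) (dk : Config3 → Config3), q3 D lam k dk k dk =
      (1 / 2) * (∫ x, ‖dk x‖ ^ 2) + ∫ x, V9 D lam x * k x ^ 2 := by
    intro k dk
    unfold q3
    simp only [real_inner_self_eq_norm_sq]
    congr 1
    refine integral_congr_ae (Eventually.of_forall fun x => ?_)
    simp only
    ring
  refine ground_of_min (V9_perm D lam) (fun f g h => KL.int_V9 h D lam) tb.h1 tb.anti tb.nrm
    (e := E) ?_ ?_
  · rw [← hq, tb.eq ψ dψ tb.h1]
    have : ∫ x, ψ x * ψ x = 1 := by rw [← tb.nrm]; simp only [pow_two]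
    rw [this, mul_one]
  · intro f g hf ha
    rw [← hq]
    exact hmin f g hf (Eventually.of_forall ha)

/-! ### the density -/

namespace KL

/-- the density amplitude squared of `waveOf ψ` -/
def rhoOf (ψ : Config3 → ℝ) (X : Pos3) : ℝ :=
  2 * (∫ ξ, ψ (jn p9 X ξ) ^ 2) + ∫ ξ, GB ψ (jn p9 X ξ) ^ 2

theorem elPos0_eq (x : Config3) : elPos 0 x = pr1 p9 x := by
  ext c; simp [elPos, pr1, p9]

theorem lint_first {ψ : Config3 → ℝ} (h : MemLp ψ 2 volume) {A : Set Pos3}
    (hA : MeasurableSet A) :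
    ∫⁻ x : Config3, A.indicator (fun _ => (1 : ℝ≥0∞)) (elPos 0 x) * ENNReal.ofReal (ψ x ^ 2) =
      ∫⁻ X in A, ENNReal.ofReal (∫ ξ, ψ (jn p9 X ξ) ^ 2) := by
  have hm : AEMeasurable (fun x : Config3 => A.indicator (fun _ => (1 : ℝ≥0∞)) (elPos 0 x) *
      ENNReal.ofReal (ψ x ^ 2)) volume := by
    refine AEMeasurable.mul ?_ ?_
    · refine (Measurable.comp (measurable_const.indicator hA) ?_).aemeasurable
      rw [show elPos 0 = pr1 p9 from funext elPos0_eq]
      exact (continuous_pr1 p9).measurable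
    · exact (h.aestronglyMeasurable.aemeasurable.pow_const 2).ennreal_ofReal
  rw [lintegral_jn p9 hm, ← lintegral_indicator hA]
  have hi : Integrable (fun x => ψ x ^ 2) := h.integrable_sq
  have h1 : ∀ᵐ X : Pos3, Integrable (fun ξ => ψ (jn p9 X ξ) ^ 2) :=
    HS.ae_integrable_slice p9 hi
  refine lintegral_congr_ae ?_
  filter_upwards [h1] with X hX
  by_cases hXA : X ∈ A
  · have e : ∀ ξ, A.indicator (fun _ => (1 : ℝ≥0∞)) (elPos 0 (jn p9 X ξ)) = 1 := by
      intro ξ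
      rw [elPos0_eq, pr1_jn]
      simp [hXA]
    simp only [e, one_mul]
    rw [Set.indicator_of_mem hXA, ofReal_integral_eq_lintegral_ofReal hX
      (Eventually.of_forall fun ξ => sq_nonneg _)]
  · have e : ∀ ξ, A.indicator (fun _ => (1 : ℝ≥0∞)) (elPos 0 (jn p9 X ξ)) = 0 := by
      intro ξ
      rw [elPos0_eq, pr1_jn]
      simp [hXA]
    simp only [e, zero_mul, lintegral_zero]
    rw [Set.indicator_of_notMem hXA]

end KL

/-- the density of `waveOf ψ` -/
theorem densityOn_waveOf_eq {ψ : Config3 → ℝ} (h : MemLp ψ 2 volume)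
    (hanti : ∀ x, ψ (permConfig (Equiv.swap 0 1) x) = - ψ x) {A : Set Pos3}
    (hA : MeasurableSet A) :
    densityOn (waveOf ψ) A = ∫⁻ X in A, ENNReal.ofReal (KL.rhoOf ψ X) := by
  rw [densityOn_waveOf]
  set χ : Pos3 → ℝ≥0∞ := A.indicator (fun _ => (1 : ℝ≥0∞)) with hχ
  have hχm : Measurable χ := measurable_const.indicator hA
  have hel : ∀ i, Measurable (elPos i) := fun i => (KL.elC i).continuous.measurable
  have hψm : AEMeasurable (fun x => ENNReal.ofReal (ψ x ^ 2)) volume :=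
    (h.aestronglyMeasurable.aemeasurable.pow_const 2).ennreal_ofReal
  have hm : ∀ i, AEMeasurable (fun x : Config3 => χ (elPos i x) * ENNReal.ofReal (ψ x ^ 2))
      volume := fun i => ((hχm.comp (hel i)).aemeasurable).mul hψm
  have e1 : ∫⁻ x, (∑ i, χ (elPos i x)) * ENNReal.ofReal (ψ x ^ 2) =
      (∫⁻ x, χ (elPos 0 x) * ENNReal.ofReal (ψ x ^ 2)) +
      (∫⁻ x, χ (elPos 1 x) * ENNReal.ofReal (ψ x ^ 2)) +
      ∫⁻ x, χ (elPos 2 x) * ENNReal.ofReal (ψ x ^ 2) := by
    simp only [Fin.sum_univ_three, add_mul]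
    have hm01 : AEMeasurable (fun x : Config3 => χ (elPos 0 x) * ENNReal.ofReal (ψ x ^ 2) +
      χ (elPos 1 x) * ENNReal.ofReal (ψ x ^ 2)) volume := (hm 0).add (hm 1)
    rw [lintegral_add_left' hm01, lintegral_add_left' (hm 0)]
  have e2 : ∫⁻ x, χ (elPos 1 x) * ENNReal.ofReal (ψ x ^ 2) =
      ∫⁻ x, χ (elPos 0 x) * ENNReal.ofReal (ψ x ^ 2) := by
    rw [← lintegral_perm (Equiv.swap 0 1) (fun x => χ (elPos 1 x) * ENNReal.ofReal (ψ x ^ 2))]
    refine lintegral_congr fun x => ?_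
    rw [elPos_permConfig, hanti, neg_sq, Equiv.swap_apply_right]
  have e3 : ∫⁻ x, χ (elPos 2 x) * ENNReal.ofReal (ψ x ^ 2) =
      ∫⁻ x, χ (elPos 0 x) * ENNReal.ofReal (GB ψ x ^ 2) := by
    rw [← lintegral_perm (finRotate 3) (fun x => χ (elPos 2 x) * ENNReal.ofReal (ψ x ^ 2))]
    refine lintegral_congr fun x => ?_
    rw [elPos_permConfig, show (finRotate 3) 2 = 0 by decide]
    rfl
  have hGB : MemLp (GB ψ) 2 volume := memLp_perm h (finRotate 3)
  rw [e1, e2, e3, KL.lint_first h hA, KL.lint_first hGB hA]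
  have i1 : AEMeasurable (fun X : Pos3 => ENNReal.ofReal (∫ ξ, ψ (jn p9 X ξ) ^ 2))
      (volume.restrict A) := by
    have := (HS.integrable_slice p9 (h.integrable_sq)).aestronglyMeasurable
    exact this.aemeasurable.ennreal_ofReal.restrict
  have i2 : AEMeasurable (fun X : Pos3 => ENNReal.ofReal (∫ ξ, ψ (jn p9 X ξ) ^ 2) +
      ENNReal.ofReal (∫ ξ, ψ (jn p9 X ξ) ^ 2)) (volume.restrict A) := i1.add i1
  rw [← lintegral_add_left' i1, ← lintegral_add_left' i2]
  refine lintegral_congr fun X => ?_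
  have p1 : 0 ≤ ∫ ξ, ψ (jn p9 X ξ) ^ 2 := integral_nonneg fun ξ => sq_nonneg _
  have p2 : 0 ≤ ∫ ξ, GB ψ (jn p9 X ξ) ^ 2 := integral_nonneg fun ξ => sq_nonneg _
  unfold KL.rhoOf
  rw [ENNReal.ofReal_add (by positivity) p2, two_mul, ENNReal.ofReal_add p1 p1]

/-- version with the amplitude `s` -/
theorem densityOn_waveOf_amp {ψ : Config3 → ℝ} (h : MemLp ψ 2 volume)
    (hanti : ∀ x, ψ (permConfig (Equiv.swap 0 1) x) = - ψ x) {s : Pos3 → ℝ}
    (hs : ∀ᵐ X : Pos3, s X ^ 2 = KL.rhoOf ψ X) {A : Set Pos3} (hA : MeasurableSet A) :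
    densityOn (waveOf ψ) A = ∫⁻ X in A, ENNReal.ofReal (s X ^ 2) := by
  rw [densityOn_waveOf_eq h hanti hA]
  refine lintegral_congr_ae (ae_restrict_of_ae ?_)
  filter_upwards [hs] with X hX
  rw [hX]

theorem Sys.density {cg C0 D : ℝ} {B : OBD cg C0 D} {K lam : ℝ} (S : Sys B K lam) {s : Pos3 → ℝ}
    (hs : ∀ᵐ X : Pos3, s X ^ 2 = S.rho X) {A : Set Pos3} (hA : MeasurableSet A) :
    densityOn (waveOf S.ψ) A = ∫⁻ X in A, ENNReal.ofReal (s X ^ 2) :=
  densityOn_waveOf_amp S.tb.h1.memf S.tb.anti hs hA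

end Crest.Agent.R335
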