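import Crest.Agent.R335.KDefs
import Crest.Agent.R335.HGlob
import Crest.Agent.R335.HPre
import Crest.Agent.R335.HFourier

/-!
Row 335 (S0521): dilations (module KScale).
-/

set_option autoImplicit false
set_option linter.unusedVariables false
set_option linter.unusedSectionVars false

open MeasureTheory Filter Set Crest.MathPhysics.ThreeBody
open scoped ENNReal Topology ContDiff

noncomputable section
namespace Crest.Agent.R335

section general

variable {ι : Type*} [Fintype ι] [DecidableEq ι]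

local notation "E" => EuclideanSpace ℝ ι

theorem sc_emb {c : ℝ} (hc : c ≠ 0) : MeasurableEmbedding (fun x : E => c • x) :=
  (Homeomorph.smulOfNeZero c hc).measurableEmbedding

theorem sc_map {c : ℝ} (hc : c ≠ 0) : Measure.map (fun x : E => c • x) volume =
    ENNReal.ofReal |(c ^ Fintype.card ι)⁻¹| • (volume : Measure E) := by
  have := Measure.map_addHaar_smul (volume : Measure E) hc
  rw [finrank_euclideanSpace] at this
  exact this

theorem sc_memLp {F : Type*} [NormedAddCommGroup F] {f : E → F} {p : ℝ≥0∞}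
    (hf : MemLp f p volume) {c : ℝ} (hc : c ≠ 0) : MemLp (fun x => f (c • x)) p volume := by
  have h1 : MemLp f p (Measure.map (fun x : E => c • x) volume) := by
    rw [sc_map hc]
    exact hf.smul_measure ENNReal.ofReal_ne_top
  exact ((sc_emb hc).memLp_map_measure_iff).1 h1

theorem sc_lintegral (F : E → ℝ≥0∞) {c : ℝ} (hc : c ≠ 0) :
    ∫⁻ x, F (c • x) = ENNReal.ofReal |(c ^ Fintype.card ι)⁻¹| * ∫⁻ x, F x := by
  rw [← (sc_emb hc).lintegral_map, sc_map hc, lintegral_smul_measure, smul_eq_mul]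

theorem sc_integral {F : Type*} [NormedAddCommGroup F] [NormedSpace ℝ F] (f : E → F) (c : ℝ) :
    ∫ x, f (c • x) = |(c ^ Fintype.card ι)⁻¹| • ∫ x, f x := by
  have := Measure.integral_comp_smul (volume : Measure E) f c
  rw [finrank_euclideanSpace] at this
  exact this

theorem sc_integrable {F : Type*} [NormedAddCommGroup F] {f : E → F} (hf : Integrable f)
    {c : ℝ} (hc : c ≠ 0) : Integrable (fun x => f (c • x)) := by
  rw [← memLp_one_iff_integrable] at hf ⊢
  exact sc_memLp hf hc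

theorem sc_test {φ : E → ℝ} (h : Test univ φ) {c : ℝ} (hc : c ≠ 0) :
    Test univ (fun x => φ (c • x)) := by
  refine ⟨h.smooth.comp (contDiff_const_smul _), ?_, subset_univ _⟩
  exact h.cpt.comp_homeomorph (Homeomorph.smulOfNeZero c hc)

theorem sc_pd {φ : E → ℝ} (h : Test univ φ) (c : ℝ) (i : ι) (x : E) :
    pd i (fun x => φ (c • x)) x = c * pd i φ (c • x) := by
  simp only [pd]
  have h3 : HasFDerivAt (fun x : E => φ (c • x))
      ((fderiv ℝ φ (c • x)).comp (c • ContinuousLinearMap.id ℝ E)) x := by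
    have h4 : HasFDerivAt (fun x : E => c • x) (c • ContinuousLinearMap.id ℝ E) x :=
      (hasFDerivAt_id x).const_smul c
    exact (h.differentiableAt (c • x)).hasFDerivAt.comp x h4
  rw [h3.fderiv]
  simp

theorem H1.scale {f : E → ℝ} {g : E → E} (h : H1 f g) {c : ℝ} (hc : 0 < c) :
    H1 (fun x => f (c • x)) (fun x => c • g (c • x)) := by
  have hc' : c ≠ 0 := hc.ne'
  have m1 := sc_memLp h.memf hc'
  have m2 : MemLp (fun x => c • g (c • x)) 2 volume := (sc_memLp h.memg hc').const_smul c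
  refine ⟨m1, m2, ?_, ?_, fun φ hφ i => ?_⟩
  · exact locallyIntegrableOn_univ.2 (m1.locallyIntegrable (by norm_num))
  · exact locallyIntegrableOn_univ.2 (m2.locallyIntegrable (by norm_num))
  · have hψ : Test univ (fun x : E => φ (c⁻¹ • x)) := sc_test hφ (inv_ne_zero hc')
    have e0 : ∀ x : E, c⁻¹ • c • x = x := fun x => by
      rw [smul_smul, inv_mul_cancel₀ hc', one_smul]
    have key := h.wg.ibp _ hψ i
    have e1 : ∫ x, f (c • x) * pd i φ x =
        c * (|(c ^ Fintype.card ι)⁻¹| • ∫ x, f x * pd i (fun x : E => φ (c⁻¹ • x)) x) := by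
      rw [← sc_integral (fun x => f x * pd i (fun x : E => φ (c⁻¹ • x)) x) c,
        ← integral_const_mul]
      refine integral_congr_ae (Eventually.of_forall fun x => ?_)
      simp only
      rw [sc_pd hφ, e0]
      field_simp
    have e2 : ∫ x, (c • g (c • x)) i * φ x =
        c * (|(c ^ Fintype.card ι)⁻¹| • ∫ x, g x i * φ (c⁻¹ • x)) := by
      rw [← sc_integral (fun x => g x i * φ (c⁻¹ • x)) c, ← integral_const_mul]
      refine integral_congr_ae (Eventually.of_forall fun x => ?_)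
      simp only [e0, PiLp.smul_apply, smul_eq_mul]
      ring
    rw [e1, e2, key, smul_neg, mul_neg]

end general

theorem sc_card : Fintype.card (Fin 3 × Fin 3) = 9 := by simp

theorem sc_a_sq {c : ℝ} (hc : 0 < c) : (c ^ ((9 : ℝ) / 2)) ^ 2 = c ^ 9 := by
  rw [← Real.rpow_natCast (c ^ ((9 : ℝ) / 2)) 2, ← Real.rpow_mul hc.le, ← Real.rpow_natCast c 9]
  norm_num

theorem sc_abs {c : ℝ} (hc : 0 < c) : |(c ^ 9)⁻¹| = (c ^ 9)⁻¹ := abs_of_pos (by positivity)

theorem scaleW_apply (c : ℝ) (Ψ : Wave3) (s : Spin3) (x : Config3) :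
    scaleW c Ψ s x = ((c ^ ((9 : ℝ) / 2) : ℝ) : ℂ) * Ψ s (c • x) := rfl

theorem sc_norm_sq {c : ℝ} (hc : 0 < c) (Ψ : Wave3) (s : Spin3) (x : Config3) :
    ‖scaleW c Ψ s x‖ ^ 2 = c ^ 9 * ‖Ψ s (c • x)‖ ^ 2 := by
  rw [scaleW_apply, norm_mul, mul_pow, Complex.norm_real, Real.norm_eq_abs, sq_abs, sc_a_sq hc]

theorem sc_enorm_sq {c : ℝ} (hc : 0 < c) (Ψ : Wave3) (s : Spin3) (x : Config3) :
    ‖scaleW c Ψ s x‖ₑ ^ 2 = ENNReal.ofReal (c ^ 9) * ‖Ψ s (c • x)‖ₑ ^ 2 := by
  rw [← ofReal_norm, ← ofReal_norm, ← ENNReal.ofReal_pow (norm_nonneg _),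
    sc_norm_sq hc, ENNReal.ofReal_mul (by positivity), ENNReal.ofReal_pow (norm_nonneg _)]

/-- change of variables in weighted norms -/
theorem sc_lintegral_weight {c : ℝ} (hc : 0 < c) (Ψ : Wave3) (s : Spin3) (w : Config3 → ℝ≥0∞) :
    ∫⁻ x, w (c • x) * ‖scaleW c Ψ s x‖ₑ ^ 2 = ∫⁻ x, w x * ‖Ψ s x‖ₑ ^ 2 := by
  have h1 : ∀ x, w (c • x) * ‖scaleW c Ψ s x‖ₑ ^ 2 =
      (fun y => ENNReal.ofReal (c ^ 9) * (w y * ‖Ψ s y‖ₑ ^ 2)) (c • x) := fun x => by
    simp only [sc_enorm_sq hc]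
    ring
  simp_rw [h1]
  rw [sc_lintegral (fun y => ENNReal.ofReal (c ^ 9) * (w y * ‖Ψ s y‖ₑ ^ 2)) hc.ne',
    lintegral_const_mul' _ _ ENNReal.ofReal_ne_top, ← mul_assoc, sc_card, sc_abs hc,
    ← ENNReal.ofReal_mul (by positivity), inv_mul_cancel₀ (by positivity), ENNReal.ofReal_one,
    one_mul]

theorem sc_normSq {c : ℝ} (hc : 0 < c) (Ψ : Wave3) : normSq (scaleW c Ψ) = normSq Ψ := by
  unfold normSq
  refine Finset.sum_congr rfl fun s _ => ?_
  have := sc_lintegral_weight hc Ψ s (fun _ => 1)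
  simpa using this

theorem sc_memLp_wave {c : ℝ} (hc : 0 < c) {Ψ : Wave3} {s : Spin3} (h : MemLp (Ψ s) 2 volume) :
    MemLp (scaleW c Ψ s) 2 volume :=
  (sc_memLp h hc.ne').const_mul _

theorem sc_fermionic {c : ℝ} (hc : 0 < c) {Ψ : Wave3} (h : IsFermionic Ψ) :
    IsFermionic (scaleW c Ψ) := by
  refine ⟨fun s => sc_memLp_wave hc (h.1 s), fun σ s x => ?_⟩
  have h1 : c • permConfig σ x = permConfig σ (c • x) := by
    ext i
    simp [permConfig]
  rw [scaleW_apply, scaleW_apply, h1, h.2]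
  ring

theorem sc_kineticOne {c : ℝ} (hc : 0 < c) {f : Config3 → ℂ} (hf : kineticOne f < ⊤) :
    kineticOne (fun x => ((c ^ ((9 : ℝ) / 2) : ℝ) : ℂ) * f (c • x)) =
      ENNReal.ofReal (c ^ 2) * kineticOne f := by
  obtain ⟨g₁, g₂, h1, h2⟩ := H1_of_kineticOne hf
  set a : ℝ := c ^ ((9 : ℝ) / 2) with ha
  have k1 : H1 (fun x => (((a : ℝ) : ℂ) * f (c • x)).re) (fun x => a • (c • g₁ (c • x))) := by
    have := (h1.scale hc).const_mul a
    refine this.congr (Eventually.of_forall fun x => ?_) (Eventually.of_forall fun x => rfl)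
    simp
  have k2 : H1 (fun x => (((a : ℝ) : ℂ) * f (c • x)).im) (fun x => a • (c • g₂ (c • x))) := by
    have := (h2.scale hc).const_mul a
    refine this.congr (Eventually.of_forall fun x => ?_) (Eventually.of_forall fun x => rfl)
    simp
  rw [kineticOne_eq k1 k2, kineticOne_eq h1 h2, ← ENNReal.ofReal_mul (by positivity)]
  congr 1
  have h3 : ∀ x : Config3, ‖a • (c • g₁ (c • x))‖ ^ 2 + ‖a • (c • g₂ (c • x))‖ ^ 2 =
      (fun y => (a ^ 2 * c ^ 2) * (‖g₁ y‖ ^ 2 + ‖g₂ y‖ ^ 2)) (c • x) := fun x => by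
    simp only [norm_smul, mul_pow, Real.norm_eq_abs, sq_abs]
    ring
  simp_rw [h3]
  rw [sc_integral (fun y => (a ^ 2 * c ^ 2) * (‖g₁ y‖ ^ 2 + ‖g₂ y‖ ^ 2)) c, integral_const_mul,
    sc_card, sc_abs hc, sc_a_sq hc, smul_eq_mul]
  field_simp

theorem sc_kinetic {c : ℝ} (hc : 0 < c) {Ψ : Wave3} (h : kinetic Ψ < ⊤) :
    kinetic (scaleW c Ψ) = ENNReal.ofReal (c ^ 2) * kinetic Ψ := by
  unfold kinetic at h ⊢
  rw [Finset.mul_sum]
  refine Finset.sum_congr rfl fun s _ => ?_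
  exact sc_kineticOne hc (lt_of_le_of_lt (Finset.single_le_sum
    (f := fun s => kineticOne (Ψ s)) (fun _ _ => zero_le) (Finset.mem_univ s)) h)

theorem sc_admissible {c : ℝ} (hc : 0 < c) {W : Config3 → ℝ} {Ψ : Wave3}
    (h : IsAdmissible W Ψ) : IsAdmissible (fun x => c ^ 2 * W (c • x)) (scaleW c Ψ) := by
  refine ⟨sc_fermionic hc h.1, ?_, fun s => ?_⟩
  · rw [sc_kinetic hc h.2.1]
    exact ENNReal.mul_lt_top ENNReal.ofReal_lt_top h.2.1
  · have h1 := (sc_integrable (h.2.2 s) hc.ne').const_mul (c ^ 2 * c ^ 9)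
    refine h1.congr (Eventually.of_forall fun x => ?_)
    simp only [sc_norm_sq hc]
    ring

theorem sc_energy {c : ℝ} (hc : 0 < c) {W : Config3 → ℝ} {Ψ : Wave3}
    (h : IsAdmissible W Ψ) :
    energy (fun x => c ^ 2 * W (c • x)) (scaleW c Ψ) = c ^ 2 * energy W Ψ := by
  unfold energy
  have h1 : potentialEnergy (fun x => c ^ 2 * W (c • x)) (scaleW c Ψ) =
      c ^ 2 * potentialEnergy W Ψ := by
    unfold potentialEnergy
    rw [Finset.mul_sum]
    refine Finset.sum_congr rfl fun s _ => ?_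
    have h3 : ∀ x : Config3, c ^ 2 * W (c • x) * ‖scaleW c Ψ s x‖ ^ 2 =
        (fun y => (c ^ 2 * c ^ 9) * (W y * ‖Ψ s y‖ ^ 2)) (c • x) := fun x => by
      simp only [sc_norm_sq hc]
      ring
    simp_rw [h3]
    rw [sc_integral (fun y => (c ^ 2 * c ^ 9) * (W y * ‖Ψ s y‖ ^ 2)) c, integral_const_mul,
      sc_card, sc_abs hc, smul_eq_mul]
    field_simp
  rw [h1, sc_kinetic hc h.2.1, ENNReal.toReal_mul, ENNReal.toReal_ofReal (by positivity)]
  ring

theorem scale_groundState {c : ℝ} (hc : 0 < c) {W : Config3 → ℝ} {Ψ : Wave3}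
    (h : IsGroundState W Ψ) :
    IsGroundState (fun x => c ^ 2 * W (c • x)) (scaleW c Ψ) := by
  refine ⟨sc_admissible hc h.1, by rw [sc_normSq hc]; exact h.2.1, fun Φ hΦ hn => ?_⟩
  have hc' : 0 < c⁻¹ := inv_pos.2 hc
  have h1 := sc_admissible hc' hΦ
  have h2 := sc_energy hc' hΦ
  have hW : (fun x : Config3 => c⁻¹ ^ 2 * (c ^ 2 * W (c • (c⁻¹ • x)))) = W := by
    funext x
    rw [smul_smul, mul_inv_cancel₀ hc.ne', one_smul]
    field_simp
  simp only [hW] at h1 h2
  have h3 := h.2.2 _ h1 (by rw [sc_normSq hc']; exact hn)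
  rw [sc_energy hc h.1]
  rw [h2] at h3
  calc c ^ 2 * energy W Ψ ≤ c ^ 2 * (c⁻¹ ^ 2 * energy (fun x => c ^ 2 * W (c • x)) Φ) :=
        mul_le_mul_of_nonneg_left h3 (by positivity)
    _ = energy (fun x => c ^ 2 * W (c • x)) Φ := by field_simp

theorem sc_density {c : ℝ} (hc : 0 < c) (Ψ : Wave3) (A : Set Pos3) :
    densityOn (scaleW c Ψ) A = densityOn Ψ ((fun z : Pos3 => c⁻¹ • z) ⁻¹' A) := by
  unfold densityOn
  refine Finset.sum_congr rfl fun s _ => ?_
  rw [← sc_lintegral_weight hc Ψ s]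
  refine lintegral_congr fun x => ?_
  congr 1
  refine Finset.sum_congr rfl fun i _ => ?_
  have h1 : c⁻¹ • elPos i (c • x) = elPos i x := by
    ext j
    simp only [elPos, PiLp.smul_apply, smul_eq_mul]
    field_simp
  have h2 : elPos i (c • x) ∈ ((fun z : Pos3 => c⁻¹ • z) ⁻¹' A) ↔ elPos i x ∈ A := by
    rw [mem_preimage, h1]
  by_cases h : elPos i x ∈ A
  · rw [indicator_of_mem h, indicator_of_mem (h2.2 h)]
  · rw [indicator_of_notMem h, indicator_of_notMem (fun h' => h (h2.1 h'))]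

theorem sc_class {c : ℝ} (hc : 0 < c) {v : Pos3 → ℝ} (hv : IsSumClassPotential v) :
    IsSumClassPotential (fun y => c ^ 2 * v (c • y)) := by
  obtain ⟨v₁, v₂, hv12, h1, h2⟩ := hv
  refine ⟨fun y => c ^ 2 * v₁ (c • y), fun y => c ^ 2 * v₂ (c • y), ?_,
    (sc_memLp h1 hc.ne').const_mul _, (sc_memLp h2 hc.ne').const_mul _⟩
  funext y
  simp only [hv12, Pi.add_apply]
  ring

theorem scale_rep {c : ℝ} (hc : 0 < c) {Ψ : Wave3} (h : HasEnsembleRep Ψ) :
    HasEnsembleRep (scaleW c Ψ) := by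
  obtain ⟨v, hv, p, Φ, hp, hg, hd⟩ := h
  refine ⟨fun y => c ^ 2 * v (c • y), sc_class hc hv, p, fun k => scaleW c (Φ k), hp,
    fun k => ?_, fun A hA => ?_⟩
  · have h1 := scale_groundState hc (hg k)
    have h2 : oneBodyPotential (fun y => c ^ 2 * v (c • y)) =
        fun x => c ^ 2 * oneBodyPotential v (c • x) := by
      funext x
      simp only [oneBodyPotential, Finset.mul_sum]
      refine Finset.sum_congr rfl fun i _ => ?_
      congr 2
    rw [h2]
    exact h1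
  · have hA' : MeasurableSet ((fun z : Pos3 => c⁻¹ • z) ⁻¹' A) :=
      (measurable_const_smul c⁻¹) hA
    rw [sc_density hc, hd _ hA']
    refine tsum_congr fun k => ?_
    rw [sc_density hc]

end Crest.Agent.R335
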