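import Crest.Agent.R335.KWave
import Crest.Agent.R335.KScale

/-!
Row 335 (S0521): the reduced minimiser gives a ground state of the full problem (helper50).
-/

set_option autoImplicit false

open MeasureTheory Filter Set Crest.MathPhysics.ThreeBody
open scoped ENNReal Topology ContDiff

noncomputable section
namespace Crest.Agent.R335

namespace KG

theorem pigeon (s : Spin3) : ∃ i j : Fin 3, ∃ τ : Equiv.Perm (Fin 3),
    (fun k => s (Equiv.swap i j k)) = s ∧ Equiv.Perm.sign (Equiv.swap i j) = -1 ∧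
      τ * Equiv.swap 0 1 = Equiv.swap i j * τ := by
  revert s
  decide

/-- complex fermionic components are antisymmetric in two equal spins -/
theorem antisym {Φ : Wave3} (hΦ : IsFermionic Φ) (s : Spin3) :
    ∃ τ : Equiv.Perm (Fin 3), ∀ x, Φ s (permConfig τ (permConfig (Equiv.swap 0 1) x)) =
      - Φ s (permConfig τ x) := by
  obtain ⟨i, j, τ, h1, h2, h3⟩ := pigeon s
  refine ⟨τ⁻¹, fun x => ?_⟩
  have h4 : Equiv.swap 0 1 * τ⁻¹ = τ⁻¹ * Equiv.swap i j := by
    have : τ⁻¹ * (τ * Equiv.swap 0 1) * τ⁻¹ = τ⁻¹ * (Equiv.swap i j * τ) * τ⁻¹ := by rw [h3]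
    simpa [mul_assoc] using this
  rw [permConfig_permConfig, h4, ← permConfig_permConfig]
  have := hΦ.2 (Equiv.swap i j) s (permConfig τ⁻¹ x)
  rw [h1, h2] at this
  rw [this]
  simp

theorem memLp_re {f : Config3 → ℂ} (hf : MemLp f 2 volume) :
    MemLp (fun x => (f x).re) 2 volume := hf.re

theorem memLp_im {f : Config3 → ℂ} (hf : MemLp f 2 volume) :
    MemLp (fun x => (f x).im) 2 volume := hf.im

theorem norm_sq_re_im (z : ℂ) : ‖z‖ ^ 2 = z.re ^ 2 + z.im ^ 2 := by
  rw [← Complex.normSq_eq_norm_sq, Complex.normSq_apply]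
  ring

/-- the reduced problem controls one real component -/
theorem comp_bound {W : Config3 → ℝ} (hW : ∀ σ x, W (permConfig σ x) = W x) {e : ℝ}
    (hmin : ∀ f g, H1 f g → (∀ x, f (permConfig (Equiv.swap 0 1) x) = - f x) →
      e * (∫ x, f x ^ 2) ≤ (1 / 2) * (∫ x, ‖g x‖ ^ 2) + ∫ x, W x * f x ^ 2)
    {f : Config3 → ℝ} {g : Config3 → Config3} (hf : H1 f g) {τ : Equiv.Perm (Fin 3)}
    (hτ : ∀ x, f (permConfig τ (permConfig (Equiv.swap 0 1) x)) = - f (permConfig τ x)) :
    e * (∫ x, f x ^ 2) ≤ (1 / 2) * (∫ x, ‖g x‖ ^ 2) + ∫ x, W x * f x ^ 2 := by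
  have h := hmin _ _ (H1_perm hf τ) hτ
  have e1 : ∫ x, f (permConfig τ x) ^ 2 = ∫ x, f x ^ 2 := integral_perm τ (fun x => f x ^ 2)
  have e2 : ∫ x, ‖(permL τ).symm (g (permConfig τ x))‖ ^ 2 = ∫ x, ‖g x‖ ^ 2 := by
    simp only [LinearIsometryEquiv.norm_map]
    exact integral_perm τ (fun x => ‖g x‖ ^ 2)
  have e3 : ∫ x, W x * f (permConfig τ x) ^ 2 = ∫ x, W x * f x ^ 2 := by
    rw [← integral_perm τ (fun x => W x * f x ^ 2)]
    simp only [hW]
  rwa [e1, e2, e3] at h

end KG

open KG

/-- **Reduction of the ground state problem**: a minimiser `F` of the real reduced problem (positions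
only, antisymmetric in the first two electrons) gives a ground state among all wave functions. -/
theorem ground_of_min {W : Config3 → ℝ} (hW : ∀ σ x, W (permConfig σ x) = W x)
    (hWi : ∀ f g, H1 f g → Integrable (fun x => W x * f x ^ 2))
    {F : Config3 → ℝ} {gF : Config3 → Config3} (hF : H1 F gF)
    (hanti : ∀ x, F (permConfig (Equiv.swap 0 1) x) = - F x) (hn : ∫ x, F x ^ 2 = 1) {e : ℝ}
    (he : (1 / 2) * (∫ x, ‖gF x‖ ^ 2) + ∫ x, W x * F x ^ 2 ≤ e)
    (hmin : ∀ f g, H1 f g → (∀ x, f (permConfig (Equiv.swap 0 1) x) = - f x) →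
      e * (∫ x, f x ^ 2) ≤ (1 / 2) * (∫ x, ‖g x‖ ^ 2) + ∫ x, W x * f x ^ 2) :
    IsGroundState W (waveOf F) := by
  have hFi : Integrable (fun x => F x ^ 2) := hF.memf.integrable_sq
  refine ⟨admissible_waveOf hW hF hanti (hWi F gF hF), ?_, ?_⟩
  · rw [normSq_waveOf, ← ofReal_integral_eq_lintegral_ofReal hFi
      (Eventually.of_forall fun x => by positivity), hn]
    simp
  · intro Φ hΦ hΦn
    rw [energy_waveOf hW hF]
    refine he.trans ?_
    obtain ⟨hferm, hkin, hint⟩ := hΦ
    have hk1 : ∀ s, kineticOne (Φ s) < ⊤ := by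
      intro s
      unfold kinetic at hkin
      exact lt_of_le_of_lt (Finset.single_le_sum (f := fun s => kineticOne (Φ s))
        (fun _ _ => zero_le) (Finset.mem_univ s)) hkin
    choose g₁ g₂ h₁ h₂ using fun s => H1_of_kineticOne (hk1 s)
    have hkr : (kinetic Φ).toReal = ∑ s, (1 / 2) * ((∫ x, ‖g₁ s x‖ ^ 2) + ∫ x, ‖g₂ s x‖ ^ 2) := by
      unfold kinetic
      rw [ENNReal.toReal_sum (fun s _ => (hk1 s).ne)]
      exact Finset.sum_congr rfl fun s _ => kineticOne_toReal_eq (h₁ s) (h₂ s)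
    have hpot : potentialEnergy W Φ = ∑ s, ((∫ x, W x * (Φ s x).re ^ 2) +
        ∫ x, W x * (Φ s x).im ^ 2) := by
      unfold potentialEnergy
      refine Finset.sum_congr rfl fun s _ => ?_
      rw [← integral_add (hWi _ _ (h₁ s)) (hWi _ _ (h₂ s))]
      refine integral_congr_ae (Eventually.of_forall fun x => ?_)
      simp only [norm_sq_re_im]
      ring
    have hnr : ∑ s, ((∫ x, (Φ s x).re ^ 2) + ∫ x, (Φ s x).im ^ 2) = 1 := by
      have h3 : ∀ s, ∫⁻ x, ‖Φ s x‖ₑ ^ 2 =
          ENNReal.ofReal ((∫ x, (Φ s x).re ^ 2) + ∫ x, (Φ s x).im ^ 2) := by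
        intro s
        have j1 : Integrable (fun x => (Φ s x).re ^ 2) := (h₁ s).memf.integrable_sq
        have j2 : Integrable (fun x => (Φ s x).im ^ 2) := (h₂ s).memf.integrable_sq
        have j3 : Integrable (fun x => (Φ s x).re ^ 2 + (Φ s x).im ^ 2) := j1.add j2
        rw [← integral_add j1 j2, ofReal_integral_eq_lintegral_ofReal j3
          (Eventually.of_forall fun x => add_nonneg (sq_nonneg _) (sq_nonneg _))]
        refine lintegral_congr fun x => ?_
        rw [HF.enorm_sq_eq_ofReal, norm_sq_re_im]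
      unfold normSq at hΦn
      simp only [h3] at hΦn
      rw [← ENNReal.ofReal_sum_of_nonneg (fun s _ => by positivity)] at hΦn
      have := congrArg ENNReal.toReal hΦn
      rwa [ENNReal.toReal_ofReal (Finset.sum_nonneg fun s _ => by positivity),
        ENNReal.toReal_one] at this
    unfold energy
    rw [hkr, hpot, ← Finset.sum_add_distrib]
    calc e = ∑ s, e * ((∫ x, (Φ s x).re ^ 2) + ∫ x, (Φ s x).im ^ 2) := by
          rw [← Finset.mul_sum, hnr, mul_one]
      _ ≤ _ := by
          refine Finset.sum_le_sum fun s _ => ?_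
          obtain ⟨τ, hτ⟩ := antisym hferm s
          have b1 := comp_bound hW hmin (h₁ s) (τ := τ) (fun x => by
            have := congrArg Complex.re (hτ x); simpa using this)
          have b2 := comp_bound hW hmin (h₂ s) (τ := τ) (fun x => by
            have := congrArg Complex.im (hτ x); simpa using this)
          linarith

end Crest.Agent.R335
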