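import Crest.Agent.R335.KDefs

/-!
Row 335 (S0521), KOHN-SHAM SIDE, INTERFACE (all statements with `sorry`, namespace `...R335.KI`).
Each `KI.xxx` is to be proved as `Crest.Agent.R335.xxx` in the module named in the task.
Mathematics of every statement: notes kind=blueprint of helper709 on row 335.
-/

set_option autoImplicit false
set_option linter.unusedVariables false

open MeasureTheory Filter Set Crest.MathPhysics.ThreeBody
open scoped ENNReal Topology ContDiff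

noncomputable section
namespace Crest.Agent.R335.KI
open Crest.Agent.R335

/-! ### K4 : potentials of class `L^{3/2} + L^∞`, thin slabs (module KPot) -/

/-- Sobolev for the potential class, on `H¹` -/
theorem class_bound {v : Pos3 → ℝ} (hv : IsSumClassPotential v) {ε : ℝ} (hε : 0 < ε) :
    ∃ C : ℝ, 0 ≤ C ∧ ∀ f g, H1 f g →
      Integrable (fun x => |v x| * f x ^ 2) ∧
      ∫ x, |v x| * f x ^ 2 ≤ ε * (∫ x, ‖g x‖ ^ 2) + C * ∫ x, f x ^ 2 := sorry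

theorem class_locInt {v : Pos3 → ℝ} (hv : IsSumClassPotential v) :
    LocallyIntegrable v volume := sorry

/-- thin slab: `∫_{|z| ≤ h} f² ≤ 2 h (∫ ‖∇f‖² + ∫ f²)` -/
theorem slab_bound {f : Pos3 → ℝ} {g : Pos3 → Pos3} (h : H1 f g) {d : ℝ} (hd : 0 < d) :
    ∫ x in {x : Pos3 | |x 2| ≤ d}, f x ^ 2 ≤ 2 * d * ((∫ x, ‖g x‖ ^ 2) + ∫ x, f x ^ 2) := sorry

/-- thin slab for odd functions: `∫_{|z| ≤ h} f² ≤ h² ∫ ‖∇f‖²` -/
theorem slab_odd {f : Pos3 → ℝ} {g : Pos3 → Pos3} (h : H1 f g) (hodd : ∀ x, f (rz x) = - f x)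
    {d : ℝ} (hd : 0 < d) :
    ∫ x in {x : Pos3 | |x 2| ≤ d}, f x ^ 2 ≤ d ^ 2 * ∫ x, ‖g x‖ ^ 2 := sorry

/-- potential energy in thin slabs -/
theorem class_slab {v : Pos3 → ℝ} (hv : IsSumClassPotential v) {ε : ℝ} (hε : 0 < ε) :
    ∃ d : ℝ, 0 < d ∧ ∀ f g, H1 f g →
      ∫ x in {x : Pos3 | |x 2| ≤ d}, |v x| * f x ^ 2 ≤
        ε * ((∫ x, ‖g x‖ ^ 2) + ∫ x, f x ^ 2) := sorry

/-! ### K1 : weak equation for bounded compactly supported tests (module KTest) -/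

theorem WeakEq.bt {v : Pos3 → ℝ} (hv : LocallyIntegrable v volume) {e : ℝ} {f : Pos3 → ℝ}
    {g : Pos3 → Pos3} (hf : H1 f g) {C : ℝ} (hb : ∀ᵐ x, |f x| ≤ C) (h : WeakEq v e f g)
    {φ : Pos3 → ℝ} {gφ : Pos3 → Pos3} (hφ : BT φ gφ) :
    (1 / 2) * (∫ x, inner ℝ (g x) (gφ x)) + ∫ x, (v x - e) * f x * φ x = 0 := sorry

/-- quotients of bounded compactly supported `H¹` functions by locally positive functions -/
theorem BT.div {p s : Pos3 → ℝ} {gp gs : Pos3 → Pos3} (hp : BT p gp) (hs : H1 s gs)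
    (hsb : ∃ C : ℝ, ∀ᵐ x, |s x| ≤ C) {c : ℝ} (hc : 0 < c)
    (hlow : ∀ᵐ x, p x ≠ 0 → c ≤ |s x|) :
    BT (fun x => p x / s x) (fun x => (1 / s x) • gp x - (p x / s x ^ 2) • gs x) := sorry

theorem BT.mul {p q : Pos3 → ℝ} {gp gq : Pos3 → Pos3} (hp : BT p gp) (hq : H1 q gq)
    (hqb : ∃ C : ℝ, ∀ᵐ x, |q x| ≤ C) :
    BT (fun x => p x * q x) (fun x => p x • gq x + q x • gp x) := sorry

/-- pointwise relations between the gradients of `s, U, w` -/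
theorem pair_grad {s U w : Pos3 → ℝ} {gs gU gw : Pos3 → Pos3} (hs : Amp s gs)
    (hp : PairAdm s U gU w gw) : ∀ᵐ x, s x • gs x = U x • gU x + w x • gw x ∧
      ‖gU x‖ ^ 2 + ‖gw x‖ ^ 2 = ‖gs x‖ ^ 2 + ‖J U gU w gw x‖ ^ 2 / s x ^ 2 := sorry

/-! ### K2 : the potential off the plane (module KOff) -/

/-- identity `2 (v - e₂) = Δs/s - |∇η|² - 2ω sin²η` tested with `p²` -/
theorem off_identity {v s U w : Pos3 → ℝ} {gs gU gw : Pos3 → Pos3} {om e : ℝ} (hs : Amp s gs)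
    (hp : Pair s U gU w gw om) (hv : LocallyIntegrable v volume) (hw : WeakEq v e w gw)
    {p : Pos3 → ℝ} (hpt : Test univ p) (hsmall : ∀ᵐ x, p x ≠ 0 → U x ≤ (1 / 2) * s x) :
    2 * (∫ x, (v x - e) * p x ^ 2) =
      - (∫ x, inner ℝ (gs x) ((2 * p x / s x) • gr p x - (p x ^ 2 / s x ^ 2) • gs x))
      - (∫ x, ‖J U gU w gw x‖ ^ 2 / s x ^ 4 * p x ^ 2)
      - 2 * om * ∫ x, U x ^ 2 / s x ^ 2 * p x ^ 2 := sorry

/-- smallness of `∫ |∇η|² p²` where `U ≤ t s` -/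
theorem off_small {s U w : Pos3 → ℝ} {gs gU gw : Pos3 → Pos3} {om : ℝ} (hs : Amp s gs)
    (hp : Pair s U gU w gw om) {p : Pos3 → ℝ} (hpt : Test univ p) {t : ℝ} (ht : 0 < t)
    (ht2 : t ≤ 1 / 2) (hsmall : ∀ᵐ x, p x ≠ 0 → U x ≤ t * s x) :
    ∫ x, ‖J U gU w gw x‖ ^ 2 / s x ^ 4 * p x ^ 2 ≤
      32 * t ^ 2 * ((∫ x, ‖gr p x‖ ^ 2) + ∫ x, ‖gs x‖ ^ 2 / s x ^ 2 * p x ^ 2) := sorry

/-- lower bound of `v - e₂` off the plane, near infinity -/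
theorem off_bound {v s U w : Pos3 → ℝ} {gs gU gw : Pos3 → Pos3} {om e κ : ℝ} (hs : Amp s gs)
    (hp : Pair s U gU w gw om) (hv : IsSumClassPotential v) (hw : WeakEq v e w gw)
    (hkato : KatoInf s gs κ) (hsm : SmallU s U) {h ε : ℝ} (hh : 0 < h) (hε : 0 < ε) :
    ∃ R : ℝ, ∀ p : Pos3 → ℝ, Test univ p → (∀ x : Pos3, |x 2| ≤ h → p x = 0) →
      (∀ x : Pos3, ‖x‖ ≤ R → p x = 0) →
      (κ ^ 2 - ε) * (∫ x, p x ^ 2) - ε * (∫ x, ‖gr p x‖ ^ 2) ≤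
        2 * ∫ x, (v x - e) * p x ^ 2 := sorry

/-! ### K5 : the form inequality near infinity (module KForm) -/

theorem form_infty {v s U w : Pos3 → ℝ} {gs gU gw : Pos3 → Pos3} {om e κ : ℝ} (hs : Amp s gs)
    (hp : Pair s U gU w gw om) (hv : IsSumClassPotential v) (hw : WeakEq v e w gw)
    (hkato : KatoInf s gs κ) (hsm : SmallU s U) {ε : ℝ} (hε : 0 < ε) :
    ∃ R : ℝ, ∀ f g, BT f g → (∀ᵐ x : Pos3, ‖x‖ ≤ R → f x = 0) →
      (κ ^ 2 - ε) * (∫ x, f x ^ 2) - ε * (∫ x, ‖g x‖ ^ 2) ≤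
        2 * ∫ x, (v x - e) * f x ^ 2 := sorry

/-! ### K6 : Agmon (module KAgmon) -/

/-- exponential weight `exp (k min(‖x‖, n))` -/
def wexp (k : ℝ) (n : ℕ) (x : Pos3) : ℝ := Real.exp (k * min ‖x‖ n)

/-- if `∫‖∇f‖² + 2∫(v-e₁) f² ≥ (1-ε)∫‖∇f‖² + (μ²-ε)∫ f²` near infinity for every `ε`, then a bounded
eigenfunction `U` decays like `exp (-k ‖x‖)` for every `k < μ` -/
theorem agmon {v U : Pos3 → ℝ} {gU : Pos3 → Pos3} {e μ k : ℝ} (hv : IsSumClassPotential v)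
    (hU : H1 U gU) {C : ℝ} (hb : ∀ᵐ x, |U x| ≤ C) (heq : WeakEq v e U gU) (hk : 0 < k)
    (hkμ : k < μ)
    (hform : ∀ ε : ℝ, 0 < ε → ∃ R : ℝ, ∀ f g, BT f g → (∀ᵐ x : Pos3, ‖x‖ ≤ R → f x = 0) →
      (μ ^ 2 - ε) * (∫ x, f x ^ 2) - ε * (∫ x, ‖g x‖ ^ 2) ≤ 2 * ∫ x, (v x - e) * f x ^ 2) :
    ∃ R M : ℝ, ∀ n : ℕ, ∃ f g, H1 f g ∧ (∀ x : Pos3, R ≤ ‖x‖ → f x = wexp k n x * U x) ∧
      (∫ x, ‖g x‖ ^ 2) + (∫ x, f x ^ 2) ≤ M := sorry

/-! ### K7 : the contradiction (module KMain) -/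

theorem plane_contra {s U w : Pos3 → ℝ} {gs gU gw : Pos3 → Pos3} {κ k : ℝ} (hs : Amp s gs)
    (hp : PairAdm s U gU w gw) (hκ : 0 < κ) (hk : κ < k) (hlow : PlaneLow s κ)
    (hag : ∃ R M : ℝ, ∀ n : ℕ, ∃ f g, H1 f g ∧ (∀ x : Pos3, R ≤ ‖x‖ → f x = wexp k n x * U x) ∧
      (∫ x, ‖g x‖ ^ 2) + (∫ x, f x ^ 2) ≤ M) : False := sorry

theorem K_contra {v s U w : Pos3 → ℝ} {gs gU gw : Pos3 → Pos3} {om e κ : ℝ} (hs : Amp s gs)
    (hp : Pair s U gU w gw om) (hκ : 0 < κ) (hkato : KatoInf s gs κ) (hlow : PlaneLow s κ)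
    (hsm : SmallU s U) (hv : IsSumClassPotential v) (hU : WeakEq v e U gU)
    (hw : WeakEq v (e + om) w gw) : False := sorry

/-! ### P : existence of the pair (module KPair) -/

theorem pair_exists {s : Pos3 → ℝ} {gs : Pos3 → Pos3} (hs : Amp s gs) (hn : ∫ x, s x ^ 2 = 3) :
    ∃ (U : Pos3 → ℝ) (gU : Pos3 → Pos3) (w : Pos3 → ℝ) (gw : Pos3 → Pos3) (om : ℝ),
      Pair s U gU w gw om := sorry

/-- equation of `c = w/s = cos η` : `-div (s² ∇c) = 2ω U² w / s + (w/s³) ‖J‖²`,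
`s² ∇c = -(U/s) J` (module KPos) -/
theorem cos_eq {s U w : Pos3 → ℝ} {gs gU gw : Pos3 → Pos3} {om : ℝ} (hs : Amp s gs)
    (hp : Pair s U gU w gw om) {φ : Pos3 → ℝ} {gφ : Pos3 → Pos3} (hφ : BT φ gφ) :
    ∫ x, - (U x / s x) * inner ℝ (J U gU w gw x) (gφ x) =
      ∫ x, (2 * om * U x ^ 2 * w x / s x + w x / s x ^ 3 * ‖J U gU w gw x‖ ^ 2) * φ x := sorry

/-- equation of `t = U/s = sin η` : `div (s² ∇t) = 2ω U w² / s - (U/s³) ‖J‖²`,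
`s² ∇t = (w/s) J` (module KPos) -/
theorem sin_eq {s U w : Pos3 → ℝ} {gs gU gw : Pos3 → Pos3} {om : ℝ} (hs : Amp s gs)
    (hp : Pair s U gU w gw om) {φ : Pos3 → ℝ} {gφ : Pos3 → Pos3} (hφ : BT φ gφ) :
    ∫ x, (w x / s x) * inner ℝ (J U gU w gw x) (gφ x) =
      - ∫ x, (2 * om * U x * w x ^ 2 / s x - U x / s x ^ 3 * ‖J U gU w gw x‖ ^ 2) * φ x := sorry

theorem w_pos {s U w : Pos3 → ℝ} {gs gU gw : Pos3 → Pos3} {om : ℝ} (hs : Amp s gs)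
    (hp : Pair s U gU w gw om) : ∀ᵐ x : Pos3, 0 < x 2 → 0 < w x := sorry

theorem U_pos {s U w : Pos3 → ℝ} {gs gU gw : Pos3 → Pos3} {om : ℝ} (hs : Amp s gs)
    (hp : Pair s U gU w gw om) : ∀ᵐ x : Pos3, 0 < U x := sorry

/-- spectral inequality for functions supported in a half space (module KSP) -/
theorem sp_half {s U w : Pos3 → ℝ} {gs gU gw : Pos3 → Pos3} {om : ℝ} (hs : Amp s gs)
    (hp : Pair s U gU w gw om) {f : Pos3 → ℝ} {g : Pos3 → Pos3} (hf : H1 f g)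
    (h0 : ∀ x : Pos3, x 2 ≤ 0 → f x = 0) :
    (∫⁻ x, ENNReal.ofReal (‖J U gU w gw x‖ ^ 2 / s x ^ 4 * f x ^ 2)) +
      ENNReal.ofReal (2 * om * ∫ x, U x ^ 2 / s x ^ 2 * f x ^ 2)
    ≤ ∫⁻ x, ENNReal.ofReal (‖g x - (f x / s x) • gs x‖ ^ 2) := sorry

/-- odd sector of the spectral inequality (module KSP) -/
theorem sp_odd {s U w : Pos3 → ℝ} {gs gU gw : Pos3 → Pos3} {om : ℝ} (hs : Amp s gs)
    (hp : Pair s U gU w gw om) {f : Pos3 → ℝ} {g : Pos3 → Pos3} (hf : H1 f g)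
    (hodd : ∀ x, f (rz x) = - f x) : SPIneq s gs U gU w gw om f g := sorry

/-- the full spectral inequality from its even sector -/
theorem sp_all {s U w : Pos3 → ℝ} {gs gU gw : Pos3 → Pos3} {om : ℝ} (hs : Amp s gs)
    (hp : Pair s U gU w gw om)
    (heven : ∀ f g, H1 f g → (∀ x, f (rz x) = f x) → SPIneq s gs U gU w gw om f g)
    {f : Pos3 → ℝ} {g : Pos3 → Pos3} (hf : H1 f g) : SPIneq s gs U gU w gw om f g := sorry

/-! ### T : minimality of the kinetic energy (modules KPauli, KTmin) -/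

theorem T_min {s U w : Pos3 → ℝ} {gs gU gw : Pos3 → Pos3} {om : ℝ} (hs : Amp s gs)
    (hp : Pair s U gU w gw om) (hsp : ∀ f g, H1 f g → SPIneq s gs U gU w gw om f g)
    {p : ℕ → ℝ≥0∞} {Φ : ℕ → Wave3} (hp1 : ∑' k, p k = 1)
    (hferm : ∀ k, IsFermionic (Φ k)) (hnorm : ∀ k, normSq (Φ k) = 1)
    (hkin : ∀ k, kinetic (Φ k) < ⊤)
    (hρ : ∀ A : Set Pos3, MeasurableSet A →
      ∑' k, p k * densityOn (Φ k) A = ∫⁻ x in A, ENNReal.ofReal (s x ^ 2)) :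
    ENNReal.ofReal ((1 / 2) * ((∫ x, ‖gU x‖ ^ 2) + ∫ x, ‖gw x‖ ^ 2)) ≤
      ∑' k, p k * kinetic (Φ k) := sorry

/-! ### S : Slater states (module KSlater) -/

/-- for an orthonormal pair `a, b` of real `H¹` functions there is a wave function (Slater
determinant of `a↑, a↓, b↑`) with the expected kinetic energy and density -/
theorem slater {a b : Pos3 → ℝ} {ga gb : Pos3 → Pos3} (ha : H1 a ga) (hb : H1 b gb)
    (haa : ∫ x, a x ^ 2 = 1) (hbb : ∫ x, b x ^ 2 = 1) (hab : ∫ x, a x * b x = 0) :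
    ∃ Φ : Wave3, IsFermionic Φ ∧ normSq Φ = 1 ∧
      kinetic Φ = ENNReal.ofReal ((∫ x, ‖ga x‖ ^ 2) + (1 / 2) * ∫ x, ‖gb x‖ ^ 2) ∧
      ∀ A : Set Pos3, MeasurableSet A →
        densityOn Φ A = ∫⁻ x in A, ENNReal.ofReal (2 * a x ^ 2 + b x ^ 2) := sorry

/-- potential energy through the density -/
theorem potential_density {v : Pos3 → ℝ} (hv : IsSumClassPotential v) {Φ : Wave3}
    (hΦ : IsFermionic Φ) (hk : kinetic Φ < ⊤) {ρ : Pos3 → ℝ≥0∞} (hρm : Measurable ρ)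
    (hρ : ∀ A : Set Pos3, MeasurableSet A → densityOn Φ A = ∫⁻ x in A, ρ x) :
    IsAdmissible (oneBodyPotential v) Φ ∧ Integrable (fun x => v x * (ρ x).toReal) ∧
      potentialEnergy (oneBodyPotential v) Φ = ∫ x, v x * (ρ x).toReal := sorry

/-- every fermionic wave function of finite kinetic energy has a density -/
theorem density_exists {Φ : Wave3} (hΦ : IsFermionic Φ) :
    ∃ ρ : Pos3 → ℝ≥0∞, Measurable ρ ∧
      ∀ A : Set Pos3, MeasurableSet A → densityOn Φ A = ∫⁻ x in A, ρ x := sorry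

/-! ### HK (module KHK) -/

/-- one-body calculus: minimality of `2 q(a) + q(b)` over orthonormal pairs gives the equations -/
theorem eq_of_min {v u w : Pos3 → ℝ} {gu gw : Pos3 → Pos3} (hv : IsSumClassPotential v)
    (hu : H1 u gu) (hw : H1 w gw) (huu : ∫ x, u x ^ 2 = 1) (hww : ∫ x, w x ^ 2 = 1)
    (huw : ∫ x, u x * w x = 0)
    (hmin : ∀ a ga b gb, H1 a ga → H1 b gb → ∫ x, a x ^ 2 = 1 → ∫ x, b x ^ 2 = 1 →
      ∫ x, a x * b x = 0 →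
      ((∫ x, ‖gu x‖ ^ 2) + 2 * (∫ x, v x * u x ^ 2)) +
          ((1 / 2) * (∫ x, ‖gw x‖ ^ 2) + ∫ x, v x * w x ^ 2) ≤
        ((∫ x, ‖ga x‖ ^ 2) + 2 * (∫ x, v x * a x ^ 2)) +
          ((1 / 2) * (∫ x, ‖gb x‖ ^ 2) + ∫ x, v x * b x ^ 2)) :
    ∃ e₁ e₂ : ℝ, WeakEq v e₁ u gu ∧ WeakEq v e₂ w gw := sorry

theorem HK {s U w : Pos3 → ℝ} {gs gU gw : Pos3 → Pos3} {om : ℝ} (hs : Amp s gs)
    (hp : Pair s U gU w gw om) (hsp : ∀ f g, H1 f g → SPIneq s gs U gU w gw om f g)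
    {Ψ : Wave3}
    (hΨ : ∀ A : Set Pos3, MeasurableSet A →
      densityOn Ψ A = ∫⁻ x in A, ENNReal.ofReal (s x ^ 2))
    (hrep : HasEnsembleRep Ψ) :
    ∃ (v : Pos3 → ℝ) (e : ℝ), IsSumClassPotential v ∧ WeakEq v e U gU ∧
      WeakEq v (e + om) w gw := sorry

/-! ### scaling (module KScale) -/

theorem scale_groundState {c : ℝ} (hc : 0 < c) {W : Config3 → ℝ} {Ψ : Wave3}
    (h : IsGroundState W Ψ) :
    IsGroundState (fun x => c ^ 2 * W (c • x)) (scaleW c Ψ) := sorry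

theorem scale_rep {c : ℝ} (hc : 0 < c) {Ψ : Wave3} (h : HasEnsembleRep Ψ) :
    HasEnsembleRep (scaleW c Ψ) := sorry

/-! ### FINAL of the Kohn-Sham side (module KFinal) -/

theorem not_rep {s U w : Pos3 → ℝ} {gs gU gw : Pos3 → Pos3} {om κ : ℝ} (hs : Amp s gs)
    (hp : Pair s U gU w gw om)
    (heven : ∀ f g, H1 f g → (∀ x, f (rz x) = f x) → SPIneq s gs U gU w gw om f g)
    (hκ : 0 < κ) (hkato : KatoInf s gs κ) (hlow : PlaneLow s κ) (hsm : SmallU s U)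
    {Ψ : Wave3}
    (hΨ : ∀ A : Set Pos3, MeasurableSet A →
      densityOn Ψ A = ∫⁻ x in A, ENNReal.ofReal (s x ^ 2)) :
    ¬ HasEnsembleRep Ψ := sorry

end Crest.Agent.R335.KI
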