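import Crest.Agent.R335.KDefs
import Crest.Agent.R335.HWeak
import Crest.Agent.R335.HPre
import Crest.Agent.R335.HMoll

/-!
Row 335 (S0521), module KSlab: thin slabs.
-/

set_option autoImplicit false
set_option linter.unusedSectionVars false

open MeasureTheory Filter Set Crest.MathPhysics.ThreeBody
open scoped ENNReal Topology ContDiff

noncomputable section
namespace Crest.Agent.R335

/-! ### one dimensional inequalities -/

theorem ks_ii {h : ℝ → ℝ} (hc : Continuous h) (a b : ℝ) :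
    IntervalIntegrable (fun t => h t ^ 2) volume a b :=
  (hc.pow 2).intervalIntegrable a b

theorem ks_cs (h : ℝ → ℝ) (hc : Continuous h) {z : ℝ} (hz : 0 < z) :
    (∫ t in (0 : ℝ)..z, h t) ^ 2 ≤ z * ∫ t in (0 : ℝ)..z, h t ^ 2 := by
  set A := ∫ t in (0 : ℝ)..z, h t with hA
  have h0 : 0 ≤ ∫ t in (0 : ℝ)..z, (h t - A / z) ^ 2 :=
    intervalIntegral.integral_nonneg hz.le fun t _ => sq_nonneg _
  have h1 : ∫ t in (0 : ℝ)..z, (h t - A / z) ^ 2 =
      (∫ t in (0 : ℝ)..z, h t ^ 2) - 2 * (A / z) * A + (A / z) ^ 2 * z := by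
    have e : ∀ t, (h t - A / z) ^ 2 = h t ^ 2 - 2 * (A / z) * h t + (A / z) ^ 2 := by
      intro t; ring
    simp_rw [e]
    rw [intervalIntegral.integral_add, intervalIntegral.integral_sub,
      intervalIntegral.integral_const_mul, ← hA]
    · simp [mul_comm]
    · exact (hc.pow 2).intervalIntegrable _ _
    · exact (continuous_const.mul hc).intervalIntegrable _ _
    · exact ((hc.pow 2).sub (continuous_const.mul hc)).intervalIntegrable _ _
    · exact continuous_const.intervalIntegrable _ _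
  rw [h1] at h0
  have h2 : 2 * (A / z) * A - (A / z) ^ 2 * z = A ^ 2 / z := by
    field_simp
    ring
  have h3 : A ^ 2 / z ≤ ∫ t in (0 : ℝ)..z, h t ^ 2 := by linarith
  rwa [div_le_iff₀ hz, mul_comm] at h3

/-- half slab -/
theorem ks_half {ψ ψ' : ℝ → ℝ} (hd : ∀ t, HasDerivAt ψ (ψ' t) t) (hc : Continuous ψ')
    (h0 : ψ 0 = 0) {d : ℝ} (hdp : 0 < d) :
    ∫ z in (0 : ℝ)..d, ψ z ^ 2 ≤ d ^ 2 * ∫ z in (0 : ℝ)..d, ψ' z ^ 2 := by
  have hψc : Continuous ψ := continuous_iff_continuousAt.2 fun t => (hd t).continuousAt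
  have key : ∀ z ∈ Icc (0 : ℝ) d, ψ z ^ 2 ≤ d * ∫ z in (0 : ℝ)..d, ψ' z ^ 2 := by
    intro z hz
    have hI : 0 ≤ ∫ z in (0 : ℝ)..d, ψ' z ^ 2 :=
      intervalIntegral.integral_nonneg hdp.le fun t _ => sq_nonneg _
    rcases hz.1.eq_or_lt with h | h
    · rw [← h, h0]
      simpa using mul_nonneg hdp.le hI
    · have e1 : ∫ t in (0 : ℝ)..z, ψ' t = ψ z := by
        rw [intervalIntegral.integral_eq_sub_of_hasDerivAt (fun t _ => hd t)
          (hc.intervalIntegrable _ _), h0, sub_zero]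
      have e2 := ks_cs ψ' hc h
      rw [e1] at e2
      have e3 : ∫ t in (0 : ℝ)..z, ψ' t ^ 2 ≤ ∫ t in (0 : ℝ)..d, ψ' t ^ 2 := by
        rw [← intervalIntegral.integral_add_adjacent_intervals (ks_ii hc 0 z) (ks_ii hc z d)]
        have : 0 ≤ ∫ t in z..d, ψ' t ^ 2 :=
          intervalIntegral.integral_nonneg hz.2 fun t _ => sq_nonneg _
        linarith
      have e4 : 0 ≤ ∫ t in (0 : ℝ)..z, ψ' t ^ 2 :=
        intervalIntegral.integral_nonneg h.le fun t _ => sq_nonneg _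
      calc ψ z ^ 2 ≤ z * ∫ t in (0 : ℝ)..z, ψ' t ^ 2 := e2
        _ ≤ d * ∫ t in (0 : ℝ)..z, ψ' t ^ 2 := mul_le_mul_of_nonneg_right hz.2 e4
        _ ≤ d * ∫ t in (0 : ℝ)..d, ψ' t ^ 2 := mul_le_mul_of_nonneg_left e3 hdp.le
  calc ∫ z in (0 : ℝ)..d, ψ z ^ 2 ≤ ∫ z in (0 : ℝ)..d, (d * ∫ z in (0 : ℝ)..d, ψ' z ^ 2) := by
        refine intervalIntegral.integral_mono_on hdp.le ((hψc.pow 2).intervalIntegrable _ _)
          (continuous_const.intervalIntegrable _ _) key
    _ = d ^ 2 * ∫ z in (0 : ℝ)..d, ψ' z ^ 2 := by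
        rw [intervalIntegral.integral_const]
        simp only [smul_eq_mul, sub_zero]
        ring

/-- slab inequality for functions vanishing at `0` -/
theorem ks_zero {ψ ψ' : ℝ → ℝ} (hd : ∀ t, HasDerivAt ψ (ψ' t) t) (hc : Continuous ψ')
    (h0 : ψ 0 = 0) {d : ℝ} (hdp : 0 < d) :
    ∫ z in (-d)..d, ψ z ^ 2 ≤ d ^ 2 * ∫ z in (-d)..d, ψ' z ^ 2 := by
  have hψc : Continuous ψ := continuous_iff_continuousAt.2 fun t => (hd t).continuousAt
  have h1 := ks_half hd hc h0 hdp
  have hd2 : ∀ t, HasDerivAt (fun t => ψ (-t)) (-ψ' (-t)) t := by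
    intro t
    have := (hd (-t)).scomp t (hasDerivAt_neg t)
    simpa [Function.comp_def] using this
  have h2 := ks_half hd2 (hc.comp continuous_neg).neg (by simpa using h0) hdp
  have e1 : ∫ z in (0 : ℝ)..d, ψ (-z) ^ 2 = ∫ z in (-d)..0, ψ z ^ 2 := by
    have := intervalIntegral.integral_comp_neg (a := 0) (b := d) (fun z => ψ z ^ 2)
    simpa using this
  have e2 : ∫ z in (0 : ℝ)..d, (-ψ' (-z)) ^ 2 = ∫ z in (-d)..0, ψ' z ^ 2 := by
    have := intervalIntegral.integral_comp_neg (a := 0) (b := d) (fun z => ψ' z ^ 2)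
    simpa using this
  rw [e1, e2] at h2
  rw [← intervalIntegral.integral_add_adjacent_intervals (ks_ii hψc (-d) 0) (ks_ii hψc 0 d),
    ← intervalIntegral.integral_add_adjacent_intervals (ks_ii hc (-d) 0) (ks_ii hc 0 d)]
  linarith

/-- slab inequality for the odd part -/
theorem ks_odd1 {ψ ψ' : ℝ → ℝ} (hd : ∀ t, HasDerivAt ψ (ψ' t) t) (hc : Continuous ψ')
    {d : ℝ} (hdp : 0 < d) :
    ∫ z in (-d)..d, ((ψ z - ψ (-z)) / 2) ^ 2 ≤ d ^ 2 * ∫ z in (-d)..d, ψ' z ^ 2 := by
  have hd2 : ∀ t, HasDerivAt (fun t => (ψ t - ψ (-t)) / 2) ((ψ' t + ψ' (-t)) / 2) t := by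
    intro t
    have h1 := (hd (-t)).scomp t (hasDerivAt_neg t)
    have h2 := ((hd t).sub h1).div_const 2
    have e : (ψ' t + ψ' (-t)) / 2 = (ψ' t - (-1 : ℝ) • ψ' (-t)) / 2 := by
      simp
    rw [e]
    exact h2
  have hc2 : Continuous fun t => (ψ' t + ψ' (-t)) / 2 :=
    (hc.add (hc.comp continuous_neg)).div_const 2
  have h := ks_zero hd2 hc2 (by simp) hdp
  have hcn : Continuous fun t => ψ' (-t) := hc.comp continuous_neg
  have e2 : ∫ z in (-d)..d, ψ' (-z) ^ 2 = ∫ z in (-d)..d, ψ' z ^ 2 := by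
    have := intervalIntegral.integral_comp_neg (a := -d) (b := d) (fun z => ψ' z ^ 2)
    simpa using this
  have h3 : ∫ z in (-d)..d, ((ψ' z + ψ' (-z)) / 2) ^ 2 ≤ ∫ z in (-d)..d, ψ' z ^ 2 := by
    calc ∫ z in (-d)..d, ((ψ' z + ψ' (-z)) / 2) ^ 2
        ≤ ∫ z in (-d)..d, (1 / 2 * ψ' z ^ 2 + 1 / 2 * ψ' (-z) ^ 2) := by
          refine intervalIntegral.integral_mono_on (by linarith)
            ((hc2.pow 2).intervalIntegrable _ _) (((continuous_const.mul (hc.pow 2)).add
            (continuous_const.mul (hcn.pow 2))).intervalIntegrable _ _) fun z _ => ?_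
          nlinarith [sq_nonneg (ψ' z - ψ' (-z))]
      _ = ∫ z in (-d)..d, ψ' z ^ 2 := by
          rw [intervalIntegral.integral_add ((ks_ii hc (-d) d).const_mul (1 / 2))
            ((ks_ii hcn (-d) d).const_mul (1 / 2)),
            intervalIntegral.integral_const_mul, intervalIntegral.integral_const_mul, e2]
          ring
  exact h.trans (mul_le_mul_of_nonneg_left h3 (sq_nonneg d))

/-- sup bound -/
theorem ks_sup {ψ : ℝ → ℝ} (hψ : ContDiff ℝ 1 ψ) (hcs : HasCompactSupport ψ) (z : ℝ) :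
    ψ z ^ 2 ≤ ∫ t, (ψ t ^ 2 + deriv ψ t ^ 2) := by
  have hdc : Continuous (deriv ψ) := hψ.continuous_deriv (by norm_num)
  have h2 : ContDiff ℝ 1 (fun t => ψ t ^ 2) := hψ.pow 2
  have hcs2 : HasCompactSupport (fun t => ψ t ^ 2) := by
    have : HasCompactSupport (fun t => ψ t * ψ t) := hcs.mul_left
    simpa [sq] using this
  have e := hcs2.integral_Iic_deriv_eq h2 z
  have hder : ∀ t, deriv (fun t => ψ t ^ 2) t = 2 * ψ t * deriv ψ t := by
    intro t
    have := ((hψ.differentiable (by norm_num) t).hasDerivAt.fun_pow 2).deriv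
    simpa using this
  have hcsd : HasCompactSupport (deriv ψ) := hcs.deriv
  have hcsd2 : HasCompactSupport (fun t => deriv ψ t ^ 2) := by
    have : HasCompactSupport (fun t => deriv ψ t * deriv ψ t) := hcsd.mul_left
    simpa [sq] using this
  have hint : Integrable (fun t => ψ t ^ 2 + deriv ψ t ^ 2) :=
    ((hψ.continuous.pow 2).integrable_of_hasCompactSupport hcs2).add
      ((hdc.pow 2).integrable_of_hasCompactSupport hcsd2)
  have hint2 : Integrable (fun t => 2 * ψ t * deriv ψ t) := by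
    refine ((continuous_const.mul hψ.continuous).mul hdc).integrable_of_hasCompactSupport ?_
    exact hcsd.mul_left
  rw [← e]
  simp_rw [hder]
  calc ∫ t in Iic z, 2 * ψ t * deriv ψ t ≤ ∫ t in Iic z, (ψ t ^ 2 + deriv ψ t ^ 2) := by
        refine integral_mono hint2.integrableOn hint.integrableOn fun t => ?_
        show 2 * ψ t * deriv ψ t ≤ ψ t ^ 2 + deriv ψ t ^ 2
        nlinarith [sq_nonneg (ψ t - deriv ψ t)]
    _ ≤ ∫ t, (ψ t ^ 2 + deriv ψ t ^ 2) :=
        setIntegral_le_integral hint (Eventually.of_forall fun t => by positivity)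

/-- half-open form used on slabs -/
theorem ks_odd_lint {ψ ψ' : ℝ → ℝ} (hd : ∀ t, HasDerivAt ψ (ψ' t) t) (hc : Continuous ψ')
    {d : ℝ} (hdp : 0 < d) :
    ∫⁻ z in {z : ℝ | |z| ≤ d}, ENNReal.ofReal (((ψ z - ψ (-z)) / 2) ^ 2) ≤
      ∫⁻ z, ENNReal.ofReal (d ^ 2 * ψ' z ^ 2) := by
  have hψc : Continuous ψ := continuous_iff_continuousAt.2 fun t => (hd t).continuousAt
  have hoc : Continuous fun z => (ψ z - ψ (-z)) / 2 :=
    (hψc.sub (hψc.comp continuous_neg)).div_const 2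
  have hset : {z : ℝ | |z| ≤ d} = Icc (-d) d := by
    ext z; simp [abs_le]
  have h := ks_odd1 hd hc hdp
  rw [intervalIntegral.integral_of_le (by linarith), intervalIntegral.integral_of_le (by linarith),
    ← integral_Icc_eq_integral_Ioc, ← integral_Icc_eq_integral_Ioc] at h
  have i1 : IntegrableOn (fun z => ((ψ z - ψ (-z)) / 2) ^ 2) (Icc (-d) d) :=
    (hoc.pow 2).integrableOn_Icc
  have i2 : IntegrableOn (fun z => d ^ 2 * ψ' z ^ 2) (Icc (-d) d) :=
    (continuous_const.mul (hc.pow 2)).integrableOn_Icc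
  rw [hset, ← ofReal_integral_eq_lintegral_ofReal i1 (Eventually.of_forall fun z => sq_nonneg _)]
  calc ENNReal.ofReal (∫ z in Icc (-d) d, ((ψ z - ψ (-z)) / 2) ^ 2)
      ≤ ENNReal.ofReal (∫ z in Icc (-d) d, d ^ 2 * ψ' z ^ 2) := by
        refine ENNReal.ofReal_le_ofReal ?_
        rw [integral_const_mul]
        exact h
    _ = ∫⁻ z in Icc (-d) d, ENNReal.ofReal (d ^ 2 * ψ' z ^ 2) :=
        ofReal_integral_eq_lintegral_ofReal i2 (Eventually.of_forall fun z => by positivity)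
    _ ≤ ∫⁻ z, ENNReal.ofReal (d ^ 2 * ψ' z ^ 2) := setLIntegral_le_lintegral _ _

theorem ks_sup_lint {ψ : ℝ → ℝ} (hψ : ContDiff ℝ 1 ψ) (hcs : HasCompactSupport ψ) {d : ℝ}
    (hdp : 0 < d) :
    ∫⁻ z in {z : ℝ | |z| ≤ d}, ENNReal.ofReal (ψ z ^ 2) ≤
      ∫⁻ z, ENNReal.ofReal (2 * d * (deriv ψ z ^ 2 + ψ z ^ 2)) := by
  have hset : {z : ℝ | |z| ≤ d} = Icc (-d) d := by
    ext z; simp [abs_le]
  have hdc : Continuous (deriv ψ) := hψ.continuous_deriv (by norm_num)
  have hcs2 : HasCompactSupport (fun t => ψ t ^ 2) := by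
    have : HasCompactSupport (fun t => ψ t * ψ t) := hcs.mul_left
    simpa [sq] using this
  have hcsd2 : HasCompactSupport (fun t => deriv ψ t ^ 2) := by
    have : HasCompactSupport (fun t => deriv ψ t * deriv ψ t) := hcs.deriv.mul_left
    simpa [sq] using this
  have hint : Integrable (fun t => ψ t ^ 2 + deriv ψ t ^ 2) :=
    ((hψ.continuous.pow 2).integrable_of_hasCompactSupport hcs2).add
      ((hdc.pow 2).integrable_of_hasCompactSupport hcsd2)
  set M := ∫ t, (ψ t ^ 2 + deriv ψ t ^ 2) with hM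
  have hM0 : 0 ≤ M := integral_nonneg fun t => by positivity
  rw [hset]
  calc ∫⁻ z in Icc (-d) d, ENNReal.ofReal (ψ z ^ 2)
      ≤ ∫⁻ z in Icc (-d) d, ENNReal.ofReal M :=
        lintegral_mono fun z => ENNReal.ofReal_le_ofReal (ks_sup hψ hcs z)
    _ = ENNReal.ofReal (2 * d * M) := by
        rw [setLIntegral_const, Real.volume_Icc, ← ENNReal.ofReal_mul hM0]
        congr 1
        ring
    _ = ENNReal.ofReal (∫ z, 2 * d * (deriv ψ z ^ 2 + ψ z ^ 2)) := by
        rw [integral_const_mul, hM]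
        simp_rw [add_comm]
    _ = ∫⁻ z, ENNReal.ofReal (2 * d * (deriv ψ z ^ 2 + ψ z ^ 2)) := by
        refine ofReal_integral_eq_lintegral_ofReal ?_
          (Eventually.of_forall fun z => by positivity)
        refine Integrable.const_mul ?_ _
        simpa [add_comm] using hint

theorem ks_memf {φ : Pos3 → ℝ} (h : Test univ φ) : MemLp φ 2 volume :=
  h.smooth.continuous.memLp_of_hasCompactSupport h.cpt

theorem ks_memg {φ : Pos3 → ℝ} (h : Test univ φ) : MemLp (gr φ) 2 volume := by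
  have hc : Continuous (gr φ) := continuous_gr h.contDiff_one
  refine hc.memLp_of_hasCompactSupport ?_
  exact HasCompactSupport.intro h.cpt.isCompact fun x hx => gr_eq_zero_of_notMem' hx

/-! ### slicing `Pos3` in the third coordinate -/

/-- the point with third coordinate `z` -/
def mk3 (z : ℝ) (y : Fin 2 → ℝ) : Pos3 := WithLp.toLp 2 (Fin.insertNth (2 : Fin 3) z y)

theorem mk3_two (z : ℝ) (y : Fin 2 → ℝ) : mk3 z y 2 = z := by
  simp [mk3]

theorem mk3_add (z : ℝ) (y : Fin 2 → ℝ) :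
    mk3 z y = mk3 0 y + z • EuclideanSpace.single (2 : Fin 3) (1 : ℝ) := by
  ext i
  fin_cases i
  · simp [mk3, Fin.insertNth, Fin.succAboveCases]
  · simp [mk3, Fin.insertNth, Fin.succAboveCases]
  · simp [mk3, Fin.insertNth, Fin.succAboveCases]

theorem rz_mk3 (z : ℝ) (y : Fin 2 → ℝ) : rz (mk3 z y) = mk3 (-z) y := by
  ext i
  rw [rz_apply]
  fin_cases i
  · simp [mk3, Fin.insertNth, Fin.succAboveCases]
  · simp [mk3, Fin.insertNth, Fin.succAboveCases]
  · simp [mk3, Fin.insertNth, Fin.succAboveCases]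

theorem mk3_lintegral (F : Pos3 → ℝ≥0∞) (hF : Measurable F) :
    ∫⁻ x, F x = ∫⁻ y : Fin 2 → ℝ, ∫⁻ z : ℝ, F (mk3 z y) := by
  have h1 := (PiLp.volume_preserving_toLp (Fin 3)).lintegral_comp hF
  rw [← h1]
  have h2 := (volume_preserving_piFinSuccAbove (fun _ : Fin 3 => ℝ) 2).symm
  have h3 := h2.lintegral_comp (f := fun a => F (WithLp.toLp 2 a))
    (hF.comp (PiLp.continuous_toLp 2 _).measurable)
  rw [← h3, Measure.volume_eq_prod, lintegral_prod_symm']
  · rfl
  · exact (hF.comp (PiLp.continuous_toLp 2 _).measurable).comp (MeasurableEquiv.measurable _)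

theorem mk3_hasDerivAt {φ : Pos3 → ℝ} (hφ : ContDiff ℝ 1 φ) (y : Fin 2 → ℝ) (z : ℝ) :
    HasDerivAt (fun z => φ (mk3 z y)) (pd 2 φ (mk3 z y)) z := by
  have h1 : HasDerivAt (fun z : ℝ => mk3 z y) (EuclideanSpace.single (2 : Fin 3) (1 : ℝ)) z := by
    have e : (fun z : ℝ => mk3 z y) =
        fun z : ℝ => mk3 0 y + z • EuclideanSpace.single (2 : Fin 3) (1 : ℝ) := by
      funext z
      exact mk3_add z y
    rw [e]
    have := ((hasDerivAt_id z).smul_const (EuclideanSpace.single (2 : Fin 3) (1 : ℝ))).const_add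
      (mk3 0 y)
    simpa using this
  exact ((hφ.differentiable (by norm_num) (mk3 z y)).hasFDerivAt).comp_hasDerivAt z h1

theorem mk3_contDiff {φ : Pos3 → ℝ} (hφ : ContDiff ℝ 1 φ) (y : Fin 2 → ℝ) :
    ContDiff ℝ 1 (fun z => φ (mk3 z y)) := by
  have e : (fun z : ℝ => φ (mk3 z y)) =
      fun z : ℝ => φ (mk3 0 y + z • EuclideanSpace.single (2 : Fin 3) (1 : ℝ)) := by
    funext z
    rw [mk3_add z y]
  rw [e]
  exact hφ.comp (contDiff_const.add (contDiff_id.smul contDiff_const))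

theorem mk3_continuous (y : Fin 2 → ℝ) : Continuous (fun z : ℝ => mk3 z y) := by
  have e : (fun z : ℝ => mk3 z y) =
      fun z : ℝ => mk3 0 y + z • EuclideanSpace.single (2 : Fin 3) (1 : ℝ) := by
    funext z
    exact mk3_add z y
  rw [e]
  fun_prop

theorem mk3_cs {φ : Pos3 → ℝ} (hφ : HasCompactSupport φ) (y : Fin 2 → ℝ) :
    HasCompactSupport (fun z => φ (mk3 z y)) := by
  obtain ⟨R, hR⟩ := hφ.isCompact.isBounded.subset_closedBall (0 : Pos3)
  refine HasCompactSupport.intro (isCompact_Icc (a := -R) (b := R)) fun z hz => ?_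
  refine image_eq_zero_of_notMem_tsupport fun h => hz ?_
  have h1 := hR h
  rw [mem_closedBall_zero_iff] at h1
  have h2 : ‖mk3 z y 2‖ ≤ ‖mk3 z y‖ := PiLp.norm_apply_le _ _
  rw [mk3_two, Real.norm_eq_abs] at h2
  exact abs_le.1 (h2.trans h1)

theorem pd_sq_le (φ : Pos3 → ℝ) (x : Pos3) : pd 2 φ x ^ 2 ≤ ‖gr φ x‖ ^ 2 := by
  have h : ‖gr φ x 2‖ ≤ ‖gr φ x‖ := PiLp.norm_apply_le _ _
  rw [gr_apply, Real.norm_eq_abs] at h
  rw [← sq_abs]
  exact pow_le_pow_left₀ (abs_nonneg _) h 2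

theorem slab_meas (d : ℝ) : MeasurableSet {x : Pos3 | |x 2| ≤ d} := by
  refine measurableSet_le ?_ measurable_const
  exact (continuous_abs.comp (EuclideanSpace.proj (𝕜 := ℝ) (2 : Fin 3)).continuous).measurable

theorem slab_lint {d : ℝ} {F G : Pos3 → ℝ≥0∞} (hF : Measurable F) (hG : Measurable G)
    (h : ∀ y : Fin 2 → ℝ, ∫⁻ z in {z : ℝ | |z| ≤ d}, F (mk3 z y) ≤ ∫⁻ z, G (mk3 z y)) :
    ∫⁻ x in {x : Pos3 | |x 2| ≤ d}, F x ≤ ∫⁻ x, G x := by
  rw [← lintegral_indicator (slab_meas d), mk3_lintegral _ (hF.indicator (slab_meas d)),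
    mk3_lintegral _ hG]
  refine lintegral_mono fun y => ?_
  refine le_trans (le_of_eq ?_) (h y)
  have hm : MeasurableSet {z : ℝ | |z| ≤ d} :=
    measurableSet_le continuous_abs.measurable measurable_const
  rw [← lintegral_indicator hm]
  refine lintegral_congr fun z => ?_
  simp only [indicator, Set.mem_ofPred_eq, mk3_two]

theorem slab_sup_test {φ : Pos3 → ℝ} (hφ : Test univ φ) {d : ℝ} (hd : 0 < d) :
    ∫ x in {x : Pos3 | |x 2| ≤ d}, φ x ^ 2 ≤ 2 * d * ((∫ x, ‖gr φ x‖ ^ 2) + ∫ x, φ x ^ 2) := by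
  have hgc : Continuous (gr φ) := continuous_gr hφ.contDiff_one
  have i1 : Integrable (fun x => φ x ^ 2) := (ks_memf hφ).integrable_sq
  have i2 : Integrable (fun x => ‖gr φ x‖ ^ 2) :=
    (ks_memg hφ).integrable_norm_pow (by norm_num)
  have hl := slab_lint (d := d) (F := fun x => ENNReal.ofReal (φ x ^ 2))
    (G := fun x => ENNReal.ofReal (2 * d * (pd 2 φ x ^ 2 + φ x ^ 2)))
    (hφ.continuous.pow 2).measurable.ennreal_ofReal
    (continuous_const.mul (((hφ.continuous_pd 2).pow 2).add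
      (hφ.continuous.pow 2))).measurable.ennreal_ofReal fun y => by
        have := ks_sup_lint (mk3_contDiff hφ.contDiff_one y) (mk3_cs hφ.cpt y) hd
        have e : ∀ z, deriv (fun z => φ (mk3 z y)) z = pd 2 φ (mk3 z y) := fun z =>
          (mk3_hasDerivAt hφ.contDiff_one y z).deriv
        simp_rw [e] at this
        exact this
  have hl2 : ∫⁻ x in {x : Pos3 | |x 2| ≤ d}, ENNReal.ofReal (φ x ^ 2) ≤
      ∫⁻ x, ENNReal.ofReal (2 * d * (‖gr φ x‖ ^ 2 + φ x ^ 2)) := by
    refine hl.trans (lintegral_mono fun x => ENNReal.ofReal_le_ofReal ?_)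
    have := pd_sq_le φ x
    have h2 : 0 ≤ 2 * d := by positivity
    exact mul_le_mul_of_nonneg_left (by linarith) h2
  have i3 : Integrable (fun x => 2 * d * (‖gr φ x‖ ^ 2 + φ x ^ 2)) := (i2.add i1).const_mul (2 * d)
  rw [← ofReal_integral_eq_lintegral_ofReal i1.integrableOn
    (Eventually.of_forall fun x => sq_nonneg _), ← ofReal_integral_eq_lintegral_ofReal
    i3 (Eventually.of_forall fun x => by positivity),
    ENNReal.ofReal_le_ofReal_iff (integral_nonneg fun x => by positivity),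
    integral_const_mul, integral_add i2 i1] at hl2
  exact hl2

theorem slab_odd_test {φ : Pos3 → ℝ} (hφ : Test univ φ) {d : ℝ} (hd : 0 < d) :
    ∫ x in {x : Pos3 | |x 2| ≤ d}, ((φ x - φ (rz x)) / 2) ^ 2 ≤ d ^ 2 * ∫ x, ‖gr φ x‖ ^ 2 := by
  have hgc : Continuous (gr φ) := continuous_gr hφ.contDiff_one
  have i2 : Integrable (fun x => ‖gr φ x‖ ^ 2) :=
    (ks_memg hφ).integrable_norm_pow (by norm_num)
  have hrc : Continuous (fun x => φ (rz x)) := hφ.continuous.comp rz.continuous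
  have hmr : MemLp (fun x => φ (rz x)) 2 volume := by
    have := (ks_memf hφ).comp_measurePreserving rz.measurePreserving
    exact this
  have hm : MemLp (fun x => (φ x - φ (rz x)) / 2) 2 volume := by
    have := ((ks_memf hφ).sub hmr).const_mul (1 / 2)
    refine this.congr_norm ((hφ.continuous.sub hrc).div_const 2).aestronglyMeasurable
      (Eventually.of_forall fun x => ?_)
    simp only [Pi.sub_apply]
    congr 1
    ring
  have i1 : Integrable (fun x => ((φ x - φ (rz x)) / 2) ^ 2) := hm.integrable_sq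
  have hl := slab_lint (d := d) (F := fun x => ENNReal.ofReal (((φ x - φ (rz x)) / 2) ^ 2))
    (G := fun x => ENNReal.ofReal (d ^ 2 * pd 2 φ x ^ 2))
    (((hφ.continuous.sub hrc).div_const 2).pow 2).measurable.ennreal_ofReal
    (continuous_const.mul ((hφ.continuous_pd 2).pow 2)).measurable.ennreal_ofReal fun y => by
        have := ks_odd_lint (fun t => mk3_hasDerivAt hφ.contDiff_one y t)
          ((hφ.continuous_pd 2).comp (mk3_continuous y)) hd
        simp_rw [rz_mk3]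
        exact this
  have hl2 : ∫⁻ x in {x : Pos3 | |x 2| ≤ d}, ENNReal.ofReal (((φ x - φ (rz x)) / 2) ^ 2) ≤
      ∫⁻ x, ENNReal.ofReal (d ^ 2 * ‖gr φ x‖ ^ 2) :=
    hl.trans (lintegral_mono fun x => ENNReal.ofReal_le_ofReal
      (mul_le_mul_of_nonneg_left (pd_sq_le φ x) (sq_nonneg d)))
  rw [← ofReal_integral_eq_lintegral_ofReal i1.integrableOn
    (Eventually.of_forall fun x => sq_nonneg _), ← ofReal_integral_eq_lintegral_ofReal
    (i2.const_mul (d ^ 2)) (Eventually.of_forall fun x => by positivity),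
    ENNReal.ofReal_le_ofReal_iff (integral_nonneg fun x => by positivity),
    integral_const_mul] at hl2
  exact hl2

/-! ### passage to the limit -/

theorem ks_tendsto_sq {α F : Type*} [MeasurableSpace α] {μ : Measure α} [NormedAddCommGroup F]
    [InnerProductSpace ℝ F] {a : ℕ → α → F} {b : α → F} (ha : ∀ n, MemLp (a n) 2 μ)
    (hb : MemLp b 2 μ) (h : Tendsto (fun n => eLpNorm (fun x => a n x - b x) 2 μ) atTop (𝓝 0)) :
    Tendsto (fun n => ∫ x, ‖a n x‖ ^ 2 ∂μ) atTop (𝓝 (∫ x, ‖b x‖ ^ 2 ∂μ)) := by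
  have h1 : Tendsto (fun n => (ha n).toLp (a n)) atTop (𝓝 (hb.toLp b)) := by
    rw [Lp.tendsto_Lp_iff_tendsto_eLpNorm'']
    exact h
  have h2 := (h1.norm).pow 2
  simp_rw [norm_toLp_sq] at h2
  exact h2

/-- thin slab: `∫_{|z| ≤ h} f² ≤ 2 h (∫ ‖∇f‖² + ∫ f²)` -/
theorem slab_bound {f : Pos3 → ℝ} {g : Pos3 → Pos3} (h : H1 f g) {d : ℝ} (hd : 0 < d) :
    ∫ x in {x : Pos3 | |x 2| ≤ d}, f x ^ 2 ≤ 2 * d * ((∫ x, ‖g x‖ ^ 2) + ∫ x, f x ^ 2) := by
  obtain ⟨φ, hφ, h1, h2, -⟩ := H1.approx h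
  have t1 := ks_tendsto_sq (fun n => (ks_memf (hφ n))) h.memf h1
  have t2 := ks_tendsto_sq (fun n => (ks_memg (hφ n))) h.memg h2
  have t3 : Tendsto (fun n => ∫ x in {x : Pos3 | |x 2| ≤ d}, ‖φ n x‖ ^ 2) atTop
      (𝓝 (∫ x in {x : Pos3 | |x 2| ≤ d}, ‖f x‖ ^ 2)) := by
    refine ks_tendsto_sq (fun n => (ks_memf (hφ n)).restrict _) (h.memf.restrict _) ?_
    exact tendsto_of_tendsto_of_tendsto_of_le_of_le tendsto_const_nhds h1 (fun n => zero_le)
      fun n => eLpNorm_mono_measure _ Measure.restrict_le_self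
  simp only [Real.norm_eq_abs, sq_abs] at t1 t3
  exact le_of_tendsto_of_tendsto t3 ((t2.add t1).const_mul (2 * d))
    (Eventually.of_forall fun n => slab_sup_test (hφ n) hd)

/-- thin slab for odd functions: `∫_{|z| ≤ h} f² ≤ h² ∫ ‖∇f‖²` -/
theorem slab_odd {f : Pos3 → ℝ} {g : Pos3 → Pos3} (h : H1 f g) (hodd : ∀ x, f (rz x) = - f x)
    {d : ℝ} (hd : 0 < d) :
    ∫ x in {x : Pos3 | |x 2| ≤ d}, f x ^ 2 ≤ d ^ 2 * ∫ x, ‖g x‖ ^ 2 := by
  obtain ⟨φ, hφ, h1, h2, -⟩ := H1.approx h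
  have t2 := ks_tendsto_sq (fun n => (ks_memg (hφ n))) h.memg h2
  have hmr : ∀ n, MemLp (fun x => φ n (rz x)) 2 volume := fun n =>
    (ks_memf (hφ n)).comp_measurePreserving rz.measurePreserving
  have hmo : ∀ n, MemLp (fun x => (φ n x - φ n (rz x)) / 2) 2 volume := by
    intro n
    have := ((ks_memf (hφ n)).sub (hmr n)).const_mul (1 / 2)
    refine this.congr_norm ?_ (Eventually.of_forall fun x => ?_)
    · exact (((hφ n).continuous.sub ((hφ n).continuous.comp rz.continuous)).div_const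
        2).aestronglyMeasurable
    · simp only [Pi.sub_apply]
      congr 1
      ring
  have hle : ∀ n, eLpNorm (fun x => (φ n x - φ n (rz x)) / 2 - f x) 2 volume ≤
      eLpNorm (fun x => φ n x - f x) 2 volume := by
    intro n
    have e : (fun x => (φ n x - φ n (rz x)) / 2 - f x) =
        (fun x => (1 / 2 : ℝ) * (φ n x - f x)) + fun x => (-(1 / 2) : ℝ) * (φ n (rz x) - f (rz x)) := by
      funext x
      simp only [Pi.add_apply, hodd]
      ring
    have hs : MemLp (fun x => φ n x - f x) 2 volume := (ks_memf (hφ n)).sub h.memf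
    have hs2 : eLpNorm (fun x => φ n (rz x) - f (rz x)) 2 volume =
        eLpNorm (fun x => φ n x - f x) 2 volume := by
      have := eLpNorm_comp_measurePreserving (p := 2) hs.1 rz.measurePreserving
      exact this
    have hs3 : MemLp (fun x => φ n (rz x) - f (rz x)) 2 volume :=
      hs.comp_measurePreserving rz.measurePreserving
    rw [e]
    refine (eLpNorm_add_le (hs.const_mul _).1 (hs3.const_mul _).1 (by norm_num)).trans ?_
    have e1 : eLpNorm (fun x => (1 / 2 : ℝ) * (φ n x - f x)) 2 volume =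
        ENNReal.ofReal (1 / 2) * eLpNorm (fun x => φ n x - f x) 2 volume := by
      have := eLpNorm_const_smul (1 / 2 : ℝ) (fun x => φ n x - f x) 2 (volume : Measure Pos3)
      rw [Real.enorm_eq_ofReal (by norm_num)] at this
      exact this
    have e2 : eLpNorm (fun x => (-(1 / 2) : ℝ) * (φ n (rz x) - f (rz x))) 2 volume =
        ENNReal.ofReal (1 / 2) * eLpNorm (fun x => φ n x - f x) 2 volume := by
      have := eLpNorm_const_smul (-(1 / 2) : ℝ) (fun x => φ n (rz x) - f (rz x)) 2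
        (volume : Measure Pos3)
      rw [enorm_neg, Real.enorm_eq_ofReal (by norm_num), hs2] at this
      exact this
    rw [e1, e2, ← add_mul, ← ENNReal.ofReal_add (by norm_num) (by norm_num)]
    norm_num
  have t3 : Tendsto (fun n => ∫ x in {x : Pos3 | |x 2| ≤ d}, ‖(φ n x - φ n (rz x)) / 2‖ ^ 2) atTop
      (𝓝 (∫ x in {x : Pos3 | |x 2| ≤ d}, ‖f x‖ ^ 2)) := by
    refine ks_tendsto_sq (fun n => (hmo n).restrict _) (h.memf.restrict _) ?_
    exact tendsto_of_tendsto_of_tendsto_of_le_of_le tendsto_const_nhds h1 (fun n => zero_le)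
      fun n => (eLpNorm_mono_measure _ Measure.restrict_le_self).trans (hle n)
  simp only [Real.norm_eq_abs, sq_abs] at t3
  exact le_of_tendsto_of_tendsto t3 (t2.const_mul (d ^ 2))
    (Eventually.of_forall fun n => slab_odd_test (hφ n) hd)

end Crest.Agent.R335
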