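import Crest.Agent.R335.KTest
import Crest.Agent.R335.KPot
import Crest.Agent.R335.KSlab

/-!
# Row 335 (S0521): Kohn-Sham side, module KOff : the potential off the plane
-/

set_option autoImplicit false
set_option linter.unusedVariables false
set_option linter.unusedSectionVars false

open MeasureTheory Filter Set Crest.MathPhysics.ThreeBody
open scoped ENNReal Topology ContDiff

noncomputable section
namespace Crest.Agent.R335

/-! ### pointwise algebra -/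

section pt
variable {V : Type*} [NormedAddCommGroup V] [InnerProductSpace ℝ V]

theorem koff_gw {s U w : ℝ} {gs gU gw : V} (hs : 0 < s) (hsq : U ^ 2 + w ^ 2 = s ^ 2)
    (h : s • gs = U • gU + w • gw) :
    gw = (w / s) • gs - (U / s ^ 2) • (w • gU - U • gw) := by
  have e : (s ^ 2) • gw = (w * s) • gs - U • (w • gU - U • gw) := by
    rw [mul_smul, h, ← hsq]
    module
  have hs2 : s ^ 2 ≠ 0 := by positivity
  calc gw = (s ^ 2)⁻¹ • ((s ^ 2) • gw) := by rw [smul_smul, inv_mul_cancel₀ hs2, one_smul]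
    _ = (s ^ 2)⁻¹ • ((w * s) • gs - U • (w • gU - U • gw)) := by rw [e]
    _ = _ := by
      rw [smul_sub, smul_smul, smul_smul]
      congr 2
      · field_simp
      · field_simp

theorem koff_pt {s U w p : ℝ} {gs gw J gp : V} (hs : 0 < s) (hw : w ≠ 0)
    (hsq : U ^ 2 + w ^ 2 = s ^ 2) (hgw : gw = (w / s) • gs - (U / s ^ 2) • J) :
    inner ℝ gw ((2 * p / w) • gp - (p ^ 2 / w ^ 2) • gw) =
      inner ℝ gs ((2 * p / s) • gp - (p ^ 2 / s ^ 2) • gs)
      - inner ℝ J ((p ^ 2 / (w ^ 2 * s ^ 2)) • J + (2 * p * U / (w * s ^ 2)) • gp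
          - (2 * U * p ^ 2 / (w * s ^ 3)) • gs)
      + ‖J‖ ^ 2 / s ^ 4 * p ^ 2 := by
  subst hgw
  have hc : (inner ℝ J gs : ℝ) = inner ℝ gs J := real_inner_comm _ _
  simp only [inner_sub_left, inner_sub_right, inner_add_right, real_inner_smul_left,
    real_inner_smul_right, hc]
  simp only [real_inner_self_eq_norm_sq]
  set A : ℝ := ‖gs‖ ^ 2
  set B : ℝ := inner ℝ gs J
  set D : ℝ := inner ℝ gs gp
  set E : ℝ := inner ℝ J gp
  set F : ℝ := ‖J‖ ^ 2
  have hs0 : s ≠ 0 := hs.ne'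
  linear_combination (norm := (field_simp; ring)) (-(F * p ^ 2 / (w ^ 2 * s ^ 4))) * hsq

theorem koff_small_pt {s U w p t : ℝ} {gs J gp : V} (hs : 0 < s) (hw : w ≠ 0)
    (hsq : U ^ 2 + w ^ 2 = s ^ 2) (hU : 0 ≤ U) (ht : 0 < t) (ht2 : t ≤ 1 / 2) (hUs : U ≤ t * s) :
    (1 / 2) * (‖J‖ ^ 2 / s ^ 4 * p ^ 2) - (16 / 3) * t ^ 2 * (‖gp‖ ^ 2 + ‖gs‖ ^ 2 / s ^ 2 * p ^ 2) ≤
      inner ℝ J ((p ^ 2 / (w ^ 2 * s ^ 2)) • J + (2 * p * U / (w * s ^ 2)) • gp
          - (2 * U * p ^ 2 / (w * s ^ 3)) • gs) := by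
  simp only [inner_sub_right, inner_add_right, real_inner_smul_right, real_inner_self_eq_norm_sq]
  have hU2 : U ^ 2 ≤ t ^ 2 * s ^ 2 := by
    rw [← mul_pow]; exact pow_le_pow_left₀ hU hUs 2
  have ht4 : t ^ 2 ≤ 1 / 4 := by nlinarith
  have hw2 : (3 / 4) * s ^ 2 ≤ w ^ 2 := by nlinarith [sq_nonneg s]
  have hw0 : 0 < w ^ 2 := by positivity
  have hws : w ^ 2 ≤ s ^ 2 := by nlinarith [sq_nonneg U]
  -- `k = U / w`
  set k : ℝ := U / w with hk
  have hk2 : k ^ 2 ≤ (4 / 3) * t ^ 2 := by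
    rw [hk, div_pow, div_le_iff₀ hw0]
    nlinarith [sq_nonneg t]
  set X : ℝ := ‖J‖ * p / s ^ 2 with hX
  have hXX : ‖J‖ ^ 2 / s ^ 4 * p ^ 2 = X ^ 2 := by rw [hX]; field_simp
  set Sg : ℝ := ‖gs‖ * p / s with hSg
  have hSS : ‖gs‖ ^ 2 / s ^ 2 * p ^ 2 = Sg ^ 2 := by rw [hSg]; field_simp
  have h1 : X ^ 2 ≤ p ^ 2 / (w ^ 2 * s ^ 2) * ‖J‖ ^ 2 := by
    have e1 : p ^ 2 / (w ^ 2 * s ^ 2) * ‖J‖ ^ 2 = (p ^ 2 * ‖J‖ ^ 2) / (w ^ 2 * s ^ 2) := by ring
    have e2 : X ^ 2 = (p ^ 2 * ‖J‖ ^ 2) / (s ^ 2 * s ^ 2) := by rw [hX]; field_simp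
    rw [e1, e2]
    exact div_le_div_of_nonneg_left (by positivity) (by positivity)
      (mul_le_mul_of_nonneg_right hws (by positivity))
  have h2 : |2 * p * U / (w * s ^ 2) * inner ℝ J gp| ≤ (1 / 4) * X ^ 2 + (16 / 3) * t ^ 2 * ‖gp‖ ^ 2 := by
    have e1 : 2 * p * U / (w * s ^ 2) * inner ℝ J gp = 2 * k * (p / s ^ 2 * inner ℝ J gp) := by
      rw [hk]; field_simp
    have e2 : |p / s ^ 2 * inner ℝ J gp| ≤ |X| * ‖gp‖ := by
      rw [abs_mul, hX, mul_div_assoc, abs_mul, abs_of_nonneg (norm_nonneg J)]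
      calc |p / s ^ 2| * |inner ℝ J gp| ≤ |p / s ^ 2| * (‖J‖ * ‖gp‖) :=
            mul_le_mul_of_nonneg_left (abs_real_inner_le_norm _ _) (abs_nonneg _)
        _ = ‖J‖ * |p / s ^ 2| * ‖gp‖ := by ring
    rw [e1, abs_mul, abs_mul]
    rw [abs_of_nonneg (by norm_num : (0 : ℝ) ≤ 2)]
    have e3 : 2 * |k| * |p / s ^ 2 * inner ℝ J gp| ≤ 2 * |k| * (|X| * ‖gp‖) :=
      mul_le_mul_of_nonneg_left e2 (by positivity)
    refine e3.trans ?_
    have e4 : 2 * |k| * (|X| * ‖gp‖) ≤ (1 / 4) * |X| ^ 2 + 4 * (|k| ^ 2 * ‖gp‖ ^ 2) := by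
      nlinarith [sq_nonneg (|X| / 2 - 2 * |k| * ‖gp‖)]
    rw [sq_abs, sq_abs] at e4
    have e5 : k ^ 2 * ‖gp‖ ^ 2 ≤ (4 / 3) * t ^ 2 * ‖gp‖ ^ 2 :=
      mul_le_mul_of_nonneg_right hk2 (by positivity)
    linarith
  have h3 : |2 * U * p ^ 2 / (w * s ^ 3) * inner ℝ J gs| ≤ (1 / 4) * X ^ 2 + (16 / 3) * t ^ 2 * Sg ^ 2 := by
    have e1 : 2 * U * p ^ 2 / (w * s ^ 3) * inner ℝ J gs = 2 * k * (p ^ 2 / s ^ 3 * inner ℝ J gs) := by
      rw [hk]; field_simp
    have e2 : |p ^ 2 / s ^ 3 * inner ℝ J gs| ≤ |X| * |Sg| := by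
      have : |X| * |Sg| = p ^ 2 / s ^ 3 * (‖J‖ * ‖gs‖) := by
        rw [← abs_mul, hX, hSg]
        have : ‖J‖ * p / s ^ 2 * (‖gs‖ * p / s) = p ^ 2 / s ^ 3 * (‖J‖ * ‖gs‖) := by
          field_simp
        rw [this, abs_of_nonneg (by positivity)]
      rw [this, abs_mul, abs_of_nonneg (by positivity : (0 : ℝ) ≤ p ^ 2 / s ^ 3)]
      exact mul_le_mul_of_nonneg_left (abs_real_inner_le_norm _ _) (by positivity)
    rw [e1, abs_mul, abs_mul]
    rw [abs_of_nonneg (by norm_num : (0 : ℝ) ≤ 2)]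
    have e3 : 2 * |k| * |p ^ 2 / s ^ 3 * inner ℝ J gs| ≤ 2 * |k| * (|X| * |Sg|) :=
      mul_le_mul_of_nonneg_left e2 (by positivity)
    refine e3.trans ?_
    have e4 : 2 * |k| * (|X| * |Sg|) ≤ (1 / 4) * |X| ^ 2 + 4 * (|k| ^ 2 * |Sg| ^ 2) := by
      nlinarith [sq_nonneg (|X| / 2 - 2 * |k| * |Sg|)]
    rw [sq_abs, sq_abs, sq_abs] at e4
    have e5 : k ^ 2 * Sg ^ 2 ≤ (4 / 3) * t ^ 2 * Sg ^ 2 :=
      mul_le_mul_of_nonneg_right hk2 (by positivity)
    linarith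
  rw [hXX, hSS]
  have h2' := (abs_le.1 h2).1
  have h3' := (abs_le.1 h3).2
  nlinarith [h1, h2', h3']

theorem koff_pt2 (X : ℝ) (gs gp : V) :
    2 * X * inner ℝ gs gp - X ^ 2 * ‖gs‖ ^ 2 ≤ 2 * ‖gp‖ ^ 2 - (1 / 2) * (X ^ 2 * ‖gs‖ ^ 2) := by
  have h1 : |inner ℝ gs gp| ≤ ‖gs‖ * ‖gp‖ := abs_real_inner_le_norm _ _
  have h2 : X * inner ℝ gs gp ≤ |X| * (‖gs‖ * ‖gp‖) := by
    refine (le_abs_self _).trans ?_
    rw [abs_mul]
    exact mul_le_mul_of_nonneg_left h1 (abs_nonneg _)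
  have h3 : |X| * (‖gs‖ * ‖gp‖) ≤ (1 / 4) * (X ^ 2 * ‖gs‖ ^ 2) + ‖gp‖ ^ 2 := by
    rw [← sq_abs X]
    nlinarith [sq_nonneg (|X| * ‖gs‖ / 2 - ‖gp‖)]
  linarith

end pt

theorem koff_arith {G P A L T Q Vv C e' om t ε κ : ℝ} (hG0 : 0 ≤ G) (hP0 : 0 ≤ P) (hL0 : 0 ≤ L)
    (hA0 : 0 ≤ A) (hC0 : 0 ≤ C) (he0 : 0 ≤ e') (hom : 0 < om) (ht : 0 < t) (ht2 : t ≤ 1 / 16)
    (hε : 0 < ε) (ht3 : 64 * t ^ 2 * (4 * C + 4 * e' + 4 * om + 9) ≤ ε / 4)
    (hk : T ≤ -(κ ^ 2 - ε / 4) * P) (hid : 2 * Vv = - T - A - 2 * om * Q)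
    (hsmallE : A ≤ 32 * t ^ 2 * (G + L)) (hQ1 : Q ≤ t ^ 2 * P) (hV1 : Vv ≤ G + (C + e') * P)
    (hTL : T ≤ 2 * G - (1 / 2) * L) :
    (κ ^ 2 - ε) * P - ε * G ≤ 2 * Vv := by
  obtain ⟨C1, hC1⟩ : ∃ C1 : ℝ, C1 = 4 * C + 4 * e' + 4 * om + 9 := ⟨_, rfl⟩
  rw [← hC1] at ht3
  have hC19 : 9 ≤ C1 := by linarith
  have ht0 : 0 ≤ t ^ 2 := sq_nonneg t
  have ht4 : t ^ 2 ≤ 1 / 256 := by nlinarith
  have hL1 : L ≤ 8 * G + (C1 - 9) * P + 2 * A := by
    have h1 : Q ≤ P := hQ1.trans (by nlinarith)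
    have h2 : om * Q ≤ om * P := mul_le_mul_of_nonneg_left h1 hom.le
    have h3 : (C1 - 9) * P = 4 * ((C + e') * P) + 4 * (om * P) := by rw [hC1]; ring
    rw [h3]
    linarith
  have hGP : 0 ≤ G + P := add_nonneg hG0 hP0
  have hA1 : A ≤ 64 * t ^ 2 * C1 * (G + P) := by
    have h1 : G + L ≤ C1 * (G + P) + 2 * A := by
      have : 9 * G ≤ C1 * G := mul_le_mul_of_nonneg_right hC19 hG0
      nlinarith
    have h2 : 32 * t ^ 2 * (G + L) ≤ 32 * t ^ 2 * (C1 * (G + P) + 2 * A) :=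
      mul_le_mul_of_nonneg_left h1 (by positivity)
    have h4 : 64 * t ^ 2 * A ≤ (1 / 2) * A := mul_le_mul_of_nonneg_right (by linarith) hA0
    have h5 : 32 * t ^ 2 * (C1 * (G + P) + 2 * A) = 32 * t ^ 2 * C1 * (G + P) + 64 * t ^ 2 * A := by
      ring
    have h6 : 64 * t ^ 2 * C1 * (G + P) = 2 * (32 * t ^ 2 * C1 * (G + P)) := by ring
    linarith
  have hA2 : A ≤ ε / 4 * (G + P) := hA1.trans (mul_le_mul_of_nonneg_right ht3 hGP)
  have hQ2 : 2 * om * Q ≤ ε / 4 * P := by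
    have h1 : 2 * om * Q ≤ 2 * om * (t ^ 2 * P) := mul_le_mul_of_nonneg_left hQ1 (by positivity)
    have h2 : 2 * om * t ^ 2 ≤ ε / 4 := by
      have h0 : 2 * om ≤ 64 * C1 := by linarith
      have h3 : 2 * om * t ^ 2 ≤ 64 * C1 * t ^ 2 := mul_le_mul_of_nonneg_right h0 ht0
      linarith
    have h4 : 2 * om * t ^ 2 * P ≤ ε / 4 * P := mul_le_mul_of_nonneg_right h2 hP0
    linarith
  have hεG : 0 ≤ ε * G := by positivity
  have hεP : 0 ≤ ε * P := by positivity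
  rw [hid]
  linarith

/-! ### the test functions -/

theorem Amp.low {s : Pos3 → ℝ} {gs : Pos3 → Pos3} (hs : Amp s gs) {K : Set Pos3}
    (hK : IsCompact K) : ∃ c : ℝ, 0 < c ∧ ∀ x ∈ K, c ≤ s x := by
  rcases K.eq_empty_or_nonempty with h | h
  · exact ⟨1, one_pos, by simp [h]⟩
  · obtain ⟨x, hx, hm⟩ := hK.exists_isMinOn h hs.cont.continuousOn
    exact ⟨s x, hs.pos x, fun y hy => hm hy⟩

theorem BT.of_test {p : Pos3 → ℝ} (h : Test univ p) : BT p (gr p) := by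
  refine ⟨H1.of_test h, ?_, ?_⟩
  · obtain ⟨C, hC⟩ := h.cpt.exists_bound_of_continuous h.smooth.continuous
    exact ⟨C, Eventually.of_forall fun x => by simpa [Real.norm_eq_abs] using hC x⟩
  · obtain ⟨R, hR⟩ := h.cpt.isBounded.subset_closedBall (0 : Pos3)
    refine ⟨R + 1, Eventually.of_forall fun x hx => ?_⟩
    by_contra h0
    have : x ∈ tsupport p := subset_tsupport p h0
    have := hR this
    rw [Metric.mem_closedBall, dist_zero_right] at this
    linarith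

theorem Amp.bdd' {s : Pos3 → ℝ} {gs : Pos3 → Pos3} (hs : Amp s gs) :
    ∃ C : ℝ, ∀ᵐ x, |s x| ≤ C := by
  obtain ⟨C, hC⟩ := hs.bdd
  exact ⟨C, Eventually.of_forall fun x => by rw [abs_of_pos (hs.pos x)]; exact hC x⟩

theorem PairAdm.absU {s U w : Pos3 → ℝ} {gs gU gw : Pos3 → Pos3} (hs : Amp s gs)
    (hp : PairAdm s U gU w gw) (x : Pos3) : |U x| ≤ s x :=
  abs_le_of_sq_le_sq (by nlinarith [hp.sq x, sq_nonneg (w x)]) (hs.pos x).le

theorem PairAdm.absw {s U w : Pos3 → ℝ} {gs gU gw : Pos3 → Pos3} (hs : Amp s gs)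
    (hp : PairAdm s U gU w gw) (x : Pos3) : |w x| ≤ s x :=
  abs_le_of_sq_le_sq (by nlinarith [hp.sq x, sq_nonneg (U x)]) (hs.pos x).le

theorem PairAdm.bddU {s U w : Pos3 → ℝ} {gs gU gw : Pos3 → Pos3} (hs : Amp s gs)
    (hp : PairAdm s U gU w gw) : ∃ C : ℝ, ∀ᵐ x, |U x| ≤ C := by
  obtain ⟨C, hC⟩ := hs.bdd
  exact ⟨C, Eventually.of_forall fun x => (hp.absU hs x).trans (hC x)⟩

theorem PairAdm.bddw {s U w : Pos3 → ℝ} {gs gU gw : Pos3 → Pos3} (hs : Amp s gs)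
    (hp : PairAdm s U gU w gw) : ∃ C : ℝ, ∀ᵐ x, |w x| ≤ C := by
  obtain ⟨C, hC⟩ := hs.bdd
  exact ⟨C, Eventually.of_forall fun x => (hp.absw hs x).trans (hC x)⟩

/-- `J ∈ L²` -/
theorem PairAdm.memJ {s U w : Pos3 → ℝ} {gs gU gw : Pos3 → Pos3} (hs : Amp s gs)
    (hp : PairAdm s U gU w gw) : MemLp (J U gU w gw) 2 volume := by
  obtain ⟨C, hC⟩ := hs.bdd
  have h1 : MemLp (fun x => w x • gU x) 2 volume := by
    refine hp.hU.memg.of_le_mul (c := C) (hp.hw.memf.1.smul hp.hU.memg.1)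
      (Eventually.of_forall fun x => ?_)
    rw [norm_smul]
    exact mul_le_mul_of_nonneg_right ((hp.absw hs x).trans (hC x)) (norm_nonneg _)
  have h2 : MemLp (fun x => U x • gw x) 2 volume := by
    refine hp.hw.memg.of_le_mul (c := C) (hp.hU.memf.1.smul hp.hw.memg.1)
      (Eventually.of_forall fun x => ?_)
    rw [norm_smul]
    exact mul_le_mul_of_nonneg_right ((hp.absU hs x).trans (hC x)) (norm_nonneg _)
  exact h1.sub h2

/-- on the support of `p` : lower bounds -/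
theorem koff_low {s U w : Pos3 → ℝ} {gs gU gw : Pos3 → Pos3} {om : ℝ} (hs : Amp s gs)
    (hp : Pair s U gU w gw om) {p : Pos3 → ℝ} (hpt : Test univ p)
    (hsmall : ∀ᵐ x, p x ≠ 0 → U x ≤ (1 / 2) * s x) :
    ∃ c : ℝ, 0 < c ∧ (∀ x, p x ≠ 0 → c ≤ s x) ∧ ∀ᵐ x, p x ≠ 0 → c ≤ |w x| := by
  obtain ⟨c, hc, hl⟩ := hs.low hpt.cpt
  refine ⟨c / 2, by positivity, fun x hx => ?_, ?_⟩
  · have := hl x (subset_tsupport p hx)
    linarith
  · filter_upwards [hsmall] with x hx hpx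
    have h1 := hx hpx
    have h2 := hl x (subset_tsupport p hpx)
    have h3 := hp.U0 x
    have h4 := hp.adm.sq x
    have h5 : (s x / 2) ^ 2 ≤ w x ^ 2 := by nlinarith
    have h6 : s x / 2 ≤ |w x| := by
      rw [← sq_abs (w x)] at h5
      exact le_of_sq_le_sq h5 (abs_nonneg _)
    linarith

/-- `p² / w` -/
theorem koff_phi {s U w : Pos3 → ℝ} {gs gU gw : Pos3 → Pos3} {om : ℝ} (hs : Amp s gs)
    (hp : Pair s U gU w gw om) {p : Pos3 → ℝ} (hpt : Test univ p)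
    (hsmall : ∀ᵐ x, p x ≠ 0 → U x ≤ (1 / 2) * s x) :
    BT (fun x => p x ^ 2 / w x)
      (fun x => (2 * p x / w x) • gr p x - (p x ^ 2 / w x ^ 2) • gw x) := by
  obtain ⟨c, hc, h1, h2⟩ := koff_low hs hp hpt hsmall
  have b1 := (BT.of_test hpt).mul (BT.of_test hpt).h1 (BT.of_test hpt).bdd
  have b2 := b1.div hp.adm.hw (hp.adm.bddw hs) hc (by
    filter_upwards [h2] with x hx h0
    refine hx fun h => h0 ?_
    rw [h, mul_zero])
  refine b2.congr ?_ ?_
  · refine Eventually.of_forall fun x => ?_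
    simp only [sq]
  · refine Eventually.of_forall fun x => ?_
    show (1 / w x) • (p x • gr p x + p x • gr p x) - (p x * p x / w x ^ 2) • gw x =
      (2 * p x / w x) • gr p x - (p x ^ 2 / w x ^ 2) • gw x
    rw [← two_smul ℝ (p x • gr p x), smul_smul, smul_smul, sq (p x)]
    congr 2
    ring

/-- `p² / s` -/
theorem koff_phis {s : Pos3 → ℝ} {gs : Pos3 → Pos3} (hs : Amp s gs)
    {p : Pos3 → ℝ} (hpt : Test univ p) :
    BT (fun x => p x ^ 2 / s x)
      (fun x => (2 * p x / s x) • gr p x - (p x ^ 2 / s x ^ 2) • gs x) := by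
  obtain ⟨c, hc, hl⟩ := hs.low hpt.cpt
  have b1 := (BT.of_test hpt).mul (BT.of_test hpt).h1 (BT.of_test hpt).bdd
  have b2 := b1.div hs.h1 hs.bdd' hc (by
    refine Eventually.of_forall fun x h0 => ?_
    rw [abs_of_pos (hs.pos x)]
    refine hl x (subset_tsupport p fun h => h0 ?_)
    rw [h, mul_zero])
  refine b2.congr ?_ ?_
  · refine Eventually.of_forall fun x => ?_
    simp only [sq]
  · refine Eventually.of_forall fun x => ?_
    show (1 / s x) • (p x • gr p x + p x • gr p x) - (p x * p x / s x ^ 2) • gs x =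
      (2 * p x / s x) • gr p x - (p x ^ 2 / s x ^ 2) • gs x
    rw [← two_smul ℝ (p x • gr p x), smul_smul, smul_smul, sq (p x)]
    congr 2
    ring

/-- `(U/w) p² / s²` -/
theorem koff_psi {s U w : Pos3 → ℝ} {gs gU gw : Pos3 → Pos3} {om : ℝ} (hs : Amp s gs)
    (hp : Pair s U gU w gw om) {p : Pos3 → ℝ} (hpt : Test univ p)
    (hsmall : ∀ᵐ x, p x ≠ 0 → U x ≤ (1 / 2) * s x) :
    BT (fun x => U x * p x ^ 2 / (w x * s x ^ 2))
      (fun x => (p x ^ 2 / (w x ^ 2 * s x ^ 2)) • J U gU w gw x +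
        (2 * p x * U x / (w x * s x ^ 2)) • gr p x - (2 * U x * p x ^ 2 / (w x * s x ^ 3)) • gs x) := by
  obtain ⟨c, hc, h1, h2⟩ := koff_low hs hp hpt hsmall
  have b1 := koff_phi hs hp hpt hsmall
  have hlow : ∀ x, p x ^ 2 / w x ≠ 0 → c ≤ |s x| := by
    intro x h0
    rw [abs_of_pos (hs.pos x)]
    exact h1 x fun h => h0 (by rw [h]; simp)
  have b2 := b1.div hs.h1 hs.bdd' hc (Eventually.of_forall hlow)
  have b3 := b2.div hs.h1 hs.bdd' hc (Eventually.of_forall fun x h0 =>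
    hlow x fun h => h0 (by rw [h]; simp))
  have b4 := b3.mul hp.adm.hU (hp.adm.bddU hs)
  refine b4.congr ?_ ?_
  · refine Eventually.of_forall fun x => ?_
    have hs0 := (hs.pos x).ne'
    show p x ^ 2 / w x / s x / s x * U x = U x * p x ^ 2 / (w x * s x ^ 2)
    rcases eq_or_ne (w x) 0 with hw | hw
    · rw [hw]; simp
    · field_simp
  · filter_upwards [h2] with x hx
    have hs0 := (hs.pos x).ne'
    by_cases hpx : p x = 0
    · simp [hpx]
    · have hw : w x ≠ 0 := by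
        intro h
        have := hx hpx
        rw [h, abs_zero] at this
        linarith
      show (p x ^ 2 / w x / s x / s x) • gU x + U x • ((1 / s x) • ((1 / s x) •
        ((2 * p x / w x) • gr p x - (p x ^ 2 / w x ^ 2) • gw x) -
          (p x ^ 2 / w x / s x ^ 2) • gs x) - (p x ^ 2 / w x / s x / s x ^ 2) • gs x) = _
      unfold J
      match_scalars <;> field_simp
      ring

/-! ### the identity -/

theorem koff_int_inner {F : Type*} [NormedAddCommGroup F] [InnerProductSpace ℝ F] {α : Type*}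
    [MeasurableSpace α] {μ : Measure α} {a b : α → F} (ha : MemLp a 2 μ) (hb : MemLp b 2 μ) :
    Integrable (fun x => inner ℝ (a x) (b x)) μ := by
  have h := L2.integrable_inner (𝕜 := ℝ) (ha.toLp a) (hb.toLp b)
  refine h.congr ?_
  filter_upwards [ha.coeFn_toLp, hb.coeFn_toLp] with x h1 h2
  rw [h1, h2]

/-- `|J|²/s⁴ p²` is integrable -/
theorem koff_int {s U w : Pos3 → ℝ} {gs gU gw : Pos3 → Pos3} (hs : Amp s gs)
    (hp : PairAdm s U gU w gw) {p : Pos3 → ℝ} (hpt : Test univ p) :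
    Integrable (fun x => ‖J U gU w gw x‖ ^ 2 / s x ^ 4 * p x ^ 2) := by
  obtain ⟨c, hc, hl⟩ := hs.low hpt.cpt
  obtain ⟨D, hD0, hD⟩ := (BT.of_test hpt).bound
  have hJ := hp.memJ hs
  have h1 : Integrable (fun x => ‖J U gU w gw x‖ ^ 2) := hJ.integrable_norm_pow (by norm_num)
  refine (h1.const_mul (D ^ 2 / c ^ 4)).mono' ?_ ?_
  · have hs4 : AEStronglyMeasurable (fun x => s x ^ 4) volume :=
      (hs.cont.pow 4).aestronglyMeasurable
    exact (h1.1.div₀ hs4 |>.mul (hpt.smooth.continuous.pow 2).aestronglyMeasurable)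
  · filter_upwards [hD] with x hx
    by_cases hpx : p x = 0
    · rw [hpx]; simp; positivity
    · have h2 := hl x (subset_tsupport p hpx)
      have hs0 := hs.pos x
      rw [Real.norm_eq_abs, abs_of_nonneg (by positivity), div_mul_eq_mul_div,
        div_mul_eq_mul_div, div_le_div_iff₀ (by positivity) (by positivity)]
      have h3 : p x ^ 2 ≤ D ^ 2 := by rw [← sq_abs]; exact pow_le_pow_left₀ (abs_nonneg _) hx 2
      have h4 : c ^ 4 ≤ s x ^ 4 := pow_le_pow_left₀ hc.le h2 4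
      calc ‖J U gU w gw x‖ ^ 2 * p x ^ 2 * c ^ 4 ≤ ‖J U gU w gw x‖ ^ 2 * D ^ 2 * s x ^ 4 := by
            gcongr
        _ = D ^ 2 * ‖J U gU w gw x‖ ^ 2 * s x ^ 4 := by ring

/-- identity `2 (v - e₂) = Δs/s - |∇η|² - 2ω sin²η` tested with `p²` -/
theorem off_identity {v s U w : Pos3 → ℝ} {gs gU gw : Pos3 → Pos3} {om e : ℝ} (hs : Amp s gs)
    (hp : Pair s U gU w gw om) (hv : LocallyIntegrable v volume) (hw : WeakEq v e w gw)
    {p : Pos3 → ℝ} (hpt : Test univ p) (hsmall : ∀ᵐ x, p x ≠ 0 → U x ≤ (1 / 2) * s x) :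
    2 * (∫ x, (v x - e) * p x ^ 2) =
      - (∫ x, inner ℝ (gs x) ((2 * p x / s x) • gr p x - (p x ^ 2 / s x ^ 2) • gs x))
      - (∫ x, ‖J U gU w gw x‖ ^ 2 / s x ^ 4 * p x ^ 2)
      - 2 * om * ∫ x, U x ^ 2 / s x ^ 2 * p x ^ 2 := by
  obtain ⟨c, hc, h1, h2⟩ := koff_low hs hp hpt hsmall
  obtain ⟨Cw, hCw⟩ := hp.adm.bddw hs
  have bphi := koff_phi hs hp hpt hsmall
  have bpsi := koff_psi hs hp hpt hsmall
  have bphis := koff_phis hs hpt
  have e1 := WeakEq.bt hv hp.adm.hw hCw hw bphi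
  have e2 := hp.el _ _ bpsi
  have e3 : ∫ x, (v x - e) * w x * (p x ^ 2 / w x) = ∫ x, (v x - e) * p x ^ 2 := by
    refine integral_congr_ae ?_
    filter_upwards [h2] with x hx
    by_cases hpx : p x = 0
    · simp [hpx]
    · have hw : w x ≠ 0 := by
        intro h
        have := hx hpx
        rw [h, abs_zero] at this
        linarith
      field_simp
  have e4 : ∫ x, U x * w x * (U x * p x ^ 2 / (w x * s x ^ 2)) = ∫ x, U x ^ 2 / s x ^ 2 * p x ^ 2 := by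
    refine integral_congr_ae ?_
    filter_upwards [h2] with x hx
    have hs0 := (hs.pos x).ne'
    by_cases hpx : p x = 0
    · simp [hpx]
    · have hw : w x ≠ 0 := by
        intro h
        have := hx hpx
        rw [h, abs_zero] at this
        linarith
      field_simp
  have i1 := koff_int_inner hs.h1.memg bphis.h1.memg
  have i2 := koff_int_inner (hp.adm.memJ hs) bpsi.h1.memg
  have i3 := koff_int hs hp.adm hpt
  have e5 : ∫ x, inner ℝ (gw x) ((2 * p x / w x) • gr p x - (p x ^ 2 / w x ^ 2) • gw x) =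
      (∫ x, inner ℝ (gs x) ((2 * p x / s x) • gr p x - (p x ^ 2 / s x ^ 2) • gs x))
      - (∫ x, inner ℝ (J U gU w gw x) ((p x ^ 2 / (w x ^ 2 * s x ^ 2)) • J U gU w gw x +
        (2 * p x * U x / (w x * s x ^ 2)) • gr p x - (2 * U x * p x ^ 2 / (w x * s x ^ 3)) • gs x))
      + ∫ x, ‖J U gU w gw x‖ ^ 2 / s x ^ 4 * p x ^ 2 := by
    rw [← integral_sub i1 i2]
    have i12 := i1.sub i2
    simp only [Pi.sub_def] at i12
    rw [← integral_add i12 i3]
    refine integral_congr_ae ?_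
    filter_upwards [h2, pair_grad hs hp.adm] with x hx hg
    by_cases hpx : p x = 0
    · simp [hpx]
    · have hw : w x ≠ 0 := by
        intro h
        have := hx hpx
        rw [h, abs_zero] at this
        linarith
      exact koff_pt (hs.pos x) hw (hp.adm.sq x) (koff_gw (hs.pos x) (hp.adm.sq x) hg.1)
  rw [e3, e5, e2, e4] at e1
  linarith

theorem koff_intS {s : Pos3 → ℝ} {gs : Pos3 → Pos3} (hs : Amp s gs) {p : Pos3 → ℝ}
    (hpt : Test univ p) : Integrable (fun x => ‖gs x‖ ^ 2 / s x ^ 2 * p x ^ 2) := by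
  obtain ⟨c, hc, hl⟩ := hs.low hpt.cpt
  obtain ⟨D, hD0, hD⟩ := (BT.of_test hpt).bound
  have h1 : Integrable (fun x => ‖gs x‖ ^ 2) := hs.h1.memg.integrable_norm_pow (by norm_num)
  refine (h1.const_mul (D ^ 2 / c ^ 2)).mono' ?_ ?_
  · have hs4 : AEStronglyMeasurable (fun x => s x ^ 2) volume :=
      (hs.cont.pow 2).aestronglyMeasurable
    exact (h1.1.div₀ hs4 |>.mul (hpt.smooth.continuous.pow 2).aestronglyMeasurable)
  · filter_upwards [hD] with x hx
    by_cases hpx : p x = 0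
    · rw [hpx]; simp; positivity
    · have h2 := hl x (subset_tsupport p hpx)
      have hs0 := hs.pos x
      rw [Real.norm_eq_abs, abs_of_nonneg (by positivity), div_mul_eq_mul_div,
        div_mul_eq_mul_div, div_le_div_iff₀ (by positivity) (by positivity)]
      have h3 : p x ^ 2 ≤ D ^ 2 := by rw [← sq_abs]; exact pow_le_pow_left₀ (abs_nonneg _) hx 2
      have h4 : c ^ 2 ≤ s x ^ 2 := pow_le_pow_left₀ hc.le h2 2
      calc ‖gs x‖ ^ 2 * p x ^ 2 * c ^ 2 ≤ ‖gs x‖ ^ 2 * D ^ 2 * s x ^ 2 := by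
            gcongr
        _ = D ^ 2 * ‖gs x‖ ^ 2 * s x ^ 2 := by ring

/-- smallness of `∫ |∇η|² p²` where `U ≤ t s` -/
theorem off_small {s U w : Pos3 → ℝ} {gs gU gw : Pos3 → Pos3} {om : ℝ} (hs : Amp s gs)
    (hp : Pair s U gU w gw om) {p : Pos3 → ℝ} (hpt : Test univ p) {t : ℝ} (ht : 0 < t)
    (ht2 : t ≤ 1 / 2) (hsmall : ∀ᵐ x, p x ≠ 0 → U x ≤ t * s x) :
    ∫ x, ‖J U gU w gw x‖ ^ 2 / s x ^ 4 * p x ^ 2 ≤
      32 * t ^ 2 * ((∫ x, ‖gr p x‖ ^ 2) + ∫ x, ‖gs x‖ ^ 2 / s x ^ 2 * p x ^ 2) := by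
  have hsmall' : ∀ᵐ x, p x ≠ 0 → U x ≤ (1 / 2) * s x := by
    filter_upwards [hsmall] with x hx h0
    exact (hx h0).trans (mul_le_mul_of_nonneg_right ht2 (hs.pos x).le)
  obtain ⟨c, hc, h1, h2⟩ := koff_low hs hp hpt hsmall'
  have bpsi := koff_psi hs hp hpt hsmall'
  have e2 := hp.el _ _ bpsi
  have i2 := koff_int_inner (hp.adm.memJ hs) bpsi.h1.memg
  have i3 := koff_int hs hp.adm hpt
  have i4 := koff_intS hs hpt
  have i5 : Integrable (fun x => ‖gr p x‖ ^ 2) :=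
    (BT.of_test hpt).h1.memg.integrable_norm_pow (by norm_num)
  have e4 : 0 ≤ ∫ x, U x * w x * (U x * p x ^ 2 / (w x * s x ^ 2)) := by
    refine integral_nonneg_of_ae ?_
    filter_upwards [h2] with x hx
    have hs0 := (hs.pos x)
    by_cases hpx : p x = 0
    · simp [hpx]
    · have hw : w x ≠ 0 := by
        intro h
        have := hx hpx
        rw [h, abs_zero] at this
        linarith
      have : U x * w x * (U x * p x ^ 2 / (w x * s x ^ 2)) = U x ^ 2 / s x ^ 2 * p x ^ 2 := by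
        field_simp
      rw [this]
      positivity
  have e6 : (1 / 2) * (∫ x, ‖J U gU w gw x‖ ^ 2 / s x ^ 4 * p x ^ 2) -
      (16 / 3) * t ^ 2 * ((∫ x, ‖gr p x‖ ^ 2) + ∫ x, ‖gs x‖ ^ 2 / s x ^ 2 * p x ^ 2) ≤
      ∫ x, inner ℝ (J U gU w gw x) ((p x ^ 2 / (w x ^ 2 * s x ^ 2)) • J U gU w gw x +
        (2 * p x * U x / (w x * s x ^ 2)) • gr p x -
          (2 * U x * p x ^ 2 / (w x * s x ^ 3)) • gs x) := by
    have i54 : Integrable (fun x => ‖gr p x‖ ^ 2 + ‖gs x‖ ^ 2 / s x ^ 2 * p x ^ 2) := i5.add i4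
    rw [← integral_add i5 i4, ← integral_const_mul, ← integral_const_mul,
      ← integral_sub (i3.const_mul _) (i54.const_mul _)]
    refine integral_mono_ae ((i3.const_mul _).sub (i54.const_mul _)) i2 ?_
    filter_upwards [h2, hsmall] with x hx hU
    by_cases hpx : p x = 0
    · simp only [hpx]
      have : 0 ≤ ‖gr p x‖ ^ 2 := by positivity
      simp
      positivity
    · have hw : w x ≠ 0 := by
        intro h
        have := hx hpx
        rw [h, abs_zero] at this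
        linarith
      exact koff_small_pt (hs.pos x) hw (hp.adm.sq x) (hp.U0 x) ht ht2 (hU hpx)
  have hom := hp.om_pos
  have e7 : ∫ x, inner ℝ (J U gU w gw x) ((p x ^ 2 / (w x ^ 2 * s x ^ 2)) • J U gU w gw x +
        (2 * p x * U x / (w x * s x ^ 2)) • gr p x -
          (2 * U x * p x ^ 2 / (w x * s x ^ 3)) • gs x) ≤ 0 := by
    rw [e2]
    nlinarith
  have hG : 0 ≤ ∫ x, ‖gr p x‖ ^ 2 := integral_nonneg fun x => by positivity
  have hS : 0 ≤ ∫ x, ‖gs x‖ ^ 2 / s x ^ 2 * p x ^ 2 := integral_nonneg fun x => by positivity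
  have ht0 : 0 ≤ t ^ 2 := by positivity
  nlinarith [mul_nonneg ht0 (add_nonneg hG hS)]

/-- lower bound of `v - e₂` off the plane, near infinity -/
theorem off_bound {v s U w : Pos3 → ℝ} {gs gU gw : Pos3 → Pos3} {om e κ : ℝ} (hs : Amp s gs)
    (hp : Pair s U gU w gw om) (hv : IsSumClassPotential v) (hw : WeakEq v e w gw)
    (hkato : KatoInf s gs κ) (hsm : SmallU s U) {h ε : ℝ} (hh : 0 < h) (hε : 0 < ε) :
    ∃ R : ℝ, ∀ p : Pos3 → ℝ, Test univ p → (∀ x : Pos3, |x 2| ≤ h → p x = 0) →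
      (∀ x : Pos3, ‖x‖ ≤ R → p x = 0) →
      (κ ^ 2 - ε) * (∫ x, p x ^ 2) - ε * (∫ x, ‖gr p x‖ ^ 2) ≤
        2 * ∫ x, (v x - e) * p x ^ 2 := by
  obtain ⟨C, hC0, hC⟩ := class_bound hv one_pos
  have hom := hp.om_pos
  set C1 : ℝ := 4 * C + 4 * |e| + 4 * om + 9 with hC1
  have hC1pos : 9 ≤ C1 := by
    have := abs_nonneg e
    linarith
  -- choice of `t`
  obtain ⟨t, ht, ht2, ht3⟩ : ∃ t : ℝ, 0 < t ∧ t ≤ 1 / 16 ∧ 64 * t ^ 2 * C1 ≤ ε / 4 := by
    refine ⟨min (1 / 16) (ε / (256 * C1)), lt_min (by norm_num) (by positivity), min_le_left _ _, ?_⟩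
    set t : ℝ := min (1 / 16) (ε / (256 * C1)) with htd
    have h0 : 0 < t := lt_min (by norm_num) (by positivity)
    have h1 : t ≤ 1 / 16 := min_le_left _ _
    have h2 : t ≤ ε / (256 * C1) := min_le_right _ _
    have h3 : t * (256 * C1) ≤ ε := by rwa [le_div_iff₀ (by positivity)] at h2
    nlinarith
  obtain ⟨R1, hR1⟩ := hkato (ε / 4) (by positivity)
  obtain ⟨R2, hR2⟩ := hsm h hh t ht
  refine ⟨max R1 R2, fun p hpt hph hpR => ?_⟩
  have hsmall : ∀ᵐ x, p x ≠ 0 → U x ≤ t * s x := by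
    filter_upwards [hR2] with x hx h0
    refine hx ?_ ?_
    · by_contra hc
      exact h0 (hph x (not_le.1 hc).le)
    · by_contra hc
      exact h0 (hpR x ((not_le.1 hc).le.trans (le_max_right _ _)))
  have hsmall' : ∀ᵐ x, p x ≠ 0 → U x ≤ (1 / 2) * s x := by
    filter_upwards [hsmall] with x hx h0
    exact (hx h0).trans (mul_le_mul_of_nonneg_right (by linarith) (hs.pos x).le)
  have bphis := koff_phis hs hpt
  have hk := hR1 _ _ bphis (Eventually.of_forall fun x => by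
      have := hs.pos x
      positivity) (Eventually.of_forall fun x hx => by
      show p x ^ 2 / s x = 0
      rw [hpR x (hx.trans (le_max_left _ _))]; simp)
  have e1 : ∫ x, s x * (p x ^ 2 / s x) = ∫ x, p x ^ 2 := by
    congr 1; ext x
    have := (hs.pos x).ne'
    field_simp
  rw [e1] at hk
  have hid := off_identity hs hp (class_locInt hv) hw hpt hsmall'
  have hsmallE := off_small hs hp hpt ht (by linarith) hsmall
  obtain ⟨hvi, hvb⟩ := hC p (gr p) (BT.of_test hpt).h1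
  have i5 : Integrable (fun x => ‖gr p x‖ ^ 2) :=
    (BT.of_test hpt).h1.memg.integrable_norm_pow (by norm_num)
  have i6 : Integrable (fun x => p x ^ 2) := (BT.of_test hpt).h1.memf.integrable_sq
  have i4 := koff_intS hs hpt
  set G : ℝ := ∫ x, ‖gr p x‖ ^ 2 with hG
  set P : ℝ := ∫ x, p x ^ 2 with hP
  set A : ℝ := ∫ x, ‖J U gU w gw x‖ ^ 2 / s x ^ 4 * p x ^ 2 with hA
  set L : ℝ := ∫ x, ‖gs x‖ ^ 2 / s x ^ 2 * p x ^ 2 with hL
  set Q : ℝ := ∫ x, U x ^ 2 / s x ^ 2 * p x ^ 2 with hQ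
  set T : ℝ := ∫ x, inner ℝ (gs x) ((2 * p x / s x) • gr p x - (p x ^ 2 / s x ^ 2) • gs x) with hT
  set Vv : ℝ := ∫ x, (v x - e) * p x ^ 2 with hVv
  have hG0 : 0 ≤ G := integral_nonneg fun x => by positivity
  have hP0 : 0 ≤ P := integral_nonneg fun x => by positivity
  have hL0 : 0 ≤ L := integral_nonneg fun x => by positivity
  have hA0 : 0 ≤ A := integral_nonneg fun x => by
    have := hs.pos x
    positivity
  -- bound of `Q`
  have iQ : Integrable (fun x => U x ^ 2 / s x ^ 2 * p x ^ 2) := by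
    refine i6.mono' ?_ ?_
    · have hs4 : AEStronglyMeasurable (fun x => s x ^ 2) volume :=
        (hs.cont.pow 2).aestronglyMeasurable
      exact ((hp.adm.hU.memf.1.pow 2).div₀ hs4).mul
        (hpt.smooth.continuous.pow 2).aestronglyMeasurable
    · refine Eventually.of_forall fun x => ?_
      have hs0 := hs.pos x
      rw [Real.norm_eq_abs, abs_of_nonneg (by positivity)]
      have : U x ^ 2 / s x ^ 2 ≤ 1 := by
        rw [div_le_one (by positivity)]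
        nlinarith [hp.adm.sq x, sq_nonneg (w x)]
      nlinarith [sq_nonneg (p x)]
  have hQ1 : Q ≤ t ^ 2 * P := by
    rw [hQ, hP, ← integral_const_mul]
    refine integral_mono_ae iQ (i6.const_mul _) ?_
    filter_upwards [hsmall] with x hx
    by_cases hpx : p x = 0
    · simp [hpx]
    · have hs0 := hs.pos x
      have h1 : U x ^ 2 / s x ^ 2 ≤ t ^ 2 := by
        rw [div_le_iff₀ (by positivity), ← mul_pow]
        exact pow_le_pow_left₀ (hp.U0 x) (hx hpx) 2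
      exact mul_le_mul_of_nonneg_right h1 (by positivity)
  have hQ0 : 0 ≤ Q := integral_nonneg fun x => by positivity
  -- bound of `Vv`
  have hvm : AEStronglyMeasurable v volume := (class_locInt hv).aestronglyMeasurable
  have i7 : Integrable (fun x => |v x| * p x ^ 2 + |e| * p x ^ 2) := hvi.add (i6.const_mul _)
  have hptw : ∀ x, |(v x - e) * p x ^ 2| ≤ |v x| * p x ^ 2 + |e| * p x ^ 2 := by
    intro x
    rw [abs_mul, abs_of_nonneg (sq_nonneg (p x)), ← add_mul]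
    exact mul_le_mul_of_nonneg_right (abs_sub _ _) (sq_nonneg _)
  have iV : Integrable (fun x => (v x - e) * p x ^ 2) := by
    refine i7.mono' ?_ (Eventually.of_forall hptw)
    exact (hvm.sub aestronglyMeasurable_const).mul
      (hpt.smooth.continuous.pow 2).aestronglyMeasurable
  have hV1 : Vv ≤ G + (C + |e|) * P := by
    have h1 : Vv ≤ ∫ x, (|v x| * p x ^ 2 + |e| * p x ^ 2) :=
      integral_mono iV i7 fun x => (le_abs_self _).trans (hptw x)
    rw [integral_add hvi (i6.const_mul _), integral_const_mul] at h1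
    linarith
  -- bound of `L`
  have hTL : T ≤ 2 * G - (1 / 2) * L := by
    rw [hT, hG, hL, ← integral_const_mul, ← integral_const_mul,
      ← integral_sub (i5.const_mul _) (i4.const_mul _)]
    refine integral_mono (koff_int_inner hs.h1.memg bphis.h1.memg)
      ((i5.const_mul _).sub (i4.const_mul _)) fun x => ?_
    have h := koff_pt2 (p x / s x) (gs x) (gr p x)
    simp only [inner_sub_right, real_inner_smul_right, real_inner_self_eq_norm_sq]
    have e2 : 2 * p x / s x = 2 * (p x / s x) := by ring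
    have e3 : p x ^ 2 / s x ^ 2 = (p x / s x) ^ 2 := by ring
    have e4 : ‖gs x‖ ^ 2 / s x ^ 2 * p x ^ 2 = (p x / s x) ^ 2 * ‖gs x‖ ^ 2 := by ring
    rw [e2, e3, e4]
    exact h
  exact koff_arith hG0 hP0 hL0 hA0 hC0 (abs_nonneg e) hom ht ht2 hε ht3 hk hid hsmallE hQ1 hV1 hTL

end Crest.Agent.R335
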