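import Crest.Agent.R335.KTest
import Crest.Agent.R335.HPoin

/-!
# Row 335 (S0521): Kohn-Sham side, module KPairB

`pair_of_min` : the Euler-Lagrange equation of an energy-minimising admissible pair.
-/

set_option autoImplicit false
set_option linter.unusedVariables false
set_option linter.unusedSectionVars false

open MeasureTheory Filter Set Crest.MathPhysics.ThreeBody
open scoped ENNReal Topology ContDiff

noncomputable section
namespace Crest.Agent.R335
namespace PB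

/-! ### elementary facts -/

theorem rz_rz (x : Pos3) : rz (rz x) = x := by
  ext i
  rw [rz_apply, rz_apply]
  split_ifs with h <;> simp

theorem rz_symm (x : Pos3) : rz.symm x = rz x := by
  rw [LinearIsometryEquiv.symm_apply_eq, rz_rz]

theorem int_rz {F : Type*} [NormedAddCommGroup F] [NormedSpace ℝ F] (f : Pos3 → F) :
    ∫ x, f (rz x) = ∫ x, f x := by
  simpa using g2_integral_isom rz 0 f

theorem mp_rz : MeasurePreserving (fun x : Pos3 => rz x) volume volume := by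
  simpa using g2_mp_isom rz (0 : Pos3)

theorem ae_rz {p : Pos3 → Prop} (h : ∀ᵐ x, p x) : ∀ᵐ x, p (rz x) :=
  mp_rz.quasiMeasurePreserving.ae h

theorem h1_rz {f : Pos3 → ℝ} {g : Pos3 → Pos3} (h : H1 f g) :
    H1 (fun x => f (rz x)) (fun x => rz (g (rz x))) := by
  have := H1.comp_isometry h rz 0
  simpa [rz_symm] using this

theorem integrable_inner' {G H : Pos3 → Pos3} (hG : MemLp G 2 volume) (hH : MemLp H 2 volume) :
    Integrable (fun x => inner ℝ (G x) (H x)) := by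
  have h1 : Integrable (fun x => ‖G x‖ * ‖H x‖) := hG.norm.integrable_mul hH.norm
  refine h1.mono (hG.1.inner hH.1) (Eventually.of_forall fun x => ?_)
  rw [Real.norm_eq_abs, Real.norm_eq_abs, abs_of_nonneg (by positivity : 0 ≤ ‖G x‖ * ‖H x‖)]
  exact abs_real_inner_le_norm _ _

section
variable {s U w : Pos3 → ℝ} {gs gU gw : Pos3 → Pos3}

theorem absU_le (hs : Amp s gs) (hp : PairAdm s U gU w gw) (x : Pos3) : |U x| ≤ s x := by
  have h := hp.sq x
  have h0 := hs.pos x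
  exact abs_le_of_sq_le_sq (by nlinarith [sq_nonneg (w x)]) h0.le

theorem absw_le (hs : Amp s gs) (hp : PairAdm s U gU w gw) (x : Pos3) : |w x| ≤ s x := by
  have h := hp.sq x
  have h0 := hs.pos x
  exact abs_le_of_sq_le_sq (by nlinarith [sq_nonneg (U x)]) h0.le

theorem s_bdd (hs : Amp s gs) : ∃ C : ℝ, 0 < C ∧ ∀ x, s x ≤ C := by
  obtain ⟨C, hC⟩ := hs.bdd
  exact ⟨C, (hs.pos 0).trans_le (hC 0), hC⟩

theorem J_sq_le (hp : PairAdm s U gU w gw) (x : Pos3) :
    ‖J U gU w gw x‖ ^ 2 ≤ s x ^ 2 * (‖gU x‖ ^ 2 + ‖gw x‖ ^ 2) := by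
  have h8 : ‖U x • gU x + w x • gw x‖ ^ 2 + ‖J U gU w gw x‖ ^ 2 =
      (U x ^ 2 + w x ^ 2) * (‖gU x‖ ^ 2 + ‖gw x‖ ^ 2) := by
    unfold J
    rw [norm_add_sq_real, norm_sub_sq_real, norm_smul, norm_smul, norm_smul, norm_smul,
      real_inner_smul_left, real_inner_smul_right, real_inner_smul_left, real_inner_smul_right,
      mul_pow, mul_pow, mul_pow, mul_pow, Real.norm_eq_abs, Real.norm_eq_abs, sq_abs, sq_abs]
    ring
  rw [hp.sq x] at h8
  nlinarith [sq_nonneg ‖U x • gU x + w x • gw x‖]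

theorem J_aesm (hp : PairAdm s U gU w gw) : AEStronglyMeasurable (J U gU w gw) volume :=
  (hp.hw.memf.1.smul hp.hU.memg.1).sub (hp.hU.memf.1.smul hp.hw.memg.1)

theorem J_L2 (hs : Amp s gs) (hp : PairAdm s U gU w gw) : MemLp (J U gU w gw) 2 volume := by
  obtain ⟨C, hC0, hC⟩ := s_bdd hs
  have h1 : MemLp (fun x => w x • gU x) 2 volume := by
    refine MemLp.of_le_mul (c := C) hp.hU.memg (hp.hw.memf.1.smul hp.hU.memg.1)
      (Eventually.of_forall fun x => ?_)
    rw [norm_smul]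
    exact mul_le_mul_of_nonneg_right ((absw_le hs hp x).trans (hC x)) (norm_nonneg _)
  have h2 : MemLp (fun x => U x • gw x) 2 volume := by
    refine MemLp.of_le_mul (c := C) hp.hw.memg (hp.hU.memf.1.smul hp.hw.memg.1)
      (Eventually.of_forall fun x => ?_)
    rw [norm_smul]
    exact mul_le_mul_of_nonneg_right ((absU_le hs hp x).trans (hC x)) (norm_nonneg _)
  exact h1.sub h2

theorem J_L1 (hs : Amp s gs) (hp : PairAdm s U gU w gw) :
    Integrable (fun x => ‖J U gU w gw x‖) := by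
  have h1 : Integrable (fun x => ‖w x‖ * ‖gU x‖) := hp.hw.memf.norm.integrable_mul hp.hU.memg.norm
  have h2 : Integrable (fun x => ‖U x‖ * ‖gw x‖) := hp.hU.memf.norm.integrable_mul hp.hw.memg.norm
  refine (h1.add h2).mono (J_aesm hp).norm (Eventually.of_forall fun x => ?_)
  rw [norm_norm]
  refine le_trans ?_ (le_abs_self _)
  simp only [Pi.add_apply]
  unfold J
  refine (norm_sub_le _ _).trans ?_
  rw [norm_smul, norm_smul]

/-- gradients of the even and the odd function -/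
theorem gU_rz (hp : PairAdm s U gU w gw) : ∀ᵐ x, gU (rz x) = rz (gU x) := by
  have h1 := h1_rz hp.hU
  have e : (fun x => U (rz x)) = U := by
    ext x; exact hp.evenU x
  rw [e] at h1
  filter_upwards [H1.unique hp.hU h1] with x hx
  rw [hx, rz_rz]

theorem gw_rz (hp : PairAdm s U gU w gw) : ∀ᵐ x, gw (rz x) = - rz (gw x) := by
  have h1 := h1_rz hp.hw
  have e : (fun x => w (rz x)) = fun x => (-1) * w x := by
    ext x; rw [hp.oddw x]; ring
  rw [e] at h1
  filter_upwards [H1.unique (H1.const_mul hp.hw (-1)) h1] with x hx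
  have : rz ((-1 : ℝ) • gw x) = gw (rz x) := by rw [hx, rz_rz]
  rw [← this, map_smul]
  simp

theorem J_rz (hp : PairAdm s U gU w gw) : ∀ᵐ x, J U gU w gw (rz x) = - rz (J U gU w gw x) := by
  filter_upwards [gU_rz hp, gw_rz hp] with x h1 h2
  unfold J
  rw [h1, h2, hp.evenU, hp.oddw, map_sub, map_smul, map_smul, neg_smul, smul_neg]
  abel

end

/-! ### odd part of a test function -/

theorem bt_rz {ψ : Pos3 → ℝ} {gψ : Pos3 → Pos3} (h : BT ψ gψ) :
    BT (fun x => ψ (rz x)) (fun x => rz (gψ (rz x))) := by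
  obtain ⟨C, hC⟩ := h.bdd
  obtain ⟨R, hR⟩ := h.cpt
  refine ⟨h1_rz h.h1, ⟨C, ae_rz hC⟩, ⟨R, ?_⟩⟩
  filter_upwards [ae_rz hR] with x hx h1
  exact hx (by rwa [LinearIsometryEquiv.norm_map])

theorem bt_add {ψ ψ' : Pos3 → ℝ} {gψ gψ' : Pos3 → Pos3} (h : BT ψ gψ) (h' : BT ψ' gψ') :
    BT (fun x => ψ x + ψ' x) (fun x => gψ x + gψ' x) := by
  obtain ⟨C, hC⟩ := h.bdd
  obtain ⟨R, hR⟩ := h.cpt
  obtain ⟨C', hC'⟩ := h'.bdd
  obtain ⟨R', hR'⟩ := h'.cpt
  refine ⟨H1.add h.h1 h'.h1, ⟨C + C', ?_⟩, ⟨max R R', ?_⟩⟩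
  · filter_upwards [hC, hC'] with x h1 h2
    exact (abs_add_le _ _).trans (add_le_add h1 h2)
  · filter_upwards [hR, hR'] with x h1 h2 h3
    rw [h1 ((le_max_left _ _).trans h3), h2 ((le_max_right _ _).trans h3), add_zero]

theorem bt_cmul {ψ : Pos3 → ℝ} {gψ : Pos3 → Pos3} (h : BT ψ gψ) (c : ℝ) :
    BT (fun x => c * ψ x) (fun x => c • gψ x) := by
  obtain ⟨C, hC⟩ := h.bdd
  obtain ⟨R, hR⟩ := h.cpt
  refine ⟨H1.const_mul h.h1 c, ⟨|c| * C, ?_⟩, ⟨R, ?_⟩⟩
  · filter_upwards [hC] with x h1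
    rw [abs_mul]
    exact mul_le_mul_of_nonneg_left h1 (abs_nonneg _)
  · filter_upwards [hR] with x h1 h3
    rw [h1 h3, mul_zero]

section
variable {s U w : Pos3 → ℝ} {gs gU gw : Pos3 → Pos3}

theorem int_Uw (hs : Amp s gs) (hp : PairAdm s U gU w gw) {ψ : Pos3 → ℝ} (h : MemLp ψ 2 volume) :
    Integrable (fun x => U x * w x * ψ x) := by
  obtain ⟨C, hC0, hC⟩ := s_bdd hs
  have h1 : Integrable (fun x => w x * ψ x) := hp.hw.memf.integrable_mul h
  have h2 := h1.bdd_mul (c := C) hp.hU.memf.1 (Eventually.of_forall fun x => by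
    rw [Real.norm_eq_abs]; exact (absU_le hs hp x).trans (hC x))
  refine h2.congr (Eventually.of_forall fun x => ?_)
  simp only
  ring

theorem odd_part (hs : Amp s gs) (hp : PairAdm s U gU w gw) {ψ : Pos3 → ℝ} {gψ : Pos3 → Pos3}
    (h : BT ψ gψ) : ∃ χ gχ, BT χ gχ ∧ (∀ x, χ (rz x) = - χ x) ∧
      ∫ x, inner ℝ (J U gU w gw x) (gχ x) = ∫ x, inner ℝ (J U gU w gw x) (gψ x) ∧
      ∫ x, U x * w x * χ x = ∫ x, U x * w x * ψ x := by
  have hr := bt_rz h
  refine ⟨fun x => (1 / 2) * ψ x + (-(1 / 2)) * ψ (rz x), fun x => (1 / 2 : ℝ) • gψ x +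
    (-(1 / 2) : ℝ) • rz (gψ (rz x)), bt_add (bt_cmul h _) (bt_cmul hr _), ?_, ?_, ?_⟩
  · intro x
    simp only
    rw [rz_rz]; ring
  · have hJ := J_L2 hs hp
    have i1 : Integrable (fun x => inner ℝ (J U gU w gw x) (gψ x)) := integrable_inner' hJ h.h1.memg
    have i2 : Integrable (fun x => inner ℝ (J U gU w gw x) (rz (gψ (rz x)))) :=
      integrable_inner' hJ hr.h1.memg
    have e : ∫ x, inner ℝ (J U gU w gw x) (rz (gψ (rz x))) =
        - ∫ x, inner ℝ (J U gU w gw x) (gψ x) := by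
      rw [← int_rz, ← integral_neg]
      refine integral_congr_ae ?_
      filter_upwards [J_rz hp] with x hx
      rw [hx, rz_rz, inner_neg_left, LinearIsometryEquiv.inner_map_map]
    simp only [inner_add_right, inner_smul_right]
    rw [integral_add (i1.const_mul _) (i2.const_mul _), integral_const_mul, integral_const_mul, e]
    ring
  · have i1 := int_Uw hs hp h.h1.memf
    have i2 := int_Uw hs hp hr.h1.memf
    have e : ∫ x, U x * w x * ψ (rz x) = - ∫ x, U x * w x * ψ x := by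
      rw [← int_rz, ← integral_neg]
      refine integral_congr_ae (Eventually.of_forall fun x => ?_)
      simp only
      rw [hp.evenU, hp.oddw, rz_rz]
      ring
    have e2 : (fun x => U x * w x * ((1 / 2) * ψ x + (-(1 / 2)) * ψ (rz x))) =
        fun x => (1 / 2) * (U x * w x * ψ x) + (-(1 / 2)) * (U x * w x * ψ (rz x)) := by
      ext x; ring
    rw [e2, integral_add (i1.const_mul _) (i2.const_mul _), integral_const_mul,
      integral_const_mul, e]
    ring

end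


/-! ### the rotated pair -/

section
variable {s U w : Pos3 → ℝ} {gs gU gw : Pos3 → Pos3}

/-- rotated even function -/
def rU (U w χ : Pos3 → ℝ) (x : Pos3) : ℝ := U x * Real.cos (χ x) - w x * Real.sin (χ x)

/-- rotated odd function -/
def rw' (U w χ : Pos3 → ℝ) (x : Pos3) : ℝ := w x * Real.cos (χ x) + U x * Real.sin (χ x)

/-- gradients -/
def rgU (U : Pos3 → ℝ) (gU : Pos3 → Pos3) (w : Pos3 → ℝ) (gw : Pos3 → Pos3) (χ : Pos3 → ℝ)
    (gχ : Pos3 → Pos3) (x : Pos3) : Pos3 :=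
  Real.cos (χ x) • gU x - Real.sin (χ x) • gw x - rw' U w χ x • gχ x

def rgw (U : Pos3 → ℝ) (gU : Pos3 → Pos3) (w : Pos3 → ℝ) (gw : Pos3 → Pos3) (χ : Pos3 → ℝ)
    (gχ : Pos3 → Pos3) (x : Pos3) : Pos3 :=
  Real.cos (χ x) • gw x + Real.sin (χ x) • gU x + rU U w χ x • gχ x

theorem r_sq (hp : PairAdm s U gU w gw) (χ : Pos3 → ℝ) (x : Pos3) :
    rU U w χ x ^ 2 + rw' U w χ x ^ 2 = s x ^ 2 := by
  unfold rU rw'
  rw [← hp.sq x]
  have := Real.sin_sq_add_cos_sq (χ x)
  linear_combination (U x ^ 2 + w x ^ 2) * this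

theorem r_energy (hp : PairAdm s U gU w gw) (χ : Pos3 → ℝ) (gχ : Pos3 → Pos3) (x : Pos3) :
    ‖rgU U gU w gw χ gχ x‖ ^ 2 + ‖rgw U gU w gw χ gχ x‖ ^ 2 =
      ‖gU x‖ ^ 2 + ‖gw x‖ ^ 2 - 2 * inner ℝ (J U gU w gw x) (gχ x) + s x ^ 2 * ‖gχ x‖ ^ 2 := by
  have h1 := Real.sin_sq_add_cos_sq (χ x)
  have h2 := hp.sq x
  unfold rgU rgw rU rw' J
  simp only [← real_inner_self_eq_norm_sq, inner_add_left, inner_add_right, inner_sub_left,
    inner_sub_right, real_inner_smul_left, real_inner_smul_right]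
  rw [real_inner_comm (gU x) (gw x), real_inner_comm (gχ x) (gw x), real_inner_comm (gχ x) (gU x),
    ← h2]
  generalize Real.sin (χ x) = S at *
  generalize Real.cos (χ x) = C at *
  generalize inner ℝ (gU x) (gU x) = a at *
  generalize inner ℝ (gw x) (gw x) = b at *
  generalize inner ℝ (gχ x) (gχ x) = c at *
  generalize inner ℝ (gU x) (gw x) = d at *
  generalize inner ℝ (gU x) (gχ x) = e at *
  generalize inner ℝ (gw x) (gχ x) = f at *
  generalize inner ℝ (gχ x) (gU x) = e' at *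
  generalize inner ℝ (gχ x) (gw x) = f' at *
  generalize inner ℝ (gw x) (gU x) = d' at *
  linear_combination (a + b + (U x ^ 2 + w x ^ 2) * c - 2 * w x * e' + 2 * U x * f') * h1

theorem r_H1 (hs : Amp s gs) (hp : PairAdm s U gU w gw) {χ : Pos3 → ℝ} {gχ : Pos3 → Pos3}
    (h : H1 χ gχ) : H1 (rU U w χ) (rgU U gU w gw χ gχ) ∧ H1 (rw' U w χ) (rgw U gU w gw χ gχ) := by
  obtain ⟨C, hC0, hC⟩ := s_bdd hs
  set D : ℝ := max C 2 with hD
  have hU : ∀ x, |U x| ≤ D := fun x => ((absU_le hs hp x).trans (hC x)).trans (le_max_left _ _)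
  have hw : ∀ x, |w x| ≤ D := fun x => ((absw_le hs hp x).trans (hC x)).trans (le_max_left _ _)
  have d1 : ∀ t : ℝ, deriv Real.sin t = Real.cos t := fun t => by rw [Real.deriv_sin]
  have d2 : ∀ t : ℝ, deriv (fun t => Real.cos t - 1) t = - Real.sin t := fun t => by
    rw [deriv_sub_const, Real.deriv_cos]
  have hS := H1.comp h (F := Real.sin) Real.contDiff_sin (C := 1)
    (fun t => by rw [d1]; exact Real.abs_cos_le_one t) Real.sin_zero
  have hK := H1.comp h (F := fun t => Real.cos t - 1) (Real.contDiff_cos.sub contDiff_const) (C := 1)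
    (fun t => by rw [d2, abs_neg]; exact Real.abs_sin_le_one t) (by simp)
  simp only [d1] at hS
  simp only [d2] at hK
  have bS : ∀ x, |Real.sin (χ x)| ≤ D := fun x =>
    (Real.abs_sin_le_one _).trans ((by norm_num : (1 : ℝ) ≤ 2).trans (le_max_right _ _))
  have bK : ∀ x, |Real.cos (χ x) - 1| ≤ D := fun x => by
    refine le_trans ?_ (le_max_right _ _)
    rw [abs_le]
    have h1 := Real.neg_one_le_cos (χ x)
    have h2 := Real.cos_le_one (χ x)
    constructor <;> linarith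
  have a1 := H1.mul hp.hU hK hU bK
  have a2 := H1.mul hp.hw hS hw bS
  have a3 := H1.mul hp.hw hK hw bK
  have a4 := H1.mul hp.hU hS hU bS
  have b1 := H1.sub (H1.add a1 hp.hU) a2
  have b2 := H1.add (H1.add a3 hp.hw) a4
  refine ⟨?_, ?_⟩
  · refine H1.congr b1 (Eventually.of_forall fun x => ?_) (Eventually.of_forall fun x => ?_)
    · simp only [rU]; ring
    · simp only [rgU, rw']; module
  · refine H1.congr b2 (Eventually.of_forall fun x => ?_) (Eventually.of_forall fun x => ?_)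
    · simp only [rw']; ring
    · simp only [rgw, rU]; module

theorem int_s (hp : PairAdm s U gU w gw) :
    Integrable (fun x => s x ^ 2) ∧ ∫ x, s x ^ 2 = 3 := by
  have i1 := hp.hU.memf.integrable_sq
  have i2 := hp.hw.memf.integrable_sq
  have e : (fun x => s x ^ 2) = fun x => U x ^ 2 + w x ^ 2 := by
    ext x; rw [hp.sq x]
  rw [e]
  refine ⟨i1.add i2, ?_⟩
  rw [integral_add i1 i2, hp.nU, hp.nw]
  norm_num

/-- the rotated pair is admissible -/
theorem r_adm (hs : Amp s gs) (hp : PairAdm s U gU w gw) {χ : Pos3 → ℝ} {gχ : Pos3 → Pos3}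
    (h : H1 χ gχ) (hodd : ∀ x, χ (rz x) = - χ x) (hn : ∫ x, rw' U w χ x ^ 2 = 1) :
    PairAdm s (rU U w χ) (rgU U gU w gw χ gχ) (rw' U w χ) (rgw U gU w gw χ gχ) := by
  obtain ⟨h1, h2⟩ := r_H1 hs hp h
  refine ⟨h1, h2, r_sq hp χ, ?_, ?_, ?_, hn⟩
  · intro x
    simp only [rU, hp.evenU, hp.oddw, hodd, Real.cos_neg, Real.sin_neg]
    ring
  · intro x
    simp only [rw', hp.evenU, hp.oddw, hodd, Real.cos_neg, Real.sin_neg]
    ring
  · obtain ⟨i1, i2⟩ := int_s hp
    have e : (fun x => rU U w χ x ^ 2) = fun x => s x ^ 2 - rw' U w χ x ^ 2 := by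
      ext x
      rw [← r_sq hp χ x]; ring
    rw [e, integral_sub i1 h2.memf.integrable_sq, i2, hn]
    norm_num

/-- first variation inequality -/
theorem r_ineq (hs : Amp s gs) (hp : PairAdm s U gU w gw)
    (hmin : ∀ U' gU' w' gw', PairAdm s U' gU' w' gw' →
      (∫ x, ‖gU x‖ ^ 2) + (∫ x, ‖gw x‖ ^ 2) ≤ (∫ x, ‖gU' x‖ ^ 2) + ∫ x, ‖gw' x‖ ^ 2)
    {C : ℝ} (hC : ∀ x, s x ≤ C) {χ : Pos3 → ℝ} {gχ : Pos3 → Pos3}
    (h : H1 χ gχ) (hodd : ∀ x, χ (rz x) = - χ x) (hn : ∫ x, rw' U w χ x ^ 2 = 1) :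
    2 * ∫ x, inner ℝ (J U gU w gw x) (gχ x) ≤ C ^ 2 * ∫ x, ‖gχ x‖ ^ 2 := by
  have ha := r_adm hs hp h hodd hn
  have hm := hmin _ _ _ _ ha
  have i1 : Integrable (fun x => ‖gU x‖ ^ 2) := hp.hU.memg.norm.integrable_sq
  have i2 : Integrable (fun x => ‖gw x‖ ^ 2) := hp.hw.memg.norm.integrable_sq
  have i3 : Integrable (fun x => ‖rgU U gU w gw χ gχ x‖ ^ 2) := ha.hU.memg.norm.integrable_sq
  have i4 : Integrable (fun x => ‖rgw U gU w gw χ gχ x‖ ^ 2) := ha.hw.memg.norm.integrable_sq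
  have i5 : Integrable (fun x => inner ℝ (J U gU w gw x) (gχ x)) :=
    integrable_inner' (J_L2 hs hp) h.memg
  have i6 : Integrable (fun x => ‖gχ x‖ ^ 2) := h.memg.norm.integrable_sq
  rw [← integral_add i1 i2, ← integral_add i3 i4] at hm
  have i7 : Integrable (fun x => ‖gU x‖ ^ 2 + ‖gw x‖ ^ 2) := i1.add i2
  have i8 : Integrable (fun x => ‖gU x‖ ^ 2 + ‖gw x‖ ^ 2 -
      2 * inner ℝ (J U gU w gw x) (gχ x)) := i7.sub (i5.const_mul _)
  have e : ∫ x, (‖gU x‖ ^ 2 + ‖gw x‖ ^ 2 - 2 * inner ℝ (J U gU w gw x) (gχ x) +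
      C ^ 2 * ‖gχ x‖ ^ 2) = (∫ x, (‖gU x‖ ^ 2 + ‖gw x‖ ^ 2)) -
        2 * (∫ x, inner ℝ (J U gU w gw x) (gχ x)) + C ^ 2 * ∫ x, ‖gχ x‖ ^ 2 := by
    rw [integral_add i8 (i6.const_mul _),
      integral_sub i7 (i5.const_mul _), integral_const_mul, integral_const_mul]
  have hle : ∫ x, (‖rgU U gU w gw χ gχ x‖ ^ 2 + ‖rgw U gU w gw χ gχ x‖ ^ 2) ≤
      ∫ x, (‖gU x‖ ^ 2 + ‖gw x‖ ^ 2 - 2 * inner ℝ (J U gU w gw x) (gχ x) +
      C ^ 2 * ‖gχ x‖ ^ 2) := by
    refine integral_mono (i3.add i4) (i8.add (i6.const_mul _)) ?_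
    intro x
    simp only
    rw [r_energy hp]
    have h0 := (hs.pos x).le
    have h1 : s x ^ 2 ≤ C ^ 2 := pow_le_pow_left₀ h0 (hC x) 2
    have h2 := mul_le_mul_of_nonneg_right h1 (sq_nonneg ‖gχ x‖)
    linarith
  linarith

end

/-! ### Lagrange multiplier in two parameters -/

theorem abs_sin_sub_le (y : ℝ) : |Real.sin y - y| ≤ 2 * y ^ 2 := by
  have key : ∀ y : ℝ, 0 < y → |Real.sin y - y| ≤ 2 * y ^ 2 := by
    intro y hy
    have h1 := Real.sin_le hy.le
    rw [abs_sub_comm, abs_of_nonneg (by linarith)]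
    rcases le_total y 1 with h | h
    · have h2 := Real.sin_gt_sub_cube hy
      nlinarith [mul_le_mul_of_nonneg_left h (sq_nonneg y)]
    · have h2 := Real.neg_one_le_sin y
      nlinarith
  rcases lt_trichotomy y 0 with h | h | h
  · have := key (-y) (by linarith)
    rw [Real.sin_neg] at this
    rw [← abs_neg, show -(Real.sin y - y) = -Real.sin y - -y by ring]
    simpa using this
  · simp [h]
  · exact key y h

theorem lagrange {f : ℝ → ℝ → ℝ} {a a0 b0 K M : ℝ} (hK : 0 ≤ K) (hM : 0 ≤ M) (hb0 : 0 < b0)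
    (hc : ∀ t, Continuous (f t)) (hf : ∀ t r, |f t r - 2 * r * b0| ≤ K * (t ^ 2 + r ^ 2))
    (h : ∀ t r, f t r = 0 → 2 * (t * a + r * a0) ≤ M * (t ^ 2 + r ^ 2)) : a = 0 := by
  set c : ℝ := (K + 1) / b0 with hcd
  have hc0 : 0 < c := by positivity
  have hbc : b0 * c = K + 1 := by rw [hcd]; field_simp
  have key : ∀ t : ℝ, c ^ 2 * t ^ 2 ≤ 1 → t * a ≤ (|a0| * c + M) * t ^ 2 := by
    intro t ht
    have ht2 := sq_nonneg t
    have hu : 0 ≤ f t (c * t ^ 2) := by
      have h1 := (abs_le.1 (hf t (c * t ^ 2))).1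
      have h2 : (c * t ^ 2) ^ 2 ≤ t ^ 2 := by nlinarith
      have h3 : K * (t ^ 2 + (c * t ^ 2) ^ 2) ≤ K * (t ^ 2 + t ^ 2) :=
        mul_le_mul_of_nonneg_left (by linarith) hK
      have h4 : 2 * (c * t ^ 2) * b0 = 2 * (K + 1) * t ^ 2 := by rw [← hbc]; ring
      nlinarith
    have hl : f t (-(c * t ^ 2)) ≤ 0 := by
      have h1 := (abs_le.1 (hf t (-(c * t ^ 2)))).2
      have h2 : (-(c * t ^ 2)) ^ 2 ≤ t ^ 2 := by nlinarith
      have h3 : K * (t ^ 2 + (-(c * t ^ 2)) ^ 2) ≤ K * (t ^ 2 + t ^ 2) :=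
        mul_le_mul_of_nonneg_left (by linarith) hK
      have h4 : 2 * (-(c * t ^ 2)) * b0 = - (2 * (K + 1) * t ^ 2) := by rw [← hbc]; ring
      nlinarith
    have hR : -(c * t ^ 2) ≤ c * t ^ 2 := by
      have : 0 ≤ c * t ^ 2 := by positivity
      linarith
    obtain ⟨r, hr, hr0⟩ := intermediate_value_Icc hR (hc t).continuousOn ⟨hl, hu⟩
    have h1 := h t r hr0
    have h2 : |r| ≤ c * t ^ 2 := abs_le.2 hr
    have h3 : r ^ 2 ≤ t ^ 2 := by
      have : r ^ 2 ≤ (c * t ^ 2) ^ 2 := by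
        rw [← sq_abs r]
        exact pow_le_pow_left₀ (abs_nonneg _) h2 2
      nlinarith
    have h4 : M * (t ^ 2 + r ^ 2) ≤ M * (2 * t ^ 2) := mul_le_mul_of_nonneg_left (by linarith) hM
    have h5 : -(r * a0) ≤ |a0| * (c * t ^ 2) := by
      have := neg_abs_le (r * a0)
      rw [abs_mul] at this
      have h6 : |r| * |a0| ≤ (c * t ^ 2) * |a0| := mul_le_mul_of_nonneg_right h2 (abs_nonneg _)
      linarith
    nlinarith
  by_contra hne
  set L : ℝ := |a0| * c + M with hL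
  have hL0 : 0 ≤ L := by positivity
  have hpos : 0 < |a| := abs_pos.2 hne
  -- choose `t` small with the sign of `a`
  obtain ⟨τ, hτ0, hτ1, hτ2⟩ : ∃ τ : ℝ, 0 < τ ∧ c ^ 2 * τ ^ 2 ≤ 1 ∧ L * τ < |a| := by
    refine ⟨min (1 / c) (|a| / (2 * (L + 1))), by positivity, ?_, ?_⟩
    · have h1 : min (1 / c) (|a| / (2 * (L + 1))) ≤ 1 / c := min_le_left _ _
      have h2 : (0 : ℝ) < min (1 / c) (|a| / (2 * (L + 1))) := by positivity
      have h3 := pow_le_pow_left₀ h2.le h1 2
      calc c ^ 2 * (min (1 / c) (|a| / (2 * (L + 1)))) ^ 2 ≤ c ^ 2 * (1 / c) ^ 2 :=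
            mul_le_mul_of_nonneg_left h3 (by positivity)
        _ = 1 := by field_simp
    · have h1 : min (1 / c) (|a| / (2 * (L + 1))) ≤ |a| / (2 * (L + 1)) := min_le_right _ _
      have h2 := mul_le_mul_of_nonneg_left h1 hL0
      have h3 : L * (|a| / (2 * (L + 1))) < |a| := by
        rw [mul_div_assoc', div_lt_iff₀ (by positivity)]
        nlinarith
      linarith
  rcases lt_or_gt_of_ne hne with ha | ha
  · have h1 := key (-τ) (by rw [neg_sq]; exact hτ1)
    rw [abs_of_neg ha] at hτ2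
    rw [neg_sq] at h1
    nlinarith
  · have h1 := key τ hτ1
    rw [abs_of_pos ha] at hτ2
    nlinarith


section
variable {s U w : Pos3 → ℝ} {gs gU gw : Pos3 → Pos3}

theorem rw_sub_le (hs : Amp s gs) (hp : PairAdm s U gU w gw) (χ : Pos3 → ℝ) (x : Pos3) :
    |rw' U w χ x ^ 2 - w x ^ 2 - 2 * (U x * w x * χ x)| ≤ 5 * (s x ^ 2 * χ x ^ 2) := by
  have h1 := hp.sq x
  have h2 := Real.sin_sq_add_cos_sq (χ x)
  have h3 := abs_sin_sub_le (2 * χ x)
  have h4 := Real.sin_two_mul (χ x)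
  have e : rw' U w χ x ^ 2 - w x ^ 2 - 2 * (U x * w x * χ x) =
      (U x ^ 2 - w x ^ 2) * Real.sin (χ x) ^ 2 + U x * w x * (Real.sin (2 * χ x) - 2 * χ x) := by
    unfold rw'
    rw [h4]
    linear_combination (w x ^ 2) * h2
  rw [e]
  have h5 : Real.sin (χ x) ^ 2 ≤ χ x ^ 2 := by
    rw [← sq_abs (Real.sin _), ← sq_abs (χ x)]
    exact pow_le_pow_left₀ (abs_nonneg _) Real.abs_sin_le_abs 2
  have h6 : |(U x ^ 2 - w x ^ 2) * Real.sin (χ x) ^ 2| ≤ s x ^ 2 * χ x ^ 2 := by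
    rw [abs_mul, abs_of_nonneg (sq_nonneg (Real.sin (χ x)))]
    refine mul_le_mul ?_ h5 (sq_nonneg _) (sq_nonneg _)
    rw [← h1, abs_le]
    constructor <;> nlinarith [sq_nonneg (U x), sq_nonneg (w x)]
  have h7 : |U x * w x * (Real.sin (2 * χ x) - 2 * χ x)| ≤ 4 * (s x ^ 2 * χ x ^ 2) := by
    rw [abs_mul]
    have h8 : |U x * w x| ≤ s x ^ 2 / 2 := by
      rw [abs_le, ← h1]
      constructor <;> nlinarith [sq_nonneg (U x + w x), sq_nonneg (U x - w x)]
    calc |U x * w x| * |Real.sin (2 * χ x) - 2 * χ x| ≤ (s x ^ 2 / 2) * (2 * (2 * χ x) ^ 2) :=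
          mul_le_mul h8 h3 (abs_nonneg _) (by positivity)
      _ = 4 * (s x ^ 2 * χ x ^ 2) := by ring
  have := abs_add_le ((U x ^ 2 - w x ^ 2) * Real.sin (χ x) ^ 2)
    (U x * w x * (Real.sin (2 * χ x) - 2 * χ x))
  linarith

theorem aesm_rw (hp : PairAdm s U gU w gw) {χ : Pos3 → ℝ}
    (h : AEStronglyMeasurable χ volume) : AEStronglyMeasurable (rw' U w χ) volume :=
  (hp.hw.memf.1.mul (Real.continuous_cos.comp_aestronglyMeasurable h)).add
    (hp.hU.memf.1.mul (Real.continuous_sin.comp_aestronglyMeasurable h))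

theorem rw_sq_le (hp : PairAdm s U gU w gw) (χ : Pos3 → ℝ) (x : Pos3) :
    rw' U w χ x ^ 2 ≤ s x ^ 2 := by
  rw [← r_sq hp χ x]
  nlinarith [sq_nonneg (rU U w χ x)]

theorem el_zero (hs : Amp s gs) (hp : PairAdm s U gU w gw)
    (hmin : ∀ U' gU' w' gw', PairAdm s U' gU' w' gw' →
      (∫ x, ‖gU x‖ ^ 2) + (∫ x, ‖gw x‖ ^ 2) ≤ (∫ x, ‖gU' x‖ ^ 2) + ∫ x, ‖gw' x‖ ^ 2)
    {χ0 : Pos3 → ℝ} {g0 : Pos3 → Pos3} (h0 : H1 χ0 g0) (o0 : ∀ x, χ0 (rz x) = - χ0 x)
    (hb0 : 0 < ∫ x, U x * w x * χ0 x)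
    {χ : Pos3 → ℝ} {gχ : Pos3 → Pos3} (h : H1 χ gχ) (o : ∀ x, χ (rz x) = - χ x)
    (hb : ∫ x, U x * w x * χ x = 0) :
    ∫ x, inner ℝ (J U gU w gw x) (gχ x) = 0 := by
  obtain ⟨C, hC0, hC⟩ := s_bdd hs
  obtain ⟨is, ints⟩ := int_s hp
  have hcomb : ∀ t r : ℝ, H1 (fun x => t * χ x + r * χ0 x) (fun x => t • gχ x + r • g0 x) :=
    fun t r => H1.add (H1.const_mul h t) (H1.const_mul h0 r)
  have iχ := h.memf.integrable_sq
  have i0 := h0.memf.integrable_sq
  have igχ : Integrable (fun x => ‖gχ x‖ ^ 2) := h.memg.norm.integrable_sq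
  have ig0 : Integrable (fun x => ‖g0 x‖ ^ 2) := h0.memg.norm.integrable_sq
  have iUχ := int_Uw hs hp h.memf
  have iU0 := int_Uw hs hp h0.memf
  have iJχ : Integrable (fun x => inner ℝ (J U gU w gw x) (gχ x)) :=
    integrable_inner' (J_L2 hs hp) h.memg
  have iJ0 : Integrable (fun x => inner ℝ (J U gU w gw x) (g0 x)) :=
    integrable_inner' (J_L2 hs hp) h0.memg
  have iw := hp.hw.memf.integrable_sq
  refine lagrange (f := fun t r => (∫ x, rw' U w (fun x => t * χ x + r * χ0 x) x ^ 2) - 1)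
    (a0 := ∫ x, inner ℝ (J U gU w gw x) (g0 x)) (b0 := ∫ x, U x * w x * χ0 x)
    (K := 10 * C ^ 2 * ((∫ x, χ x ^ 2) + ∫ x, χ0 x ^ 2))
    (M := 2 * C ^ 2 * ((∫ x, ‖gχ x‖ ^ 2) + ∫ x, ‖g0 x‖ ^ 2)) ?_ ?_ hb0 ?_ ?_ ?_
  · have h1 : 0 ≤ ∫ x, χ x ^ 2 := integral_nonneg fun x => sq_nonneg _
    have h2 : 0 ≤ ∫ x, χ0 x ^ 2 := integral_nonneg fun x => sq_nonneg _
    positivity
  · have h1 : 0 ≤ ∫ x, ‖gχ x‖ ^ 2 := integral_nonneg fun x => sq_nonneg _
    have h2 : 0 ≤ ∫ x, ‖g0 x‖ ^ 2 := integral_nonneg fun x => sq_nonneg _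
    positivity
  · intro t
    refine Continuous.sub ?_ continuous_const
    refine continuous_of_dominated (bound := fun x => s x ^ 2) ?_ ?_ is ?_
    · intro r
      exact (aesm_rw hp (hcomb t r).memf.1).pow 2
    · intro r
      refine Eventually.of_forall fun x => ?_
      rw [Real.norm_eq_abs, abs_of_nonneg (sq_nonneg _)]
      exact rw_sq_le hp _ x
    · refine Eventually.of_forall fun x => ?_
      unfold rw'
      fun_prop
  · intro t r
    have hH := hcomb t r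
    have iψ := int_Uw hs hp hH.memf
    have ir : Integrable (fun x => rw' U w (fun x => t * χ x + r * χ0 x) x ^ 2) := by
      refine is.mono ((aesm_rw hp hH.memf.1).pow 2) (Eventually.of_forall fun x => ?_)
      rw [Real.norm_eq_abs, Real.norm_eq_abs, abs_of_nonneg (sq_nonneg _),
        abs_of_nonneg (sq_nonneg _)]
      exact rw_sq_le hp _ x
    have e1 : ∫ x, U x * w x * (t * χ x + r * χ0 x) = r * ∫ x, U x * w x * χ0 x := by
      have e2 : (fun x => U x * w x * (t * χ x + r * χ0 x)) = fun x => t * (U x * w x * χ x) +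
          r * (U x * w x * χ0 x) := by
        ext x; ring
      rw [e2, integral_add (iUχ.const_mul _) (iU0.const_mul _), integral_const_mul,
        integral_const_mul, hb]
      ring
    have e3 : (∫ x, rw' U w (fun x => t * χ x + r * χ0 x) x ^ 2) - 1 -
        2 * r * ∫ x, U x * w x * χ0 x = ∫ x, (rw' U w (fun x => t * χ x + r * χ0 x) x ^ 2 -
          w x ^ 2 - 2 * (U x * w x * (t * χ x + r * χ0 x))) := by
      have i10 : Integrable (fun x => rw' U w (fun x => t * χ x + r * χ0 x) x ^ 2 - w x ^ 2) :=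
        ir.sub iw
      rw [integral_sub i10 (iψ.const_mul _), integral_sub ir iw, integral_const_mul, e1,
        hp.nw]
      ring
    rw [e3]
    refine (abs_integral_le_integral_abs).trans ?_
    have i9 : Integrable (fun x => 10 * C ^ 2 * (t ^ 2 * χ x ^ 2 + r ^ 2 * χ0 x ^ 2)) :=
      ((iχ.const_mul _).add (i0.const_mul _)).const_mul _
    have hle : ∫ x, |rw' U w (fun x => t * χ x + r * χ0 x) x ^ 2 -
          w x ^ 2 - 2 * (U x * w x * (t * χ x + r * χ0 x))| ≤
        ∫ x, 10 * C ^ 2 * (t ^ 2 * χ x ^ 2 + r ^ 2 * χ0 x ^ 2) := by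
      refine integral_mono ((ir.sub iw).sub (iψ.const_mul _)).abs i9 ?_
      intro x
      refine (rw_sub_le hs hp _ x).trans ?_
      simp only
      have h1 : s x ^ 2 ≤ C ^ 2 := pow_le_pow_left₀ (hs.pos x).le (hC x) 2
      have h2 : (t * χ x + r * χ0 x) ^ 2 ≤ 2 * (t ^ 2 * χ x ^ 2 + r ^ 2 * χ0 x ^ 2) := by
        nlinarith [sq_nonneg (t * χ x - r * χ0 x)]
      have h3 := mul_le_mul h1 h2 (sq_nonneg _) (sq_nonneg _)
      linarith
    refine hle.trans ?_
    rw [integral_const_mul, integral_add (iχ.const_mul _) (i0.const_mul _), integral_const_mul,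
      integral_const_mul, mul_assoc (10 * C ^ 2)]
    refine mul_le_mul_of_nonneg_left ?_ (by positivity)
    have h1 : 0 ≤ ∫ x, χ x ^ 2 := integral_nonneg fun x => sq_nonneg _
    have h2 : 0 ≤ ∫ x, χ0 x ^ 2 := integral_nonneg fun x => sq_nonneg _
    nlinarith [mul_nonneg (sq_nonneg t) h2, mul_nonneg (sq_nonneg r) h1]
  · intro t r hf
    have hH := hcomb t r
    have h1 := r_ineq hs hp hmin hC hH (fun x => by simp only [o, o0]; ring)
      (by simpa [sub_eq_zero] using hf)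
    have e1 : ∫ x, inner ℝ (J U gU w gw x) (t • gχ x + r • g0 x) =
        t * (∫ x, inner ℝ (J U gU w gw x) (gχ x)) + r * ∫ x, inner ℝ (J U gU w gw x) (g0 x) := by
      simp only [inner_add_right, inner_smul_right]
      rw [integral_add (iJχ.const_mul _) (iJ0.const_mul _), integral_const_mul,
        integral_const_mul]
    rw [e1] at h1
    refine h1.trans ?_
    have i9 : Integrable (fun x => 2 * (t ^ 2 * ‖gχ x‖ ^ 2 + r ^ 2 * ‖g0 x‖ ^ 2)) :=
      ((igχ.const_mul _).add (ig0.const_mul _)).const_mul _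
    have hle : ∫ x, ‖t • gχ x + r • g0 x‖ ^ 2 ≤
        ∫ x, 2 * (t ^ 2 * ‖gχ x‖ ^ 2 + r ^ 2 * ‖g0 x‖ ^ 2) := by
      refine integral_mono hH.memg.norm.integrable_sq i9 ?_
      intro x
      simp only
      have h2 := norm_add_le (t • gχ x) (r • g0 x)
      rw [norm_smul, norm_smul, Real.norm_eq_abs, Real.norm_eq_abs] at h2
      have h3 := pow_le_pow_left₀ (norm_nonneg _) h2 2
      refine h3.trans ?_
      rw [← sq_abs t, ← sq_abs r]
      nlinarith [sq_nonneg (|t| * ‖gχ x‖ - |r| * ‖g0 x‖)]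
    have h4 := mul_le_mul_of_nonneg_left hle (sq_nonneg C)
    refine h4.trans ?_
    rw [integral_const_mul, integral_add (igχ.const_mul _) (ig0.const_mul _), integral_const_mul,
      integral_const_mul]
    have h5 : 0 ≤ ∫ x, ‖gχ x‖ ^ 2 := integral_nonneg fun x => sq_nonneg _
    have h6 : 0 ≤ ∫ x, ‖g0 x‖ ^ 2 := integral_nonneg fun x => sq_nonneg _
    have h7 : t ^ 2 * (∫ x, ‖gχ x‖ ^ 2) + r ^ 2 * ∫ x, ‖g0 x‖ ^ 2 ≤
        ((∫ x, ‖gχ x‖ ^ 2) + ∫ x, ‖g0 x‖ ^ 2) * (t ^ 2 + r ^ 2) := by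
      nlinarith [mul_nonneg (sq_nonneg t) h6, mul_nonneg (sq_nonneg r) h5]
    have h8 := mul_le_mul_of_nonneg_left h7 (by positivity : (0 : ℝ) ≤ 2 * C ^ 2)
    linarith

/-- the Euler-Lagrange equation with an unspecified multiplier -/
theorem el_all (hs : Amp s gs) (hp : PairAdm s U gU w gw)
    (hmin : ∀ U' gU' w' gw', PairAdm s U' gU' w' gw' →
      (∫ x, ‖gU x‖ ^ 2) + (∫ x, ‖gw x‖ ^ 2) ≤ (∫ x, ‖gU' x‖ ^ 2) + ∫ x, ‖gw' x‖ ^ 2)
    {χ0 : Pos3 → ℝ} {g0 : Pos3 → Pos3} (h0 : H1 χ0 g0) (o0 : ∀ x, χ0 (rz x) = - χ0 x)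
    (hb0 : 0 < ∫ x, U x * w x * χ0 x)
    {ψ : Pos3 → ℝ} {gψ : Pos3 → Pos3} (h : BT ψ gψ) :
    ∫ x, inner ℝ (J U gU w gw x) (gψ x) =
      ((∫ x, inner ℝ (J U gU w gw x) (g0 x)) / ∫ x, U x * w x * χ0 x) *
        ∫ x, U x * w x * ψ x := by
  obtain ⟨χ, gχ, hχ, oχ, e1, e2⟩ := odd_part hs hp h
  rw [← e1, ← e2]
  set b0 := ∫ x, U x * w x * χ0 x with hb0d
  set b := ∫ x, U x * w x * χ x with hbd
  have iUχ := int_Uw hs hp hχ.h1.memf
  have iU0 := int_Uw hs hp h0.memf
  have iJχ : Integrable (fun x => inner ℝ (J U gU w gw x) (gχ x)) :=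
    integrable_inner' (J_L2 hs hp) hχ.h1.memg
  have iJ0 : Integrable (fun x => inner ℝ (J U gU w gw x) (g0 x)) :=
    integrable_inner' (J_L2 hs hp) h0.memg
  have key := el_zero hs hp hmin h0 o0 hb0 (χ := fun x => χ x + (-(b / b0)) * χ0 x)
    (gχ := fun x => gχ x + (-(b / b0)) • g0 x) (H1.add hχ.h1 (H1.const_mul h0 _))
    (fun x => by simp only [oχ, o0]; ring) (by
      have e3 : (fun x => U x * w x * (χ x + (-(b / b0)) * χ0 x)) = fun x => U x * w x * χ x +
          (-(b / b0)) * (U x * w x * χ0 x) := by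
        ext x; ring
      rw [e3, integral_add iUχ (iU0.const_mul _), integral_const_mul, ← hbd, ← hb0d]
      field_simp
      ring)
  simp only [inner_add_right, inner_smul_right] at key
  rw [integral_add iJχ (iJ0.const_mul _), integral_const_mul] at key
  have : b0 ≠ 0 := hb0.ne'
  field_simp
  field_simp at key
  linarith

end


/-! ### quotients by the amplitude -/

section
variable {s U w : Pos3 → ℝ} {gs gU gw : Pos3 → Pos3}

theorem bt_of_test {θ : Pos3 → ℝ} (h : Test univ θ) : BT θ (gr θ) := by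
  refine ⟨H1.of_test h, ?_, ?_⟩
  · obtain ⟨C, hC⟩ := h.smooth.continuous.bounded_above_of_compact_support h.cpt
    exact ⟨C, Eventually.of_forall hC⟩
  · obtain ⟨R, hR⟩ := h.cpt.isCompact.isBounded.subset_closedBall (0 : Pos3)
    refine ⟨R + 1, Eventually.of_forall fun x hx => ?_⟩
    by_contra hne
    have h1 := hR (subset_tsupport θ hne)
    rw [mem_closedBall_zero_iff] at h1
    linarith

theorem exists_low (hs : Amp s gs) {K : Set Pos3} (hK : IsCompact K) :
    ∃ c : ℝ, 0 < c ∧ ∀ x ∈ K, c ≤ s x := by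
  rcases K.eq_empty_or_nonempty with h | h
  · exact ⟨1, one_pos, by simp [h]⟩
  · obtain ⟨x0, hx0, hm⟩ := hK.exists_isMinOn h hs.cont.continuousOn
    exact ⟨s x0, hs.pos x0, fun x hx => hm hx⟩

theorem bt_w (hs : Amp s gs) (hp : PairAdm s U gU w gw) {θ : Pos3 → ℝ} (hθ : Test univ θ) :
    BT (fun x => θ x * w x) (fun x => θ x • gw x + w x • gr θ x) := by
  obtain ⟨C, hC0, hC⟩ := s_bdd hs
  exact BT.mul (bt_of_test hθ) hp.hw ⟨C, Eventually.of_forall fun x =>
    (absw_le hs hp x).trans (hC x)⟩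

/-- `θ w / s` -/
theorem bt_quot (hs : Amp s gs) (hp : PairAdm s U gU w gw) {θ : Pos3 → ℝ} (hθ : Test univ θ) :
    BT (fun x => θ x * w x / s x)
      (fun x => (w x / s x) • gr θ x - (θ x * U x / s x ^ 3) • J U gU w gw x) := by
  obtain ⟨C, hC0, hC⟩ := s_bdd hs
  obtain ⟨c, hc, hl⟩ := exists_low hs hθ.cpt.isCompact
  have h1 := BT.div (bt_w hs hp hθ) hs.h1 ⟨C, Eventually.of_forall fun x => by
    rw [abs_of_pos (hs.pos x)]; exact hC x⟩ hc (Eventually.of_forall fun x hx => by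
    rw [abs_of_pos (hs.pos x)]
    exact hl x (subset_tsupport θ (left_ne_zero_of_mul hx)))
  refine BT.congr h1 (ae_eq_refl _) ?_
  filter_upwards [pair_grad hs hp] with x hx
  have hsx := (hs.pos x).ne'
  have h2 := hx.1
  have h3 : gs x = (1 / s x) • (U x • gU x + w x • gw x) := by
    rw [← h2, smul_smul, one_div, inv_mul_cancel₀ hsx, one_smul]
  rw [h3]
  unfold J
  have h4 := hp.sq x
  have e : (1 / s x) • (θ x • gw x + w x • gr θ x) -
      (θ x * w x / s x ^ 2) • (1 / s x) • (U x • gU x + w x • gw x) =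
      (w x / s x) • gr θ x + (θ x / s x - θ x * w x ^ 2 / s x ^ 3) • gw x -
        (θ x * U x * w x / s x ^ 3) • gU x := by
    match_scalars <;> field_simp
  rw [e]
  have e2 : θ x / s x - θ x * w x ^ 2 / s x ^ 3 = θ x * U x ^ 2 / s x ^ 3 := by
    field_simp
    rw [← h4]; ring
  rw [e2]
  match_scalars <;> field_simp

/-- `U J = 0` is impossible -/
theorem no_zero (hs : Amp s gs) (hp : PairAdm s U gU w gw)
    (h0 : ∀ᵐ x, U x • J U gU w gw x = 0) : False := by
  have key : ∀ n : ℕ, ∀ᵐ x : Pos3, ‖x‖ < n + 1 → w x = 0 := by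
    intro n
    set L : ℝ := n + 1 with hL
    have hL1 : 1 ≤ L := by rw [hL]; have : (0 : ℝ) ≤ n := n.cast_nonneg; linarith
    obtain ⟨C, hC0, hcut⟩ := exists_cutoff_ball (ι := Fin 3)
    obtain ⟨θ, hθ, hθ01, hθ1, hθ0, hθg⟩ := hcut (3 * L) (by linarith)
    have hq := bt_quot hs hp hθ
    set Q : Set Pos3 := {x : Pos3 | ∀ i, (WithLp.toLp 2 fun _ : Fin 3 => -L : Pos3) i < x i ∧
      x i < (WithLp.toLp 2 fun _ : Fin 3 => -L : Pos3) i + 2 * L} with hQ
    have hQ' : ∀ x : Pos3, x ∈ Q ↔ ∀ i, -L < x i ∧ x i < L := by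
      intro x
      simp only [hQ, mem_ofPred_eq]
      refine forall_congr' fun i => ?_
      have : (-L : ℝ) + 2 * L = L := by ring
      rw [this]
    have hQm : MeasurableSet Q := by
      have : Q = ⋂ i : Fin 3, {x : Pos3 | -L < x i ∧ x i < L} := by
        ext x; rw [hQ', mem_iInter]; rfl
      rw [this]
      refine MeasurableSet.iInter fun i => ?_
      have hci : Continuous fun x : Pos3 => x i := by fun_prop
      exact ((isOpen_lt continuous_const hci).inter
        (isOpen_lt hci continuous_const)).measurableSet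
    have hQball : ∀ x ∈ Q, ‖x‖ < 3 * L := by
      intro x hx
      rw [hQ'] at hx
      have h1 : ‖x‖ ^ 2 < (3 * L) ^ 2 := by
        rw [EuclideanSpace.norm_sq_eq, Fin.sum_univ_three]
        simp only [Real.norm_eq_abs, sq_abs]
        have a0 := hx 0
        have a1 := hx 1
        have a2 := hx 2
        nlinarith [mul_pos (sub_pos.2 a0.2) (sub_pos.2 a0.1), mul_pos (sub_pos.2 a1.2) (sub_pos.2 a1.1),
          mul_pos (sub_pos.2 a2.2) (sub_pos.2 a2.1)]
      exact lt_of_pow_lt_pow_left₀ 2 (by linarith) h1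
    have hP := H1.poincare_cube hq.h1 (WithLp.toLp 2 fun _ : Fin 3 => -L) (a := 2 * L)
      (by linarith)
    rw [← hQ] at hP
    have g0 : ∫ x in Q, ‖(w x / s x) • gr θ x - (θ x * U x / s x ^ 3) • J U gU w gw x‖ ^ 2 = 0 := by
      refine setIntegral_eq_zero_of_ae_eq_zero ?_
      filter_upwards [h0] with x hx hxQ
      have h1 : gr θ x = 0 := by
        have h2 : θ =ᶠ[𝓝 x] fun _ => (1 : ℝ) := by
          have h3 : Metric.ball (0 : Pos3) (3 * L) ∈ 𝓝 x :=
            Metric.isOpen_ball.mem_nhds (mem_ball_zero_iff.2 (hQball x hxQ))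
          filter_upwards [h3] with y hy
          exact hθ1 y (mem_ball_zero_iff.1 hy).le
        ext i
        rw [gr_apply, pd, h2.fderiv_eq]
        simp
      have h3 : (θ x * U x / s x ^ 3) • J U gU w gw x = 0 := by
        have : θ x * U x / s x ^ 3 = (θ x / s x ^ 3) * U x := by ring
        rw [this, mul_smul, hx, smul_zero]
      rw [h1, h3]
      simp
    have hint : ∫ x in Q, θ x * w x / s x = 0 := by
      have e1 : ∫ x in Q, θ x * w x / s x = ∫ x in Q, w x / s x := by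
        refine setIntegral_congr_fun hQm fun x hx => ?_
        rw [hθ1 x (hQball x hx).le, one_mul]
      have e2 : (fun x : Pos3 => rz x) ⁻¹' Q = Q := by
        ext x
        rw [mem_preimage, hQ', hQ']
        refine forall_congr' fun i => ?_
        rw [rz_apply]
        split_ifs
        · constructor <;> rintro ⟨a, b⟩ <;> constructor <;> linarith
        · exact Iff.rfl
      have e3 : ∫ x in Q, w (rz x) / s (rz x) = ∫ x in Q, w x / s x := by
        have := mp_rz.setIntegral_preimage_emb rz.toHomeomorph.measurableEmbedding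
          (fun x => w x / s x) Q
        rw [e2] at this
        exact this
      have e4 : ∫ x in Q, w (rz x) / s (rz x) = - ∫ x in Q, w x / s x := by
        rw [← integral_neg]
        refine integral_congr_ae (Eventually.of_forall fun x => ?_)
        simp only
        rw [hp.oddw, hs.even]
        ring
      rw [e1]
      linarith
    rw [g0, hint] at hP
    have hP2 : ∫ x in Q, (θ x * w x / s x) ^ 2 = 0 :=
      le_antisymm (by simpa using hP) (integral_nonneg fun x => sq_nonneg _)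
    rw [integral_eq_zero_iff_of_nonneg (fun x => sq_nonneg _)
      hq.h1.memf.integrable_sq.integrableOn] at hP2
    have hP3 := (ae_restrict_iff' hQm).1 hP2
    filter_upwards [hP3] with x hx hxn
    have hxQ : x ∈ Q := by
      rw [hQ']
      intro i
      have := PiLp.norm_apply_le x i
      rw [Real.norm_eq_abs] at this
      exact abs_lt.1 (this.trans_lt hxn)
    have h1 := hx hxQ
    simp only [Pi.zero_apply] at h1
    have h2 := pow_eq_zero_iff (two_ne_zero) |>.1 h1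
    rw [hθ1 x (hQball x hxQ).le, one_mul, div_eq_zero_iff] at h2
    exact h2.resolve_right (hs.pos x).ne'
  have h1 : ∀ᵐ x : Pos3, w x = 0 := by
    filter_upwards [ae_all_iff.2 key] with x hx
    obtain ⟨n, hn⟩ := exists_nat_gt ‖x‖
    exact hx n (by linarith)
  have h2 : ∫ x, w x ^ 2 = 0 := by
    refine integral_eq_zero_of_ae ?_
    filter_upwards [h1] with x hx
    simp [hx]
  rw [hp.nw] at h2
  norm_num at h2

end


/-! ### non-degeneracy -/

section
variable {s U w : Pos3 → ℝ} {gs gU gw : Pos3 → Pos3}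

theorem exists_pos (hs : Amp s gs) (hp : PairAdm s U gU w gw) (hU0 : ∀ x, 0 ≤ U x) :
    ∃ χ gχ, BT χ gχ ∧ (∀ x, χ (rz x) = - χ x) ∧ 0 < ∫ x, U x * w x * χ x := by
  by_contra hcon
  push Not at hcon
  obtain ⟨C, hC0, hcut⟩ := exists_cutoff_ball (ι := Fin 3)
  have key : ∀ n : ℕ, ∀ᵐ x : Pos3, ‖x‖ < n + 1 → U x * w x = 0 := by
    intro n
    obtain ⟨θ, hθ, hθ01, hθ1, hθ0, hθg⟩ := hcut (n + 1) (by
      have : (0 : ℝ) ≤ n := n.cast_nonneg
      linarith)
    have hb := bt_w hs hp hθ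
    obtain ⟨χ, gχ, hχ, oχ, -, e2⟩ := odd_part hs hp hb
    have h1 := hcon χ gχ hχ oχ
    rw [e2] at h1
    have hnn : ∀ x, 0 ≤ U x * w x * (θ x * w x) := fun x => by
      have : U x * w x * (θ x * w x) = U x * θ x * w x ^ 2 := by ring
      rw [this]
      exact mul_nonneg (mul_nonneg (hU0 x) (hθ01 x).1) (sq_nonneg _)
    have h2 : ∫ x, U x * w x * (θ x * w x) = 0 := le_antisymm h1 (integral_nonneg hnn)
    rw [integral_eq_zero_iff_of_nonneg hnn (int_Uw hs hp hb.h1.memf)] at h2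
    filter_upwards [h2] with x hx hxn
    rw [hθ1 x hxn.le] at hx
    have h3 : U x * w x * w x = 0 := by simpa using hx
    rcases mul_eq_zero.1 h3 with h | h
    · exact h
    · rw [h, mul_zero]
  have h1 : ∀ᵐ x : Pos3, U x * w x = 0 := by
    filter_upwards [ae_all_iff.2 key] with x hx
    obtain ⟨n, hn⟩ := exists_nat_gt ‖x‖
    exact hx n (by linarith)
  -- the gradient of `U w` vanishes
  obtain ⟨B, hB0, hB⟩ := s_bdd hs
  have h2 := H1.mul hp.hU hp.hw (fun x => (absU_le hs hp x).trans (hB x))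
    (fun x => (absw_le hs hp x).trans (hB x))
  have h3 : H1 (fun x => w x * U x) (fun _ => 0) := by
    have h4 : H1 (fun _ : Pos3 => (0 : ℝ)) (fun _ => (0 : Pos3)) := by
      have := H1.const_mul hp.hU 0
      simpa using this
    refine H1.congr h4 ?_ (ae_eq_refl _)
    filter_upwards [h1] with x hx
    rw [mul_comm, hx]
  have h5 := H1.unique h2 h3
  refine no_zero hs hp ?_
  filter_upwards [h1, h5] with x hx1 hx2
  have h6 : w x • gU x = - (U x • gw x) := eq_neg_of_add_eq_zero_left hx2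
  have h7 : U x • w x • gU x = 0 := by rw [smul_smul, hx1, zero_smul]
  have h8 : U x • U x • gw x = 0 := by rw [← neg_eq_zero, ← smul_neg, ← h6, h7]
  unfold J
  rw [smul_sub, h7, h8, sub_zero]

end


/-! ### positivity of the multiplier -/

section
variable {s U w : Pos3 → ℝ} {gs gU gw : Pos3 → Pos3}

theorem aesm_inv (hs : Amp s gs) (n : ℕ) : AEStronglyMeasurable (fun x => (s x ^ n)⁻¹) volume := by
  have : Measurable fun x => (s x ^ n)⁻¹ := (hs.cont.measurable.pow_const n).inv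
  exact this.aestronglyMeasurable

theorem om_pos (hs : Amp s gs) (hp : PairAdm s U gU w gw) (hU0 : ∀ x, 0 ≤ U x) {c : ℝ}
    (hel : ∀ ψ gψ, BT ψ gψ →
      ∫ x, inner ℝ (J U gU w gw x) (gψ x) = c * ∫ x, U x * w x * ψ x) : c < 0 := by
  obtain ⟨C, hC0, hcut⟩ := exists_cutoff_ball (ι := Fin 3)
  have hn1 : ∀ n : ℕ, (1 : ℝ) ≤ n + 1 := fun n => by
    have : (0 : ℝ) ≤ n := n.cast_nonneg
    linarith
  choose θ hθ hθ01 hθ1 hθ0 hθg using fun n : ℕ => hcut (n + 1) (hn1 n)
  have hJ2 : Integrable (fun x => U x / s x ^ 3 * ‖J U gU w gw x‖ ^ 2) := by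
    have i1 : Integrable (fun x => ‖gU x‖ ^ 2 + ‖gw x‖ ^ 2) :=
      (hp.hU.memg.norm.integrable_sq).add (hp.hw.memg.norm.integrable_sq)
    refine i1.mono ?_ (Eventually.of_forall fun x => ?_)
    · exact (hp.hU.memf.1.mul (aesm_inv hs 3)).mul ((J_aesm hp).norm.pow 2)
    · have h0 := hs.pos x
      have h1 := J_sq_le hp x
      have h2 := (le_abs_self _).trans (absU_le hs hp x)
      rw [Real.norm_eq_abs, Real.norm_eq_abs, abs_of_nonneg (by have := hU0 x; positivity),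
        abs_of_nonneg (by positivity)]
      have h3 : U x / s x ^ 3 ≤ 1 / s x ^ 2 := by
        rw [div_le_div_iff₀ (by positivity) (by positivity)]
        nlinarith [mul_le_mul_of_nonneg_right h2 (by positivity : 0 ≤ s x ^ 2)]
      calc U x / s x ^ 3 * ‖J U gU w gw x‖ ^ 2 ≤
            1 / s x ^ 2 * (s x ^ 2 * (‖gU x‖ ^ 2 + ‖gw x‖ ^ 2)) :=
            mul_le_mul h3 h1 (sq_nonneg _) (by positivity)
        _ = ‖gU x‖ ^ 2 + ‖gw x‖ ^ 2 := by field_simp
  have hW : Integrable (fun x => U x * w x ^ 2 / s x) := by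
    refine hp.hw.memf.integrable_sq.mono ?_ (Eventually.of_forall fun x => ?_)
    · refine ((hp.hU.memf.1.mul (hp.hw.memf.1.pow 2)).mul (aesm_inv hs 1)).congr
        (Eventually.of_forall fun x => ?_)
      simp [div_eq_mul_inv]
    · have h0 := hs.pos x
      have h2 := (le_abs_self _).trans (absU_le hs hp x)
      rw [Real.norm_eq_abs, Real.norm_eq_abs, abs_of_nonneg (by have := hU0 x; positivity),
        abs_of_nonneg (by positivity), div_le_iff₀ h0]
      nlinarith [mul_le_mul_of_nonneg_right h2 (sq_nonneg (w x))]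
  have hJ1 := J_L1 hs hp
  -- the limit of the tested equation
  have t1 : Tendsto (fun n => ∫ x, inner ℝ (J U gU w gw x) ((w x / s x) • gr (θ n) x -
      (θ n x * U x / s x ^ 3) • J U gU w gw x)) atTop
      (𝓝 (∫ x, - (U x / s x ^ 3 * ‖J U gU w gw x‖ ^ 2))) := by
    refine tendsto_integral_of_dominated_convergence
      (fun x => C * ‖J U gU w gw x‖ + U x / s x ^ 3 * ‖J U gU w gw x‖ ^ 2) ?_
      ((hJ1.const_mul C).add hJ2) ?_ ?_
    · intro n
      exact (J_aesm hp).inner (bt_quot hs hp (hθ n)).h1.memg.1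
    · intro n
      refine Eventually.of_forall fun x => ?_
      have h0 := hs.pos x
      rw [inner_sub_right, real_inner_smul_right, real_inner_smul_right,
        real_inner_self_eq_norm_sq]
      refine (norm_sub_le _ _).trans (add_le_add ?_ ?_)
      · rw [Real.norm_eq_abs, abs_mul, abs_div, abs_of_pos h0]
        have h1 : |w x| / s x ≤ 1 := by
          rw [div_le_one h0]; exact absw_le hs hp x
        have h2 : |inner ℝ (J U gU w gw x) (gr (θ n) x)| ≤ ‖J U gU w gw x‖ * C := by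
          refine (abs_real_inner_le_norm _ _).trans (mul_le_mul_of_nonneg_left ?_ (norm_nonneg _))
          exact (hθg n x).trans (div_le_self hC0 (hn1 n))
        calc |w x| / s x * |inner ℝ (J U gU w gw x) (gr (θ n) x)| ≤
              1 * (‖J U gU w gw x‖ * C) := mul_le_mul h1 h2 (abs_nonneg _) zero_le_one
          _ = C * ‖J U gU w gw x‖ := by ring
      · have h3 := hθ01 n x
        have h4 : θ n x * U x / s x ^ 3 * ‖J U gU w gw x‖ ^ 2 =
            θ n x * (U x / s x ^ 3 * ‖J U gU w gw x‖ ^ 2) := by ring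
        have h5 : 0 ≤ U x / s x ^ 3 * ‖J U gU w gw x‖ ^ 2 := by
          have := hU0 x
          positivity
        rw [h4, Real.norm_eq_abs, abs_of_nonneg (mul_nonneg h3.1 h5)]
        exact mul_le_of_le_one_left h5 h3.2
    · refine Eventually.of_forall fun x => ?_
      refine tendsto_const_nhds.congr' ?_
      obtain ⟨m, hm⟩ := exists_nat_gt ‖x‖
      filter_upwards [eventually_ge_atTop m] with n hn
      have hmn : (m : ℝ) ≤ n := by exact_mod_cast hn
      have h1 : gr (θ n) x = 0 := by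
        have h2 : θ n =ᶠ[𝓝 x] fun _ => (1 : ℝ) := by
          have h3 : Metric.ball (0 : Pos3) (n + 1) ∈ 𝓝 x :=
            Metric.isOpen_ball.mem_nhds (mem_ball_zero_iff.2 (by linarith))
          filter_upwards [h3] with y hy
          exact hθ1 n y (mem_ball_zero_iff.1 hy).le
        ext i
        rw [gr_apply, pd, h2.fderiv_eq]
        simp
      rw [h1, hθ1 n x (by linarith), smul_zero, zero_sub, inner_neg_right, real_inner_smul_right,
        real_inner_self_eq_norm_sq, one_mul]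
  have t2 : Tendsto (fun n => c * ∫ x, U x * w x * (θ n x * w x / s x)) atTop
      (𝓝 (c * ∫ x, U x * w x ^ 2 / s x)) := by
    refine Tendsto.const_mul c ?_
    refine tendsto_integral_of_dominated_convergence (fun x => U x * w x ^ 2 / s x) ?_ hW ?_ ?_
    · intro n
      exact (int_Uw hs hp (bt_quot hs hp (hθ n)).h1.memf).1
    · intro n
      refine Eventually.of_forall fun x => ?_
      have h0 := hs.pos x
      have h3 := hθ01 n x
      have h5 : 0 ≤ U x * w x ^ 2 / s x := by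
        have := hU0 x
        positivity
      have h4 : U x * w x * (θ n x * w x / s x) = θ n x * (U x * w x ^ 2 / s x) := by ring
      rw [h4, Real.norm_eq_abs, abs_of_nonneg (mul_nonneg h3.1 h5)]
      exact mul_le_of_le_one_left h5 h3.2
    · refine Eventually.of_forall fun x => ?_
      refine tendsto_const_nhds.congr' ?_
      obtain ⟨m, hm⟩ := exists_nat_gt ‖x‖
      filter_upwards [eventually_ge_atTop m] with n hn
      have hmn : (m : ℝ) ≤ n := by exact_mod_cast hn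
      rw [hθ1 n x (by linarith)]
      ring
  have t3 := t1.congr fun n => hel _ _ (bt_quot hs hp (hθ n))
  have e := tendsto_nhds_unique t3 t2
  rw [integral_neg] at e
  have hA : 0 < ∫ x, U x / s x ^ 3 * ‖J U gU w gw x‖ ^ 2 := by
    have hnn : ∀ x, 0 ≤ U x / s x ^ 3 * ‖J U gU w gw x‖ ^ 2 := fun x => by
      have h0 := hs.pos x
      have := hU0 x
      positivity
    refine lt_of_le_of_ne (integral_nonneg hnn) fun h => ?_
    have h1 := (integral_eq_zero_iff_of_nonneg hnn hJ2).1 h.symm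
    refine no_zero hs hp ?_
    filter_upwards [h1] with x hx
    have h0 := hs.pos x
    rcases mul_eq_zero.1 hx with h2 | h2
    · have h3 : U x = 0 := by
        rcases div_eq_zero_iff.1 h2 with h4 | h4
        · exact h4
        · exact absurd h4 (by positivity)
      rw [h3, zero_smul]
    · have h3 : J U gU w gw x = 0 := norm_eq_zero.1 (pow_eq_zero_iff two_ne_zero |>.1 h2)
      rw [h3, smul_zero]
  have hB : 0 ≤ ∫ x, U x * w x ^ 2 / s x := integral_nonneg fun x => by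
    have h0 := hs.pos x
    have := hU0 x
    positivity
  by_contra hc
  push Not at hc
  have := mul_nonneg hc hB
  linarith

end

end PB

/-- the Euler-Lagrange equation of an energy-minimising pair -/
theorem pair_of_min {s U w : Pos3 → ℝ} {gs gU gw : Pos3 → Pos3} (hs : Amp s gs)
    (hp : PairAdm s U gU w gw) (hU0 : ∀ x, 0 ≤ U x) (hw0 : ∀ x : Pos3, 0 < x 2 → 0 ≤ w x)
    (hmin : ∀ U' gU' w' gw', PairAdm s U' gU' w' gw' →
      (∫ x, ‖gU x‖ ^ 2) + (∫ x, ‖gw x‖ ^ 2) ≤ (∫ x, ‖gU' x‖ ^ 2) + ∫ x, ‖gw' x‖ ^ 2) :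
    ∃ om : ℝ, Pair s U gU w gw om := by
  obtain ⟨χ0, g0, h0, o0, hb0⟩ := PB.exists_pos hs hp hU0
  set c : ℝ := (∫ x, inner ℝ (J U gU w gw x) (g0 x)) / ∫ x, U x * w x * χ0 x with hc
  have hel : ∀ ψ gψ, BT ψ gψ →
      ∫ x, inner ℝ (J U gU w gw x) (gψ x) = c * ∫ x, U x * w x * ψ x := fun ψ gψ h =>
    PB.el_all hs hp hmin h0.h1 o0 hb0 h
  have hc0 := PB.om_pos hs hp hU0 hel
  refine ⟨-c / 2, hp, hU0, hw0, by linarith, ⟨χ0, g0, h0, hb0.ne'⟩, fun ψ gψ h => ?_, hmin⟩
  rw [hel ψ gψ h]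
  ring

end Crest.Agent.R335
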