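import Crest.Agent.R335.KPairA
import Crest.Agent.R335.KPairB

/-!
Row 335 (S0521), Kohn-Sham side: existence of the pair.
-/

set_option autoImplicit false

open MeasureTheory Filter Set Crest.MathPhysics.ThreeBody
open scoped ENNReal Topology ContDiff

noncomputable section
namespace Crest.Agent.R335

theorem pair_exists {s : Pos3 → ℝ} {gs : Pos3 → Pos3} (hs : Amp s gs) (hn : ∫ x, s x ^ 2 = 3) :
    ∃ (U : Pos3 → ℝ) (gU : Pos3 → Pos3) (w : Pos3 → ℝ) (gw : Pos3 → Pos3) (om : ℝ),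
      Pair s U gU w gw om := by
  obtain ⟨U, gU, w, gw, hp, hU, hw, hmin⟩ := pair_min_exists hs hn
  obtain ⟨om, h⟩ := pair_of_min hs hp hU hw hmin
  exact ⟨U, gU, w, gw, om, h⟩

end Crest.Agent.R335
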