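import Crest.Agent.R335.KRellich
import Crest.Agent.R335.KDefs
import Crest.Agent.R335.HLip
import Crest.Agent.R335.HHalf
import Crest.Agent.R335.HZero
import Crest.Agent.R335.HGlob2
import Crest.Agent.R335.HProd

/-!
# Row 335: existence of the minimising pair (module KPairA)
-/

set_option autoImplicit false
set_option linter.unusedVariables false

open MeasureTheory Filter Set Crest.MathPhysics.ThreeBody
open scoped ENNReal Topology ContDiff

noncomputable section
namespace Crest.Agent.R335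

theorem rz_two (x : Pos3) : (rz x) 2 = - x 2 := by rw [rz_apply]; simp

theorem kp_rz_rz (x : Pos3) : rz (rz x) = x := by
  ext i
  rw [rz_apply, rz_apply]
  split_ifs <;> simp

theorem rz_eq_rfl' (x : Pos3) : rz x = rfl' 2 x := by
  ext i
  rw [rz_apply, rfl'_apply]

theorem rz_symm : rz.symm = rz := by
  ext1 x
  rw [LinearIsometryEquiv.symm_apply_eq, kp_rz_rz]

theorem mp_rz : MeasurePreserving (fun x : Pos3 => rz x) volume volume :=
  rz.measurePreserving

/-! ### admissible pairs exist -/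

/-- clamped angle -/
def clampA (t : ℝ) (x : Pos3) : ℝ := max (-(Real.pi / 2)) (min (Real.pi / 2) (t * x 2))

theorem lip_clampA (t : ℝ) : LipschitzWith (Real.nnabs t) (clampA t) := by
  unfold clampA
  refine LipschitzWith.const_max (LipschitzWith.const_min ?_ _) _
  refine LipschitzWith.of_dist_le_mul fun x y => ?_
  rw [Real.dist_eq, ← mul_sub, abs_mul, Real.coe_nnabs]
  refine mul_le_mul_of_nonneg_left ?_ (abs_nonneg _)
  have := PiLp.norm_apply_le (x - y) 2
  rw [dist_eq_norm]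
  simpa using this

theorem clampA_rz (t : ℝ) (x : Pos3) : clampA t (rz x) = - clampA t x := by
  unfold clampA
  rw [rz_two, mul_neg]
  have hp := Real.pi_pos
  generalize t * x 2 = y
  rcases le_total (Real.pi / 2) y with h1 | h1
  · have e1 : min (Real.pi / 2) y = Real.pi / 2 := min_eq_left h1
    have e2 : min (Real.pi / 2) (-y) = -y := min_eq_right (by linarith)
    have e3 : max (-(Real.pi / 2)) (-y) = -(Real.pi / 2) := max_eq_left (by linarith)
    have e4 : max (-(Real.pi / 2)) (Real.pi / 2) = Real.pi / 2 := max_eq_right (by linarith)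
    rw [e1, e2, e3, e4]
  · have e1 : min (Real.pi / 2) y = y := min_eq_right h1
    rcases le_total y (-(Real.pi / 2)) with h2 | h2
    · have e2 : min (Real.pi / 2) (-y) = Real.pi / 2 := min_eq_left (by linarith)
      have e3 : max (-(Real.pi / 2)) y = -(Real.pi / 2) := max_eq_left h2
      have e4 : max (-(Real.pi / 2)) (Real.pi / 2) = Real.pi / 2 := max_eq_right (by linarith)
      rw [e1, e2, e3, e4, neg_neg]
    · have e2 : min (Real.pi / 2) (-y) = -y := min_eq_right (by linarith)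
      have e3 : max (-(Real.pi / 2)) y = y := max_eq_right h2
      have e4 : max (-(Real.pi / 2)) (-y) = -y := max_eq_right (by linarith)
      rw [e1, e2, e3, e4]

theorem clampA_cont (x : Pos3) : Continuous fun t => clampA t x := by
  unfold clampA
  fun_prop

theorem clampA_zero (x : Pos3) : clampA 0 x = 0 := by
  unfold clampA
  rw [zero_mul, min_eq_right (by positivity), max_eq_right (by linarith [Real.pi_pos])]

theorem pairAdm_nonempty {s : Pos3 → ℝ} {gs : Pos3 → Pos3} (hs : Amp s gs)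
    (hn : ∫ x, s x ^ 2 = 3) :
    ∃ (U : Pos3 → ℝ) (gU : Pos3 → Pos3) (w : Pos3 → ℝ) (gw : Pos3 → Pos3),
      PairAdm s U gU w gw := by
  have hI : Integrable fun x => s x ^ 2 := integrable_sq hs.h1.memf
  have hlipS : ∀ t, LipschitzWith (Real.nnabs t) fun x => Real.sin (clampA t x) := by
    intro t
    have := Real.lipschitzWith_sin.comp (lip_clampA t)
    rwa [one_mul] at this
  have hlipC : ∀ t, LipschitzWith (Real.nnabs t) fun x => Real.cos (clampA t x) := by
    intro t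
    have := Real.lipschitzWith_cos.comp (lip_clampA t)
    rwa [one_mul] at this
  have hbd : ∀ t, ∀ x, (Real.sin (clampA t x) * s x) ^ 2 ≤ s x ^ 2 := by
    intro t x
    have h1 := Real.sin_sq_le_one (clampA t x)
    rw [mul_pow]
    nlinarith [sq_nonneg (s x)]
  let N : ℝ → ℝ := fun t => ∫ x, (Real.sin (clampA t x) * s x) ^ 2
  have hNc : Continuous N := by
    refine continuous_of_dominated (bound := fun x => s x ^ 2) (fun t => ?_) (fun t => ?_) hI
      (Eventually.of_forall fun x => ?_)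
    · exact (((hlipS t).continuous.mul hs.cont).pow 2).aestronglyMeasurable
    · refine Eventually.of_forall fun x => ?_
      rw [Real.norm_eq_abs, abs_of_nonneg (sq_nonneg _)]
      exact hbd t x
    · have := clampA_cont x
      fun_prop
  have hN0 : N 0 = 0 := by
    show ∫ x, (Real.sin (clampA 0 x) * s x) ^ 2 = 0
    simp [clampA_zero]
  have hNlim : Tendsto (fun n : ℕ => N n) atTop (𝓝 3) := by
    rw [← hn]
    refine tendsto_integral_of_dominated_convergence (fun x => s x ^ 2) (fun n => ?_) hI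
      (fun n => ?_) ?_
    · exact (((hlipS n).continuous.mul hs.cont).pow 2).aestronglyMeasurable
    · refine Eventually.of_forall fun x => ?_
      rw [Real.norm_eq_abs, abs_of_nonneg (sq_nonneg _)]
      exact hbd n x
    · filter_upwards [ae_coord_ne (ι := Fin 3) 2 0] with x hx
      refine tendsto_const_nhds.congr' ?_
      obtain ⟨n0, hn0⟩ := exists_nat_ge (Real.pi / 2 / |x 2|)
      filter_upwards [eventually_ge_atTop n0] with n hn
      have hx0 : 0 < |x 2| := abs_pos.2 hx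
      have h1 : Real.pi / 2 ≤ (n : ℝ) * |x 2| := by
        have h2 : (n0 : ℝ) ≤ n := by exact_mod_cast hn
        rw [div_le_iff₀ hx0] at hn0
        nlinarith
      have h3 : Real.sin (clampA n x) ^ 2 = 1 := by
        unfold clampA
        rcases lt_or_gt_of_ne hx with h4 | h4
        · rw [abs_of_neg h4] at h1
          have h5 : (n : ℝ) * x 2 ≤ -(Real.pi / 2) := by linarith
          rw [min_eq_right (by linarith [Real.pi_pos]), max_eq_left h5, Real.sin_neg, Real.sin_pi_div_two]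
          norm_num
        · rw [abs_of_pos h4] at h1
          rw [min_eq_left h1, max_eq_right (by linarith [Real.pi_pos]), Real.sin_pi_div_two]
          norm_num
      rw [mul_pow, h3, one_mul]
  obtain ⟨n, hn1⟩ := ((hNlim.eventually (lt_mem_nhds (show (1 : ℝ) < 3 by norm_num)))).exists
  obtain ⟨t, -, ht⟩ := intermediate_value_Icc (show (0 : ℝ) ≤ n by positivity) hNc.continuousOn
    ⟨by rw [hN0]; norm_num, hn1.le⟩
  have ht1 : ∫ x, (Real.sin (clampA t x) * s x) ^ 2 = 1 := ht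
  have hSi : Integrable fun x => (Real.sin (clampA t x) * s x) ^ 2 := by
    refine hI.mono' (((hlipS t).continuous.mul hs.cont).pow 2).aestronglyMeasurable
      (Eventually.of_forall fun x => ?_)
    rw [Real.norm_eq_abs, abs_of_nonneg (sq_nonneg _)]
    exact hbd t x
  obtain ⟨hwC, hgC⟩ := WG.of_lipschitz (hlipC t)
  obtain ⟨hwS, hgS⟩ := WG.of_lipschitz (hlipS t)
  set C : ℝ := 1 + |t| with hC
  have h1 : ∀ x, |Real.cos (clampA t x)| ≤ C := fun x =>
    (Real.abs_cos_le_one _).trans (by rw [hC]; linarith [abs_nonneg t])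
  have h2 : ∀ x, |Real.sin (clampA t x)| ≤ C := fun x =>
    (Real.abs_sin_le_one _).trans (by rw [hC]; linarith [abs_nonneg t])
  have h3 : ∀ x, ‖gr (fun x => Real.cos (clampA t x)) x‖ ≤ C := fun x =>
    (hgC x).trans (by rw [hC, Real.coe_nnabs]; linarith)
  have h4 : ∀ x, ‖gr (fun x => Real.sin (clampA t x)) x‖ ≤ C := fun x =>
    (hgS x).trans (by rw [hC, Real.coe_nnabs]; linarith)
  refine ⟨_, _, _, _, H1.mul_bdd hs.h1 hwC h1 h3, H1.mul_bdd hs.h1 hwS h2 h4, ?_, ?_, ?_, ?_, ?_⟩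
  · intro x
    have := Real.sin_sq_add_cos_sq (clampA t x)
    have h5 : (Real.cos (clampA t x) * s x) ^ 2 + (Real.sin (clampA t x) * s x) ^ 2 =
      (Real.sin (clampA t x) ^ 2 + Real.cos (clampA t x) ^ 2) * s x ^ 2 := by ring
    rw [h5, this, one_mul]
  · intro x
    show Real.cos (clampA t (rz x)) * s (rz x) = Real.cos (clampA t x) * s x
    rw [clampA_rz, Real.cos_neg, hs.even]
  · intro x
    show Real.sin (clampA t (rz x)) * s (rz x) = - (Real.sin (clampA t x) * s x)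
    rw [clampA_rz, Real.sin_neg, hs.even, neg_mul]
  · show ∫ x, (Real.cos (clampA t x) * s x) ^ 2 = 2
    have h5 : ∀ x, (Real.cos (clampA t x) * s x) ^ 2 = s x ^ 2 - (Real.sin (clampA t x) * s x) ^ 2 := by
      intro x
      have := Real.sin_sq_add_cos_sq (clampA t x)
      have h6 : Real.cos (clampA t x) ^ 2 = 1 - Real.sin (clampA t x) ^ 2 := by linarith
      rw [mul_pow, h6]; ring
    simp_rw [h5]
    rw [integral_sub hI hSi, hn, ht1]
    norm_num
  · exact ht1

/-! ### the limit of a minimising sequence -/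

theorem exists_ae_seq {α : Type*} [MeasurableSpace α] {μ : Measure α} {fn kn : ℕ → α → ℝ} {f k : α → ℝ}
    {l : Filter ℕ} [l.NeBot]
    (hf : ∀ n, MemLp (fn n) 2 μ) (hk : ∀ n, MemLp (kn n) 2 μ) (hf' : MemLp f 2 μ) (hk' : MemLp k 2 μ)
    (h1 : Tendsto (fun n => ∫ x, (fn n x - f x) ^ 2 ∂μ) l (𝓝 0))
    (h2 : Tendsto (fun n => ∫ x, (kn n x - k x) ^ 2 ∂μ) l (𝓝 0)) :
    ∃ ns : ℕ → ℕ, ∀ᵐ x ∂μ, Tendsto (fun j => fn (ns j) x) atTop (𝓝 (f x)) ∧
      Tendsto (fun j => kn (ns j) x) atTop (𝓝 (k x)) := by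
  have hex : ∀ j : ℕ, ∃ n, ∫ x, (fn n x - f x) ^ 2 ∂μ < 1 / ((j : ℝ) + 1) ∧
      ∫ x, (kn n x - k x) ^ 2 ∂μ < 1 / ((j : ℝ) + 1) := by
    intro j
    have hj : (0 : ℝ) < 1 / ((j : ℝ) + 1) := by positivity
    exact ((h1.eventually (gt_mem_nhds hj)).and (h2.eventually (gt_mem_nhds hj))).exists
  choose m hm1 hm2 using hex
  have key : ∀ {an : ℕ → α → ℝ} {a : α → ℝ}, (∀ n, MemLp (an n) 2 μ) → MemLp a 2 μ →
      (∀ j : ℕ, ∫ x, (an j x - a x) ^ 2 ∂μ < 1 / ((j : ℝ) + 1)) →
      Tendsto (fun j => eLpNorm (an j - a) 2 μ) atTop (𝓝 0) := by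
    intro an a han ha hj
    have e1 : ∀ j, eLpNorm (an j - a) 2 μ =
        ENNReal.ofReal (Real.sqrt (∫ x, (an j x - a x) ^ 2 ∂μ)) := by
      intro j
      have h3 := ((han j).sub ha).eLpNorm_eq_integral_rpow_norm (by norm_num) (by norm_num)
      rw [h3]
      congr 1
      rw [Real.sqrt_eq_rpow]
      simp
    simp_rw [e1]
    have h4 : Tendsto (fun j : ℕ => 1 / ((j : ℝ) + 1)) atTop (𝓝 0) := tendsto_one_div_add_atTop_nhds_zero_nat
    have h5 : Tendsto (fun j => ∫ x, (an j x - a x) ^ 2 ∂μ) atTop (𝓝 0) :=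
      squeeze_zero (fun j => integral_nonneg fun x => by positivity) (fun j => (hj j).le) h4
    have h6 : Tendsto (fun j => Real.sqrt (∫ x, (an j x - a x) ^ 2 ∂μ)) atTop (𝓝 0) := by
      have h7 := (Real.continuous_sqrt.tendsto 0).comp h5
      rw [Real.sqrt_zero] at h7
      exact h7
    have h8 := (ENNReal.continuous_ofReal.tendsto 0).comp h6
    rw [ENNReal.ofReal_zero] at h8
    exact h8
  have hc1 := key (an := fun j => fn (m j)) (fun j => hf (m j)) hf' hm1
  have hc2 := key (an := fun j => kn (m j)) (fun j => hk (m j)) hk' hm2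
  obtain ⟨n1, hn1, ha1⟩ := (tendstoInMeasure_of_tendsto_eLpNorm (by norm_num)
    (fun j => (hf (m j)).aestronglyMeasurable) hf'.aestronglyMeasurable hc1).exists_seq_tendsto_ae
  have hc3 : Tendsto (fun j => eLpNorm (kn (m (n1 j)) - k) 2 μ) atTop (𝓝 0) :=
    hc2.comp hn1.tendsto_atTop
  obtain ⟨n2, hn2, ha2⟩ := (tendstoInMeasure_of_tendsto_eLpNorm (by norm_num)
    (fun j => (hk (m (n1 j))).aestronglyMeasurable) hk'.aestronglyMeasurable hc3).exists_seq_tendsto_ae
  refine ⟨fun j => m (n1 (n2 j)), ?_⟩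
  filter_upwards [ha1, ha2] with x hx1 hx2
  exact ⟨hx1.comp hn2.tendsto_atTop, hx2⟩

/-- energy of a pair -/
def En (gU gw : Pos3 → Pos3) : ℝ := (∫ x, ‖gU x‖ ^ 2) + ∫ x, ‖gw x‖ ^ 2

theorem En_nonneg (gU gw : Pos3 → Pos3) : 0 ≤ En gU gw := by
  unfold En
  have h1 : 0 ≤ ∫ x, ‖gU x‖ ^ 2 := integral_nonneg fun x => by positivity
  have h2 : 0 ≤ ∫ x, ‖gw x‖ ^ 2 := integral_nonneg fun x => by positivity
  linarith

/-- a.e. version of `PairAdm` -/
structure PairAE (s : Pos3 → ℝ) (U : Pos3 → ℝ) (gU : Pos3 → Pos3)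
    (w : Pos3 → ℝ) (gw : Pos3 → Pos3) : Prop where
  hU : H1 U gU
  hw : H1 w gw
  sq : ∀ᵐ x, U x ^ 2 + w x ^ 2 = s x ^ 2
  evenU : ∀ᵐ x, U (rz x) = U x
  oddw : ∀ᵐ x, w (rz x) = - w x
  nU : ∫ x, U x ^ 2 = 2
  nw : ∫ x, w x ^ 2 = 1

theorem pair_limit {s : Pos3 → ℝ} {gs : Pos3 → Pos3} (hs : Amp s gs) (hn : ∫ x, s x ^ 2 = 3) :
    ∃ (U : Pos3 → ℝ) (gU : Pos3 → Pos3) (w : Pos3 → ℝ) (gw : Pos3 → Pos3), PairAE s U gU w gw ∧
      ∀ U' gU' w' gw', PairAdm s U' gU' w' gw' → En gU gw ≤ En gU' gw' := by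
  let S : Set ℝ := {e | ∃ U gU w gw, PairAdm s U gU w gw ∧ e = En gU gw}
  obtain ⟨U0, gU0, w0, gw0, h0⟩ := pairAdm_nonempty hs hn
  have hne : S.Nonempty := ⟨_, U0, gU0, w0, gw0, h0, rfl⟩
  have hbdd : BddBelow S := ⟨0, by
    rintro e ⟨U, gU, w, gw, -, rfl⟩
    exact En_nonneg _ _⟩
  set m := sInf S with hm
  have hex : ∀ n : ℕ, ∃ U gU w gw, PairAdm s U gU w gw ∧ En gU gw < m + 1 / ((n : ℝ) + 1) := by
    intro n
    obtain ⟨e, ⟨U, gU, w, gw, h1, h2⟩, h3⟩ := exists_lt_of_csInf_lt hne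
      (show sInf S < m + 1 / ((n : ℝ) + 1) by
        have : (0 : ℝ) < 1 / ((n : ℝ) + 1) := by positivity
        linarith)
    exact ⟨U, gU, w, gw, h1, by rw [← h2]; exact h3⟩
  choose Un gUn wn gwn hadm hen using hex
  have hlow : ∀ U' gU' w' gw', PairAdm s U' gU' w' gw' → m ≤ En gU' gw' := fun U' gU' w' gw' h =>
    csInf_le hbdd ⟨U', gU', w', gw', h, rfl⟩
  have hEn1 : ∀ n, En (gUn n) (gwn n) ≤ m + 1 := by
    intro n
    have h1 := (hen n).le
    have h2 : 1 / ((n : ℝ) + 1) ≤ 1 := by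
      rw [div_le_one (by positivity)]
      linarith [(Nat.cast_nonneg n : (0 : ℝ) ≤ n)]
    linarith
  have hCU : ∀ n, ∫ x, ‖gUn n x‖ ^ 2 ≤ m + 1 := by
    intro n
    have h1 := hEn1 n
    have h2 : 0 ≤ ∫ x, ‖gwn n x‖ ^ 2 := integral_nonneg fun x => by positivity
    unfold En at h1
    linarith
  have hCw : ∀ n, ∫ x, ‖gwn n x‖ ^ 2 ≤ m + 1 := by
    intro n
    have h1 := hEn1 n
    have h2 : 0 ≤ ∫ x, ‖gUn n x‖ ^ 2 := integral_nonneg fun x => by positivity
    unfold En at h1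
    linarith
  have hdU : ∀ n, ∀ x, |Un n x| ≤ s x := by
    intro n x
    have h1 := (hadm n).sq x
    exact abs_le_of_sq_le_sq (by nlinarith [sq_nonneg (wn n x)]) (hs.pos x).le
  have hdw : ∀ n, ∀ x, |wn n x| ≤ s x := by
    intro n x
    have h1 := (hadm n).sq x
    exact abs_le_of_sq_le_sq (by nlinarith [sq_nonneg (Un n x)]) (hs.pos x).le
  obtain ⟨U, gU, hU, hUc, hUw⟩ := exists_limit (fun n => (hadm n).hU) hs.h1.memf
    (fun n => Eventually.of_forall (hdU n)) hCU
  obtain ⟨w, gw, hw, hwc, hww⟩ := exists_limit (fun n => (hadm n).hw) hs.h1.memf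
    (fun n => Eventually.of_forall (hdw n)) hCw
  obtain ⟨ns, hae⟩ := exists_ae_seq (fun n => (hadm n).hU.memf) (fun n => (hadm n).hw.memf)
    hU.memf hw.memf hUc hwc
  have hae' : ∀ᵐ x, Tendsto (fun j => Un (ns j) (rz x)) atTop (𝓝 (U (rz x))) ∧
      Tendsto (fun j => wn (ns j) (rz x)) atTop (𝓝 (w (rz x))) :=
    mp_rz.quasiMeasurePreserving.ae hae
  have hsqI : Integrable fun x => s x ^ 2 := integrable_sq hs.h1.memf
  refine ⟨U, gU, w, gw, ⟨hU, hw, ?_, ?_, ?_, ?_, ?_⟩, ?_⟩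
  · filter_upwards [hae] with x hx
    have h1 := (hx.1.pow 2).add (hx.2.pow 2)
    refine tendsto_nhds_unique h1 (tendsto_const_nhds.congr fun j => ?_)
    exact ((hadm (ns j)).sq x).symm
  · filter_upwards [hae, hae'] with x hx hx'
    refine tendsto_nhds_unique hx'.1 (hx.1.congr fun j => ?_)
    exact ((hadm (ns j)).evenU x).symm
  · filter_upwards [hae, hae'] with x hx hx'
    refine tendsto_nhds_unique hx'.2 (hx.2.neg.congr fun j => ?_)
    exact ((hadm (ns j)).oddw x).symm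
  · have h1 : Tendsto (fun j => ∫ x, Un (ns j) x ^ 2) atTop (𝓝 (∫ x, U x ^ 2)) := by
      refine tendsto_integral_of_dominated_convergence (fun x => s x ^ 2)
        (fun j => (integrable_sq (hadm (ns j)).hU.memf).aestronglyMeasurable) hsqI
        (fun j => Eventually.of_forall fun x => ?_) ?_
      · rw [Real.norm_eq_abs, abs_of_nonneg (sq_nonneg _)]
        exact sq_le_sq' (by linarith [(abs_le.1 (hdU (ns j) x)).1]) (abs_le.1 (hdU (ns j) x)).2
      · filter_upwards [hae] with x hx using hx.1.pow 2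
    refine tendsto_nhds_unique h1 (tendsto_const_nhds.congr fun j => ?_)
    exact ((hadm (ns j)).nU).symm
  · have h1 : Tendsto (fun j => ∫ x, wn (ns j) x ^ 2) atTop (𝓝 (∫ x, w x ^ 2)) := by
      refine tendsto_integral_of_dominated_convergence (fun x => s x ^ 2)
        (fun j => (integrable_sq (hadm (ns j)).hw.memf).aestronglyMeasurable) hsqI
        (fun j => Eventually.of_forall fun x => ?_) ?_
      · rw [Real.norm_eq_abs, abs_of_nonneg (sq_nonneg _)]
        exact sq_le_sq' (by linarith [(abs_le.1 (hdw (ns j) x)).1]) (abs_le.1 (hdw (ns j) x)).2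
      · filter_upwards [hae] with x hx using hx.2.pow 2
    refine tendsto_nhds_unique h1 (tendsto_const_nhds.congr fun j => ?_)
    exact ((hadm (ns j)).nw).symm
  · intro U' gU' w' gw' h'
    refine le_trans ?_ (hlow _ _ _ _ h')
    have ht : Tendsto (fun n => (∫ x, ‖gUn n x‖ ^ 2) + ∫ x, ‖gwn n x‖ ^ 2) atTop (𝓝 m) := by
      have h1 : Tendsto (fun n : ℕ => m + 1 / ((n : ℝ) + 1)) atTop (𝓝 (m + 0)) :=
        tendsto_const_nhds.add tendsto_one_div_add_atTop_nhds_zero_nat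
      rw [add_zero] at h1
      exact tendsto_of_tendsto_of_tendsto_of_le_of_le tendsto_const_nhds h1
        (fun n => hlow _ _ _ _ (hadm n)) (fun n => (hen n).le)
    have hle : (hyperfilter ℕ : Filter ℕ) ≤ atTop := by
      rw [← Nat.cofinite_eq_atTop]
      exact hyperfilter_le_cofinite
    exact energy_lsc (fun n => (hadm n).hU.memg) (fun n => (hadm n).hw.memg) hU.memg hw.memg
      (hUw _ hU.memg) (hww _ hw.memg) (ht.mono_left hle)

/-! ### sign normalisation -/

/-- gradient of an odd function -/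
theorem odd_grad {f : Pos3 → ℝ} {g : Pos3 → Pos3} (h : H1 f g) (hodd : ∀ᵐ x, f (rz x) = - f x) :
    ∀ᵐ x, ‖g (rz x)‖ = ‖g x‖ := by
  have h1 := H1.comp_isometry h rz 0
  simp only [add_zero, rz_symm] at h1
  have h2 : H1 (fun x => (-1 : ℝ) * f x) (fun x => (-1 : ℝ) • g x) := H1.const_mul h (-1)
  have h3 : H1 (fun x => (-1 : ℝ) * f x) (fun x => rz (g (rz x))) :=
    H1.congr h1 (by filter_upwards [hodd] with x hx; rw [hx]; ring) (EventuallyEq.refl _ _)
  filter_upwards [H1.unique h3 h2] with x hx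
  have h4 : ‖rz (g (rz x))‖ = ‖(-1 : ℝ) • g x‖ := by rw [hx]
  rwa [rz.norm_map, norm_smul, norm_neg, norm_one, one_mul] at h4

/-- sign normalised odd function -/
theorem odd_norm {f : Pos3 → ℝ} {g : Pos3 → Pos3} (h : H1 f g) (hodd : ∀ᵐ x, f (rz x) = - f x) :
    ∃ (f' : Pos3 → ℝ) (g' : Pos3 → Pos3), H1 f' g' ∧ (∀ x, f' (rz x) = - f' x) ∧
      (∀ x : Pos3, 0 < x 2 → 0 ≤ f' x) ∧ (∀ᵐ x, f' x ^ 2 = f x ^ 2) ∧
      ∫ x, ‖g' x‖ ^ 2 ≤ ∫ x, ‖g x‖ ^ 2 := by
  have hU : IsOpen {x : Pos3 | 0 < x 2} := isOpen_lt continuous_const (by fun_prop)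
  have hodd' : ∀ᵐ x, f (rfl' 2 x) = - f x := by
    filter_upwards [hodd] with x hx
    rw [← rz_eq_rfl']; exact hx
  have h1 := H10.half_of_odd (2 : Fin 3) h hodd'
  set F : Pos3 → ℝ := fun x => if 0 < x 2 then f x else 0 with hF
  set G : Pos3 → Pos3 := fun x => if 0 < x 2 then g x else 0 with hG
  have h2 := H10.pos hU h1
  have h3 := H10.pos hU (H10.const_mul h1 (-1))
  have h4 := H10.add h2 h3
  set F1 : Pos3 → ℝ := fun x => Max.max (F x) 0 + Max.max (-1 * F x) 0 with hF1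
  set G1 : Pos3 → Pos3 := fun x => (if 0 < F x then G x else 0) +
    (if 0 < -1 * F x then (-1 : ℝ) • G x else 0) with hG1
  have h5 := H1.odd_ext (2 : Fin 3) h4
  have hF1abs : ∀ x, F1 x = |F x| := by
    intro x
    show Max.max (F x) 0 + Max.max (-1 * F x) 0 = |F x|
    rcases le_total 0 (F x) with h6 | h6
    · rw [max_eq_left h6, max_eq_right (by linarith), abs_of_nonneg h6, add_zero]
    · rw [max_eq_right h6, max_eq_left (by linarith), abs_of_nonpos h6]; ring
  have hpos : ∀ x : Pos3, 0 < x 2 → F1 x - F1 (rfl' 2 x) = |f x| := by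
    intro x hx
    rw [hF1abs, hF1abs, hF]
    have : ¬ (0 < (rfl' 2 x) 2) := by rw [rfl'_apply]; simp; linarith
    simp only [this, hx, if_true, if_false, abs_zero, sub_zero]
  have hneg : ∀ x : Pos3, x 2 < 0 → F1 x - F1 (rfl' 2 x) = -|f (rfl' 2 x)| := by
    intro x hx
    rw [hF1abs, hF1abs, hF]
    have h6 : 0 < (rfl' 2 x) 2 := by rw [rfl'_apply]; simp; linarith
    have h7 : ¬ (0 < x 2) := by linarith
    simp only [h6, h7, if_true, if_false, abs_zero, zero_sub]
  have hG1le : ∀ x, ‖G1 x‖ ≤ if 0 < x 2 then ‖g x‖ else 0 := by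
    intro x
    show ‖(if 0 < F x then G x else 0) + (if 0 < -1 * F x then (-1 : ℝ) • G x else 0)‖ ≤ _
    by_cases hx : 0 < x 2
    · rw [if_pos hx]
      have e : G x = g x := by rw [hG]; simp [hx]
      rw [e]
      rcases lt_trichotomy (F x) 0 with h6 | h6 | h6
      · have h7 : ¬ (0 < F x) := by linarith
        have h8 : 0 < -1 * F x := by linarith
        rw [if_neg h7, if_pos h8, zero_add, norm_smul]
        simp
      · rw [h6]; simp
      · have h7 : ¬ (0 < -1 * F x) := by linarith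
        rw [if_pos h6, if_neg h7, add_zero]
    · have e : F x = 0 := by rw [hF]; simp [hx]
      rw [e, if_neg hx]; simp
  refine ⟨fun x => F1 x - F1 (rfl' 2 x), _, h5, ?_, ?_, ?_, ?_⟩
  · intro x
    have e : rfl' 2 (rz x) = x := by rw [← rz_eq_rfl', kp_rz_rz]
    show F1 (rz x) - F1 (rfl' 2 (rz x)) = -(F1 x - F1 (rfl' 2 x))
    rw [e, ← rz_eq_rfl']; ring
  · intro x hx
    show 0 ≤ F1 x - F1 (rfl' 2 x)
    rw [hpos x hx]; exact abs_nonneg _
  · filter_upwards [hodd, ae_coord_ne (ι := Fin 3) 2 0] with x hx hx0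
    show (F1 x - F1 (rfl' 2 x)) ^ 2 = f x ^ 2
    rcases lt_or_gt_of_ne hx0 with h6 | h6
    · rw [hneg x h6, ← rz_eq_rfl', hx, neg_sq, sq_abs, neg_sq]
    · rw [hpos x h6, sq_abs]
  · have hgint := integrable_norm_sq h.memg
    have hgr := odd_grad h hodd
    refine integral_mono_ae (integrable_norm_sq h5.memg) hgint ?_
    filter_upwards [hgr, ae_coord_ne (ι := Fin 3) 2 0] with x hx hx0
    show ‖G1 x - rfl' 2 (G1 (rfl' 2 x))‖ ^ 2 ≤ ‖g x‖ ^ 2
    refine pow_le_pow_left₀ (norm_nonneg _) ?_ 2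
    have h6 := hG1le x
    have h7 := hG1le (rz x)
    rw [← rz_eq_rfl' x, ← rz_eq_rfl' (G1 (rz x))]
    refine (norm_sub_le _ _).trans ?_
    rw [rz.norm_map]
    rcases lt_or_gt_of_ne hx0 with h8 | h8
    · have h9 : ¬ (0 < x 2) := by linarith
      have h10 : 0 < (rz x) 2 := by rw [rz_two]; linarith
      rw [if_neg h9] at h6
      rw [if_pos h10, hx] at h7
      linarith
    · have h10 : ¬ (0 < (rz x) 2) := by rw [rz_two]; linarith
      rw [if_pos h8] at h6
      rw [if_neg h10] at h7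
      linarith

theorem pair_min_exists {s : Pos3 → ℝ} {gs : Pos3 → Pos3} (hs : Amp s gs) (hn : ∫ x, s x ^ 2 = 3) :
    ∃ (U : Pos3 → ℝ) (gU : Pos3 → Pos3) (w : Pos3 → ℝ) (gw : Pos3 → Pos3), PairAdm s U gU w gw ∧
      (∀ x, 0 ≤ U x) ∧ (∀ x : Pos3, 0 < x 2 → 0 ≤ w x) ∧
      ∀ U' gU' w' gw', PairAdm s U' gU' w' gw' →
        (∫ x, ‖gU x‖ ^ 2) + (∫ x, ‖gw x‖ ^ 2) ≤ (∫ x, ‖gU' x‖ ^ 2) + ∫ x, ‖gw' x‖ ^ 2 := by
  obtain ⟨U0, gU0, w0, gw0, h0, hmin⟩ := pair_limit hs hn
  obtain ⟨w1, gw1, hw1, hodd1, hpos1, hsq1, hen1⟩ := odd_norm h0.hw h0.oddw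
  have hU1 := H1.abs h0.hU
  -- the exceptional set
  let P : Pos3 → Prop := fun x => |U0 x| ^ 2 + w1 x ^ 2 = s x ^ 2 ∧ |U0 (rz x)| = |U0 x|
  have hP : ∀ᵐ x, P x := by
    filter_upwards [h0.sq, h0.evenU, hsq1] with x hx1 hx2 hx3
    exact ⟨by rw [sq_abs, hx3, hx1], by rw [hx2]⟩
  have hP' : ∀ᵐ x, P (rz x) := mp_rz.quasiMeasurePreserving.ae hP
  classical
  have hQ : ∀ᵐ x, P x ∧ P (rz x) := by
    filter_upwards [hP, hP'] with x h1 h2 using ⟨h1, h2⟩
  have hQs : ∀ x, (P (rz x) ∧ P (rz (rz x))) ↔ (P x ∧ P (rz x)) := by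
    intro x
    rw [kp_rz_rz]
    exact and_comm
  have eU : (fun x => |U0 x|) =ᵐ[volume] fun x => if P x ∧ P (rz x) then |U0 x| else s x := by
    filter_upwards [hQ] with x hx
    rw [if_pos hx]
  have ew : w1 =ᵐ[volume] fun x => if P x ∧ P (rz x) then w1 x else 0 := by
    filter_upwards [hQ] with x hx
    rw [if_pos hx]
  refine ⟨fun x => if P x ∧ P (rz x) then |U0 x| else s x, _,
    fun x => if P x ∧ P (rz x) then w1 x else 0, gw1,
    ⟨H1.congr hU1 eU (EventuallyEq.refl _ _), H1.congr hw1 ew (EventuallyEq.refl _ _),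
      ?_, ?_, ?_, ?_, ?_⟩, ?_, ?_, ?_⟩
  · intro x
    by_cases hx : P x ∧ P (rz x)
    · simp only [if_pos hx]; exact hx.1.1
    · simp only [if_neg hx]; ring
  · intro x
    show (if P (rz x) ∧ P (rz (rz x)) then |U0 (rz x)| else s (rz x)) =
      if P x ∧ P (rz x) then |U0 x| else s x
    by_cases hx : P x ∧ P (rz x)
    · rw [if_pos hx, if_pos ((hQs x).2 hx)]; exact hx.1.2
    · rw [if_neg hx, if_neg (fun h => hx ((hQs x).1 h)), hs.even]
  · intro x
    show (if P (rz x) ∧ P (rz (rz x)) then w1 (rz x) else 0) =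
      - (if P x ∧ P (rz x) then w1 x else 0)
    by_cases hx : P x ∧ P (rz x)
    · rw [if_pos hx, if_pos ((hQs x).2 hx)]; exact hodd1 x
    · rw [if_neg hx, if_neg (fun h => hx ((hQs x).1 h)), neg_zero]
  · rw [← h0.nU]
    refine integral_congr_ae ?_
    filter_upwards [hQ] with x hx
    simp only [if_pos hx]
    rw [sq_abs]
  · rw [← h0.nw]
    refine integral_congr_ae ?_
    filter_upwards [hQ, hsq1] with x hx hx1
    simp only [if_pos hx]
    exact hx1
  · intro x
    by_cases hx : P x ∧ P (rz x)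
    · simp only [if_pos hx]; exact abs_nonneg _
    · simp only [if_neg hx]; exact (hs.pos x).le
  · intro x hx0
    by_cases hx : P x ∧ P (rz x)
    · simp only [if_pos hx]; exact hpos1 x hx0
    · simp only [if_neg hx]; exact le_refl _
  · intro U' gU' w' gw' h'
    have h1 := hmin U' gU' w' gw' h'
    unfold En at h1
    have h2 : ∫ x, ‖(if 0 < U0 x then gU0 x else -gU0 x)‖ ^ 2 = ∫ x, ‖gU0 x‖ ^ 2 := by
      refine integral_congr_ae (Eventually.of_forall fun x => ?_)
      show ‖(if 0 < U0 x then gU0 x else -gU0 x)‖ ^ 2 = ‖gU0 x‖ ^ 2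
      split_ifs <;> simp
    rw [h2]
    linarith

end Crest.Agent.R335
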