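import Crest.Agent.R335.KDefs
import Crest.Agent.R335.HSlice

/-!
Row 335 (S0521): Pauli principle for one orbital (module KPauli): for a fermionic wave function the
occupation of one real orbital in one spin-resolved state is at most `2`.
-/

set_option autoImplicit false

open MeasureTheory Filter Set Crest.MathPhysics.ThreeBody
open scoped ENNReal Topology ContDiff

noncomputable section
namespace Crest.Agent.R335

section TwoFactor

variable {X Y : Type*} [MeasurableSpace X] [MeasurableSpace Y] {μ : Measure X} {ν : Measure Y}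
  [SFinite μ] [SFinite ν]

omit [SFinite μ] in
theorem bessel1 {u g : X → ℝ} (hu : MemLp u 2 μ) (hg : MemLp g 2 μ)
    (hu1 : ∫ x, u x ^ 2 ∂μ = 1) :
    (∫ x, u x * g x ∂μ) ^ 2 ≤ ∫ x, g x ^ 2 ∂μ := by
  set c := ∫ x, u x * g x ∂μ with hc
  have h1 : Integrable (fun x => u x * g x) μ := hu.integrable_mul hg
  have h2 : ∫ x, (g x - c * u x) ^ 2 ∂μ = (∫ x, g x ^ 2 ∂μ) - c ^ 2 := by
    have e : ∀ x, (g x - c * u x) ^ 2 = g x ^ 2 - 2 * c * (u x * g x) + c ^ 2 * u x ^ 2 := by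
      intro x; ring
    have h3 : Integrable (fun x => g x ^ 2 - 2 * c * (u x * g x)) μ :=
      hg.integrable_sq.sub (h1.const_mul _)
    simp_rw [e]
    rw [integral_add h3 (hu.integrable_sq.const_mul _),
      integral_sub hg.integrable_sq (h1.const_mul _), integral_const_mul, integral_const_mul,
      hu1, ← hc]
    ring
  have h4 : 0 ≤ ∫ x, (g x - c * u x) ^ 2 ∂μ := integral_nonneg fun x => sq_nonneg _
  linarith

theorem memLp_slice {f : X × Y → ℝ} (hf : MemLp f 2 (μ.prod ν)) :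
    ∀ᵐ y ∂ν, MemLp (fun x => f (x, y)) 2 μ := by
  filter_upwards [hf.integrable_sq.prod_left_ae, hf.aestronglyMeasurable.prodMk_right] with y h1 h2
  exact (memLp_two_iff_integrable_sq h2).2 h1

/-- partial inner product -/
theorem memLp_pip {u : X → ℝ} {f : X × Y → ℝ} (hu : MemLp u 2 μ) (hf : MemLp f 2 (μ.prod ν))
    (hu1 : ∫ x, u x ^ 2 ∂μ = 1) : MemLp (fun y => ∫ x, u x * f (x, y) ∂μ) 2 ν := by
  have hm : AEStronglyMeasurable (fun q : X × Y => u q.1 * f q) (μ.prod ν) :=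
    hu.aestronglyMeasurable.comp_fst.mul hf.aestronglyMeasurable
  have hm2 : AEStronglyMeasurable (fun y => ∫ x, u x * f (x, y) ∂μ) ν :=
    hm.prod_swap.integral_prod_right'
  rw [memLp_two_iff_integrable_sq hm2]
  refine hf.integrable_sq.integral_prod_right.mono (hm2.pow 2) ?_
  filter_upwards [memLp_slice hf] with y hy
  rw [Real.norm_eq_abs, abs_of_nonneg (sq_nonneg _), Real.norm_eq_abs,
    abs_of_nonneg (integral_nonneg fun x => sq_nonneg _)]
  exact bessel1 hu hy hu1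

omit [SFinite μ] [SFinite ν] in
theorem memLp_mul_prod {u : X → ℝ} {v : Y → ℝ} (hu : MemLp u 2 μ) (hv : MemLp v 2 ν) :
    MemLp (fun q : X × Y => u q.1 * v q.2) 2 (μ.prod ν) := by
  have hm : AEStronglyMeasurable (fun q : X × Y => u q.1 * v q.2) (μ.prod ν) :=
    hu.aestronglyMeasurable.comp_fst.mul hv.aestronglyMeasurable.comp_snd
  rw [memLp_two_iff_integrable_sq hm]
  refine (hu.integrable_sq.mul_prod hv.integrable_sq).congr (Eventually.of_forall fun q => ?_)
  simp only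
  ring

omit [SFinite μ] [SFinite ν] in
theorem int_uvf {u : X → ℝ} {v : Y → ℝ} {f : X × Y → ℝ} (hu : MemLp u 2 μ) (hv : MemLp v 2 ν)
    (hf : MemLp f 2 (μ.prod ν)) : Integrable (fun q : X × Y => u q.1 * v q.2 * f q) (μ.prod ν) := by
  exact (memLp_mul_prod hu hv).integrable_mul hf

theorem pip_mul {u : X → ℝ} {v : Y → ℝ} {f : X × Y → ℝ} (hu : MemLp u 2 μ) (hv : MemLp v 2 ν)
    (hf : MemLp f 2 (μ.prod ν)) :
    ∫ y, (∫ x, u x * f (x, y) ∂μ) * v y ∂ν = ∫ q, u q.1 * v q.2 * f q ∂(μ.prod ν) := by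
  rw [integral_prod_symm _ (int_uvf hu hv hf)]
  refine integral_congr_ae (Eventually.of_forall fun y => ?_)
  simp only
  rw [← integral_mul_const]
  congr 1; ext x; ring

theorem two_factor {u : X → ℝ} {v : Y → ℝ} {f : X × Y → ℝ} (hu : MemLp u 2 μ) (hv : MemLp v 2 ν)
    (hf : MemLp f 2 (μ.prod ν)) (hu1 : ∫ x, u x ^ 2 ∂μ = 1) (hv1 : ∫ y, v y ^ 2 ∂ν = 1) :
    (∫ y, (∫ x, u x * f (x, y) ∂μ) ^ 2 ∂ν) + ∫ x, (∫ y, v y * f (x, y) ∂ν) ^ 2 ∂μ ≤
      (∫ q, f q ^ 2 ∂(μ.prod ν)) + (∫ q, u q.1 * v q.2 * f q ∂(μ.prod ν)) ^ 2 := by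
  set A : Y → ℝ := fun y => ∫ x, u x * f (x, y) ∂μ with hA
  set B : X → ℝ := fun x => ∫ y, v y * f (x, y) ∂ν with hB
  set c : ℝ := ∫ q, u q.1 * v q.2 * f q ∂(μ.prod ν) with hc
  have hfs : MemLp (fun q : Y × X => f q.swap) 2 (ν.prod μ) :=
    hf.comp_measurePreserving Measure.measurePreserving_swap
  have hAm : MemLp A 2 ν := memLp_pip hu hf hu1
  have hBm : MemLp B 2 μ := memLp_pip hv hfs hv1
  -- the corrected function
  have hBv : MemLp (fun q : X × Y => B q.1 * v q.2) 2 (μ.prod ν) := memLp_mul_prod hBm hv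
  have hf1 : MemLp (fun q : X × Y => f q - B q.1 * v q.2) 2 (μ.prod ν) := hf.sub hBv
  -- norm of the corrected function
  have hn : ∫ q, (f q - B q.1 * v q.2) ^ 2 ∂(μ.prod ν) =
      (∫ q, f q ^ 2 ∂(μ.prod ν)) - ∫ x, B x ^ 2 ∂μ := by
    have e : ∀ q : X × Y, (f q - B q.1 * v q.2) ^ 2 =
        f q ^ 2 - 2 * (B q.1 * v q.2 * f q) + B q.1 ^ 2 * v q.2 ^ 2 := by
      intro q; ring
    have i1 : Integrable (fun q : X × Y => B q.1 * v q.2 * f q) (μ.prod ν) := int_uvf hBm hv hf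
    have i2 : Integrable (fun q : X × Y => f q ^ 2 - 2 * (B q.1 * v q.2 * f q)) (μ.prod ν) :=
      hf.integrable_sq.sub (i1.const_mul 2)
    have i3 : Integrable (fun q : X × Y => B q.1 ^ 2 * v q.2 ^ 2) (μ.prod ν) :=
      hBm.integrable_sq.mul_prod hv.integrable_sq
    have e1 : ∫ q, B q.1 * v q.2 * f q ∂(μ.prod ν) = ∫ x, B x ^ 2 ∂μ := by
      rw [integral_prod _ i1]
      refine integral_congr_ae (Eventually.of_forall fun x => ?_)
      have : ∀ y, B x * v y * f (x, y) = B x * (v y * f (x, y)) := fun y => by ring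
      simp only [this]
      rw [integral_const_mul, sq]
    have e2 : ∫ q, B q.1 ^ 2 * v q.2 ^ 2 ∂(μ.prod ν) = ∫ x, B x ^ 2 ∂μ := by
      rw [integral_prod_mul (fun x => B x ^ 2) (fun y => v y ^ 2), hv1, mul_one]
    simp_rw [e]
    rw [integral_add i2 i3, integral_sub hf.integrable_sq (i1.const_mul 2), integral_const_mul,
      e1, e2]
    ring
  -- partial inner product of the corrected function
  have hp : ∀ᵐ y ∂ν, ∫ x, u x * (f (x, y) - B x * v y) ∂μ = A y - c * v y := by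
    have huB : ∫ x, u x * B x ∂μ = c := by
      have := pip_mul hv hu hfs
      have h2 : ∫ q : Y × X, v q.1 * u q.2 * f q.swap ∂(ν.prod μ) = c := by
        rw [hc, ← integral_prod_swap]
        congr 1; ext q
        simp only [Prod.fst_swap, Prod.snd_swap, Prod.swap_swap]; ring
      rw [← h2, ← this]
      congr 1; ext x
      simp only [hB, Prod.swap_prod_mk]
      ring
    filter_upwards [memLp_slice hf] with y hy
    have e : ∀ x, u x * (f (x, y) - B x * v y) = u x * f (x, y) - v y * (u x * B x) := by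
      intro x; ring
    have i1 : Integrable (fun x => u x * f (x, y)) μ := hu.integrable_mul hy
    have i2 : Integrable (fun x => u x * B x) μ := hu.integrable_mul hBm
    simp_rw [e]
    rw [integral_sub i1 (i2.const_mul _), integral_const_mul, huB]
    simp only [hA]; ring
  have hle : ∫ y, (A y - c * v y) ^ 2 ∂ν ≤ ∫ q, (f q - B q.1 * v q.2) ^ 2 ∂(μ.prod ν) := by
    rw [integral_prod_symm _ hf1.integrable_sq]
    refine integral_mono_ae (hAm.sub (hv.const_mul c)).integrable_sq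
      hf1.integrable_sq.integral_prod_right ?_
    filter_upwards [hp, memLp_slice hf1] with y h1 h2
    rw [← h1]
    exact bessel1 hu h2 hu1
  have hA2 : ∫ y, (A y - c * v y) ^ 2 ∂ν = (∫ y, A y ^ 2 ∂ν) - c ^ 2 := by
    have e : ∀ y, (A y - c * v y) ^ 2 = A y ^ 2 - 2 * c * (A y * v y) + c ^ 2 * v y ^ 2 := by
      intro y; ring
    have i1 : Integrable (fun y => A y * v y) ν := hAm.integrable_mul hv
    have i2 : Integrable (fun y => A y ^ 2 - 2 * c * (A y * v y)) ν :=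
      hAm.integrable_sq.sub (i1.const_mul _)
    simp_rw [e]
    rw [integral_add i2 (hv.integrable_sq.const_mul _),
      integral_sub hAm.integrable_sq (i1.const_mul _), integral_const_mul, integral_const_mul,
      hv1, pip_mul hu hv hf, ← hc]
    ring
  linarith

theorem memLp_pip1 {u : X → ℝ} {g : (X × X) × X → ℝ} (hu : MemLp u 2 μ)
    (hg : MemLp g 2 ((μ.prod μ).prod μ)) (hu1 : ∫ x, u x ^ 2 ∂μ = 1) :
    MemLp (fun p : X × X => ∫ x, u x * g ((x, p.1), p.2) ∂μ) 2 (μ.prod μ) := by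
  have h1 : MemLp (fun q : X × (X × X) => g (MeasurableEquiv.prodAssoc.symm q)) 2
      (μ.prod (μ.prod μ)) :=
    hg.comp_measurePreserving ((measurePreserving_prodAssoc μ μ μ).symm _)
  exact memLp_pip hu h1 hu1

theorem memLp_swap1 {g : (X × X) × X → ℝ} (hg : MemLp g 2 ((μ.prod μ).prod μ)) :
    MemLp (fun q : (X × X) × X => g (q.1.swap, q.2)) 2 ((μ.prod μ).prod μ) :=
  hg.comp_measurePreserving (Measure.measurePreserving_swap.prod (MeasurePreserving.id μ))

theorem memLp_pip2 {u : X → ℝ} {g : (X × X) × X → ℝ} (hu : MemLp u 2 μ)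
    (hg : MemLp g 2 ((μ.prod μ).prod μ)) (hu1 : ∫ x, u x ^ 2 ∂μ = 1) :
    MemLp (fun p : X × X => ∫ y, u y * g ((p.1, y), p.2) ∂μ) 2 (μ.prod μ) :=
  memLp_pip1 hu (memLp_swap1 hg) hu1

theorem memLp_pip3 {u : X → ℝ} {g : (X × X) × X → ℝ} (hu : MemLp u 2 μ)
    (hg : MemLp g 2 ((μ.prod μ).prod μ)) (hu1 : ∫ x, u x ^ 2 ∂μ = 1) :
    MemLp (fun p : X × X => ∫ z, u z * g (p, z) ∂μ) 2 (μ.prod μ) := by
  have h1 : MemLp (fun q : X × (X × X) => g q.swap) 2 (μ.prod (μ.prod μ)) :=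
    hg.comp_measurePreserving Measure.measurePreserving_swap
  exact memLp_pip hu h1 hu1

theorem three_factor {u : X → ℝ} {g : (X × X) × X → ℝ} (hu : MemLp u 2 μ)
    (hg : MemLp g 2 ((μ.prod μ).prod μ)) (hu1 : ∫ x, u x ^ 2 ∂μ = 1)
    (h0 : ∫ q, u q.1.1 * u q.1.2 * u q.2 * g q ∂((μ.prod μ).prod μ) = 0) :
    (∫ p : X × X, (∫ x, u x * g ((x, p.1), p.2) ∂μ) ^ 2 ∂(μ.prod μ)) +
      (∫ p : X × X, (∫ y, u y * g ((p.1, y), p.2) ∂μ) ^ 2 ∂(μ.prod μ)) +
      (∫ p : X × X, (∫ z, u z * g (p, z) ∂μ) ^ 2 ∂(μ.prod μ)) ≤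
    2 * ∫ q, g q ^ 2 ∂((μ.prod μ).prod μ) := by
  have huu : MemLp (fun q : X × X => u q.1 * u q.2) 2 (μ.prod μ) := memLp_mul_prod hu hu
  have huu1 : ∫ q : X × X, (u q.1 * u q.2) ^ 2 ∂(μ.prod μ) = 1 := by
    have : ∀ q : X × X, (u q.1 * u q.2) ^ 2 = u q.1 ^ 2 * u q.2 ^ 2 := fun q => by ring
    simp_rw [this]
    rw [integral_prod_mul (fun x => u x ^ 2) (fun x => u x ^ 2), hu1, mul_one]
  have h2 := two_factor huu hu hg huu1 hu1
  rw [h0] at h2
  have ma := memLp_pip1 hu hg hu1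
  have mb := memLp_pip2 hu hg hu1
  have md : MemLp (fun z : X => ∫ q : X × X, u q.1 * u q.2 * g (q, z) ∂(μ.prod μ)) 2 μ :=
    memLp_pip huu hg huu1
  have h1 : (∫ p : X × X, (∫ x, u x * g ((x, p.1), p.2) ∂μ) ^ 2 ∂(μ.prod μ)) +
      (∫ p : X × X, (∫ y, u y * g ((p.1, y), p.2) ∂μ) ^ 2 ∂(μ.prod μ)) ≤
      (∫ q, g q ^ 2 ∂((μ.prod μ).prod μ)) +
        ∫ z, (∫ q : X × X, u q.1 * u q.2 * g (q, z) ∂(μ.prod μ)) ^ 2 ∂μ := by
    rw [integral_prod_symm _ ma.integrable_sq, integral_prod_symm _ mb.integrable_sq,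
      integral_prod_symm _ hg.integrable_sq,
      ← integral_add ma.integrable_sq.integral_prod_right mb.integrable_sq.integral_prod_right,
      ← integral_add hg.integrable_sq.integral_prod_right md.integrable_sq]
    refine integral_mono_ae
      (ma.integrable_sq.integral_prod_right.add mb.integrable_sq.integral_prod_right)
      (hg.integrable_sq.integral_prod_right.add md.integrable_sq) ?_
    filter_upwards [memLp_slice hg] with z hz
    exact two_factor hu hu hz hu1 hu1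
  linarith

end TwoFactor

/-! ### configurations -/

/-- electron `i` first -/
def pE (i : Fin 3) : Fin 3 × Fin 3 ≃ Fin 3 ⊕ (Fin 2 × Fin 3) :=
  ((finSuccEquiv' i).prodCongr (Equiv.refl (Fin 3))).trans optionProdEquiv

/-- the two remaining electrons -/
def qE : Fin 2 × Fin 3 ≃ Fin 3 ⊕ Fin 3 :=
  (finTwoEquiv.prodCongr (Equiv.refl (Fin 3))).trans (Equiv.boolProdEquivSum (Fin 3))

theorem pE_self (i c : Fin 3) : pE i (i, c) = Sum.inl c := by
  simp [pE, optionProdEquiv]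

theorem pE_symm_inl (i c : Fin 3) : (pE i).symm (Sum.inl c) = (i, c) := by
  rw [Equiv.symm_apply_eq, pE_self]

theorem elPos_eq (i : Fin 3) (X : Config3) : elPos i X = pr1 (pE i) X := by
  ext c
  simp [elPos, pE_symm_inl]

@[simp] theorem elPos_jn (i : Fin 3) (x : Pos3) (w : EuclideanSpace ℝ (Fin 2 × Fin 3)) :
    elPos i (jn (pE i) x w) = x := by
  rw [elPos_eq, pr1_jn]

/-- the configuration `(x, y, z)` -/
def cfg (q : (Pos3 × Pos3) × Pos3) : Config3 := jn (pE 2) q.2 (jn qE q.1.1 q.1.2)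

theorem cfg_eq (x y z : Pos3) (i c : Fin 3) :
    cfg ((x, y), z) (i, c) = (if i = 0 then x c else if i = 1 then y c else z c) := by
  fin_cases i <;> simp [cfg, pE, qE, optionProdEquiv] <;> rfl

theorem cfg0 (x y z : Pos3) : jn (pE 0) x (jn qE y z) = cfg ((x, y), z) := by
  ext ⟨i, c⟩
  rw [cfg_eq]
  fin_cases i <;> simp [pE, qE, optionProdEquiv] <;> rfl

theorem cfg1 (x y z : Pos3) : jn (pE 1) y (jn qE x z) = cfg ((x, y), z) := by
  ext ⟨i, c⟩
  rw [cfg_eq]
  fin_cases i <;> simp [pE, qE, optionProdEquiv] <;> rfl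

theorem elPos_cfg0 (q : (Pos3 × Pos3) × Pos3) : elPos 0 (cfg q) = q.1.1 := by
  obtain ⟨⟨x, y⟩, z⟩ := q
  ext c
  simp [elPos, cfg_eq]

theorem elPos_cfg1 (q : (Pos3 × Pos3) × Pos3) : elPos 1 (cfg q) = q.1.2 := by
  obtain ⟨⟨x, y⟩, z⟩ := q
  ext c
  simp [elPos, cfg_eq]

theorem elPos_cfg2 (q : (Pos3 × Pos3) × Pos3) : elPos 2 (cfg q) = q.2 := by
  obtain ⟨⟨x, y⟩, z⟩ := q
  ext c
  simp [elPos, cfg_eq]

theorem mp_cfg : MeasurePreserving cfg
    ((volume.prod volume).prod volume : Measure ((Pos3 × Pos3) × Pos3)) volume := by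
  have h1 : MeasurePreserving (fun q : (Pos3 × Pos3) × Pos3 => (jn qE q.1.1 q.1.2, q.2))
      ((volume.prod volume).prod volume) (volume.prod volume) :=
    (measurePreserving_jn qE).prod (MeasurePreserving.id volume)
  exact (measurePreserving_jn (pE 2)).comp (Measure.measurePreserving_swap.comp h1)

theorem me_cfg : MeasurableEmbedding cfg := by
  have h1 : MeasurableEmbedding (fun q : (Pos3 × Pos3) × Pos3 => (jn qE q.1.1 q.1.2, q.2)) :=
    (measurableEmbedding_jn qE).prodMap MeasurableEmbedding.id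
  exact (measurableEmbedding_jn (pE 2)).comp
    ((MeasurableEquiv.prodComm.measurableEmbedding).comp h1)

/-- Pauli inequality for one real component, under the vanishing of the triple overlap -/
theorem pauli_one {f : Config3 → ℝ} (hf : MemLp f 2 volume) {u : Pos3 → ℝ}
    (hu : MemLp u 2 volume) (hu1 : ∫ x, u x ^ 2 = 1)
    (h0 : ∫ X, (∏ i, u (elPos i X)) * f X = 0) :
    ∑ i : Fin 3, ∫⁻ w : EuclideanSpace ℝ (Fin 2 × Fin 3),
        ENNReal.ofReal ((∫ x, u x * f (jn (pE i) x w)) ^ 2) ≤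
      ENNReal.ofReal (2 * ∫ X, f X ^ 2) := by
  set g : (Pos3 × Pos3) × Pos3 → ℝ := fun q => f (cfg q) with hgdef
  have hg : MemLp g 2 ((volume.prod volume).prod volume) := hf.comp_measurePreserving mp_cfg
  have h0' : ∫ q, u q.1.1 * u q.1.2 * u q.2 * g q
      ∂((volume.prod volume).prod volume : Measure ((Pos3 × Pos3) × Pos3)) = 0 := by
    rw [← h0, ← mp_cfg.integral_comp me_cfg]
    congr 1; ext q
    rw [Fin.prod_univ_three, elPos_cfg0, elPos_cfg1, elPos_cfg2]
  have hg2 : ∫ q, g q ^ 2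
      ∂((volume.prod volume).prod volume : Measure ((Pos3 × Pos3) × Pos3)) = ∫ X, f X ^ 2 := by
    rw [← mp_cfg.integral_comp me_cfg]
  have key := three_factor hu hg hu1 h0'
  have conv : ∀ (H : EuclideanSpace ℝ (Fin 2 × Fin 3) → ℝ),
      Integrable (fun p : Pos3 × Pos3 => H (jn qE p.1 p.2) ^ 2) (volume.prod volume) →
      ∫⁻ w, ENNReal.ofReal (H w ^ 2) =
        ENNReal.ofReal (∫ p : Pos3 × Pos3, H (jn qE p.1 p.2) ^ 2 ∂(volume.prod volume)) := by
    intro H hH
    rw [ofReal_integral_eq_lintegral_ofReal hH (Eventually.of_forall fun _ => sq_nonneg _),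
      ← (measurePreserving_jn qE).lintegral_comp_emb (measurableEmbedding_jn qE)]
  have e0 : ∀ p : Pos3 × Pos3, (∫ x, u x * f (jn (pE 0) x (jn qE p.1 p.2))) =
      ∫ x, u x * g ((x, p.1), p.2) := by
    intro p; congr 1; ext x; rw [cfg0]
  have e1 : ∀ p : Pos3 × Pos3, (∫ x, u x * f (jn (pE 1) x (jn qE p.1 p.2))) =
      ∫ x, u x * g ((p.1, x), p.2) := by
    intro p; congr 1; ext x; rw [cfg1]
  have e2 : ∀ p : Pos3 × Pos3, (∫ x, u x * f (jn (pE 2) x (jn qE p.1 p.2))) =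
      ∫ x, u x * g (p, x) := by
    intro p; rfl
  rw [Fin.sum_univ_three, conv _ (by simp_rw [e0]; exact (memLp_pip1 hu hg hu1).integrable_sq),
    conv _ (by simp_rw [e1]; exact (memLp_pip2 hu hg hu1).integrable_sq),
    conv _ (by simp_rw [e2]; exact (memLp_pip3 hu hg hu1).integrable_sq)]
  simp_rw [e0, e1, e2]
  rw [← ENNReal.ofReal_add (integral_nonneg fun _ => sq_nonneg _)
    (integral_nonneg fun _ => sq_nonneg _), ← ENNReal.ofReal_add
    (add_nonneg (integral_nonneg fun _ => sq_nonneg _) (integral_nonneg fun _ => sq_nonneg _))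
    (integral_nonneg fun _ => sq_nonneg _)]
  refine ENNReal.ofReal_le_ofReal ?_
  rw [← hg2]
  exact key

/-- a relabelling of the electrons, as a linear isometry -/
def kpPermL (τ : Equiv.Perm (Fin 3)) : Config3 ≃ₗᵢ[ℝ] Config3 :=
  LinearIsometryEquiv.piLpCongrLeft 2 ℝ ℝ (τ.symm.prodCongr (Equiv.refl (Fin 3)))

theorem kpPermL_apply (τ : Equiv.Perm (Fin 3)) (X : Config3) : kpPermL τ X = permConfig τ X := by
  ext ⟨i, c⟩
  simp [kpPermL, permConfig, LinearIsometryEquiv.piLpCongrLeft_apply, Equiv.piCongrLeft']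

theorem elPos_perm (τ : Equiv.Perm (Fin 3)) (X : Config3) (i : Fin 3) :
    elPos i (permConfig τ X) = elPos (τ i) X := by
  ext c
  simp [elPos, permConfig]

theorem exists_swap (σ : Spin3) : ∃ i j : Fin 3, i ≠ j ∧ σ i = σ j := by
  have : ∀ σ : Spin3, ∃ i j : Fin 3, i ≠ j ∧ σ i = σ j := by decide
  exact this σ

theorem antisymm {Φ : Wave3} (h : IsFermionic Φ) (σ : Spin3) :
    ∃ τ : Equiv.Perm (Fin 3), ∀ X, Φ σ (permConfig τ X) = - Φ σ X := by
  obtain ⟨i, j, hij, hσ⟩ := exists_swap σ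
  refine ⟨Equiv.swap i j, fun X => ?_⟩
  have h1 := h.2 (Equiv.swap i j) σ X
  have h2 : (fun k => σ (Equiv.swap i j k)) = σ := by
    funext k
    rcases eq_or_ne k i with rfl | hki
    · rw [Equiv.swap_apply_left, hσ]
    · rcases eq_or_ne k j with rfl | hkj
      · rw [Equiv.swap_apply_right, hσ]
      · rw [Equiv.swap_apply_of_ne_of_ne hki hkj]
  rw [h2, Equiv.Perm.sign_swap hij] at h1
  rw [h1]; simp

/-- the triple overlap vanishes -/
theorem triple_zero {u : Pos3 → ℝ} {f : Config3 → ℝ} {τ : Equiv.Perm (Fin 3)}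
    (h : ∀ X, f (permConfig τ X) = - f X) : ∫ X, (∏ i, u (elPos i X)) * f X = 0 := by
  have h1 : ∫ X, (∏ i, u (elPos i X)) * f X = - ∫ X, (∏ i, u (elPos i X)) * f X := by
    conv_lhs => rw [← (kpPermL τ).measurePreserving.integral_comp
      (kpPermL τ).toHomeomorph.measurableEmbedding]
    rw [← integral_neg]
    congr 1; ext X
    rw [kpPermL_apply, h]
    simp_rw [elPos_perm]
    rw [Equiv.prod_comp τ (fun i => u (elPos i X))]
    ring
  linarith

/-- real (`true`) or imaginary (`false`) part -/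
def pRI (b : Bool) (z : ℂ) : ℝ := if b then z.re else z.im

theorem memLp_ri {f : Config3 → ℂ} (hf : MemLp f 2 volume) (b : Bool) :
    MemLp (fun X => pRI b (f X)) 2 volume := by
  cases b
  · exact hf.im
  · exact hf.re

theorem sum_ri (z : ℂ) : ∑ b : Bool, ENNReal.ofReal (pRI b z ^ 2) = ‖z‖ₑ ^ 2 := by
  rw [Fintype.sum_bool]
  simp only [pRI, if_true, Bool.false_eq_true, if_false]
  rw [← ENNReal.ofReal_add (sq_nonneg _) (sq_nonneg _), ← ofReal_norm,
    ← ENNReal.ofReal_pow (norm_nonneg _), ← Complex.normSq_eq_norm_sq, Complex.normSq_apply]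
  congr 1; ring

theorem sum_ri_lintegral {f : Config3 → ℂ} (hf : MemLp f 2 volume) :
    ∑ b : Bool, ENNReal.ofReal (∫ X, pRI b (f X) ^ 2) = ∫⁻ X, ‖f X‖ₑ ^ 2 := by
  simp_rw [← sum_ri]
  rw [lintegral_finsetSum' _ fun b _ =>
    ((memLp_ri hf b).aestronglyMeasurable.aemeasurable.pow_const 2).ennreal_ofReal]
  refine Finset.sum_congr rfl fun b _ => ?_
  exact ofReal_integral_eq_lintegral_ofReal (memLp_ri hf b).integrable_sq
    (Eventually.of_forall fun _ => sq_nonneg _)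

/-- PAULI: the occupation of a normalised real orbital is at most two -/
theorem pauli {Φ : Wave3} (h : IsFermionic Φ) {u : Pos3 → ℝ} (hu : MemLp u 2 volume)
    (hu1 : ∫ x, u x ^ 2 = 1) :
    ∑ σ : Spin3, ∑ b : Bool, ∑ i : Fin 3, ∫⁻ w : EuclideanSpace ℝ (Fin 2 × Fin 3),
        ENNReal.ofReal ((∫ x, u x * pRI b (Φ σ (jn (pE i) x w))) ^ 2) ≤ 2 * normSq Φ := by
  unfold normSq
  rw [Finset.mul_sum]
  refine Finset.sum_le_sum fun σ _ => ?_
  rw [← sum_ri_lintegral (h.1 σ), Finset.mul_sum]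
  refine Finset.sum_le_sum fun b _ => ?_
  obtain ⟨τ, hτ⟩ := antisymm h σ
  have h0 : ∫ X, (∏ i, u (elPos i X)) * pRI b (Φ σ X) = 0 := by
    refine triple_zero (τ := τ) fun X => ?_
    rw [hτ]
    cases b <;> simp [pRI]
  refine (pauli_one (memLp_ri (h.1 σ) b) hu hu1 h0).trans (le_of_eq ?_)
  rw [ENNReal.ofReal_mul zero_le_two, ENNReal.ofReal_ofNat]

end Crest.Agent.R335
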