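import Crest.Agent.R335.KTest
import Crest.Agent.R335.HBasic
import Crest.Agent.R335.HChain
import Crest.Agent.R335.HProd

/-!
Row 335 (S0521), Kohn-Sham side: basic facts on amplitudes and pairs used by `KPos`, `KSP`.
-/

set_option autoImplicit false
set_option linter.unusedVariables false

open MeasureTheory Filter Set Crest.MathPhysics.ThreeBody
open scoped ENNReal Topology ContDiff

noncomputable section
namespace Crest.Agent.R335

/-! ### generalities -/

theorem KP.integrable_inner {f g : Pos3 → Pos3} (hf : MemLp f 2 volume) (hg : MemLp g 2 volume) :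
    Integrable (fun x => inner ℝ (f x) (g x)) := by
  have h := MemLp.integrable_mul hf.norm hg.norm
  refine h.mono (hf.1.inner hg.1) (Eventually.of_forall fun x => ?_)
  have := abs_real_inner_le_norm (f x) (g x)
  simpa [Real.norm_eq_abs, abs_mul] using this

theorem KP.integrable_norm_sq {F : Type*} [NormedAddCommGroup F] {f : Pos3 → F}
    (hf : MemLp f 2 volume) : Integrable (fun x => ‖f x‖ ^ 2) := by
  have : MemLp f ((2 : ℕ) : ℝ≥0∞) volume := by exact_mod_cast hf
  exact this.integrable_norm_pow (by norm_num)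

theorem KP.integrable_sq {f : Pos3 → ℝ} (hf : MemLp f 2 volume) :
    Integrable (fun x => f x ^ 2) := by
  simpa using KP.integrable_norm_sq hf

/-- multiplication by an a.e. bounded function -/
theorem KP.bdd_mul {k f : Pos3 → ℝ} (hf : Integrable f) (hk : AEStronglyMeasurable k volume)
    {C : ℝ} (hb : ∀ᵐ x, |k x| ≤ C) : Integrable (fun x => k x * f x) := by
  exact hf.bdd_mul hk (by simpa [Real.norm_eq_abs] using hb)

theorem Amp.kpLow {s : Pos3 → ℝ} {gs : Pos3 → Pos3} (hs : Amp s gs) (R : ℝ) :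
    ∃ c : ℝ, 0 < c ∧ ∀ x, ‖x‖ ≤ R → c ≤ s x := by
  by_cases hne : (Metric.closedBall (0 : Pos3) R).Nonempty
  · obtain ⟨x0, hx0, hmin⟩ := (isCompact_closedBall (0 : Pos3) R).exists_isMinOn hne
      hs.cont.continuousOn
    refine ⟨s x0, hs.pos x0, fun x hx => ?_⟩
    exact hmin (by simpa [Metric.mem_closedBall, dist_zero_right] using hx)
  · refine ⟨1, one_pos, fun x hx => ?_⟩
    exact absurd ⟨x, by simpa [Metric.mem_closedBall, dist_zero_right] using hx⟩ hne

theorem Amp.kpUpper {s : Pos3 → ℝ} {gs : Pos3 → Pos3} (hs : Amp s gs) :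
    ∃ C : ℝ, 0 ≤ C ∧ ∀ x, |s x| ≤ C := by
  obtain ⟨C, hC⟩ := hs.bdd
  refine ⟨C, (hs.pos 0).le.trans (hC 0), fun x => ?_⟩
  rw [abs_of_pos (hs.pos x)]
  exact hC x

theorem PairAdm.kpU_le {s U w : Pos3 → ℝ} {gs gU gw : Pos3 → Pos3} (hs : Amp s gs)
    (hp : PairAdm s U gU w gw) (x : Pos3) : |U x| ≤ s x := by
  refine abs_le_of_sq_le_sq ?_ (hs.pos x).le
  have := hp.sq x
  nlinarith [sq_nonneg (w x)]

theorem PairAdm.kpw_le {s U w : Pos3 → ℝ} {gs gU gw : Pos3 → Pos3} (hs : Amp s gs)
    (hp : PairAdm s U gU w gw) (x : Pos3) : |w x| ≤ s x := by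
  refine abs_le_of_sq_le_sq ?_ (hs.pos x).le
  have := hp.sq x
  nlinarith [sq_nonneg (U x)]

theorem PairAdm.kpMU {s U w : Pos3 → ℝ} {gU gw : Pos3 → Pos3}
    (hp : PairAdm s U gU w gw) : AEStronglyMeasurable U volume := hp.hU.memf.1

theorem PairAdm.kpMw {s U w : Pos3 → ℝ} {gU gw : Pos3 → Pos3}
    (hp : PairAdm s U gU w gw) : AEStronglyMeasurable w volume := hp.hw.memf.1

theorem PairAdm.kpJm {s U w : Pos3 → ℝ} {gU gw : Pos3 → Pos3}
    (hp : PairAdm s U gU w gw) : AEStronglyMeasurable (J U gU w gw) volume := by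
  unfold J
  exact (hp.kpMw.smul hp.hU.memg.1).sub (hp.kpMU.smul hp.hw.memg.1)

theorem PairAdm.kpJ2 {s U w : Pos3 → ℝ} {gs gU gw : Pos3 → Pos3} (hs : Amp s gs)
    (hp : PairAdm s U gU w gw) : MemLp (J U gU w gw) 2 volume := by
  obtain ⟨C, hC0, hC⟩ := hs.kpUpper
  have h1 : MemLp (fun x => w x • gU x) 2 volume := by
    refine MemLp.of_le_mul (c := C) hp.hU.memg (hp.kpMw.smul hp.hU.memg.1)
      (Eventually.of_forall fun x => ?_)
    rw [norm_smul, Real.norm_eq_abs]
    exact mul_le_mul_of_nonneg_right ((hp.kpw_le hs x).trans ((le_abs_self _).trans (hC x)))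
      (norm_nonneg _)
  have h2 : MemLp (fun x => U x • gw x) 2 volume := by
    refine MemLp.of_le_mul (c := C) hp.hw.memg (hp.kpMU.smul hp.hw.memg.1)
      (Eventually.of_forall fun x => ?_)
    rw [norm_smul, Real.norm_eq_abs]
    exact mul_le_mul_of_nonneg_right ((hp.kpU_le hs x).trans ((le_abs_self _).trans (hC x)))
      (norm_nonneg _)
  exact h1.sub h2

/-- `‖J‖² / s²` is integrable -/
theorem PairAdm.kpJi {s U w : Pos3 → ℝ} {gs gU gw : Pos3 → Pos3} (hs : Amp s gs)
    (hp : PairAdm s U gU w gw) : Integrable (fun x => ‖J U gU w gw x‖ ^ 2 / s x ^ 2) := by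
  have h := ((KP.integrable_norm_sq hp.hU.memg).add (KP.integrable_norm_sq hp.hw.memg)).sub
    (KP.integrable_norm_sq hs.h1.memg)
  refine h.congr ?_
  filter_upwards [pair_grad hs hp] with x hx
  simp only [Pi.add_apply, Pi.sub_apply]
  linarith [hx.2]

/-- test function of a smooth compactly supported function -/
theorem BT.kpTest {V : Set Pos3} {φ : Pos3 → ℝ} (h : Test V φ) : BT φ (gr φ) where
  h1 := H1.of_test h
  bdd := by
    obtain ⟨C, hC⟩ := h.cpt.exists_bound_of_continuous h.smooth.continuous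
    exact ⟨C, Eventually.of_forall fun x => by simpa [Real.norm_eq_abs] using hC x⟩
  cpt := by
    obtain ⟨R, hR⟩ := h.cpt.isCompact.isBounded.subset_closedBall (0 : Pos3)
    refine ⟨R + 1, Eventually.of_forall fun x hx => ?_⟩
    by_contra hne
    have hx' : x ∈ tsupport φ := subset_tsupport _ (by simpa using hne)
    have := hR hx'
    rw [Metric.mem_closedBall, dist_zero_right] at this
    linarith

theorem BT.kpLow {s : Pos3 → ℝ} {gs : Pos3 → Pos3} (hs : Amp s gs) {p : Pos3 → ℝ}
    {gp : Pos3 → Pos3} (hp : BT p gp) : ∃ c : ℝ, 0 < c ∧ ∀ᵐ x, p x ≠ 0 → c ≤ s x := by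
  obtain ⟨R, hR⟩ := hp.cpt
  obtain ⟨c, hc, hlow⟩ := hs.kpLow R
  refine ⟨c, hc, ?_⟩
  filter_upwards [hR] with x hx hne
  refine hlow x ?_
  by_contra hcon
  exact hne (hx (le_of_not_ge hcon))

/-- product of a bounded compactly supported `H¹` function with a bounded, locally Sobolev
function with locally square-integrable gradient -/
theorem BT.kpMulWG {p k : Pos3 → ℝ} {gp gk : Pos3 → Pos3} (hp : BT p gp) (hk : WG univ k gk)
    (hb : ∃ C : ℝ, ∀ᵐ x, |k x| ≤ C) (hl : L2locV univ gk) :
    BT (fun x => p x * k x) (fun x => p x • gk x + k x • gp x) := by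
  obtain ⟨C, hC⟩ := hb
  obtain ⟨D, hD⟩ := hp.bdd
  obtain ⟨R, hR⟩ := hp.cpt
  have hkm : AEStronglyMeasurable k volume := by
    have := hk.intf.aestronglyMeasurable
    simpa using this
  have hgkm : AEStronglyMeasurable gk volume := by
    have := hk.intg.aestronglyMeasurable
    simpa using this
  have hpm := hp.h1.memf.1
  have hgpm := hp.h1.memg.1
  have m1 : MemLp (fun x => p x * k x) 2 volume := by
    refine MemLp.of_le_mul (c := C) hp.h1.memf (hpm.mul hkm) ?_
    filter_upwards [hC] with x hx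
    rw [norm_mul, mul_comm, Real.norm_eq_abs]
    exact mul_le_mul_of_nonneg_right hx (norm_nonneg _)
  have m2 : MemLp (fun x => k x • gp x) 2 volume := by
    refine MemLp.of_le_mul (c := C) hp.h1.memg (hkm.smul hgpm) ?_
    filter_upwards [hC] with x hx
    rw [norm_smul, Real.norm_eq_abs]
    exact mul_le_mul_of_nonneg_right hx (norm_nonneg _)
  have m3 : MemLp (fun x => p x • gk x) 2 volume := by
    have h0 : MemLp ((Metric.closedBall (0 : Pos3) R).indicator gk) 2 volume := by
      rw [memLp_indicator_iff_restrict measurableSet_closedBall]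
      exact hl _ (isCompact_closedBall _ _) (subset_univ _)
    refine MemLp.of_le_mul (c := D) h0 (hpm.smul hgkm) ?_
    filter_upwards [hD, hR] with x hx hxR
    by_cases hxb : x ∈ Metric.closedBall (0 : Pos3) R
    · rw [indicator_of_mem hxb, norm_smul, Real.norm_eq_abs]
      exact mul_le_mul_of_nonneg_right hx (norm_nonneg _)
    · rw [Metric.mem_closedBall, dist_zero_right, not_le] at hxb
      rw [hxR hxb.le]
      simp only [zero_smul, norm_zero]
      exact mul_nonneg ((abs_nonneg _).trans hx) (norm_nonneg _)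
  have wg : WG univ (fun x => p x * k x) (fun x => p x • gk x + k x • gp x) :=
    WG.mul isOpen_univ hp.h1.wg hk
      (locallyIntegrableOn_univ.2 (m1.locallyIntegrable (by norm_num)))
      (locallyIntegrableOn_univ.2 (m3.locallyIntegrable (by norm_num)))
      (locallyIntegrableOn_univ.2 (m2.locallyIntegrable (by norm_num)))
  refine ⟨⟨m1, m3.add m2, wg⟩, ⟨D * C, ?_⟩, ⟨R, ?_⟩⟩
  · filter_upwards [hC, hD] with x h1 h2
    rw [abs_mul]
    exact mul_le_mul h2 h1 (abs_nonneg _) ((abs_nonneg _).trans h2)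
  · filter_upwards [hR] with x hx hxR
    rw [hx hxR, zero_mul]

/-- `1/s` -/
theorem Amp.kpInv {s : Pos3 → ℝ} {gs : Pos3 → Pos3} (hs : Amp s gs) :
    WG univ (fun x => 1 / s x) (fun x => (-(1 / s x ^ 2)) • gs x) := by
  refine WG.of_local isOpen_univ fun x _ => ⟨Metric.ball x 1, Metric.isOpen_ball,
    Metric.mem_ball_self one_pos, ?_⟩
  obtain ⟨c, hc, hlow⟩ := hs.kpLow (‖x‖ + 1)
  obtain ⟨C, hC⟩ := hs.bdd
  have hw : WG (Metric.ball x 1) s gs := WG.mono hs.h1.wg (subset_univ _)
  refine WG.comp_on (F := fun t => 1 / t) (F' := fun t => -(1 / t ^ 2)) (a := (c : EReal))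
    (b := ⊤) Metric.isOpen_ball hw ?_ ?_ ?_ (C := 1 / c ^ 2) ?_
  · refine (ae_restrict_iff' measurableSet_ball).2 (Eventually.of_forall fun y hy => ?_)
    refine ⟨?_, le_top⟩
    rw [EReal.coe_le_coe_iff]
    refine hlow y ?_
    have h1 : ‖y‖ ≤ ‖x‖ + ‖y - x‖ := by
      have := norm_add_le x (y - x)
      simpa using this
    rw [Metric.mem_ball, dist_eq_norm] at hy
    linarith
  · intro t ht _
    rw [EReal.coe_le_coe_iff] at ht
    have ht0 : t ≠ 0 := (hc.trans_le ht).ne'
    have := hasDerivAt_inv ht0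
    simpa [one_div] using this
  · refine ContinuousOn.neg (ContinuousOn.div continuousOn_const (by fun_prop) ?_)
    intro t ht
    have ht1 : c ≤ t := by simpa using ht.1
    have : 0 < t := hc.trans_le ht1
    positivity
  · intro t ht _
    rw [EReal.coe_le_coe_iff] at ht
    have ht0 : 0 < t := hc.trans_le ht
    rw [abs_neg, abs_of_pos (by positivity)]
    exact one_div_le_one_div_of_le (by positivity) (by gcongr)

/-- quotients by the amplitude -/
theorem Amp.kpQuot {s : Pos3 → ℝ} {gs : Pos3 → Pos3} (hs : Amp s gs) {f : Pos3 → ℝ}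
    {g : Pos3 → Pos3} (hf : H1 f g) :
    WG univ (fun x => f x / s x) (fun x => (1 / s x) • g x - (f x / s x ^ 2) • gs x) := by
  have hcont : Continuous fun x => 1 / s x :=
    continuous_const.div hs.cont fun x => (hs.pos x).ne'
  have hcont2 : Continuous fun x => -(1 / s x ^ 2) :=
    (continuous_const.div (hs.cont.pow 2) fun x => pow_ne_zero _ (hs.pos x).ne').neg
  have h1 : LocallyIntegrableOn (fun x => f x * (1 / s x)) univ volume := by
    have := (hf.wg.intf).mul_continuousOn hcont.continuousOn isOpen_univ.isLocallyClosed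
    exact this
  have h2 : LocallyIntegrableOn (fun x => f x • ((-(1 / s x ^ 2)) • gs x)) univ volume := by
    have h0 : Integrable (fun x => f x • gs x) := by
      have := hs.h1.memg.smul (p := 2) (q := 2) (r := 1) hf.memf
      exact memLp_one_iff_integrable.1 this
    have h3 : LocallyIntegrableOn (fun x => (-(1 / s x ^ 2)) • (f x • gs x)) univ volume :=
      (h0.locallyIntegrable.locallyIntegrableOn univ).continuousOn_smul
        isOpen_univ.isLocallyClosed hcont2.continuousOn
    refine LocallyIntegrableOn.congr ?_ h3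
    exact Eventually.of_forall fun x => smul_comm _ _ _
  have h3 : LocallyIntegrableOn (fun x => (1 / s x) • g x) univ volume :=
    (hf.wg.intg).continuousOn_smul isOpen_univ.isLocallyClosed hcont.continuousOn
  have := WG.mul isOpen_univ hf.wg hs.kpInv h1 h2 h3
  refine WG.congr isOpen_univ this (Eventually.of_forall fun x => ?_)
    (Eventually.of_forall fun x => ?_)
  · simp only [mul_one_div]
  · simp only [smul_smul]
    rw [sub_eq_add_neg, add_comm, ← neg_smul]
    congr 2
    ring

end Crest.Agent.R335
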