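import Crest.Agent.R335.KPosBase

/-!
Row 335 (S0521), Kohn-Sham side: the equations of `w/s = cos η` and `U/s = sin η`.
-/

set_option autoImplicit false
set_option linter.unusedVariables false

open MeasureTheory Filter Set Crest.MathPhysics.ThreeBody
open scoped ENNReal Topology ContDiff

noncomputable section
namespace Crest.Agent.R335

/-- the test function `A φ / s` -/
theorem KP.testfun {s A : Pos3 → ℝ} {gs gA : Pos3 → Pos3} (hs : Amp s gs) (hA : H1 A gA)
    (hAs : ∀ x, |A x| ≤ s x) {φ : Pos3 → ℝ} {gφ : Pos3 → Pos3} (hφ : BT φ gφ) :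
    BT (fun x => φ x * A x / s x)
      (fun x => (1 / s x) • (φ x • gA x + A x • gφ x) - (φ x * A x / s x ^ 2) • gs x) := by
  obtain ⟨C, hC0, hC⟩ := hs.kpUpper
  have h1 : BT (fun x => φ x * A x) (fun x => φ x • gA x + A x • gφ x) :=
    BT.mul hφ hA ⟨C, Eventually.of_forall fun x => (hAs x).trans ((le_abs_self _).trans (hC x))⟩
  obtain ⟨c, hc, hlow⟩ := hφ.kpLow hs
  refine BT.div h1 hs.h1 ⟨C, Eventually.of_forall hC⟩ hc ?_
  filter_upwards [hlow] with x hx hne
  rw [abs_of_pos (hs.pos x)]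
  exact hx (left_ne_zero_of_mul hne)

/-- integrability of `(A/s) ⟨J, gφ⟩` -/
theorem KP.int1 {s U w A : Pos3 → ℝ} {gs gU gw gA : Pos3 → Pos3} (hs : Amp s gs)
    (hp : PairAdm s U gU w gw) (hA : H1 A gA)
    (hAs : ∀ x, |A x| ≤ s x) {gφ : Pos3 → Pos3} (hφ : MemLp gφ 2 volume) :
    Integrable (fun x => (A x / s x) * inner ℝ (J U gU w gw x) (gφ x)) := by
  refine KP.bdd_mul (KP.integrable_inner (hp.kpJ2 hs) hφ)
    (hA.memf.1.aemeasurable.div hs.cont.measurable.aemeasurable).aestronglyMeasurable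
    (C := 1) (Eventually.of_forall fun x => ?_)
  rw [abs_div, abs_of_pos (hs.pos x)]
  exact (div_le_one (hs.pos x)).2 (hAs x)

/-- integrability of `(A/s³) ‖J‖² φ` -/
theorem KP.int2 {s U w A : Pos3 → ℝ} {gs gU gw gA : Pos3 → Pos3} (hs : Amp s gs)
    (hp : PairAdm s U gU w gw) (hA : H1 A gA)
    (hAs : ∀ x, |A x| ≤ s x) {φ : Pos3 → ℝ} {gφ : Pos3 → Pos3} (hφ : BT φ gφ) :
    Integrable (fun x => A x / s x ^ 3 * ‖J U gU w gw x‖ ^ 2 * φ x) := by
  obtain ⟨D, hD⟩ := hφ.bdd
  have h1 : Integrable (fun x => (A x / s x) * (‖J U gU w gw x‖ ^ 2 / s x ^ 2)) := by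
    refine KP.bdd_mul (hp.kpJi hs)
      (hA.memf.1.aemeasurable.div hs.cont.measurable.aemeasurable).aestronglyMeasurable
      (C := 1) (Eventually.of_forall fun x => ?_)
    rw [abs_div, abs_of_pos (hs.pos x)]
    exact (div_le_one (hs.pos x)).2 (hAs x)
  have h2 := KP.bdd_mul h1 hφ.h1.memf.1 hD
  refine h2.congr (Eventually.of_forall fun x => ?_)
  have hsx := (hs.pos x).ne'
  simp only
  field_simp

/-- integrability of `A B D φ / s` for three functions bounded by `s` -/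
theorem KP.int3 {s A B D : Pos3 → ℝ} {gs : Pos3 → Pos3} (hs : Amp s gs)
    (hAm : AEStronglyMeasurable A volume) (hBm : AEStronglyMeasurable B volume)
    (hDm : AEStronglyMeasurable D volume)
    (hA : ∀ x, |A x| ≤ s x) (hB : ∀ x, |B x| ≤ s x) (hD : ∀ x, |D x| ≤ s x)
    {φ : Pos3 → ℝ} {gφ : Pos3 → Pos3} (hφ : BT φ gφ) :
    Integrable (fun x => A x * B x * D x / s x * φ x) := by
  obtain ⟨C, hC⟩ := hφ.bdd
  have h0 := (KP.integrable_sq hs.h1.memf).const_mul C
  refine h0.mono' ((((hAm.mul hBm).mul hDm).aemeasurable.div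
    hs.cont.measurable.aemeasurable).aestronglyMeasurable.mul hφ.h1.memf.1) ?_
  filter_upwards [hC] with x hx
  have hsx := hs.pos x
  rw [Real.norm_eq_abs, abs_mul, abs_div, abs_mul, abs_mul, abs_of_pos hsx]
  have h1 : |A x| * |B x| * |D x| / s x ≤ s x ^ 2 := by
    rw [div_le_iff₀ hsx]
    have := mul_le_mul (mul_le_mul (hA x) (hB x) (abs_nonneg _) hsx.le) (hD x) (abs_nonneg _)
      (mul_nonneg hsx.le hsx.le)
    nlinarith
  calc |A x| * |B x| * |D x| / s x * |φ x| ≤ s x ^ 2 * C :=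
        mul_le_mul h1 hx (abs_nonneg _) (sq_nonneg _)
    _ = C * s x ^ 2 := mul_comm _ _

theorem cos_eq {s U w : Pos3 → ℝ} {gs gU gw : Pos3 → Pos3} {om : ℝ} (hs : Amp s gs)
    (hp : Pair s U gU w gw om) {φ : Pos3 → ℝ} {gφ : Pos3 → Pos3} (hφ : BT φ gφ) :
    ∫ x, - (U x / s x) * inner ℝ (J U gU w gw x) (gφ x) =
      ∫ x, (2 * om * U x ^ 2 * w x / s x + w x / s x ^ 3 * ‖J U gU w gw x‖ ^ 2) * φ x := by
  have ha := hp.adm
  have hel := hp.el _ _ (KP.testfun hs ha.hU (ha.kpU_le hs) hφ)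
  have i1 := KP.int1 hs ha ha.hU (ha.kpU_le hs) hφ.h1.memg
  have i2 := KP.int2 hs ha ha.hw (ha.kpw_le hs) hφ
  have i3 := KP.int3 hs ha.kpMU ha.kpMU ha.kpMw (ha.kpU_le hs) (ha.kpU_le hs)
    (ha.kpw_le hs) hφ
  have e1 : (fun x => inner ℝ (J U gU w gw x)
      ((1 / s x) • (φ x • gU x + U x • gφ x) - (φ x * U x / s x ^ 2) • gs x)) =ᵐ[volume]
      fun x => (U x / s x) * inner ℝ (J U gU w gw x) (gφ x) +
        w x / s x ^ 3 * ‖J U gU w gw x‖ ^ 2 * φ x := by
    filter_upwards [pair_grad hs ha] with x hx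
    have hsx := (hs.pos x).ne'
    have hsq := ha.sq x
    have hgs : inner ℝ (J U gU w gw x) (s x • gs x) =
        inner ℝ (J U gU w gw x) (U x • gU x + w x • gw x) := by rw [hx.1]
    have hJ : ‖J U gU w gw x‖ ^ 2 = w x * inner ℝ (J U gU w gw x) (gU x) -
        U x * inner ℝ (J U gU w gw x) (gw x) := by
      rw [← real_inner_self_eq_norm_sq]
      conv_lhs => rw [show J U gU w gw x = w x • gU x - U x • gw x from rfl]
      rw [← inner_smul_right, ← inner_smul_right, ← inner_sub_right]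
      rfl
    rw [inner_sub_right, inner_smul_right, inner_add_right, inner_smul_right, inner_smul_right,
      inner_smul_right, hJ]
    rw [inner_smul_right, inner_add_right, inner_smul_right, inner_smul_right] at hgs
    set a := inner ℝ (J U gU w gw x) (gU x)
    set b := inner ℝ (J U gU w gw x) (gw x)
    set e := inner ℝ (J U gU w gw x) (gs x)
    set d := inner ℝ (J U gU w gw x) (gφ x)
    have he : e = (U x * a + w x * b) / s x := by
      rw [eq_div_iff hsx]; linarith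
    rw [he]
    field_simp
    rw [← hsq]
    ring
  have e2 : ∫ x, inner ℝ (J U gU w gw x)
      ((1 / s x) • (φ x • gU x + U x • gφ x) - (φ x * U x / s x ^ 2) • gs x) =
      (∫ x, (U x / s x) * inner ℝ (J U gU w gw x) (gφ x)) +
        ∫ x, w x / s x ^ 3 * ‖J U gU w gw x‖ ^ 2 * φ x := by
    rw [integral_congr_ae e1, integral_add i1 i2]
  have e3 : ∫ x, - (U x / s x) * inner ℝ (J U gU w gw x) (gφ x) =
      - ∫ x, (U x / s x) * inner ℝ (J U gU w gw x) (gφ x) := by
    rw [← integral_neg]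
    congr 1
    ext x
    ring
  have e4 : ∫ x, (2 * om * U x ^ 2 * w x / s x + w x / s x ^ 3 * ‖J U gU w gw x‖ ^ 2) * φ x =
      2 * om * (∫ x, U x * w x * (φ x * U x / s x)) +
        ∫ x, w x / s x ^ 3 * ‖J U gU w gw x‖ ^ 2 * φ x := by
    rw [← integral_const_mul]
    rw [← integral_add]
    · congr 1
      ext x
      ring
    · refine (i3.const_mul (2 * om)).congr (Eventually.of_forall fun x => ?_)
      simp only
      ring
    · exact i2
  rw [e3, e4]
  linarith

theorem sin_eq {s U w : Pos3 → ℝ} {gs gU gw : Pos3 → Pos3} {om : ℝ} (hs : Amp s gs)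
    (hp : Pair s U gU w gw om) {φ : Pos3 → ℝ} {gφ : Pos3 → Pos3} (hφ : BT φ gφ) :
    ∫ x, (w x / s x) * inner ℝ (J U gU w gw x) (gφ x) =
      - ∫ x, (2 * om * U x * w x ^ 2 / s x - U x / s x ^ 3 * ‖J U gU w gw x‖ ^ 2) * φ x := by
  have ha := hp.adm
  have hel := hp.el _ _ (KP.testfun hs ha.hw (ha.kpw_le hs) hφ)
  have i1 := KP.int1 hs ha ha.hw (ha.kpw_le hs) hφ.h1.memg
  have i2 := KP.int2 hs ha ha.hU (ha.kpU_le hs) hφ
  have i3 := KP.int3 hs ha.kpMU ha.kpMw ha.kpMw (ha.kpU_le hs) (ha.kpw_le hs)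
    (ha.kpw_le hs) hφ
  have e1 : (fun x => inner ℝ (J U gU w gw x)
      ((1 / s x) • (φ x • gw x + w x • gφ x) - (φ x * w x / s x ^ 2) • gs x)) =ᵐ[volume]
      fun x => (w x / s x) * inner ℝ (J U gU w gw x) (gφ x) -
        U x / s x ^ 3 * ‖J U gU w gw x‖ ^ 2 * φ x := by
    filter_upwards [pair_grad hs ha] with x hx
    have hsx := (hs.pos x).ne'
    have hsq := ha.sq x
    have hgs : inner ℝ (J U gU w gw x) (s x • gs x) =
        inner ℝ (J U gU w gw x) (U x • gU x + w x • gw x) := by rw [hx.1]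
    have hJ : ‖J U gU w gw x‖ ^ 2 = w x * inner ℝ (J U gU w gw x) (gU x) -
        U x * inner ℝ (J U gU w gw x) (gw x) := by
      rw [← real_inner_self_eq_norm_sq]
      conv_lhs => rw [show J U gU w gw x = w x • gU x - U x • gw x from rfl]
      rw [← inner_smul_right, ← inner_smul_right, ← inner_sub_right]
      rfl
    rw [inner_sub_right, inner_smul_right, inner_add_right, inner_smul_right, inner_smul_right,
      inner_smul_right, hJ]
    rw [inner_smul_right, inner_add_right, inner_smul_right, inner_smul_right] at hgs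
    set a := inner ℝ (J U gU w gw x) (gU x)
    set b := inner ℝ (J U gU w gw x) (gw x)
    set e := inner ℝ (J U gU w gw x) (gs x)
    set d := inner ℝ (J U gU w gw x) (gφ x)
    have he : e = (U x * a + w x * b) / s x := by
      rw [eq_div_iff hsx]; linarith
    rw [he]
    field_simp
    rw [← hsq]
    ring
  have e2 : ∫ x, inner ℝ (J U gU w gw x)
      ((1 / s x) • (φ x • gw x + w x • gφ x) - (φ x * w x / s x ^ 2) • gs x) =
      (∫ x, (w x / s x) * inner ℝ (J U gU w gw x) (gφ x)) -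
        ∫ x, U x / s x ^ 3 * ‖J U gU w gw x‖ ^ 2 * φ x := by
    rw [integral_congr_ae e1, integral_sub i1 i2]
  have e4 : ∫ x, (2 * om * U x * w x ^ 2 / s x - U x / s x ^ 3 * ‖J U gU w gw x‖ ^ 2) * φ x =
      2 * om * (∫ x, U x * w x * (φ x * w x / s x)) -
        ∫ x, U x / s x ^ 3 * ‖J U gU w gw x‖ ^ 2 * φ x := by
    rw [← integral_const_mul]
    rw [← integral_sub]
    · congr 1
      ext x
      ring
    · refine (i3.const_mul (2 * om)).congr (Eventually.of_forall fun x => ?_)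
      simp only
      ring
    · exact i2
  rw [e4]
  linarith

end Crest.Agent.R335
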