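import Crest.Agent.R335.HWeak
import Crest.Agent.R335.HGlob
import Crest.Agent.R335.HPoin

/-!
# Row 335: Rellich compactness (module KRellich)

`rellich_ball` : weak convergence (averages on sets of finite measure) of an `H¹`-bounded family implies
strong convergence in `L²` of balls. Proof: Poincaré's inequality on the cells of a fine lattice.

`exists_limit` : an `H¹`-bounded sequence dominated by a fixed `L²` function has an `L²` limit in `H¹`
along the hyperfilter.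
-/

set_option autoImplicit false
set_option linter.unusedSectionVars false

open MeasureTheory Filter Set
open scoped ENNReal Topology ContDiff

noncomputable section
namespace Crest.Agent.R335

variable {ι : Type*} [Fintype ι] [DecidableEq ι]

local notation "E" => EuclideanSpace ℝ ι

/-- lattice cell of `x` -/
def cell (a : ℝ) (x : EuclideanSpace ℝ ι) (i : ι) : ℤ := ⌊x i / a⌋

theorem measurable_cell (a : ℝ) : Measurable (cell (ι := ι) a) := by
  unfold cell
  refine measurable_pi_lambda _ fun i => ?_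
  have h1 : Measurable fun x : E => x i / a := by fun_prop
  exact Int.measurable_floor.comp h1

theorem measurableSet_cell (a : ℝ) (k : ι → ℤ) : MeasurableSet (cell (ι := ι) a ⁻¹' {k}) :=
  measurable_cell a (measurableSet_singleton k)

theorem ae_coord_ne (i : ι) (c : ℝ) : ∀ᵐ x : E, x i ≠ c := by
  have h1 := Measure.ae_eval_ne (μ := fun _ : ι => (volume : Measure ℝ)) i c
  have h2 := (PiLp.volume_preserving_ofLp ι).quasiMeasurePreserving.ae h1
  exact h2

/-- the cell is the open cube up to a null set -/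
theorem cell_ae_eq {a : ℝ} (ha : 0 < a) (k : ι → ℤ) :
    (cell (ι := ι) a ⁻¹' {k}) =ᵐ[volume]
      {x : E | ∀ i, a * (k i : ℝ) < x i ∧ x i < a * (k i : ℝ) + a} := by
  have h : ∀ᵐ x : E, ∀ i, x i ≠ a * (k i : ℝ) := by
    rw [ae_all_iff]
    intro i
    exact ae_coord_ne i _
  filter_upwards [h] with x hx
  have e : (x ∈ cell (ι := ι) a ⁻¹' {k}) ↔
      x ∈ {x : E | ∀ i, a * (k i : ℝ) < x i ∧ x i < a * (k i : ℝ) + a} := by
    simp only [mem_preimage, mem_singleton_iff, mem_ofPred_eq, funext_iff, cell]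
    refine forall_congr' fun i => ?_
    rw [Int.floor_eq_iff, le_div_iff₀ ha, div_lt_iff₀ ha]
    constructor
    · rintro ⟨h1, h2⟩
      refine ⟨lt_of_le_of_ne (by linarith) (Ne.symm (hx i)), by linarith⟩
    · rintro ⟨h1, h2⟩
      exact ⟨by linarith, by linarith⟩
  exact propext e

/-- Poincaré on a cell -/
theorem poincare_cell {f : E → ℝ} {g : E → E} (h : H1 f g) {a : ℝ} (ha : 0 < a) (k : ι → ℤ) :
    ∫ x in cell (ι := ι) a ⁻¹' {k}, f x ^ 2 ≤
      (Fintype.card ι : ℝ) * a ^ 2 * (∫ x in cell (ι := ι) a ⁻¹' {k}, ‖g x‖ ^ 2) +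
      a⁻¹ ^ (Fintype.card ι) * (∫ x in cell (ι := ι) a ⁻¹' {k}, f x) ^ 2 := by
  have e := Measure.restrict_congr_set (μ := (volume : Measure E)) (cell_ae_eq (ι := ι) ha k)
  rw [e]
  have h1 := poincare_cube (ι := ι) isOpen_univ h.wg (fun K _ _ => h.memf.restrict K)
    (fun K _ _ => h.memg.restrict K) (WithLp.toLp 2 fun i => a * (k i : ℝ)) ha (subset_univ _)
  exact h1

theorem integrable_sq {f : E → ℝ} (hf : MemLp f 2 volume) : Integrable fun x => f x ^ 2 :=
  hf.integrable_sq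

theorem integrable_norm_sq {g : E → E} (hg : MemLp g 2 volume) : Integrable fun x => ‖g x‖ ^ 2 := by
  have := hg.norm
  exact this.integrable_sq

theorem integrable_norm_sq' {f : E → ℝ} (hf : MemLp f 2 volume) : Integrable fun x => ‖f x‖ ^ 2 := by
  have := hf.norm
  exact this.integrable_sq

/-- Poincaré on a finite union of cells -/
theorem poincare_cells {f : E → ℝ} {g : E → E} (h : H1 f g) {a : ℝ} (ha : 0 < a)
    (S : Finset (ι → ℤ)) :
    ∫ x in ⋃ k ∈ S, cell (ι := ι) a ⁻¹' {k}, f x ^ 2 ≤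
      (Fintype.card ι : ℝ) * a ^ 2 * (∫ x, ‖g x‖ ^ 2) +
      a⁻¹ ^ (Fintype.card ι) * ∑ k ∈ S, (∫ x in cell (ι := ι) a ⁻¹' {k}, f x) ^ 2 := by
  have hd : Set.Pairwise (↑S) (Function.onFun Disjoint fun k => cell (ι := ι) a ⁻¹' {k}) := by
    intro k _ k' _ hkk
    exact Disjoint.preimage _ (by simpa using hkk)
  rw [integral_biUnion_finset S (fun k _ => measurableSet_cell a k) hd
    (fun k _ => (integrable_sq h.memf).integrableOn)]
  have h2 : ∑ k ∈ S, (∫ x in cell (ι := ι) a ⁻¹' {k}, ‖g x‖ ^ 2) ≤ ∫ x, ‖g x‖ ^ 2 := by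
    rw [← integral_biUnion_finset S (fun k _ => measurableSet_cell a k) hd
      (fun k _ => (integrable_norm_sq h.memg).integrableOn)]
    exact setIntegral_le_integral (integrable_norm_sq h.memg)
      (Eventually.of_forall fun x => by positivity)
  calc ∑ k ∈ S, ∫ x in cell (ι := ι) a ⁻¹' {k}, f x ^ 2
      ≤ ∑ k ∈ S, ((Fintype.card ι : ℝ) * a ^ 2 * (∫ x in cell (ι := ι) a ⁻¹' {k}, ‖g x‖ ^ 2) +
          a⁻¹ ^ (Fintype.card ι) * (∫ x in cell (ι := ι) a ⁻¹' {k}, f x) ^ 2) :=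
        Finset.sum_le_sum fun k _ => poincare_cell h ha k
    _ = (Fintype.card ι : ℝ) * a ^ 2 * (∑ k ∈ S, ∫ x in cell (ι := ι) a ⁻¹' {k}, ‖g x‖ ^ 2) +
          a⁻¹ ^ (Fintype.card ι) * ∑ k ∈ S, (∫ x in cell (ι := ι) a ⁻¹' {k}, f x) ^ 2 := by
        rw [Finset.sum_add_distrib, Finset.mul_sum, Finset.mul_sum]
    _ ≤ _ := by
        have : 0 ≤ (Fintype.card ι : ℝ) * a ^ 2 := by positivity
        gcongr

/-- balls are covered by finitely many cells -/
theorem ball_subset_cells (a R : ℝ) (ha : 0 < a) : ∃ S : Finset (ι → ℤ),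
    {x : E | ‖x‖ ≤ R} ⊆ ⋃ k ∈ S, cell (ι := ι) a ⁻¹' {k} := by
  refine ⟨Fintype.piFinset fun _ => Finset.Icc ⌊-R / a⌋ ⌊R / a⌋, fun x hx => ?_⟩
  simp only [mem_iUnion, mem_preimage, mem_singleton_iff, exists_prop, exists_eq_right']
  rw [Fintype.mem_piFinset]
  intro i
  have h1 : |x i| ≤ ‖x‖ := by
    have := PiLp.norm_apply_le x i
    simpa using this
  have h2 : |x i| ≤ R := h1.trans hx
  have h3 := abs_le.1 h2
  rw [Finset.mem_Icc]
  exact ⟨Int.floor_le_floor (by gcongr; exact h3.1), Int.floor_le_floor (by gcongr; exact h3.2)⟩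

theorem volume_cell_lt_top {a : ℝ} (ha : 0 < a) (k : ι → ℤ) :
    volume (cell (ι := ι) a ⁻¹' {k}) < ⊤ := by
  have hb : Bornology.IsBounded (cell (ι := ι) a ⁻¹' {k}) := by
    rw [isBounded_iff_forall_norm_le]
    refine ⟨Real.sqrt (∑ i, (|a * (k i : ℝ)| + a) ^ 2), fun x hx => ?_⟩
    rw [EuclideanSpace.norm_eq]
    apply Real.sqrt_le_sqrt
    refine Finset.sum_le_sum fun i _ => ?_
    have h1 : ⌊x i / a⌋ = k i := by
      have := congrFun (show cell a x = k from hx) i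
      exact this
    rw [Int.floor_eq_iff, le_div_iff₀ ha, div_lt_iff₀ ha] at h1
    have h2 : |x i| ≤ |a * (k i : ℝ)| + a := by
      rw [abs_le]
      have h3 := neg_abs_le (a * (k i : ℝ))
      have h4 := le_abs_self (a * (k i : ℝ))
      constructor <;> linarith [h1.1, h1.2]
    rw [Real.norm_eq_abs]
    exact pow_le_pow_left₀ (abs_nonneg _) h2 2
  exact hb.measure_lt_top

theorem sq_norm_sub_le {F : Type*} [NormedAddCommGroup F] (u v : F) :
    ‖u - v‖ ^ 2 ≤ 2 * ‖u‖ ^ 2 + 2 * ‖v‖ ^ 2 := by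
  have h1 := norm_sub_le u v
  have h2 : ‖u - v‖ ^ 2 ≤ (‖u‖ + ‖v‖) ^ 2 := pow_le_pow_left₀ (norm_nonneg _) h1 2
  nlinarith [sq_nonneg (‖u‖ - ‖v‖)]

/-- Rellich on balls -/
theorem rellich_ball {α : Type*} {l : Filter α} {fn : α → E → ℝ} {gn : α → E → E} {f : E → ℝ}
    {g : E → E} (h : ∀ n, H1 (fn n) (gn n)) (hf : H1 f g) {C : ℝ}
    (hC : ∀ n, ∫ x, ‖gn n x‖ ^ 2 ≤ C)
    (hw : ∀ A : Set E, MeasurableSet A → volume A < ⊤ →
      Tendsto (fun n => ∫ x in A, fn n x) l (𝓝 (∫ x in A, f x))) (R : ℝ) :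
    Tendsto (fun n => ∫ x in {x : E | ‖x‖ ≤ R}, (fn n x - f x) ^ 2) l (𝓝 0) := by
  set C' : ℝ := 2 * C + 2 * ∫ x, ‖g x‖ ^ 2 with hC'
  have hsub : ∀ n, H1 (fun x => fn n x - f x) (fun x => gn n x - g x) := fun n => H1.sub (h n) hf
  have hG : ∀ n, ∫ x, ‖gn n x - g x‖ ^ 2 ≤ C' := by
    intro n
    calc ∫ x, ‖gn n x - g x‖ ^ 2 ≤ ∫ x, (2 * ‖gn n x‖ ^ 2 + 2 * ‖g x‖ ^ 2) :=
          integral_mono (integrable_norm_sq (hsub n).memg)
            (((integrable_norm_sq (h n).memg).const_mul 2).add ((integrable_norm_sq hf.memg).const_mul 2))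
            fun x => sq_norm_sub_le _ _
      _ = 2 * (∫ x, ‖gn n x‖ ^ 2) + 2 * ∫ x, ‖g x‖ ^ 2 := by
          rw [integral_add ((integrable_norm_sq (h n).memg).const_mul 2)
            ((integrable_norm_sq hf.memg).const_mul 2), integral_const_mul, integral_const_mul]
      _ ≤ C' := by rw [hC']; linarith [hC n]
  rcases isEmpty_or_nonempty α with he | hne
  · have : l = ⊥ := Filter.filter_eq_bot_of_isEmpty l
    rw [this]; exact tendsto_bot
  obtain ⟨n0⟩ := hne
  have hC0 : 0 ≤ C' := (integral_nonneg fun x => by positivity).trans (hG n0)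
  rw [Metric.tendsto_nhds]
  intro ε hε
  -- choose the mesh
  set d : ℝ := (Fintype.card ι : ℝ) with hd
  obtain ⟨a, ha, ha2⟩ : ∃ a : ℝ, 0 < a ∧ d * a ^ 2 * C' ≤ ε / 2 := by
    refine ⟨min 1 (ε / (2 * (d * C' + 1))), by positivity, ?_⟩
    set a := min 1 (ε / (2 * (d * C' + 1))) with ha
    have h0 : 0 < a := by positivity
    have h1 : a ≤ 1 := min_le_left _ _
    have h2 : a ≤ ε / (2 * (d * C' + 1)) := min_le_right _ _
    have h3 : a ^ 2 ≤ a := by nlinarith
    have hdC : 0 ≤ d * C' := by positivity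
    calc d * a ^ 2 * C' = d * C' * a ^ 2 := by ring
      _ ≤ (d * C' + 1) * a := by nlinarith
      _ ≤ (d * C' + 1) * (ε / (2 * (d * C' + 1))) := by gcongr
      _ = ε / 2 := by field_simp
  obtain ⟨S, hS⟩ := ball_subset_cells (ι := ι) a R ha
  have hlim : Tendsto (fun n => a⁻¹ ^ (Fintype.card ι) *
      ∑ k ∈ S, (∫ x in cell (ι := ι) a ⁻¹' {k}, (fn n x - f x)) ^ 2) l (𝓝 0) := by
    have h0 : (0 : ℝ) = a⁻¹ ^ (Fintype.card ι) * ∑ k ∈ S, (0 : ℝ) ^ 2 := by simp
    rw [h0]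
    refine (tendsto_finsetSum S fun k _ => ?_).const_mul _
    refine Tendsto.pow ?_ 2
    have h1 := hw _ (measurableSet_cell a k) (volume_cell_lt_top ha k)
    have h2 := h1.sub_const (∫ x in cell (ι := ι) a ⁻¹' {k}, f x)
    rw [sub_self] at h2
    refine h2.congr fun n => ?_
    have : IsFiniteMeasure (volume.restrict (cell (ι := ι) a ⁻¹' {k})) :=
      ⟨by rw [Measure.restrict_apply_univ]; exact volume_cell_lt_top ha k⟩
    rw [integral_sub (((h n).memf.restrict _).integrable (by norm_num))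
      ((hf.memf.restrict _).integrable (by norm_num))]
  filter_upwards [(Metric.tendsto_nhds.1 hlim) (ε / 2) (by positivity)] with n hn
  have hI : Integrable fun x => (fn n x - f x) ^ 2 := integrable_sq (hsub n).memf
  have h1 : ∫ x in {x : E | ‖x‖ ≤ R}, (fn n x - f x) ^ 2 ≤
      ∫ x in ⋃ k ∈ S, cell (ι := ι) a ⁻¹' {k}, (fn n x - f x) ^ 2 :=
    setIntegral_mono_set hI.integrableOn (Eventually.of_forall fun x => by positivity)
      (LE.le.eventuallyLE hS)
  have h2 := poincare_cells (hsub n) ha S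
  have h3 : 0 ≤ ∫ x in {x : E | ‖x‖ ≤ R}, (fn n x - f x) ^ 2 :=
    integral_nonneg fun x => by positivity
  rw [Real.dist_eq, sub_zero] at hn ⊢
  have h4 := le_abs_self (a⁻¹ ^ (Fintype.card ι) *
      ∑ k ∈ S, (∫ x in cell (ι := ι) a ⁻¹' {k}, (fn n x - f x)) ^ 2)
  have h5 : d * a ^ 2 * (∫ x, ‖gn n x - g x‖ ^ 2) ≤ d * a ^ 2 * C' := by
    have : 0 ≤ d * a ^ 2 := by positivity
    exact mul_le_mul_of_nonneg_left (hG n) this
  rw [abs_of_nonneg h3]
  linarith

theorem abs_le_of_weak {l : Filter ℕ} [l.NeBot] {fn : ℕ → E → ℝ} {f s : E → ℝ}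
    (h : ∀ n, MemLp (fn n) 2 volume) (hf : MemLp f 2 volume) (hs : MemLp s 2 volume)
    (hdom : ∀ n, ∀ᵐ x, |fn n x| ≤ s x)
    (hw : ∀ A : Set E, MeasurableSet A → volume A < ⊤ →
      Tendsto (fun n => ∫ x in A, fn n x) l (𝓝 (∫ x in A, f x))) :
    ∀ᵐ x, |f x| ≤ s x := by
  have hint : ∀ {k : E → ℝ}, MemLp k 2 volume → ∀ A : Set E, MeasurableSet A → volume A < ⊤ →
      IntegrableOn k A volume := by
    intro k hk A _ hA
    have : IsFiniteMeasure (volume.restrict A) := ⟨by rw [Measure.restrict_apply_univ]; exact hA⟩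
    exact (hk.restrict A).integrable (by norm_num)
  have h1 : 0 ≤ᵐ[volume] fun x => s x - f x := by
    refine ae_nonneg_of_forall_setIntegral_nonneg_of_sigmaFinite
      (fun A hA hA2 => (hint hs A hA hA2).sub (hint hf A hA hA2)) fun A hA hA2 => ?_
    rw [integral_sub (hint hs A hA hA2) (hint hf A hA hA2), sub_nonneg]
    refine le_of_tendsto (hw A hA hA2) (Eventually.of_forall fun n => ?_)
    refine setIntegral_mono_ae (hint (h n) A hA hA2) (hint hs A hA hA2) ?_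
    filter_upwards [hdom n] with x hx using (abs_le.1 hx).2
  have hsn : MemLp (fun x => -s x) 2 volume := hs.neg
  have h2 : 0 ≤ᵐ[volume] fun x => f x - -s x := by
    refine ae_nonneg_of_forall_setIntegral_nonneg_of_sigmaFinite
      (fun A hA hA2 => (hint hf A hA hA2).sub (hint hsn A hA hA2)) fun A hA hA2 => ?_
    rw [integral_sub (hint hf A hA hA2) (hint hsn A hA hA2), sub_nonneg]
    refine ge_of_tendsto (hw A hA hA2) (Eventually.of_forall fun n => ?_)
    refine setIntegral_mono_ae (hint hsn A hA hA2) (hint (h n) A hA hA2) ?_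
    filter_upwards [hdom n] with x hx using (abs_le.1 hx).1
  filter_upwards [h1, h2] with x hx1 hx2
  simp only [Pi.zero_apply] at hx1 hx2
  exact abs_le.2 ⟨by linarith, by linarith⟩

/-- tails of an `L²` function -/
theorem tendsto_tail {s : E → ℝ} (hs : MemLp s 2 volume) :
    Tendsto (fun R : ℕ => ∫ x in {x : E | ‖x‖ ≤ (R : ℝ)}ᶜ, s x ^ 2) atTop (𝓝 0) := by
  have h1 : ∀ R : ℕ, MeasurableSet {x : E | ‖x‖ ≤ (R : ℝ)}ᶜ := fun R =>
    (measurableSet_le measurable_norm measurable_const).compl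
  have h2 := tendsto_setIntegral_of_antitone (μ := (volume : Measure E)) (f := fun x => s x ^ 2)
    (s := fun R : ℕ => {x : E | ‖x‖ ≤ (R : ℝ)}ᶜ) h1
    (fun R R' hRR x hx => by
      simp only [mem_compl_iff, mem_ofPred_eq, not_le] at hx ⊢
      have : (R : ℝ) ≤ R' := by exact_mod_cast hRR
      linarith)
    ⟨0, (integrable_sq hs).integrableOn⟩
  have h3 : (⋂ R : ℕ, {x : E | ‖x‖ ≤ (R : ℝ)}ᶜ) = ∅ := by
    ext x
    simp only [mem_iInter, mem_compl_iff, mem_ofPred_eq, not_le, mem_empty_iff_false, iff_false,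
      not_forall, not_lt]
    exact exists_nat_ge ‖x‖
  rw [h3] at h2
  simpa using h2

/-- dominated Rellich -/
theorem rellich_dom {l : Filter ℕ} [l.NeBot] {fn : ℕ → E → ℝ} {gn : ℕ → E → E} {f : E → ℝ}
    {g : E → E} (h : ∀ n, H1 (fn n) (gn n)) (hf : H1 f g) {C : ℝ}
    (hC : ∀ n, ∫ x, ‖gn n x‖ ^ 2 ≤ C) {s : E → ℝ} (hs : MemLp s 2 volume)
    (hdom : ∀ n, ∀ᵐ x, |fn n x| ≤ s x)
    (hw : ∀ A : Set E, MeasurableSet A → volume A < ⊤ →
      Tendsto (fun n => ∫ x in A, fn n x) l (𝓝 (∫ x in A, f x))) :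
    Tendsto (fun n => ∫ x, (fn n x - f x) ^ 2) l (𝓝 0) := by
  have hfd := abs_le_of_weak (fun n => (h n).memf) hf.memf hs hdom hw
  rw [Metric.tendsto_nhds]
  intro ε hε
  obtain ⟨R, hR⟩ := ((tendsto_tail hs).eventually (gt_mem_nhds (show (0 : ℝ) < ε / 16 by positivity))).exists
  filter_upwards [(Metric.tendsto_nhds.1 (rellich_ball h hf hC hw R)) (ε / 2) (by positivity)] with n hn
  have hI : Integrable fun x => (fn n x - f x) ^ 2 := integrable_sq (H1.sub (h n) hf).memf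
  have hm : MeasurableSet {x : E | ‖x‖ ≤ (R : ℝ)} := measurableSet_le measurable_norm measurable_const
  have h0 : 0 ≤ ∫ x, (fn n x - f x) ^ 2 := integral_nonneg fun x => by positivity
  have h0' : 0 ≤ ∫ x in {x : E | ‖x‖ ≤ (R : ℝ)}, (fn n x - f x) ^ 2 :=
    integral_nonneg fun x => by positivity
  rw [Real.dist_eq, sub_zero, abs_of_nonneg h0'] at hn
  rw [Real.dist_eq, sub_zero, abs_of_nonneg h0]
  have h1 := integral_add_compl hm hI
  have h2 : ∫ x in {x : E | ‖x‖ ≤ (R : ℝ)}ᶜ, (fn n x - f x) ^ 2 ≤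
      4 * ∫ x in {x : E | ‖x‖ ≤ (R : ℝ)}ᶜ, s x ^ 2 := by
    rw [← integral_const_mul]
    refine setIntegral_mono_ae hI.integrableOn ((integrable_sq hs).const_mul 4).integrableOn ?_
    filter_upwards [hdom n, hfd] with x hx1 hx2
    have h3 := abs_le.1 hx1
    have h4 := abs_le.1 hx2
    show (fn n x - f x) ^ 2 ≤ 4 * s x ^ 2
    nlinarith [h3.1, h3.2, h4.1, h4.2]
  linarith

/-- compactness: a dominated `H¹`-bounded sequence has a limit along the hyperfilter, strongly in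
`L²`, weakly for the gradients -/
theorem exists_limit {fn : ℕ → E → ℝ} {gn : ℕ → E → E} (h : ∀ n, H1 (fn n) (gn n)) {s : E → ℝ}
    (hs : MemLp s 2 volume) (hdom : ∀ n, ∀ᵐ x, |fn n x| ≤ s x) {C : ℝ}
    (hC : ∀ n, ∫ x, ‖gn n x‖ ^ 2 ≤ C) :
    ∃ (f : E → ℝ) (g : E → E), H1 f g ∧
      Tendsto (fun n => ∫ x, (fn n x - f x) ^ 2) (hyperfilter ℕ : Filter ℕ) (𝓝 0) ∧
      ∀ Φ : E → E, MemLp Φ 2 volume →
        Tendsto (fun n => ∫ x, inner ℝ (gn n x) (Φ x)) (hyperfilter ℕ : Filter ℕ)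
          (𝓝 (∫ x, inner ℝ (g x) (Φ x))) := by
  have hC0 : 0 ≤ C := (integral_nonneg fun x => by positivity).trans (hC 0)
  -- weak limits
  let F : ℕ → Lp ℝ 2 (volume : Measure E) := fun n => (h n).memf.toLp (fn n)
  have hF : ∀ n, ‖F n‖ ≤ Real.sqrt (∫ x, s x ^ 2) := by
    intro n
    refine Real.le_sqrt_of_sq_le ?_
    rw [norm_toLp_sq (h n).memf]
    refine integral_mono_ae (integrable_norm_sq' (h n).memf) (integrable_sq hs) ?_
    filter_upwards [hdom n] with x hx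
    show ‖fn n x‖ ^ 2 ≤ s x ^ 2
    rw [Real.norm_eq_abs]
    exact pow_le_pow_left₀ (abs_nonneg _) hx 2
  obtain ⟨f0, -, hlimf⟩ := exists_weak_limit F hF
  let G : ℕ → Lp E 2 (volume : Measure E) := fun n => (h n).memg.toLp (gn n)
  have hG : ∀ n, ‖G n‖ ≤ Real.sqrt C := by
    intro n
    refine Real.le_sqrt_of_sq_le ?_
    rw [norm_toLp_sq (h n).memg]
    exact hC n
  obtain ⟨g0, -, hlimg⟩ := exists_weak_limit G hG
  have hfm : MemLp (f0 : E → ℝ) 2 volume := Lp.memLp f0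
  have hfe : hfm.toLp (f0 : E → ℝ) = f0 := Lp.toLp_coeFn f0 hfm
  have hgm : MemLp (g0 : E → E) 2 volume := Lp.memLp g0
  have hge : hgm.toLp (g0 : E → E) = g0 := Lp.toLp_coeFn g0 hgm
  have wf : ∀ Φ : E → ℝ, MemLp Φ 2 volume →
      Tendsto (fun n => ∫ x, fn n x * Φ x) (hyperfilter ℕ : Filter ℕ) (𝓝 (∫ x, f0 x * Φ x)) := by
    intro Φ hΦ
    have h1 := hlimf (hΦ.toLp Φ)
    have e1 : inner ℝ f0 (hΦ.toLp Φ) = ∫ x, f0 x * Φ x := by
      conv_lhs => rw [← hfe]
      refine (inner_toLp hfm hΦ).trans ?_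
      exact integral_congr_ae (Eventually.of_forall fun x => by simp [mul_comm])
    rw [e1] at h1
    refine h1.congr fun n => ?_
    refine (inner_toLp (h n).memf hΦ).trans ?_
    exact integral_congr_ae (Eventually.of_forall fun x => by simp [mul_comm])
  have wg : ∀ Φ : E → E, MemLp Φ 2 volume →
      Tendsto (fun n => ∫ x, inner ℝ (gn n x) (Φ x)) (hyperfilter ℕ : Filter ℕ)
        (𝓝 (∫ x, inner ℝ (g0 x) (Φ x))) := by
    intro Φ hΦ
    have h1 := hlimg (hΦ.toLp Φ)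
    have e1 : inner ℝ g0 (hΦ.toLp Φ) = ∫ x, inner ℝ (g0 x) (Φ x) := by
      conv_lhs => rw [← hge]
      exact inner_toLp hgm hΦ
    rw [e1] at h1
    exact h1.congr fun n => inner_toLp (h n).memg hΦ
  have hH : H1 (f0 : E → ℝ) (g0 : E → E) := by
    refine ⟨hfm, hgm, ⟨(hfm.locallyIntegrable (by norm_num)).locallyIntegrableOn _,
      (hgm.locallyIntegrable (by norm_num)).locallyIntegrableOn _, fun φ hφ i => ?_⟩⟩
    have hφc : Continuous φ := hφ.smooth.continuous
    have hΦc : Continuous fun x => φ x • (EuclideanSpace.single i (1 : ℝ) : E) := hφc.smul continuous_const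
    have hΦm : MemLp (fun x => φ x • (EuclideanSpace.single i (1 : ℝ) : E)) 2 volume :=
      hΦc.memLp_of_hasCompactSupport hφ.cpt.smul_right
    have hpc : Continuous (pd i φ) := by
      unfold pd
      exact (hφ.smooth.continuous_fderiv (by simp)).clm_apply continuous_const
    have hps : HasCompactSupport (pd i φ) := by
      have h1 := hφ.cpt.fderiv (𝕜 := ℝ)
      exact h1.comp_left (g := fun L : E →L[ℝ] ℝ => L (EuclideanSpace.single i (1 : ℝ))) rfl
    have hpm : MemLp (pd i φ) 2 volume := hpc.memLp_of_hasCompactSupport hps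
    have hinn : ∀ v : E, ∀ x, inner ℝ v (φ x • (EuclideanSpace.single i (1 : ℝ) : E)) = v i * φ x := by
      intro v x
      rw [real_inner_smul_right, EuclideanSpace.inner_single_right]
      simp [mul_comm]
    have h1 := wf _ hpm
    have h2 := (wg _ hΦm).neg
    simp only [hinn] at h2
    refine tendsto_nhds_unique h1 (h2.congr fun n => ?_)
    rw [(h n).wg.ibp φ hφ i]
  refine ⟨f0, g0, hH, ?_, wg⟩
  refine rellich_dom h hH hC hs hdom fun A hA hA2 => ?_
  have h1 := wf (A.indicator fun _ => (1 : ℝ)) (memLp_indicator_const 2 hA 1 (Or.inr hA2.ne))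
  have e : ∀ k : E → ℝ, (∫ x, k x * A.indicator (fun _ => (1 : ℝ)) x) = ∫ x in A, k x := by
    intro k
    rw [← integral_indicator hA]
    refine integral_congr_ae (Eventually.of_forall fun x => ?_)
    by_cases hx : x ∈ A <;> simp [hx]
  simp only [e] at h1
  exact h1

/-- lower semicontinuity along a filter, for two sequences at once -/
theorem energy_lsc {l : Filter ℕ} [l.NeBot] {gn kn : ℕ → E → E} {g k : E → E}
    (hgn : ∀ n, MemLp (gn n) 2 volume) (hkn : ∀ n, MemLp (kn n) 2 volume)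
    (hg : MemLp g 2 volume) (hk : MemLp k 2 volume)
    (h1 : Tendsto (fun n => ∫ x, inner ℝ (gn n x) (g x)) l (𝓝 (∫ x, inner ℝ (g x) (g x))))
    (h2 : Tendsto (fun n => ∫ x, inner ℝ (kn n x) (k x)) l (𝓝 (∫ x, inner ℝ (k x) (k x))))
    {m : ℝ} (hm : Tendsto (fun n => (∫ x, ‖gn n x‖ ^ 2) + ∫ x, ‖kn n x‖ ^ 2) l (𝓝 m)) :
    (∫ x, ‖g x‖ ^ 2) + (∫ x, ‖k x‖ ^ 2) ≤ m := by
  have key : ∀ {a b : E → E}, MemLp a 2 volume → MemLp b 2 volume →
      2 * (∫ x, inner ℝ (a x) (b x)) ≤ (∫ x, ‖a x‖ ^ 2) + ∫ x, ‖b x‖ ^ 2 := by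
    intro a b ha hb
    rw [← integral_const_mul, ← integral_add (integrable_norm_sq ha) (integrable_norm_sq hb)]
    have hab : Integrable fun x => inner ℝ (a x) (b x) := by
      have := L2.integrable_inner (𝕜 := ℝ) (ha.toLp a) (hb.toLp b)
      refine this.congr ?_
      filter_upwards [ha.coeFn_toLp, hb.coeFn_toLp] with x h1 h2
      rw [h1, h2]
    refine integral_mono (hab.const_mul 2) ((integrable_norm_sq ha).add (integrable_norm_sq hb)) fun x => ?_
    have h3 := real_inner_le_norm (a x) (b x)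
    show 2 * inner ℝ (a x) (b x) ≤ ‖a x‖ ^ 2 + ‖b x‖ ^ 2
    nlinarith [sq_nonneg (‖a x‖ - ‖b x‖)]
  have e1 : ∀ {a : E → E}, (∫ x, inner ℝ (a x) (a x)) = ∫ x, ‖a x‖ ^ 2 := by
    intro a
    exact integral_congr_ae (Eventually.of_forall fun x => real_inner_self_eq_norm_sq _)
  rw [e1] at h1 h2
  have h3 := (h1.const_mul 2).add (h2.const_mul 2)
  have h4 := hm.add_const ((∫ x, ‖g x‖ ^ 2) + ∫ x, ‖k x‖ ^ 2)
  have h5 := le_of_tendsto_of_tendsto h3 h4 (Eventually.of_forall fun n => by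
    have h6 := key (hgn n) hg
    have h7 := key (hkn n) hk
    show 2 * (∫ x, inner ℝ (gn n x) (g x)) + 2 * (∫ x, inner ℝ (kn n x) (k x)) ≤
      (∫ x, ‖gn n x‖ ^ 2) + (∫ x, ‖kn n x‖ ^ 2) + ((∫ x, ‖g x‖ ^ 2) + ∫ x, ‖k x‖ ^ 2)
    linarith)
  linarith

end Crest.Agent.R335
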