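import Crest.Agent.R335.KPos

/-!
Row 335 (S0521), Kohn-Sham side: the one-body spectral inequality (`sp_half`, `sp_odd`, `sp_all`).
-/

set_option autoImplicit false
set_option linter.unusedVariables false

open MeasureTheory Filter Set Crest.MathPhysics.ThreeBody
open scoped ENNReal Topology ContDiff

noncomputable section
namespace Crest.Agent.R335

/-! ### Picone inequality for nice functions -/

/-- the weight of the left-hand side: `2 ω U² + ‖J‖²/s²` -/
def kpSpW (s U w : Pos3 → ℝ) (gU gw : Pos3 → Pos3) (om : ℝ) (x : Pos3) : ℝ :=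
  2 * om * U x ^ 2 + ‖J U gU w gw x‖ ^ 2 / s x ^ 2

theorem kpSpW_nonneg {s U w : Pos3 → ℝ} {gU gw : Pos3 → Pos3} {om : ℝ} (hom : 0 < om) (x : Pos3) :
    0 ≤ kpSpW s U w gU gw om x := by
  unfold kpSpW
  positivity

theorem kpSpW_int {s U w : Pos3 → ℝ} {gs gU gw : Pos3 → Pos3} {om : ℝ} (hs : Amp s gs)
    (hp : PairAdm s U gU w gw) : Integrable (kpSpW s U w gU gw om) := by
  have h1 := (KP.integrable_sq hp.hU.memf).const_mul (2 * om)
  refine (h1.add (hp.kpJi hs)).congr (Eventually.of_forall fun x => ?_)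
  simp [kpSpW]

/-- Picone at level `ε` -/
theorem KP.picone_eps {s U w : Pos3 → ℝ} {gs gU gw : Pos3 → Pos3} {om : ℝ} (hs : Amp s gs)
    (hp : Pair s U gU w gw om) {p : Pos3 → ℝ} {gp : Pos3 → Pos3} (hpt : BT p gp)
    (hp0 : ∀ᵐ x : Pos3, x 2 ≤ 0 → p x = 0) {ε : ℝ} (hε : 0 < ε) :
    ∫ x, kpSpW s U w gU gw om x * (kpKw s w x / (kpKw s w x + ε)) * p x ^ 2 ≤
      ∫ x, s x ^ 2 * ‖gp x‖ ^ 2 := by
  have h1 := KP.cos_tested hs hp hpt hp0 hε
  have h2 : ∫ x, kpSpW s U w gU gw om x * (kpKw s w x / (kpKw s w x + ε)) * p x ^ 2 =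
      ∫ x, (2 * om * U x ^ 2 * w x / s x + w x / s x ^ 3 * ‖J U gU w gw x‖ ^ 2) *
      (p x ^ 2 * (1 / (kpKw s w x + ε))) := by
    refine integral_congr_ae ?_
    filter_upwards [hp0] with x hx
    by_cases hx2 : 0 < x 2
    · have hsx := (hs.pos x).ne'
      have hk : kpKw s w x = w x / s x := by
        unfold kpKw
        exact abs_of_nonneg (div_nonneg (hp.w0 x hx2) (hs.pos x).le)
      have hkn := kpKw_nonneg s w x
      have hne : w x / s x + ε ≠ 0 := by
        rw [← hk]; positivity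
      unfold kpSpW
      rw [hk]
      generalize hD : w x / s x + ε = D at hne ⊢
      field_simp
    · rw [hx (not_lt.1 hx2)]
      simp
  rw [h2, ← h1]
  refine integral_mono (KP.tested_int hs hp.adm hpt (kpKw_wg hs hp.adm) (kpKw_nonneg s w)
    (kpGkw_le hs hp.adm) hε) (KP.sg_int hs hpt.h1.memg) fun x => ?_
  have hkx := kpKw_nonneg s w x
  have hpos : 0 < kpKw s w x + ε := by positivity
  simp only
  refine mul_le_mul_of_nonneg_left ?_ (sq_nonneg _)
  rw [inner_sub_right, inner_smul_right, inner_smul_right, real_inner_self_eq_norm_sq]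
  have h3 := abs_real_inner_le_norm (kpGkw s gs w gw x) (gp x)
  have h4 : 2 * p x / (kpKw s w x + ε) * inner ℝ (kpGkw s gs w gw x) (gp x) ≤
      2 * (|p x| / (kpKw s w x + ε) * ‖kpGkw s gs w gw x‖) * ‖gp x‖ := by
    calc 2 * p x / (kpKw s w x + ε) * inner ℝ (kpGkw s gs w gw x) (gp x)
        ≤ |2 * p x / (kpKw s w x + ε) * inner ℝ (kpGkw s gs w gw x) (gp x)| := le_abs_self _
      _ = 2 * (|p x| / (kpKw s w x + ε)) * |inner ℝ (kpGkw s gs w gw x) (gp x)| := by
          rw [abs_mul, abs_div, abs_mul, abs_of_pos hpos, abs_of_pos (two_pos : (0:ℝ) < 2)]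
          ring
      _ ≤ 2 * (|p x| / (kpKw s w x + ε)) * (‖kpGkw s gs w gw x‖ * ‖gp x‖) :=
          mul_le_mul_of_nonneg_left h3 (by positivity)
      _ = _ := by ring
  have h5 : p x ^ 2 / (kpKw s w x + ε) ^ 2 * ‖kpGkw s gs w gw x‖ ^ 2 =
      (|p x| / (kpKw s w x + ε) * ‖kpGkw s gs w gw x‖) ^ 2 := by
    rw [mul_pow, div_pow, sq_abs]
  rw [h5]
  nlinarith [sq_nonneg (|p x| / (kpKw s w x + ε) * ‖kpGkw s gs w gw x‖ - ‖gp x‖)]

theorem kpKw_meas {s U w : Pos3 → ℝ} {gs gU gw : Pos3 → Pos3} (hs : Amp s gs)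
    (hp : PairAdm s U gU w gw) : AEMeasurable (kpKw s w) volume :=
  (KP.aesm_of_wg (kpKw_wg hs hp)).1.aemeasurable

/-- Picone inequality for nice functions supported in the upper half space -/
theorem KP.picone {s U w : Pos3 → ℝ} {gs gU gw : Pos3 → Pos3} {om : ℝ} (hs : Amp s gs)
    (hp : Pair s U gU w gw om) {p : Pos3 → ℝ} {gp : Pos3 → Pos3} (hpt : BT p gp)
    (hp0 : ∀ᵐ x : Pos3, x 2 ≤ 0 → p x = 0) :
    ∫⁻ x, ENNReal.ofReal (kpSpW s U w gU gw om x * p x ^ 2) ≤
      ENNReal.ofReal (∫ x, s x ^ 2 * ‖gp x‖ ^ 2) := by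
  obtain ⟨D, hD⟩ := hpt.bdd
  set F : ℕ → Pos3 → ℝ := fun n x =>
    kpSpW s U w gU gw om x * (kpKw s w x / (kpKw s w x + 1 / ((n : ℝ) + 1))) * p x ^ 2 with hF
  have hnn : ∀ n x, 0 ≤ F n x := fun n x => by
    have h1 := kpSpW_nonneg (s := s) (U := U) (w := w) (gU := gU) (gw := gw) hp.om_pos x
    have h2 := kpKw_nonneg s w x
    simp only [hF]
    positivity
  have hm : ∀ n, AEMeasurable (F n) volume := fun n =>
    (((kpSpW_int hs hp.adm).1.aemeasurable).mul ((kpKw_meas hs hp.adm).div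
      ((kpKw_meas hs hp.adm).add_const _))).mul (hpt.h1.memf.1.aemeasurable.pow_const 2)
  have hint : ∀ n, Integrable (F n) := fun n => by
    refine ((kpSpW_int hs hp.adm (om := om)).const_mul (D ^ 2)).mono' (hm n).aestronglyMeasurable ?_
    filter_upwards [hD] with x hx
    rw [Real.norm_eq_abs, abs_of_nonneg (hnn n x)]
    have h1 := kpSpW_nonneg (s := s) (U := U) (w := w) (gU := gU) (gw := gw) hp.om_pos x
    have h2 := kpKw_nonneg s w x
    have h3 : kpKw s w x / (kpKw s w x + 1 / ((n : ℝ) + 1)) ≤ 1 := by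
      rw [div_le_one (by positivity)]
      have : 0 < 1 / ((n : ℝ) + 1) := by positivity
      linarith
    have h4 : p x ^ 2 ≤ D ^ 2 := by
      rw [← sq_abs (p x)]
      exact pow_le_pow_left₀ (abs_nonneg _) hx 2
    calc F n x ≤ kpSpW s U w gU gw om x * 1 * D ^ 2 := by
          simp only [hF]
          gcongr
      _ = _ := by ring
  have hle : ∀ n, ∫⁻ x, ENNReal.ofReal (F n x) ≤ ENNReal.ofReal (∫ x, s x ^ 2 * ‖gp x‖ ^ 2) := by
    intro n
    rw [← ofReal_integral_eq_lintegral_ofReal (hint n) (Eventually.of_forall (hnn n))]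
    exact ENNReal.ofReal_le_ofReal (KP.picone_eps hs hp hpt hp0 (by positivity))
  have hlim : ∀ᵐ x, Tendsto (fun n => ENNReal.ofReal (F n x)) atTop
      (𝓝 (ENNReal.ofReal (kpSpW s U w gU gw om x * p x ^ 2))) := by
    filter_upwards [hp0, w_pos hs hp] with x h1 h2
    refine (ENNReal.continuous_ofReal.tendsto _).comp ?_
    by_cases hx2 : 0 < x 2
    · have hk : 0 < kpKw s w x := by
        unfold kpKw
        exact abs_pos.2 (div_pos (h2 hx2) (hs.pos x)).ne'
      have h3 : Tendsto (fun n : ℕ => kpKw s w x / (kpKw s w x + 1 / ((n : ℝ) + 1))) atTop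
          (𝓝 (kpKw s w x / (kpKw s w x + 0))) := by
        refine Tendsto.div tendsto_const_nhds (tendsto_const_nhds.add
          tendsto_one_div_add_atTop_nhds_zero_nat) (by rw [add_zero]; exact hk.ne')
      rw [add_zero, div_self hk.ne'] at h3
      have h4 := (h3.const_mul (kpSpW s U w gU gw om x)).mul_const (p x ^ 2)
      rw [mul_one] at h4
      exact h4
    · have h3 : p x = 0 := h1 (not_lt.1 hx2)
      simp only [hF, h3]
      simp
  calc ∫⁻ x, ENNReal.ofReal (kpSpW s U w gU gw om x * p x ^ 2)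
      = ∫⁻ x, liminf (fun n => ENNReal.ofReal (F n x)) atTop := by
        refine lintegral_congr_ae ?_
        filter_upwards [hlim] with x hx
        exact hx.liminf_eq.symm
    _ ≤ liminf (fun n => ∫⁻ x, ENNReal.ofReal (F n x)) atTop :=
        lintegral_liminf_le' fun n => (hm n).ennreal_ofReal
    _ ≤ ENNReal.ofReal (∫ x, s x ^ 2 * ‖gp x‖ ^ 2) := by
        refine (liminf_le_liminf (Eventually.of_forall hle)).trans ?_
        simp

/-! ### general functions on the half space -/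

/-- truncation `t / (1 + c t²)` -/
def kpFtr (c t : ℝ) : ℝ := t / (1 + c * t ^ 2)

theorem kpFtr_hasDeriv {c : ℝ} (hc : 0 ≤ c) (t : ℝ) :
    HasDerivAt (kpFtr c) ((1 - c * t ^ 2) / (1 + c * t ^ 2) ^ 2) t := by
  have hne : 1 + c * t ^ 2 ≠ 0 := by positivity
  have h1 : HasDerivAt (fun t : ℝ => 1 + c * t ^ 2) (c * (2 * t)) t := by
    have := ((hasDerivAt_pow 2 t).const_mul c).const_add 1
    simpa using this
  have h2 := (hasDerivAt_id t).div h1 hne
  have e : (1 * (1 + c * t ^ 2) - id t * (c * (2 * t))) / (1 + c * t ^ 2) ^ 2 =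
      (1 - c * t ^ 2) / (1 + c * t ^ 2) ^ 2 := by
    congr 1
    simp only [id]
    ring
  rw [← e]
  exact h2

theorem kpFtr_contDiff {c : ℝ} (hc : 0 ≤ c) : ContDiff ℝ 1 (kpFtr c) := by
  unfold kpFtr
  refine ContDiff.div contDiff_id (by fun_prop) fun t => ?_
  positivity

theorem kpFtr_deriv_le {c : ℝ} (hc : 0 ≤ c) (t : ℝ) : |deriv (kpFtr c) t| ≤ 1 := by
  rw [(kpFtr_hasDeriv hc t).deriv, abs_div, abs_of_pos (show 0 < (1 + c * t ^ 2) ^ 2 by positivity),
    div_le_one (by positivity), abs_le]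
  have h : 0 ≤ c * t ^ 2 := by positivity
  constructor <;> nlinarith

theorem kpFtr_abs_le {c : ℝ} (hc : 0 ≤ c) (t : ℝ) : |kpFtr c t| ≤ |t| := by
  unfold kpFtr
  rw [abs_div, abs_of_pos (show 0 < 1 + c * t ^ 2 by positivity)]
  refine div_le_self (abs_nonneg _) ?_
  have h : 0 ≤ c * t ^ 2 := by positivity
  linarith

theorem kpFtr_bdd {c : ℝ} (hc : 0 < c) (hc1 : c ≤ 1) (t : ℝ) : |kpFtr c t| ≤ 1 / c := by
  unfold kpFtr
  rw [abs_div, abs_of_pos (show 0 < 1 + c * t ^ 2 by positivity), div_le_div_iff₀ (by positivity)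
    hc]
  have h1 : |t| ≤ 1 + t ^ 2 := by
    rw [← sq_abs t]
    nlinarith [sq_nonneg (|t| - 1), abs_nonneg t]
  nlinarith

theorem KP.half_core {s U w : Pos3 → ℝ} {gs gU gw : Pos3 → Pos3} {om : ℝ} (hs : Amp s gs)
    (hp : Pair s U gU w gw om) {f : Pos3 → ℝ} {g : Pos3 → Pos3} (hf : H1 f g)
    (h0 : ∀ x : Pos3, x 2 ≤ 0 → f x = 0)
    (hfin : MemLp (fun x => s x • kpGq s gs f g x) 2 volume) :
    ∫⁻ x, ENNReal.ofReal (kpSpW s U w gU gw om x * (f x / s x) ^ 2) ≤
      ENNReal.ofReal (∫ x, ‖s x • kpGq s gs f g x‖ ^ 2) := by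
  have hwg : WG univ (fun x => f x / s x) (kpGq s gs f g) := hs.kpQuot hf
  obtain ⟨hqm, hgqm⟩ := KP.aesm_of_wg hwg
  have hgl : L2locV univ (kpGq s gs f g) := by
    intro K hK _
    obtain ⟨R, hR⟩ := hK.isBounded.subset_closedBall (0 : Pos3)
    obtain ⟨c, hc, hlow⟩ := hs.kpLow R
    refine MemLp.of_le_mul (c := 1 / c) (hfin.restrict K) hgqm.restrict ?_
    refine (ae_restrict_iff' hK.measurableSet).2 (Eventually.of_forall fun x hxK => ?_)
    have hxR : ‖x‖ ≤ R := by simpa [Metric.mem_closedBall, dist_zero_right] using hR hxK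
    have h1 := hlow x hxR
    rw [norm_smul, Real.norm_eq_abs, abs_of_pos (hs.pos x), ← mul_assoc]
    have h2 : (1 : ℝ) ≤ 1 / c * s x := by
      rw [one_div, inv_mul_eq_div, le_div_iff₀ hc]
      linarith
    calc ‖kpGq s gs f g x‖ = 1 * ‖kpGq s gs f g x‖ := (one_mul _).symm
      _ ≤ 1 / c * s x * ‖kpGq s gs f g x‖ := mul_le_mul_of_nonneg_right h2 (norm_nonneg _)
  obtain ⟨C, hC0, hcut⟩ := exists_cutoff_ball (ι := Fin 3)
  choose χ hχ hχ01 hχ1 hχ0 hχg using fun n : ℕ => hcut ((n : ℝ) + 1) (by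
    have : (0 : ℝ) ≤ n := Nat.cast_nonneg n
    linarith)
  set c : ℕ → ℝ := fun n => 1 / ((n : ℝ) + 1) with hc
  have hcpos : ∀ n, 0 < c n := fun n => by simp only [hc]; positivity
  have hc1 : ∀ n, c n ≤ 1 := fun n => by
    simp only [hc]
    rw [div_le_one (by positivity)]
    have : (0 : ℝ) ≤ n := Nat.cast_nonneg n
    linarith
  set p : ℕ → Pos3 → ℝ := fun n x => χ n x * kpFtr (c n) (f x / s x) with hpdef
  set gp : ℕ → Pos3 → Pos3 := fun n x =>
    χ n x • (deriv (kpFtr (c n)) (f x / s x) • kpGq s gs f g x) +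
      kpFtr (c n) (f x / s x) • gr (χ n) x with hgp
  have hF : ∀ n, WG univ (fun x => kpFtr (c n) (f x / s x))
      (fun x => deriv (kpFtr (c n)) (f x / s x) • kpGq s gs f g x) := fun n =>
    WG.comp isOpen_univ hwg (kpFtr_contDiff (hcpos n).le) (C := 1) (kpFtr_deriv_le (hcpos n).le)
  have hbt : ∀ n, BT (p n) (gp n) := fun n => by
    refine BT.kpMulWG (BT.kpTest (hχ n)) (hF n) ⟨1 / c n, Eventually.of_forall fun x =>
      kpFtr_bdd (hcpos n) (hc1 n) _⟩ ?_
    intro K hK hKu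
    refine MemLp.of_le_mul (c := 1) (hgl K hK hKu) (KP.aesm_of_wg (hF n)).2.restrict
      (Eventually.of_forall fun x => ?_)
    rw [norm_smul, Real.norm_eq_abs]
    exact mul_le_mul_of_nonneg_right (kpFtr_deriv_le (hcpos n).le _) (norm_nonneg _)
  have hpz : ∀ n, ∀ᵐ x : Pos3, x 2 ≤ 0 → p n x = 0 := fun n =>
    Eventually.of_forall fun x hx => by
      simp only [hpdef, h0 x hx, zero_div, kpFtr, mul_zero]
  -- the energy bound
  set A : ℝ := ∫ x, ‖s x • kpGq s gs f g x‖ ^ 2 with hA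
  set B : ℝ := ∫ x, f x ^ 2 with hB
  have hAi : Integrable (fun x => ‖s x • kpGq s gs f g x‖ ^ 2) := KP.integrable_norm_sq hfin
  have hBi : Integrable (fun x => f x ^ 2) := KP.integrable_sq hf.memf
  have hen : ∀ n : ℕ, ∫ x, s x ^ 2 * ‖gp n x‖ ^ 2 ≤
      (1 + 1 / ((n : ℝ) + 1)) * A + (1 + ((n : ℝ) + 1)) * ((C / ((n : ℝ) + 1)) ^ 2 * B) := by
    intro n
    have hn : (0 : ℝ) < (n : ℝ) + 1 := by positivity
    rw [← integral_const_mul, ← integral_const_mul, ← integral_const_mul, ← integral_add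
      (hAi.const_mul _) ((hBi.const_mul _).const_mul _)]
    refine integral_mono (KP.sg_int hs (hbt n).h1.memg)
      ((hAi.const_mul _).add ((hBi.const_mul _).const_mul _)) fun x => ?_
    simp only [hgp]
    set N : ℝ := (n : ℝ) + 1 with hN
    set a := χ n x • (deriv (kpFtr (c n)) (f x / s x) • kpGq s gs f g x) with ha
    set b := kpFtr (c n) (f x / s x) • gr (χ n) x with hb
    have hsx := hs.pos x
    have h1 : ‖a + b‖ ^ 2 ≤ (1 + 1 / N) * ‖a‖ ^ 2 + (1 + N) * ‖b‖ ^ 2 := by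
      have h2 : ‖a + b‖ ^ 2 ≤ (‖a‖ + ‖b‖) ^ 2 :=
        pow_le_pow_left₀ (norm_nonneg _) (norm_add_le _ _) 2
      have h3 : 2 * ‖a‖ * ‖b‖ ≤ 1 / N * ‖a‖ ^ 2 + N * ‖b‖ ^ 2 := by
        have h4 : 0 ≤ (1 / N) * (‖a‖ - N * ‖b‖) ^ 2 := by positivity
        have h5 : (1 / N) * (‖a‖ - N * ‖b‖) ^ 2 =
            1 / N * ‖a‖ ^ 2 - 2 * ‖a‖ * ‖b‖ + N * ‖b‖ ^ 2 := by
          field_simp
          ring
        linarith
      nlinarith
    have h2 : s x ^ 2 * ‖a‖ ^ 2 ≤ ‖s x • kpGq s gs f g x‖ ^ 2 := by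
      have e0 : ‖s x • kpGq s gs f g x‖ = s x * ‖kpGq s gs f g x‖ := by
        rw [norm_smul, Real.norm_eq_abs, abs_of_pos hsx]
      rw [← mul_pow, e0]
      refine pow_le_pow_left₀ (by positivity) ?_ 2
      refine mul_le_mul_of_nonneg_left ?_ hsx.le
      rw [ha, norm_smul, norm_smul, Real.norm_eq_abs, Real.norm_eq_abs]
      have h3 : |χ n x| ≤ 1 := by
        rw [abs_of_nonneg (hχ01 n x).1]
        exact (hχ01 n x).2
      have h4 := kpFtr_deriv_le (hcpos n).le (f x / s x)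
      calc |χ n x| * (|deriv (kpFtr (c n)) (f x / s x)| * ‖kpGq s gs f g x‖)
          ≤ 1 * (1 * ‖kpGq s gs f g x‖) := by gcongr
        _ = _ := by ring
    have h3 : s x ^ 2 * ‖b‖ ^ 2 ≤ (C / N) ^ 2 * f x ^ 2 := by
      rw [← mul_pow, ← mul_pow, ← sq_abs (C / N * f x)]
      refine pow_le_pow_left₀ (by positivity) ?_ 2
      rw [hb, norm_smul, Real.norm_eq_abs, abs_mul, abs_of_nonneg (show 0 ≤ C / N by positivity)]
      have h4 := kpFtr_abs_le (hcpos n).le (f x / s x)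
      rw [abs_div, abs_of_pos hsx] at h4
      have h5 : s x * |kpFtr (c n) (f x / s x)| ≤ |f x| := by
        calc s x * |kpFtr (c n) (f x / s x)| ≤ s x * (|f x| / s x) :=
              mul_le_mul_of_nonneg_left h4 hsx.le
          _ = |f x| := by field_simp
      calc s x * (|kpFtr (c n) (f x / s x)| * ‖gr (χ n) x‖)
          = (s x * |kpFtr (c n) (f x / s x)|) * ‖gr (χ n) x‖ := by ring
        _ ≤ |f x| * (C / N) := mul_le_mul h5 (hχg n x) (norm_nonneg _) (abs_nonneg _)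
        _ = _ := by ring
    have h4 := mul_le_mul_of_nonneg_left h1 (sq_nonneg (s x))
    have h5 : (0 : ℝ) ≤ 1 + 1 / N := by positivity
    have h6 : (0 : ℝ) ≤ 1 + N := by positivity
    have h7 := mul_le_mul_of_nonneg_left h2 h5
    have h8 := mul_le_mul_of_nonneg_left h3 h6
    linarith
  have hlimR : Tendsto (fun n : ℕ => (1 + 1 / ((n : ℝ) + 1)) * A +
      (1 + ((n : ℝ) + 1)) * ((C / ((n : ℝ) + 1)) ^ 2 * B)) atTop (𝓝 A) := by
    have h1 : Tendsto (fun n : ℕ => 1 / ((n : ℝ) + 1)) atTop (𝓝 0) :=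
      tendsto_one_div_add_atTop_nhds_zero_nat
    have h2 : Tendsto (fun n : ℕ => (1 + 1 / ((n : ℝ) + 1)) * A +
        (1 / ((n : ℝ) + 1) * (1 / ((n : ℝ) + 1)) + 1 / ((n : ℝ) + 1)) * (C ^ 2 * B)) atTop
        (𝓝 ((1 + 0) * A + (0 * 0 + 0) * (C ^ 2 * B))) :=
      ((h1.const_add 1).mul_const A).add (((h1.mul h1).add h1).mul_const _)
    have e : (1 + 0) * A + (0 * 0 + 0) * (C ^ 2 * B) = A := by ring
    rw [e] at h2
    refine h2.congr fun n => ?_
    have hn : ((n : ℝ) + 1) ≠ 0 := by positivity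
    field_simp
  have hlimL : ∀ᵐ x, Tendsto (fun n => ENNReal.ofReal (kpSpW s U w gU gw om x * p n x ^ 2)) atTop
      (𝓝 (ENNReal.ofReal (kpSpW s U w gU gw om x * (f x / s x) ^ 2))) := by
    refine Eventually.of_forall fun x => ?_
    refine (ENNReal.continuous_ofReal.tendsto _).comp ?_
    refine Tendsto.const_mul _ (Tendsto.pow ?_ 2)
    have h1 : Tendsto (fun n : ℕ => kpFtr (c n) (f x / s x)) atTop (𝓝 (f x / s x)) := by
      have h2 : Tendsto (fun n : ℕ => (f x / s x) / (1 + c n * (f x / s x) ^ 2)) atTop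
          (𝓝 ((f x / s x) / (1 + 0 * (f x / s x) ^ 2))) := by
        refine Tendsto.div tendsto_const_nhds ((Tendsto.mul_const _
          tendsto_one_div_add_atTop_nhds_zero_nat).const_add 1) (by simp)
      simpa [kpFtr] using h2
    refine h1.congr' ?_
    obtain ⟨n0, hn0⟩ := exists_nat_gt ‖x‖
    filter_upwards [eventually_ge_atTop n0] with n hn
    have h2 : (n0 : ℝ) ≤ n := by exact_mod_cast hn
    simp only [hpdef]
    rw [hχ1 n x (by linarith), one_mul]
  calc ∫⁻ x, ENNReal.ofReal (kpSpW s U w gU gw om x * (f x / s x) ^ 2)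
      = ∫⁻ x, liminf (fun n => ENNReal.ofReal (kpSpW s U w gU gw om x * p n x ^ 2)) atTop := by
        refine lintegral_congr_ae ?_
        filter_upwards [hlimL] with x hx
        exact hx.liminf_eq.symm
    _ ≤ liminf (fun n => ∫⁻ x, ENNReal.ofReal (kpSpW s U w gU gw om x * p n x ^ 2)) atTop :=
        lintegral_liminf_le' fun n => (((kpSpW_int hs hp.adm).1.aemeasurable).mul
          ((hbt n).h1.memf.1.aemeasurable.pow_const 2)).ennreal_ofReal
    _ ≤ liminf (fun n : ℕ => ENNReal.ofReal ((1 + 1 / ((n : ℝ) + 1)) * A +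
          (1 + ((n : ℝ) + 1)) * ((C / ((n : ℝ) + 1)) ^ 2 * B))) atTop :=
        liminf_le_liminf (Eventually.of_forall fun n =>
          (KP.picone hs hp (hbt n) (hpz n)).trans (ENNReal.ofReal_le_ofReal (hen n)))
    _ = ENNReal.ofReal A := ((ENNReal.continuous_ofReal.tendsto _).comp hlimR).liminf_eq

/-- the left-hand side of `SPIneq` as one integral -/
theorem KP.lhs_eq {s U w : Pos3 → ℝ} {gs gU gw : Pos3 → Pos3} {om : ℝ} (hs : Amp s gs)
    (hp : PairAdm s U gU w gw) (hom : 0 < om) {f : Pos3 → ℝ} (hf : MemLp f 2 volume) :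
    (∫⁻ x, ENNReal.ofReal (‖J U gU w gw x‖ ^ 2 / s x ^ 4 * f x ^ 2)) +
      ENNReal.ofReal (2 * om * ∫ x, U x ^ 2 / s x ^ 2 * f x ^ 2) =
    ∫⁻ x, ENNReal.ofReal (kpSpW s U w gU gw om x * (f x / s x) ^ 2) := by
  have hUm := hp.kpMU.aemeasurable
  have hsm : AEMeasurable s volume := hs.cont.measurable.aemeasurable
  have hfm := hf.1.aemeasurable
  have hi : Integrable (fun x => 2 * om * (U x ^ 2 / s x ^ 2 * f x ^ 2)) := by
    refine Integrable.const_mul ?_ _
    refine KP.bdd_mul (KP.integrable_sq hf)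
      ((hUm.pow_const 2).div (hsm.pow_const 2)).aestronglyMeasurable (C := 1)
      (Eventually.of_forall fun x => ?_)
    have hsx := hs.pos x
    rw [abs_of_nonneg (by positivity), div_le_one (by positivity), ← sq_abs (U x)]
    exact pow_le_pow_left₀ (abs_nonneg _) (hp.kpU_le hs x) 2
  rw [← integral_const_mul, ofReal_integral_eq_lintegral_ofReal hi (Eventually.of_forall
    fun x => by positivity), ← lintegral_add_left']
  · refine lintegral_congr fun x => ?_
    have hsx := (hs.pos x).ne'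
    rw [← ENNReal.ofReal_add (by positivity) (by positivity)]
    congr 1
    unfold kpSpW
    field_simp
    ring
  · refine AEMeasurable.ennreal_ofReal ?_
    exact ((hp.kpJm.norm.aemeasurable.pow_const 2).div (hsm.pow_const 4)).mul
      (hfm.pow_const 2)

theorem KP.smul_gq {s : Pos3 → ℝ} {gs : Pos3 → Pos3} (hs : Amp s gs) (f : Pos3 → ℝ)
    (g : Pos3 → Pos3) (x : Pos3) : s x • kpGq s gs f g x = g x - (f x / s x) • gs x := by
  have hsx := (hs.pos x).ne'
  unfold kpGq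
  rw [smul_sub, smul_smul, smul_smul, mul_one_div_cancel hsx, one_smul]
  congr 2
  field_simp

theorem sp_half {s U w : Pos3 → ℝ} {gs gU gw : Pos3 → Pos3} {om : ℝ} (hs : Amp s gs)
    (hp : Pair s U gU w gw om) {f : Pos3 → ℝ} {g : Pos3 → Pos3} (hf : H1 f g)
    (h0 : ∀ x : Pos3, x 2 ≤ 0 → f x = 0) :
    (∫⁻ x, ENNReal.ofReal (‖J U gU w gw x‖ ^ 2 / s x ^ 4 * f x ^ 2)) +
      ENNReal.ofReal (2 * om * ∫ x, U x ^ 2 / s x ^ 2 * f x ^ 2)
    ≤ ∫⁻ x, ENNReal.ofReal (‖g x - (f x / s x) • gs x‖ ^ 2) := by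
  rw [KP.lhs_eq hs hp.adm hp.om_pos hf.memf]
  have e : (fun x => ENNReal.ofReal (‖g x - (f x / s x) • gs x‖ ^ 2)) =
      fun x => ENNReal.ofReal (‖s x • kpGq s gs f g x‖ ^ 2) := by
    ext1 x
    rw [KP.smul_gq hs]
  rw [e]
  have hwg : WG univ (fun x => f x / s x) (kpGq s gs f g) := hs.kpQuot hf
  obtain ⟨hqm, hgqm⟩ := KP.aesm_of_wg hwg
  have hm : AEStronglyMeasurable (fun x => s x • kpGq s gs f g x) volume :=
    hs.cont.aestronglyMeasurable.smul hgqm
  by_cases hfin : ∫⁻ x, ENNReal.ofReal (‖s x • kpGq s gs f g x‖ ^ 2) = ⊤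
  · rw [hfin]; exact le_top
  · have hint : Integrable (fun x => ‖s x • kpGq s gs f g x‖ ^ 2) := by
      refine ⟨hm.norm.pow 2, ?_⟩
      rw [hasFiniteIntegral_iff_ofReal (Eventually.of_forall fun x => sq_nonneg _)]
      exact lt_top_iff_ne_top.2 hfin
    have hmem : MemLp (fun x => s x • kpGq s gs f g x) 2 volume :=
      (memLp_two_iff_integrable_sq_norm hm).2 hint
    rw [← ofReal_integral_eq_lintegral_ofReal hint (Eventually.of_forall fun x => sq_nonneg _)]
    exact KP.half_core hs hp hf h0 hmem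

end Crest.Agent.R335
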