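import Crest.Agent.R335.KTmin0
import Crest.Agent.R335.KPauli
import Crest.Agent.R335.HFourier

/-!
Row 335 (S0521): minimality of the kinetic energy of the pair (module KTmin).
-/

set_option autoImplicit false

open MeasureTheory Filter Set Crest.MathPhysics.ThreeBody
open scoped ENNReal Topology ContDiff

noncomputable section
namespace Crest.Agent.R335

section Disc

variable {ι : Type*} [MeasurableSpace ι] [DiscreteMeasurableSpace ι] [Countable ι]
  (c : ι → ℝ≥0∞)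
variable {W : Type*} [MeasurableSpace W] {ρ : Measure W} [SFinite ρ]

/-- the measure with weights `c` on a countable set -/
def wm (c : ι → ℝ≥0∞) : Measure ι := Measure.sum fun i => c i • Measure.dirac i

instance : SFinite (wm c) := by unfold wm; infer_instance

theorem lintegral_wm (K : ι → ℝ≥0∞) : ∫⁻ i, K i ∂(wm c) = ∑' i, c i * K i := by
  unfold wm
  rw [lintegral_sum_measure]
  congr 1; ext i
  rw [lintegral_smul_measure, lintegral_dirac, smul_eq_mul]

omit [DiscreteMeasurableSpace ι] in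
theorem ae_wm_prod {P : ι → W → Prop} (h : ∀ i, ∀ᵐ z ∂ρ, P i z) :
    ∀ᵐ q ∂((wm c).prod ρ), P q.1 q.2 := by
  have hsub : {q : ι × W | ¬ P q.1 q.2} ⊆
      ⋃ i, (univ : Set ι) ×ˢ (toMeasurable ρ {z | ¬ P i z}) := by
    rintro ⟨i, z⟩ hq
    exact mem_iUnion.2 ⟨i, mem_univ _, subset_toMeasurable _ _ hq⟩
  refine measure_mono_null hsub (measure_iUnion_null fun i => ?_)
  rw [Measure.prod_prod, measure_toMeasurable, show ρ {z | ¬ P i z} = 0 from h i, mul_zero]

theorem aesm_wm_prod {E : Type*} [TopologicalSpace E] [TopologicalSpace.PseudoMetrizableSpace E]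
    [SecondCountableTopology E] [MeasurableSpace E] [BorelSpace E] {f : ι → W → E}
    (h : ∀ i, AEStronglyMeasurable (f i) ρ) :
    AEStronglyMeasurable (fun q : ι × W => f q.1 q.2) ((wm c).prod ρ) := by
  refine ⟨fun q => (h q.1).mk _ q.2, ?_, ?_⟩
  · exact (measurable_from_prod_countable_right
      fun i => (h i).stronglyMeasurable_mk.measurable).stronglyMeasurable
  · exact ae_wm_prod c fun i => (h i).ae_eq_mk

theorem lintegral_wm_prod {H : ι × W → ℝ≥0∞} (hH : AEMeasurable H ((wm c).prod ρ)) :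
    ∫⁻ q, H q ∂((wm c).prod ρ) = ∑' i, c i * ∫⁻ z, H (i, z) ∂ρ := by
  rw [lintegral_prod _ hH, lintegral_wm]

theorem lintegral_wm_prod_le {H : ι × W → ℝ≥0∞} :
    ∫⁻ q, H q ∂((wm c).prod ρ) ≤ ∑' i, c i * ∫⁻ z, H (i, z) ∂ρ := by
  rw [← lintegral_wm]
  exact lintegral_prod_le _

variable {X Z : Type*} [MeasurableSpace X] [MeasurableSpace Z] {μ : Measure X} {ν : Measure Z}
  [SFinite μ] [SFinite ν]

/-- rearrangement -/
def reE (ι X Z : Type*) [MeasurableSpace ι] [MeasurableSpace X] [MeasurableSpace Z] :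
    X × (ι × Z) ≃ᵐ ι × (X × Z) :=
  MeasurableEquiv.prodAssoc.symm.trans
    ((MeasurableEquiv.prodComm.prodCongr (MeasurableEquiv.refl Z)).trans MeasurableEquiv.prodAssoc)

theorem reE_apply (q : X × (ι × Z)) : reE ι X Z q = (q.2.1, (q.1, q.2.2)) := rfl

theorem mp_reE : MeasurePreserving (reE ι X Z) (μ.prod ((wm c).prod ν))
    ((wm c).prod (μ.prod ν)) := by
  have h1 : MeasurePreserving (MeasurableEquiv.prodAssoc.symm : X × (ι × Z) ≃ᵐ (X × ι) × Z)
      (μ.prod ((wm c).prod ν)) ((μ.prod (wm c)).prod ν) :=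
    (measurePreserving_prodAssoc μ (wm c) ν).symm _
  have h2 : MeasurePreserving (fun q : (X × ι) × Z => (q.1.swap, q.2))
      ((μ.prod (wm c)).prod ν) (((wm c).prod μ).prod ν) :=
    Measure.measurePreserving_swap.prod (MeasurePreserving.id ν)
  exact (measurePreserving_prodAssoc (wm c) μ ν).comp (h2.comp h1)

/-- integral of a family -/
theorem lintegral_fam {H : ι → X × Z → ℝ≥0∞} (hH : ∀ i, AEMeasurable (H i) (μ.prod ν)) :
    ∫⁻ q, H q.2.1 (q.1, q.2.2) ∂(μ.prod ((wm c).prod ν)) =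
      ∑' i, c i * ∫⁻ z, H i z ∂(μ.prod ν) := by
  have hm : AEMeasurable (fun q : ι × (X × Z) => H q.1 q.2) ((wm c).prod (μ.prod ν)) :=
    (aesm_wm_prod c fun i => (hH i).aestronglyMeasurable).aemeasurable
  rw [← lintegral_wm_prod c hm,
    ← (mp_reE c).lintegral_comp_emb (reE ι X Z).measurableEmbedding]
  rfl

end Disc

/-- index set: member of the ensemble, spin assignment, real/imaginary part, electron -/
abbrev Idx := ℕ × (Spin3 × Bool × Fin 3)

abbrev E6 := EuclideanSpace ℝ (Fin 2 × Fin 3)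

theorem sum_pr1 (X : Config3) : ∑ i, ‖pr1 (pE i) X‖ ^ 2 = ‖X‖ ^ 2 := by
  simp_rw [← elPos_eq, EuclideanSpace.norm_sq_eq, Fintype.sum_prod_type]
  rfl

theorem memLp_pr1E {g : Config3 → Config3} (hg : MemLp g 2 volume) (i : Fin 3) :
    MemLp (fun X => pr1 (pE i) (g X)) 2 volume :=
  hg.mono ((continuous_pr1 (pE i)).comp_aestronglyMeasurable hg.aestronglyMeasurable)
    (Eventually.of_forall fun X => norm_pr1_le (pE i) _)

theorem tsum_Idx (p : ℕ → ℝ≥0∞) (K : Idx → ℝ≥0∞) :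
    ∑' j : Idx, p j.1 * K j = ∑' k, p k * ∑ σ : Spin3, ∑ b : Bool, ∑ i : Fin 3, K (k, σ, b, i) := by
  rw [ENNReal.tsum_prod' (f := fun j : Idx => p j.1 * K j)]
  congr 1; ext k
  rw [tsum_fintype, Fintype.sum_prod_type, Finset.mul_sum]
  refine Finset.sum_congr rfl fun σ _ => ?_
  rw [Fintype.sum_prod_type, Finset.mul_sum]
  refine Finset.sum_congr rfl fun b _ => ?_
  rw [Finset.mul_sum]

theorem mp_jnE (i : Fin 3) : MeasurePreserving (fun q : Pos3 × E6 => jn (pE i) q.1 q.2)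
    (volume.prod volume) volume := measurePreserving_jn (pE i)

theorem lintegral_jnE (i : Fin 3) (H : Config3 → ℝ≥0∞) :
    ∫⁻ q : Pos3 × E6, H (jn (pE i) q.1 q.2) ∂(volume.prod volume) = ∫⁻ X, H X :=
  (measurePreserving_jn (pE i)).lintegral_comp_emb (measurableEmbedding_jn (pE i)) H

theorem two_ofReal_half (a : ℝ) :
    (2 : ℝ≥0∞) * ENNReal.ofReal ((1 / 2) * a) = ENNReal.ofReal a := by
  rw [show (2 : ℝ≥0∞) = ENNReal.ofReal 2 by simp, ← ENNReal.ofReal_mul zero_le_two]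
  congr 1; ring

theorem two_ofReal (a : ℝ) : (2 : ℝ≥0∞) * ENNReal.ofReal a = ENNReal.ofReal (2 * a) := by
  rw [show (2 : ℝ≥0∞) = ENNReal.ofReal 2 by simp, ← ENNReal.ofReal_mul zero_le_two]

theorem kin_eq {f : Config3 → ℂ} {g : Bool → Config3 → Config3}
    (h : ∀ b, H1 (fun X => pRI b (f X)) (g b)) :
    2 * kineticOne f = ∑ b : Bool, ∑ i : Fin 3,
      ∫⁻ X, ENNReal.ofReal (‖pr1 (pE i) (g b X)‖ ^ 2) := by
  have h1 : kineticOne f = ENNReal.ofReal ((1 / 2) * ∫ x, (‖g true x‖ ^ 2 + ‖g false x‖ ^ 2)) :=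
    kineticOne_eq (h true) (h false)
  have hn : ∀ b, Integrable (fun x => ‖g b x‖ ^ 2) volume :=
    fun b => (h b).memg.integrable_norm_pow two_ne_zero
  rw [h1, two_ofReal_half, integral_add (hn true) (hn false), ENNReal.ofReal_add (integral_nonneg fun _ => sq_nonneg _)
      (integral_nonneg fun _ => sq_nonneg _), Fintype.sum_bool]
  have h2 : ∀ b, ENNReal.ofReal (∫ x, ‖g b x‖ ^ 2) = ∑ i : Fin 3,
      ∫⁻ X, ENNReal.ofReal (‖pr1 (pE i) (g b X)‖ ^ 2) := by
    intro b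
    rw [← lintegral_finsetSum' _ fun i _ =>
      ((memLp_pr1E (h b).memg i).aestronglyMeasurable.norm.aemeasurable.pow_const 2).ennreal_ofReal,
      ofReal_integral_eq_lintegral_ofReal (hn b) (Eventually.of_forall fun _ => sq_nonneg _)]
    refine lintegral_congr fun X => ?_
    rw [← ENNReal.ofReal_sum_of_nonneg fun _ _ => sq_nonneg _, sum_pr1]
  rw [h2, h2]

theorem density_eq {Φ : Wave3} (h : IsFermionic Φ) {A : Set Pos3} (hA : MeasurableSet A) :
    densityOn Φ A = ∑ σ : Spin3, ∑ b : Bool, ∑ i : Fin 3,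
      ∫⁻ X, A.indicator (fun _ => (1 : ℝ≥0∞)) (elPos i X) * ENNReal.ofReal (pRI b (Φ σ X) ^ 2) := by
  unfold densityOn
  refine Finset.sum_congr rfl fun σ _ => ?_
  have hb : ∀ b, AEMeasurable (fun X => ENNReal.ofReal (pRI b (Φ σ X) ^ 2)) volume := fun b =>
    ((memLp_ri (h.1 σ) b).aestronglyMeasurable.aemeasurable.pow_const 2).ennreal_ofReal
  have hi : ∀ i, AEMeasurable (fun X : Config3 => A.indicator (fun _ => (1 : ℝ≥0∞)) (elPos i X))
      volume := by
    intro i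
    have hc : Measurable (fun X : Config3 => elPos i X) := by
      simp_rw [elPos_eq]
      exact (continuous_pr1 (pE i)).measurable
    exact ((measurable_const.indicator hA).comp hc).aemeasurable
  have m1 : ∀ b i, AEMeasurable (fun X : Config3 => A.indicator (fun _ => (1 : ℝ≥0∞)) (elPos i X) *
      ENNReal.ofReal (pRI b (Φ σ X) ^ 2)) volume := fun b i => (hi i).mul (hb b)
  have e1 : ∀ b, ∑ i : Fin 3,
      ∫⁻ X, A.indicator (fun _ => (1 : ℝ≥0∞)) (elPos i X) * ENNReal.ofReal (pRI b (Φ σ X) ^ 2) =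
      ∫⁻ X, (∑ i : Fin 3, A.indicator (fun _ => (1 : ℝ≥0∞)) (elPos i X)) *
        ENNReal.ofReal (pRI b (Φ σ X) ^ 2) := by
    intro b
    rw [← lintegral_finsetSum' _ fun i _ => m1 b i]
    simp_rw [Finset.sum_mul]
  simp_rw [e1]
  have m2 : ∀ b, AEMeasurable (fun X : Config3 =>
      (∑ i : Fin 3, A.indicator (fun _ => (1 : ℝ≥0∞)) (elPos i X)) *
        ENNReal.ofReal (pRI b (Φ σ X) ^ 2)) volume :=
    fun b => (Finset.aemeasurable_fun_sum _ fun i _ => hi i).mul (hb b)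
  rw [← lintegral_finsetSum' _ fun b _ => m2 b]
  refine lintegral_congr fun X => ?_
  rw [← Finset.mul_sum, sum_ri]

theorem pauli' {Φ : Wave3} (h : IsFermionic Φ) {U : Pos3 → ℝ} (hU : MemLp U 2 volume)
    (hU2 : ∫ x, U x ^ 2 = 2) :
    ∑ σ : Spin3, ∑ b : Bool, ∑ i : Fin 3, ∫⁻ w : EuclideanSpace ℝ (Fin 2 × Fin 3),
        ENNReal.ofReal ((∫ x, U x * pRI b (Φ σ (jn (pE i) x w))) ^ 2) ≤ 4 * normSq Φ := by
  have hs2 : (√2 : ℝ) ^ 2 = 2 := Real.sq_sqrt zero_le_two
  have hs0 : (√2 : ℝ) ≠ 0 := by positivity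
  set u : Pos3 → ℝ := fun x => (√2)⁻¹ * U x with hu
  have hum : MemLp u 2 volume := hU.const_mul _
  have hu1 : ∫ x, u x ^ 2 = 1 := by
    have : ∀ x, u x ^ 2 = ((√2)⁻¹) ^ 2 * U x ^ 2 := fun x => by simp only [hu]; ring
    simp_rw [this]
    rw [integral_const_mul, hU2, inv_pow, hs2]
    norm_num
  have key := pauli h hum hu1
  have e1 : ∀ (σ : Spin3) (b : Bool) (i : Fin 3),
      ∫⁻ w : EuclideanSpace ℝ (Fin 2 × Fin 3),
        ENNReal.ofReal ((∫ x, U x * pRI b (Φ σ (jn (pE i) x w))) ^ 2) =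
      2 * ∫⁻ w : EuclideanSpace ℝ (Fin 2 × Fin 3),
        ENNReal.ofReal ((∫ x, u x * pRI b (Φ σ (jn (pE i) x w))) ^ 2) := by
    intro σ b i
    rw [← lintegral_const_mul' _ _ (by simp)]
    refine lintegral_congr fun w => ?_
    rw [two_ofReal]
    congr 1
    have : ∀ x, u x * pRI b (Φ σ (jn (pE i) x w)) =
        (√2)⁻¹ * (U x * pRI b (Φ σ (jn (pE i) x w))) := fun x => by simp only [hu]; ring
    simp_rw [this]
    rw [integral_const_mul, mul_pow, inv_pow, hs2]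
    ring
  simp_rw [e1, ← Finset.mul_sum]
  calc 2 * _ ≤ 2 * (2 * normSq Φ) := by gcongr
    _ = 4 * normSq Φ := by rw [← mul_assoc]; norm_num

theorem T_min {s U w : Pos3 → ℝ} {gs gU gw : Pos3 → Pos3} {om : ℝ} (hs : Amp s gs)
    (hp : Pair s U gU w gw om) (hsp : ∀ f g, H1 f g → SPIneq s gs U gU w gw om f g)
    {p : ℕ → ℝ≥0∞} {Φ : ℕ → Wave3} (hp1 : ∑' k, p k = 1)
    (hferm : ∀ k, IsFermionic (Φ k)) (hnorm : ∀ k, normSq (Φ k) = 1)
    (hkin : ∀ k, kinetic (Φ k) < ⊤)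
    (hρ : ∀ A : Set Pos3, MeasurableSet A →
      ∑' k, p k * densityOn (Φ k) A = ∫⁻ x in A, ENNReal.ofReal (s x ^ 2)) :
    ENNReal.ofReal ((1 / 2) * ((∫ x, ‖gU x‖ ^ 2) + ∫ x, ‖gw x‖ ^ 2)) ≤
      ∑' k, p k * kinetic (Φ k) := by
  by_cases htop : ∑' k, p k * kinetic (Φ k) = ⊤
  · rw [htop]; exact le_top
  have hk1 : ∀ k σ, kineticOne (Φ k σ) < ⊤ := fun k σ =>
    lt_of_le_of_lt (Finset.single_le_sum (f := fun σ => kineticOne (Φ k σ))
      (fun _ _ => bot_le) (Finset.mem_univ σ)) (hkin k)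
  choose g1 g2 hg1 hg2 using fun k σ => H1_of_kineticOne (hk1 k σ)
  set g : ℕ → Spin3 → Bool → Config3 → Config3 := fun k σ b => if b then g1 k σ else g2 k σ with hgd
  have hg : ∀ k σ b, H1 (fun X => pRI b (Φ k σ X)) (g k σ b) := by
    intro k σ b
    cases b
    · exact hg2 k σ
    · exact hg1 k σ
  set c : Idx → ℝ≥0∞ := fun j => p j.1 with hc
  -- components
  set f0 : Idx → Pos3 × E6 → ℝ := fun j q => pRI j.2.2.1 (Φ j.1 j.2.1 (jn (pE j.2.2.2) q.1 q.2))
    with hf0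
  set G0 : Idx → Pos3 × E6 → Pos3 :=
    fun j q => pr1 (pE j.2.2.2) (g j.1 j.2.1 j.2.2.1 (jn (pE j.2.2.2) q.1 q.2)) with hG0
  have mf0 : ∀ j, MemLp (f0 j) 2 (volume.prod volume) := fun j =>
    (hg j.1 j.2.1 j.2.2.1).memf.comp_measurePreserving (mp_jnE j.2.2.2)
  have mG0 : ∀ j, MemLp (G0 j) 2 (volume.prod volume) := fun j =>
    (memLp_pr1E (hg j.1 j.2.1 j.2.2.1).memg j.2.2.2).comp_measurePreserving (mp_jnE j.2.2.2)
  -- the family
  set F : Pos3 × (Idx × E6) → ℝ := fun q => f0 q.2.1 (q.1, q.2.2) with hF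
  set G : Pos3 × (Idx × E6) → Pos3 := fun q => G0 q.2.1 (q.1, q.2.2) with hG
  have mF : AEStronglyMeasurable F (volume.prod ((wm c).prod volume)) :=
    (aesm_wm_prod c fun j => (mf0 j).aestronglyMeasurable).comp_measurePreserving (mp_reE c)
  have mG : AEStronglyMeasurable G (volume.prod ((wm c).prod volume)) :=
    (aesm_wm_prod c fun j => (mG0 j).aestronglyMeasurable).comp_measurePreserving (mp_reE c)
  -- kinetic energy
  have hGint : ∫⁻ q, ENNReal.ofReal (‖G q‖ ^ 2) ∂(volume.prod ((wm c).prod volume)) =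
      2 * ∑' k, p k * kinetic (Φ k) := by
    have h1 := lintegral_fam c (μ := (volume : Measure Pos3)) (ν := (volume : Measure E6))
      (H := fun j z => ENNReal.ofReal (‖G0 j z‖ ^ 2))
      (fun j => ((mG0 j).aestronglyMeasurable.norm.aemeasurable.pow_const 2).ennreal_ofReal)
    rw [h1, ← ENNReal.tsum_mul_left]
    have h2 : ∀ j : Idx, ∫⁻ z, ENNReal.ofReal (‖G0 j z‖ ^ 2) ∂(volume.prod volume) =
        ∫⁻ X, ENNReal.ofReal (‖pr1 (pE j.2.2.2) (g j.1 j.2.1 j.2.2.1 X)‖ ^ 2) := fun j =>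
      lintegral_jnE j.2.2.2
        (fun X => ENNReal.ofReal (‖pr1 (pE j.2.2.2) (g j.1 j.2.1 j.2.2.1 X)‖ ^ 2))
    simp_rw [h2]
    rw [tsum_Idx p (fun j => ∫⁻ X, ENNReal.ofReal (‖pr1 (pE j.2.2.2) (g j.1 j.2.1 j.2.2.1 X)‖ ^ 2))]
    congr 1; ext k
    have h3 : 2 * kinetic (Φ k) = ∑ σ : Spin3, ∑ b : Bool, ∑ i : Fin 3,
        ∫⁻ X, ENNReal.ofReal (‖pr1 (pE i) (g k σ b X)‖ ^ 2) := by
      unfold kinetic
      rw [Finset.mul_sum]
      exact Finset.sum_congr rfl fun σ _ => kin_eq fun b => hg k σ b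
    rw [← mul_assoc, mul_comm 2, mul_assoc, h3]
  have hGfin : ∫⁻ q, ENNReal.ofReal (‖G q‖ ^ 2) ∂(volume.prod ((wm c).prod volume)) < ⊤ := by
    rw [hGint]
    exact ENNReal.mul_lt_top (by simp) (lt_top_iff_ne_top.2 htop)
  have G2 : MemLp G 2 (volume.prod ((wm c).prod volume)) := by
    rw [memLp_two_iff_integrable_sq_norm mG]
    refine ⟨mG.norm.pow 2, ?_⟩
    rw [hasFiniteIntegral_iff_ofReal (Eventually.of_forall fun _ => sq_nonneg _)]
    exact hGfin
  have hfam : Fam ((wm c).prod (volume : Measure E6)) s F G := by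
    refine ⟨mF, G2, ?_, ?_⟩
    · refine ae_wm_prod c (P := fun j z => H1 (fun x => f0 j (x, z)) (fun x => G0 j (x, z)))
        fun j => ?_
      exact H1.slice_left (pE j.2.2.2) (hg j.1 j.2.1 j.2.2.1)
    · intro A hA
      rw [← hρ A hA]
      have h1 := lintegral_fam c (μ := (volume : Measure Pos3)) (ν := (volume : Measure E6))
        (H := fun j z => A.indicator (fun _ => (1 : ℝ≥0∞)) z.1 * ENNReal.ofReal (f0 j z ^ 2))
        (fun j => ((measurable_const.indicator hA).comp measurable_fst).aemeasurable.mul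
          ((mf0 j).aestronglyMeasurable.aemeasurable.pow_const 2).ennreal_ofReal)
      have hFm : AEMeasurable (fun q => ENNReal.ofReal (F q ^ 2))
          (volume.prod ((wm c).prod volume)) := (mF.aemeasurable.pow_const 2).ennreal_ofReal
      have hAm : AEMeasurable (fun q : Pos3 × (Idx × E6) =>
          A.indicator (fun _ => (1 : ℝ≥0∞)) q.1 * ENNReal.ofReal (F q ^ 2))
          (volume.prod ((wm c).prod volume)) :=
        ((measurable_const.indicator hA).comp measurable_fst).aemeasurable.mul hFm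
      have h2 : ∫⁻ x in A, ∫⁻ y, ENNReal.ofReal (F (x, y) ^ 2) ∂((wm c).prod volume) =
          ∫⁻ q, A.indicator (fun _ => (1 : ℝ≥0∞)) q.1 * ENNReal.ofReal (F q ^ 2)
            ∂(volume.prod ((wm c).prod volume)) := by
        rw [lintegral_prod _ hAm, ← lintegral_indicator hA]
        refine lintegral_congr fun x => ?_
        by_cases hx : x ∈ A
        · simp [indicator_of_mem hx]
        · simp [indicator_of_notMem hx]
      rw [h2]
      refine h1.trans ?_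
      have h3 : ∀ j : Idx, ∫⁻ z, A.indicator (fun _ => (1 : ℝ≥0∞)) z.1 *
            ENNReal.ofReal (f0 j z ^ 2) ∂(volume.prod volume) =
          ∫⁻ X, A.indicator (fun _ => (1 : ℝ≥0∞)) (elPos j.2.2.2 X) *
            ENNReal.ofReal (pRI j.2.2.1 (Φ j.1 j.2.1 X) ^ 2) := by
        intro j
        rw [← lintegral_jnE j.2.2.2]
        simp_rw [elPos_jn]
        rfl
      simp_rw [h3]
      rw [tsum_Idx p (fun j => ∫⁻ X, A.indicator (fun _ => (1 : ℝ≥0∞)) (elPos j.2.2.2 X) *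
            ENNReal.ofReal (pRI j.2.2.1 (Φ j.1 j.2.1 X) ^ 2))]
      congr 1; ext k
      rw [density_eq (hferm k) hA]
  have hP : ∫⁻ y, ENNReal.ofReal ((∫ x, U x * F (x, y)) ^ 2) ∂((wm c).prod volume) ≤ 4 := by
    refine (lintegral_wm_prod_le c).trans ?_
    have h1 := tsum_Idx p (fun j : Idx => ∫⁻ z : E6,
      ENNReal.ofReal ((∫ x, U x * pRI j.2.2.1 (Φ j.1 j.2.1 (jn (pE j.2.2.2) x z))) ^ 2))
    refine (le_of_eq h1).trans ?_
    calc _ ≤ ∑' k, p k * 4 := by
          refine ENNReal.tsum_le_tsum fun k => ?_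
          gcongr
          have := pauli' (hferm k) hp.adm.hU.memf hp.adm.nU
          rw [hnorm k, mul_one] at this
          exact this
      _ = 4 := by rw [ENNReal.tsum_mul_right, hp1, one_mul]
  have key := hfam.tmin hs hp.adm hp.om_pos.le hsp hP
  have h1 : ENNReal.ofReal ((∫ x, ‖gU x‖ ^ 2) + ∫ x, ‖gw x‖ ^ 2) ≤
      2 * ∑' k, p k * kinetic (Φ k) := by
    rw [← hGint, ← ofReal_integral_eq_lintegral_ofReal (G2.integrable_norm_pow two_ne_zero)
      (Eventually.of_forall fun _ => sq_nonneg _)]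
    exact ENNReal.ofReal_le_ofReal key
  rw [ENNReal.ofReal_mul (by norm_num)]
  calc ENNReal.ofReal (1 / 2) * ENNReal.ofReal ((∫ x, ‖gU x‖ ^ 2) + ∫ x, ‖gw x‖ ^ 2)
      ≤ ENNReal.ofReal (1 / 2) * (2 * ∑' k, p k * kinetic (Φ k)) := by gcongr
    _ = ∑' k, p k * kinetic (Φ k) := by
      rw [← mul_assoc, show (2 : ℝ≥0∞) = ENNReal.ofReal 2 by simp,
        ← ENNReal.ofReal_mul (by norm_num)]
      norm_num

end Crest.Agent.R335
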