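import Crest.Agent.R335.KDefs
import Crest.Agent.R335.HProd
import Crest.Agent.R335.KTest

/-!
Row 335 (S0521): minimality of the kinetic energy, abstract part (module KTmin), measure-theoretic
core.
-/

set_option autoImplicit false

open MeasureTheory Filter Set Crest.MathPhysics.ThreeBody
open scoped ENNReal Topology ContDiff

noncomputable section
namespace Crest.Agent.R335

theorem H1.sq_ibp {f : Pos3 → ℝ} {g : Pos3 → Pos3} (h : H1 f g) {φ : Pos3 → ℝ}
    (hφ : Test univ φ) (i : Fin 3) :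
    ∫ x, f x * g x i * φ x = -(1 / 2) * ∫ x, f x ^ 2 * pd i φ x := by
  have hfg : Integrable (fun x => f x • g x) volume := by
    rw [← memLp_one_iff_integrable]
    exact h.memg.smul (p := 2) (q := 2) (r := 1) h.memf
  have hw := WG.mul isOpen_univ h.wg h.wg
    ((h.memf.integrable_mul h.memf).locallyIntegrable.locallyIntegrableOn _)
    (hfg.locallyIntegrable.locallyIntegrableOn _) (hfg.locallyIntegrable.locallyIntegrableOn _)
  have := hw.ibp φ hφ i
  have e1 : (∫ x, f x ^ 2 * pd i φ x) = ∫ x, f x * f x * pd i φ x := by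
    congr 1; ext x; ring
  have e2 : (∫ x, (f x • g x + f x • g x) i * φ x) = 2 * ∫ x, f x * g x i * φ x := by
    rw [← integral_const_mul]
    congr 1; ext x
    simp only [PiLp.add_apply, PiLp.smul_apply, smul_eq_mul]
    ring
  rw [e1, this, e2]
  ring

/-- a family of one-body functions of total density `s²` -/
structure Fam {Y : Type*} [MeasurableSpace Y] (μ : Measure Y) (s : Pos3 → ℝ)
    (F : Pos3 × Y → ℝ) (G : Pos3 × Y → Pos3) : Prop where
  mF : AEStronglyMeasurable F (volume.prod μ)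
  G2 : MemLp G 2 (volume.prod μ)
  h1 : ∀ᵐ y ∂μ, H1 (fun x => F (x, y)) (fun x => G (x, y))
  dens : ∀ A : Set Pos3, MeasurableSet A →
    ∫⁻ x in A, ∫⁻ y, ENNReal.ofReal (F (x, y) ^ 2) ∂μ = ∫⁻ x in A, ENNReal.ofReal (s x ^ 2)

variable {Y : Type*} [MeasurableSpace Y] {μ : Measure Y} [SFinite μ] {s : Pos3 → ℝ}
  {gs : Pos3 → Pos3} {F : Pos3 × Y → ℝ} {G : Pos3 × Y → Pos3}

omit [SFinite μ] in
theorem Fam.mF2 (h : Fam μ s F G) :
    AEMeasurable (fun q => ENNReal.ofReal (F q ^ 2)) (volume.prod μ) :=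
  (h.mF.aemeasurable.pow_const 2).ennreal_ofReal

theorem Fam.ae (h : Fam μ s F G) (hs : Continuous s) :
    ∀ᵐ x, ∫⁻ y, ENNReal.ofReal (F (x, y) ^ 2) ∂μ = ENNReal.ofReal (s x ^ 2) :=
  ae_eq_of_forall_setLIntegral_eq_of_sigmaFinite₀ h.mF2.lintegral_prod_right'
    ((hs.pow 2).measurable.ennreal_ofReal.aemeasurable) fun A hA _ => h.dens A hA

theorem Fam.weight (h : Fam μ s F G) (hs : Continuous s) {a : Pos3 → ℝ≥0∞}
    (ha : AEMeasurable a volume) :
    ∫⁻ q, a q.1 * ENNReal.ofReal (F q ^ 2) ∂(volume.prod μ) =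
      ∫⁻ x, a x * ENNReal.ofReal (s x ^ 2) := by
  have hm : AEMeasurable (fun q : Pos3 × Y => a q.1 * ENNReal.ofReal (F q ^ 2))
      (volume.prod μ) := ha.comp_fst.mul h.mF2
  rw [lintegral_prod _ hm]
  refine lintegral_congr_ae ?_
  have h2 := h.mF.prodMk_left
  filter_upwards [h.ae hs, h2] with x hx hx2
  rw [← hx, lintegral_const_mul'' _ (hx2.aemeasurable.pow_const 2).ennreal_ofReal]

theorem Fam.weight_real (h : Fam μ s F G) (hs : Continuous s) {a : Pos3 → ℝ}
    (ha : AEStronglyMeasurable a volume) (ha0 : ∀ᵐ x, 0 ≤ a x)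
    (hi : Integrable (fun x => a x * s x ^ 2) volume) :
    Integrable (fun q => a q.1 * F q ^ 2) (volume.prod μ) ∧
      ∫ q, a q.1 * F q ^ 2 ∂(volume.prod μ) = ∫ x, a x * s x ^ 2 := by
  have hm : AEStronglyMeasurable (fun q : Pos3 × Y => a q.1 * F q ^ 2) (volume.prod μ) :=
    ha.comp_fst.mul (h.mF.pow 2)
  have ha0' : ∀ᵐ q : Pos3 × Y ∂(volume.prod μ), 0 ≤ a q.1 :=
    Measure.quasiMeasurePreserving_fst.ae ha0
  have h0 : 0 ≤ᵐ[volume.prod μ] fun q => a q.1 * F q ^ 2 := by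
    filter_upwards [ha0'] with q hq using mul_nonneg hq (sq_nonneg _)
  have h0' : 0 ≤ᵐ[volume] fun x => a x * s x ^ 2 := by
    filter_upwards [ha0] with q hq using mul_nonneg hq (sq_nonneg _)
  have key : ∫⁻ q, ENNReal.ofReal (a q.1 * F q ^ 2) ∂(volume.prod μ) =
      ∫⁻ x, ENNReal.ofReal (a x * s x ^ 2) := by
    have e1 : ∫⁻ q, ENNReal.ofReal (a q.1 * F q ^ 2) ∂(volume.prod μ) =
        ∫⁻ q, ENNReal.ofReal (a q.1) * ENNReal.ofReal (F q ^ 2) ∂(volume.prod μ) := by
      refine lintegral_congr_ae ?_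
      filter_upwards [ha0'] with q hq using ENNReal.ofReal_mul hq
    have e2 : ∫⁻ x, ENNReal.ofReal (a x * s x ^ 2) =
        ∫⁻ x, ENNReal.ofReal (a x) * ENNReal.ofReal (s x ^ 2) := by
      refine lintegral_congr_ae ?_
      filter_upwards [ha0] with q hq using ENNReal.ofReal_mul hq
    rw [e1, e2, h.weight hs ha.aemeasurable.ennreal_ofReal]
  refine ⟨⟨hm, ?_⟩, ?_⟩
  · rw [hasFiniteIntegral_iff_ofReal h0, key]
    exact hi.lintegral_lt_top
  · rw [integral_eq_lintegral_of_nonneg_ae h0 hm,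
      integral_eq_lintegral_of_nonneg_ae h0' hi.aestronglyMeasurable, key]

theorem Fam.memF (h : Fam μ s F G) (hs : Amp s gs) : MemLp F 2 (volume.prod μ) := by
  rw [memLp_two_iff_integrable_sq h.mF]
  have := (h.weight_real hs.cont (a := fun _ => 1) aestronglyMeasurable_const
    (Eventually.of_forall fun _ => zero_le_one) (by simpa using hs.h1.memf.integrable_sq)).1
  simpa using this

omit [SFinite μ] in
theorem memLp_coord {g : Pos3 → Pos3} (hg : MemLp g 2 volume) (i : Fin 3) :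
    MemLp (fun x => g x i) 2 volume :=
  (EuclideanSpace.proj (𝕜 := ℝ) i : Pos3 →L[ℝ] ℝ).comp_memLp' hg

omit [SFinite μ] in
theorem Fam.memGi (h : Fam μ s F G) (i : Fin 3) : MemLp (fun q => G q i) 2 (volume.prod μ) :=
  (EuclideanSpace.proj (𝕜 := ℝ) i : Pos3 →L[ℝ] ℝ).comp_memLp' h.G2

theorem Fam.int_FG (h : Fam μ s F G) (hs : Amp s gs) (i : Fin 3) :
    Integrable (fun q => F q * G q i) (volume.prod μ) :=
  (h.memF hs).integrable_mul (h.memGi i)

/-- the weak gradient of the density -/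
theorem Fam.cross (h : Fam μ s F G) (hs : Amp s gs) (i : Fin 3) :
    ∀ᵐ x, ∫ y, F (x, y) * G (x, y) i ∂μ = s x * gs x i := by
  have hI := h.int_FG hs i
  have hgi : MemLp (fun x => gs x i) 2 volume := memLp_coord hs.h1.memg i
  have hsg : Integrable (fun x => s x * gs x i) volume := hs.h1.memf.integrable_mul hgi
  refine ae_eq_of_integral_contDiff_smul_eq hI.integral_prod_left.locallyIntegrable
    hsg.locallyIntegrable ?_
  intro φ hφ hφc
  have hT : Test univ φ := ⟨hφ, hφc, subset_univ _⟩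
  obtain ⟨Cφ, hCφ⟩ : ∃ C, ∀ x, ‖φ x‖ ≤ C := hφ.continuous.bounded_above_of_compact_support hφc
  have hpdc : Continuous (pd i φ) := by
    have := (hφ.continuous_fderiv (by simp)).clm_apply
      (continuous_const (y := (EuclideanSpace.single i (1 : ℝ) : Pos3)))
    exact this
  have hpds : HasCompactSupport (pd i φ) := by
    have := hφc.fderiv (𝕜 := ℝ)
    refine this.comp_left (g := fun L : Pos3 →L[ℝ] ℝ => L (EuclideanSpace.single i 1)) ?_
    simp
  obtain ⟨Cd, hCd⟩ : ∃ C, ∀ x, ‖pd i φ x‖ ≤ C :=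
    hpdc.bounded_above_of_compact_support hpds
  -- integrability on the product
  have hI1 : Integrable (fun q : Pos3 × Y => F q * G q i * φ q.1) (volume.prod μ) :=
    hI.mul_bdd (c := Cφ) hφ.continuous.aestronglyMeasurable.comp_fst
      (Eventually.of_forall fun q => hCφ q.1)
  have hI2 : Integrable (fun q : Pos3 × Y => F q ^ 2 * pd i φ q.1) (volume.prod μ) :=
    (h.memF hs).integrable_sq.mul_bdd (c := Cd)
      hpdc.aestronglyMeasurable.comp_fst
      (Eventually.of_forall fun q => hCd q.1)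
  have e1 : ∫ x, φ x • ∫ y, F (x, y) * G (x, y) i ∂μ =
      ∫ q, F q * G q i * φ q.1 ∂(volume.prod μ) := by
    rw [integral_prod _ hI1]
    congr 1; ext x
    show φ x • ∫ y, F (x, y) * G (x, y) i ∂μ = ∫ y, F (x, y) * G (x, y) i * φ x ∂μ
    rw [integral_mul_const, smul_eq_mul, mul_comm]
  have e2 : ∫ q, F q * G q i * φ q.1 ∂(volume.prod μ) =
      -(1 / 2) * ∫ q, F q ^ 2 * pd i φ q.1 ∂(volume.prod μ) := by
    rw [integral_prod_symm _ hI1, integral_prod_symm _ hI2, ← integral_const_mul]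
    refine integral_congr_ae ?_
    filter_upwards [h.h1] with y hy
    exact hy.sq_ibp hT i
  have e3 : ∫ q, F q ^ 2 * pd i φ q.1 ∂(volume.prod μ) = ∫ x, s x ^ 2 * pd i φ x := by
    rw [integral_prod _ hI2]
    refine integral_congr_ae ?_
    have hF2 := (h.memF hs).integrable_sq.prod_right_ae
    filter_upwards [h.ae hs.cont, hF2] with x hx hx2
    rw [integral_mul_const]
    congr 1
    rw [integral_eq_lintegral_of_nonneg_ae (Eventually.of_forall fun _ => sq_nonneg _)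
      hx2.aestronglyMeasurable, hx, ENNReal.toReal_ofReal (sq_nonneg _)]
  rw [e1, e2, e3, ← hs.h1.sq_ibp hT i]
  congr 1; ext x
  rw [smul_eq_mul]; ring

/-- expansion of the Dirichlet integral of `F/s` -/
theorem Fam.expand (h : Fam μ s F G) (hs : Amp s gs) :
    Integrable (fun q => ‖G q - (F q / s q.1) • gs q.1‖ ^ 2) (volume.prod μ) ∧
    ∫ q, ‖G q - (F q / s q.1) • gs q.1‖ ^ 2 ∂(volume.prod μ) =
      (∫ q, ‖G q‖ ^ 2 ∂(volume.prod μ)) - ∫ x, ‖gs x‖ ^ 2 := by
  have hsm : AEStronglyMeasurable s volume := hs.cont.aestronglyMeasurable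
  have hgm : AEStronglyMeasurable gs volume := hs.h1.memg.aestronglyMeasurable
  have hgn : Integrable (fun x => ‖gs x‖ ^ 2) volume := hs.h1.memg.integrable_norm_pow two_ne_zero
  have hGn : Integrable (fun q => ‖G q‖ ^ 2) (volume.prod μ) := h.G2.integrable_norm_pow two_ne_zero
  -- the weight
  have hw := h.weight_real hs.cont (a := fun x => ‖gs x‖ ^ 2 / s x ^ 2)
    ((hgm.norm.pow 2).aemeasurable.div (hsm.pow 2).aemeasurable).aestronglyMeasurable
    (Eventually.of_forall fun x => by positivity)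
    (by
      refine hgn.congr (Eventually.of_forall fun x => ?_)
      have := (hs.pos x).ne'
      field_simp)
  have hw2 : ∫ x, ‖gs x‖ ^ 2 / s x ^ 2 * s x ^ 2 = ∫ x, ‖gs x‖ ^ 2 := by
    congr 1; ext x
    have := (hs.pos x).ne'
    field_simp
  rw [hw2] at hw
  have hcm : AEStronglyMeasurable (fun q : Pos3 × Y => (F q / s q.1) • gs q.1) (volume.prod μ) :=
    (h.mF.aemeasurable.div hsm.comp_fst.aemeasurable).aestronglyMeasurable.smul hgm.comp_fst
  have hcn : ∀ q : Pos3 × Y, ‖(F q / s q.1) • gs q.1‖ ^ 2 =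
      ‖gs q.1‖ ^ 2 / s q.1 ^ 2 * F q ^ 2 := by
    intro q
    rw [norm_smul, mul_pow, Real.norm_eq_abs, sq_abs, div_pow]
    ring
  have hc2 : MemLp (fun q : Pos3 × Y => (F q / s q.1) • gs q.1) 2 (volume.prod μ) := by
    rw [memLp_two_iff_integrable_sq_norm hcm]
    exact hw.1.congr (Eventually.of_forall fun q => (hcn q).symm)
  have hd2 : MemLp (fun q : Pos3 × Y => G q - (F q / s q.1) • gs q.1) 2 (volume.prod μ) :=
    h.G2.sub hc2
  have hdn : Integrable (fun q => ‖G q - (F q / s q.1) • gs q.1‖ ^ 2) (volume.prod μ) :=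
    hd2.integrable_norm_pow two_ne_zero
  refine ⟨hdn, ?_⟩
  -- pointwise expansion
  have hpt : ∀ q : Pos3 × Y, ‖G q - (F q / s q.1) • gs q.1‖ ^ 2 =
      ‖G q‖ ^ 2 - 2 * ((F q / s q.1) * inner ℝ (gs q.1) (G q)) +
        ‖gs q.1‖ ^ 2 / s q.1 ^ 2 * F q ^ 2 := by
    intro q
    rw [@norm_sub_sq_real, hcn q, inner_smul_right, real_inner_comm]
  have hcr : Integrable (fun q : Pos3 × Y => (F q / s q.1) * inner ℝ (gs q.1) (G q))
      (volume.prod μ) := by
    have := ((hGn.add hw.1).sub hdn).const_mul (1 / 2)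
    refine this.congr (Eventually.of_forall fun q => ?_)
    simp only [Pi.add_apply, Pi.sub_apply]
    rw [hpt q]; ring
  have hcri : ∫ q, (F q / s q.1) * inner ℝ (gs q.1) (G q) ∂(volume.prod μ) =
      ∫ x, ‖gs x‖ ^ 2 := by
    rw [integral_prod _ hcr]
    refine integral_congr_ae ?_
    have hcr0 := ae_all_iff.2 fun i => h.cross hs i
    have hin := ae_all_iff.2 fun i => (h.int_FG hs i).prod_right_ae
    filter_upwards [hcr0, hin] with x hx hx2
    have hsx := (hs.pos x).ne'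
    have e1 : ∀ y, F (x, y) / s x * inner ℝ (gs x) (G (x, y)) =
        ∑ i, (gs x i / s x) * (F (x, y) * G (x, y) i) := by
      intro y
      rw [PiLp.inner_apply, Finset.mul_sum]
      refine Finset.sum_congr rfl fun i _ => ?_
      simp only [RCLike.inner_apply, conj_trivial]
      ring
    show ∫ y, F (x, y) / s x * inner ℝ (gs x) (G (x, y)) ∂μ = _
    simp_rw [e1]
    rw [integral_finsetSum _ fun i _ => (hx2 i).const_mul _]
    simp_rw [integral_const_mul, hx]
    rw [EuclideanSpace.norm_sq_eq]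
    refine Finset.sum_congr rfl fun i _ => ?_
    rw [Real.norm_eq_abs, sq_abs]
    field_simp
  have hsub : Integrable (fun q : Pos3 × Y => ‖G q‖ ^ 2 -
      2 * ((F q / s q.1) * inner ℝ (gs q.1) (G q))) (volume.prod μ) := hGn.sub (hcr.const_mul 2)
  simp_rw [hpt]
  rw [integral_add hsub hw.1, integral_sub hGn (hcr.const_mul 2),
    integral_const_mul, hcri, hw.2]
  ring

/-- the spectral inequality integrated over the family -/
theorem Fam.integrated {U w : Pos3 → ℝ} {gU gw : Pos3 → Pos3} {om : ℝ} (h : Fam μ s F G)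
    (hs : Amp s gs) (ha : PairAdm s U gU w gw) (hom : 0 ≤ om)
    (hsp : ∀ f g, H1 f g → SPIneq s gs U gU w gw om f g)
    (hP : ∫⁻ y, ENNReal.ofReal ((∫ x, U x * F (x, y)) ^ 2) ∂μ ≤ 4) :
    ∫⁻ x, ENNReal.ofReal (‖J U gU w gw x‖ ^ 2 / s x ^ 2) ≤
      ENNReal.ofReal (∫ q, ‖G q - (F q / s q.1) • gs q.1‖ ^ 2 ∂(volume.prod μ)) := by
  have hsm : AEStronglyMeasurable s volume := hs.cont.aestronglyMeasurable
  have hgm : AEStronglyMeasurable gs volume := hs.h1.memg.aestronglyMeasurable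
  have hUm : AEStronglyMeasurable U volume := ha.hU.memf.aestronglyMeasurable
  have hJm : AEStronglyMeasurable (J U gU w gw) volume :=
    (ha.hw.memf.aestronglyMeasurable.smul ha.hU.memg.aestronglyMeasurable).sub
      (hUm.smul ha.hw.memg.aestronglyMeasurable)
  have hUs : ∀ x, U x ^ 2 / s x ^ 2 ≤ 1 := fun x => by
    have := hs.pos x
    rw [div_le_one (by positivity), ← ha.sq x]
    nlinarith [sq_nonneg (w x)]
  -- A
  have mA : AEMeasurable (fun q : Pos3 × Y =>
      ENNReal.ofReal (‖J U gU w gw q.1‖ ^ 2 / s q.1 ^ 4 * F q ^ 2)) (volume.prod μ) :=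
    (((hJm.norm.pow 2).aemeasurable.div (hsm.pow 4).aemeasurable).comp_fst.mul
      (h.mF.pow 2).aemeasurable).ennreal_ofReal
  have eA : ∫⁻ y, ∫⁻ x, ENNReal.ofReal (‖J U gU w gw x‖ ^ 2 / s x ^ 4 * F (x, y) ^ 2) ∂volume ∂μ =
      ∫⁻ x, ENNReal.ofReal (‖J U gU w gw x‖ ^ 2 / s x ^ 2) := by
    rw [← lintegral_prod_symm _ mA]
    have e1 : ∀ q : Pos3 × Y, ENNReal.ofReal (‖J U gU w gw q.1‖ ^ 2 / s q.1 ^ 4 * F q ^ 2) =
        ENNReal.ofReal (‖J U gU w gw q.1‖ ^ 2 / s q.1 ^ 4) * ENNReal.ofReal (F q ^ 2) :=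
      fun q => ENNReal.ofReal_mul (by positivity)
    simp_rw [e1]
    rw [h.weight hs.cont (a := fun x => ENNReal.ofReal (‖J U gU w gw x‖ ^ 2 / s x ^ 4))
      ((hJm.norm.pow 2).aemeasurable.div (hsm.pow 4).aemeasurable).ennreal_ofReal]
    refine lintegral_congr fun x => ?_
    rw [← ENNReal.ofReal_mul (by positivity)]
    congr 1
    have := (hs.pos x).ne'
    field_simp
  -- B
  have mB : AEMeasurable (fun q : Pos3 × Y =>
      ENNReal.ofReal (U q.1 ^ 2 / s q.1 ^ 2 * F q ^ 2)) (volume.prod μ) :=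
    (((hUm.pow 2).aemeasurable.div (hsm.pow 2).aemeasurable).comp_fst.mul
      (h.mF.pow 2).aemeasurable).ennreal_ofReal
  have eB : ∫⁻ y, ENNReal.ofReal (2 * om * ∫ x, U x ^ 2 / s x ^ 2 * F (x, y) ^ 2) ∂μ =
      ENNReal.ofReal om * 4 := by
    have e1 : (fun y => ENNReal.ofReal (2 * om * ∫ x, U x ^ 2 / s x ^ 2 * F (x, y) ^ 2)) =ᵐ[μ]
        fun y => ENNReal.ofReal (2 * om) *
          ∫⁻ x, ENNReal.ofReal (U x ^ 2 / s x ^ 2 * F (x, y) ^ 2) := by
      filter_upwards [h.h1] with y hy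
      rw [ENNReal.ofReal_mul (by positivity)]
      congr 1
      refine ofReal_integral_eq_lintegral_ofReal ?_
        (Eventually.of_forall fun x => by positivity)
      refine hy.memf.integrable_sq.bdd_mul (c := 1)
        ((hUm.pow 2).aemeasurable.div (hsm.pow 2).aemeasurable).aestronglyMeasurable
        (Eventually.of_forall fun x => ?_)
      rw [Real.norm_eq_abs, abs_of_nonneg (by positivity)]
      exact hUs x
    rw [lintegral_congr_ae e1, lintegral_const_mul'' _ mB.lintegral_prod_left',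
      ← lintegral_prod_symm _ mB]
    have e2 : ∀ q : Pos3 × Y, ENNReal.ofReal (U q.1 ^ 2 / s q.1 ^ 2 * F q ^ 2) =
        ENNReal.ofReal (U q.1 ^ 2 / s q.1 ^ 2) * ENNReal.ofReal (F q ^ 2) :=
      fun q => ENNReal.ofReal_mul (by positivity)
    simp_rw [e2]
    rw [h.weight hs.cont (a := fun x => ENNReal.ofReal (U x ^ 2 / s x ^ 2))
      ((hUm.pow 2).aemeasurable.div (hsm.pow 2).aemeasurable).ennreal_ofReal]
    have e3 : ∫⁻ x, ENNReal.ofReal (U x ^ 2 / s x ^ 2) * ENNReal.ofReal (s x ^ 2) =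
        ENNReal.ofReal 2 := by
      rw [← ha.nU, ofReal_integral_eq_lintegral_ofReal ha.hU.memf.integrable_sq
        (Eventually.of_forall fun x => sq_nonneg _)]
      refine lintegral_congr fun x => ?_
      rw [← ENNReal.ofReal_mul (by positivity)]
      congr 1
      have := (hs.pos x).ne'
      field_simp
    rw [e3, ← ENNReal.ofReal_mul (by positivity)]
    rw [show (4 : ℝ≥0∞) = ENNReal.ofReal 4 by simp, ← ENNReal.ofReal_mul hom]
    congr 1; ring
  -- C
  have mC : AEMeasurable (fun q : Pos3 × Y =>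
      ENNReal.ofReal (‖G q - (F q / s q.1) • gs q.1‖ ^ 2)) (volume.prod μ) :=
    ((h.expand hs).1.aestronglyMeasurable).aemeasurable.ennreal_ofReal
  have eC : ∫⁻ y, ∫⁻ x, ENNReal.ofReal (‖G (x, y) - (F (x, y) / s x) • gs x‖ ^ 2) ∂volume ∂μ =
      ENNReal.ofReal (∫ q, ‖G q - (F q / s q.1) • gs q.1‖ ^ 2 ∂(volume.prod μ)) := by
    rw [← lintegral_prod_symm _ mC, ofReal_integral_eq_lintegral_ofReal (h.expand hs).1
      (Eventually.of_forall fun x => by positivity)]
  -- D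
  have eD : ∫⁻ y, ENNReal.ofReal (2 * om * ((1 / 2) * (∫ x, U x * F (x, y)) ^ 2)) ∂μ ≤
      ENNReal.ofReal om * 4 := by
    have e1 : ∀ y, ENNReal.ofReal (2 * om * ((1 / 2) * (∫ x, U x * F (x, y)) ^ 2)) =
        ENNReal.ofReal om * ENNReal.ofReal ((∫ x, U x * F (x, y)) ^ 2) := by
      intro y
      rw [← ENNReal.ofReal_mul hom]
      congr 1; ring
    simp_rw [e1]
    rw [lintegral_const_mul' _ _ ENNReal.ofReal_ne_top]
    gcongr
  -- integrate
  have hmain : (∫⁻ y, ∫⁻ x, ENNReal.ofReal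
        (‖J U gU w gw x‖ ^ 2 / s x ^ 4 * F (x, y) ^ 2) ∂volume ∂μ) +
      (∫⁻ y, ENNReal.ofReal (2 * om * ∫ x, U x ^ 2 / s x ^ 2 * F (x, y) ^ 2) ∂μ) ≤
      (∫⁻ y, ∫⁻ x, ENNReal.ofReal (‖G (x, y) - (F (x, y) / s x) • gs x‖ ^ 2) ∂volume ∂μ) +
      ∫⁻ y, ENNReal.ofReal (2 * om * ((1 / 2) * (∫ x, U x * F (x, y)) ^ 2)) ∂μ := by
    rw [← lintegral_add_left' mA.lintegral_prod_left', ← lintegral_add_left'
      mC.lintegral_prod_left']
    refine lintegral_mono_ae ?_
    filter_upwards [h.h1] with y hy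
    exact hsp _ _ hy
  rw [eA, eB, eC] at hmain
  have h4 : ENNReal.ofReal om * 4 ≠ ⊤ := ENNReal.mul_ne_top ENNReal.ofReal_ne_top (by simp)
  have := hmain.trans (add_le_add_right eD _)
  exact (ENNReal.add_le_add_iff_right h4).1 this

theorem Fam.tmin {U w : Pos3 → ℝ} {gU gw : Pos3 → Pos3} {om : ℝ} (h : Fam μ s F G)
    (hs : Amp s gs) (ha : PairAdm s U gU w gw) (hom : 0 ≤ om)
    (hsp : ∀ f g, H1 f g → SPIneq s gs U gU w gw om f g)
    (hP : ∫⁻ y, ENNReal.ofReal ((∫ x, U x * F (x, y)) ^ 2) ∂μ ≤ 4) :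
    (∫ x, ‖gU x‖ ^ 2) + (∫ x, ‖gw x‖ ^ 2) ≤ ∫ q, ‖G q‖ ^ 2 ∂(volume.prod μ) := by
  have hI := h.integrated hs ha hom hsp hP
  obtain ⟨hx1, hx2⟩ := h.expand hs
  have hgn : Integrable (fun x => ‖gs x‖ ^ 2) volume := hs.h1.memg.integrable_norm_pow two_ne_zero
  have hUn : Integrable (fun x => ‖gU x‖ ^ 2) volume := ha.hU.memg.integrable_norm_pow two_ne_zero
  have hwn : Integrable (fun x => ‖gw x‖ ^ 2) volume := ha.hw.memg.integrable_norm_pow two_ne_zero
  have hpg := pair_grad hs ha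
  have hJn : Integrable (fun x => ‖J U gU w gw x‖ ^ 2 / s x ^ 2) volume := by
    refine ((hUn.add hwn).sub hgn).congr ?_
    filter_upwards [hpg] with x hx
    simp only [Pi.add_apply, Pi.sub_apply]
    rw [hx.2]; ring
  have hsum : (∫ x, ‖gU x‖ ^ 2) + (∫ x, ‖gw x‖ ^ 2) =
      (∫ x, ‖gs x‖ ^ 2) + ∫ x, ‖J U gU w gw x‖ ^ 2 / s x ^ 2 := by
    rw [← integral_add hUn hwn, ← integral_add hgn hJn]
    refine integral_congr_ae ?_
    filter_upwards [hpg] with x hx using hx.2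
  have h3 : ∫ x, ‖J U gU w gw x‖ ^ 2 / s x ^ 2 ≤
      ∫ q, ‖G q - (F q / s q.1) • gs q.1‖ ^ 2 ∂(volume.prod μ) := by
    rw [← ofReal_integral_eq_lintegral_ofReal hJn
      (Eventually.of_forall fun x => by positivity)] at hI
    exact (ENNReal.ofReal_le_ofReal_iff (integral_nonneg fun q => by positivity)).1 hI
  rw [hsum]
  rw [hx2] at h3
  linarith

end Crest.Agent.R335
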