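import Crest.Agent.R335.BSys

/-!
Row 335 (S0521): multipole expansions, pointwise part (helper543).
-/

set_option autoImplicit false
set_option linter.unusedSectionVars false
set_option linter.unusedVariables false

open MeasureTheory Filter Set Crest.MathPhysics.ThreeBody
open scoped ENNReal Topology ContDiff

noncomputable section
namespace Crest.Agent.R335

theorem Mult.rz_apply_two (X : Pos3) : rz X 2 = - X 2 := by rw [rz_apply]; simp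

theorem Mult.norm_rz (X : Pos3) : ‖rz X‖ = ‖X‖ := LinearIsometryEquiv.norm_map _ _

/-- `‖RX - y‖² - ‖X - y‖² = 4 z y_z` -/
theorem Mult.sq_diff (X y : Pos3) : ‖rz X - y‖ ^ 2 - ‖X - y‖ ^ 2 = 4 * X 2 * y 2 := by
  rw [EuclideanSpace.norm_sq_eq, EuclideanSpace.norm_sq_eq, Fin.sum_univ_three,
    Fin.sum_univ_three]
  simp only [Real.norm_eq_abs, sq_abs, PiLp.sub_apply, rz_apply]
  simp
  ring

section
variable {V : Type*} [NormedAddCommGroup V] [InnerProductSpace ℝ V]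

theorem Mult.low {X y : V} {r : ℝ} (hr : ‖X‖ = r) (hy : ‖y‖ ≤ r / 2) : r / 2 ≤ ‖X - y‖ := by
  have := norm_sub_norm_le X y
  linarith

theorem Mult.up {X y : V} {r : ℝ} (hr : ‖X‖ = r) (hy : ‖y‖ ≤ r / 2) : ‖X - y‖ ≤ 3 * r / 2 := by
  have := norm_sub_le X y
  linarith

theorem Mult.near {X y : V} {r : ℝ} (hr : ‖X‖ = r) : |‖X - y‖ - r| ≤ ‖y‖ := by
  have h1 := norm_sub_norm_le X y
  have h2 := norm_sub_le X y
  rw [abs_le]
  constructor <;> linarith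

/-- monopole -/
theorem Mult.inv1 {X y : V} {r : ℝ} (hr : ‖X‖ = r) (h0 : 0 < r) (hy : ‖y‖ ≤ r / 2) :
    |1 / ‖X - y‖ - 1 / r| ≤ 2 * ‖y‖ / r ^ 2 := by
  have hA := Mult.low hr hy
  have hA0 : 0 < ‖X - y‖ := by linarith
  have h1 := Mult.near (y := y) hr
  have e : 1 / ‖X - y‖ - 1 / r = - (‖X - y‖ - r) / (r * ‖X - y‖) := by
    field_simp
    ring
  rw [e, abs_div, abs_neg, abs_of_pos (mul_pos h0 hA0), div_le_div_iff₀ (mul_pos h0 hA0)
    (pow_pos h0 2)]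
  have h2 : r ^ 2 ≤ 2 * (r * ‖X - y‖) := by nlinarith
  calc |‖X - y‖ - r| * r ^ 2 ≤ ‖y‖ * (2 * (r * ‖X - y‖)) :=
        mul_le_mul h1 h2 (by positivity) (norm_nonneg _)
    _ = 2 * ‖y‖ * (r * ‖X - y‖) := by ring

/-- dipole expansion -/
theorem Mult.inv4 {X y : V} {r : ℝ} (hr : ‖X‖ = r) (h0 : 0 < r) (hy : ‖y‖ ≤ r / 2) :
    |1 / ‖X - y‖ - 1 / r - inner ℝ X y / r ^ 3| ≤ 6 * ‖y‖ ^ 2 / r ^ 3 := by
  have hA := Mult.low hr hy
  have hA2 := Mult.up hr hy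
  set A := ‖X - y‖ with hAdef
  have hA0 : 0 < A := by linarith
  have hn := Mult.near (y := y) hr
  rw [← hAdef] at hn
  have hsq : A ^ 2 = r ^ 2 - 2 * inner ℝ X y + ‖y‖ ^ 2 := by
    rw [hAdef, norm_sub_sq_real, hr]
  have hin : |inner ℝ X y| ≤ r * ‖y‖ := by
    rw [← hr]
    exact abs_real_inner_le_norm X y
  set p := inner ℝ X y with hp
  have hden : 0 < r * A * (A + r) := by positivity
  -- identity
  have e : 1 / A - 1 / r - p / r ^ 3 =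
      (p * ((r - A) * (2 * r + A)) - ‖y‖ ^ 2 * r ^ 2) / (r ^ 3 * A * (A + r)) := by
    have h1 : 2 * p = r ^ 2 - A ^ 2 + ‖y‖ ^ 2 := by linarith
    rw [div_sub_div _ _ hA0.ne' h0.ne', div_sub_div _ _ (by positivity) (by positivity),
      div_eq_div_iff (by positivity) (by positivity)]
    have : ‖y‖ ^ 2 = 2 * p - r ^ 2 + A ^ 2 := by linarith
    rw [this]
    ring
  have hden2 : r ^ 3 * (3 * r ^ 2 / 4) ≤ r ^ 3 * A * (A + r) := by
    have : 3 * r ^ 2 / 4 ≤ A * (A + r) := by nlinarith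
    calc r ^ 3 * (3 * r ^ 2 / 4) ≤ r ^ 3 * (A * (A + r)) :=
          mul_le_mul_of_nonneg_left this (by positivity)
      _ = r ^ 3 * A * (A + r) := by ring
  have hnum : |p * ((r - A) * (2 * r + A)) - ‖y‖ ^ 2 * r ^ 2| ≤ 9 / 2 * ‖y‖ ^ 2 * r ^ 2 := by
    have h1 : |p * ((r - A) * (2 * r + A))| ≤ (r * ‖y‖) * (‖y‖ * (7 * r / 2)) := by
      rw [abs_mul, abs_mul]
      refine mul_le_mul hin (mul_le_mul ?_ ?_ (abs_nonneg _) (norm_nonneg _)) (by positivity)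
        (by positivity)
      · rw [abs_sub_comm]; exact hn
      · rw [abs_of_pos (by positivity)]
        linarith
    calc |p * ((r - A) * (2 * r + A)) - ‖y‖ ^ 2 * r ^ 2|
        ≤ |p * ((r - A) * (2 * r + A))| + |‖y‖ ^ 2 * r ^ 2| := abs_sub _ _
      _ ≤ (r * ‖y‖) * (‖y‖ * (7 * r / 2)) + ‖y‖ ^ 2 * r ^ 2 := by
          rw [abs_of_nonneg (show 0 ≤ ‖y‖ ^ 2 * r ^ 2 by positivity)]
          linarith
      _ = 9 / 2 * ‖y‖ ^ 2 * r ^ 2 := by ring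
  rw [e, abs_div, abs_of_pos (show 0 < r ^ 3 * A * (A + r) by positivity),
    div_le_div_iff₀ (by positivity) (by positivity)]
  calc |p * ((r - A) * (2 * r + A)) - ‖y‖ ^ 2 * r ^ 2| * r ^ 3
      ≤ (9 / 2 * ‖y‖ ^ 2 * r ^ 2) * r ^ 3 := mul_le_mul_of_nonneg_right hnum (by positivity)
    _ = 6 * ‖y‖ ^ 2 * (r ^ 3 * (3 * r ^ 2 / 4)) := by ring
    _ ≤ 6 * ‖y‖ ^ 2 * (r ^ 3 * A * (A + r)) := mul_le_mul_of_nonneg_left hden2 (by positivity)

end

/-- difference of the two reflected potentials -/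
theorem Mult.inv2 {X y : Pos3} {r : ℝ} (hr : ‖X‖ = r) (h0 : 0 < r) (hy : ‖y‖ ≤ r / 2) :
    |1 / ‖X - y‖ - 1 / ‖rz X - y‖| ≤ 16 * |X 2| * |y 2| / r ^ 3 := by
  have hA := Mult.low hr hy
  have hr' : ‖rz X‖ = r := by rw [Mult.norm_rz, hr]
  have hB := Mult.low hr' hy
  have hs := Mult.sq_diff X y
  set A := ‖X - y‖
  set B := ‖rz X - y‖
  have hA0 : 0 < A := by linarith
  have hB0 : 0 < B := by linarith
  have e : 1 / A - 1 / B = (4 * X 2 * y 2) / (A * B * (A + B)) := by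
    rw [← hs, div_sub_div _ _ hA0.ne' hB0.ne', div_eq_div_iff (by positivity) (by positivity)]
    ring
  have hden : r ^ 3 / 4 ≤ A * B * (A + B) := by
    have h1 : r / 2 * (r / 2) ≤ A * B := mul_le_mul hA hB (by positivity) hA0.le
    have h2 : r ≤ A + B := by linarith
    calc r ^ 3 / 4 = r / 2 * (r / 2) * r := by ring
      _ ≤ A * B * (A + B) := mul_le_mul h1 h2 h0.le (by positivity)
  rw [e, abs_div, abs_of_pos (show 0 < A * B * (A + B) by positivity), abs_mul, abs_mul,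
    abs_of_pos (show (0 : ℝ) < 4 by norm_num), div_le_div_iff₀ (by positivity) (by positivity)]
  calc 4 * |X 2| * |y 2| * r ^ 3 = 16 * |X 2| * |y 2| * (r ^ 3 / 4) := by ring
    _ ≤ 16 * |X 2| * |y 2| * (A * B * (A + B)) := mul_le_mul_of_nonneg_left hden (by positivity)

/-- dipole part of the difference -/
theorem Mult.inv3 {X y : Pos3} {r : ℝ} (hr : ‖X‖ = r) (h0 : 0 < r) (hy : ‖y‖ ≤ r / 2) :
    |(1 / ‖X - y‖ - 1 / ‖rz X - y‖) / 2 - X 2 * y 2 / r ^ 3| ≤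
      38 * |X 2| * ‖y‖ ^ 2 / r ^ 4 := by
  have hA := Mult.low hr hy
  have hr' : ‖rz X‖ = r := by rw [Mult.norm_rz, hr]
  have hB := Mult.low hr' hy
  have hnA := Mult.near (y := y) hr
  have hnB := Mult.near (y := y) hr'
  have hs := Mult.sq_diff X y
  set A := ‖X - y‖
  set B := ‖rz X - y‖
  have hA0 : 0 < A := by linarith
  have hB0 : 0 < B := by linarith
  have hy2 : |y 2| ≤ ‖y‖ := by
    have := PiLp.norm_apply_le y 2
    rwa [Real.norm_eq_abs] at this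
  have e : (1 / A - 1 / B) / 2 - X 2 * y 2 / r ^ 3 =
      (X 2 * y 2 * (2 * r ^ 3 - A * B * (A + B))) / (r ^ 3 * (A * B * (A + B))) := by
    have h1 : 1 / A - 1 / B = (4 * X 2 * y 2) / (A * B * (A + B)) := by
      rw [← hs, div_sub_div _ _ hA0.ne' hB0.ne', div_eq_div_iff (by positivity) (by positivity)]
      ring
    rw [h1, div_div, div_sub_div _ _ (by positivity) (by positivity),
      div_eq_div_iff (by positivity) (by positivity)]
    ring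
  have hden : r ^ 3 / 4 ≤ A * B * (A + B) := by
    have h1 : r / 2 * (r / 2) ≤ A * B := mul_le_mul hA hB (by positivity) hA0.le
    have h2 : r ≤ A + B := by linarith
    calc r ^ 3 / 4 = r / 2 * (r / 2) * r := by ring
      _ ≤ A * B * (A + B) := mul_le_mul h1 h2 h0.le (by positivity)
  have hnum : |2 * r ^ 3 - A * B * (A + B)| ≤ 19 / 2 * r ^ 2 * ‖y‖ := by
    obtain ⟨α, hα⟩ : ∃ α, A = r + α := ⟨A - r, by ring⟩
    obtain ⟨β, hβ⟩ : ∃ β, B = r + β := ⟨B - r, by ring⟩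
    have hα' : |α| ≤ ‖y‖ := by
      have : A - r = α := by rw [hα]; ring
      rwa [this] at hnA
    have hβ' : |β| ≤ ‖y‖ := by
      have : B - r = β := by rw [hβ]; ring
      rwa [this] at hnB
    have e2 : 2 * r ^ 3 - A * B * (A + B) =
        -(3 * r ^ 2 * (α + β) + r * (α + β) ^ 2 + 2 * r * (α * β) + α * β * (α + β)) := by
      rw [hα, hβ]
      ring
    rw [e2, abs_neg]
    have t := norm_nonneg y
    have ab : |α + β| ≤ 2 * ‖y‖ := (abs_add_le α β).trans (by linarith)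
    have m : |α * β| ≤ ‖y‖ * ‖y‖ := by
      rw [abs_mul]
      exact mul_le_mul hα' hβ' (abs_nonneg _) t
    have h1 : |3 * r ^ 2 * (α + β)| ≤ 3 * r ^ 2 * (2 * ‖y‖) := by
      rw [abs_mul, abs_of_pos (show 0 < 3 * r ^ 2 by positivity)]
      exact mul_le_mul_of_nonneg_left ab (by positivity)
    have h2 : |r * (α + β) ^ 2| ≤ r * (2 * ‖y‖) ^ 2 := by
      rw [abs_mul, abs_of_pos h0, abs_pow]
      exact mul_le_mul_of_nonneg_left (pow_le_pow_left₀ (abs_nonneg _) ab 2) h0.le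
    have h3 : |2 * r * (α * β)| ≤ 2 * r * (‖y‖ * ‖y‖) := by
      rw [abs_mul, abs_of_pos (show 0 < 2 * r by positivity)]
      exact mul_le_mul_of_nonneg_left m (by positivity)
    have h4 : |α * β * (α + β)| ≤ ‖y‖ * ‖y‖ * (2 * ‖y‖) := by
      rw [abs_mul]
      exact mul_le_mul m ab (abs_nonneg _) (by positivity)
    have h5 : |3 * r ^ 2 * (α + β) + r * (α + β) ^ 2 + 2 * r * (α * β) + α * β * (α + β)| ≤
        3 * r ^ 2 * (2 * ‖y‖) + r * (2 * ‖y‖) ^ 2 + 2 * r * (‖y‖ * ‖y‖) +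
          ‖y‖ * ‖y‖ * (2 * ‖y‖) := by
      refine (abs_add_le _ _).trans (add_le_add ((abs_add_le _ _).trans (add_le_add
        ((abs_add_le _ _).trans (add_le_add h1 h2)) h3)) h4)
    refine h5.trans ?_
    have h6 : ‖y‖ * ‖y‖ ≤ ‖y‖ * (r / 2) := mul_le_mul_of_nonneg_left hy t
    have h7 : ‖y‖ * ‖y‖ * ‖y‖ ≤ ‖y‖ * (r / 2) * (r / 2) :=
      mul_le_mul h6 hy t (by positivity)
    nlinarith [mul_le_mul_of_nonneg_left h6 h0.le]
  rw [e, abs_div, abs_of_pos (show 0 < r ^ 3 * (A * B * (A + B)) by positivity), abs_mul, abs_mul,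
    div_le_div_iff₀ (by positivity) (by positivity)]
  calc |X 2| * |y 2| * |2 * r ^ 3 - A * B * (A + B)| * r ^ 4
      ≤ |X 2| * ‖y‖ * (19 / 2 * r ^ 2 * ‖y‖) * r ^ 4 := by
        refine mul_le_mul_of_nonneg_right (mul_le_mul (mul_le_mul_of_nonneg_left hy2
          (abs_nonneg _)) hnum (abs_nonneg _) (by positivity)) (by positivity)
    _ = 38 * |X 2| * ‖y‖ ^ 2 * (r ^ 3 * (r ^ 3 / 4)) := by ring
    _ ≤ 38 * |X 2| * ‖y‖ ^ 2 * (r ^ 3 * (A * B * (A + B))) :=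
        mul_le_mul_of_nonneg_left (mul_le_mul_of_nonneg_left hden (by positivity)) (by positivity)

/-! ### the weight -/

theorem Mult.norm_le_jb (y : Pos3) : ‖y‖ ≤ jb y := by
  unfold jb
  exact Real.le_sqrt_of_sq_le (by linarith)

theorem Mult.one_le_jb (y : Pos3) : 1 ≤ jb y := by
  unfold jb
  exact Real.one_le_sqrt.2 (by nlinarith [sq_nonneg ‖y‖])

theorem Mult.two_le_wi (ξ : Y2) : 2 ≤ wi ξ := by
  unfold wi
  linarith [Mult.one_le_jb (el 0 ξ), Mult.one_le_jb (el 1 ξ)]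

theorem Mult.norm_el_add_le (ξ : Y2) : ‖el 0 ξ‖ + ‖el 1 ξ‖ ≤ wi ξ := by
  unfold wi
  linarith [Mult.norm_le_jb (el 0 ξ), Mult.norm_le_jb (el 1 ξ)]

theorem Mult.norm_el_le (j : Fin 2) (ξ : Y2) : ‖el j ξ‖ ≤ wi ξ := by
  have := Mult.norm_el_add_le ξ
  fin_cases j
  · show ‖el 0 ξ‖ ≤ wi ξ
    linarith [norm_nonneg (el 1 ξ)]
  · show ‖el 1 ξ‖ ≤ wi ξ
    linarith [norm_nonneg (el 0 ξ)]

/-- `|W_X - 2/r| ≤ 2 w / r²` on `{w ≤ r/2}` -/
theorem Mult.WX_sub_le {X : Pos3} {ξ : Y2} {r : ℝ} (hr : ‖X‖ = r) (h0 : 0 < r)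
    (hw : wi ξ ≤ r / 2) : |WX X ξ - 2 / r| ≤ 2 * wi ξ / r ^ 2 := by
  have h1 := Mult.inv1 hr h0 ((Mult.norm_el_le 0 ξ).trans hw)
  have h2 := Mult.inv1 hr h0 ((Mult.norm_el_le 1 ξ).trans hw)
  have e : WX X ξ - 2 / r = (1 / ‖X - el 0 ξ‖ - 1 / r) + (1 / ‖X - el 1 ξ‖ - 1 / r) := by
    unfold WX
    ring
  rw [e]
  refine (abs_add_le _ _).trans ((add_le_add h1 h2).trans ?_)
  rw [← add_div, ← mul_add]
  exact div_le_div_of_nonneg_right (mul_le_mul_of_nonneg_left (Mult.norm_el_add_le ξ)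
    (by norm_num)) (by positivity)

theorem Mult.abs_two_le (y : Pos3) : |y 2| ≤ ‖y‖ := by
  have := PiLp.norm_apply_le y 2
  rwa [Real.norm_eq_abs] at this

/-- `|W^-_X| ≤ 8 |z| w / r³` on `{w ≤ r/2}` -/
theorem Mult.Wm_le {X : Pos3} {ξ : Y2} {r : ℝ} (hr : ‖X‖ = r) (h0 : 0 < r)
    (hw : wi ξ ≤ r / 2) : |Wm X ξ| ≤ 8 * |X 2| * wi ξ / r ^ 3 := by
  have h1 := Mult.inv2 hr h0 ((Mult.norm_el_le 0 ξ).trans hw)
  have h2 := Mult.inv2 hr h0 ((Mult.norm_el_le 1 ξ).trans hw)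
  have e : Wm X ξ = ((1 / ‖X - el 0 ξ‖ - 1 / ‖rz X - el 0 ξ‖) +
      (1 / ‖X - el 1 ξ‖ - 1 / ‖rz X - el 1 ξ‖)) / 2 := by
    unfold Wm WX
    ring
  rw [e, abs_div, abs_of_pos (show (0 : ℝ) < 2 by norm_num)]
  have h3 := (abs_add_le _ _).trans (add_le_add h1 h2)
  have h4 : |(el 0 ξ) 2| + |(el 1 ξ) 2| ≤ wi ξ :=
    (add_le_add (Mult.abs_two_le _) (Mult.abs_two_le _)).trans (Mult.norm_el_add_le ξ)
  calc _ ≤ (16 * |X 2| * |(el 0 ξ) 2| / r ^ 3 + 16 * |X 2| * |(el 1 ξ) 2| / r ^ 3) / 2 :=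
        div_le_div_of_nonneg_right h3 (by norm_num)
    _ = 8 * |X 2| * (|(el 0 ξ) 2| + |(el 1 ξ) 2|) / r ^ 3 := by ring
    _ ≤ 8 * |X 2| * wi ξ / r ^ 3 := by
        refine div_le_div_of_nonneg_right (mul_le_mul_of_nonneg_left h4 (by positivity))
          (by positivity)

/-- dipole part of `W^-_X` on `{w ≤ r/2}` -/
theorem Mult.Wm_dip {X : Pos3} {ξ : Y2} {r : ℝ} (hr : ‖X‖ = r) (h0 : 0 < r)
    (hw : wi ξ ≤ r / 2) : |Wm X ξ - X 2 / r ^ 3 * (el 0 ξ 2 + el 1 ξ 2)| ≤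
      38 * |X 2| * wi ξ ^ 2 / r ^ 4 := by
  have h1 := Mult.inv3 hr h0 ((Mult.norm_el_le 0 ξ).trans hw)
  have h2 := Mult.inv3 hr h0 ((Mult.norm_el_le 1 ξ).trans hw)
  have e : Wm X ξ - X 2 / r ^ 3 * (el 0 ξ 2 + el 1 ξ 2) =
      ((1 / ‖X - el 0 ξ‖ - 1 / ‖rz X - el 0 ξ‖) / 2 - X 2 * (el 0 ξ 2) / r ^ 3) +
      ((1 / ‖X - el 1 ξ‖ - 1 / ‖rz X - el 1 ξ‖) / 2 - X 2 * (el 1 ξ 2) / r ^ 3) := by
    unfold Wm WX
    ring
  rw [e]
  have h3 := (abs_add_le _ _).trans (add_le_add h1 h2)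
  refine h3.trans ?_
  rw [← add_div, ← mul_add]
  refine div_le_div_of_nonneg_right (mul_le_mul_of_nonneg_left ?_ (by positivity)) (by positivity)
  have h4 := Mult.norm_el_add_le ξ
  nlinarith [norm_nonneg (el 0 ξ), norm_nonneg (el 1 ξ),
    mul_nonneg (norm_nonneg (el 0 ξ)) (norm_nonneg (el 1 ξ))]

/-- quadrupole remainder of `W_X` on `{w ≤ r/2}` -/
theorem Mult.WX_quad {X : Pos3} {ξ : Y2} {r : ℝ} (hr : ‖X‖ = r) (h0 : 0 < r)
    (hw : wi ξ ≤ r / 2) :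
    |WX X ξ - 2 / r - inner ℝ X (el 0 ξ + el 1 ξ) / r ^ 3| ≤ 6 * wi ξ ^ 2 / r ^ 3 := by
  have h1 := Mult.inv4 hr h0 ((Mult.norm_el_le 0 ξ).trans hw)
  have h2 := Mult.inv4 hr h0 ((Mult.norm_el_le 1 ξ).trans hw)
  have e : WX X ξ - 2 / r - inner ℝ X (el 0 ξ + el 1 ξ) / r ^ 3 =
      (1 / ‖X - el 0 ξ‖ - 1 / r - inner ℝ X (el 0 ξ) / r ^ 3) +
      (1 / ‖X - el 1 ξ‖ - 1 / r - inner ℝ X (el 1 ξ) / r ^ 3) := by
    unfold WX
    rw [inner_add_right]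
    ring
  rw [e]
  refine ((abs_add_le _ _).trans (add_le_add h1 h2)).trans ?_
  rw [← add_div, ← mul_add]
  refine div_le_div_of_nonneg_right (mul_le_mul_of_nonneg_left ?_ (by positivity)) (by positivity)
  have h4 := Mult.norm_el_add_le ξ
  nlinarith [norm_nonneg (el 0 ξ), norm_nonneg (el 1 ξ),
    mul_nonneg (norm_nonneg (el 0 ξ)) (norm_nonneg (el 1 ξ))]

end Crest.Agent.R335
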