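import Crest.Agent.R335.HHardy
import Crest.Agent.R335.OBPot

/-! Row 335: the hydrogen identity on Pos3 (from HHardy). -/

set_option autoImplicit false

open MeasureTheory Filter Set Crest.MathPhysics.ThreeBody
open scoped ENNReal Topology ContDiff

noncomputable section
namespace Crest.Agent.R335

theorem hydrogen_identity {f : Pos3 → ℝ} {g : Pos3 → Pos3} (h : H1 f g) (ζ : ℝ) (a : Pos3) :
    (1 / 2) * (∫ x, ‖g x‖ ^ 2) - ζ * (∫ x, f x ^ 2 / ‖x - a‖) + ζ ^ 2 / 2 * (∫ x, f x ^ 2) =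
      (1 / 2) * ∫ x, ‖g x + (ζ * f x / ‖x - a‖) • (x - a)‖ ^ 2 := by
  have key := Hd.hydrogen_identity (A := ContinuousLinearMap.id ℝ Pos3) (R := a)
    (e := fun c => EuclideanSpace.single c (1 : ℝ)) (fun c => rfl) h ζ
  have hi : ∀ (v : Pos3) (c : Fin 3), inner ℝ v (EuclideanSpace.single c (1 : ℝ)) = v c := by
    intro v c
    simp [EuclideanSpace.inner_single_right]
  have e1 : (fun x => Hd.gsq (fun c => EuclideanSpace.single c (1 : ℝ)) g x) = fun x => ‖g x‖ ^ 2 := by
    funext x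
    unfold Hd.gsq
    rw [EuclideanSpace.norm_sq_eq]
    simp [hi]
  have e2 : (fun x => ∑ c, (inner ℝ (g x) (EuclideanSpace.single c (1 : ℝ)) + ζ * f x *
      ((ContinuousLinearMap.id ℝ Pos3 x - a) c / ‖ContinuousLinearMap.id ℝ Pos3 x - a‖)) ^ 2) =
      fun x => ‖g x + (ζ * f x / ‖x - a‖) • (x - a)‖ ^ 2 := by
    funext x
    rw [EuclideanSpace.norm_sq_eq]
    apply Finset.sum_congr rfl
    intro c _
    rw [hi]
    simp only [ContinuousLinearMap.id_apply, PiLp.add_apply, PiLp.smul_apply, smul_eq_mul,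
      Real.norm_eq_abs, sq_abs]
    ring
  rw [e1, e2] at key
  exact key

end Crest.Agent.R335
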