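import Crest.Agent.R335.OBPot
import Crest.Agent.R335.OBHId
import Crest.Agent.R335.HPoin
import Crest.Agent.R335.HProd

/-!
Row 335 (S0521), ONE-BODY block: hydrogen, weak equation and spectral gap (helper733).
-/

set_option autoImplicit false

open MeasureTheory Filter Set Crest.MathPhysics.ThreeBody
open scoped ENNReal Topology ContDiff

noncomputable section
namespace Crest.Agent.R335

/-- shifted hydrogen form -/
def qh (a : Pos3) (f : Pos3 → ℝ) (g : Pos3 → Pos3) : ℝ :=
  (1 / 2) * (∫ x, ‖g x‖ ^ 2) - (∫ x, f x ^ 2 / ‖x - a‖) + 1 / 2 * (∫ x, f x ^ 2)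

theorem qh_eq {f : Pos3 → ℝ} {g : Pos3 → Pos3} (h : H1 f g) (a : Pos3) :
    qh a f g = (1 / 2) * ∫ x, ‖g x + (f x / ‖x - a‖) • (x - a)‖ ^ 2 := by
  have h1 := hydrogen_identity h 1 a
  unfold qh
  simp only [one_mul, one_pow] at h1
  rw [← h1]

lemma dhyd_add (a x : Pos3) : dhyd a x + (hyd a x / ‖x - a‖) • (x - a) = 0 := by
  unfold dhyd
  rw [neg_smul, neg_add_cancel]

lemma sq_norm_integrable {g : Pos3 → Pos3} (h : MemLp g 2 volume) : Integrable (fun x => ‖g x‖ ^ 2) :=
  (memLp_two_iff_integrable_sq_norm h.1).1 h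

lemma ob_inner_integrable {g l : Pos3 → Pos3} (h : MemLp g 2 volume) (h' : MemLp l 2 volume) :
    Integrable (fun x => inner ℝ (g x) (l x)) := by
  refine ((sq_norm_integrable h).add (sq_norm_integrable h')).mono' (h.1.inner h'.1)
    (ae_of_all _ fun x => ?_)
  simp only [Pi.add_apply]
  refine (norm_inner_le_norm _ _).trans ?_
  nlinarith [sq_nonneg (‖g x‖ - ‖l x‖), norm_nonneg (g x), norm_nonneg (l x)]

lemma ob_int3 {F p q r : Pos3 → ℝ} (c : ℝ) (hp : Integrable p) (hq : Integrable q)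
    (hr : Integrable r) (h : ∀ x, F x = p x + c * q x + r x) :
    ∫ x, F x = (∫ x, p x) + c * (∫ x, q x) + ∫ x, r x := by
  have e : F = fun x => (p x + c * q x) + r x := funext h
  have h1 : Integrable (fun x => p x + c * q x) := hp.add (hq.const_mul c)
  rw [e, integral_add h1 hr, integral_add hp (hq.const_mul c), integral_const_mul]

lemma ob_coul_integrable2 {f k : Pos3 → ℝ} {g : Pos3 → Pos3} (h : H1 f g) (hk : MemLp k 2 volume)
    (a : Pos3) : Integrable (fun x => f x * k x / ‖x - a‖) := by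
  have h1 := (ob_hardy h a).1
  have hm : AEStronglyMeasurable (fun x => f x / ‖x - a‖) volume := by
    refine h.memf.1.div₀ ?_
    exact (by fun_prop : Measurable fun x : Pos3 => ‖x - a‖).aestronglyMeasurable
  have h2 : MemLp (fun x => f x / ‖x - a‖) 2 volume := by
    rw [memLp_two_iff_integrable_sq hm]
    refine h1.congr (ae_of_all _ fun x => ?_)
    simp only [div_pow]
  refine (h2.integrable_mul hk).congr (ae_of_all _ fun x => ?_)
  simp only [Pi.mul_apply]
  ring

/-- weak equation of the hydrogen ground state -/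
theorem hyd_eq (a : Pos3) {f : Pos3 → ℝ} {g : Pos3 → Pos3} (h : H1 f g) :
    (1 / 2) * (∫ x, inner ℝ (dhyd a x) (g x)) - ∫ x, hyd a x * f x / ‖x - a‖ =
      -(1 / 2) * ∫ x, hyd a x * f x := by
  have hs := (hyd_H1 a).add h
  have e1 : qh a (fun x => hyd a x + f x) (fun x => dhyd a x + g x) = qh a f g := by
    rw [qh_eq hs a, qh_eq h a]
    congr 1
    refine integral_congr_ae (ae_of_all _ fun x => ?_)
    simp only
    have : dhyd a x + g x + ((hyd a x + f x) / ‖x - a‖) • (x - a) = g x + (f x / ‖x - a‖) • (x - a) := by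
      rw [add_div, add_smul]
      have h0 := dhyd_add a x
      calc dhyd a x + g x + ((hyd a x / ‖x - a‖) • (x - a) + (f x / ‖x - a‖) • (x - a))
          = (dhyd a x + (hyd a x / ‖x - a‖) • (x - a)) + (g x + (f x / ‖x - a‖) • (x - a)) := by abel
        _ = _ := by rw [h0, zero_add]
    rw [this]
  have e2 : qh a (hyd a) (dhyd a) = 0 := by
    rw [qh_eq (hyd_H1 a) a]
    simp_rw [dhyd_add]
    simp
  have i1 := sq_norm_integrable (hyd_H1 a).memg
  have i2 := sq_norm_integrable h.memg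
  have i3 := ob_inner_integrable (hyd_H1 a).memg h.memg
  have j1 := (ob_coulomb (hyd_H1 a) a one_pos).1
  have j2 := (ob_coulomb h a one_pos).1
  have j3 := ob_coul_integrable2 (hyd_H1 a) h.memf a
  have k1 := (hyd_H1 a).memf.integrable_sq
  have k2 := h.memf.integrable_sq
  have k3 : Integrable (fun x => hyd a x * f x) := (hyd_H1 a).memf.integrable_mul h.memf
  have e3 : qh a (fun x => hyd a x + f x) (fun x => dhyd a x + g x) =
      qh a (hyd a) (dhyd a) + qh a f g + 2 * ((1 / 2) * (∫ x, inner ℝ (dhyd a x) (g x)) -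
        (∫ x, hyd a x * f x / ‖x - a‖) + 1 / 2 * ∫ x, hyd a x * f x) := by
    unfold qh
    have f1 : ∫ x, ‖dhyd a x + g x‖ ^ 2 = (∫ x, ‖dhyd a x‖ ^ 2) + 2 * (∫ x, inner ℝ (dhyd a x) (g x)) +
        ∫ x, ‖g x‖ ^ 2 := ob_int3 2 i1 i3 i2 fun x => norm_add_sq_real _ _
    have f2 : ∫ x, (hyd a x + f x) ^ 2 / ‖x - a‖ = (∫ x, hyd a x ^ 2 / ‖x - a‖) +
        2 * (∫ x, hyd a x * f x / ‖x - a‖) + ∫ x, f x ^ 2 / ‖x - a‖ :=
      ob_int3 2 j1 j3 j2 fun x => by ring
    have f3 : ∫ x, (hyd a x + f x) ^ 2 = (∫ x, hyd a x ^ 2) +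
        2 * (∫ x, hyd a x * f x) + ∫ x, f x ^ 2 := ob_int3 2 k1 k3 k2 fun x => by ring
    rw [f1, f2, f3]
    ring
  rw [e1, e2] at e3
  linarith

/-! ### the local Poincaré inequality for `e^r f` -/

/-- truncated exponential weight -/
def wE (a x : Pos3) : ℝ := Real.exp (min ‖x - a‖ 8)

lemma wE_lipschitz (a : Pos3) : LipschitzWith (Real.toNNReal (Real.exp 8)) (wE a) := by
  refine LipschitzWith.of_dist_le_mul fun x y => ?_
  rw [Real.dist_eq, Real.coe_toNNReal _ (Real.exp_pos _).le, dist_eq_norm]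
  unfold wE
  have h1 : |Real.exp (min ‖x - a‖ 8) - Real.exp (min ‖y - a‖ 8)| ≤
      Real.exp 8 * |min ‖x - a‖ 8 - min ‖y - a‖ 8| := by
    have := (convex_Iic (8 : ℝ)).norm_image_sub_le_of_norm_hasDerivWithin_le (f := Real.exp)
      (f' := Real.exp) (C := Real.exp 8) (fun t _ => (Real.hasDerivAt_exp t).hasDerivWithinAt)
      (fun t ht => by
        rw [Real.norm_eq_abs, abs_of_pos (Real.exp_pos t)]; exact Real.exp_le_exp.2 ht)
      (min_le_right ‖y - a‖ 8) (min_le_right ‖x - a‖ 8)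
    simpa [Real.norm_eq_abs] using this
  refine h1.trans (mul_le_mul_of_nonneg_left ?_ (Real.exp_pos _).le)
  refine (abs_min_sub_min_le_max _ _ _ _).trans ?_
  rw [sub_self, abs_zero, max_eq_left (abs_nonneg _)]
  refine (abs_norm_sub_norm_le _ _).trans (le_of_eq ?_)
  congr 1
  abel

lemma wE_pos (a x : Pos3) : 0 < wE a x := Real.exp_pos _

lemma wE_le (a x : Pos3) : wE a x ≤ Real.exp 8 := Real.exp_le_exp.2 (min_le_right _ _)

lemma gr_wE {a x : Pos3} (hx : x ≠ a) (h8 : ‖x - a‖ < 8) :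
    gr (wE a) x = (Real.exp ‖x - a‖ / ‖x - a‖) • (x - a) := by
  have he : wE a =ᶠ[𝓝 x] fun y => Real.exp ‖y - a‖ := by
    have ho : IsOpen {y : Pos3 | ‖y - a‖ < 8} := isOpen_lt (by fun_prop) continuous_const
    filter_upwards [ho.mem_nhds h8] with y hy
    unfold wE
    rw [min_eq_left (le_of_lt hy)]
  have h1 : gr (wE a) x = gr (fun y => Real.exp ‖y - a‖) x := by
    unfold gr
    congr 1
    funext i
    exact pd_congr_of_eventuallyEq he i
  rw [h1]
  exact ob_gr_radial (F := Real.exp) (F' := Real.exp) hx (Real.hasDerivAt_exp _)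

lemma wE_mul_H1 {f : Pos3 → ℝ} {g : Pos3 → Pos3} (h : H1 f g) (a : Pos3) :
    H1 (fun x => wE a x * f x) (fun x => wE a x • g x + f x • gr (wE a) x) := by
  obtain ⟨h1, h2⟩ := WG.of_lipschitz (wE_lipschitz a)
  refine H1.mul_bdd h h1 (C := Real.exp 8) (fun x => ?_) (fun x => ?_)
  · rw [abs_of_pos (wE_pos a x)]; exact wE_le a x
  · refine (h2 x).trans (le_of_eq ?_)
    exact Real.coe_toNNReal _ (Real.exp_pos _).le

/-- the corner of the cube -/
def crn (a : Pos3) : Pos3 := WithLp.toLp 2 fun i => a i - 4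

@[simp] lemma crn_apply (a : Pos3) (i : Fin 3) : crn a i = a i - 4 := rfl

/-- the cube of side 8 centred at `a` -/
def cubeA (a : Pos3) : Set Pos3 :=
  {x : Pos3 | ∀ i, crn a i < x i ∧ x i < crn a i + 8}

lemma cubeA_norm {a x : Pos3} (hx : x ∈ cubeA a) : ‖x - a‖ < 8 := by
  have h : ∀ i, |(x - a) i| < 4 := by
    intro i
    have := hx i
    simp only [crn_apply] at this
    rw [PiLp.sub_apply, abs_lt]
    constructor <;> linarith [this.1, this.2]
  have h2 : ‖x - a‖ ^ 2 ≤ 48 := by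
    rw [EuclideanSpace.real_norm_sq_eq, Fin.sum_univ_three]
    have h3 : ∀ i, ((x - a) i) ^ 2 ≤ 16 := by
      intro i
      have := h i
      rw [abs_lt] at this
      nlinarith [this.1, this.2]
    linarith [h3 0, h3 1, h3 2]
  nlinarith [norm_nonneg (x - a)]

lemma mem_cubeA {a x : Pos3} (hx : ‖x - a‖ < 4) : x ∈ cubeA a := by
  intro i
  have h1 : |(x - a) i| ≤ ‖x - a‖ := ob_abs_coord_le _ i
  have h2 := abs_lt.1 (lt_of_le_of_lt h1 hx)
  simp only [PiLp.sub_apply] at h2
  simp only [crn_apply]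
  constructor <;> linarith [h2.1, h2.2]

lemma isOpen_cubeA (a : Pos3) : IsOpen (cubeA a) := Poin.isOpen_cube _ _

lemma volume_cubeA_lt (a : Pos3) : volume (cubeA a) < ⊤ := by
  refine lt_of_le_of_lt (measure_mono (t := Metric.ball a 8) fun x hx => ?_) measure_ball_lt_top
  rw [Metric.mem_ball, dist_eq_norm]
  exact cubeA_norm hx

lemma volume_cubeA_pos (a : Pos3) : 0 < volume (cubeA a) :=
  (isOpen_cubeA a).measure_pos volume ⟨a, mem_cubeA (by simp)⟩

/-- local Poincaré inequality relative to the hydrogen ground state -/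
lemma hyd_local {f : Pos3 → ℝ} {g : Pos3 → Pos3} (h : H1 f g) (a : Pos3) :
    ∃ c : ℝ, ∫ x in cubeA a, (f x - c * hyd a x) ^ 2 ≤ 384 * Real.exp 16 * qh a f g := by
  set k : Pos3 → ℝ := fun x => wE a x * f x with hk
  set l : Pos3 → Pos3 := fun x => wE a x • g x + f x • gr (wE a) x with hl
  have hkl : H1 k l := wE_mul_H1 h a
  set v : ℝ := (volume : Measure Pos3).real (cubeA a) with hv
  have hv0 : 0 < v := ENNReal.toReal_pos (volume_cubeA_pos a).ne' (volume_cubeA_lt a).ne
  set m : ℝ := (∫ x in cubeA a, k x) / v with hm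
  have : IsFiniteMeasure ((volume : Measure Pos3).restrict (cubeA a)) :=
    ⟨by rw [Measure.restrict_apply_univ]; exact volume_cubeA_lt a⟩
  have hkI : IntegrableOn k (cubeA a) := (hkl.memf.restrict _).integrable (by norm_num)
  have hmean : ∫ x in cubeA a, (k x - m) = 0 := by
    rw [integral_sub hkI (integrable_const m), setIntegral_const, smul_eq_mul, ← hv, hm]
    field_simp
    ring
  have hconst : WG univ (fun _ : Pos3 => m) (fun _ => (0 : Pos3)) := by
    have h1 := WG.of_contDiffOn (U := (univ : Set Pos3)) isOpen_univ (f := fun _ => m) contDiffOn_const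
    refine WG.congr isOpen_univ h1 (ae_of_all _ fun _ => rfl) (ae_of_all _ fun x => ?_)
    ext i
    simp [gr_apply, pd]
  have hwg : WG univ (fun x => k x - m) (fun x => l x - 0) := hkl.wg.sub hconst isOpen_univ
  have hL2 : L2loc univ (fun x => k x - m) := by
    intro K hK _
    have : IsFiniteMeasure ((volume : Measure Pos3).restrict K) :=
      ⟨by rw [Measure.restrict_apply_univ]; exact hK.measure_lt_top⟩
    exact (hkl.memf.restrict _).sub (memLp_const m)
  have hL2V : L2locV univ (fun x => l x - (0 : Pos3)) := by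
    intro K _ _
    simp only [sub_zero]
    exact hkl.memg.restrict _
  have hP := poincare_cube (U := (univ : Set Pos3)) isOpen_univ hwg hL2 hL2V
    (crn a) (a := 8) (by norm_num) (subset_univ _)
  change ∫ x in cubeA a, (k x - m) ^ 2 ≤ _ * (∫ x in cubeA a, ‖l x - 0‖ ^ 2) +
    _ * (∫ x in cubeA a, (k x - m)) ^ 2 at hP
  rw [hmean] at hP
  simp only [Fintype.card_fin, sub_zero] at hP
  norm_num at hP
  -- gradient on the cube
  have hgrad : ∫ x in cubeA a, ‖l x‖ ^ 2 ≤ Real.exp 16 * (2 * qh a f g) := by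
    have e1 : ∀ᵐ x ∂((volume : Measure Pos3).restrict (cubeA a)),
        ‖l x‖ ^ 2 ≤ Real.exp 16 * ‖g x + (f x / ‖x - a‖) • (x - a)‖ ^ 2 := by
      filter_upwards [ae_restrict_mem (isOpen_cubeA a).measurableSet,
        ae_restrict_of_ae (ob_ae_ne a)] with x hx hxa
      have h8 := cubeA_norm hx
      have e2 : l x = Real.exp ‖x - a‖ • (g x + (f x / ‖x - a‖) • (x - a)) := by
        rw [hl]
        simp only
        rw [gr_wE hxa h8]
        unfold wE
        rw [min_eq_left h8.le, smul_add, smul_smul, smul_smul]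
        congr 2
        ring
      rw [e2, norm_smul, mul_pow]
      refine mul_le_mul_of_nonneg_right ?_ (sq_nonneg _)
      rw [Real.norm_eq_abs, sq_abs, ← Real.exp_nat_mul]
      exact Real.exp_le_exp.2 (by push_cast; linarith)
    have hI : Integrable (fun x => ‖g x + (f x / ‖x - a‖) • (x - a)‖ ^ 2) := by
      have h1 : MemLp (fun x => (f x / ‖x - a‖) • (x - a)) 2 volume := by
        refine h.memf.mono ?_ (ae_of_all _ fun x => ?_)
        · have hmn : Measurable fun x : Pos3 => ‖x - a‖ := by fun_prop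
          exact (h.memf.1.div₀ hmn.aestronglyMeasurable).smul
            (measurable_id.sub_const a).aestronglyMeasurable
        · rw [norm_smul, Real.norm_eq_abs, abs_div, abs_of_nonneg (norm_nonneg (x - a)),
            Real.norm_eq_abs]
          rcases eq_or_lt_of_le (norm_nonneg (x - a)) with h0 | h0
          · rw [← h0, mul_zero]; exact abs_nonneg _
          · rw [div_mul_cancel₀ _ h0.ne']
      exact sq_norm_integrable (h.memg.add h1)
    calc ∫ x in cubeA a, ‖l x‖ ^ 2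
        ≤ ∫ x in cubeA a, Real.exp 16 * ‖g x + (f x / ‖x - a‖) • (x - a)‖ ^ 2 :=
          integral_mono_ae (sq_norm_integrable hkl.memg).integrableOn
            (hI.integrableOn.const_mul _) e1
      _ = Real.exp 16 * ∫ x in cubeA a, ‖g x + (f x / ‖x - a‖) • (x - a)‖ ^ 2 := integral_const_mul _ _
      _ ≤ Real.exp 16 * ∫ x, ‖g x + (f x / ‖x - a‖) • (x - a)‖ ^ 2 := by
          refine mul_le_mul_of_nonneg_left ?_ (Real.exp_pos _).le
          exact setIntegral_le_integral hI (ae_of_all _ fun x => by positivity)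
      _ = Real.exp 16 * (2 * qh a f g) := by rw [qh_eq h a]; ring
  refine ⟨m * √Real.pi, ?_⟩
  have hle : ∀ x ∈ cubeA a, (f x - m * √Real.pi * hyd a x) ^ 2 ≤ (k x - m) ^ 2 := by
    intro x hx
    have h8 := cubeA_norm hx
    have hpi : √Real.pi ≠ 0 := (Real.sqrt_pos.2 Real.pi_pos).ne'
    have e1 : f x - m * √Real.pi * hyd a x = Real.exp (-‖x - a‖) * (k x - m) := by
      rw [hk]
      simp only
      unfold wE hyd
      rw [min_eq_left h8.le, Real.exp_neg]
      field_simp
    rw [e1, mul_pow]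
    have h1 : Real.exp (-‖x - a‖) ^ 2 ≤ 1 := by
      rw [← Real.exp_nat_mul]
      exact Real.exp_le_one_iff.2 (by push_cast; nlinarith [norm_nonneg (x - a)])
    nlinarith [sq_nonneg (k x - m)]
  have hI2 : IntegrableOn (fun x => (k x - m) ^ 2) (cubeA a) := by
    have : MemLp (fun x => k x - m) 2 ((volume : Measure Pos3).restrict (cubeA a)) :=
      (hkl.memf.restrict _).sub (memLp_const m)
    exact this.integrable_sq
  have hI1 : IntegrableOn (fun x => (f x - m * √Real.pi * hyd a x) ^ 2) (cubeA a) := by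
    have : MemLp (fun x => f x - m * √Real.pi * hyd a x) 2 volume :=
      h.memf.sub ((hyd_memLp a).const_mul _)
    exact this.integrable_sq.integrableOn
  calc ∫ x in cubeA a, (f x - m * √Real.pi * hyd a x) ^ 2 ≤ ∫ x in cubeA a, (k x - m) ^ 2 :=
        setIntegral_mono_on hI1 hI2 (isOpen_cubeA a).measurableSet hle
    _ ≤ 192 * ∫ x in cubeA a, ‖l x‖ ^ 2 := by linarith
    _ ≤ 384 * Real.exp 16 * qh a f g := by linarith

/-! ### coercivity away from the nucleus -/

/-- `1/r` against `1/r²`, a bounded region and infinity -/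
lemma ob_inv_le {t r : ℝ} (hr : 0 ≤ r) (ht : 0 ≤ t) {δ R : ℝ} (hδ : 0 < δ) (hR : 0 < R) :
    t / r ≤ δ * (t / r ^ 2) + (1 / δ) * (if r < R then t else 0) + (1 / R) * t := by
  rcases eq_or_lt_of_le hr with h0 | h0
  · rw [← h0]
    simp only [div_zero, ne_eq, OfNat.ofNat_ne_zero, not_false_eq_true, zero_pow, mul_zero]
    rw [if_pos hR]
    positivity
  have h1 : 0 ≤ (1 / δ) * (if r < R then t else 0) := by
    split_ifs <;> positivity
  have h2 : 0 ≤ δ * (t / r ^ 2) := by positivity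
  have h3 : 0 ≤ (1 / R) * t := by positivity
  rcases lt_or_ge r δ with h | h
  · have : t / r ≤ δ * (t / r ^ 2) := by
      rw [← mul_div_assoc, div_le_div_iff₀ h0 (by positivity)]
      nlinarith [mul_le_mul_of_nonneg_left h.le (mul_nonneg ht h0.le)]
    linarith
  rcases lt_or_ge r R with h' | h'
  · have : t / r ≤ (1 / δ) * (if r < R then t else 0) := by
      rw [if_pos h', one_div_mul_eq_div]
      exact div_le_div_of_nonneg_left ht hδ h
    linarith
  · have : t / r ≤ (1 / R) * t := by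
      rw [one_div_mul_eq_div]
      exact div_le_div_of_nonneg_left ht hR h'
    linarith

lemma ob_coulomb_split {f : Pos3 → ℝ} {g : Pos3 → Pos3} (h : H1 f g) (a : Pos3) {δ R : ℝ}
    (hδ : 0 < δ) (hR : 0 < R) :
    ∫ x, f x ^ 2 / ‖x - a‖ ≤ 4 * δ * (∫ x, ‖g x‖ ^ 2) +
      (1 / δ) * (∫ x in Metric.ball a R, f x ^ 2) + (1 / R) * ∫ x, f x ^ 2 := by
  have hH := ob_hardy h a
  have hC := ob_coulomb h a one_pos
  have hf := h.memf.integrable_sq
  have hB : Integrable (fun x => if ‖x - a‖ < R then f x ^ 2 else 0) := by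
    have h1 := hf.indicator (Metric.isOpen_ball (x := a) (ε := R)).measurableSet
    refine h1.congr (ae_of_all _ fun x => ?_)
    simp only [indicator, Metric.mem_ball, dist_eq_norm]
  have hBi : ∫ x, (if ‖x - a‖ < R then f x ^ 2 else 0) = ∫ x in Metric.ball a R, f x ^ 2 := by
    rw [← integral_indicator (Metric.isOpen_ball (x := a) (ε := R)).measurableSet]
    refine integral_congr_ae (ae_of_all _ fun x => ?_)
    simp only [indicator, Metric.mem_ball, dist_eq_norm]
  have i1 : Integrable (fun x => δ * (f x ^ 2 / ‖x - a‖ ^ 2)) := hH.1.const_mul δ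
  have i2 : Integrable (fun x => (1 / δ) * (if ‖x - a‖ < R then f x ^ 2 else 0)) := hB.const_mul _
  have i3 : Integrable (fun x => (1 / R) * f x ^ 2) := hf.const_mul _
  have i12 : Integrable (fun x => δ * (f x ^ 2 / ‖x - a‖ ^ 2) +
      (1 / δ) * (if ‖x - a‖ < R then f x ^ 2 else 0)) := i1.add i2
  calc ∫ x, f x ^ 2 / ‖x - a‖ ≤ ∫ x, (δ * (f x ^ 2 / ‖x - a‖ ^ 2) +
        (1 / δ) * (if ‖x - a‖ < R then f x ^ 2 else 0) + (1 / R) * f x ^ 2) :=
        integral_mono hC.1 (i12.add i3) fun x => ob_inv_le (norm_nonneg _) (sq_nonneg _) hδ hR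
    _ = δ * (∫ x, f x ^ 2 / ‖x - a‖ ^ 2) + (1 / δ) * (∫ x in Metric.ball a R, f x ^ 2) +
        (1 / R) * ∫ x, f x ^ 2 := by
        rw [integral_add i12 i3, integral_add i1 i2, integral_const_mul, integral_const_mul,
          integral_const_mul, hBi]
    _ ≤ _ := by
        have := mul_le_mul_of_nonneg_left hH.2 hδ.le
        linarith

lemma hyd_outer {f : Pos3 → ℝ} {g : Pos3 → Pos3} (h : H1 f g) (a : Pos3) :
    ∫ x, f x ^ 2 ≤ 6 * qh a f g + 512 / 3 * ∫ x in cubeA a, f x ^ 2 := by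
  have h2 := hydrogen_identity h 2 a
  have h2' : 0 ≤ ∫ x, ‖g x + (2 * f x / ‖x - a‖) • (x - a)‖ ^ 2 :=
    integral_nonneg fun x => by positivity
  have h3 := hydrogen_identity h (1 / 2) a
  have h3' : 0 ≤ ∫ x, ‖g x + (1 / 2 * f x / ‖x - a‖) • (x - a)‖ ^ 2 :=
    integral_nonneg fun x => by positivity
  have h4 := ob_coulomb_split h a (show (0 : ℝ) < 1 / 64 by norm_num) (show (0 : ℝ) < 4 by norm_num)
  have h5 : ∫ x in Metric.ball a 4, f x ^ 2 ≤ ∫ x in cubeA a, f x ^ 2 :=
    setIntegral_mono_set h.memf.integrable_sq.integrableOn (ae_of_all _ fun x => sq_nonneg _)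
      (HasSubset.Subset.eventuallyLE fun x hx => mem_cubeA (by
        rwa [Metric.mem_ball, dist_eq_norm] at hx))
  unfold qh
  norm_num at h2 h3 h4
  linarith

/-- `∫ (f - c φ)² ≥ ∫ f² - ⟨φ, f⟩²` -/
lemma hyd_proj_le {f : Pos3 → ℝ} (hf : MemLp f 2 volume) (a : Pos3) (c : ℝ) :
    (∫ x, f x ^ 2) - (∫ x, hyd a x * f x) ^ 2 ≤ ∫ x, (f x - c * hyd a x) ^ 2 := by
  have k1 := hf.integrable_sq
  have k2 := (hyd_memLp a).integrable_sq
  have k3 : Integrable (fun x => hyd a x * f x) := (hyd_memLp a).integrable_mul hf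
  have e : ∫ x, (f x - c * hyd a x) ^ 2 = (∫ x, f x ^ 2) + (-(2 * c)) * (∫ x, hyd a x * f x) +
      ∫ x, c ^ 2 * hyd a x ^ 2 :=
    ob_int3 _ k1 k3 (k2.const_mul (c ^ 2)) fun x => by ring
  rw [e, integral_const_mul, hyd_norm]
  nlinarith [sq_nonneg (c - ∫ x, hyd a x * f x)]

/-- the shifted form is unchanged by adding a multiple of the ground state -/
lemma qh_sub {f : Pos3 → ℝ} {g : Pos3 → Pos3} (h : H1 f g) (a : Pos3) (c : ℝ) :
    qh a (fun x => f x - c * hyd a x) (fun x => g x - c • dhyd a x) = qh a f g := by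
  rw [qh_eq (h.sub ((hyd_H1 a).const_mul c)) a, qh_eq h a]
  congr 1
  refine integral_congr_ae (ae_of_all _ fun x => ?_)
  simp only
  have : g x - c • dhyd a x + ((f x - c * hyd a x) / ‖x - a‖) • (x - a) =
      g x + (f x / ‖x - a‖) • (x - a) - c • (dhyd a x + (hyd a x / ‖x - a‖) • (x - a)) := by
    rw [sub_div, sub_smul, smul_add, smul_smul, mul_div_assoc]
    abel
  rw [this, dhyd_add, smul_zero, sub_zero]

lemma qh_nonneg {f : Pos3 → ℝ} {g : Pos3 → Pos3} (h : H1 f g) (a : Pos3) : 0 ≤ qh a f g := by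
  rw [qh_eq h a]
  have : 0 ≤ ∫ x, ‖g x + (f x / ‖x - a‖) • (x - a)‖ ^ 2 := integral_nonneg fun x => by positivity
  linarith

/-- the hydrogen gap -/
theorem hyd_gap : ∃ c : ℝ, 0 < c ∧ c ≤ 1 / 4 ∧ ∀ (a : Pos3) (f : Pos3 → ℝ) (g : Pos3 → Pos3),
    H1 f g → -(1 / 2) * (∫ x, hyd a x * f x) ^ 2 +
      (-(1 / 2) + c) * ((∫ x, f x ^ 2) - (∫ x, hyd a x * f x) ^ 2) ≤
      (1 / 2) * (∫ x, ‖g x‖ ^ 2) - ∫ x, f x ^ 2 / ‖x - a‖ := by
  set K : ℝ := 6 + 512 / 3 * (384 * Real.exp 16) with hK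
  have he := Real.exp_pos (16 : ℝ)
  have hK6 : 6 ≤ K := by rw [hK]; nlinarith
  have hK0 : 0 < K := by linarith
  refine ⟨1 / K, by positivity, ?_, ?_⟩
  · rw [div_le_div_iff₀ hK0 (by norm_num)]; linarith
  intro a f g h
  obtain ⟨c, hc⟩ := hyd_local h a
  have h1 := hyd_outer (h.sub ((hyd_H1 a).const_mul c)) a
  rw [qh_sub h a c] at h1
  have h2 := hyd_proj_le h.memf a c
  have h3 : (∫ x, f x ^ 2) - (∫ x, hyd a x * f x) ^ 2 ≤ K * qh a f g := by
    rw [hK]; linarith
  have h4 : 1 / K * ((∫ x, f x ^ 2) - (∫ x, hyd a x * f x) ^ 2) ≤ qh a f g := by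
    rw [one_div_mul_eq_div, div_le_iff₀ hK0]; linarith
  unfold qh at h4
  linarith

end Crest.Agent.R335
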