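import Crest.Agent.R335.OBDefs

/-!
Row 335 (S0521), ONE-BODY block, INTERFACE (all statements with `sorry`, namespace `...R335.OI`).
Each `OI.xxx` will be `Crest.Agent.R335.xxx` (helper733).
-/

set_option autoImplicit false
set_option linter.unusedVariables false

open MeasureTheory Filter Set Crest.MathPhysics.ThreeBody
open scoped ENNReal Topology ContDiff

noncomputable section
namespace Crest.Agent.R335.OI
open Crest.Agent.R335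

/-! ### the potential (module OBPot) -/

theorem V2_nonpos (D : ℝ) (x : Pos3) : V2 D x ≤ 0 := sorry

theorem V2_rz (D : ℝ) (x : Pos3) : V2 D (rz x) = V2 D x := sorry

theorem V2_rot (D : ℝ) {L : Pos3 ≃ₗᵢ[ℝ] Pos3} (hL : L (nuc 1) = nuc 1) (x : Pos3) :
    V2 D (L x) = V2 D x := sorry

theorem measurable_V2 (D : ℝ) : Measurable (V2 D) := sorry

/-- `V f ∈ L²` and `‖V f‖₂ ≤ 4 ‖∇f‖₂` -/
theorem V2_memLp (D : ℝ) {f : Pos3 → ℝ} {g : Pos3 → Pos3} (h : H1 f g) :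
    MemLp (fun x => V2 D x * f x) 2 volume ∧
      ∫ x, (V2 D x * f x) ^ 2 ≤ 16 * ∫ x, ‖g x‖ ^ 2 := sorry

theorem V2_integrable (D : ℝ) {f k : Pos3 → ℝ} {g : Pos3 → Pos3} (h : H1 f g)
    (hk : MemLp k 2 volume) : Integrable (fun x => V2 D x * (f x * k x)) := sorry

theorem V2_integrable_sq (D : ℝ) {f : Pos3 → ℝ} {g : Pos3 → Pos3} (h : H1 f g) :
    Integrable (fun x => V2 D x * f x ^ 2) := sorry

/-- `∫‖∇f‖² ≤ 4 Q(f) + 16 ∫ f²` -/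
theorem Q2_coercive (D : ℝ) {f : Pos3 → ℝ} {g : Pos3 → Pos3} (h : H1 f g) :
    ∫ x, ‖g x‖ ^ 2 ≤ 4 * Q2 D f g + 16 * ∫ x, f x ^ 2 := sorry

/-! ### hydrogen (module OBHyd) -/

theorem hyd_H1 (a : Pos3) : H1 (hyd a) (dhyd a) := sorry

theorem hyd_norm (a : Pos3) : ∫ x, hyd a x ^ 2 = 1 := sorry

theorem hyd_eq (a : Pos3) {f : Pos3 → ℝ} {g : Pos3 → Pos3} (h : H1 f g) :
    (1 / 2) * (∫ x, inner ℝ (dhyd a x) (g x)) - ∫ x, hyd a x * f x / ‖x - a‖ =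
      -(1 / 2) * ∫ x, hyd a x * f x := sorry

/-- the hydrogen gap -/
theorem hyd_gap : ∃ c : ℝ, 0 < c ∧ c ≤ 1 / 4 ∧ ∀ (a : Pos3) (f : Pos3 → ℝ) (g : Pos3 → Pos3),
    H1 f g → -(1 / 2) * (∫ x, hyd a x * f x) ^ 2 +
      (-(1 / 2) + c) * ((∫ x, f x ^ 2) - (∫ x, hyd a x * f x) ^ 2) ≤
      (1 / 2) * (∫ x, ‖g x‖ ^ 2) - ∫ x, f x ^ 2 / ‖x - a‖ := sorry

/-! ### two centres (modules OBIms, OBMin, OBPos, OBTun) -/

/-- existence of the one-body states, universal gap `c`, level bounds, tunnelling bound -/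
theorem oneBody_exists : ∃ c C D₀ : ℝ, 0 < c ∧ c ≤ 1 / 8 ∧ 1 ≤ D₀ ∧ ∀ D : ℝ, D₀ ≤ D →
    ∃ (g u : Pos3 → ℝ) (dg du : Pos3 → Pos3) (eg eu : ℝ),
      OneBody D g u dg du eg eu (-(1 / 2) + c) ∧
      |eg + 1 / 2| ≤ C / D ∧ |eu + 1 / 2| ≤ C / D ∧
      eu - eg ≤ C * Real.exp (-(3 * D / 2)) ∧
      (∀ x, g x ≤ C) ∧ (∀ x, |u x| ≤ C) ∧
      (∫ x, ‖dg x‖ ^ 2 ≤ C) ∧ (∫ x, ‖du x‖ ^ 2 ≤ C) ∧
      (∫ x, (g x - (hyd (nuc D) x + hyd (nuc (-D)) x) / √2) ^ 2 ≤ C / D) ∧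
      (∫ x, (u x - (hyd (nuc D) x - hyd (nuc (-D)) x) / √2) ^ 2 ≤ C / D) := sorry

/-- Agmon identity: `Q(e^F f) = e |e^F f|² + ½ ∫ |∇F|² (e^F f)²` for an eigenfunction `f` and a bounded
Lipschitz weight (`k = e^F` bounded, with bounded weak gradient `l = e^F ∇F`) -/
theorem agmon_identity {D e : ℝ} {f k : Pos3 → ℝ} {g l : Pos3 → Pos3} (h : H1 f g)
    (heq : ∀ w m, H1 w m → B2 D f g w m = e * ∫ x, f x * w x) (hk : WG univ k l) {C : ℝ}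
    (hkb : ∀ x, |k x| ≤ C) (hlb : ∀ x, ‖l x‖ ≤ C) :
    Q2 D (fun x => k x * f x) (fun x => k x • g x + f x • l x) =
      e * (∫ x, (k x * f x) ^ 2) + (1 / 2) * ∫ x, f x ^ 2 * ‖l x‖ ^ 2 := sorry

/-- Agmon decay with every rate `a < 1`, for the distance to the two nuclei -/
theorem oneBody_agmon {a : ℝ} (ha : 0 < a) (ha1 : a < 1) : ∃ C η : ℝ, 0 < η ∧ ∀ D : ℝ, 1 ≤ D →
    ∀ (f : Pos3 → ℝ) (g : Pos3 → Pos3) (e : ℝ), H1 f g →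
      (∀ w m, H1 w m → B2 D f g w m = e * ∫ x, f x * w x) → e ≤ -(1 / 2) + η →
      Integrable (fun x => (Real.exp (a * min ‖x - nuc D‖ ‖x - nuc (-D)‖) * f x) ^ 2) ∧
      ∫ x, (Real.exp (a * min ‖x - nuc D‖ ‖x - nuc (-D)‖) * f x) ^ 2 ≤ C * ∫ x, f x ^ 2 := sorry

end Crest.Agent.R335.OI
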