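import Crest.Agent.R335.OBTun
import Crest.Agent.R335.OBHyd

/-!
Row 335 (S0521), ONE-BODY block: two-centre lower bound of the form from the hydrogen gap, trial
functions, closeness of `g`, `u` to the hydrogen combinations (helper110).
-/

set_option autoImplicit false
set_option linter.unusedSectionVars false

open MeasureTheory Filter Set Crest.MathPhysics.ThreeBody
open scoped ENNReal Topology ContDiff

noncomputable section
namespace Crest.Agent.R335

/-- the localising angle, `0` for `z ≥ D/2`, `π/2` for `z ≤ -D/2` -/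
def phz (D : ℝ) (x : Pos3) : ℝ := Real.pi / 4 * (1 - max (-1) (min 1 (2 / D * x 2)))

/-- cutoff near the nucleus `+d` -/
def Jp (D : ℝ) (x : Pos3) : ℝ := Real.cos (phz D x)

/-- cutoff near the nucleus `-d` -/
def Jm (D : ℝ) (x : Pos3) : ℝ := Real.sin (phz D x)

theorem phz_lip {D : ℝ} (hD : 0 < D) :
    LipschitzWith (Real.toNNReal (Real.pi / (2 * D))) (phz D) := by
  refine LipschitzWith.of_dist_le_mul fun x y => ?_
  have hp : 0 ≤ Real.pi / (2 * D) := by positivity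
  rw [Real.coe_toNNReal _ hp, Real.dist_eq, dist_eq_norm]
  unfold phz
  rw [← mul_sub, abs_mul, abs_of_nonneg (by positivity : (0 : ℝ) ≤ Real.pi / 4)]
  have e0 : (1 - max (-1) (min 1 (2 / D * x 2))) - (1 - max (-1) (min 1 (2 / D * y 2))) =
    max (-1) (min 1 (2 / D * y 2)) - max (-1) (min 1 (2 / D * x 2)) := by ring
  rw [e0]
  have e1 : |max (-1) (min 1 (2 / D * y 2)) - max (-1) (min 1 (2 / D * x 2))| ≤
      |min 1 (2 / D * y 2) - min 1 (2 / D * x 2)| := by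
    refine (abs_max_sub_max_le_max _ _ _ _).trans (max_le ?_ le_rfl)
    rw [sub_self, abs_zero]
    exact abs_nonneg _
  have e2 : |min 1 (2 / D * y 2) - min 1 (2 / D * x 2)| ≤ |2 / D * y 2 - 2 / D * x 2| := by
    refine (abs_min_sub_min_le_max _ _ _ _).trans (max_le ?_ le_rfl)
    rw [sub_self, abs_zero]
    exact abs_nonneg _
  have e3 : |2 / D * y 2 - 2 / D * x 2| ≤ 2 / D * ‖x - y‖ := by
    have e4 : 2 / D * y 2 - 2 / D * x 2 = -(2 / D * (x - y) 2) := by
      rw [PiLp.sub_apply]; ring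
    rw [e4, abs_neg, abs_mul, abs_of_pos (by positivity : (0 : ℝ) < 2 / D)]
    exact mul_le_mul_of_nonneg_left (ob_abs_coord_le _ _) (by positivity)
  calc Real.pi / 4 * |max (-1) (min 1 (2 / D * y 2)) - max (-1) (min 1 (2 / D * x 2))|
      ≤ Real.pi / 4 * (2 / D * ‖x - y‖) :=
        mul_le_mul_of_nonneg_left (e1.trans (e2.trans e3)) (by positivity)
    _ = Real.pi / (2 * D) * ‖x - y‖ := by field_simp; ring

theorem phz_rz (D : ℝ) (x : Pos3) : phz D (rz x) = Real.pi / 2 - phz D x := by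
  have e : (rz x) 2 = - x 2 := by rw [rz_apply, if_pos rfl]
  have key : ∀ t : ℝ, max (-1) (min 1 (-t)) = - max (-1) (min 1 t) := fun t => by
    rcases le_total t (-1) with h | h
    · rw [min_eq_right (h.trans (by norm_num)), max_eq_left h, min_eq_left (by linarith),
        max_eq_right (by norm_num), neg_neg]
    · rcases le_total t 1 with h' | h'
      · have a1 : min 1 t = t := min_eq_right h'
        have a2 : max (-1) t = t := max_eq_right h
        have a3 : min 1 (-t) = -t := min_eq_right (by linarith)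
        have a4 : max (-1) (-t) = -t := max_eq_right (by linarith)
        rw [a3, a4, a1, a2]
      · have a1 : min 1 t = 1 := min_eq_left h'
        have a2 : max (-1 : ℝ) 1 = 1 := max_eq_right (by norm_num)
        have a3 : min 1 (-t) = -t := min_eq_right (by linarith)
        have a4 : max (-1) (-t) = -1 := max_eq_left (by linarith)
        rw [a3, a4, a1, a2]
  unfold phz
  rw [e, mul_neg, key]
  ring

theorem Jp_rz (D : ℝ) (x : Pos3) : Jp D (rz x) = Jm D x := by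
  unfold Jp Jm
  rw [phz_rz, Real.cos_pi_div_two_sub]

theorem Jm_rz (D : ℝ) (x : Pos3) : Jm D (rz x) = Jp D x := by
  unfold Jp Jm
  rw [phz_rz, Real.sin_pi_div_two_sub]

theorem phz_mem (D : ℝ) (x : Pos3) : 0 ≤ phz D x ∧ phz D x ≤ Real.pi / 2 := by
  have h1 : -1 ≤ max (-1) (min 1 (2 / D * x 2)) := le_max_left _ _
  have h2 : max (-1) (min 1 (2 / D * x 2)) ≤ 1 := max_le (by norm_num) (min_le_left _ _)
  have hp := Real.pi_pos
  unfold phz
  constructor
  · exact mul_nonneg (by positivity) (by linarith)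
  · nlinarith

theorem Jp_nonneg (D : ℝ) (x : Pos3) : 0 ≤ Jp D x :=
  Real.cos_nonneg_of_mem_Icc ⟨by linarith [(phz_mem D x).1, Real.pi_pos], (phz_mem D x).2⟩

theorem Jm_nonneg (D : ℝ) (x : Pos3) : 0 ≤ Jm D x :=
  Real.sin_nonneg_of_nonneg_of_le_pi (phz_mem D x).1
    (by linarith [(phz_mem D x).2, Real.pi_pos])

theorem Jp_le_one (D : ℝ) (x : Pos3) : Jp D x ≤ 1 := Real.cos_le_one _

theorem Jm_le_one (D : ℝ) (x : Pos3) : Jm D x ≤ 1 := Real.sin_le_one _

theorem Jp_sq_add (D : ℝ) (x : Pos3) : Jp D x ^ 2 + Jm D x ^ 2 = 1 := by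
  unfold Jp Jm
  rw [add_comm]
  exact Real.sin_sq_add_cos_sq _

theorem continuous_Jp (D : ℝ) : Continuous (Jp D) := by
  unfold Jp phz
  fun_prop

theorem continuous_Jm (D : ℝ) : Continuous (Jm D) := by
  unfold Jm phz
  fun_prop

theorem Jp_one {D : ℝ} (hD : 0 < D) {x : Pos3} (h : D / 2 ≤ x 2) : Jp D x = 1 ∧ Jm D x = 0 := by
  have h1 : 1 ≤ 2 / D * x 2 := by
    rw [div_mul_eq_mul_div, le_div_iff₀ hD]; linarith
  unfold Jp Jm phz
  rw [min_eq_left h1, max_eq_right (by norm_num), sub_self, mul_zero, Real.cos_zero, Real.sin_zero]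
  exact ⟨rfl, rfl⟩

theorem Jm_one {D : ℝ} (hD : 0 < D) {x : Pos3} (h : x 2 ≤ -(D / 2)) :
    Jp D x = 0 ∧ Jm D x = 1 := by
  have e : (rz x) 2 = - x 2 := by rw [rz_apply, if_pos rfl]
  have h1 := Jp_one hD (x := rz x) (by rw [e]; linarith)
  rw [Jp_rz, Jm_rz] at h1
  exact ⟨h1.2, h1.1⟩

theorem norm_sub_nuc_ge (D : ℝ) (x : Pos3) : x 2 + D ≤ ‖x - nuc (-D)‖ ∧ D - x 2 ≤ ‖x - nuc D‖ := by
  constructor
  · have e : (x - nuc (-D)) 2 = x 2 + D := by
      rw [PiLp.sub_apply, nuc_apply_two, sub_neg_eq_add]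
    have := ob_abs_coord_le (x - nuc (-D)) 2
    rw [e] at this
    exact (le_abs_self _).trans this
  · have e : (x - nuc D) 2 = x 2 - D := by rw [PiLp.sub_apply, nuc_apply_two]
    have := ob_abs_coord_le (x - nuc D) 2
    rw [e] at this
    linarith [neg_abs_le (x 2 - D)]

theorem ims_int_coul_le {f : Pos3 → ℝ} {a : Pos3} {B : ℝ} (hB : 0 < B)
    (hi : Integrable (fun x => f x ^ 2)) (h : ∀ x, f x ≠ 0 → B ≤ ‖x - a‖) :
    ∫ x, f x ^ 2 / ‖x - a‖ ≤ 1 / B * ∫ x, f x ^ 2 := by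
  rw [← integral_const_mul]
  refine integral_mono_of_nonneg (Eventually.of_forall fun x => by positivity)
    (hi.const_mul _) (Eventually.of_forall fun x => ?_)
  show f x ^ 2 / ‖x - a‖ ≤ 1 / B * f x ^ 2
  by_cases hx : f x = 0
  · rw [hx]; simp
  · have h1 := one_div_le_one_div_of_le hB (h x hx)
    have h2 := mul_le_mul_of_nonneg_right h1 (sq_nonneg (f x))
    calc f x ^ 2 / ‖x - a‖ = 1 / ‖x - a‖ * f x ^ 2 := by ring
      _ ≤ _ := h2

theorem Q2_eq_coul (D : ℝ) {f : Pos3 → ℝ} {g : Pos3 → Pos3} (h : H1 f g) :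
    Q2 D f g = (1 / 2) * (∫ x, ‖g x‖ ^ 2) - (∫ x, f x ^ 2 / ‖x - nuc D‖) -
      ∫ x, f x ^ 2 / ‖x - nuc (-D)‖ := by
  unfold Q2
  rw [ob_integral_V2 D h]
  ring

/-- two-centre lower bound with two functionals -/
theorem two_gap : ∃ c C D₀ : ℝ, 0 < c ∧ c ≤ 1 / 4 ∧ 0 ≤ C ∧ 1 ≤ D₀ ∧ ∀ D : ℝ, D₀ ≤ D →
    ∀ (f : Pos3 → ℝ) (g : Pos3 → Pos3), H1 f g →
      (-(1 / 2) + c - C / D) * (∫ x, f x ^ 2) -
        c * ((∫ x, Jp D x * hyd (nuc D) x * f x) ^ 2 +
          (∫ x, Jm D x * hyd (nuc (-D)) x * f x) ^ 2) ≤ Q2 D f g := by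
  obtain ⟨c, hc0, hc1, hgap⟩ := hyd_gap
  refine ⟨c, 4, 1, hc0, hc1, by norm_num, le_rfl, fun D hD f g hf => ?_⟩
  have hD0 : 0 < D := by linarith
  obtain ⟨w1, b1⟩ := WG.of_lipschitz (phz_lip hD0)
  have hp : 0 ≤ Real.pi / (2 * D) := by positivity
  rw [Real.coe_toNNReal _ hp] at b1
  obtain ⟨h1, h2, q1⟩ := Q2_ims D hf w1 b1
  have if2 : Integrable (fun x => f x ^ 2) := hf.memf.integrable_sq
  have i1 : Integrable (fun x => (Real.cos (phz D x) * f x) ^ 2) := h1.memf.integrable_sq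
  have i2 : Integrable (fun x => (Real.sin (phz D x) * f x) ^ 2) := h2.memf.integrable_sq
  have hD2 : 0 < D / 2 := by positivity
  have p1 : (-(1 / 2) + c - 2 / D) * (∫ x, (Real.cos (phz D x) * f x) ^ 2) -
      c * (∫ x, Jp D x * hyd (nuc D) x * f x) ^ 2 ≤ Q2 D (fun x => Real.cos (phz D x) * f x)
        (fun x => Real.cos (phz D x) • g x + f x • (-Real.sin (phz D x) • gr (phz D) x)) := by
    have t1 := hgap (nuc D) _ _ h1
    have t2 := ims_int_coul_le (a := nuc (-D)) hD2 i1 (fun x hx => by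
      have t3 : -(D / 2) < x 2 := by
        by_contra hcon
        exact left_ne_zero_of_mul hx (Jm_one hD0 (not_lt.1 hcon)).1
      have t4 := (norm_sub_nuc_ge D x).1
      linarith)
    rw [Q2_eq_coul D h1]
    have t5 : (∫ x, hyd (nuc D) x * (Real.cos (phz D x) * f x)) =
        ∫ x, Jp D x * hyd (nuc D) x * f x := by
      congr 1
      funext x
      unfold Jp
      ring
    rw [t5] at t1
    have t6 : 1 / (D / 2) = 2 / D := by field_simp
    rw [t6] at t2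
    linarith
  have p2 : (-(1 / 2) + c - 2 / D) * (∫ x, (Real.sin (phz D x) * f x) ^ 2) -
      c * (∫ x, Jm D x * hyd (nuc (-D)) x * f x) ^ 2 ≤ Q2 D (fun x => Real.sin (phz D x) * f x)
        (fun x => Real.sin (phz D x) • g x + f x • (Real.cos (phz D x) • gr (phz D) x)) := by
    have t1 := hgap (nuc (-D)) _ _ h2
    have t2 := ims_int_coul_le (a := nuc D) hD2 i2 (fun x hx => by
      have t3 : x 2 < D / 2 := by
        by_contra hcon
        exact left_ne_zero_of_mul hx (Jp_one hD0 (not_lt.1 hcon)).2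
      have t4 := (norm_sub_nuc_ge D x).2
      linarith)
    rw [Q2_eq_coul D h2]
    have t5 : (∫ x, hyd (nuc (-D)) x * (Real.sin (phz D x) * f x)) =
        ∫ x, Jm D x * hyd (nuc (-D)) x * f x := by
      congr 1
      funext x
      unfold Jm
      ring
    rw [t5] at t1
    have t6 : 1 / (D / 2) = 2 / D := by field_simp
    rw [t6] at t2
    linarith
  have m1 : (∫ x, (Real.cos (phz D x) * f x) ^ 2) + (∫ x, (Real.sin (phz D x) * f x) ^ 2) =
      ∫ x, f x ^ 2 := by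
    rw [← integral_add i1 i2]
    congr 1
    funext x
    have t := Real.sin_sq_add_cos_sq (phz D x)
    linear_combination (f x ^ 2) * t
  have hpi : (Real.pi / (2 * D)) ^ 2 ≤ 4 / D := by
    have hpi : Real.pi ^ 2 ≤ 10 := by nlinarith [Real.pi_lt_d2, Real.pi_pos]
    rw [div_pow, div_le_div_iff₀ (by positivity) hD0]
    nlinarith [mul_pos hD0 hD0]
  have e1 : ∫ x, f x ^ 2 * ‖gr (phz D) x‖ ^ 2 ≤ 4 / D * ∫ x, f x ^ 2 := by
    rw [← integral_const_mul]
    refine integral_mono_of_nonneg (Eventually.of_forall fun x => by positivity)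
      (if2.const_mul _) (Eventually.of_forall fun x => ?_)
    show f x ^ 2 * ‖gr (phz D) x‖ ^ 2 ≤ 4 / D * f x ^ 2
    rw [mul_comm]
    exact mul_le_mul_of_nonneg_right ((pow_le_pow_left₀ (norm_nonneg _) (b1 x) 2).trans hpi)
      (sq_nonneg _)
  have d4 : 4 / D = 2 / D + 2 / D := by ring
  set M := ∫ x, f x ^ 2
  set M1 := ∫ x, (Real.cos (phz D x) * f x) ^ 2
  set M2 := ∫ x, (Real.sin (phz D x) * f x) ^ 2
  have f5 : M = M1 + M2 := by linarith
  rw [d4] at e1 ⊢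
  have f6 : (-(1 / 2) + c - 2 / D) * M = (-(1 / 2) + c - 2 / D) * M1 + (-(1 / 2) + c - 2 / D) * M2 := by
    rw [f5]; ring
  nlinarith

/-! ### tails of the hydrogen state -/

theorem hyd_tail {D : ℝ} (hD : 0 < D) {a : Pos3} {θ : Pos3 → ℝ}
    (h0 : ∀ x, 0 ≤ θ x) (h1 : ∀ x, θ x ≤ 1) (hθ : ∀ x, θ x ≠ 0 → D / 2 ≤ ‖x - a‖) :
    ∫ x, θ x * hyd a x ^ 2 ≤ 16 / D := by
  have hi : Integrable (fun x : Pos3 => Real.exp (-(1 * ‖x - a‖))) := ob_integrable_exp one_pos a
  have e1 : ∫ x, θ x * hyd a x ^ 2 ≤ ∫ x, 2 / (D * Real.pi) * Real.exp (-(1 * ‖x - a‖)) := by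
    refine integral_mono_of_nonneg (Eventually.of_forall fun x => mul_nonneg (h0 x) (sq_nonneg _))
      (hi.const_mul _) (Eventually.of_forall fun x => ?_)
    show θ x * hyd a x ^ 2 ≤ 2 / (D * Real.pi) * Real.exp (-(1 * ‖x - a‖))
    by_cases hx : θ x = 0
    · rw [hx, zero_mul]; positivity
    · have t1 := hθ x hx
      have t2 : 1 ≤ 2 / D * ‖x - a‖ := by
        rw [div_mul_eq_mul_div, le_div_iff₀ hD]; linarith
      have t3 : ‖x - a‖ ≤ Real.exp ‖x - a‖ := by linarith [Real.add_one_le_exp ‖x - a‖]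
      have t4 : θ x * hyd a x ^ 2 ≤ (2 / D * Real.exp ‖x - a‖) * hyd a x ^ 2 := by
        refine mul_le_mul_of_nonneg_right ?_ (sq_nonneg _)
        calc θ x ≤ 1 := h1 x
          _ ≤ 2 / D * ‖x - a‖ := t2
          _ ≤ _ := mul_le_mul_of_nonneg_left t3 (by positivity)
      refine t4.trans (le_of_eq ?_)
      rw [hyd_sq]
      have t5 : Real.exp ‖x - a‖ * Real.exp (-(2 * ‖x - a‖)) = Real.exp (-(1 * ‖x - a‖)) := by
        rw [← Real.exp_add]; congr 1; ring
      rw [← t5]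
      field_simp
  refine e1.trans (le_of_eq ?_)
  rw [integral_const_mul, ob_integral_exp one_pos a]
  field_simp
  norm_num

/-! ### trial functions -/

/-- cutoff, `0` for `z ≤ D/4`, `1` for `z ≥ D/2` -/
def chz (D : ℝ) (x : Pos3) : ℝ := max 0 (min 1 (4 / D * x 2 - 1))

theorem chz_lip {D : ℝ} (hD : 0 < D) : LipschitzWith (Real.toNNReal (4 / D)) (chz D) := by
  refine LipschitzWith.of_dist_le_mul fun x y => ?_
  have hp : 0 ≤ 4 / D := by positivity
  rw [Real.coe_toNNReal _ hp, Real.dist_eq, dist_eq_norm]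
  unfold chz
  refine (abs_max_sub_max_le_max _ _ _ _).trans (max_le ?_ ?_)
  · rw [sub_self, abs_zero]; positivity
  · refine (abs_min_sub_min_le_max _ _ _ _).trans (max_le ?_ ?_)
    · rw [sub_self, abs_zero]; positivity
    · have e4 : 4 / D * x 2 - 1 - (4 / D * y 2 - 1) = 4 / D * (x - y) 2 := by
        rw [PiLp.sub_apply]; ring
      rw [e4, abs_mul, abs_of_nonneg hp]
      exact mul_le_mul_of_nonneg_left (ob_abs_coord_le _ _) hp

theorem chz_mem (D : ℝ) (x : Pos3) : 0 ≤ chz D x ∧ chz D x ≤ 1 :=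
  ⟨le_max_left _ _, max_le (by norm_num) (min_le_left _ _)⟩

theorem chz_zero {D : ℝ} (hD : 0 < D) {x : Pos3} (h : x 2 ≤ D / 4) : chz D x = 0 := by
  have h1 : 4 / D * x 2 - 1 ≤ 0 := by
    rw [sub_nonpos, div_mul_eq_mul_div, div_le_one hD]; linarith
  unfold chz
  rw [max_eq_left ((min_le_right _ _).trans h1)]

theorem chz_one {D : ℝ} (hD : 0 < D) {x : Pos3} (h : D / 2 ≤ x 2) : chz D x = 1 := by
  have h1 : 1 ≤ 4 / D * x 2 - 1 := by
    rw [le_sub_iff_add_le, div_mul_eq_mul_div, le_div_iff₀ hD]; linarith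
  unfold chz
  rw [min_eq_left h1, max_eq_right (by norm_num)]

theorem gr_chz_zero {D : ℝ} (hD : 0 < D) {x : Pos3} (h : x 2 < D / 4) : gr (chz D) x = 0 := by
  have hc : Continuous fun y : Pos3 => y 2 := by fun_prop
  have key : chz D =ᶠ[𝓝 x] fun _ => (0 : ℝ) := by
    filter_upwards [(isOpen_lt hc continuous_const).mem_nhds h] with y hy
    exact chz_zero hD (le_of_lt hy)
  ext i
  rw [gr_apply, pd_congr_of_eventuallyEq key i]
  unfold pd
  simp

/-- half of the trial function -/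
def tf (D : ℝ) (x : Pos3) : ℝ := chz D x * hyd (nuc D) x

/-- its gradient -/
def dtf (D : ℝ) (x : Pos3) : Pos3 :=
  chz D x • dhyd (nuc D) x + hyd (nuc D) x • gr (chz D) x

theorem tf_zero {D : ℝ} (hD : 0 < D) {x : Pos3} (h : x 2 < D / 4) : tf D x = 0 ∧ dtf D x = 0 := by
  unfold tf dtf
  rw [chz_zero hD h.le, gr_chz_zero hD h, zero_mul, zero_smul, smul_zero, add_zero]
  exact ⟨rfl, rfl⟩

theorem tf_H1 {D : ℝ} (hD : 0 < D) : H1 (tf D) (dtf D) := by
  obtain ⟨w1, b1⟩ := WG.of_lipschitz (chz_lip hD)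
  have hp : 0 ≤ 4 / D := by positivity
  rw [Real.coe_toNNReal _ hp] at b1
  exact H1.mul_bdd (hyd_H1 (nuc D)) w1 (C := max 1 (4 / D))
    (fun x => by
      rw [abs_of_nonneg (chz_mem D x).1]
      exact (chz_mem D x).2.trans (le_max_left _ _))
    (fun x => (b1 x).trans (le_max_right _ _))

theorem tf_mass {D : ℝ} (hD : 0 < D) : 1 - 16 / D ≤ ∫ x, tf D x ^ 2 := by
  have i1 : Integrable (fun x => hyd (nuc D) x ^ 2) := (hyd_memLp _).integrable_sq
  have i2 : Integrable (fun x => tf D x ^ 2) := (tf_H1 hD).memf.integrable_sq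
  have h1 : (∫ x, hyd (nuc D) x ^ 2) - (∫ x, tf D x ^ 2) =
      ∫ x, (1 - chz D x ^ 2) * hyd (nuc D) x ^ 2 := by
    rw [← integral_sub i1 i2]
    congr 1
    funext x
    unfold tf
    ring
  have h2 := hyd_tail hD (a := nuc D) (θ := fun x => 1 - chz D x ^ 2)
    (fun x => by nlinarith [(chz_mem D x).1, (chz_mem D x).2])
    (fun x => by nlinarith [sq_nonneg (chz D x)])
    (fun x hx => by
      have t3 : x 2 < D / 2 := by
        by_contra hcon
        exact hx (by rw [chz_one hD (not_lt.1 hcon)]; norm_num)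
      have t4 := (norm_sub_nuc_ge D x).2
      linarith)
  rw [← h1, hyd_norm] at h2
  linarith

theorem Q2_tf {D : ℝ} (hD : 0 < D) :
    Q2 D (tf D) (dtf D) ≤ -(1 / 2) * (∫ x, tf D x ^ 2) + 8 / D ^ 2 := by
  have hH := tf_H1 hD
  have h1 := qh_eq hH (nuc D)
  have i1 : Integrable (fun x => hyd (nuc D) x ^ 2) := (hyd_memLp _).integrable_sq
  obtain ⟨w1, b1⟩ := WG.of_lipschitz (chz_lip hD)
  have hp : 0 ≤ 4 / D := by positivity
  rw [Real.coe_toNNReal _ hp] at b1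
  have h2 : ∀ x, dtf D x + (tf D x / ‖x - nuc D‖) • (x - nuc D) =
      hyd (nuc D) x • gr (chz D) x := fun x => by
    have t := dhyd_add (nuc D) x
    have t2 : dtf D x + (tf D x / ‖x - nuc D‖) • (x - nuc D) =
        chz D x • (dhyd (nuc D) x + (hyd (nuc D) x / ‖x - nuc D‖) • (x - nuc D)) +
          hyd (nuc D) x • gr (chz D) x := by
      unfold dtf tf
      rw [smul_add, smul_smul, mul_div_assoc]
      abel
    rw [t2, t, smul_zero, zero_add]
  have h3 : ∫ x, ‖dtf D x + (tf D x / ‖x - nuc D‖) • (x - nuc D)‖ ^ 2 ≤ 16 / D ^ 2 := by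
    have e1 : ∫ x, ‖dtf D x + (tf D x / ‖x - nuc D‖) • (x - nuc D)‖ ^ 2 ≤
        ∫ x, 16 / D ^ 2 * hyd (nuc D) x ^ 2 := by
      refine integral_mono_of_nonneg (Eventually.of_forall fun x => by positivity)
        (i1.const_mul _) (Eventually.of_forall fun x => ?_)
      show ‖dtf D x + (tf D x / ‖x - nuc D‖) • (x - nuc D)‖ ^ 2 ≤ 16 / D ^ 2 * hyd (nuc D) x ^ 2
      rw [h2 x, norm_smul, mul_pow, Real.norm_eq_abs, sq_abs, mul_comm]
      refine mul_le_mul_of_nonneg_right ?_ (sq_nonneg _)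
      refine (pow_le_pow_left₀ (norm_nonneg _) (b1 x) 2).trans (le_of_eq ?_)
      rw [div_pow]; norm_num
    rw [integral_const_mul, hyd_norm, mul_one] at e1
    exact e1
  rw [Q2_eq_coul D hH]
  unfold qh at h1
  have h4 : 0 ≤ ∫ x, tf D x ^ 2 / ‖x - nuc (-D)‖ := integral_nonneg fun x => by positivity
  have h5 : (8 : ℝ) / D ^ 2 = 1 / 2 * (16 / D ^ 2) := by ring
  rw [h5]
  linarith

/-! ### even and odd combinations -/

theorem tf_disj {D : ℝ} (hD : 0 < D) (x : Pos3) :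
    (tf D x = 0 ∧ dtf D x = 0) ∨ (tf D (rz x) = 0 ∧ dtf D (rz x) = 0) := by
  have e : (rz x) 2 = - x 2 := by rw [rz_apply, if_pos rfl]
  rcases lt_or_ge (x 2) (D / 4) with h | h
  · exact Or.inl (tf_zero hD h)
  · exact Or.inr (tf_zero hD (by rw [e]; linarith))

theorem obi_rz_rz (x : Pos3) : rz (rz x) = x := by
  ext i
  rw [rz_apply, rz_apply]
  split_ifs <;> simp

theorem ob_rz_symm (x : Pos3) : rz.symm x = rz x := by
  rw [LinearIsometryEquiv.symm_apply_eq, obi_rz_rz]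

theorem H1.comp_rz {f : Pos3 → ℝ} {g : Pos3 → Pos3} (h : H1 f g) :
    H1 (fun x => f (rz x)) (fun x => rz (g (rz x))) := by
  have := H1.comp_isometry h rz 0
  simp only [add_zero, ob_rz_symm] at this
  exact this

theorem Q2_comp_rz (D : ℝ) (f : Pos3 → ℝ) (g : Pos3 → Pos3) :
    Q2 D (fun x => f (rz x)) (fun x => rz (g (rz x))) = Q2 D f g := by
  unfold Q2
  congr 1
  · congr 1
    rw [← ob_integral_rz (fun x => ‖g x‖ ^ 2)]
    congr 1
    funext x
    rw [rz.norm_map]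
  · rw [← ob_integral_rz (fun x => V2 D x * f x ^ 2)]
    congr 1
    funext x
    rw [V2_rz]

/-- the even (`ε = 1`) or odd (`ε = -1`) combination -/
def tfe (D ε : ℝ) (x : Pos3) : ℝ := tf D x + ε * tf D (rz x)

/-- its gradient -/
def dtfe (D ε : ℝ) (x : Pos3) : Pos3 := dtf D x + ε • rz (dtf D (rz x))

theorem tfe_H1 {D : ℝ} (hD : 0 < D) (ε : ℝ) : H1 (tfe D ε) (dtfe D ε) :=
  (tf_H1 hD).add ((tf_H1 hD).comp_rz.const_mul ε)

theorem tfe_rz (D : ℝ) {ε : ℝ} (hε : ε ^ 2 = 1) (x : Pos3) : tfe D ε (rz x) = ε * tfe D ε x := by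
  unfold tfe
  rw [obi_rz_rz]
  linear_combination (-(tf D (rz x))) * hε

theorem tfe_sq {D : ℝ} (hD : 0 < D) {ε : ℝ} (hε : ε ^ 2 = 1) (x : Pos3) :
    tfe D ε x ^ 2 = tf D x ^ 2 + tf D (rz x) ^ 2 := by
  unfold tfe
  have : tf D x * tf D (rz x) = 0 := by
    rcases tf_disj hD x with h | h
    · rw [h.1, zero_mul]
    · rw [h.1, mul_zero]
  linear_combination (2 * ε) * this + tf D (rz x) ^ 2 * hε

theorem dtfe_sq {D : ℝ} (hD : 0 < D) {ε : ℝ} (hε : ε ^ 2 = 1) (x : Pos3) :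
    ‖dtfe D ε x‖ ^ 2 = ‖dtf D x‖ ^ 2 + ‖rz (dtf D (rz x))‖ ^ 2 := by
  unfold dtfe
  rcases tf_disj hD x with h | h
  · rw [h.2, zero_add, norm_zero, norm_smul, mul_pow, Real.norm_eq_abs, sq_abs, hε]
    ring
  · rw [h.2, map_zero, smul_zero, add_zero, norm_zero]
    ring

theorem tfe_norm {D : ℝ} (hD : 0 < D) {ε : ℝ} (hε : ε ^ 2 = 1) :
    ∫ x, tfe D ε x ^ 2 = 2 * ∫ x, tf D x ^ 2 := by
  have i2 : Integrable (fun x => tf D x ^ 2) := (tf_H1 hD).memf.integrable_sq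
  have i3 : Integrable (fun x => tf D (rz x) ^ 2) := (tf_H1 hD).comp_rz.memf.integrable_sq
  have e : (fun x => tfe D ε x ^ 2) = fun x => tf D x ^ 2 + tf D (rz x) ^ 2 :=
    funext (tfe_sq hD hε)
  rw [e, integral_add i2 i3, ob_integral_rz (fun x => tf D x ^ 2)]
  ring

theorem Q2_tfe {D : ℝ} (hD : 0 < D) {ε : ℝ} (hε : ε ^ 2 = 1) :
    Q2 D (tfe D ε) (dtfe D ε) = 2 * Q2 D (tf D) (dtf D) := by
  have hT := tf_H1 hD
  have hR := hT.comp_rz
  have i1 := sq_norm_integrable hT.memg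
  have i2 := sq_norm_integrable hR.memg
  have j1 := V2_integrable_sq D hT
  have j2 := V2_integrable_sq D hR
  have e1 : (fun x => ‖dtfe D ε x‖ ^ 2) = fun x => ‖dtf D x‖ ^ 2 + ‖rz (dtf D (rz x))‖ ^ 2 :=
    funext (dtfe_sq hD hε)
  have e2 : (fun x => V2 D x * tfe D ε x ^ 2) =
      fun x => V2 D x * tf D x ^ 2 + V2 D x * tf D (rz x) ^ 2 := by
    funext x
    rw [tfe_sq hD hε]
    ring
  have e3 : Q2 D (tfe D ε) (dtfe D ε) = Q2 D (tf D) (dtf D) +
      Q2 D (fun x => tf D (rz x)) (fun x => rz (dtf D (rz x))) := by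
    unfold Q2
    rw [e1, e2, integral_add i1 i2, integral_add j1 j2]
    ring
  rw [e3, Q2_comp_rz]
  ring

/-- trial functions of both parities -/
theorem trial_exists : ∃ C D₀ : ℝ, 1 ≤ D₀ ∧ ∀ D : ℝ, D₀ ≤ D → ∀ ε : ℝ, ε ^ 2 = 1 →
    ∃ (w : Pos3 → ℝ) (dw : Pos3 → Pos3), H1 w dw ∧ ∫ x, w x ^ 2 = 1 ∧
      (∀ x, w (rz x) = ε * w x) ∧ Q2 D w dw ≤ -(1 / 2) + C / D := by
  refine ⟨16, 32, by norm_num, fun D hD ε hε => ?_⟩
  have hD0 : 0 < D := by linarith
  set N := ∫ x, tf D x ^ 2 with hN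
  have hN1 : 1 / 2 ≤ N := by
    have h1 := tf_mass hD0
    have h2 : 16 / D ≤ 1 / 2 := by rw [div_le_div_iff₀ hD0 (by norm_num)]; linarith
    linarith
  have hN0 : 0 < N := by linarith
  set s := 1 / √(2 * N) with hs
  have hs2 : s ^ 2 = 1 / (2 * N) := by
    rw [hs, div_pow, Real.sq_sqrt (by positivity), one_pow]
  refine ⟨fun x => s * tfe D ε x, fun x => s • dtfe D ε x, (tfe_H1 hD0 ε).const_mul s, ?_, ?_, ?_⟩
  · have e : (fun x => (s * tfe D ε x) ^ 2) = fun x => s ^ 2 * tfe D ε x ^ 2 := by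
      funext x; ring
    rw [e, integral_const_mul, tfe_norm hD0 hε, hs2, ← hN]
    field_simp
  · intro x
    show s * tfe D ε (rz x) = ε * (s * tfe D ε x)
    rw [tfe_rz D hε]
    ring
  · have e : Q2 D (fun x => s * tfe D ε x) (fun x => s • dtfe D ε x) =
        s ^ 2 * Q2 D (tfe D ε) (dtfe D ε) := by
      unfold Q2
      have e1 : (fun x => ‖s • dtfe D ε x‖ ^ 2) = fun x => s ^ 2 * ‖dtfe D ε x‖ ^ 2 := by
        funext x
        rw [norm_smul, mul_pow, Real.norm_eq_abs, sq_abs]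
      have e2 : (fun x => V2 D x * (s * tfe D ε x) ^ 2) =
          fun x => s ^ 2 * (V2 D x * tfe D ε x ^ 2) := by
        funext x; ring
      rw [e1, e2, integral_const_mul, integral_const_mul]
      ring
    rw [e, Q2_tfe hD0 hε, hs2]
    have h1 := Q2_tf hD0
    rw [← hN] at h1
    have h2 : 1 / (2 * N) * (2 * Q2 D (tf D) (dtf D)) = Q2 D (tf D) (dtf D) / N := by
      field_simp
    rw [h2, div_le_iff₀ hN0]
    have h3 : 8 / D ^ 2 ≤ 8 / D := by
      apply div_le_div_of_nonneg_left (by norm_num) hD0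
      nlinarith
    have h4 : 8 / D ≤ 16 / D * N := by
      have : 0 ≤ 16 / D := by positivity
      have h5 : 8 / D = 16 / D * (1 / 2) := by ring
      rw [h5]
      exact mul_le_mul_of_nonneg_left hN1 this
    linarith

end Crest.Agent.R335
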