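import Crest.Agent.R335.OBPot
import Crest.Agent.R335.HGlob2
import Crest.Agent.R335.HGap

/-!
Row 335 (S0521), ONE-BODY block: existence of the ground state on the parity classes of `h`, with
spectral gap (helper733).
-/

set_option autoImplicit false
set_option linter.unusedSectionVars false
set_option linter.deprecated false

open MeasureTheory Filter Set Crest.MathPhysics.ThreeBody
open scoped ENNReal Topology ContDiff

noncomputable section
namespace Crest.Agent.R335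
namespace OM

/-! ### abstract sector theorem -/

/-- the subspace `R u = σ u` -/
def WS {H : Type*} [NormedAddCommGroup H] [InnerProductSpace ℝ H] (R : H →L[ℝ] H) (σ : ℝ) :
    Submodule ℝ H := LinearMap.ker ((R - σ • ContinuousLinearMap.id ℝ H : H →L[ℝ] H) : H →ₗ[ℝ] H)

theorem mem_WS {H : Type*} [NormedAddCommGroup H] [InnerProductSpace ℝ H] {R : H →L[ℝ] H} {σ : ℝ}
    {u : H} : u ∈ WS R σ ↔ R u = σ • u := by
  unfold WS
  rw [LinearMap.mem_ker]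
  simp [sub_eq_zero]

theorem isClosed_WS {H : Type*} [NormedAddCommGroup H] [InnerProductSpace ℝ H] (R : H →L[ℝ] H)
    (σ : ℝ) : IsClosed (WS R σ : Set H) :=
  ContinuousLinearMap.isClosed_ker (R - σ • ContinuousLinearMap.id ℝ H : H →L[ℝ] H)

/-- a symmetric form invariant under an involution: orthogonality of the two parity classes -/
theorem form_odd {H : Type*} [NormedAddCommGroup H] [InnerProductSpace ℝ H]
    {q : H →L[ℝ] H →L[ℝ] ℝ} {R : H →L[ℝ] H} (hRq : ∀ u v, q (R u) (R v) = q u v) {σ : ℝ}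
    (hσ : σ ^ 2 = 1) {u b : H} (hRu : R u = σ • u) (hRb : R b = -(σ • b)) : q u b = 0 := by
  have h1 := hRq u b
  rw [hRu, hRb] at h1
  have h2 : q (σ • u) (-(σ • b)) = -(σ ^ 2 * q u b) := by
    rw [map_neg, map_smul, map_smul, ContinuousLinearMap.smul_apply, smul_eq_mul, smul_eq_mul]
    ring
  rw [h2, hσ] at h1
  linarith

theorem sector {H : Type*} [NormedAddCommGroup H] [InnerProductSpace ℝ H] [CompleteSpace H]
    {q n : H →L[ℝ] H →L[ℝ] ℝ} (hq : ∀ u v, q u v = q v u) (hn : ∀ u v, n u v = n v u)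
    (hn0 : ∀ u, 0 ≤ n u u) (hn1 : ∀ u, n u u = 0 → u = 0) {C c : ℝ} (hc : 0 < c)
    (hco : ∀ u, c * ‖u‖ ^ 2 ≤ q u u + C * n u u)
    (R : H →L[ℝ] H) (hR : ∀ u, R (R u) = u) (hRq : ∀ u v, q (R u) (R v) = q u v)
    (hRn : ∀ u v, n (R u) (R v) = n u v) {σ : ℝ} (hσ : σ ^ 2 = 1)
    {E₁ K m : ℝ} {w : H} (hw : R w = σ • w) (hw1 : n w w = 1) (hwE : q w w < E₁)
    {ℓ : H →L[ℝ] ℝ} (hgap : ∀ u, R u = σ • u → E₁ * n u u - K * (ℓ u) ^ 2 ≤ q u u)
    (hlow : ∀ u, R u = σ • u → m * n u u ≤ q u u) :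
    ∃ (E₀ : ℝ) (u : H), R u = σ • u ∧ n u u = 1 ∧ E₀ ≤ q w w ∧ m ≤ E₀ ∧
      (∀ v, q u v = E₀ * n u v) ∧ ∀ v, R v = σ • v → n u v = 0 → E₁ * n v v ≤ q v v := by
  set W := WS R σ with hW
  have hWc : IsClosed (W : Set H) := isClosed_WS R σ
  have : CompleteSpace W := hWc.completeSpace_coe
  set q' : W →L[ℝ] W →L[ℝ] ℝ := q.bilinearComp W.subtypeL W.subtypeL with hq'
  set n' : W →L[ℝ] W →L[ℝ] ℝ := n.bilinearComp W.subtypeL W.subtypeL with hn'
  have eq' : ∀ u v : W, q' u v = q (u : H) (v : H) := fun u v => rfl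
  have en' : ∀ u v : W, n' u v = n (u : H) (v : H) := fun u v => rfl
  have hmem : ∀ u : W, R (u : H) = σ • (u : H) := fun u => mem_WS.1 u.2
  set S : Set ℝ := {t | ∃ u : W, n' u u = 1 ∧ q' u u = t} with hS
  set w' : W := ⟨w, mem_WS.2 hw⟩ with hw'
  have hne : S.Nonempty := ⟨q w w, w', hw1, rfl⟩
  have hbd : BddBelow S := ⟨m, by
    rintro t ⟨u, hu1, rfl⟩
    have := hlow u (hmem u)
    rw [← en', hu1, mul_one] at this
    exact this⟩
  set E₀ := sInf S with hE₀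
  have hEw : E₀ ≤ q w w := csInf_le hbd ⟨w', hw1, rfl⟩
  have hlow' : ∀ u : W, E₀ * n' u u ≤ q' u u := by
    intro u
    rcases (hn0 (u : H)).eq_or_lt with h | h
    · have h0 : (u : H) = 0 := hn1 _ h.symm
      rw [eq', en', h0]; simp
    · have hs : 0 < √(n (u : H) (u : H)) := Real.sqrt_pos.2 h
      have hs2 : √(n (u : H) (u : H)) ^ 2 = n (u : H) (u : H) := Real.sq_sqrt h.le
      set s := √(n (u : H) (u : H)) with hs'
      have h1 : n' (s⁻¹ • u) (s⁻¹ • u) = 1 := by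
        simp only [map_smul, ContinuousLinearMap.smul_apply, smul_eq_mul, en']
        rw [← hs2]; field_simp
      have h2 : E₀ ≤ q' (s⁻¹ • u) (s⁻¹ • u) := csInf_le hbd ⟨_, h1, rfl⟩
      simp only [map_smul, ContinuousLinearMap.smul_apply, smul_eq_mul] at h2
      rw [en', ← hs2]
      have h3 : q' u u = s ^ 2 * (s⁻¹ * (s⁻¹ * q' u u)) := by field_simp
      rw [h3, mul_comm]
      exact mul_le_mul_of_nonneg_left h2 (sq_nonneg s)
  have hsharp : ∀ ε > 0, ∃ u : W, n' u u = 1 ∧ q' u u < E₀ + ε := by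
    intro ε hε
    obtain ⟨t, ⟨u, hu1, rfl⟩, ht⟩ := exists_lt_of_csInf_lt hne (show sInf S < E₀ + ε by linarith)
    exact ⟨u, hu1, ht⟩
  set ℓ' : W →L[ℝ] ℝ := ℓ.comp W.subtypeL with hℓ'
  have hgap' : ∀ u : W, E₁ * n' u u - K * (ℓ' u) ^ 2 ≤ q' u u := fun u => hgap u (hmem u)
  obtain ⟨u, hu1, huE, hu⟩ := gap_exists (H := W) (q := q') (n := n')
    (fun u v => hq u v) (fun u v => hn u v) (fun u => hn0 u) (C := C) (c := c) hc
    (fun u => hco u) (E₀ := E₀) (E₁ := E₁) (by linarith) hlow' hsharp (J := Unit)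
    (ℓ := fun _ => ℓ') (K := K) (fun u => by simpa using hgap' u)
  obtain ⟨-, hsim⟩ := gap_simple (H := W) (q := q') (n := n') (fun u v => hq u v)
    (fun u v => hn u v) (fun u => hn0 u) (fun u h => Subtype.ext (hn1 _ h)) (E₀ := E₀) (E₁ := E₁)
    (by linarith) hu1 hu (ℓ := ℓ') (K := K) hgap'
  have hRu := hmem u
  refine ⟨E₀, u, hRu, hu1, hEw, ?_, ?_, fun v hv hv0 => hsim ⟨v, mem_WS.2 hv⟩ hv0⟩
  · have := hlow u hRu
    rw [← en', hu1, mul_one, ← eq', huE] at this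
    exact this
  · intro v
    -- parity decomposition
    set a : H := (1 / 2 : ℝ) • (v + σ • R v) with ha
    set b : H := (1 / 2 : ℝ) • (v - σ • R v) with hb
    have hv : v = a + b := by
      rw [ha, hb]; module
    have hRa : R a = σ • a := by
      have h1 : R a = (1 / 2 : ℝ) • (R v + σ • v) := by rw [ha, map_smul, map_add, map_smul, hR]
      have h2 : R a = (1 / 2 : ℝ) • ((σ ^ 2) • R v + σ • v) := by rw [h1, hσ, one_smul]
      rw [h2, ha]; module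
    have hRb : R b = -(σ • b) := by
      have h1 : R b = (1 / 2 : ℝ) • (R v - σ • v) := by rw [hb, map_smul, map_sub, map_smul, hR]
      have h2 : R b = (1 / 2 : ℝ) • ((σ ^ 2) • R v - σ • v) := by rw [h1, hσ, one_smul]
      rw [h2, hb]; module
    have h1 := hu ⟨a, mem_WS.2 hRa⟩
    rw [eq', en'] at h1
    rw [hv, map_add, map_add, form_odd hRq hσ hRu hRb, form_odd hRn hσ hRu hRb, add_zero, add_zero]
    exact h1

/-! ### an isometric involution acting on `H¹` -/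

section Invol
variable {ι : Type*} [Fintype ι] [DecidableEq ι]

local notation "E" => EuclideanSpace ℝ ι


theorem symm_of {L : E ≃ₗᵢ[ℝ] E} (hL : ∀ x, L (L x) = x) : L.symm = L := by
  ext1 x
  rw [LinearIsometryEquiv.symm_apply_eq, hL]

theorem ae_isom (L : E ≃ₗᵢ[ℝ] E) {p : E → Prop} (h : ∀ᵐ x : E, p x) : ∀ᵐ x : E, p (L x) :=
  L.measurePreserving.quasiMeasurePreserving.ae h

theorem int_isom (L : E ≃ₗᵢ[ℝ] E) {F : Type*} [NormedAddCommGroup F] [NormedSpace ℝ F] (φ : E → F) :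
    ∫ x : E, φ (L x) = ∫ x, φ x :=
  L.measurePreserving.integral_comp L.toHomeomorph.measurableEmbedding φ

theorem H1_isom (L : E ≃ₗᵢ[ℝ] E) {f : E → ℝ} {g : E → E} (h : H1 f g) :
    H1 (fun x : E => f (L x)) (fun x : E => L.symm (g (L x))) := by
  have := h.comp_isometry L 0
  simp only [add_zero] at this
  exact this

/-- composition with an isometry, linear -/
def RzL (L : E ≃ₗᵢ[ℝ] E) : H1S ι →ₗ[ℝ] H1S ι where
  toFun P := H1S.of (H1_isom L (H1S.h1 P))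
  map_add' P Q := by
    apply H1S.ext'
    refine (H1S.of_fn _).trans ?_
    refine EventuallyEq.trans ?_ (H1S.add_fn _ _).symm
    filter_upwards [ae_isom L (H1S.add_fn P Q), H1S.of_fn (H1_isom L (H1S.h1 P)),
      H1S.of_fn (H1_isom L (H1S.h1 Q))] with x h1 h2 h3
    rw [h1, h2, h3]
  map_smul' c P := by
    apply H1S.ext'
    refine (H1S.of_fn _).trans ?_
    refine EventuallyEq.trans ?_ (H1S.smul_fn _ _).symm
    filter_upwards [ae_isom L (H1S.smul_fn c P), H1S.of_fn (H1_isom L (H1S.h1 P))] with x h1 h2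
    rw [h1, h2]; rfl

theorem RzL_fn (L : E ≃ₗᵢ[ℝ] E) (P : H1S ι) : H1S.fn (RzL L P) =ᵐ[volume] fun x : E => H1S.fn P (L x) :=
  H1S.of_fn (H1_isom L (H1S.h1 P))

theorem RzL_norm (L : E ≃ₗᵢ[ℝ] E) (P : H1S ι) : ‖RzL L P‖ = ‖P‖ := by
  have h : ‖RzL L P‖ ^ 2 = ‖P‖ ^ 2 := by
    have h1 : ‖RzL L P‖ ^ 2 = _ := H1S.norm_of_sq (H1_isom L (H1S.h1 P))
    rw [h1, H1S.norm_sq_eq, int_isom L (fun x => H1S.fn P x ^ 2)]
    congr 1
    simp only [LinearIsometryEquiv.norm_map]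
    exact int_isom L (fun x => ‖H1S.gd P x‖ ^ 2)
  exact (sq_eq_sq₀ (norm_nonneg _) (norm_nonneg _)).1 h

/-- composition with an isometry -/
def Rz (L : E ≃ₗᵢ[ℝ] E) : H1S ι →L[ℝ] H1S ι :=
  (RzL L).mkContinuous 1 fun P => by rw [RzL_norm, one_mul]

theorem Rz_eq (L : E ≃ₗᵢ[ℝ] E) (P : H1S ι) : Rz L P = H1S.of (H1_isom L (H1S.h1 P)) := rfl

theorem Rz_fn (L : E ≃ₗᵢ[ℝ] E) (P : H1S ι) : H1S.fn (Rz L P) =ᵐ[volume] fun x : E => H1S.fn P (L x) := RzL_fn L P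

theorem Rz_Rz {L : E ≃ₗᵢ[ℝ] E} (hL : ∀ x, L (L x) = x) (P : H1S ι) : Rz L (Rz L P) = P := by
  apply H1S.ext'
  refine (Rz_fn L _).trans ?_
  filter_upwards [ae_isom L (Rz_fn L P)] with x hx
  rw [hx, hL]

/-- the form `½∫∇f·∇k + ∫V f k` -/
def qB (V : E → ℝ) (f : E → ℝ) (g : E → E) (k : E → ℝ) (l : E → E) : ℝ :=
  (1 / 2) * (∫ x, inner ℝ (g x) (l x)) + ∫ x, V x * (f x * k x)

/-- its quadratic form -/
def qQ (V : E → ℝ) (f : E → ℝ) (g : E → E) : ℝ :=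
  (1 / 2) * (∫ x, ‖g x‖ ^ 2) + ∫ x, V x * f x ^ 2

theorem qB_self (V : E → ℝ) (f : E → ℝ) (g : E → E) : qB V f g f g = qQ V f g := by
  unfold qB qQ
  congr 1
  · congr 1
    exact integral_congr_ae (ae_of_all _ fun x => real_inner_self_eq_norm_sq _)
  · exact integral_congr_ae (ae_of_all _ fun x => by simp only; ring)

theorem qB_symm (V : E → ℝ) (f : E → ℝ) (g : E → E) (k : E → ℝ) (l : E → E) :
    qB V f g k l = qB V k l f g := by
  unfold qB
  congr 1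
  · congr 1
    exact integral_congr_ae (ae_of_all _ fun x => real_inner_comm _ _)
  · exact integral_congr_ae (ae_of_all _ fun x => by simp only; ring)

theorem qB_congr (V : E → ℝ) {f f' k k' : E → ℝ} {g g' l l' : E → E} (h1 : f =ᵐ[volume] f')
    (h2 : g =ᵐ[volume] g') (h3 : k =ᵐ[volume] k') (h4 : l =ᵐ[volume] l') :
    qB V f g k l = qB V f' g' k' l' := by
  unfold qB
  congr 1
  · congr 1
    refine integral_congr_ae ?_
    filter_upwards [h2, h4] with x a b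
    rw [a, b]
  · refine integral_congr_ae ?_
    filter_upwards [h1, h3] with x a b
    rw [a, b]

theorem qB_isom (L : E ≃ₗᵢ[ℝ] E) {V : E → ℝ} (hV : ∀ x, V (L x) = V x) (f : E → ℝ) (g : E → E) (k : E → ℝ)
    (l : E → E) : qB V (fun x : E => f (L x)) (fun x : E => L.symm (g (L x)))
      (fun x : E => k (L x)) (fun x : E => L.symm (l (L x))) = qB V f g k l := by
  unfold qB
  congr 1
  · congr 1
    simp only [LinearIsometryEquiv.inner_map_map]
    exact int_isom L (fun x => inner ℝ (g x) (l x))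
  · rw [← int_isom L (fun x => V x * (f x * k x))]
    simp only [hV]

theorem qQ_isom (L : E ≃ₗᵢ[ℝ] E) {V : E → ℝ} (hV : ∀ x, V (L x) = V x) (f : E → ℝ) (g : E → E) :
    qQ V (fun x : E => f (L x)) (fun x : E => L.symm (g (L x))) = qQ V f g := by
  rw [← qB_self, qB_isom L hV, qB_self]

/-- the form as a continuous bilinear form on the Hilbert space -/
def qF {V : E → ℝ} {C : ℝ} (hV : H1S.FB V C) : H1S ι →L[ℝ] H1S ι →L[ℝ] ℝ :=
  (1 / 2 : ℝ) • H1S.dF ι + H1S.VF hV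

theorem qF_eq {V : E → ℝ} {C : ℝ} (hV : H1S.FB V C) (P Q : H1S ι) :
    qF hV P Q = (1 / 2) * H1S.dF ι P Q + H1S.VF hV P Q := rfl

theorem qF_of {V : E → ℝ} {C : ℝ} (hV : H1S.FB V C) {f k : E → ℝ} {g l : E → E}
    (h : H1 f g) (h' : H1 k l) : qF hV (H1S.of h) (H1S.of h') = qB V f g k l := by
  rw [qF_eq, H1S.dF_of, H1S.VF_of]; rfl

theorem qF_apply {V : E → ℝ} {C : ℝ} (hV : H1S.FB V C) (P Q : H1S ι) :
    qF hV P Q = qB V (H1S.fn P) (H1S.gd P) (H1S.fn Q) (H1S.gd Q) := by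
  rw [qF_eq, H1S.dF_apply, H1S.VF_apply]; rfl

theorem qF_self {V : E → ℝ} {C : ℝ} (hV : H1S.FB V C) (P : H1S ι) :
    qF hV P P = qQ V (H1S.fn P) (H1S.gd P) := by rw [qF_apply, qB_self]

theorem qF_symm {V : E → ℝ} {C : ℝ} (hV : H1S.FB V C) (P Q : H1S ι) :
    qF hV P Q = qF hV Q P := by rw [qF_apply, qF_apply, qB_symm]

theorem Rz_qF (L : E ≃ₗᵢ[ℝ] E) {V : E → ℝ} {C : ℝ} (hV : H1S.FB V C) (hVL : ∀ x, V (L x) = V x) (P Q : H1S ι) :
    qF hV (Rz L P) (Rz L Q) = qF hV P Q := by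
  have h1 := qF_of hV (H1_isom L (H1S.h1 P)) (H1_isom L (H1S.h1 Q))
  have h2 := qB_isom L hVL (H1S.fn P) (H1S.gd P) (H1S.fn Q) (H1S.gd Q)
  exact h1.trans (h2.trans (qF_apply hV P Q).symm)

theorem Rz_nF (L : E ≃ₗᵢ[ℝ] E) (P Q : H1S ι) : H1S.nF ι (Rz L P) (Rz L Q) = H1S.nF ι P Q := by
  have h1 := H1S.nF_of (H1_isom L (H1S.h1 P)) (H1_isom L (H1S.h1 Q))
  exact h1.trans ((int_isom L (fun x => H1S.fn P x * H1S.fn Q x)).trans
    (H1S.nF_apply P Q).symm)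

theorem Rz_par (L : E ≃ₗᵢ[ℝ] E) {P : H1S ι} {σ : ℝ} :
    Rz L P = σ • P ↔ ∀ᵐ x : E, H1S.fn P (L x) = σ * H1S.fn P x := by
  constructor
  · intro h
    have h1 := Rz_fn L P
    rw [h] at h1
    filter_upwards [h1, H1S.smul_fn σ P] with x h2 h3
    rw [← h2, h3]
  · intro h
    apply H1S.ext'
    refine (Rz_fn L P).trans ?_
    refine EventuallyEq.trans ?_ (H1S.smul_fn _ _).symm
    exact h

theorem Rz_par_of (L : E ≃ₗᵢ[ℝ] E) {f : E → ℝ} {g : E → E} (h : H1 f g) {σ : ℝ} :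
    Rz L (H1S.of h) = σ • H1S.of h ↔ ∀ᵐ x : E, f (L x) = σ * f x := by
  rw [Rz_par]
  constructor
  · intro hp
    filter_upwards [H1S.of_fn h, ae_isom L (H1S.of_fn h), hp] with x h1 h2 h3
    rw [← h1, ← h2, h3]
  · intro hp
    filter_upwards [H1S.of_fn h, ae_isom L (H1S.of_fn h), hp] with x h1 h2 h3
    rw [h1, h2, h3]

theorem nF_nonneg (P : H1S ι) : 0 ≤ H1S.nF ι P P := by
  rw [H1S.nF_self]; exact integral_nonneg fun x => sq_nonneg _

theorem eq_zero_of_nF {P : H1S ι} (h : H1S.nF ι P P = 0) : P = 0 := by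
  rw [H1S.nF_self] at h
  have h1 := (integral_eq_zero_iff_of_nonneg (fun x => sq_nonneg _)
    (H1S.h1 P).memf.integrable_sq).1 h
  apply H1S.ext'
  filter_upwards [h1, H1S.zero_fn (ι := ι)] with x h2 h3
  rw [h3]
  simpa using h2

/-- ground state of the form in the sector `σ` of the involution `L` -/
structure SecG (V : E → ℝ) (L : E ≃ₗᵢ[ℝ] E) (E₁ σ : ℝ) (f : E → ℝ) (g : E → E) (e : ℝ) :
    Prop where
  h : H1 f g
  par : ∀ᵐ x : E, f (L x) = σ * f x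
  nrm : ∫ x, f x ^ 2 = 1
  eq : ∀ k l, H1 k l → qB V f g k l = e * ∫ x, f x * k x
  gap : ∀ k l, H1 k l → (∀ᵐ x : E, k (L x) = σ * k x) → ∫ x, f x * k x = 0 →
    E₁ * (∫ x, k x ^ 2) ≤ qQ V k l

theorem secG_exists {V : E → ℝ} {C₁ : ℝ} (hV : H1S.FB V C₁) {L : E ≃ₗᵢ[ℝ] E}
    (hL : ∀ x : E, L (L x) = x) (hVL : ∀ x : E, V (L x) = V x) {c₀ C₀ : ℝ} (hc₀ : 0 < c₀)
    (hco : ∀ f g, H1 f g → c₀ * ((∫ x, f x ^ 2) + ∫ x, ‖g x‖ ^ 2) ≤ qQ V f g + C₀ * ∫ x, f x ^ 2)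
    {σ : ℝ} (hσ : σ ^ 2 = 1) {w : E → ℝ} {dw : E → E} (hw : H1 w dw)
    (hwp : ∀ᵐ x : E, w (L x) = σ * w x) (hw1 : ∫ x, w x ^ 2 = 1) {E₁ K m : ℝ}
    (hwE : qQ V w dw < E₁) {φ : E → ℝ} (hφ : MemLp φ 2 volume)
    (hgap : ∀ f g, H1 f g → (∀ᵐ x : E, f (L x) = σ * f x) →
      E₁ * (∫ x, f x ^ 2) - K * (∫ x, φ x * f x) ^ 2 ≤ qQ V f g)
    (hlow : ∀ f g, H1 f g → (∀ᵐ x : E, f (L x) = σ * f x) → m * (∫ x, f x ^ 2) ≤ qQ V f g) :
    ∃ f g e, SecG V L E₁ σ f g e ∧ e ≤ qQ V w dw ∧ m ≤ e := by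
  have e1 : H1S.nF ι (H1S.of hw) (H1S.of hw) = 1 := by
    have h1 : H1S.nF ι (H1S.of hw) (H1S.of hw) = ∫ x, w x * w x := H1S.nF_of hw hw
    rw [h1, ← hw1]
    exact integral_congr_ae (ae_of_all _ fun x => by simp only; ring)
  have e2 : qF hV (H1S.of hw) (H1S.of hw) = qQ V w dw := (qF_of hV hw hw).trans (qB_self _ _ _)
  have e3 : ∀ u : H1S ι, qF hV u u = qQ V (H1S.fn u) (H1S.gd u) := fun u => qF_self hV u
  have e4 : ∀ u : H1S ι, H1S.nF ι u u = ∫ x, (H1S.fn u x) ^ 2 := fun u => H1S.nF_self u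
  have e5 : ∀ u : H1S ι, H1S.ell hφ u = ∫ x, φ x * H1S.fn u x := fun u => H1S.ell_apply hφ u
  have s1 : ∀ u : H1S ι, c₀ * ‖u‖ ^ 2 ≤ qF hV u u + C₀ * H1S.nF ι u u := fun u => by
    have h1 : ‖u‖ ^ 2 = (∫ x, (H1S.fn u) x ^ 2) + ∫ x, ‖(H1S.gd u) x‖ ^ 2 := H1S.norm_sq_eq u
    have h2 := hco _ _ (H1S.h1 u)
    exact (congrArg (fun s => c₀ * s) h1).trans_le
      (h2.trans_eq (congrArg₂ (fun s t => s + C₀ * t) (e3 u) (e4 u)).symm)
  have s2 : ∀ u : H1S ι, Rz L u = σ • u → E₁ * H1S.nF ι u u - K * (H1S.ell hφ u) ^ 2 ≤ qF hV u u :=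
    fun u hu => by
      have h2 := hgap _ _ (H1S.h1 u) ((Rz_par L).1 hu)
      exact (congrArg₂ (fun s t => E₁ * s - K * t ^ 2) (e4 u) (e5 u)).trans_le
        (h2.trans_eq (e3 u).symm)
  have s3 : ∀ u : H1S ι, Rz L u = σ • u → m * H1S.nF ι u u ≤ qF hV u u := fun u hu => by
      have h2 := hlow _ _ (H1S.h1 u) ((Rz_par L).1 hu)
      exact (congrArg (fun s => m * s) (e4 u)).trans_le (h2.trans_eq (e3 u).symm)
  have s4 : qF hV (H1S.of hw) (H1S.of hw) < E₁ := e2.trans_lt hwE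
  obtain ⟨e, u, hu1, hu2, hu3, hu4, hu5, hu6⟩ := sector (q := qF hV) (n := H1S.nF ι)
    (qF_symm hV) H1S.nF_symm nF_nonneg (fun u hu => eq_zero_of_nF hu)
    (C := C₀) (c := c₀) hc₀ s1
    (Rz L) (Rz_Rz hL) (Rz_qF L hV hVL) (Rz_nF L) hσ (E₁ := E₁) (K := K) (m := m)
    (w := H1S.of hw) ((Rz_par_of L hw).2 hwp) e1 s4 (ℓ := H1S.ell hφ) s2 s3
  refine ⟨H1S.fn u, H1S.gd u, e, ⟨H1S.h1 u, (Rz_par L).1 hu1, ?_, ?_, ?_⟩, hu3.trans_eq e2, hu4⟩
  · exact (e4 u).symm.trans hu2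
  · intro k l' hk
    have h1 := hu5 (H1S.of hk)
    have h2 : qF hV (H1S.of (H1S.h1 u)) (H1S.of hk) =
      qB V (H1S.fn u) (H1S.gd u) k l' := qF_of hV (H1S.h1 u) hk
    have h4 : H1S.of (H1S.h1 u) = u := H1S.of_h1 u
    have h3 : H1S.nF ι u (H1S.of hk) = ∫ x, H1S.fn u x * k x := H1S.nF_left_of u hk
    have h5 : qF hV u (H1S.of hk) = qB V (H1S.fn u) (H1S.gd u) k l' :=
      (congrArg (fun P => qF hV P (H1S.of hk)) h4).symm.trans h2
    exact h5.symm.trans (h1.trans (congrArg (fun s => e * s) h3))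
  · intro k l' hk hkp hk0
    have h3 : H1S.nF ι u (H1S.of hk) = ∫ x, H1S.fn u x * k x := H1S.nF_left_of u hk
    have h1 := hu6 (H1S.of hk) ((Rz_par_of L hk).2 hkp) (h3.trans hk0)
    have h4 : qF hV (H1S.of hk) (H1S.of hk) = qQ V k l' := (qF_of hV hk hk).trans (qB_self _ _ _)
    have h5 : H1S.nF ι (H1S.of hk) (H1S.of hk) = ∫ x, k x * k x := H1S.nF_of hk hk
    have h6 : ∫ x, k x * k x = ∫ x, k x ^ 2 :=
      integral_congr_ae (ae_of_all _ fun x => by simp only; ring)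
    exact (congrArg (fun s => E₁ * s) (h5.trans h6)).symm.trans_le (h1.trans_eq h4)

end Invol

theorem quad_sub {H : Type*} [NormedAddCommGroup H] [InnerProductSpace ℝ H]
    {q : H →L[ℝ] H →L[ℝ] ℝ} (hq : ∀ u v, q u v = q v u) (P Q : H) (a : ℝ) :
    q (P - a • Q) (P - a • Q) = q P P - 2 * a * q Q P + a ^ 2 * q Q Q := by
  simp only [map_sub, map_smul, ContinuousLinearMap.sub_apply, ContinuousLinearMap.smul_apply,
    smul_eq_mul]
  rw [hq P Q]; ring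

section Invol2
variable {ι : Type*} [Fintype ι] [DecidableEq ι]

local notation "E" => EuclideanSpace ℝ ι

theorem of_sub {k f : E → ℝ} {l g : E → E} (hk : H1 k l) (hf : H1 f g) (a : ℝ) :
    H1S.of (hk.sub (hf.const_mul a)) = H1S.of hk - a • H1S.of hf := by
  apply H1S.ext'
  refine (H1S.of_fn _).trans ?_
  refine EventuallyEq.trans ?_ (H1S.sub_fn _ _).symm
  filter_upwards [H1S.of_fn hk, H1S.smul_fn a (H1S.of hf), H1S.of_fn hf] with x h1 h2 h3
  rw [h1, h2, h3]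

theorem qQ_sub {V : E → ℝ} {C₁ : ℝ} (hV : H1S.FB V C₁) {k f : E → ℝ} {l g : E → E} (hk : H1 k l)
    (hf : H1 f g) (a : ℝ) : qQ V (fun x => k x - a * f x) (fun x => l x - a • g x) =
      qQ V k l - 2 * a * qB V f g k l + a ^ 2 * qQ V f g := by
  have h1 := quad_sub (qF_symm hV) (H1S.of hk) (H1S.of hf) a
  have h2 : qF hV (H1S.of (hk.sub (hf.const_mul a))) (H1S.of (hk.sub (hf.const_mul a))) =
      qF hV (H1S.of hk - a • H1S.of hf) (H1S.of hk - a • H1S.of hf) :=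
    congrArg (fun P => qF hV P P) (of_sub hk hf a)
  have e1 : qF hV (H1S.of (hk.sub (hf.const_mul a))) (H1S.of (hk.sub (hf.const_mul a))) =
      qQ V (fun x => k x - a * f x) (fun x => l x - a • g x) :=
    (qF_of hV (hk.sub (hf.const_mul a)) (hk.sub (hf.const_mul a))).trans (qB_self _ _ _)
  have e2 : qF hV (H1S.of hk) (H1S.of hk) = qQ V k l := (qF_of hV hk hk).trans (qB_self _ _ _)
  have e3 : qF hV (H1S.of hf) (H1S.of hf) = qQ V f g := (qF_of hV hf hf).trans (qB_self _ _ _)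
  have e4 : qF hV (H1S.of hf) (H1S.of hk) = qB V f g k l := qF_of hV hf hk
  refine e1.symm.trans (h2.trans (h1.trans ?_))
  have h5 : ∀ A B C A' B' C' : ℝ, A = A' → B = B' → C = C' →
    A - 2 * a * B + a ^ 2 * C = A' - 2 * a * B' + a ^ 2 * C' := by
      rintro _ _ _ _ _ _ rfl rfl rfl; rfl
  exact h5 _ _ _ _ _ _ e2 e4 e3

theorem int_sub_sq {k f : E → ℝ} (hk : MemLp k 2 volume) (hf : MemLp f 2 volume) (a : ℝ) :
    ∫ x, (k x - a * f x) ^ 2 = (∫ x, k x ^ 2) - 2 * a * (∫ x, f x * k x) +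
      a ^ 2 * ∫ x, f x ^ 2 := by
  have i1 : Integrable (fun x => k x ^ 2) := hk.integrable_sq
  have i2 : Integrable (fun x => f x ^ 2) := hf.integrable_sq
  have i3 : Integrable (fun x => f x * k x) := hf.integrable_mul hk
  have j1 : Integrable (fun x => 2 * a * (f x * k x)) := i3.const_mul _
  have j2 : Integrable (fun x => a ^ 2 * f x ^ 2) := i2.const_mul _
  have j3 : Integrable (fun x => k x ^ 2 - 2 * a * (f x * k x)) := i1.sub j1
  rw [← integral_const_mul (2 * a) (fun x => f x * k x),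
    ← integral_const_mul (a ^ 2) (fun x => f x ^ 2), ← integral_sub i1 j1, ← integral_add j3 j2]
  congr 1
  funext x
  ring

theorem int_mul_sub {k f : E → ℝ} (hk : MemLp k 2 volume) (hf : MemLp f 2 volume) (a : ℝ) :
    ∫ x, f x * (k x - a * f x) = (∫ x, f x * k x) - a * ∫ x, f x ^ 2 := by
  have i2 : Integrable (fun x => f x ^ 2) := hf.integrable_sq
  have i3 : Integrable (fun x => f x * k x) := hf.integrable_mul hk
  rw [← integral_const_mul, ← integral_sub i3 (i2.const_mul a)]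
  congr 1
  funext x
  ring

theorem ae_zero_of_int_sq {r : E → ℝ} (hr : MemLp r 2 volume) (h : ∫ x, r x ^ 2 = 0) :
    ∀ᵐ x, r x = 0 := by
  have h1 := (integral_eq_zero_iff_of_nonneg (fun x => sq_nonneg _) hr.integrable_sq).1 h
  filter_upwards [h1] with x hx
  simpa using hx

variable {V : E → ℝ} {L : E ≃ₗᵢ[ℝ] E} {E₁ σ e : ℝ} {f : E → ℝ} {g : E → E}

theorem SecG.Q {V : E → ℝ} {L : E ≃ₗᵢ[ℝ] E} {E₁ σ e : ℝ} {f : E → ℝ} {g : E → E}
    (h : SecG V L E₁ σ f g e) : qQ V f g = e := by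
  rw [← qB_self, h.eq f g h.h]
  have : ∫ x, f x * f x = 1 := by
    rw [← h.nrm]
    exact integral_congr_ae (ae_of_all _ fun x => by simp only; ring)
  rw [this, mul_one]

/-- `q(k) ≥ e a² + E₁ (|k|² - a²)`, `a = ⟨f,k⟩` -/
theorem SecG.low {V : E → ℝ} {L : E ≃ₗᵢ[ℝ] E} {E₁ σ e : ℝ} {f : E → ℝ} {g : E → E}
    (h : SecG V L E₁ σ f g e) {C₁ : ℝ} (hV : H1S.FB V C₁) {k : E → ℝ} {l : E → E} (hk : H1 k l)
    (hkp : ∀ᵐ x : E, k (L x) = σ * k x) :
    e * (∫ x, f x * k x) ^ 2 + E₁ * ((∫ x, k x ^ 2) - (∫ x, f x * k x) ^ 2) ≤ qQ V k l := by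
  set a := ∫ x, f x * k x with ha
  have h1 := h.gap _ _ (hk.sub (h.h.const_mul a))
    (by
      filter_upwards [hkp, h.par] with x h2 h3
      rw [h2, h3]; ring)
    (by rw [int_mul_sub hk.memf h.h.memf, h.nrm, ← ha]; ring)
  rw [int_sub_sq hk.memf h.h.memf, qQ_sub hV hk h.h, h.eq k l hk, h.Q, h.nrm, ← ha] at h1
  nlinarith

theorem SecG.int_ge {V : E → ℝ} {L : E ≃ₗᵢ[ℝ] E} {E₁ σ e : ℝ} {f : E → ℝ} {g : E → E}
    (h : SecG V L E₁ σ f g e) {k : E → ℝ} (hk : MemLp k 2 volume) :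
    (∫ x, f x * k x) ^ 2 ≤ ∫ x, k x ^ 2 := by
  have h1 : 0 ≤ ∫ x, (k x - (∫ x, f x * k x) * f x) ^ 2 := integral_nonneg fun x => sq_nonneg _
  rw [int_sub_sq hk h.h.memf, h.nrm] at h1
  nlinarith

/-- minimisers in the sector are multiples of `f` -/
theorem SecG.simple {V : E → ℝ} {L : E ≃ₗᵢ[ℝ] E} {E₁ σ e : ℝ} {f : E → ℝ} {g : E → E}
    (h : SecG V L E₁ σ f g e) {C₁ : ℝ} (hV : H1S.FB V C₁) (he : e < E₁) {k : E → ℝ} {l : E → E}
    (hk : H1 k l) (hkp : ∀ᵐ x : E, k (L x) = σ * k x) (hQ : qQ V k l ≤ e * ∫ x, k x ^ 2) :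
    ∀ᵐ x, k x = (∫ x, f x * k x) * f x := by
  have h1 := h.low hV hk hkp
  have h2 := h.int_ge hk.memf
  set a := ∫ x, f x * k x with ha
  have h3 : ∫ x, (k x - a * f x) ^ 2 = 0 := by
    rw [int_sub_sq hk.memf h.h.memf, h.nrm, ← ha]
    nlinarith
  have h4 := ae_zero_of_int_sq (hk.sub (h.h.const_mul a)).memf h3
  filter_upwards [h4] with x hx
  linarith

/-- a minimiser of norm one in the sector may replace `f` -/
theorem SecG.replace {V : E → ℝ} {L : E ≃ₗᵢ[ℝ] E} {E₁ σ e : ℝ} {f : E → ℝ} {g : E → E}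
    (h : SecG V L E₁ σ f g e) {C₁ : ℝ} (hV : H1S.FB V C₁) (he : e < E₁) {k : E → ℝ} {l : E → E}
    (hk : H1 k l) (hkp : ∀ᵐ x : E, k (L x) = σ * k x) (hk1 : ∫ x, k x ^ 2 = 1)
    (hQ : qQ V k l ≤ e) : SecG V L E₁ σ k l e := by
  have h0 := h.simple hV he hk hkp (by rw [hk1, mul_one]; exact hQ)
  set a := ∫ x, f x * k x with ha
  have h1 : H1 k (fun x => a • g x) := (h.h.const_mul a).congr
    (by filter_upwards [h0] with x hx; exact hx.symm) (EventuallyEq.refl _ _)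
  have h2 : l =ᵐ[volume] fun x => a • g x := hk.unique h1
  have ha2 : a ^ 2 = 1 := by
    have h3 : ∫ x, k x ^ 2 = a ^ 2 * ∫ x, f x ^ 2 := by
      rw [← integral_const_mul]
      refine integral_congr_ae ?_
      filter_upwards [h0] with x hx
      rw [hx]; ring
    rw [hk1, h.nrm, mul_one] at h3
    exact h3.symm
  have hB : ∀ m n, qB V k l m n = a * qB V f g m n := by
    intro m n
    rw [qB_congr V h0 h2 (EventuallyEq.refl _ m) (EventuallyEq.refl _ n)]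
    have i1 : ∫ x, inner ℝ (a • g x) (n x) = a * ∫ x, inner ℝ (g x) (n x) := by
      rw [← integral_const_mul]
      exact integral_congr_ae (ae_of_all _ fun x => real_inner_smul_left _ _ _)
    have i2 : ∫ x, V x * (a * f x * m x) = a * ∫ x, V x * (f x * m x) := by
      rw [← integral_const_mul]
      exact integral_congr_ae (ae_of_all _ fun x => by simp only; ring)
    unfold qB
    rw [i1, i2]; ring
  have hI : ∀ m : E → ℝ, ∫ x, k x * m x = a * ∫ x, f x * m x := by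
    intro m
    rw [← integral_const_mul]
    refine integral_congr_ae ?_
    filter_upwards [h0] with x hx
    rw [hx]; ring
  have ha0 : a ≠ 0 := by
    intro h3
    rw [h3] at ha2
    norm_num at ha2
  refine ⟨hk, hkp, hk1, fun m n hm => ?_, fun m n hm hmp hm0 => ?_⟩
  · rw [hB, hI, h.eq m n hm]; ring
  · rw [hI] at hm0
    exact h.gap m n hm hmp ((mul_eq_zero.1 hm0).resolve_left ha0)

end Invol2

end OM
end Crest.Agent.R335
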