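import Crest.Agent.R335.OBMin
import Crest.Agent.R335.HYuk
import Crest.Agent.R335.HHalf

/-!
Row 335 (S0521), ONE-BODY block: continuity, positivity, symmetry of the sector ground states of
`h`, assembly of `OneBody` (helper733).
-/

set_option autoImplicit false
set_option linter.unusedSectionVars false

open MeasureTheory Filter Set Crest.MathPhysics.ThreeBody
open scoped ENNReal Topology ContDiff

noncomputable section
namespace Crest.Agent.R335
namespace OM

/-! ### the reflection -/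

theorem rz2 (x : Pos3) : (rz x) 2 = - x 2 := by rw [rz_apply]; simp

theorem rz_rfl (x : Pos3) : rz x = rfl' 2 x := by
  ext i
  rw [rz_apply, rfl'_apply]

theorem rzs : rz.symm = rz := symm_of ob_rz_rz

theorem nuc2 : (nuc 1) 2 = (1 : ℝ) := by unfold nuc; simp

theorem rz_sub (x : Pos3) : rz x = x - (2 * x 2) • nuc 1 := by
  ext i
  rw [rz_apply]
  by_cases h : i = 2
  · subst h
    simp [nuc2]; ring
  · have h2 : (nuc 1) i = (0 : ℝ) := by unfold nuc; simp [h]
    simp [h, h2]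

theorem inner_nuc (x : Pos3) : inner ℝ x (nuc 1) = x 2 := by
  unfold nuc
  rw [EuclideanSpace.inner_single_right]
  simp

theorem rot2 {L : Pos3 ≃ₗᵢ[ℝ] Pos3} (hL : L (nuc 1) = nuc 1) (x : Pos3) : (L x) 2 = x 2 := by
  rw [← inner_nuc, ← inner_nuc x, ← hL, LinearIsometryEquiv.inner_map_map, hL]

theorem rot_rz {L : Pos3 ≃ₗᵢ[ℝ] Pos3} (hL : L (nuc 1) = nuc 1) (x : Pos3) :
    L (rz x) = rz (L x) := by
  rw [rz_sub, rz_sub (L x), map_sub, map_smul, hL, rot2 hL]

theorem norm_sub_rz_sq (x y : Pos3) : ‖x - rz y‖ ^ 2 = ‖x - y‖ ^ 2 + 4 * (x 2 * y 2) := by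
  have h1 : x - rz y = (x - y) + (2 * y 2) • nuc 1 := by rw [rz_sub]; abel
  have h2 : ‖(nuc 1 : Pos3)‖ = 1 := by unfold nuc; simp
  rw [h1, norm_add_sq_real, inner_smul_right, inner_nuc, norm_smul, mul_pow, h2, PiLp.sub_apply,
    Real.norm_eq_abs, sq_abs]
  ring

/-! ### absolute values -/

theorem qQ_abs (V : Pos3 → ℝ) (f : Pos3 → ℝ) (g : Pos3 → Pos3) :
    qQ V (fun x => |f x|) (fun x => if 0 < f x then g x else -g x) = qQ V f g := by
  unfold qQ
  congr 1
  · congr 1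
    refine integral_congr_ae (ae_of_all _ fun x => ?_)
    simp only
    split_ifs
    · rfl
    · rw [norm_neg]
  · simp only [sq_abs]

theorem even_abs {V : Pos3 → ℝ} {C₁ : ℝ} (hV : H1S.FB V C₁) {E₁ e : ℝ} {f : Pos3 → ℝ}
    {g : Pos3 → Pos3} (h : SecG V rz E₁ 1 f g e) (he : e < E₁) :
    ∃ l, SecG V rz E₁ 1 (fun x => |f x|) l e := by
  refine ⟨_, h.replace hV he h.h.abs ?_ ?_ ?_⟩
  · filter_upwards [h.par] with x hx
    rw [hx, one_mul, one_mul]
  · simp only [sq_abs]; exact h.nrm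
  · rw [qQ_abs, h.Q]

/-- gradient of an odd function -/
theorem grad_par {σ : ℝ} {f : Pos3 → ℝ} {g : Pos3 → Pos3} (h : H1 f g)
    (hp : ∀ᵐ x, f (rz x) = σ * f x) : ∀ᵐ x, rz (g (rz x)) = σ • g x := by
  have h1 := H1_isom rz h
  rw [rzs] at h1
  have h2 : H1 (fun x => σ * f x) (fun x => rz (g (rz x))) := h1.congr hp (EventuallyEq.refl _ _)
  exact h2.unique (h.const_mul σ)

theorem odd_abs {V : Pos3 → ℝ} {C₁ : ℝ} (hV : H1S.FB V C₁) {E₁ e : ℝ}
    {f : Pos3 → ℝ} {g : Pos3 → Pos3} (h : SecG V rz E₁ (-1) f g e) (he : e < E₁) :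
    ∃ k l, SecG V rz E₁ (-1) k l e ∧ ∀ᵐ x : Pos3, 0 < x 2 → 0 ≤ k x := by
  have hodd : ∀ᵐ x : Pos3, f (rfl' 2 x) = - f x := by
    filter_upwards [h.par] with x hx
    rw [← rz_rfl, hx]; ring
  have hU : IsOpen {x : Pos3 | 0 < x 2} := isOpen_half 2
  have h0 := H10.half_of_odd 2 h.h hodd
  have hp := h0.pos hU
  have hm := (h0.const_mul (-1)).pos hU
  have hs := hp.add hm
  have hk := H1.odd_ext 2 hs
  set p : Pos3 → ℝ := fun x => if 0 < x 2 then f x else 0 with hpdef
  set G : Pos3 → Pos3 := fun x => (if 0 < p x then (if 0 < x 2 then g x else 0) else 0) +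
    (if 0 < -1 * p x then (-1 : ℝ) • (if 0 < x 2 then g x else 0) else 0) with hG
  set A : Pos3 → ℝ := fun x => max (p x) 0 + max (-1 * p x) 0 with hA
  have hk' : H1 (fun x => A x - A (rfl' 2 x)) (fun x => G x - rfl' 2 (G (rfl' 2 x))) := hk
  have hAabs : ∀ x, A x = |p x| := by
    intro x
    rw [hA]
    simp only
    rcases le_total 0 (p x) with h1 | h1
    · rw [max_eq_left h1, max_eq_right (by linarith), abs_of_nonneg h1, add_zero]
    · rw [max_eq_right h1, max_eq_left (by linarith), abs_of_nonpos h1]; ring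
  have hGn : ∀ x : Pos3, ‖G x‖ ≤ if 0 < x 2 then ‖g x‖ else 0 := by
    intro x
    rw [hG]
    simp only
    by_cases hx : 0 < x 2
    · simp only [hx, if_true]
      by_cases h1 : 0 < p x
      · have h2 : ¬ 0 < -1 * p x := by linarith
        rw [if_pos h1, if_neg h2, add_zero]
      · rw [if_neg h1, zero_add]
        split_ifs
        · rw [norm_smul]; simp
        · rw [norm_zero]; exact norm_nonneg _
    · simp [hx]
  have hne := ae_coord_ne_zero (ι := Fin 3) 2
  have hg2 := grad_par h.h h.par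
  have hkp : ∀ᵐ x : Pos3, (A (rz x) - A (rfl' 2 (rz x))) = -1 * (A x - A (rfl' 2 x)) := by
    refine ae_of_all _ fun x => ?_
    rw [← rz_rfl, ← rz_rfl, ob_rz_rz]; ring
  have hval : ∀ᵐ x : Pos3, (A x - A (rfl' 2 x)) ^ 2 = f x ^ 2 := by
    filter_upwards [hne, hodd] with x hx ho
    rw [hAabs, hAabs, hpdef]
    simp only
    have hr : (rfl' 2 x) 2 = - x 2 := by rw [← rz_rfl, rz2]
    rcases lt_or_gt_of_ne hx with h1 | h1
    · have h2 : ¬ 0 < x 2 := by linarith
      have h3 : 0 < (rfl' 2 x) 2 := by rw [hr]; linarith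
      rw [if_neg h2, if_pos h3, ho]; simp
    · have h3 : ¬ 0 < (rfl' 2 x) 2 := by rw [hr]; linarith
      rw [if_pos h1, if_neg h3]; simp
  have hgrad : ∀ᵐ x : Pos3, ‖G x - rfl' 2 (G (rfl' 2 x))‖ ^ 2 ≤ ‖g x‖ ^ 2 := by
    filter_upwards [hne, hg2] with x hx ho
    have hr : (rfl' 2 x) 2 = - x 2 := by rw [← rz_rfl, rz2]
    have hz : ‖g (rz x)‖ = ‖g x‖ := by
      have h3 := congrArg norm ho
      rw [LinearIsometryEquiv.norm_map] at h3
      rw [h3, norm_smul]; simp
    have a1 := hGn x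
    have a2 := hGn (rfl' 2 x)
    have a3 : ‖rfl' 2 (G (rfl' 2 x))‖ = ‖G (rfl' 2 x)‖ := norm_rfl' 2 _
    rcases lt_or_gt_of_ne hx with h1 | h1
    · have h2 : ¬ 0 < x 2 := by linarith
      have h3 : 0 < (rfl' 2 x) 2 := by rw [hr]; linarith
      rw [if_neg h2] at a1
      rw [if_pos h3, ← rz_rfl, hz] at a2
      have h4 : G x = 0 := norm_le_zero_iff.1 a1
      rw [h4, zero_sub, norm_neg, a3, ← rz_rfl]
      exact pow_le_pow_left₀ (norm_nonneg _) a2 2
    · have h3 : ¬ 0 < (rfl' 2 x) 2 := by rw [hr]; linarith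
      rw [if_pos h1] at a1
      rw [if_neg h3] at a2
      have h4 : G (rfl' 2 x) = 0 := norm_le_zero_iff.1 a2
      have h5 : rfl' 2 (G (rfl' 2 x)) = 0 := by
        rw [h4]; exact rfl'_zero 2
      rw [h5, sub_zero]
      exact pow_le_pow_left₀ (norm_nonneg _) a1 2
  refine ⟨_, _, h.replace hV he hk' hkp ?_ ?_, ?_⟩
  · rw [← h.nrm]
    exact integral_congr_ae hval
  · rw [← h.Q]
    unfold qQ
    have e1 : ∫ x, V x * (A x - A (rfl' 2 x)) ^ 2 = ∫ x, V x * f x ^ 2 := by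
      refine integral_congr_ae ?_
      filter_upwards [hval] with x hx
      rw [hx]
    have e2 : ∫ x, ‖G x - rfl' 2 (G (rfl' 2 x))‖ ^ 2 ≤ ∫ x, ‖g x‖ ^ 2 :=
      integral_mono_ae (memLp_two_iff_integrable_sq_norm hk'.memg.1 |>.1 hk'.memg)
        (memLp_two_iff_integrable_sq_norm h.h.memg.1 |>.1 h.h.memg) hgrad
    rw [e1]
    linarith
  · refine ae_of_all _ fun x hx => ?_
    have hr : (rfl' 2 x) 2 = - x 2 := by rw [← rz_rfl, rz2]
    have h3 : ¬ 0 < (rfl' 2 x) 2 := by rw [hr]; linarith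
    have h4 : A (rfl' 2 x) = 0 := by
      rw [hAabs, hpdef]
      simp only
      rw [if_neg h3, abs_zero]
    rw [h4, sub_zero, hAabs]
    exact abs_nonneg _


/-! ### continuous representative -/

theorem SecG.congr' {V : Pos3 → ℝ} {L : Pos3 ≃ₗᵢ[ℝ] Pos3} {E₁ σ e : ℝ} {f f' : Pos3 → ℝ}
    {g : Pos3 → Pos3} (h : SecG V L E₁ σ f g e) (hf : f =ᵐ[volume] f') :
    SecG V L E₁ σ f' g e := by
  refine ⟨h.h.congr hf (EventuallyEq.refl _ _), ?_, ?_, fun k l hk => ?_, fun k l hk hkp h0 => ?_⟩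
  · filter_upwards [hf, ae_isom L hf, h.par] with x h1 h2 h3
    rw [← h1, ← h2, h3]
  · rw [← h.nrm]
    refine integral_congr_ae ?_
    filter_upwards [hf] with x h1
    rw [h1]
  · rw [← qB_congr V hf (EventuallyEq.refl _ g) (EventuallyEq.refl _ k) (EventuallyEq.refl _ l),
      h.eq k l hk]
    congr 1
    refine integral_congr_ae ?_
    filter_upwards [hf] with x h1
    rw [h1]
  · refine h.gap k l hk hkp ?_
    rw [← h0]
    refine integral_congr_ae ?_
    filter_upwards [hf] with x h1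
    rw [h1]

theorem Yuk_mono {k : ℝ} (hk : 1 / 2 ≤ k) (x : Pos3) : Yuk k x ≤ Yuk (1 / 2) x := by
  unfold Yuk
  have h1 : Real.exp (-(k * ‖x‖)) ≤ Real.exp (-(1 / 2 * ‖x‖)) := by
    apply Real.exp_le_exp.2
    have := norm_nonneg x
    nlinarith
  have := norm_nonneg x
  gcongr

/-- the sup bound -/
def supC : ℝ := (∫ y : Pos3, Yuk (1 / 2) y ^ 2) ^ (1 / 2 : ℝ) * (4096 : ℝ) ^ (1 / 2 : ℝ)

theorem cont_rep {D : ℝ} {E₁ σ e : ℝ} {f : Pos3 → ℝ} {g : Pos3 → Pos3}
    (h : SecG (V2 D) rz E₁ σ f g e) (he : e ≤ -(1 / 8)) :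
    ∃ f' : Pos3 → ℝ, f =ᵐ[volume] f' ∧ SecG (V2 D) rz E₁ σ f' g e ∧ Continuous f' ∧
      Tendsto f' (cocompact Pos3) (𝓝 0) ∧
      (∀ x, f' x = YukC √(-2 * e) (fun y => -2 * V2 D y * f' y) x) ∧
      (∀ x, |f' x| ≤ supC) ∧ (∀ x, f' (rz x) = σ * f' x) ∧
      MemLp (fun y => -2 * V2 D y * f' y) 2 volume := by
  set F : Pos3 → ℝ := fun y => -2 * V2 D y * f y with hF
  have hVf := V2_memLp D h.h
  have hFm : MemLp F 2 volume := by
    have := hVf.1.const_mul (-2)
    refine this.congr_norm ?_ ?_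
    · exact (this.1.congr (ae_of_all _ fun x => by simp only [hF]; ring))
    · exact ae_of_all _ fun x => by simp only [hF]; rw [mul_assoc]
  set k := √(-2 * e) with hk
  have hk2 : k ^ 2 = -2 * e := Real.sq_sqrt (by linarith)
  have hk0 : 1 / 2 ≤ k := by
    rw [hk]; apply Real.le_sqrt_of_sq_le; linarith
  have hkp : 0 < k := by linarith
  have huniq := Yuk_unique hkp hFm h.h (fun φ hφ => by
    have h1 := h.eq φ (gr φ) (H1.of_test hφ)
    unfold qB at h1
    have h2 : ∫ x, F x * φ x = -2 * ∫ x, V2 D x * (f x * φ x) := by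
      rw [← integral_const_mul]
      exact integral_congr_ae (ae_of_all _ fun x => by simp only [hF]; ring)
    rw [h2, hk2]
    linarith)
  obtain ⟨c1, c2, c3, -⟩ := YukC_solves hkp hFm
  have hF' : ∀ᵐ y, F y = -2 * V2 D y * YukC k F y := by
    filter_upwards [huniq] with y hy
    rw [← hy]
  have hrep : ∀ x, YukC k F x = YukC k (fun y => -2 * V2 D y * YukC k F y) x := by
    intro x
    unfold YukC
    refine integral_congr_ae ?_
    filter_upwards [hF'] with y hy
    rw [hy]; rfl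
  have hS := h.congr' huniq
  refine ⟨YukC k F, huniq, hS, c1, c3, hrep, fun x => ?_, fun x => ?_, ?_⟩
  · refine (c2 x).trans ?_
    unfold supC
    have n1 : ∫ y, Yuk k y ^ 2 ≤ ∫ y : Pos3, Yuk (1 / 2) y ^ 2 := by
      refine integral_mono (Yuk_memLp hkp).integrable_sq
        (Yuk_memLp (by norm_num : (0 : ℝ) < 1 / 2)).integrable_sq fun y => ?_
      exact pow_le_pow_left₀ (Yuk_nonneg _ _) (Yuk_mono hk0 y) 2
    have n2 : ∫ y, F y ^ 2 ≤ 4096 := by
      have e1 : ∫ y, F y ^ 2 = 4 * ∫ y, (V2 D y * f y) ^ 2 := by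
        rw [← integral_const_mul]
        exact integral_congr_ae (ae_of_all _ fun x => by simp only [hF]; ring)
      have e2 := Q2_coercive D h.h
      have e3 : Q2 D f g = e := h.Q
      rw [e3, h.nrm] at e2
      rw [e1]
      linarith [hVf.2]
    have n0 : 0 ≤ ∫ y, Yuk k y ^ 2 := integral_nonneg fun y => sq_nonneg _
    have n0' : 0 ≤ ∫ y, F y ^ 2 := integral_nonneg fun y => sq_nonneg _
    exact mul_le_mul (Real.rpow_le_rpow n0 n1 (by norm_num))
      (Real.rpow_le_rpow n0' n2 (by norm_num)) (Real.rpow_nonneg n0' _)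
      (Real.rpow_nonneg (n0.trans n1) _)
  · have h1 : (fun x => YukC k F (rz x)) =ᵐ[volume] fun x => σ * YukC k F x := hS.par
    have h2 := (Continuous.ae_eq_iff_eq volume (c1.comp rz.continuous)
      (continuous_const.mul c1)).1 h1
    exact congrFun h2 x
  · exact (memLp_congr_ae hF').1 hFm

/-! ### positivity -/

theorem Yuk_pos (k : ℝ) {x : Pos3} (hx : x ≠ 0) : 0 < Yuk k x := by
  unfold Yuk
  have := norm_pos_iff.2 hx
  positivity

theorem Yuk_lt {k : ℝ} (hk : 0 < k) {x y : Pos3} (hx : x ≠ 0) (h : ‖x‖ < ‖y‖) :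
    Yuk k y < Yuk k x := by
  unfold Yuk
  have h0 := norm_pos_iff.2 hx
  have h1 : Real.exp (-(k * ‖y‖)) < Real.exp (-(k * ‖x‖)) := by
    apply Real.exp_lt_exp.2
    nlinarith
  have h2 : 4 * Real.pi * ‖x‖ < 4 * Real.pi * ‖y‖ := by
    have := Real.pi_pos
    nlinarith
  have h3 : 0 < 4 * Real.pi * ‖x‖ := by positivity
  exact div_lt_div₀ h1 h2.le (Real.exp_pos _).le h3

theorem V2_neg (D : ℝ) : ∀ᵐ x, V2 D x < 0 := by
  filter_upwards [ob_ae_ne (nuc D)] with x hx
  unfold V2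
  have h1 : 0 < 1 / ‖x - nuc D‖ := by
    have := norm_pos_iff.2 (sub_ne_zero.2 hx)
    positivity
  have h2 : 0 ≤ 1 / ‖x - nuc (-D)‖ := by positivity
  linarith

theorem Yuk_shift_memLp {k : ℝ} (hk : 0 < k) (x : Pos3) :
    MemLp (fun y => Yuk k (x - y)) 2 volume := by
  have h1 : MeasurePreserving (fun y : Pos3 => x - y) volume volume :=
    Measure.measurePreserving_sub_left volume x
  exact (Yuk_memLp hk).comp_measurePreserving h1

theorem pos_of_rep {D : ℝ} {k : ℝ} (hk : 0 < k) {f : Pos3 → ℝ} (h0 : ∀ᵐ x, 0 ≤ f x)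
    (hn : ∫ x, f x ^ 2 = 1) (hrep : ∀ x, f x = YukC k (fun y => -2 * V2 D y * f y) x)
    (hF : MemLp (fun y => -2 * V2 D y * f y) 2 volume) (x : Pos3) : 0 < f x := by
  have hint : Integrable (fun y => Yuk k (x - y) * (-2 * V2 D y * f y)) :=
    (Yuk_shift_memLp hk x).integrable_mul hF
  have hnn : 0 ≤ᵐ[volume] fun y => Yuk k (x - y) * (-2 * V2 D y * f y) := by
    filter_upwards [h0] with y hy
    have h1 := Yuk_nonneg k (x - y)
    have h2 := V2_nonpos D y
    have h3 : 0 ≤ -2 * V2 D y * f y := mul_nonneg (by linarith) hy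
    exact mul_nonneg h1 h3
  have h1 : 0 ≤ f x := by
    rw [hrep x]
    exact integral_nonneg_of_ae hnn
  refine lt_of_le_of_ne h1 fun h2 => ?_
  have h3 : ∫ y, Yuk k (x - y) * (-2 * V2 D y * f y) = 0 := by
    have := hrep x
    rw [← h2] at this
    exact this.symm
  have h4 := (integral_eq_zero_iff_of_nonneg_ae hnn hint).1 h3
  have h5 : ∀ᵐ y, f y = 0 := by
    filter_upwards [h4, V2_neg D, ob_ae_ne x] with y h6 h7 h8
    have h9 : 0 < Yuk k (x - y) := Yuk_pos k (sub_ne_zero.2 (Ne.symm h8))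
    have h10 : Yuk k (x - y) * (-2 * V2 D y * f y) = 0 := h6
    rcases mul_eq_zero.1 h10 with h11 | h11
    · exact absurd h11 h9.ne'
    · rcases mul_eq_zero.1 h11 with h12 | h12
      · exfalso; linarith
      · exact h12
  have h6 : ∫ x, f x ^ 2 = 0 := by
    rw [integral_eq_zero_of_ae]
    filter_upwards [h5] with y hy
    rw [hy]; simp
  rw [hn] at h6
  exact one_ne_zero h6

theorem odd_pos_of_rep {D : ℝ} {k : ℝ} (hk : 0 < k) {f : Pos3 → ℝ}
    (h0 : ∀ᵐ x : Pos3, 0 < x 2 → 0 ≤ f x) (hodd : ∀ x, f (rz x) = -1 * f x)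
    (hn : ∫ x, f x ^ 2 = 1) (hrep : ∀ x, f x = YukC k (fun y => -2 * V2 D y * f y) x)
    (hF : MemLp (fun y => -2 * V2 D y * f y) 2 volume) {x : Pos3} (hx : 0 < x 2) : 0 < f x := by
  set F : Pos3 → ℝ := fun y => -2 * V2 D y * f y with hFdef
  have hFo : ∀ y, F (rz y) = - F y := by
    intro y
    simp only [hFdef]
    rw [V2_rz, hodd]; ring
  have hint : Integrable (fun y => Yuk k (x - y) * F y) :=
    (Yuk_shift_memLp hk x).integrable_mul hF
  have hint2 : Integrable (fun y => Yuk k (x - rz y) * F y) := by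
    have h1 : MemLp (fun y => Yuk k (x - rz y)) 2 volume :=
      (Yuk_shift_memLp hk x).comp_measurePreserving rz.measurePreserving
    exact h1.integrable_mul hF
  have hval2 : ∫ y, Yuk k (x - rz y) * F y = - f x := by
    have h1 : ∫ y, Yuk k (x - rz y) * F y = ∫ y, (fun z => Yuk k (x - z) * F (rz z)) (rz y) := by
      refine integral_congr_ae (ae_of_all _ fun y => ?_)
      simp only [ob_rz_rz]
    rw [h1]
    refine (int_isom rz (fun z => Yuk k (x - z) * F (rz z))).trans ?_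
    rw [hrep x]
    unfold YukC
    rw [← integral_neg]
    refine integral_congr_ae (ae_of_all _ fun y => ?_)
    simp only
    rw [hFo]; ring
  set H : Pos3 → ℝ := fun y => Yuk k (x - y) * F y - Yuk k (x - rz y) * F y with hH
  have hHint : Integrable H := hint.sub hint2
  have hHval : ∫ y, H y = 2 * f x := by
    rw [hH, integral_sub hint hint2, hval2]
    have : ∫ y, Yuk k (x - y) * F y = f x := (hrep x).symm
    rw [this]; ring
  have hneg : ∀ᵐ y : Pos3, y 2 < 0 → f y ≤ 0 := by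
    filter_upwards [ae_isom rz h0] with y hy h1
    have h2 := hy (by rw [rz2]; linarith)
    rw [hodd] at h2
    linarith
  have hker : ∀ y : Pos3, y ≠ x → rz y ≠ x → (0 < y 2 → Yuk k (x - rz y) < Yuk k (x - y)) ∧
      (y 2 < 0 → Yuk k (x - y) < Yuk k (x - rz y)) := by
    intro y hy hy'
    have h1 := norm_sub_rz_sq x y
    constructor
    · intro h2
      refine Yuk_lt hk (sub_ne_zero.2 hy.symm) ?_
      have : 0 < x 2 * y 2 := mul_pos hx h2
      exact lt_of_pow_lt_pow_left₀ 2 (norm_nonneg _) (by linarith)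
    · intro h2
      refine Yuk_lt hk (sub_ne_zero.2 hy'.symm) ?_
      have : x 2 * y 2 < 0 := mul_neg_of_pos_of_neg hx h2
      exact lt_of_pow_lt_pow_left₀ 2 (norm_nonneg _) (by linarith)
  have hne := ae_coord_ne_zero (ι := Fin 3) 2
  have hnn : 0 ≤ᵐ[volume] H := by
    filter_upwards [h0, hneg, hne, ob_ae_ne x, ae_isom rz (ob_ae_ne x)] with y a1 a2 a3 a4 a5
    have a6 := hker y a4 a5
    have a7 := V2_nonpos D y
    have a8 : H y = (Yuk k (x - y) - Yuk k (x - rz y)) * (-2 * V2 D y) * f y := by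
      simp only [hH, hFdef]; ring
    show 0 ≤ H y
    rw [a8]
    rcases lt_or_gt_of_ne a3 with h1 | h1
    · have b1 := a6.2 h1
      have b2 := a2 h1
      have b3 : (Yuk k (x - y) - Yuk k (x - rz y)) * (-2 * V2 D y) ≤ 0 :=
        mul_nonpos_of_nonpos_of_nonneg (by linarith) (by linarith)
      exact mul_nonneg_of_nonpos_of_nonpos b3 b2
    · have b1 := a6.1 h1
      have b2 := a1 h1
      have b3 : 0 ≤ (Yuk k (x - y) - Yuk k (x - rz y)) * (-2 * V2 D y) :=
        mul_nonneg (by linarith) (by linarith)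
      exact mul_nonneg b3 b2
  have h1 : 0 ≤ f x := by
    have := integral_nonneg_of_ae hnn
    linarith
  refine lt_of_le_of_ne h1 fun h2 => ?_
  rw [← h2, mul_zero] at hHval
  have h4 := (integral_eq_zero_iff_of_nonneg_ae hnn hHint).1 hHval
  have h5 : ∀ᵐ y, f y = 0 := by
    filter_upwards [h4, V2_neg D, hne, ob_ae_ne x, ae_isom rz (ob_ae_ne x)] with y h6 h7 a3 a4 a5
    have a6 := hker y a4 a5
    have a8 : H y = (Yuk k (x - y) - Yuk k (x - rz y)) * (-2 * V2 D y) * f y := by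
      simp only [hH, hFdef]; ring
    have h10 : (Yuk k (x - y) - Yuk k (x - rz y)) * (-2 * V2 D y) * f y = 0 := a8.symm.trans h6
    rcases mul_eq_zero.1 h10 with h11 | h11
    · exfalso
      rcases mul_eq_zero.1 h11 with h12 | h12
      · rcases lt_or_gt_of_ne a3 with h1 | h1
        · have := a6.2 h1; linarith
        · have := a6.1 h1; linarith
      · linarith
    · exact h11
  have h6 : ∫ x, f x ^ 2 = 0 := by
    rw [integral_eq_zero_of_ae]
    filter_upwards [h5] with y hy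
    rw [hy]; simp
  rw [hn] at h6
  exact one_ne_zero h6

/-! ### rotation invariance -/

theorem rot_inv {D : ℝ} {E₁ σ e : ℝ} {f : Pos3 → ℝ} {g : Pos3 → Pos3}
    (h : SecG (V2 D) rz E₁ σ f g e) (he : e < E₁) (hc : Continuous f) (hp : 0 < f (nuc 1))
    (L : Pos3 ≃ₗᵢ[ℝ] Pos3) (hL : L (nuc 1) = nuc 1) (x : Pos3) : f (L x) = f x := by
  have h1 := H1_isom L h.h
  have hpar : ∀ᵐ x, f (L (rz x)) = σ * f (L x) := by
    filter_upwards [ae_isom L h.par] with y hy
    rw [rot_rz hL, hy]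
  have hn : ∫ x, f (L x) ^ 2 = 1 := by
    rw [← h.nrm]; exact int_isom L (fun x => f x ^ 2)
  have h2 := h.simple (V2_FB D) he h1 hpar (by
    rw [qQ_isom L (V2_rot D hL), h.Q, hn, mul_one])
  set a := ∫ x, f x * f (L x) with ha
  have h2' : (fun x => f (L x)) =ᵐ[volume] fun x => a * f x := h2
  have h3 : ∀ x, f (L x) = a * f x := fun x => congrFun ((Continuous.ae_eq_iff_eq volume
    (hc.comp L.continuous) (continuous_const.mul hc)).1 h2') x
  have h4 := h3 (nuc 1)
  rw [hL] at h4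
  have h5 : a = 1 := by
    have : (a - 1) * f (nuc 1) = 0 := by linarith
    rcases mul_eq_zero.1 this with h6 | h6
    · linarith
    · exact absurd h6 hp.ne'
  rw [h3 x, h5, one_mul]


/-! ### the two sectors of `h` -/

/-- two-centre inequalities (constant `c`, error `δ = C/D`) -/
structure TwoC (D c δ : ℝ) (φ : Pos3 → ℝ) : Prop where
  mem : MemLp φ 2 volume
  gap : ∀ (f : Pos3 → ℝ) (g : Pos3 → Pos3), H1 f g →
    (-(1 / 2) + c - δ) * (∫ x, f x ^ 2) -
      c * ((∫ x, φ x * f x) ^ 2 + (∫ x, φ (rz x) * f x) ^ 2) ≤ Q2 D f g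
  low : ∀ (f : Pos3 → ℝ) (g : Pos3 → Pos3), H1 f g → (-(1 / 2) - δ) * (∫ x, f x ^ 2) ≤ Q2 D f g
  tr1 : ∃ (w : Pos3 → ℝ) (l : Pos3 → Pos3), H1 w l ∧ (∀ᵐ x, w (rz x) = w x) ∧
    ∫ x, w x ^ 2 = 1 ∧ Q2 D w l ≤ -(1 / 2) + δ
  tr2 : ∃ (w : Pos3 → ℝ) (l : Pos3 → Pos3), H1 w l ∧ (∀ᵐ x, w (rz x) = - w x) ∧
    ∫ x, w x ^ 2 = 1 ∧ Q2 D w l ≤ -(1 / 2) + δ

theorem sec_exists {D c δ : ℝ} {φ : Pos3 → ℝ} (hT : TwoC D c δ φ) (hc : 2 * δ < c) {σ : ℝ}
    (hσ : σ = 1 ∨ σ = -1) : ∃ f g e, SecG (V2 D) rz (-(1 / 2) + c - δ) σ f g e ∧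
      -(1 / 2) - δ ≤ e ∧ e ≤ -(1 / 2) + δ := by
  have hσ2 : σ ^ 2 = 1 := by rcases hσ with h | h <;> rw [h] <;> norm_num
  obtain ⟨w, l, hw, hwp, hw1, hwQ⟩ : ∃ (w : Pos3 → ℝ) (l : Pos3 → Pos3), H1 w l ∧
      (∀ᵐ x, w (rz x) = σ * w x) ∧ ∫ x, w x ^ 2 = 1 ∧ Q2 D w l ≤ -(1 / 2) + δ := by
    rcases hσ with h | h
    · obtain ⟨w, l, h1, h2, h3, h4⟩ := hT.tr1
      exact ⟨w, l, h1, by simpa [h] using h2, h3, h4⟩
    · obtain ⟨w, l, h1, h2, h3, h4⟩ := hT.tr2
      exact ⟨w, l, h1, by simpa [h] using h2, h3, h4⟩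
  obtain ⟨f, g, e, h1, h2, h3⟩ := secG_exists (V2_FB D) ob_rz_rz (V2_rz D)
    (c₀ := 1 / 4) (C₀ := 65 / 4) (by norm_num)
    (fun f g h => by
      have := Q2_coercive D h
      have h2 : qQ (V2 D) f g = Q2 D f g := rfl
      rw [h2]; linarith)
    hσ2 hw hwp hw1 (E₁ := -(1 / 2) + c - δ) (K := 2 * c) (m := -(1 / 2) - δ)
    (show Q2 D w l < _ by linarith) hT.mem
    (fun f g h hp => by
      have h1 := hT.gap f g h
      have h2 : ∫ x, φ (rz x) * f x = σ * ∫ x, φ x * f x := by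
        rw [← int_isom rz (fun x => φ (rz x) * f x), ← integral_const_mul]
        refine integral_congr_ae ?_
        filter_upwards [hp] with x hx
        rw [ob_rz_rz, hx]; ring
      rw [h2, mul_pow, hσ2] at h1
      have h3 : qQ (V2 D) f g = Q2 D f g := rfl
      rw [h3]; linarith)
    (fun f g h _ => hT.low f g h)
  exact ⟨f, g, e, h1, h3, h2.trans hwQ⟩

theorem oneBody_of_twoC {D c δ : ℝ} {φ : Pos3 → ℝ} (hT : TwoC D c δ φ) (hδ : 0 ≤ δ)
    (hc : 2 * δ < c) (hc1 : c ≤ 1 / 4) :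
    ∃ (g u : Pos3 → ℝ) (dg du : Pos3 → Pos3) (eg eu : ℝ),
      OneBody D g u dg du eg eu (-(1 / 2) + c / 2) ∧
      |eg + 1 / 2| ≤ δ ∧ |eu + 1 / 2| ≤ δ ∧ (∀ x, g x ≤ supC) ∧ (∀ x, |u x| ≤ supC) ∧
      (∫ x, ‖dg x‖ ^ 2 ≤ 64) ∧ (∫ x, ‖du x‖ ^ 2 ≤ 64) := by
  set E₁ := -(1 / 2) + c - δ with hE₁
  have hV := V2_FB D
  -- even ground state
  obtain ⟨f, df, eg, hf, hf1, hf2⟩ := sec_exists hT hc (σ := 1) (Or.inl rfl)
  have hgE : eg < E₁ := by linarith
  obtain ⟨l1, hf'⟩ := even_abs hV hf hgE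
  obtain ⟨g, hae, hg, cg, zg, rg, bg, pg, mg⟩ := cont_rep hf' (by linarith)
  have hkg : 0 < √(-2 * eg) := Real.sqrt_pos.2 (by linarith)
  have gpos : ∀ x, 0 < g x := pos_of_rep hkg (by
    filter_upwards [hae] with x hx
    rw [← hx]; exact abs_nonneg _) hg.nrm rg mg
  -- odd ground state
  obtain ⟨v, dv, eu, hv, hv1, hv2⟩ := sec_exists hT hc (σ := -1) (Or.inr rfl)
  have huE : eu < E₁ := by linarith
  obtain ⟨k2, l2, hv', hv0⟩ := odd_abs hV hv huE
  obtain ⟨u, hau, hu, cu, zu, ru, bu, pu, mu⟩ := cont_rep hv' (by linarith)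
  have hku : 0 < √(-2 * eu) := Real.sqrt_pos.2 (by linarith)
  have upos : ∀ x : Pos3, 0 < x 2 → 0 < u x := fun x hx => odd_pos_of_rep hku (by
    filter_upwards [hau, hv0] with y h1 h2 h3
    rw [← h1]; exact h2 h3) pu hu.nrm ru mu hx
  have uodd : ∀ x, u (rz x) = - u x := fun x => by rw [pu]; ring
  have geven : ∀ x, g (rz x) = g x := fun x => by rw [pg]; ring
  have hn1 : 0 < (nuc 1 : Pos3) 2 := by rw [nuc2]; norm_num
  -- eg < eu
  have hlt : eg < eu := by
    by_contra hcon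
    have hcon' : eu ≤ eg := not_lt.1 hcon
    have h1 := hg.simple hV hgE hu.h.abs (by
      refine ae_of_all _ fun x => ?_
      rw [uodd, abs_neg, one_mul]) (by
      rw [qQ_abs, hu.Q]
      simp only [sq_abs]
      rw [hu.nrm, mul_one]
      exact hcon')
    set a := ∫ x, g x * |u x| with ha
    have h1' : (fun x => |u x|) =ᵐ[volume] fun x => a * g x := h1
    have h2 : ∀ x, |u x| = a * g x := fun x => congrFun ((Continuous.ae_eq_iff_eq volume
      cu.abs (continuous_const.mul cg)).1 h1') x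
    have h3 : u 0 = 0 := by
      have := uodd 0
      rw [map_zero] at this
      linarith
    have h4 := h2 0
    rw [h3, abs_zero] at h4
    have h5 : a = 0 := by
      rcases mul_eq_zero.1 h4.symm with h6 | h6
      · exact h6
      · exact absurd h6 (gpos 0).ne'
    have h6 := h2 (nuc 1)
    rw [h5, zero_mul, abs_eq_zero] at h6
    exact absurd h6 (upos _ hn1).ne'
  refine ⟨g, u, l1, l2, eg, eu, ?_, ?_, ?_, fun x => (le_abs_self _).trans (bg x), bu, ?_, ?_⟩
  · refine ⟨hg.h, hu.h, cg, cu, hg.nrm, hu.nrm, geven, uodd, gpos, upos, ?_, ?_, zg, zu,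
      hg.eq, hu.eq, ?_, hlt, by linarith, rg, ru⟩
    · intro L hL x
      exact rot_inv hg hgE cg (gpos _) L hL x
    · intro L hL x
      exact rot_inv hu huE cu (upos _ hn1) L hL x
    · intro f l h
      have hr := H1_isom rz h
      rw [rzs] at hr
      -- even and odd parts (twice)
      have hp := h.sub (hr.const_mul (-1))
      have hm := h.sub (hr.const_mul 1)
      have lp := hg.low hV hp (by
        refine ae_of_all _ fun x => ?_
        rw [ob_rz_rz]; ring)
      have lm := hu.low hV hm (by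
        refine ae_of_all _ fun x => ?_
        rw [ob_rz_rz]; ring)
      have ip := hg.int_ge hp.memf
      have im := hu.int_ge hm.memf
      have qr : qQ (V2 D) (fun x => f (rz x)) (fun x => rz (l (rz x))) = qQ (V2 D) f l := by
        have := qQ_isom rz (V2_rz D) f l
        rw [rzs] at this
        exact this
      have nr : ∫ x, f (rz x) ^ 2 = ∫ x, f x ^ 2 := int_isom rz (fun x => f x ^ 2)
      have gr' : ∫ x, g x * f (rz x) = ∫ x, g x * f x := by
        rw [← int_isom rz (fun x => g x * f x)]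
        refine integral_congr_ae (ae_of_all _ fun x => ?_)
        simp only [geven]
      have ur' : ∫ x, u x * f (rz x) = - ∫ x, u x * f x := by
        rw [← int_isom rz (fun x => u x * f x), ← integral_neg]
        refine integral_congr_ae (ae_of_all _ fun x => ?_)
        simp only [uodd]; ring
      have A1 : ∫ x, g x * (f x - -1 * f (rz x)) = 2 * ∫ x, g x * f x := by
        have e1 : ∫ x, g x * (f x - -1 * f (rz x)) =
            ∫ x, (g x * f x + g x * f (rz x)) :=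
          integral_congr_ae (ae_of_all _ fun x => by simp only; ring)
        have i1 : Integrable (fun x => g x * f x) := hg.h.memf.integrable_mul h.memf
        have i2 : Integrable (fun x => g x * f (rz x)) := hg.h.memf.integrable_mul hr.memf
        rw [e1, integral_add i1 i2, gr']; ring
      have A2 : ∫ x, u x * (f x - 1 * f (rz x)) = 2 * ∫ x, u x * f x := by
        have e1 : ∫ x, u x * (f x - 1 * f (rz x)) =
            ∫ x, (u x * f x - u x * f (rz x)) :=
          integral_congr_ae (ae_of_all _ fun x => by simp only; ring)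
        have i1 : Integrable (fun x => u x * f x) := hu.h.memf.integrable_mul h.memf
        have i2 : Integrable (fun x => u x * f (rz x)) := hu.h.memf.integrable_mul hr.memf
        rw [e1, integral_sub i1 i2, ur']; ring
      have A3 : ∫ x, (f x - -1 * f (rz x)) ^ 2 =
          2 * (∫ x, f x ^ 2) + 2 * ∫ x, f (rz x) * f x := by
        rw [int_sub_sq h.memf hr.memf, nr]; ring
      have A4 : ∫ x, (f x - 1 * f (rz x)) ^ 2 =
          2 * (∫ x, f x ^ 2) - 2 * ∫ x, f (rz x) * f x := by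
        rw [int_sub_sq h.memf hr.memf, nr]; ring
      have A5 := qQ_sub hV h hr (-1)
      have A6 := qQ_sub hV h hr 1
      rw [A5, A1, A3, qr] at lp
      rw [A6, A2, A4, qr] at lm
      rw [A1, A3] at ip
      rw [A2, A4] at im
      show _ ≤ qQ (V2 D) f l
      have hc2 : c / 2 ≤ c - δ := by linarith
      set a := ∫ x, g x * f x with ha
      set b := ∫ x, u x * f x with hb
      set N := ∫ x, f x ^ 2 with hN
      set X := ∫ x, f (rz x) * f x with hX
      set Y := qB (V2 D) (fun x => f (rz x)) (fun x => rz (l (rz x))) f l with hY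
      set q := qQ (V2 D) f l with hq
      have hB : 0 ≤ N - a ^ 2 - b ^ 2 := by
        have i1 : (2 * a) ^ 2 + (2 * b) ^ 2 ≤ 4 * N := by linarith
        linarith [mul_pow 2 a 2, mul_pow 2 b 2]
      have hE : (-(1 / 2) + c / 2) * (N - a ^ 2 - b ^ 2) ≤ E₁ * (N - a ^ 2 - b ^ 2) :=
        mul_le_mul_of_nonneg_right (by rw [hE₁]; linarith) hB
      have hsum := add_le_add lp lm
      have s1 : eg * (2 * a) ^ 2 + E₁ * (2 * N + 2 * X - (2 * a) ^ 2) +
          (eu * (2 * b) ^ 2 + E₁ * (2 * N - 2 * X - (2 * b) ^ 2)) =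
          4 * (eg * a ^ 2 + eu * b ^ 2 + E₁ * (N - a ^ 2 - b ^ 2)) := by ring
      have s2 : q - 2 * -1 * Y + (-1) ^ 2 * q + (q - 2 * 1 * Y + 1 ^ 2 * q) = 4 * q := by ring
      rw [s1, s2] at hsum
      linarith
  · rw [abs_le]; constructor <;> linarith
  · rw [abs_le]; constructor <;> linarith
  · have e2 := Q2_coercive D hg.h
    have e3 : Q2 D g l1 = eg := hg.Q
    rw [e3, hg.nrm] at e2
    linarith
  · have e2 := Q2_coercive D hu.h
    have e3 : Q2 D u l2 = eu := hu.Q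
    rw [e3, hu.nrm] at e2
    linarith

end OM
end Crest.Agent.R335
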