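import Crest.Agent.R335.OBRad

/-!
Row 335 (S0521), ONE-BODY block, section (1.3) of Part B: LOWER bounds of the one-body states
`g`, `u` (helper696).  Pure calculus with the Yukawa kernel.
-/

set_option autoImplicit false

open MeasureTheory Filter Set Crest.MathPhysics.ThreeBody
open scoped ENNReal Topology ContDiff

noncomputable section
namespace Crest.Agent.R335
namespace OG

/-! ### geometry of the two nuclei -/

theorem nuc_apply (D : ℝ) (i : Fin 3) : nuc D i = if i = 2 then D else 0 := by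
  unfold nuc; simp [PiLp.single_apply]

theorem norm_nuc (D : ℝ) : ‖nuc D‖ = |D| := by
  unfold nuc; simp

theorem rz_nuc (D : ℝ) : rz (nuc D) = nuc (-D) := by
  ext i
  rw [rz_apply, nuc_apply, nuc_apply]
  split_ifs <;> simp_all

theorem rz_rz (x : Pos3) : rz (rz x) = x := by
  ext i
  rw [rz_apply, rz_apply]
  split_ifs <;> simp_all

theorem norm_rz (x : Pos3) : ‖rz x‖ = ‖x‖ := rz.norm_map x

theorem norm_sub_rz (x y : Pos3) : ‖rz x - y‖ = ‖x - rz y‖ := by
  rw [← norm_rz (rz x - y), map_sub, rz_rz]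

theorem norm_sub_nuc_neg (D : ℝ) (x : Pos3) : ‖x - nuc (-D)‖ = ‖rz x - nuc D‖ := by
  rw [norm_sub_rz, rz_nuc]

theorem norm_sq3 (x : Pos3) : ‖x‖ ^ 2 = x 0 ^ 2 + x 1 ^ 2 + x 2 ^ 2 := by
  rw [EuclideanSpace.norm_sq_eq, Fin.sum_univ_three]; simp

theorem abs_apply_le (x : Pos3) (i : Fin 3) : |x i| ≤ ‖x‖ := by
  have := PiLp.norm_apply_le x i
  simpa using this

/-- `|x - Ry|² = |x - y|² + 4 x₃ y₃` -/
theorem norm_sub_rz_sq (x y : Pos3) : ‖x - rz y‖ ^ 2 = ‖x - y‖ ^ 2 + 4 * x 2 * y 2 := by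
  rw [norm_sq3, norm_sq3]
  simp only [PiLp.sub_apply, rz_apply]
  simp
  ring

/-- `ρ₋² = ρ₊² + 4 D z` -/
theorem rho_sq (D : ℝ) (x : Pos3) : ‖x - nuc (-D)‖ ^ 2 = ‖x - nuc D‖ ^ 2 + 4 * D * x 2 := by
  rw [← rz_nuc, norm_sub_rz_sq, nuc_apply]
  simp; ring

theorem rho_le {D : ℝ} (hD : 0 ≤ D) {x : Pos3} (hx : 0 ≤ x 2) :
    ‖x - nuc D‖ ≤ ‖x - nuc (-D)‖ := by
  have h := rho_sq D x
  have : 0 ≤ 4 * D * x 2 := by positivity
  exact le_of_sq_le_sq (by nlinarith) (norm_nonneg _)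

theorem norm_le_rho_add (D : ℝ) (x : Pos3) : ‖x‖ ≤ ‖x - nuc D‖ + |D| := by
  have := norm_le_norm_sub_add x (nuc D)
  rwa [norm_nuc] at this

theorem rho_le_norm_add (D : ℝ) (x : Pos3) : ‖x - nuc D‖ ≤ ‖x‖ + |D| := by
  have := norm_sub_le x (nuc D)
  rwa [norm_nuc] at this

/-- `2 r ≤ ρ₊ + ρ₋` -/
theorem two_norm_le_rho (D : ℝ) (x : Pos3) : 2 * ‖x‖ ≤ ‖x - nuc D‖ + ‖x - nuc (-D)‖ := by
  have h : (2 : ℝ) • x = (x - nuc D) + (x - nuc (-D)) := by
    ext i; simp [nuc_apply]; split_ifs <;> ring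
  calc 2 * ‖x‖ = ‖(2 : ℝ) • x‖ := by rw [norm_smul]; simp
    _ ≤ _ := by rw [h]; exact norm_add_le _ _

/-! ### mass near the nucleus -/

theorem four_le_vol (a : Pos3) : (4 : ℝ) ≤ (volume (Metric.ball a 1)).toReal := by
  rw [EuclideanSpace.volume_ball_fin_three]
  simp only [ENNReal.ofReal_one, one_pow, one_mul]
  rw [ENNReal.toReal_ofReal (by positivity)]
  nlinarith [Real.pi_gt_three]

theorem ball_mass {f h : Pos3 → ℝ} {a : Pos3} {m δ : ℝ} (hm : 0 < m) (hf : MemLp f 2 volume)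
    (hh : MemLp h 2 volume) (hlow : ∀ x ∈ Metric.ball a 1, m ≤ h x)
    (hδ : ∫ x, (f x - h x) ^ 2 ≤ δ) :
    2 * m - δ / (2 * m) ≤ ∫ x in Metric.ball a 1, f x := by
  have hfin : IsFiniteMeasure (volume.restrict (Metric.ball a 1)) :=
    ⟨by rw [Measure.restrict_apply_univ]; exact Metric.isBounded_ball.measure_lt_top⟩
  have hfB : Integrable f (volume.restrict (Metric.ball a 1)) :=
    (hf.mono_measure Measure.restrict_le_self).integrable (by norm_num)
  have hq : Integrable (fun x => (f x - h x) ^ 2) := (hf.sub hh).integrable_sq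
  have hqB : Integrable (fun x => (f x - h x) ^ 2) (volume.restrict (Metric.ball a 1)) :=
    hq.restrict
  have hle : ∫ x in Metric.ball a 1, (m / 2 - (f x - h x) ^ 2 / (2 * m)) ≤
      ∫ x in Metric.ball a 1, f x := by
    refine setIntegral_mono_on ((integrable_const _).sub (hqB.div_const _)) hfB
      measurableSet_ball ?_
    intro x hx
    have h1 := hlow x hx
    have h2 : 0 ≤ (f x - h x + m) ^ 2 := sq_nonneg _
    have h3 : m / 2 - (f x - h x) ^ 2 / (2 * m) = (m ^ 2 - (f x - h x) ^ 2) / (2 * m) := by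
      field_simp
    rw [h3, div_le_iff₀ (by positivity)]
    nlinarith
  have heq : ∫ x in Metric.ball a 1, (m / 2 - (f x - h x) ^ 2 / (2 * m)) =
      (volume (Metric.ball a 1)).toReal * (m / 2) -
        (∫ x in Metric.ball a 1, (f x - h x) ^ 2) / (2 * m) := by
    have hd : ∫ x in Metric.ball a 1, (f x - h x) ^ 2 / (2 * m) =
        (∫ x in Metric.ball a 1, (f x - h x) ^ 2) / (2 * m) := integral_div _ _
    rw [integral_sub (integrable_const _) (hqB.div_const _), hd, setIntegral_const, smul_eq_mul]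
    rfl
  have hle2 : ∫ x in Metric.ball a 1, (f x - h x) ^ 2 ≤ δ :=
    (setIntegral_le_integral hq (Eventually.of_forall fun x => sq_nonneg _)).trans hδ
  have h4 := four_le_vol a
  have h5 : (∫ x in Metric.ball a 1, (f x - h x) ^ 2) / (2 * m) ≤ δ / (2 * m) := by gcongr
  have h6 : 4 * (m / 2) ≤ (volume (Metric.ball a 1)).toReal * (m / 2) := by gcongr
  linarith

theorem memLp_div {f : Pos3 → ℝ} (hf : MemLp f 2 volume) (c : ℝ) :
    MemLp (fun x => f x / c) 2 volume := by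
  simpa only [div_eq_mul_inv] using hf.mul_const c⁻¹

/-! ### numerical facts -/

theorem exp_neg_one_ge : (36 / 100 : ℝ) ≤ Real.exp (-1) := by
  have := Real.exp_one_lt_d9
  rw [Real.exp_neg, ← one_div, le_div_iff₀ (Real.exp_pos _)]
  linarith

theorem exp_neg_three_le : Real.exp (-3) ≤ 1 / 20 := by
  have h := Real.exp_one_gt_d9
  have h3 : Real.exp 3 = Real.exp 1 ^ 3 := by rw [← Real.exp_nat_mul]; norm_num
  have h4 : (20 : ℝ) ≤ Real.exp 3 := by
    rw [h3]
    have : (2.7182818283 : ℝ) ^ 3 ≤ Real.exp 1 ^ 3 := by gcongr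
    nlinarith
  rw [Real.exp_neg, ← one_div]
  exact one_div_le_one_div_of_le (by norm_num) h4

theorem sqrt_two_pi_le : √2 * √Real.pi ≤ 26 / 10 := by
  rw [← Real.sqrt_mul (by norm_num), Real.sqrt_le_left (by norm_num)]
  have := Real.pi_lt_d2
  nlinarith

theorem hyd_near {D : ℝ} {x : Pos3} (hx : x ∈ Metric.ball (nuc D) 1) :
    Real.exp (-1) / √Real.pi ≤ hyd (nuc D) x := by
  unfold hyd
  have : ‖x - nuc D‖ < 1 := by simpa [dist_eq_norm] using hx
  gcongr

theorem hyd_far {D : ℝ} (hD : 2 ≤ D) {x : Pos3} (hx : x ∈ Metric.ball (nuc D) 1) :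
    hyd (nuc (-D)) x ≤ Real.exp (-3) / √Real.pi := by
  unfold hyd
  have h1 : ‖x - nuc D‖ < 1 := by simpa [dist_eq_norm] using hx
  have h2 : ‖nuc D - nuc (-D)‖ = 2 * D := by
    have : nuc D - nuc (-D) = nuc (2 * D) := by
      ext i; simp [nuc_apply]; split_ifs <;> ring
    rw [this, norm_nuc, abs_of_nonneg (by linarith)]
  have h3 : ‖nuc D - nuc (-D)‖ ≤ ‖x - nuc D‖ + ‖x - nuc (-D)‖ := by
    have := norm_sub_le_norm_sub_add_norm_sub (nuc D) x (nuc (-D))
    rwa [norm_sub_rev (nuc D) x] at this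
  have h4 : 3 ≤ ‖x - nuc (-D)‖ := by linarith
  gcongr

theorem hyd_nonneg (a x : Pos3) : 0 ≤ hyd a x := by unfold hyd; positivity

/-- both combinations of the two hydrogen functions are at least `1/10` near the upper nucleus -/
theorem comb_ge {D : ℝ} (hD : 2 ≤ D) {x : Pos3} (hx : x ∈ Metric.ball (nuc D) 1) :
    1 / 10 ≤ (hyd (nuc D) x - hyd (nuc (-D)) x) / √2 ∧
      1 / 10 ≤ (hyd (nuc D) x + hyd (nuc (-D)) x) / √2 := by
  have h1 := hyd_near hx
  have h2 := hyd_far hD hx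
  have h3 := exp_neg_one_ge
  have h4 := exp_neg_three_le
  have h5 := sqrt_two_pi_le
  have hp : 0 < √Real.pi := Real.sqrt_pos.2 Real.pi_pos
  have h2' : 0 < √(2 : ℝ) := by positivity
  have key : 1 / 10 ≤ (hyd (nuc D) x - hyd (nuc (-D)) x) / √2 := by
    have h6 : (Real.exp (-1) - Real.exp (-3)) / √Real.pi ≤ hyd (nuc D) x - hyd (nuc (-D)) x := by
      rw [sub_div]; linarith
    have h7 : (31 / 100 : ℝ) ≤ Real.exp (-1) - Real.exp (-3) := by linarith
    rw [le_div_iff₀ h2']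
    refine le_trans ?_ h6
    rw [le_div_iff₀ hp]
    nlinarith
  refine ⟨key, key.trans ?_⟩
  have := hyd_nonneg (nuc (-D)) x
  gcongr
  linarith

theorem g_mass {D : ℝ} {g u : Pos3 → ℝ} {dg du : Pos3 → Pos3} {eg eu e3 : ℝ}
    (hob : OneBody D g u dg du eg eu e3) (hD : 2 ≤ D)
    (hcl : ∫ x, (g x - (hyd (nuc D) x + hyd (nuc (-D)) x) / √2) ^ 2 ≤ 1 / 100) :
    1 / 8 ≤ ∫ x in Metric.ball (nuc D) 1, g x := by
  have h := ball_mass (f := g) (h := fun x => (hyd (nuc D) x + hyd (nuc (-D)) x) / √2)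
    (a := nuc D) (m := 1 / 10) (δ := 1 / 100) (by norm_num) hob.hg.memf
    (memLp_div ((hyd_H1 _).memf.add (hyd_H1 _).memf) _)
    (fun x hx => (comb_ge hD hx).2) hcl
  norm_num at h ⊢
  linarith

theorem u_mass {D : ℝ} {g u : Pos3 → ℝ} {dg du : Pos3 → Pos3} {eg eu e3 : ℝ}
    (hob : OneBody D g u dg du eg eu e3) (hD : 2 ≤ D)
    (hcl : ∫ x, (u x - (hyd (nuc D) x - hyd (nuc (-D)) x) / √2) ^ 2 ≤ 1 / 100) :
    1 / 8 ≤ ∫ x in Metric.ball (nuc D) 1, u x := by
  have h := ball_mass (f := u) (h := fun x => (hyd (nuc D) x - hyd (nuc (-D)) x) / √2)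
    (a := nuc D) (m := 1 / 10) (δ := 1 / 100) (by norm_num) hob.hu.memf
    (memLp_div ((hyd_H1 _).memf.sub (hyd_H1 _).memf) _)
    (fun x hx => (comb_ge hD hx).1) hcl
  norm_num at h ⊢
  linarith

/-! ### the Yukawa kernel from below -/

/-- decay rate of a level -/
def kap (e : ℝ) : ℝ := √(-2 * e)

theorem kap_bounds {e : ℝ} (h : |e + 1 / 2| ≤ 1 / 20) : 9 / 10 ≤ kap e ∧ kap e ≤ 11 / 10 := by
  rw [abs_le] at h
  unfold kap
  constructor
  · apply Real.le_sqrt_of_sq_le
    nlinarith [h.1, h.2]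
  · rw [Real.sqrt_le_left (by norm_num)]
    nlinarith [h.1, h.2]

theorem exp_neg_eleven_ge : (33 / 100 : ℝ) ≤ Real.exp (-(11 / 10)) := by
  have h1 := Real.exp_one_lt_d9
  have h2 : Real.exp (1 / 10) ≤ 10 / 9 := by
    have := Real.one_sub_le_exp_neg (1 / 10)
    rw [Real.exp_neg] at this
    have h3 : (9 / 10 : ℝ) ≤ (Real.exp (1 / 10))⁻¹ := by linarith
    rw [le_inv_comm₀ (by norm_num) (Real.exp_pos _)] at h3
    linarith [h3]
  have h4 : Real.exp (11 / 10) = Real.exp 1 * Real.exp (1 / 10) := by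
    rw [← Real.exp_add]; norm_num
  rw [Real.exp_neg, ← one_div, le_div_iff₀ (Real.exp_pos _), h4]
  have := Real.exp_pos (1 / 10 : ℝ)
  have h5 := Real.exp_pos (1 : ℝ)
  calc (33 / 100 : ℝ) * (Real.exp 1 * Real.exp (1 / 10))
      ≤ 33 / 100 * (2.7182818286 * (10 / 9)) := by gcongr
    _ ≤ 1 := by norm_num

/-- the profile of the lower bounds -/
theorem yuk_prof {k t : ℝ} (hk' : k ≤ 11 / 10) (ht : 0 ≤ t) :
    (1 / 40) * (Real.exp (-(k * t)) / (1 + t)) ≤
      Real.exp (-(k * (t + 1))) / (4 * Real.pi * (t + 1)) := by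
  have h1 : Real.exp (-(k * (t + 1))) = Real.exp (-(k * t)) * Real.exp (-k) := by
    rw [← Real.exp_add]; ring_nf
  have h2 : (33 / 100 : ℝ) ≤ Real.exp (-k) :=
    exp_neg_eleven_ge.trans (Real.exp_le_exp.2 (by linarith))
  have h3 := Real.pi_lt_d2
  have h4 := Real.pi_pos
  have h5 := Real.exp_pos (-(k * t))
  have h6 : 0 < 1 + t := by linarith
  rw [h1, mul_div_assoc', div_le_div_iff₀ h6 (by positivity)]
  have h7 : (1 / 40 : ℝ) * (4 * Real.pi) ≤ Real.exp (-k) := by nlinarith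
  calc 1 / 40 * Real.exp (-(k * t)) * (4 * Real.pi * (t + 1))
      = ((1 / 40 : ℝ) * (4 * Real.pi)) * (Real.exp (-(k * t)) * (1 + t)) := by ring
    _ ≤ Real.exp (-k) * (Real.exp (-(k * t)) * (1 + t)) := by gcongr
    _ = _ := by ring

theorem yuk_ge {k t : ℝ} {v : Pos3} (hk : 0 ≤ k) (hv : v ≠ 0) (h : ‖v‖ ≤ t + 1) :
    Real.exp (-(k * (t + 1))) / (4 * Real.pi * (t + 1)) ≤ Yuk k v := by
  unfold Yuk
  have h0 : 0 < ‖v‖ := norm_pos_iff.2 hv
  have := Real.pi_pos
  gcongr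

theorem yuk_nonneg (k : ℝ) (v : Pos3) : 0 ≤ Yuk k v := by
  unfold Yuk
  have := Real.pi_pos
  positivity

theorem one_sub_exp_ge {t : ℝ} (ht : 0 ≤ t) : min 1 t / 2 ≤ 1 - Real.exp (-t) := by
  have h1 : Real.exp (-t) ≤ 1 / (1 + t) := by
    rw [Real.exp_neg, ← one_div]
    exact one_div_le_one_div_of_le (by linarith) (by linarith [Real.add_one_le_exp t])
  have h2 : min 1 t / 2 ≤ t / (1 + t) := by
    rw [div_le_div_iff₀ (by norm_num) (by linarith)]
    rcases le_total 1 t with h | h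
    · rw [min_eq_left h]; linarith
    · rw [min_eq_right h]; nlinarith
  have h3 : 1 - 1 / (1 + t) = t / (1 + t) := by field_simp; ring
  linarith

theorem yuk_sub_ge {k : ℝ} {v w : Pos3} (hk : 0 ≤ k) (hv : v ≠ 0) (h : ‖v‖ ≤ ‖w‖) :
    Yuk k v * (min 1 (k * (‖w‖ - ‖v‖)) / 2) ≤ Yuk k v - Yuk k w := by
  have h0 : 0 < ‖v‖ := norm_pos_iff.2 hv
  have h1 : Yuk k w ≤ Yuk k v * Real.exp (-(k * (‖w‖ - ‖v‖))) := by
    have h2 : Real.exp (-(k * ‖v‖)) * Real.exp (-(k * (‖w‖ - ‖v‖))) = Real.exp (-(k * ‖w‖)) := by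
      rw [← Real.exp_add]; ring_nf
    have := Real.pi_pos
    unfold Yuk
    rw [div_mul_eq_mul_div, h2]
    gcongr
  have h3 := one_sub_exp_ge (t := k * (‖w‖ - ‖v‖)) (mul_nonneg hk (by linarith))
  have h4 := yuk_nonneg k v
  nlinarith

/-- `-2 V ≥ 2` in the unit ball around the nucleus -/
theorem V2_near {D : ℝ} {y : Pos3} (hy : y ∈ Metric.ball (nuc D) 1) (hyd : y ≠ nuc D) :
    2 ≤ -2 * V2 D y := by
  unfold V2
  have h1 : ‖y - nuc D‖ < 1 := by simpa [dist_eq_norm] using hy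
  have h2 : 0 < ‖y - nuc D‖ := norm_pos_iff.2 (sub_ne_zero.2 hyd)
  have h3 : 1 ≤ 1 / ‖y - nuc D‖ := by rw [le_div_iff₀ h2]; linarith
  have h4 : 0 ≤ 1 / ‖y - nuc (-D)‖ := by positivity
  linarith

theorem V2_nonpos' (D : ℝ) (x : Pos3) : V2 D x ≤ 0 := by
  unfold V2
  have h1 : 0 ≤ 1 / ‖x - nuc D‖ := by positivity
  have h2 : 0 ≤ 1 / ‖x - nuc (-D)‖ := by positivity
  linarith

theorem V2_rz' (D : ℝ) (x : Pos3) : V2 D (rz x) = V2 D x := by
  unfold V2
  rw [norm_sub_nuc_neg D (rz x), norm_sub_nuc_neg D x, rz_rz]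
  ring

theorem integrable_of_ne {f : Pos3 → ℝ} (h : ∫ x, f x ≠ 0) : Integrable f := by
  by_contra hn
  exact h (integral_undef hn)

variable {D : ℝ} {g u : Pos3 → ℝ} {dg du : Pos3 → Pos3} {eg eu e3 : ℝ}

/-- LOWER BOUND OF `g` -/
theorem g_lower (hob : OneBody D g u dg du eg eu e3) (hD : 2 ≤ D) (heg : |eg + 1 / 2| ≤ 1 / 20)
    (hcl : ∫ x, (g x - (hyd (nuc D) x + hyd (nuc (-D)) x) / √2) ^ 2 ≤ 1 / 100) (x : Pos3) :
    (1 / 200) * (Real.exp (-(kap eg * ‖x - nuc D‖)) / (1 + ‖x - nuc D‖)) ≤ g x := by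
  obtain ⟨hk1, hk2⟩ := kap_bounds heg
  set k := kap eg with hk
  set t := ‖x - nuc D‖ with ht
  have ht0 : 0 ≤ t := norm_nonneg _
  set F : Pos3 → ℝ := fun y => Yuk k (x - y) * (-2 * V2 D y * g y) with hF
  have hrep : g x = ∫ y, F y := hob.g_rep x
  have hint : Integrable F := integrable_of_ne (by rw [← hrep]; exact (hob.g_pos x).ne')
  have hF0 : ∀ y, 0 ≤ F y := fun y => by
    have h1 := V2_nonpos' D y
    have h2 := (hob.g_pos y).le
    have h3 := yuk_nonneg k (x - y)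
    have : 0 ≤ -2 * V2 D y := by linarith
    positivity
  set A := Real.exp (-(k * (t + 1))) / (4 * Real.pi * (t + 1)) with hA
  have hA0 : 0 ≤ A := by have := Real.pi_pos; positivity
  have hgB : Integrable g (volume.restrict (Metric.ball (nuc D) 1)) := by
    have : IsFiniteMeasure (volume.restrict (Metric.ball (nuc D) 1)) :=
      ⟨by rw [Measure.restrict_apply_univ]; exact Metric.isBounded_ball.measure_lt_top⟩
    exact (hob.hg.memf.mono_measure Measure.restrict_le_self).integrable (by norm_num)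
  have h1 : ∫ y in Metric.ball (nuc D) 1, 2 * A * g y ≤ ∫ y in Metric.ball (nuc D) 1, F y := by
    refine integral_mono_ae (hgB.const_mul _) hint.restrict ?_
    have hae : ∀ᵐ y : Pos3, y ∉ ({x, nuc D} : Set Pos3) :=
      (Set.toFinite ({x, nuc D} : Set Pos3)).measure_zero _ |> measure_eq_zero_iff_ae_notMem.1
    filter_upwards [ae_restrict_of_ae hae, ae_restrict_mem measurableSet_ball] with y hy hyB
    simp only [Set.mem_insert_iff, Set.mem_singleton_iff, not_or] at hy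
    have h2 : ‖x - y‖ ≤ t + 1 := by
      have h3 : ‖x - y‖ ≤ ‖x - nuc D‖ + ‖nuc D - y‖ := norm_sub_le_norm_sub_add_norm_sub _ _ _
      have h4 : ‖y - nuc D‖ < 1 := by simpa [dist_eq_norm] using hyB
      rw [norm_sub_rev (nuc D) y] at h3
      linarith
    have h5 := yuk_ge (k := k) (t := t) (v := x - y) (by linarith)
      (sub_ne_zero.2 (Ne.symm hy.1)) h2
    have h6 := V2_near hyB hy.2
    have h7 := (hob.g_pos y).le
    have h8 := yuk_nonneg k (x - y)
    calc 2 * A * g y = A * (2 * g y) := by ring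
      _ ≤ Yuk k (x - y) * (-2 * V2 D y * g y) := by gcongr
  have h2 : ∫ y in Metric.ball (nuc D) 1, F y ≤ g x := by
    rw [hrep]
    exact setIntegral_le_integral hint (Eventually.of_forall hF0)
  rw [integral_const_mul] at h1
  have h3 := g_mass hob hD hcl
  have h4 := yuk_prof hk2 ht0
  have h5 : 2 * A * (1 / 8) ≤ 2 * A * ∫ y in Metric.ball (nuc D) 1, g y := by gcongr
  have h6 : 0 ≤ Real.exp (-(k * t)) / (1 + t) := by positivity
  nlinarith

/-- the same around the lower nucleus -/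
theorem g_lower' (hob : OneBody D g u dg du eg eu e3) (hD : 2 ≤ D) (heg : |eg + 1 / 2| ≤ 1 / 20)
    (hcl : ∫ x, (g x - (hyd (nuc D) x + hyd (nuc (-D)) x) / √2) ^ 2 ≤ 1 / 100) (x : Pos3) :
    (1 / 200) * (Real.exp (-(kap eg * ‖x - nuc (-D)‖)) / (1 + ‖x - nuc (-D)‖)) ≤ g x := by
  have h := g_lower hob hD heg hcl (rz x)
  rwa [← norm_sub_nuc_neg, hob.g_even] at h

theorem measurePreserving_rz : MeasurePreserving (rz : Pos3 → Pos3) volume volume :=
  rz.measurePreserving

theorem rz_apply_two (y : Pos3) : rz y 2 = - y 2 := by rw [rz_apply]; simp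

/-- `ρ₋ - ρ₊`-type estimate for points near the upper nucleus -/
theorem dist_diff {x y : Pos3} (hD : 2 ≤ D) (hx : 0 ≤ x 2) (hy : y ∈ Metric.ball (nuc D) 1) :
    x 2 * D / (2 * (‖x‖ + D)) ≤ ‖x - rz y‖ - ‖x - y‖ := by
  have h1 : ‖y - nuc D‖ < 1 := by simpa [dist_eq_norm] using hy
  have h2 : |y 2 - D| < 1 := by
    have := abs_apply_le (y - nuc D) 2
    rw [PiLp.sub_apply, nuc_apply] at this
    simp only [if_true] at this
    linarith
  have h3 : D - 1 ≤ y 2 := by have := (abs_lt.1 h2).1; linarith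
  have h4 : ‖y‖ ≤ D + 1 := by
    have := norm_le_rho_add D y
    rw [abs_of_nonneg (by linarith)] at this
    linarith
  have h5 := norm_sub_rz_sq x y
  have h6 : 2 * x 2 * D ≤ ‖x - rz y‖ ^ 2 - ‖x - y‖ ^ 2 := by
    rw [h5]
    nlinarith
  have h7 : ‖x - y‖ ≤ ‖x‖ + (D + 1) := (norm_sub_le _ _).trans (by linarith)
  have h8 : ‖x - rz y‖ ≤ ‖x‖ + (D + 1) := (norm_sub_le _ _).trans (by rw [norm_rz]; linarith)
  have h9 : 0 ≤ ‖x‖ := norm_nonneg x
  have h10 : 0 ≤ ‖x - y‖ := norm_nonneg _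
  have h11 : 0 ≤ ‖x - rz y‖ := norm_nonneg _
  have h12 : ‖x - rz y‖ + ‖x - y‖ ≤ 4 * (‖x‖ + D) := by linarith
  rw [div_le_iff₀ (by positivity)]
  have h13 : 0 ≤ ‖x - rz y‖ - ‖x - y‖ := by
    by_contra hcon
    push Not at hcon
    have : 0 ≤ 2 * x 2 * D := by positivity
    nlinarith
  nlinarith

/-- LOWER BOUND OF `u` in the upper half space -/
theorem u_lower (hob : OneBody D g u dg du eg eu e3) (hD : 2 ≤ D) (heu : |eu + 1 / 2| ≤ 1 / 20)
    (hcl : ∫ x, (u x - (hyd (nuc D) x - hyd (nuc (-D)) x) / √2) ^ 2 ≤ 1 / 100) {x : Pos3}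
    (hx : 0 < x 2) :
    (1 / 2000) * (Real.exp (-(kap eu * ‖x - nuc D‖)) / (1 + ‖x - nuc D‖)) *
      min 1 (x 2 * D / (‖x‖ + D)) ≤ u x := by
  obtain ⟨hk1, hk2⟩ := kap_bounds heu
  set k := kap eu with hk
  set t := ‖x - nuc D‖ with ht
  have ht0 : 0 ≤ t := norm_nonneg _
  set m := min 1 (x 2 * D / (‖x‖ + D)) with hm
  have hm0 : 0 ≤ m := le_min zero_le_one (by have := norm_nonneg x; positivity)
  set G : Pos3 → ℝ := fun y => -2 * V2 D y * u y with hG
  set F : Pos3 → ℝ := fun y => Yuk k (x - y) * G y with hF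
  have hrep : u x = ∫ y, F y := hob.u_rep x
  have hint : Integrable F := integrable_of_ne (by rw [← hrep]; exact (hob.u_pos x hx).ne')
  have hG2 : ∀ y, G (rz y) = - G y := fun y => by
    simp only [hG]; rw [V2_rz', hob.u_odd]; ring
  have hGpos : ∀ y : Pos3, 0 ≤ y 2 → 0 ≤ G y := fun y hy => by
    have h1 := V2_nonpos' D y
    have h2 : 0 ≤ u y := by
      rcases hy.lt_or_eq with h | h
      · exact (hob.u_pos y h).le
      · have h3 : rz y = y := by
          ext i; rw [rz_apply]; split_ifs with hi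
          · subst hi; rw [← h]; simp
          · rfl
        have h4 := hob.u_odd y
        rw [h3] at h4
        linarith
    have : 0 ≤ -2 * V2 D y := by linarith
    exact mul_nonneg this h2
  have hK : ∀ y : Pos3, 0 ≤ y 2 → 0 ≤ Yuk k (x - y) - Yuk k (x - rz y) ∨ x = y := fun y hy => by
    by_cases hxy : x = y
    · exact Or.inr hxy
    · left
      have h1 : ‖x - y‖ ≤ ‖x - rz y‖ := by
        have := norm_sub_rz_sq x y
        have h2 : 0 ≤ 4 * x 2 * y 2 := by positivity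
        exact le_of_sq_le_sq (by linarith) (norm_nonneg _)
      have h2 := yuk_sub_ge (k := k) (by linarith) (sub_ne_zero.2 hxy) h1
      have h3 : 0 ≤ min 1 (k * (‖x - rz y‖ - ‖x - y‖)) :=
        le_min zero_le_one (mul_nonneg (by linarith) (by linarith))
      have h4 := yuk_nonneg k (x - y)
      have : 0 ≤ Yuk k (x - y) * (min 1 (k * (‖x - rz y‖ - ‖x - y‖)) / 2) := by positivity
      linarith
  have hint2 : Integrable (fun y => F (rz y)) :=
    (measurePreserving_rz.integrable_comp_of_integrable hint)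
  have hsum : 2 * u x = ∫ y, (F y + F (rz y)) := by
    rw [integral_add hint hint2]
    have : ∫ y, F (rz y) = ∫ y, F y :=
      measurePreserving_rz.integral_comp rz.toHomeomorph.measurableEmbedding F
    rw [this, ← hrep]; ring
  have hFF : ∀ y, F y + F (rz y) = (Yuk k (x - y) - Yuk k (x - rz y)) * G y := fun y => by
    simp only [hF]; rw [hG2]; ring
  have hnn : ∀ᵐ y : Pos3, 0 ≤ F y + F (rz y) := by
    have hae : ∀ᵐ y : Pos3, y ∉ ({x, rz x} : Set Pos3) :=
      (Set.toFinite ({x, rz x} : Set Pos3)).measure_zero _ |> measure_eq_zero_iff_ae_notMem.1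
    filter_upwards [hae] with y hy
    simp only [Set.mem_insert_iff, Set.mem_singleton_iff, not_or] at hy
    rw [hFF]
    rcases le_total 0 (y 2) with h | h
    · rcases hK y h with h1 | h1
      · exact mul_nonneg h1 (hGpos y h)
      · exact absurd h1.symm hy.1
    · have h2 : 0 ≤ (rz y) 2 := by rw [rz_apply_two]; linarith
      rcases hK (rz y) h2 with h1 | h1
      · rw [rz_rz] at h1
        have h3 := hGpos _ h2
        rw [hG2] at h3
        exact mul_nonneg_of_nonpos_of_nonpos (by linarith) (by linarith)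
      · exact absurd (by rw [h1, rz_rz]) hy.2
  set A := Real.exp (-(k * (t + 1))) / (4 * Real.pi * (t + 1)) with hA
  have hA0 : 0 ≤ A := by have := Real.pi_pos; positivity
  have huB : Integrable u (volume.restrict (Metric.ball (nuc D) 1)) := by
    have : IsFiniteMeasure (volume.restrict (Metric.ball (nuc D) 1)) :=
      ⟨by rw [Measure.restrict_apply_univ]; exact Metric.isBounded_ball.measure_lt_top⟩
    exact (hob.hu.memf.mono_measure Measure.restrict_le_self).integrable (by norm_num)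
  have h1 : ∫ y in Metric.ball (nuc D) 1, (9 / 20) * A * m * u y ≤
      ∫ y in Metric.ball (nuc D) 1, (F y + F (rz y)) := by
    refine integral_mono_ae (huB.const_mul _) (hint.add hint2).restrict ?_
    have hae : ∀ᵐ y : Pos3, y ∉ ({x, nuc D} : Set Pos3) :=
      (Set.toFinite ({x, nuc D} : Set Pos3)).measure_zero _ |> measure_eq_zero_iff_ae_notMem.1
    filter_upwards [ae_restrict_of_ae hae, ae_restrict_mem measurableSet_ball] with y hy hyB
    simp only [Set.mem_insert_iff, Set.mem_singleton_iff, not_or] at hy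
    have h4 : ‖y - nuc D‖ < 1 := by simpa [dist_eq_norm] using hyB
    have h2 : ‖x - y‖ ≤ t + 1 := by
      have h3 : ‖x - y‖ ≤ ‖x - nuc D‖ + ‖nuc D - y‖ := norm_sub_le_norm_sub_add_norm_sub _ _ _
      rw [norm_sub_rev (nuc D) y] at h3
      linarith
    have hy2 : 0 < y 2 := by
      have := abs_apply_le (y - nuc D) 2
      rw [PiLp.sub_apply, nuc_apply] at this
      simp only [if_true] at this
      have := (abs_le.1 this).1
      linarith
    have h5 := yuk_ge (k := k) (t := t) (v := x - y) (by linarith)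
      (sub_ne_zero.2 (Ne.symm hy.1)) h2
    have h6 := V2_near hyB hy.2
    have h7 := (hob.u_pos y hy2).le
    have h8 := dist_diff hD hx.le hyB
    have h9 : 0 ≤ x 2 * D / (2 * (‖x‖ + D)) := by have := norm_nonneg x; positivity
    have h10 := yuk_sub_ge (k := k) (v := x - y) (w := x - rz y) (by linarith)
      (sub_ne_zero.2 (Ne.symm hy.1)) (by linarith)
    have h11 : (9 / 20) * m ≤ min 1 (k * (‖x - rz y‖ - ‖x - y‖)) := by
      refine le_min ?_ ?_
      · have : m ≤ 1 := min_le_left _ _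
        linarith
      · have h12 : m ≤ x 2 * D / (‖x‖ + D) := min_le_right _ _
        have h13 : x 2 * D / (‖x‖ + D) = 2 * (x 2 * D / (2 * (‖x‖ + D))) := by
          have : 0 < ‖x‖ + D := by have := norm_nonneg x; linarith
          field_simp
        calc (9 / 20) * m ≤ (9 / 20) * (2 * (x 2 * D / (2 * (‖x‖ + D)))) := by
              rw [← h13]; gcongr
          _ = (9 / 10) * (x 2 * D / (2 * (‖x‖ + D))) := by ring
          _ ≤ k * (‖x - rz y‖ - ‖x - y‖) := by gcongr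
    show (9 / 20) * A * m * u y ≤ F y + F (rz y)
    rw [hFF]
    have h14 : A * ((9 / 20) * m / 2) ≤ Yuk k (x - y) - Yuk k (x - rz y) := by
      refine le_trans ?_ h10
      have := yuk_nonneg k (x - y)
      gcongr
    have h15 : 2 * u y ≤ G y := by simp only [hG]; gcongr
    calc (9 / 20) * A * m * u y = A * ((9 / 20) * m / 2) * (2 * u y) := by ring
      _ ≤ (Yuk k (x - y) - Yuk k (x - rz y)) * G y := by
          have : 0 ≤ A * ((9 / 20) * m / 2) := by positivity
          gcongr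
          exact this.trans h14
  have h2 : ∫ y in Metric.ball (nuc D) 1, (F y + F (rz y)) ≤ 2 * u x := by
    rw [hsum]
    exact setIntegral_le_integral (hint.add hint2) hnn
  rw [integral_const_mul] at h1
  have h3 := u_mass hob hD hcl
  have h4 := yuk_prof hk2 ht0
  have h5 : (9 / 20) * A * m * (1 / 8) ≤
      (9 / 20) * A * m * ∫ y in Metric.ball (nuc D) 1, u y := by gcongr
  have h6 : 0 ≤ Real.exp (-(k * t)) / (1 + t) := by positivity
  have h7 : (1 / 40) * (Real.exp (-(k * t)) / (1 + t)) * m ≤ A * m := by gcongr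
  have h8 : 0 ≤ Real.exp (-(k * t)) / (1 + t) * m := by positivity
  nlinarith

end OG
end Crest.Agent.R335
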