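import Crest.Agent.R335.OGUp

/-!
Row 335 (S0521), ONE-BODY block, section (1.3) of Part B: LOWER bounds of the one-body states by the
two-centre functions, for `r > D³` (helper696).
-/

set_option autoImplicit false

open MeasureTheory Filter Set Crest.MathPhysics.ThreeBody
open scoped ENNReal Topology ContDiff

noncomputable section
namespace Crest.Agent.R335
namespace OG

theorem ExtE_sub_Far {D R t : ℝ} (hD : 0 ≤ D) (h : t + D ≤ R) :
    (ExtE R : Set Pos3) ⊆ Far D t := fun x hx => by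
  have h0 : R < ‖x‖ := hx
  have h1 := norm_le_rho_add D x
  have h2 := norm_le_rho_add (-D) x
  rw [abs_neg] at h2
  rw [abs_of_nonneg hD] at h1 h2
  exact ⟨by linarith, by linarith⟩

/-- polynomial growth of the ratio in the shell -/
theorem poly_shell {D p ρ : ℝ} (hD : 10 ≤ D) (hp0 : 0 ≤ p) (hp : p ≤ 4 / 3) (hρ0 : 0 ≤ ρ)
    (hρ : ρ ≤ 2 * D ^ 3) : (1 + ρ) * ρ ^ p ≤ 27 * D ^ 7 := by
  have h1 : ρ ^ p ≤ (1 + ρ) ^ (4 / 3 : ℝ) := by
    calc ρ ^ p ≤ (1 + ρ) ^ p := Real.rpow_le_rpow hρ0 (by linarith) hp0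
      _ ≤ (1 + ρ) ^ (4 / 3 : ℝ) := Real.rpow_le_rpow_of_exponent_le (by linarith) hp
  have h2 : (1 + ρ) * (1 + ρ) ^ (4 / 3 : ℝ) = (1 + ρ) ^ (7 / 3 : ℝ) := by
    nth_rewrite 1 [← Real.rpow_one (1 + ρ)]
    rw [← Real.rpow_add (by linarith)]
    norm_num
  have h3 : 1 + ρ ≤ 3 * D ^ 3 := by
    have : (1 : ℝ) ≤ D ^ 3 := one_le_pow₀ (by linarith)
    linarith
  have h4 : (1 + ρ) ^ (7 / 3 : ℝ) ≤ (3 * D ^ 3) ^ (7 / 3 : ℝ) :=
    Real.rpow_le_rpow (by linarith) h3 (by norm_num)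
  have h5 : (3 * D ^ 3) ^ (7 / 3 : ℝ) = 3 ^ (7 / 3 : ℝ) * D ^ 7 := by
    rw [Real.mul_rpow (by norm_num) (by positivity)]
    congr 1
    rw [← Real.rpow_natCast D 3, ← Real.rpow_mul (by linarith), ← Real.rpow_natCast D 7]
    norm_num
  have h6 : (3 : ℝ) ^ (7 / 3 : ℝ) ≤ 27 := by
    calc (3 : ℝ) ^ (7 / 3 : ℝ) ≤ 3 ^ (3 : ℝ) :=
          Real.rpow_le_rpow_of_exponent_le (by norm_num) (by norm_num)
      _ = 27 := by norm_num
  calc (1 + ρ) * ρ ^ p ≤ (1 + ρ) * (1 + ρ) ^ (4 / 3 : ℝ) := by gcongr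
    _ = (1 + ρ) ^ (7 / 3 : ℝ) := h2
    _ ≤ 3 ^ (7 / 3 : ℝ) * D ^ 7 := h4.trans_eq h5
    _ ≤ 27 * D ^ 7 := by gcongr

/-- the profile `E^±` is at most `30 D⁷` times the lower profile, up to the shell -/
theorem Em_shell {D κ p σ ρ : ℝ} (hD : 10 ≤ D) (h : MPar κ 2 p σ) (hρ : 100 ≤ ρ)
    (hρ' : ρ ≤ 2 * D ^ 3) :
    Em κ p σ ρ ≤ 30 * D ^ 7 * (Real.exp (-(κ * ρ)) / (1 + ρ)) := by
  have h0 : 0 < ρ := by linarith
  obtain ⟨u0, u1⟩ := XM.u_bounds hρ
  have h1 := poly_shell hD (by have := h.p1; norm_num at this; linarith)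
    (by have := h.p2; norm_num at this; linarith) h0.le hρ'
  have h2 : 1 - σ * (√ρ)⁻¹ ≤ 11 / 10 := by
    rcases h.hσ with rfl | rfl <;> norm_num at u1 ⊢ <;> linarith
  have h3 : 0 ≤ 1 - σ * (√ρ)⁻¹ := by
    rcases h.hσ with rfl | rfl <;> norm_num at u1 ⊢ <;> linarith
  have h4 := Real.exp_pos (-(κ * ρ))
  have h5 : 0 ≤ ρ ^ p := Real.rpow_nonneg h0.le _
  rw [Em_eq h0, mul_div_assoc', le_div_iff₀ (by linarith)]
  unfold ee
  calc Real.exp (-(κ * ρ)) * ρ ^ p * (1 - σ * (√ρ)⁻¹) * (1 + ρ)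
      ≤ Real.exp (-(κ * ρ)) * ρ ^ p * (11 / 10) * (1 + ρ) := by gcongr
    _ = (11 / 10) * ((1 + ρ) * ρ ^ p) * Real.exp (-(κ * ρ)) := by ring
    _ ≤ (11 / 10) * (27 * D ^ 7) * Real.exp (-(κ * ρ)) := by gcongr
    _ ≤ _ := by
        have : 0 ≤ D ^ 7 * Real.exp (-(κ * ρ)) := by positivity
        nlinarith

/-- `ε(ρ)` dominates `C D / ρ²` when `ρ ≥ D³ / 2` -/
theorem eps_dom {D κ p σ ρ : ℝ} (hD : 3000 ≤ D) (h : MPar κ 2 p σ) (hρ : D ^ 3 / 2 ≤ ρ) :
    8 * D / ρ ^ 2 ≤ epsm κ p σ ρ := by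
  have hD2 : (0 : ℝ) < D := by linarith
  have h100 : 100 ≤ ρ := by
    have : (1000 : ℝ) ≤ D ^ 3 := by
      calc (1000 : ℝ) = 10 ^ 3 := by norm_num
        _ ≤ D ^ 3 := pow_le_pow_left₀ (by norm_num) (by linarith) 3
    linarith
  have h0 : 0 < ρ := by linarith
  refine le_trans ?_ (epsm_ge h h100)
  have hs : 0 < √ρ := Real.sqrt_pos.2 h0
  have hs2 : √ρ ^ 2 = ρ := Real.sq_sqrt h0.le
  have h1 : 36 * D ≤ √ρ := by
    apply Real.le_sqrt_of_sq_le
    have : (36 * D) ^ 2 ≤ D ^ 3 / 2 := by nlinarith [sq_nonneg D]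
    linarith
  have h2 : ρ ^ 2 = √ρ ^ 4 := by rw [← hs2]; ring_nf; rw [hs2]
  have hk := h.k1
  norm_num at hk
  rw [h2, div_le_iff₀ (by positivity)]
  have h3 : κ / 4 * (√ρ)⁻¹ ^ 3 * √ρ ^ 4 = κ / 4 * √ρ := by
    field_simp
  rw [h3]
  nlinarith

variable {D : ℝ} {g u : Pos3 → ℝ} {dg du : Pos3 → Pos3} {eg eu e3 : ℝ}

/-- the constant of the lower bounds -/
def loA (D : ℝ) : ℝ := 1 / (10 ^ 6 * D ^ 7)

theorem loA_pos {D : ℝ} (hD : 0 < D) : 0 < loA D := by unfold loA; positivity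

theorem shell_bounds {D : ℝ} (hD : 3000 ≤ D) {x : Pos3} (hx : D ^ 3 < ‖x‖ + 2)
    (hx' : ‖x‖ < D ^ 3 + 1) :
    (100 < ‖x - nuc D‖ ∧ ‖x - nuc D‖ ≤ 2 * D ^ 3) ∧
      (100 < ‖x - nuc (-D)‖ ∧ ‖x - nuc (-D)‖ ≤ 2 * D ^ 3) ∧ D ≤ ‖x‖ := by
  have h0 : (0 : ℝ) < D := by linarith
  have h1 := norm_le_rho_add D x
  have h2 := norm_le_rho_add (-D) x
  have h3 := rho_le_norm_add D x
  have h4 := rho_le_norm_add (-D) x
  rw [abs_neg] at h2 h4
  rw [abs_of_nonneg h0.le] at h1 h2 h3 h4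
  have h5 : 3000 ^ 2 * D ≤ D ^ 3 := by
    have : (3000 : ℝ) ^ 2 ≤ D ^ 2 := pow_le_pow_left₀ (by norm_num) hD 2
    calc 3000 ^ 2 * D ≤ D ^ 2 * D := by gcongr
      _ = D ^ 3 := by ring
  refine ⟨⟨by nlinarith, by nlinarith⟩, ⟨by nlinarith, by nlinarith⟩, by nlinarith⟩

/-- LOWER BOUND of `g` by the two-centre subsolution, `r > D³` -/
theorem g_lower_two (hob : OneBody D g u dg du eg eu e3) (hD : 3000 ≤ D)
    (heg : |eg + 1 / 2| ≤ 1 / 20)
    (hcl : ∫ x, (g x - (hyd (nuc D) x + hyd (nuc (-D)) x) / √2) ^ 2 ≤ 1 / 100) {x : Pos3}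
    (hx : D ^ 3 < ‖x‖) :
    loA D * TC D (kap eg) (2 / kap eg - 1) (-1) 1 x ≤ g x := by
  obtain ⟨hk1, hk2⟩ := kap_bounds heg
  have hM : MPar (kap eg) 2 (2 / kap eg - 1) (-1) := mpar hk1 hk2 (Or.inr rfl)
  have hks := kap_sq heg
  have hlow := g_lower hob (by linarith) heg hcl
  have hlow' := g_lower' hob (by linarith) heg hcl
  set κ := kap eg with hκ
  set p := 2 / κ - 1 with hp
  have hD0 : (0 : ℝ) < D := by linarith
  have hD3 : 3000 ^ 2 * D ≤ D ^ 3 := by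
    have : (3000 : ℝ) ^ 2 ≤ D ^ 2 := pow_le_pow_left₀ (by norm_num) hD 2
    calc 3000 ^ 2 * D ≤ D ^ 2 * D := by gcongr
      _ = D ^ 3 := by ring
  set U := (ExtE (D ^ 3) : Set Pos3) with hUdef
  have hU : IsOpen U := isOpen_ExtE _
  have hUF : U ⊆ Far D 100 := ExtE_sub_Far hD0.le (by nlinarith)
  have hj := TC_jet D κ p (-1) 1 hU (t := 100) (by norm_num) hUF
  have hj' := hj.const_mul hU (loA D)
  have hA := loA_pos hD0
  have m1 := (TC_memLp hM (τ := 1) (by norm_num) hU hUF).const_mul (loA D)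
  have m2 := (dTC_memLp hM (τ := 1) (by norm_num) hU hUF).const_smul (loA D)
  have hhalf : ∀ y ∈ U, D ^ 3 / 2 ≤ ‖y - nuc D‖ ∧ D ^ 3 / 2 ≤ ‖y - nuc (-D)‖ := fun y hy => by
    have := ExtE_sub_Far (D := D) (R := D ^ 3) (t := D ^ 3 / 2) hD0.le (by nlinarith) hy
    exact ⟨this.1.le, this.2.le⟩
  -- one case of the subsolution property
  have key : ∀ a b : ℝ, D ^ 3 / 2 ≤ a → a ≤ b → b ≤ a + 2 * D →
      (1 / a - 1 / b) * (Em κ p (-1) a - Em κ p (-1) b) +
        (XWm κ p (-1) a + XWm κ p (-1) b) ≤ 0 := fun a b ha hab hba => by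
    have ha100 : 100 ≤ a := by nlinarith
    have ha0 : 0 < a := by linarith
    have h1 := eps_dom hD hM ha
    rw [XWm_eq_eps hM ha100, XWm_eq_eps hM (ha100.trans hab)]
    have h2 := Em_pos hM ha100
    have h3 := Em_pos hM (ha100.trans hab)
    have h4 := epsm_nonneg hM (ha100.trans hab)
    have h5 : 1 / a - 1 / b ≤ 8 * D / a ^ 2 := by
      rw [div_sub_div _ _ ha0.ne' (by linarith : b ≠ 0), div_le_div_iff₀ (by nlinarith) (by positivity)]
      have : a ^ 2 ≤ a * b := by nlinarith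
      have hab0 : 0 ≤ a * b := by nlinarith
      calc (1 * b - a * 1) * a ^ 2 ≤ (8 * D) * (a * b) := by
            apply mul_le_mul (by linarith) this (by positivity) (by positivity)
        _ = _ := by ring
    have h6 : 0 ≤ 1 / a - 1 / b := by
      have := one_div_le_one_div_of_le ha0 hab; linarith
    have h7 : (1 / a - 1 / b) * (Em κ p (-1) a - Em κ p (-1) b) ≤
        epsm κ p (-1) a * Em κ p (-1) a := by
      have h8 := Em_anti hM ha100 hab
      calc (1 / a - 1 / b) * (Em κ p (-1) a - Em κ p (-1) b)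
          ≤ (1 / a - 1 / b) * Em κ p (-1) a := by gcongr; linarith
        _ ≤ epsm κ p (-1) a * Em κ p (-1) a := by gcongr; linarith
    have h9 := mul_nonneg h4 h3.le
    linarith
  have hsub : ∀ y ∈ U, -(1 / 2) * (loA D * lTC D κ p (-1) 1 y) +
      (-eg + V2 D y) * (loA D * TC D κ p (-1) 1 y) ≤ 0 := fun y hy => by
    have hyF := hUF hy
    obtain ⟨b1, b2⟩ := hhalf y hy
    have h1 := two_id (D := D) (σ := -1) (τ := 1) hM.hp (x := y) (by linarith [hyF.1])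
      (by linarith [hyF.2])
    have h2 : -(1 / 2) * (loA D * lTC D κ p (-1) 1 y) +
        (-eg + V2 D y) * (loA D * TC D κ p (-1) 1 y) =
        loA D * (-(1 / 2) * lTC D κ p (-1) 1 y + (κ ^ 2 / 2 + V2 D y) *
          TC D κ p (-1) 1 y) := by
      rw [hks]; ring
    rw [h2, h1, one_mul, one_mul]
    refine mul_nonpos_of_nonneg_of_nonpos hA.le ?_
    have hd : ‖nuc D - nuc (-D)‖ = 2 * D := by
      have : nuc D - nuc (-D) = nuc (2 * D) := by
        ext i; simp [nuc_apply]; split_ifs <;> ring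
      rw [this, norm_nuc, abs_of_nonneg (by linarith)]
    have t1 := norm_sub_le_norm_sub_add_norm_sub y (nuc (-D)) (nuc D)
    have t2 := norm_sub_le_norm_sub_add_norm_sub y (nuc D) (nuc (-D))
    rw [norm_sub_rev (nuc (-D)) (nuc D), hd] at t1
    rw [hd] at t2
    rcases le_total ‖y - nuc D‖ ‖y - nuc (-D)‖ with h | h
    · exact key _ _ b1 h t2
    · have := key _ _ b2 h t1
      linarith
  have hH := H10.ep_ext hU (s := fun x => loA D * TC D κ p (-1) 1 x) (b := g) (hj'.wg hU)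
    (hob.hg.wg.mono (subset_univ _)) m1 (hob.hg.memf.restrict U) m2 (hob.hg.memg.restrict U)
    one_pos (Eventually.of_forall fun y hy hd => by
      have h1 := infDist_ExtE (by positivity) hd
      obtain ⟨⟨a1, a2⟩, ⟨a3, a4⟩, a5⟩ := shell_bounds hD (x := y)
        (by have : D ^ 3 < ‖y‖ := hy; linarith) h1
      have e1 := Em_shell (by linarith) hM a1.le a2
      have e2 := Em_shell (by linarith) hM a3.le a4
      have l1 := hlow y
      have l2 := hlow' y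
      have c1 : 30 * D ^ 7 * (Real.exp (-(κ * ‖y - nuc D‖)) / (1 + ‖y - nuc D‖)) ≤
          6000 * D ^ 7 * g y := by
        have : 0 ≤ D ^ 7 := by positivity
        nlinarith
      have c2 : 30 * D ^ 7 * (Real.exp (-(κ * ‖y - nuc (-D)‖)) / (1 + ‖y - nuc (-D)‖)) ≤
          6000 * D ^ 7 * g y := by
        have : 0 ≤ D ^ 7 := by positivity
        nlinarith
      have c3 : TC D κ p (-1) 1 y ≤ 12000 * D ^ 7 * g y := by unfold TC; linarith
      have c4 := (hob.g_pos y).le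
      calc loA D * TC D κ p (-1) 1 y ≤ loA D * (12000 * D ^ 7 * g y) := by gcongr
        _ = (12000 / 10 ^ 6) * g y := by unfold loA; field_simp
        _ ≤ g y := by linarith)
  have hae := lower_cmp heg hob.hg hob.g_eq hU hUF hj' m1 m2 hsub hH
  exact le_of_ae hU hj'.smooth.continuousOn hob.cg.continuousOn hae x hx

/-- `0 ≤ O⁺ ≤ 5 E⁺(ρ₊) min(1, zD/(r+D))`, and `O⁺ ≥ E⁺(ρ₊) (ρ₋ - ρ₊)/(4D)` -/
theorem odd_size {κ p σ : ℝ} (hM : MPar κ 2 p σ) (hD : 1 ≤ D) {x : Pos3} (hx : 0 ≤ x 2)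
    (h100 : 100 ≤ ‖x - nuc D‖) (hr : D ≤ ‖x‖) :
    TC D κ p σ (-1) x ≤ 5 * Em κ p σ ‖x - nuc D‖ * min 1 (x 2 * D / (‖x‖ + D)) := by
  have hD0 : (0 : ℝ) < D := by linarith
  have hle := rho_le hD0.le hx
  have h1 := Em_decay_ge hM h100 hle
  have hE := Em_pos hM h100
  set δ := ‖x - nuc (-D)‖ - ‖x - nuc D‖ with hδ
  have hδ0 : 0 ≤ δ := by linarith
  have h2 : TC D κ p σ (-1) x ≤ Em κ p σ ‖x - nuc D‖ * (1 - Real.exp (-(1.01 * κ * δ))) := by
    unfold TC; linarith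
  have hk := hM.k2
  have hk1 := hM.k1
  norm_num at hk hk1
  have h3 : 1 - Real.exp (-(1.01 * κ * δ)) ≤ 5 / 4 * δ := by
    have := Real.one_sub_le_exp_neg (1.01 * κ * δ)
    have h4 : 1.01 * κ * δ ≤ 5 / 4 * δ := by
      have : 1.01 * κ ≤ 5 / 4 := by norm_num; linarith
      gcongr
    linarith
  have h4 : 1 - Real.exp (-(1.01 * κ * δ)) ≤ 1 := by
    have := Real.exp_pos (-(1.01 * κ * δ)); linarith
  have h5 : δ ≤ 4 * (x 2 * D / (‖x‖ + D)) := by
    have hsq := rho_sq D x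
    have h2r := two_norm_le_rho D x
    have hn : 0 < ‖x‖ + D := by have := norm_nonneg x; linarith
    have h6 : δ * (‖x - nuc (-D)‖ + ‖x - nuc D‖) = 4 * D * x 2 := by
      rw [hδ]; nlinarith
    rw [mul_div_assoc', le_div_iff₀ hn]
    have h7 : ‖x‖ + D ≤ ‖x - nuc (-D)‖ + ‖x - nuc D‖ := by linarith
    calc δ * (‖x‖ + D) ≤ δ * (‖x - nuc (-D)‖ + ‖x - nuc D‖) := by gcongr
      _ = 4 * (x 2 * D) := by rw [h6]; ring
  have h6 : 1 - Real.exp (-(1.01 * κ * δ)) ≤ 5 * min 1 (x 2 * D / (‖x‖ + D)) := by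
    rcases le_total 1 (x 2 * D / (‖x‖ + D)) with h | h
    · rw [min_eq_left h]; linarith
    · rw [min_eq_right h]; linarith
  calc TC D κ p σ (-1) x ≤ Em κ p σ ‖x - nuc D‖ * (1 - Real.exp (-(1.01 * κ * δ))) := h2
    _ ≤ Em κ p σ ‖x - nuc D‖ * (5 * min 1 (x 2 * D / (‖x‖ + D))) := by gcongr
    _ = _ := by ring

/-- `O ≥ E(ρ₊) (ρ₋ - ρ₊) / (4 D)` -/
theorem odd_ge {κ p σ : ℝ} (hM : MPar κ 2 p σ) (hD : 1 ≤ D) {a b : ℝ} (ha : 100 ≤ a)
    (hab : a ≤ b) (hba : b ≤ a + 2 * D) :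
    Em κ p σ a * (b - a) / (4 * D) ≤ Em κ p σ a - Em κ p σ b := by
  have h1 := Em_decay hM ha hab
  have hE := Em_pos hM ha
  have hk1 := hM.k1
  norm_num at hk1
  have h2 := one_sub_exp_ge (t := 0.98 * κ * (b - a))
    (mul_nonneg (mul_nonneg (by norm_num) hM.kpos.le) (by linarith))
  have h3 : (b - a) / (2 * D) ≤ min 1 (0.98 * κ * (b - a)) := by
    refine le_min ?_ ?_
    · rw [div_le_one (by linarith)]; linarith
    · rw [div_le_iff₀ (by linarith)]
      have h4 : (1 : ℝ) ≤ 0.98 * κ * (2 * D) := by norm_num; nlinarith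
      calc b - a = (b - a) * 1 := by ring
        _ ≤ (b - a) * (0.98 * κ * (2 * D)) := by
            apply mul_le_mul_of_nonneg_left h4 (by linarith)
        _ = _ := by ring
  have h5 : Em κ p σ a * (b - a) / (4 * D) = Em κ p σ a * ((b - a) / (2 * D) / 2) := by
    field_simp; ring
  rw [h5]
  have h6 : (b - a) / (2 * D) / 2 ≤ 1 - Real.exp (-(0.98 * κ * (b - a))) := by linarith
  have h7 : Em κ p σ a * ((b - a) / (2 * D) / 2) ≤
      Em κ p σ a * (1 - Real.exp (-(0.98 * κ * (b - a)))) := by gcongr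
  linarith

/-- LOWER BOUND of `u` by the odd two-centre subsolution, `r > D³`, `z > 0` -/
theorem u_lower_two (hob : OneBody D g u dg du eg eu e3) (hD : 3000 ≤ D)
    (heu : |eu + 1 / 2| ≤ 1 / 20)
    (hcl : ∫ x, (u x - (hyd (nuc D) x - hyd (nuc (-D)) x) / √2) ^ 2 ≤ 1 / 100) {x : Pos3}
    (hx : D ^ 3 < ‖x‖) (hx2 : 0 < x 2) :
    loA D * TC D (kap eu) (2 / kap eu - 1) (-1) (-1) x ≤ u x := by
  obtain ⟨hk1, hk2⟩ := kap_bounds heu
  have hM : MPar (kap eu) 2 (2 / kap eu - 1) (-1) := mpar hk1 hk2 (Or.inr rfl)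
  have hks := kap_sq heu
  have hlow := fun y hy => u_lower hob (by linarith) heu hcl (x := y) hy
  set κ := kap eu with hκ
  set p := 2 / κ - 1 with hp
  have hD0 : (0 : ℝ) < D := by linarith
  have hD3 : 3000 ^ 2 * D ≤ D ^ 3 := by
    have : (3000 : ℝ) ^ 2 ≤ D ^ 2 := pow_le_pow_left₀ (by norm_num) hD 2
    calc 3000 ^ 2 * D ≤ D ^ 2 * D := by gcongr
      _ = D ^ 3 := by ring
  -- the larger region, for the cutoff
  set W := (ExtE (D ^ 3 - 2) : Set Pos3) with hWdef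
  have hW : IsOpen W := isOpen_ExtE _
  have hWF : W ⊆ Far D 100 := ExtE_sub_Far hD0.le (by nlinarith)
  have hjW := (TC_jet D κ p (-1) (-1) hW (t := 100) (by norm_num) hWF).const_mul hW (loA D)
  have w1 := (TC_memLp hM (τ := -1) (by norm_num) hW hWF).const_mul (loA D)
  have w2 := (dTC_memLp hM (τ := -1) (by norm_num) hW hWF).const_smul (loA D)
  have hP := cut_H10 (2 : Fin 3) (r := D ^ 3 - 2) (a := D ^ 3 - 1) (b := D ^ 3) (by nlinarith)
    (by linarith) (by linarith) (hjW.wg hW) w1 w2 (Eventually.of_forall fun y _ => by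
      show loA D * TC D κ p (-1) (-1) (rfl' 2 y) = -(loA D * TC D κ p (-1) (-1) y)
      rw [← rz_eq_rfl', TC_rz _ _ _ _ _ (by norm_num)]; ring)
  -- the region of comparison
  set U := (HExt (D ^ 3) (2 : Fin 3) : Set Pos3) with hUdef
  have hU : IsOpen U := isOpen_HExt _ _
  have hUE : U ⊆ ExtE (D ^ 3) := inter_subset_left
  have hUF : U ⊆ Far D 100 := hUE.trans (ExtE_sub_Far hD0.le (by nlinarith))
  have hj := TC_jet D κ p (-1) (-1) hU (t := 100) (by norm_num) hUF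
  have hj' := hj.const_mul hU (loA D)
  have hA := loA_pos hD0
  have m1 := (TC_memLp hM (τ := -1) (by norm_num) hU hUF).const_mul (loA D)
  have m2 := (dTC_memLp hM (τ := -1) (by norm_num) hU hUF).const_smul (loA D)
  have hsub : ∀ y ∈ U, -(1 / 2) * (loA D * lTC D κ p (-1) (-1) y) +
      (-eu + V2 D y) * (loA D * TC D κ p (-1) (-1) y) ≤ 0 := fun y hy => by
    have hyF := hUF hy
    have hy2 : 0 < y 2 := hy.2
    have hhalf := ExtE_sub_Far (D := D) (R := D ^ 3) (t := D ^ 3 / 2) hD0.le (by nlinarith)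
      (hUE hy)
    have h1 := two_id (D := D) (σ := -1) (τ := -1) hM.hp (x := y) (by linarith [hyF.1])
      (by linarith [hyF.2])
    have h2 : -(1 / 2) * (loA D * lTC D κ p (-1) (-1) y) +
        (-eu + V2 D y) * (loA D * TC D κ p (-1) (-1) y) =
        loA D * (-(1 / 2) * lTC D κ p (-1) (-1) y + (κ ^ 2 / 2 + V2 D y) *
          TC D κ p (-1) (-1) y) := by
      rw [hks]; ring
    rw [h2, h1]
    refine mul_nonpos_of_nonneg_of_nonpos hA.le ?_
    have hd : ‖nuc D - nuc (-D)‖ = 2 * D := by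
      have : nuc D - nuc (-D) = nuc (2 * D) := by
        ext i; simp [nuc_apply]; split_ifs <;> ring
      rw [this, norm_nuc, abs_of_nonneg (by linarith)]
    have t2 := norm_sub_le_norm_sub_add_norm_sub y (nuc D) (nuc (-D))
    rw [hd] at t2
    have hle := rho_le hD0.le hy2.le
    have a100 := hyF.1.le
    have ah := hhalf.1.le
    generalize ‖y - nuc D‖ = a at *
    generalize ‖y - nuc (-D)‖ = b at *
    have ha0 : 0 < a := by linarith
    have hb0 : 0 < b := by linarith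
    rw [XWm_eq_eps hM a100, XWm_eq_eps hM (a100.trans hle)]
    have g1 := eps_dom hD hM ah
    have g2 := epsm_anti hM a100 hle
    have g3 := Em_pos hM a100
    have g4 := Em_pos hM (a100.trans hle)
    have g5 := odd_ge hM (by linarith : (1 : ℝ) ≤ D) a100 hle t2
    have g6 : (1 / a - 1 / b) * (Em κ p (-1) a - -1 * Em κ p (-1) b) ≤
        (b - a) / a ^ 2 * (2 * Em κ p (-1) a) := by
      have h8 := Em_anti hM a100 hle
      have h9 : 1 / a - 1 / b ≤ (b - a) / a ^ 2 := by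
        rw [div_sub_div _ _ ha0.ne' hb0.ne', div_le_div_iff₀ (by positivity) (by positivity)]
        have : a ^ 2 ≤ a * b := by nlinarith
        calc (1 * b - a * 1) * a ^ 2 = (b - a) * a ^ 2 := by ring
          _ ≤ (b - a) * (a * b) := by
            apply mul_le_mul_of_nonneg_left this (by linarith)
      have h10 : 0 ≤ 1 / a - 1 / b := by
        have := one_div_le_one_div_of_le ha0 hle; linarith
      calc (1 / a - 1 / b) * (Em κ p (-1) a - -1 * Em κ p (-1) b)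
          ≤ (1 / a - 1 / b) * (2 * Em κ p (-1) a) := by gcongr; linarith
        _ ≤ (b - a) / a ^ 2 * (2 * Em κ p (-1) a) := by gcongr
    have g7 : (b - a) / a ^ 2 * (2 * Em κ p (-1) a) =
        8 * D / a ^ 2 * (Em κ p (-1) a * (b - a) / (4 * D)) := by field_simp; ring
    have g8 : 8 * D / a ^ 2 * (Em κ p (-1) a * (b - a) / (4 * D)) ≤
        epsm κ p (-1) a * (Em κ p (-1) a - Em κ p (-1) b) := by
      have : 0 ≤ Em κ p (-1) a * (b - a) / (4 * D) := by
        have : 0 ≤ b - a := by linarith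
        positivity
      have h9 : 0 ≤ epsm κ p (-1) a := epsm_nonneg hM a100
      exact mul_le_mul g1 g5 this h9
    have g9 : epsm κ p (-1) b * Em κ p (-1) b ≤ epsm κ p (-1) a * Em κ p (-1) b := by gcongr
    nlinarith
  have hinf : ∀ y ∈ U, Metric.infDist y ({x : Pos3 | 0 < x 2} \ U) < 1 → ‖y‖ < D ^ 3 + 1 :=
    fun y _ hd => infDist_HExt (by positivity) 2 hd
  have hH := H10.ep_half (isOpen_half 2) hU (fun y hy => hy.2) hP (b := u) (db := du)
    (hob.hu.wg.mono (subset_univ _)) (hob.hu.memf.restrict U) (hob.hu.memg.restrict U)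
    (Eventually.of_forall fun y hy => (hob.u_pos y hy.2).le) one_pos
    (Eventually.of_forall fun y hy hd => by
      have h1 := hinf y hy hd
      have hy2 : 0 < y 2 := hy.2
      have hyr : D ^ 3 < ‖y‖ := hy.1
      obtain ⟨⟨a1, a2⟩, ⟨a3, a4⟩, a5⟩ := shell_bounds hD (x := y) (by linarith) h1
      have hone : oc (D ^ 3 - 1) (D ^ 3) y = 1 := oc_one (by nlinarith) (by linarith) hyr.le
      rw [if_pos hy2, hone, one_mul]
      have e1 := Em_shell (by linarith) hM a1.le a2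
      have e2 := odd_size (D := D) hM (by linarith) hy2.le a1.le a5
      have l1 := hlow y hy2
      set m := min 1 (y 2 * D / (‖y‖ + D)) with hm
      have hm0 : 0 ≤ m := le_min zero_le_one (by have := norm_nonneg y; positivity)
      set q := Real.exp (-(κ * ‖y - nuc D‖)) / (1 + ‖y - nuc D‖) with hq
      have hq0 : 0 ≤ q := by positivity
      have c3 : TC D κ p (-1) (-1) y ≤ 300000 * D ^ 7 * u y := by
        calc TC D κ p (-1) (-1) y ≤ 5 * Em κ p (-1) ‖y - nuc D‖ * m := e2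
          _ ≤ 5 * (30 * D ^ 7 * q) * m := by gcongr
          _ = 300000 * D ^ 7 * ((1 / 2000) * q * m) := by ring
          _ ≤ 300000 * D ^ 7 * u y := by gcongr
      have c4 := (hob.u_pos y hy2).le
      calc loA D * TC D κ p (-1) (-1) y ≤ loA D * (300000 * D ^ 7 * u y) := by gcongr
        _ = (300000 / 10 ^ 6) * u y := by unfold loA; field_simp
        _ ≤ u y := by linarith)
  have e1 : U.indicator (ep (fun x : Pos3 => if 0 < x 2 then
      oc (D ^ 3 - 1) (D ^ 3) x * (loA D * TC D κ p (-1) (-1) x) else 0) u) =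
      U.indicator (ep (fun x => loA D * TC D κ p (-1) (-1) x) u) := by
    refine indicator_congr fun y hy => ?_
    have hy2 : 0 < y 2 := hy.2
    have hyr : D ^ 3 < ‖y‖ := hy.1
    unfold ep
    simp only [hy2, if_true, oc_one (by nlinarith : 0 ≤ D ^ 3 - 1) (by linarith) hyr.le, one_mul]
  have e2 : U.indicator (dep (fun x : Pos3 => if 0 < x 2 then
      oc (D ^ 3 - 1) (D ^ 3) x * (loA D * TC D κ p (-1) (-1) x) else 0) u
      (fun x : Pos3 => if 0 < x 2 then oc (D ^ 3 - 1) (D ^ 3) x • (loA D • dTC D κ p (-1) (-1) x) +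
        (loA D * TC D κ p (-1) (-1) x) • gr (oc (D ^ 3 - 1) (D ^ 3)) x else 0) du) =
      U.indicator (dep (fun x => loA D * TC D κ p (-1) (-1) x) u
        (fun x => loA D • dTC D κ p (-1) (-1) x) du) := by
    refine indicator_congr fun y hy => ?_
    have hy2 : 0 < y 2 := hy.2
    have hyr : D ^ 3 < ‖y‖ := hy.1
    unfold dep
    simp only [hy2, if_true, oc_one (by nlinarith : 0 ≤ D ^ 3 - 1) (by linarith) hyr.le, one_mul,
      gr_oc_one (by nlinarith : 0 ≤ D ^ 3 - 1) (by linarith) hyr, one_smul, smul_zero, add_zero]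
  rw [e1, e2] at hH
  have hae := lower_cmp heu hob.hu hob.u_eq hU hUF hj' m1 m2 hsub hH
  exact le_of_ae hU hj'.smooth.continuousOn hob.cu.continuousOn hae x ⟨hx, hx2⟩

end OG
end Crest.Agent.R335
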