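import Crest.Agent.R335.OGTwo
import Crest.Agent.R335.OBPot

/-!
Row 335 (S0521), ONE-BODY block, section (1.3) of Part B: UPPER bounds of the one-body states
(helper696).
-/

set_option autoImplicit false

open MeasureTheory Filter Set Crest.MathPhysics.ThreeBody
open scoped ENNReal Topology ContDiff

noncomputable section
namespace Crest.Agent.R335
namespace OG

/-! ### comparison for the one-body equation -/

theorem V2_far {D : ℝ} {x : Pos3} (hx : x ∈ Far D 100) : -(1 / 50) ≤ V2 D x ∧ V2 D x ≤ 0 := by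
  refine ⟨?_, V2_nonpos' D x⟩
  unfold V2
  have h1 : 1 / ‖x - nuc D‖ ≤ 1 / 100 := one_div_le_one_div_of_le (by norm_num) hx.1.le
  have h2 : 1 / ‖x - nuc (-D)‖ ≤ 1 / 100 := one_div_le_one_div_of_le (by norm_num) hx.2.le
  linarith

theorem measurable_V2' (D : ℝ) : Measurable (V2 D) := by
  unfold V2; fun_prop

/-- the difference of the weak equation and the pointwise inequality; `s = ±1` -/
theorem weak_diff {D e s : ℝ} {f b : Pos3 → ℝ} {df G : Pos3 → Pos3} {L : Pos3 → ℝ}
    (hf : H1 f df) (heq : ∀ k l, H1 k l → B2 D f df k l = e * ∫ x, f x * k x)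
    {U : Set Pos3} (hU : IsOpen U) (hUF : U ⊆ Far D 100) (hb : Jet U b G L)
    (hs : ∀ x ∈ U, 0 ≤ s * (-(1 / 2) * L x + (-e + V2 D x) * b x))
    {φ : Pos3 → ℝ} (hφ : Test U φ) (h0 : ∀ x, 0 ≤ φ x) :
    s * ((1 / 2) * (∫ x in U, inner ℝ (df x - G x) (gr φ x)) +
      ∫ x in U, (-e + V2 D x) * (f x - b x) * φ x) ≤ 0 := by
  have hφ' : Test univ φ := ⟨hφ.smooth, hφ.cpt, subset_univ _⟩
  have e1 := heq φ (gr φ) (H1.of_test hφ')
  unfold B2 at e1
  have i1 : Integrable (fun x => inner ℝ (df x) (gr φ x)) := XL.integrable_inner_gr hf.wg hφ'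
  have i2 : Integrable (fun x => inner ℝ (G x) (gr φ x)) := XL.integrable_inner_gr (hb.wg hU) hφ
  have i3 : Integrable (fun x => V2 D x * (f x * φ x)) :=
    V2_integrable D hf (H1.of_test hφ').memf
  have i4 : Integrable (fun x => f x * φ x) :=
    hf.memf.integrable_mul (H1.of_test hφ').memf
  have hVc : ContinuousOn (V2 D) U := by
    unfold V2
    refine ContinuousOn.sub (ContinuousOn.neg ?_) ?_
    · refine ContinuousOn.div continuousOn_const (by fun_prop) fun x hx => ?_
      have := (hUF hx).1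
      linarith
    · refine ContinuousOn.div continuousOn_const (by fun_prop) fun x hx => ?_
      have := (hUF hx).2
      linarith
  have hq : ContinuousOn (fun x => (-e + V2 D x) * b x) U :=
    (continuousOn_const.add hVc).mul hb.smooth.continuousOn
  have hqi : LocallyIntegrableOn (fun x => (-e + V2 D x) * b x) U volume :=
    hq.locallyIntegrableOn hU.measurableSet
  have i5 : Integrable (fun x => (-e + V2 D x) * b x * φ x) :=
    XL.integrable_mul_cpt hqi hφ.smooth.continuous hφ.cpt hφ.sub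
  have i6 : Integrable (fun x => L x * φ x) :=
    XL.integrable_mul_cpt (hb.locInt_lap hU) hφ.smooth.continuous hφ.cpt hφ.sub
  -- the inequality for the barrier
  have hb1 : 0 ≤ s * ((1 / 2) * (∫ x, inner ℝ (G x) (gr φ x)) +
      ∫ x, (-e + V2 D x) * b x * φ x) := by
    rw [hb.ibp hU hφ, mul_neg, ← neg_mul, ← integral_const_mul,
      ← integral_add (i6.const_mul _) i5, ← integral_const_mul]
    refine integral_nonneg fun x => ?_
    by_cases hx : x ∈ U
    · have := mul_nonneg (hs x hx) (h0 x)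
      show 0 ≤ s * (-(1 / 2) * (L x * φ x) + (-e + V2 D x) * b x * φ x)
      linarith
    · show 0 ≤ s * (-(1 / 2) * (L x * φ x) + (-e + V2 D x) * b x * φ x)
      rw [XL.eq_zero hφ hx]; simp
  -- set integrals
  have s1 : ∫ x in U, inner ℝ (df x - G x) (gr φ x) =
      (∫ x, inner ℝ (df x) (gr φ x)) - ∫ x, inner ℝ (G x) (gr φ x) := by
    rw [setIntegral_eq_integral_of_forall_compl_eq_zero fun x hx => by
      rw [XL.gr_eq_zero hφ hx, inner_zero_right], ← integral_sub i1 i2]
    exact integral_congr_ae (Eventually.of_forall fun x => inner_sub_left _ _ _)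
  have s2 : ∫ x in U, (-e + V2 D x) * (f x - b x) * φ x =
      (-e * (∫ x, f x * φ x) + ∫ x, V2 D x * (f x * φ x)) -
        ∫ x, (-e + V2 D x) * b x * φ x := by
    have i7 : Integrable (fun x => -e * (f x * φ x) + V2 D x * (f x * φ x)) :=
      (i4.const_mul _).add i3
    rw [setIntegral_eq_integral_of_forall_compl_eq_zero fun x hx => by
      rw [XL.eq_zero hφ hx, mul_zero], ← integral_const_mul,
      ← integral_add (i4.const_mul _) i3, ← integral_sub i7 i5]
    refine integral_congr_ae (Eventually.of_forall fun x => ?_)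
    show (-e + V2 D x) * (f x - b x) * φ x =
      -e * (f x * φ x) + V2 D x * (f x * φ x) - (-e + V2 D x) * b x * φ x
    ring
  rw [s1, s2]
  have e2 : (1 / 2) * ((∫ x, inner ℝ (df x) (gr φ x)) - ∫ x, inner ℝ (G x) (gr φ x)) +
      ((-e * (∫ x, f x * φ x) + ∫ x, V2 D x * (f x * φ x)) -
        ∫ x, (-e + V2 D x) * b x * φ x) =
      -((1 / 2) * (∫ x, inner ℝ (G x) (gr φ x)) + ∫ x, (-e + V2 D x) * b x * φ x) := by
    linear_combination e1
  rw [e2]
  linarith

/-- upper comparison -/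
theorem upper_cmp {D e : ℝ} (he : |e + 1 / 2| ≤ 1 / 20) {f b : Pos3 → ℝ} {df G : Pos3 → Pos3}
    {L : Pos3 → ℝ} (hf : H1 f df)
    (heq : ∀ k l, H1 k l → B2 D f df k l = e * ∫ x, f x * k x)
    {U : Set Pos3} (hU : IsOpen U) (hUF : U ⊆ Far D 100) (hb : Jet U b G L)
    (hb2 : MemLp b 2 (volume.restrict U)) (hG2 : MemLp G 2 (volume.restrict U))
    (hs : ∀ x ∈ U, 0 ≤ -(1 / 2) * L x + (-e + V2 D x) * b x)
    (hH : H10 U (U.indicator (ep f b)) (U.indicator (dep f b df G))) :
    ∀ᵐ x ∂(volume.restrict U), f x ≤ b x := by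
  rw [abs_le] at he
  refine cp hU (hf.memf.restrict U) hb2 (hf.memg.restrict U) hG2 (V := fun x => -e + V2 D x)
    (c₀ := 1 / 4) (M := 1) (by norm_num) ((measurable_V2' D).const_add _).aemeasurable ?_ ?_ ?_ hH
  · filter_upwards [ae_restrict_mem hU.measurableSet] with x hx
    have := V2_far (hUF hx)
    linarith
  · filter_upwards [ae_restrict_mem hU.measurableSet] with x hx
    have := V2_far (hUF hx)
    linarith
  · intro φ hφ h0
    have := weak_diff (s := 1) hf heq hU hUF hb (fun x hx => by rw [one_mul]; exact hs x hx) hφ h0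
    rwa [one_mul] at this

/-- lower comparison -/
theorem lower_cmp {D e : ℝ} (he : |e + 1 / 2| ≤ 1 / 20) {f b : Pos3 → ℝ} {df G : Pos3 → Pos3}
    {L : Pos3 → ℝ} (hf : H1 f df)
    (heq : ∀ k l, H1 k l → B2 D f df k l = e * ∫ x, f x * k x)
    {U : Set Pos3} (hU : IsOpen U) (hUF : U ⊆ Far D 100) (hb : Jet U b G L)
    (hb2 : MemLp b 2 (volume.restrict U)) (hG2 : MemLp G 2 (volume.restrict U))
    (hs : ∀ x ∈ U, -(1 / 2) * L x + (-e + V2 D x) * b x ≤ 0)
    (hH : H10 U (U.indicator (ep b f)) (U.indicator (dep b f G df))) :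
    ∀ᵐ x ∂(volume.restrict U), b x ≤ f x := by
  rw [abs_le] at he
  refine cp hU hb2 (hf.memf.restrict U) hG2 (hf.memg.restrict U) (V := fun x => -e + V2 D x)
    (c₀ := 1 / 4) (M := 1) (by norm_num) ((measurable_V2' D).const_add _).aemeasurable ?_ ?_ ?_ hH
  · filter_upwards [ae_restrict_mem hU.measurableSet] with x hx
    have := V2_far (hUF hx)
    linarith
  · filter_upwards [ae_restrict_mem hU.measurableSet] with x hx
    have := V2_far (hUF hx)
    linarith
  · intro φ hφ h0
    have h1 := weak_diff (s := -1) hf heq hU hUF hb (fun x hx => by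
      have := hs x hx; linarith) hφ h0
    have s1 : ∫ x in U, inner ℝ (G x - df x) (gr φ x) =
        -∫ x in U, inner ℝ (df x - G x) (gr φ x) := by
      rw [← integral_neg]
      refine integral_congr_ae (Eventually.of_forall fun x => ?_)
      show inner ℝ (G x - df x) (gr φ x) = -inner ℝ (df x - G x) (gr φ x)
      rw [← inner_neg_left, neg_sub]
    have s2 : ∫ x in U, (-e + V2 D x) * (b x - f x) * φ x =
        -∫ x in U, (-e + V2 D x) * (f x - b x) * φ x := by
      rw [← integral_neg]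
      refine integral_congr_ae (Eventually.of_forall fun x => ?_)
      show (-e + V2 D x) * (b x - f x) * φ x = -((-e + V2 D x) * (f x - b x) * φ x)
      ring
    rw [s1, s2]
    linarith

/-- an a.e. inequality between functions continuous on an open set -/
theorem le_of_ae {U : Set Pos3} (hU : IsOpen U) {f b : Pos3 → ℝ} (hf : ContinuousOn f U)
    (hb : ContinuousOn b U) (h : ∀ᵐ x ∂(volume.restrict U), f x ≤ b x) : ∀ x ∈ U, f x ≤ b x := by
  intro x hx
  by_contra hc
  push Not at hc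
  have hO : IsOpen (U ∩ (fun y => f y - b y) ⁻¹' Ioi 0) :=
    (hf.sub hb).isOpen_inter_preimage hU isOpen_Ioi
  have hpos : 0 < volume (U ∩ (fun y => f y - b y) ⁻¹' Ioi 0) :=
    hO.measure_pos volume ⟨x, hx, by simpa using hc⟩
  have h0 : volume (U ∩ (fun y => f y - b y) ⁻¹' Ioi 0) = 0 := by
    rw [ae_restrict_iff' hU.measurableSet] at h
    refine measure_mono_null (fun y hy => ?_) (ae_iff.1 h)
    simp only [mem_ofPred_eq, Classical.not_imp, not_le]
    exact ⟨hy.1, by simpa using hy.2⟩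
  exact hpos.ne' h0

theorem kap_sq {e : ℝ} (he : |e + 1 / 2| ≤ 1 / 20) : kap e ^ 2 = -2 * e := by
  rw [abs_le] at he
  unfold kap
  rw [Real.sq_sqrt (by linarith)]

theorem infDist_exists {x : Pos3} {S : Set Pos3} (hS : S.Nonempty) {δ : ℝ}
    (h : Metric.infDist x S < δ) : ∃ y ∈ S, ‖x - y‖ < δ := by
  obtain ⟨y, hy, hxy⟩ := (Metric.infDist_lt_iff hS).1 h
  exact ⟨y, hy, by rwa [dist_eq_norm] at hxy⟩

theorem rho_lt {x y a : Pos3} (h : ‖x - y‖ < 1) (hy : ‖y - a‖ ≤ 100) : ‖x - a‖ < 101 := by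
  have := norm_sub_le_norm_sub_add_norm_sub x y a
  linarith

theorem Em_101 {κ p σ t : ℝ} (h : MPar κ 2 p σ) (ht : 100 ≤ t) (ht' : t < 101) :
    (9 / 10) * Real.exp (-112) ≤ Em κ p σ t := by
  refine le_trans ?_ (Em_ge h ht)
  have h2 := h.k2
  norm_num at h2
  have : Real.exp (-112) ≤ Real.exp (-(κ * t)) := by
    apply Real.exp_le_exp.2
    nlinarith
  linarith

theorem Wm_nonneg {κ p : ℝ} (h : MPar κ 2 p 1) {t : ℝ} (ht : 100 ≤ t) : 0 ≤ XWm κ p 1 t := by
  rw [XWm_eq_eps h ht, one_mul]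
  exact mul_nonneg (epsm_nonneg h ht) (Em_pos h ht).le

theorem Wm_anti {κ p : ℝ} (h : MPar κ 2 p 1) {t t' : ℝ} (ht : 100 ≤ t) (htt : t ≤ t') :
    XWm κ p 1 t' ≤ XWm κ p 1 t := by
  rw [XWm_eq_eps h ht, XWm_eq_eps h (ht.trans htt), one_mul, one_mul]
  exact mul_le_mul (epsm_anti h ht htt) (Em_anti h ht htt) (Em_pos h (ht.trans htt)).le
    (epsm_nonneg h ht)

variable {D : ℝ} {g u : Pos3 → ℝ} {dg du : Pos3 → Pos3} {eg eu e3 : ℝ}

/-- the constant of the upper bounds -/
def upA (C0 : ℝ) : ℝ := 3 * Real.exp 112 * max C0 1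

theorem upA_pos (C0 : ℝ) : 0 < upA C0 := by
  unfold upA
  have : 0 < max C0 1 := lt_max_of_lt_right one_pos
  positivity

theorem upA_mul (C0 : ℝ) {v : ℝ} (hv : (9 / 20) * Real.exp (-112) ≤ v) : C0 ≤ upA C0 * v := by
  have h1 : 0 < max C0 1 := lt_max_of_lt_right one_pos
  have h2 : Real.exp 112 * Real.exp (-112) = 1 := by rw [← Real.exp_add]; norm_num
  calc C0 ≤ max C0 1 := le_max_left _ _
    _ ≤ 3 * (9 / 20) * max C0 1 * (Real.exp 112 * Real.exp (-112)) := by rw [h2]; linarith
    _ = upA C0 * ((9 / 20) * Real.exp (-112)) := by unfold upA; ring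
    _ ≤ upA C0 * v := by have := upA_pos C0; gcongr

/-- UPPER BOUND OF `g` away from the nuclei -/
theorem g_upper (hob : OneBody D g u dg du eg eu e3) (heg : |eg + 1 / 2| ≤ 1 / 20) {C0 : ℝ}
    (hC0 : ∀ x, g x ≤ C0) {x : Pos3} (hx : x ∈ Far D 100) :
    g x ≤ upA C0 * TC D (kap eg) (2 / kap eg - 1) 1 1 x := by
  obtain ⟨hk1, hk2⟩ := kap_bounds heg
  have hM : MPar (kap eg) 2 (2 / kap eg - 1) 1 := mpar hk1 hk2 (Or.inl rfl)
  have hks := kap_sq heg
  set κ := kap eg with hκ
  set p := 2 / κ - 1 with hp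
  set U := Far D 100 with hUdef
  have hU : IsOpen U := isOpen_Far D 100
  have hj := TC_jet D κ p 1 1 hU (t := 100) (by norm_num) le_rfl
  have hj' := hj.const_mul hU (upA C0)
  have hA := upA_pos C0
  have m1 := (TC_memLp hM (τ := 1) (by norm_num) hU le_rfl).const_mul (upA C0)
  have m2 := (dTC_memLp hM (τ := 1) (by norm_num) hU le_rfl).const_smul (upA C0)
  have hsup : ∀ y ∈ U, 0 ≤ -(1 / 2) * (upA C0 * lTC D κ p 1 1 y) +
      (-eg + V2 D y) * (upA C0 * TC D κ p 1 1 y) := fun y hy => by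
    have h1 := two_id (D := D) (σ := 1) (τ := 1) hM.hp (x := y) (by linarith [hy.1])
      (by linarith [hy.2])
    have h2 : -(1 / 2) * (upA C0 * lTC D κ p 1 1 y) +
        (-eg + V2 D y) * (upA C0 * TC D κ p 1 1 y) =
        upA C0 * (-(1 / 2) * lTC D κ p 1 1 y + (κ ^ 2 / 2 + V2 D y) * TC D κ p 1 1 y) := by
      rw [hks]; ring
    rw [h2, h1]
    refine mul_nonneg hA.le (add_nonneg ?_ ?_)
    · rw [one_mul]
      rcases le_total ‖y - nuc D‖ ‖y - nuc (-D)‖ with h | h
      · have a1 := one_div_le_one_div_of_le (by linarith [hy.1]) h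
        have a2 := Em_anti hM hy.1.le h
        exact mul_nonneg (by linarith) (by linarith)
      · have a1 := one_div_le_one_div_of_le (by linarith [hy.2]) h
        have a2 := Em_anti hM hy.2.le h
        exact mul_nonneg_of_nonpos_of_nonpos (by linarith) (by linarith)
    · have a1 := Wm_nonneg hM hy.1.le
      have a2 := Wm_nonneg hM hy.2.le
      linarith
  have hne : (Uᶜ : Set Pos3).Nonempty := ⟨nuc D, fun h => by
    have := h.1; rw [sub_self, norm_zero] at this; linarith⟩
  have hH := H10.ep_ext hU (s := g) (ds := dg) (hob.hg.wg.mono (subset_univ _)) (hj'.wg hU)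
    (hob.hg.memf.restrict U) m1 (hob.hg.memg.restrict U) m2 one_pos
    (Eventually.of_forall fun y hy hd => by
      obtain ⟨w, hw, hyw⟩ := infDist_exists hne hd
      refine (hC0 y).trans (upA_mul C0 ?_)
      have e1 := Em_pos hM hy.1.le
      have e2 := Em_pos hM hy.2.le
      unfold TC
      have hw' : ‖w - nuc D‖ ≤ 100 ∨ ‖w - nuc (-D)‖ ≤ 100 := by
        by_contra hc
        push Not at hc
        exact hw hc
      have e3 := Real.exp_pos (-112)
      rcases hw' with h | h
      · have := Em_101 hM hy.1.le (rho_lt hyw h)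
        linarith
      · have := Em_101 hM hy.2.le (rho_lt hyw h)
        linarith)
  have hae := upper_cmp heg hob.hg hob.g_eq hU le_rfl hj' m1 m2 hsup hH
  exact le_of_ae hU hob.cg.continuousOn hj'.smooth.continuousOn hae x hx

theorem rz_eq_rfl' (x : Pos3) : rz x = rfl' 2 x := by
  ext i; rw [rz_apply, rfl'_apply]

theorem two_D_le (D : ℝ) (x : Pos3) : 2 * D ≤ ‖x - nuc D‖ + ‖x - nuc (-D)‖ := by
  have h1 : ‖nuc D - nuc (-D)‖ ≤ ‖x - nuc D‖ + ‖x - nuc (-D)‖ := by
    have := norm_sub_le_norm_sub_add_norm_sub (nuc D) x (nuc (-D))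
    rwa [norm_sub_rev (nuc D) x] at this
  have h2 : nuc D - nuc (-D) = nuc (2 * D) := by
    ext i; simp [nuc_apply]; split_ifs <;> ring
  rw [h2, norm_nuc] at h1
  exact (le_abs_self _).trans h1

/-- the upper half of the far region -/
def FarH (D t : ℝ) : Set Pos3 := {x | t < ‖x - nuc D‖ ∧ 0 < x 2}

theorem isOpen_FarH (D t : ℝ) : IsOpen (FarH D t) := by
  have h1 : IsOpen {x : Pos3 | t < ‖x - nuc D‖} := isOpen_lt continuous_const (by fun_prop)
  have h2 : IsOpen {x : Pos3 | 0 < x 2} := isOpen_half 2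
  exact h1.inter h2

theorem FarH_sub {D t : ℝ} (hD : 0 ≤ D) : FarH D t ⊆ Far D t := fun _ hx =>
  ⟨hx.1, hx.1.trans_le (rho_le hD hx.2.le)⟩

theorem exp_neg_one_le : Real.exp (-1) ≤ 1 / 2 := by
  have := Real.exp_one_gt_d9
  rw [Real.exp_neg, ← one_div]
  exact one_div_le_one_div_of_le (by norm_num) (by linarith)

/-- UPPER BOUND OF `u` in the upper half space, away from the nucleus -/
theorem u_upper (hob : OneBody D g u dg du eg eu e3) (hD : 102 ≤ D) (heu : |eu + 1 / 2| ≤ 1 / 20)
    {C0 : ℝ} (hC0 : ∀ x, |u x| ≤ C0) {x : Pos3} (hx : 100 < ‖x - nuc D‖) (hx2 : 0 < x 2) :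
    u x ≤ upA C0 * TC D (kap eu) (2 / kap eu - 1) 1 (-1) x := by
  obtain ⟨hk1, hk2⟩ := kap_bounds heu
  have hM : MPar (kap eu) 2 (2 / kap eu - 1) 1 := mpar hk1 hk2 (Or.inl rfl)
  have hks := kap_sq heu
  set κ := kap eu with hκ
  set p := 2 / κ - 1 with hp
  set U := FarH D 100 with hUdef
  have hD0 : 0 ≤ D := by linarith
  have hU : IsOpen U := isOpen_FarH D 100
  have hUF : U ⊆ Far D 100 := FarH_sub hD0
  have hj := TC_jet D κ p 1 (-1) hU (t := 100) (by norm_num) hUF
  have hj' := hj.const_mul hU (upA C0)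
  have hA := upA_pos C0
  have m1 := (TC_memLp hM (τ := -1) (by norm_num) hU hUF).const_mul (upA C0)
  have m2 := (dTC_memLp hM (τ := -1) (by norm_num) hU hUF).const_smul (upA C0)
  have hsup : ∀ y ∈ U, 0 ≤ -(1 / 2) * (upA C0 * lTC D κ p 1 (-1) y) +
      (-eu + V2 D y) * (upA C0 * TC D κ p 1 (-1) y) := fun y hy => by
    have hyF := hUF hy
    have h1 := two_id (D := D) (σ := 1) (τ := -1) hM.hp (x := y) (by linarith [hyF.1])
      (by linarith [hyF.2])
    have h2 : -(1 / 2) * (upA C0 * lTC D κ p 1 (-1) y) +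
        (-eu + V2 D y) * (upA C0 * TC D κ p 1 (-1) y) =
        upA C0 * (-(1 / 2) * lTC D κ p 1 (-1) y + (κ ^ 2 / 2 + V2 D y) *
          TC D κ p 1 (-1) y) := by
      rw [hks]; ring
    rw [h2, h1]
    have h := rho_le hD0 hy.2.le
    have a1 := one_div_le_one_div_of_le (by linarith [hyF.1]) h
    have a2 := Em_pos hM hyF.1.le
    have a3 := Em_pos hM hyF.2.le
    have a4 := Wm_anti hM hyF.1.le h
    refine mul_nonneg hA.le (add_nonneg (mul_nonneg (by linarith) (by linarith)) (by linarith))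
  have hb0 : ∀ y ∈ U, 0 ≤ upA C0 * TC D κ p 1 (-1) y := fun y hy => by
    refine mul_nonneg hA.le ?_
    unfold TC
    have := Em_anti hM (hUF hy).1.le (rho_le hD0 hy.2.le)
    linarith
  have hodd : ∀ᵐ y : Pos3, u (rfl' 2 y) = - u y := Eventually.of_forall fun y => by
    rw [← rz_eq_rfl']; exact hob.u_odd y
  have hP := H10.half_of_odd 2 hob.hu hodd
  have hne : ({y : Pos3 | 0 < y 2} \ U).Nonempty := ⟨nuc D, by
    show 0 < nuc D 2
    rw [nuc_apply]; simp; linarith, fun h => by
    have := h.1; rw [sub_self, norm_zero] at this; linarith⟩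
  have hH := H10.ep_half (isOpen_half 2) hU (fun y hy => hy.2) hP (hj'.wg hU) m1 m2
    (Eventually.of_forall hb0) one_pos (Eventually.of_forall fun y hy hd => by
      obtain ⟨w, hw, hyw⟩ := infDist_exists hne hd
      have hw' : ‖w - nuc D‖ ≤ 100 := by
        by_contra hc
        push Not at hc
        exact hw.2 ⟨hc, hw.1⟩
      have hlt := rho_lt hyw hw'
      rw [if_pos hy.2]
      refine ((le_abs_self _).trans (hC0 y)).trans (upA_mul C0 ?_)
      have e1 := Em_101 hM (hUF hy).1.le hlt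
      have e2 : Em κ p 1 ‖y - nuc (-D)‖ ≤ (1 / 2) * Em κ p 1 ‖y - nuc D‖ := by
        have h1 := Em_decay hM (hUF hy).1.le (rho_le hD0 hy.2.le)
        have h2 := two_D_le D y
        have h3 : Real.exp (-(0.98 * κ * (‖y - nuc (-D)‖ - ‖y - nuc D‖))) ≤ 1 / 2 := by
          refine le_trans (Real.exp_le_exp.2 ?_) exp_neg_one_le
          norm_num
          nlinarith
        have h4 := Em_pos hM (hUF hy).1.le
        nlinarith
      unfold TC
      linarith)
  have e1 : U.indicator (ep (fun x => if 0 < x 2 then u x else 0)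
      fun x => upA C0 * TC D κ p 1 (-1) x) =
      U.indicator (ep u fun x => upA C0 * TC D κ p 1 (-1) x) := by
    refine indicator_congr fun y hy => ?_
    unfold ep
    have : 0 < y 2 := hy.2
    simp only [this, if_true]
  have e2 : U.indicator (dep (fun x => if 0 < x 2 then u x else 0)
      (fun x => upA C0 * TC D κ p 1 (-1) x) (fun x => if 0 < x 2 then du x else 0)
      fun x => upA C0 • dTC D κ p 1 (-1) x) =
      U.indicator (dep u (fun x => upA C0 * TC D κ p 1 (-1) x) du
        fun x => upA C0 • dTC D κ p 1 (-1) x) := by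
    refine indicator_congr fun y hy => ?_
    unfold dep
    have : 0 < y 2 := hy.2
    simp only [this, if_true]
  rw [e1, e2] at hH
  have hae := upper_cmp heu hob.hu hob.u_eq hU hUF hj' m1 m2 hsup hH
  exact le_of_ae hU hob.cu.continuousOn hj'.smooth.continuousOn hae x ⟨hx, hx2⟩

end OG
end Crest.Agent.R335
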