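import Crest.Agent.R335.PMult

/-!
Row 335 (S0521), Part C (helper801): the angle `α = al s w = arcsin (w / s)` of a pair,
`s sin α = w`, `s cos α = U`, `s² ∇α = U ∇w - w ∇U = -J`.
-/

set_option autoImplicit false
set_option linter.unusedVariables false

open MeasureTheory Filter Set Crest.MathPhysics.ThreeBody
open scoped ENNReal Topology ContDiff

noncomputable section
namespace Crest.Agent.R335

theorem PJ.wg_const (c : ℝ) : WG (univ : Set Pos3) (fun _ => c) (fun _ => 0) := by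
  have h := WG.of_contDiffOn isOpen_univ (f := fun _ : Pos3 => c) contDiffOn_const
  have e : gr (fun _ : Pos3 => c) = fun _ => 0 := by
    funext x
    ext i
    simp [pd]
  rwa [e] at h

theorem PJ.wg_recip {U : Set Pos3} (hU : IsOpen U) {f : Pos3 → ℝ} {g : Pos3 → Pos3}
    (h : WG U f g) {c : ℝ} (hc : 0 < c) (hf : ∀ x, c ≤ f x) :
    WG U (fun x => 1 / f x) (fun x => (-(1 / f x ^ 2)) • g x) := by
  refine h.comp_on hU (F := fun t => 1 / t) (F' := fun t => -(1 / t ^ 2)) (a := (c : EReal))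
    (b := ⊤) (C := 1 / c ^ 2) ?_ ?_ ?_ ?_
  · exact Eventually.of_forall fun x => ⟨by exact_mod_cast hf x, le_top⟩
  · intro t ht _
    have ht' : c ≤ t := by exact_mod_cast ht
    have ht0 : t ≠ 0 := (hc.trans_le ht').ne'
    have := (hasDerivAt_inv ht0)
    simp only [one_div]
    exact this
  · refine ContinuousOn.neg (ContinuousOn.div continuousOn_const (by fun_prop) ?_)
    intro t ht
    have ht' : c ≤ t := by exact_mod_cast ht.1
    have ht0 : t ≠ 0 := (hc.trans_le ht').ne'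
    positivity
  · intro t ht _
    have ht' : c ≤ t := by exact_mod_cast ht
    rw [abs_neg, abs_of_nonneg (by positivity)]
    exact one_div_le_one_div_of_le (by positivity) (pow_le_pow_left₀ hc.le ht' 2)

/-- the angle: `s sin α = w`, `s cos α = U`; `H = π/2 - α` -/
def al (s w : Pos3 → ℝ) (x : Pos3) : ℝ := Real.arcsin (w x / s x)

/-- its weak gradient `s⁻² (U ∇w - w ∇U) = - s⁻² J` -/
def gal (s U : Pos3 → ℝ) (gU : Pos3 → Pos3) (w : Pos3 → ℝ) (gw : Pos3 → Pos3) (x : Pos3) : Pos3 :=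
  (1 / s x ^ 2) • (U x • gw x - w x • gU x)

/-- hypotheses for the angle -/
structure AngP (s U : Pos3 → ℝ) (gU : Pos3 → Pos3) (w : Pos3 → ℝ) (gw : Pos3 → Pos3) : Prop where
  sc : Continuous s
  sp : ∀ x, 0 < s x
  hU : H1 U gU
  hw : H1 w gw
  sq : ∀ x, U x ^ 2 + w x ^ 2 = s x ^ 2
  U0 : ∀ x, 0 ≤ U x

theorem Pair.angP {s U w : Pos3 → ℝ} {gs gU gw : Pos3 → Pos3} {om : ℝ} (hs : Amp s gs)
    (hp : Pair s U gU w gw om) : AngP s U gU w gw :=
  ⟨hs.cont, hs.pos, hp.adm.hU, hp.adm.hw, hp.adm.sq, hp.U0⟩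

namespace AngP
variable {s U w : Pos3 → ℝ} {gU gw : Pos3 → Pos3}

theorem abs_w_le (h : AngP s U gU w gw) (x : Pos3) : |w x| ≤ s x := by
  have := h.sq x
  exact abs_le_of_sq_le_sq (by nlinarith [sq_nonneg (U x)]) (h.sp x).le

theorem abs_quot_le (h : AngP s U gU w gw) (x : Pos3) : |w x / s x| ≤ 1 := by
  rw [abs_div, abs_of_pos (h.sp x)]
  exact div_le_one_of_le₀ (h.abs_w_le x) (h.sp x).le

theorem sin_al (h : AngP s U gU w gw) (x : Pos3) : s x * Real.sin (al s w x) = w x := by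
  have h1 := abs_le.1 (h.abs_quot_le x)
  unfold al
  rw [Real.sin_arcsin h1.1 h1.2]
  field_simp [(h.sp x).ne']

theorem cos_al (h : AngP s U gU w gw) (x : Pos3) : s x * Real.cos (al s w x) = U x := by
  have hs := h.sp x
  unfold al
  rw [Real.cos_arcsin]
  have e : 1 - (w x / s x) ^ 2 = (U x / s x) ^ 2 := by
    have := h.sq x
    field_simp
    linarith
  rw [e, Real.sqrt_sq (div_nonneg (h.U0 x) hs.le)]
  field_simp

theorem abs_al_le (x : Pos3) : |al s w x| ≤ Real.pi / 2 :=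
  abs_le.2 ⟨Real.neg_pi_div_two_le_arcsin _, Real.arcsin_le_pi_div_two _⟩

theorem al_nonneg (h : AngP s U gU w gw) {x : Pos3} (hx : 0 ≤ w x) : 0 ≤ al s w x :=
  Real.arcsin_nonneg.2 (div_nonneg hx (h.sp x).le)

theorem al_odd (hs : ∀ x, s (rz x) = s x) (hw : ∀ x, w (rz x) = - w x) (x : Pos3) :
    al s w (rz x) = - al s w x := by
  unfold al
  rw [hs, hw, neg_div, Real.arcsin_neg]

theorem arctan_eq (h : AngP s U gU w gw) (x : Pos3) {ε : ℝ} (hε : 0 < ε) :
    Real.arctan (w x * (1 / (U x + ε))) = Real.arcsin (w x / √((U x + ε) ^ 2 + w x ^ 2)) := by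
  have hp : 0 < U x + ε := by linarith [h.U0 x]
  rw [Real.arctan_eq_arcsin]
  congr 1
  have e : 1 + (w x * (1 / (U x + ε))) ^ 2 = ((U x + ε) ^ 2 + w x ^ 2) / (U x + ε) ^ 2 := by
    field_simp
  rw [e, Real.sqrt_div' _ (sq_nonneg _), Real.sqrt_sq hp.le]
  have hq : 0 < √((U x + ε) ^ 2 + w x ^ 2) := Real.sqrt_pos.2 (by positivity)
  field_simp

theorem tendsto_eps : Tendsto (fun n : ℕ => 1 / ((n : ℝ) + 1)) atTop (𝓝 0) :=
  tendsto_one_div_add_atTop_nhds_zero_nat

theorem sqrt_eq (h : AngP s U gU w gw) (x : Pos3) : √(U x ^ 2 + w x ^ 2) = s x := by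
  rw [h.sq, Real.sqrt_sq (h.sp x).le]

theorem tendsto_al (h : AngP s U gU w gw) (x : Pos3) :
    Tendsto (fun n : ℕ => Real.arctan (w x * (1 / (U x + 1 / ((n : ℝ) + 1))))) atTop
      (𝓝 (al s w x)) := by
  have e : (fun n : ℕ => Real.arctan (w x * (1 / (U x + 1 / ((n : ℝ) + 1))))) =
      fun n : ℕ => Real.arcsin (w x / √((U x + 1 / ((n : ℝ) + 1)) ^ 2 + w x ^ 2)) := by
    funext n
    exact h.arctan_eq x (by positivity)
  rw [e]
  have hc : ContinuousAt (fun ε : ℝ => Real.arcsin (w x / √((U x + ε) ^ 2 + w x ^ 2))) 0 := by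
    refine Real.continuous_arcsin.continuousAt.comp ?_
    refine ContinuousAt.div continuousAt_const (by fun_prop) ?_
    simp only [add_zero]
    rw [h.sqrt_eq]
    exact (h.sp x).ne'
  have := hc.tendsto.comp tendsto_eps
  simp only [add_zero, h.sqrt_eq] at this
  exact this

/-- `∇ arctan(w/(U+ε))` -/
def ggn (U : Pos3 → ℝ) (gU : Pos3 → Pos3) (w : Pos3 → ℝ) (gw : Pos3 → Pos3) (ε : ℝ)
    (x : Pos3) : Pos3 :=
  (1 / ((U x + ε) ^ 2 + w x ^ 2)) • ((U x + ε) • gw x - w x • gU x)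

theorem wg_n (h : AngP s U gU w gw) {ε : ℝ} (hε : 0 < ε) :
    WG univ (fun x => Real.arctan (w x * (1 / (U x + ε)))) (ggn U gU w gw ε) := by
  have h1 : WG univ (fun x => U x + ε) (fun x => gU x + 0) :=
    WG.add h.hU.wg (PJ.wg_const ε) isOpen_univ
  have h2 := PJ.wg_recip isOpen_univ h1 hε (fun x => by linarith [h.U0 x])
  have b1 : ∀ x, |1 / (U x + ε)| ≤ 1 / ε := by
    intro x
    have hp : 0 < U x + ε := by linarith [h.U0 x]
    rw [abs_of_pos (by positivity)]
    exact one_div_le_one_div_of_le hε (by linarith [h.U0 x])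
  have hUm := h.hU.memf.aestronglyMeasurable
  have hwm := h.hw.memf.aestronglyMeasurable
  have hgU := h.hU.memg.aestronglyMeasurable
  have hgw := h.hw.memg.aestronglyMeasurable
  have hrm : AEStronglyMeasurable (fun x => 1 / (U x + ε)) volume := (WG.aesm h2).1
  have l1 : LocallyIntegrableOn (fun x => w x * (1 / (U x + ε))) univ volume := by
    rw [locallyIntegrableOn_univ]
    have : MemLp (fun x => w x * (1 / (U x + ε))) 2 volume := by
      refine MemLp.of_le_mul (c := 1 / ε) h.hw.memf (hwm.mul hrm)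
        (Eventually.of_forall fun x => ?_)
      rw [norm_mul, mul_comm]
      exact mul_le_mul_of_nonneg_right (b1 x) (norm_nonneg _)
    exact this.locallyIntegrable (by norm_num)
  have l2 : LocallyIntegrableOn (fun x => w x • ((-(1 / (U x + ε) ^ 2)) • (gU x + 0))) univ
      volume := by
    rw [locallyIntegrableOn_univ]
    refine Integrable.locallyIntegrable ?_
    have i := (PJ.int_norm_le h.hw.memf h.hU.memg).1
    refine (i.const_mul (1 / ε ^ 2)).mono' (hwm.smul (WG.aesm h2).2)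
      (Eventually.of_forall fun x => ?_)
    have hp : 0 < U x + ε := by linarith [h.U0 x]
    have hpp : 0 < 1 / (U x + ε) ^ 2 := by positivity
    rw [norm_smul, norm_smul, add_zero, Real.norm_eq_abs, Real.norm_eq_abs, abs_neg,
      abs_of_pos hpp]
    have : 1 / (U x + ε) ^ 2 ≤ 1 / ε ^ 2 :=
      one_div_le_one_div_of_le (by positivity) (pow_le_pow_left₀ hε.le (by linarith [h.U0 x]) 2)
    calc |w x| * (1 / (U x + ε) ^ 2 * ‖gU x‖) ≤ |w x| * (1 / ε ^ 2 * ‖gU x‖) := by gcongr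
      _ = 1 / ε ^ 2 * (|w x| * ‖gU x‖) := by ring
  have l3 : LocallyIntegrableOn (fun x => (1 / (U x + ε)) • gw x) univ volume := by
    rw [locallyIntegrableOn_univ]
    have : MemLp (fun x => (1 / (U x + ε)) • gw x) 2 volume := by
      refine MemLp.of_le_mul (c := 1 / ε) h.hw.memg (hrm.smul hgw)
        (Eventually.of_forall fun x => ?_)
      rw [norm_smul]
      exact mul_le_mul_of_nonneg_right (b1 x) (norm_nonneg _)
    exact this.locallyIntegrable (by norm_num)
  have h3 := WG.mul isOpen_univ h.hw.wg h2 l1 l2 l3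
  have h4 := WG.comp isOpen_univ h3 (F := Real.arctan) Real.contDiff_arctan (C := 1) (fun t => by
    rw [Real.deriv_arctan, abs_of_nonneg (by positivity)]
    rw [div_le_one (by positivity)]
    nlinarith [sq_nonneg t])
  refine WG.congr isOpen_univ h4 (ae_eq_refl _) (Eventually.of_forall fun x => ?_)
  have hp : 0 < U x + ε := by linarith [h.U0 x]
  show deriv Real.arctan (w x * (1 / (U x + ε))) •
    (w x • ((-(1 / (U x + ε) ^ 2)) • (gU x + 0)) + (1 / (U x + ε)) • gw x) = ggn U gU w gw ε x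
  rw [Real.deriv_arctan]
  unfold ggn
  rw [add_zero, smul_add, smul_smul, smul_smul, smul_smul, smul_sub, smul_smul, smul_smul,
    sub_eq_add_neg, ← neg_smul, add_comm]
  congr 2 <;> field_simp

theorem ggn_norm (h : AngP s U gU w gw) {ε : ℝ} (hε : 0 < ε) (x : Pos3) :
    ‖ggn U gU w gw ε x‖ ≤ (1 / s x) * (‖gU x‖ + ‖gw x‖) := by
  have hs := h.sp x
  have hU := h.U0 x
  have hp : 0 < U x + ε := by linarith
  set Q := (U x + ε) ^ 2 + w x ^ 2 with hQ
  have hQ0 : 0 < Q := by positivity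
  have hq : 0 < √Q := Real.sqrt_pos.2 hQ0
  have hqs : √Q ^ 2 = Q := Real.sq_sqrt hQ0.le
  have hsq : s x ≤ √Q := by
    refine Real.le_sqrt_of_sq_le ?_
    rw [← h.sq x, hQ]
    nlinarith
  have h1 : U x + ε ≤ √Q := Real.le_sqrt_of_sq_le (by rw [hQ]; nlinarith [sq_nonneg (w x)])
  have h2 : |w x| ≤ √Q := by
    refine Real.le_sqrt_of_sq_le ?_
    rw [hQ, sq_abs]; nlinarith [sq_nonneg (U x + ε)]
  unfold ggn
  rw [norm_smul, Real.norm_eq_abs, abs_of_pos (by positivity)]
  have h3 : ‖(U x + ε) • gw x - w x • gU x‖ ≤ √Q * (‖gU x‖ + ‖gw x‖) := by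
    refine (norm_sub_le _ _).trans ?_
    rw [norm_smul, norm_smul, Real.norm_eq_abs, Real.norm_eq_abs, abs_of_pos hp]
    nlinarith [mul_le_mul_of_nonneg_right h1 (norm_nonneg (gw x)),
      mul_le_mul_of_nonneg_right h2 (norm_nonneg (gU x))]
  have h4 : 0 ≤ ‖gU x‖ + ‖gw x‖ := by positivity
  calc 1 / Q * ‖(U x + ε) • gw x - w x • gU x‖ ≤ 1 / Q * (√Q * (‖gU x‖ + ‖gw x‖)) := by gcongr
    _ = (1 / √Q) * (‖gU x‖ + ‖gw x‖) := by
        have e1 : 1 / Q * √Q = 1 / √Q := by
          rw [div_mul_eq_mul_div, one_mul, div_eq_div_iff hQ0.ne' hq.ne', one_mul]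
          exact Real.mul_self_sqrt hQ0.le
        rw [← mul_assoc, e1]
    _ ≤ (1 / s x) * (‖gU x‖ + ‖gw x‖) := by gcongr

theorem tendsto_ggn (h : AngP s U gU w gw) (x : Pos3) :
    Tendsto (fun n : ℕ => ggn U gU w gw (1 / ((n : ℝ) + 1)) x) atTop (𝓝 (gal s U gU w gw x)) := by
  have hc : ContinuousAt (fun ε : ℝ => ggn U gU w gw ε x) 0 := by
    unfold ggn
    have c1 : ContinuousAt (fun ε : ℝ => (U x + ε) • gw x - w x • gU x) 0 := by
      have : Continuous (fun ε : ℝ => (U x + ε) • gw x - w x • gU x) := by fun_prop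
      exact this.continuousAt
    have c2 : ContinuousAt (fun ε : ℝ => 1 / ((U x + ε) ^ 2 + w x ^ 2)) 0 := by
      refine ContinuousAt.div continuousAt_const (by fun_prop) ?_
      simp only [add_zero]
      rw [h.sq]
      exact (pow_pos (h.sp x) 2).ne'
    exact ContinuousAt.smul c2 c1
  have := hc.tendsto.comp tendsto_eps
  have e : ggn U gU w gw 0 x = gal s U gU w gw x := by
    unfold ggn gal
    rw [add_zero, h.sq]
  rw [e] at this
  exact this

theorem locInt (h : AngP s U gU w gw) :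
    LocallyIntegrableOn (fun x => (1 / s x) * (‖gU x‖ + ‖gw x‖)) univ volume := by
  have hc : Continuous (fun x => 1 / s x) := continuous_const.div h.sc fun x => (h.sp x).ne'
  have hi : LocallyIntegrableOn (fun x => ‖gU x‖ + ‖gw x‖) univ volume := by
    rw [locallyIntegrableOn_univ]
    have : MemLp (fun x => ‖gU x‖ + ‖gw x‖) 2 volume := h.hU.memg.norm.add h.hw.memg.norm
    exact this.locallyIntegrable (by norm_num)
  exact locallyIntegrableOn_smul_continuous hc hi

/-- the weak gradient of the angle -/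
theorem wg (h : AngP s U gU w gw) : WG univ (al s w) (gal s U gU w gw) := by
  refine WG.of_dominated isOpen_univ
    (fn := fun n x => Real.arctan (w x * (1 / (U x + 1 / ((n : ℝ) + 1)))))
    (gn := fun n => ggn U gU w gw (1 / ((n : ℝ) + 1))) (a := fun _ => Real.pi / 2)
    (b := fun x => (1 / s x) * (‖gU x‖ + ‖gw x‖)) (fun n => h.wg_n (by positivity)) ?_ h.locInt ?_
    ?_ (Eventually.of_forall fun x => h.tendsto_al x)
    (Eventually.of_forall fun x => h.tendsto_ggn x)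
  · exact (locallyIntegrable_const _).locallyIntegrableOn _
  · intro n
    refine Eventually.of_forall fun x => ?_
    rw [Real.norm_eq_abs]
    exact abs_le.2 ⟨(Real.neg_pi_div_two_lt_arctan _).le, (Real.arctan_lt_pi_div_two _).le⟩
  · intro n
    exact Eventually.of_forall fun x => h.ggn_norm (by positivity) x

theorem norm_gal_le (h : AngP s U gU w gw) (x : Pos3) :
    ‖gal s U gU w gw x‖ ≤ (1 / s x) * (‖gU x‖ + ‖gw x‖) :=
  le_of_tendsto (h.tendsto_ggn x).norm (Eventually.of_forall fun n => h.ggn_norm (by positivity) x)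

theorem sq_smul_gal (h : AngP s U gU w gw) (x : Pos3) :
    (s x ^ 2) • gal s U gU w gw x = - J U gU w gw x := by
  unfold gal J
  rw [smul_smul, mul_one_div_cancel (pow_pos (h.sp x) 2).ne', one_smul]
  abel

theorem sq_sin_two (h : AngP s U gU w gw) (x : Pos3) :
    s x ^ 2 * Real.sin (2 * al s w x) = 2 * (U x * w x) := by
  rw [Real.sin_two_mul, ← h.sin_al x, ← h.cos_al x]
  ring

theorem norm_sq_gal (h : AngP s U gU w gw) (x : Pos3) :
    s x ^ 2 * ‖gal s U gU w gw x‖ ^ 2 = ‖J U gU w gw x‖ ^ 2 / s x ^ 2 := by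
  have hs := h.sp x
  have e := h.sq_smul_gal x
  have e1 : ‖J U gU w gw x‖ = s x ^ 2 * ‖gal s U gU w gw x‖ := by
    rw [← norm_neg, ← e, norm_smul, Real.norm_eq_abs, abs_of_nonneg (sq_nonneg _)]
  rw [e1]
  field_simp

theorem aesm_al (h : AngP s U gU w gw) : AEStronglyMeasurable (al s w) volume := (WG.aesm h.wg).1

theorem aesm_gal (h : AngP s U gU w gw) : AEStronglyMeasurable (gal s U gU w gw) volume :=
  (WG.aesm h.wg).2

/-- `s ∇α ∈ L²` -/
theorem memLp_s_gal (h : AngP s U gU w gw) :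
    MemLp (fun x => s x • gal s U gU w gw x) 2 volume := by
  have h0 : MemLp (fun x => ‖gU x‖ + ‖gw x‖) 2 volume := h.hU.memg.norm.add h.hw.memg.norm
  refine h0.mono (h.sc.aestronglyMeasurable.smul h.aesm_gal) (Eventually.of_forall fun x => ?_)
  have hs := h.sp x
  rw [norm_smul, Real.norm_eq_abs, Real.norm_eq_abs, abs_of_pos hs,
    abs_of_nonneg (by positivity : 0 ≤ ‖gU x‖ + ‖gw x‖)]
  calc s x * ‖gal s U gU w gw x‖ ≤ s x * ((1 / s x) * (‖gU x‖ + ‖gw x‖)) := by
        gcongr; exact h.norm_gal_le x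
    _ = ‖gU x‖ + ‖gw x‖ := by field_simp

/-- lower bound of `s` on balls -/
theorem low (h : AngP s U gU w gw) (R : ℝ) : ∃ c : ℝ, 0 < c ∧ ∀ x : Pos3, ‖x‖ ≤ R → c ≤ s x := by
  by_cases hR : 0 ≤ R
  · obtain ⟨x0, _, hx0⟩ := (isCompact_closedBall (0 : Pos3) R).exists_isMinOn
      ⟨0, by simpa using hR⟩ h.sc.continuousOn
    exact ⟨s x0, h.sp x0, fun x hx => hx0 (by simpa using hx)⟩
  · exact ⟨1, one_pos, fun x hx => absurd ((norm_nonneg x).trans hx) hR⟩

/-- `∇α ∈ L²` on balls -/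
theorem memLp_gal (h : AngP s U gU w gw) (R : ℝ) :
    MemLp (gal s U gU w gw) 2 (volume.restrict (Metric.closedBall 0 R)) := by
  obtain ⟨c, hc, hcs⟩ := h.low R
  have h0 : MemLp (fun x => ‖gU x‖ + ‖gw x‖) 2 (volume.restrict (Metric.closedBall 0 R)) :=
    (h.hU.memg.norm.add h.hw.memg.norm).restrict _
  refine MemLp.of_le_mul (c := 1 / c) h0 h.aesm_gal.restrict ?_
  rw [ae_restrict_iff' Metric.isClosed_closedBall.measurableSet]
  refine Eventually.of_forall fun x hx => ?_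
  have hx' : ‖x‖ ≤ R := by simpa using hx
  rw [Real.norm_eq_abs, abs_of_nonneg (by positivity : 0 ≤ ‖gU x‖ + ‖gw x‖)]
  refine (h.norm_gal_le x).trans ?_
  have := hcs x hx'
  gcongr

/-- Euler-Lagrange equation in terms of the angle -/
theorem el_of {om : ℝ} (h : AngP s U gU w gw) {ψ : Pos3 → ℝ} {gψ : Pos3 → Pos3}
    (he : ∫ x, inner ℝ (J U gU w gw x) (gψ x) = - (2 * om) * ∫ x, U x * w x * ψ x) :
    ∫ x, s x ^ 2 * inner ℝ (gal s U gU w gw x) (gψ x) =
      om * ∫ x, s x ^ 2 * Real.sin (2 * al s w x) * ψ x := by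
  have e1 : ∫ x, s x ^ 2 * inner ℝ (gal s U gU w gw x) (gψ x) =
      - ∫ x, inner ℝ (J U gU w gw x) (gψ x) := by
    rw [← integral_neg]
    refine integral_congr_ae (Eventually.of_forall fun x => ?_)
    show s x ^ 2 * inner ℝ (gal s U gU w gw x) (gψ x) = - inner ℝ (J U gU w gw x) (gψ x)
    rw [← inner_neg_left, ← h.sq_smul_gal x, inner_smul_left, conj_trivial]
  have e2 : ∫ x, s x ^ 2 * Real.sin (2 * al s w x) * ψ x = 2 * ∫ x, U x * w x * ψ x := by
    rw [← integral_const_mul]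
    refine integral_congr_ae (Eventually.of_forall fun x => ?_)
    show s x ^ 2 * Real.sin (2 * al s w x) * ψ x = 2 * (U x * w x * ψ x)
    rw [h.sq_sin_two]; ring
  rw [e1, e2, he]
  ring

end AngP

/-- Euler-Lagrange equation of a pair in terms of the angle -/
theorem Pair.el_al {s U w : Pos3 → ℝ} {gs gU gw : Pos3 → Pos3} {om : ℝ} (hs : Amp s gs)
    (hp : Pair s U gU w gw om) {ψ : Pos3 → ℝ} {gψ : Pos3 → Pos3} (hψ : BT ψ gψ) :
    ∫ x, s x ^ 2 * inner ℝ (gal s U gU w gw x) (gψ x) =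
      om * ∫ x, s x ^ 2 * Real.sin (2 * al s w x) * ψ x :=
  (hp.angP hs).el_of (hp.el ψ gψ hψ)

/-- angle of a pair: sign -/
theorem Pair.al_nonneg {s U w : Pos3 → ℝ} {gs gU gw : Pos3 → Pos3} {om : ℝ} (hs : Amp s gs)
    (hp : Pair s U gU w gw om) {x : Pos3} (hx : 0 < x 2) : 0 ≤ al s w x :=
  (hp.angP hs).al_nonneg (hp.w0 x hx)

theorem Pair.al_odd {s U w : Pos3 → ℝ} {gs gU gw : Pos3 → Pos3} {om : ℝ} (hs : Amp s gs)
    (hp : Pair s U gU w gw om) (x : Pos3) : al s w (rz x) = - al s w x :=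
  AngP.al_odd hs.even hp.adm.oddw x

/-! ### the angle of the one-body states -/

section Ob
variable {D : ℝ} {g u : Pos3 → ℝ} {dg du : Pos3 → Pos3} {eg eu e3 : ℝ}

/-- amplitude at `λ = 0` -/
def s0 (g u : Pos3 → ℝ) (x : Pos3) : ℝ := √(2 * g x ^ 2 + u x ^ 2)

theorem s0_pos (hO : OneBody D g u dg du eg eu e3) (x : Pos3) : 0 < s0 g u x := by
  have := hO.g_pos x
  exact Real.sqrt_pos.2 (by positivity)

theorem s0_sq (x : Pos3) : s0 g u x ^ 2 = 2 * g x ^ 2 + u x ^ 2 :=
  Real.sq_sqrt (by positivity)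

theorem s0_cont (hO : OneBody D g u dg du eg eu e3) : Continuous (s0 g u) := by
  have h1 := hO.cg
  have h2 := hO.cu
  unfold s0
  fun_prop

theorem angP0 (hO : OneBody D g u dg du eg eu e3) :
    AngP (s0 g u) (fun x => √2 * g x) (fun x => √2 • dg x) u du where
  sc := s0_cont hO
  sp := s0_pos hO
  hU := H1.const_mul hO.hg √2
  hw := hO.hu
  sq := by
    intro x
    rw [s0_sq, mul_pow, Real.sq_sqrt (by norm_num)]
  U0 := fun x => mul_nonneg (Real.sqrt_nonneg _) (hO.g_pos x).le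

theorem el_al0 (hO : OneBody D g u dg du eg eu e3) {ψ : Pos3 → ℝ} {gψ : Pos3 → Pos3}
    (hψ : BT ψ gψ) :
    ∫ x, s0 g u x ^ 2 * inner ℝ (gal (s0 g u) (fun x => √2 * g x) (fun x => √2 • dg x) u du x)
      (gψ x) = (eu - eg) * ∫ x, s0 g u x ^ 2 * Real.sin (2 * al (s0 g u) u x) * ψ x := by
  refine (angP0 hO).el_of ?_
  have e := PJ.ob_el hO hψ
  have e1 : ∫ x, inner ℝ (J (fun x => √2 * g x) (fun x => √2 • dg x) u du x) (gψ x) =
      √2 * ∫ x, inner ℝ (J g dg u du x) (gψ x) := by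
    rw [← integral_const_mul]
    refine integral_congr_ae (Eventually.of_forall fun x => ?_)
    show inner ℝ (u x • (√2 • dg x) - (√2 * g x) • du x) (gψ x) =
      √2 * inner ℝ (u x • dg x - g x • du x) (gψ x)
    simp only [inner_sub_left, inner_smul_left, conj_trivial]
    ring
  have e2 : ∫ x, √2 * g x * u x * ψ x = √2 * ∫ x, g x * u x * ψ x := by
    rw [← integral_const_mul]
    refine integral_congr_ae (Eventually.of_forall fun x => ?_)
    show √2 * g x * u x * ψ x = √2 * (g x * u x * ψ x)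
    ring
  rw [e1, e2, e]
  ring

end Ob

end Crest.Agent.R335
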