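import Crest.Agent.R335.PCZero

/-!
Row 335 (S0521), Part C.3: comparison lemma of Diaz-Saa / Brezis-Oswald type for
`-div (s² ∇a) = (Q/2) s² sin 2a` (module PCS).
-/

set_option autoImplicit false
set_option linter.unusedSectionVars false

open MeasureTheory Filter Set
open scoped ENNReal Topology ContDiff

noncomputable section
namespace Crest.Agent.R335

variable {ι : Type*} [Fintype ι] [DecidableEq ι]

local notation "E" => EuclideanSpace ℝ ι

/-! ### real-variable lemmas -/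

theorem PC.cond1 {A b ε : ℝ} (hε : 0 < ε) (hA : ε ≤ A) :
    0 < b - A ^ 2 / max b ε ↔ A < b := by
  have hA0 : 0 < A := hε.trans_le hA
  constructor
  · intro h
    by_contra hcon
    rw [not_lt] at hcon
    have hM : max b ε ≤ A := max_le hcon hA
    have hM0 : 0 < max b ε := lt_of_lt_of_le hε (le_max_right _ _)
    have : A ≤ A ^ 2 / max b ε := by
      rw [le_div_iff₀ hM0, sq]
      exact mul_le_mul_of_nonneg_left hM hA0.le
    linarith
  · intro h
    have hM : max b ε = b := max_eq_left (hA.trans h.le)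
    rw [hM]
    have hb0 : 0 < b := hA0.trans h
    have : A ^ 2 / b < b := by
      rw [div_lt_iff₀ hb0]
      nlinarith
    linarith

theorem PC.cond2 {A b : ℝ} (hA0 : 0 < A) (hb : 0 ≤ b) :
    0 < b ^ 2 / A - A ↔ A < b := by
  constructor
  · intro h
    have h1 : A < b ^ 2 / A := by linarith
    rw [lt_div_iff₀ hA0] at h1
    nlinarith
  · intro h
    have h1 : A < b ^ 2 / A := by
      rw [lt_div_iff₀ hA0]; nlinarith
    linarith

theorem PC.wg_recip {U : Set E} (hU : IsOpen U) {f : E → ℝ} {g : E → E} (h : WG U f g)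
    {c : ℝ} (hc : 0 < c) (hf : ∀ x, c ≤ f x) :
    WG U (fun x => 1 / f x) (fun x => (-(1 / f x ^ 2)) • g x) := by
  refine h.comp_on hU (F := fun t => 1 / t) (F' := fun t => -(1 / t ^ 2)) (a := (c : EReal))
    (b := ⊤) (C := 1 / c ^ 2) ?_ ?_ ?_ ?_
  · exact Eventually.of_forall fun x => ⟨by exact_mod_cast hf x, le_top⟩
  · intro t ht _
    have ht' : c ≤ t := by exact_mod_cast ht
    have ht0 : t ≠ 0 := (hc.trans_le ht').ne'
    have := (hasDerivAt_inv ht0)
    simp only [one_div]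
    exact this
  · refine ContinuousOn.neg (ContinuousOn.div continuousOn_const (by fun_prop) ?_)
    intro t ht
    have ht' : c ≤ t := by exact_mod_cast ht.1
    have ht0 : t ≠ 0 := (hc.trans_le ht').ne'
    positivity
  · intro t ht _
    have ht' : c ≤ t := by exact_mod_cast ht
    rw [abs_neg, abs_of_nonneg (by positivity)]
    exact one_div_le_one_div_of_le (by positivity) (pow_le_pow_left₀ hc.le ht' 2)

/-! ### the Picone test functions -/

/-- `(b - A²/b)₊` -/
def PC.q1 (ε : ℝ) (a b : E → ℝ) (x : E) : ℝ := max (b x - (a x + ε) ^ 2 / max (b x) ε) 0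

/-- `(b²/A - A)₊` -/
def PC.q2 (ε : ℝ) (a b : E → ℝ) (x : E) : ℝ := max (b x ^ 2 / (a x + ε) - (a x + ε)) 0

def PC.G1 (ε : ℝ) (a b : E → ℝ) (ga gb : E → E) (x : E) : E :=
  if a x + ε < b x then (1 + (a x + ε) ^ 2 / b x ^ 2) • gb x - (2 * (a x + ε) / b x) • ga x else 0

def PC.G2 (ε : ℝ) (a b : E → ℝ) (ga gb : E → E) (x : E) : E :=
  if a x + ε < b x then (2 * b x / (a x + ε)) • gb x - (b x ^ 2 / (a x + ε) ^ 2 + 1) • ga x else 0

section picone
variable {U : Set (EuclideanSpace ℝ ι)} {a b : EuclideanSpace ℝ ι → ℝ}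
  {ga gb : EuclideanSpace ℝ ι → EuclideanSpace ℝ ι} {c ε : ℝ}

theorem PC.wg_q1 (hU : IsOpen U) (ha : WG U a ga) (hb : WG U b gb)
    (ha0 : ∀ x, 0 ≤ a x) (hac : ∀ x, a x ≤ c) (hb0 : ∀ x, 0 ≤ b x) (hbc : ∀ x, b x ≤ c)
    (hε : 0 < ε) : WG U (PC.q1 ε a b) (PC.G1 ε a b ga gb) := by
  have hA : WG U (fun x => a x + ε) (fun x => ga x + 0) := ha.add (PC.WG_const hU ε) hU
  have hAb : ∀ x, |a x + ε| ≤ c + ε := fun x => by
    rw [abs_of_nonneg (by linarith [ha0 x])]; linarith [hac x]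
  have hA2 := hA.mul_of_bdd hU hA hAb hAb
  have hM : WG U (fun x => max (b x) ε) (fun x => if ε < b x then gb x else 0) :=
    hb.max hU (PC.WG_const hU ε)
  have hR := PC.wg_recip hU hM hε (fun x => le_max_right _ _)
  have hA2b : ∀ x, |(a x + ε) * (a x + ε)| ≤ (c + ε) * (c + ε) + 1 / ε := fun x => by
    rw [abs_mul]
    have h1 := mul_le_mul (hAb x) (hAb x) (abs_nonneg _) ((abs_nonneg _).trans (hAb x))
    have : 0 ≤ 1 / ε := by positivity
    linarith
  have hRb : ∀ x, |1 / max (b x) ε| ≤ (c + ε) * (c + ε) + 1 / ε := fun x => by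
    have hM0 : 0 < max (b x) ε := lt_of_lt_of_le hε (le_max_right _ _)
    rw [abs_of_nonneg (by positivity)]
    have h1 : 1 / max (b x) ε ≤ 1 / ε := one_div_le_one_div_of_le hε (le_max_right _ _)
    have h2 : 0 ≤ (c + ε) * (c + ε) := mul_self_nonneg _
    linarith
  have hP := hA2.mul_of_bdd hU hR hA2b hRb
  have hfin := (hb.sub hP hU).pos hU
  refine hfin.congr hU (Eventually.of_forall fun x => ?_) (Eventually.of_forall fun x => ?_)
  · simp only [PC.q1]
    congr 2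
    rw [mul_one_div, sq]
  · simp only [PC.G1]
    have hAe : ε ≤ a x + ε := by linarith [ha0 x]
    have hiff : 0 < b x - (a x + ε) * (a x + ε) * (1 / max (b x) ε) ↔ a x + ε < b x := by
      rw [mul_one_div, ← sq]; exact PC.cond1 hε hAe
    by_cases h : a x + ε < b x
    · rw [if_pos h, if_pos (hiff.2 h)]
      have hlt : ε < b x := lt_of_le_of_lt hAe h
      have hb' : 0 < b x := hε.trans hlt
      rw [if_pos hlt, max_eq_left hlt.le, add_zero]
      have hne : b x ≠ 0 := hb'.ne'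
      ext i
      simp only [PiLp.sub_apply, PiLp.add_apply, PiLp.smul_apply, smul_eq_mul]
      field_simp
      ring
    · rw [if_neg h, if_neg (fun hh => h (hiff.1 hh))]

theorem PC.wg_q2 (hU : IsOpen U) (ha : WG U a ga) (hb : WG U b gb)
    (ha0 : ∀ x, 0 ≤ a x) (hac : ∀ x, a x ≤ c) (hb0 : ∀ x, 0 ≤ b x) (hbc : ∀ x, b x ≤ c)
    (hε : 0 < ε) : WG U (PC.q2 ε a b) (PC.G2 ε a b ga gb) := by
  have hA : WG U (fun x => a x + ε) (fun x => ga x + 0) := ha.add (PC.WG_const hU ε) hU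
  have hbb : ∀ x, |b x| ≤ c := fun x => by
    rw [abs_of_nonneg (hb0 x)]; exact hbc x
  have hb2 := hb.mul_of_bdd hU hb hbb hbb
  have hR := PC.wg_recip hU hA hε (fun x => by linarith [ha0 x])
  have hb2b : ∀ x, |b x * b x| ≤ c * c + 1 / ε := fun x => by
    rw [abs_mul]
    have h1 := mul_le_mul (hbb x) (hbb x) (abs_nonneg _) ((abs_nonneg _).trans (hbb x))
    have : 0 ≤ 1 / ε := by positivity
    linarith
  have hRb : ∀ x, |1 / (a x + ε)| ≤ c * c + 1 / ε := fun x => by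
    have hM0 : 0 < a x + ε := by linarith [ha0 x]
    rw [abs_of_nonneg (by positivity)]
    have h1 : 1 / (a x + ε) ≤ 1 / ε := one_div_le_one_div_of_le hε (by linarith [ha0 x])
    have h2 : 0 ≤ c * c := mul_self_nonneg _
    linarith
  have hP := hb2.mul_of_bdd hU hR hb2b hRb
  have hfin := (hP.sub hA hU).pos hU
  refine hfin.congr hU (Eventually.of_forall fun x => ?_) (Eventually.of_forall fun x => ?_)
  · simp only [PC.q2]
    congr 2
    rw [mul_one_div, sq]
  · simp only [PC.G2]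
    have hA0 : 0 < a x + ε := by linarith [ha0 x]
    have hiff : 0 < b x * b x * (1 / (a x + ε)) - (a x + ε) ↔ a x + ε < b x := by
      rw [mul_one_div, ← sq]; exact PC.cond2 hA0 (hb0 x)
    by_cases h : a x + ε < b x
    · rw [if_pos h, if_pos (hiff.2 h)]
      have hne : a x + ε ≠ 0 := hA0.ne'
      ext i
      simp only [PiLp.sub_apply, PiLp.add_apply, PiLp.smul_apply, smul_eq_mul, PiLp.zero_apply]
      field_simp
      ring
    · rw [if_neg h, if_neg (fun hh => h (hiff.1 hh))]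

/-- Picone inequality -/
theorem PC.picone (ha0 : ∀ x, 0 ≤ a x) (hε : 0 < ε) (x : E) :
    0 ≤ inner ℝ (gb x) (PC.G1 ε a b ga gb x) - inner ℝ (ga x) (PC.G2 ε a b ga gb x) := by
  simp only [PC.G1, PC.G2]
  by_cases h : a x + ε < b x
  · rw [if_pos h, if_pos h]
    have hA0 : 0 < a x + ε := by linarith [ha0 x]
    have hb0 : 0 < b x := hA0.trans h
    set A := a x + ε
    set B := b x
    have h1 : 0 ≤ inner ℝ (gb x - (B / A) • ga x) (gb x - (B / A) • ga x) :=
      real_inner_self_nonneg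
    have h2 : 0 ≤ inner ℝ (ga x - (A / B) • gb x) (ga x - (A / B) • gb x) :=
      real_inner_self_nonneg
    have hc : inner ℝ (ga x) (gb x) = inner ℝ (gb x) (ga x) := real_inner_comm _ _
    simp only [inner_sub_left, inner_sub_right, inner_smul_left, inner_smul_right,
      RCLike.conj_to_real, hc] at h1 h2 ⊢
    have e1 : A ^ 2 / B ^ 2 = (A / B) * (A / B) := by ring
    have e2 : B ^ 2 / A ^ 2 = (B / A) * (B / A) := by ring
    rw [e1, e2]
    have e3 : 2 * A / B = 2 * (A / B) := by ring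
    have e4 : 2 * B / A = 2 * (B / A) := by ring
    rw [e3, e4]
    nlinarith
  · rw [if_neg h, if_neg h]
    simp

theorem PC.q1_nonneg (x : E) : 0 ≤ PC.q1 ε a b x := le_max_right _ _

theorem PC.q2_nonneg (x : E) : 0 ≤ PC.q2 ε a b x := le_max_right _ _

theorem PC.q1_eq (hε : 0 < ε) (ha0 : ∀ x, 0 ≤ a x) (x : E) :
    PC.q1 ε a b x = if a x + ε < b x then b x - (a x + ε) ^ 2 / b x else 0 := by
  have hAe : ε ≤ a x + ε := by linarith [ha0 x]
  by_cases h : a x + ε < b x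
  · rw [if_pos h]
    have h1 := (PC.cond1 (b := b x) hε hAe).2 h
    rw [PC.q1, max_eq_left h1.le, max_eq_left (hAe.trans h.le)]
  · rw [if_neg h]
    have h1 : ¬ 0 < b x - (a x + ε) ^ 2 / max (b x) ε := fun hh => h ((PC.cond1 hε hAe).1 hh)
    rw [PC.q1, max_eq_right (not_lt.1 h1)]

theorem PC.q2_eq (hε : 0 < ε) (ha0 : ∀ x, 0 ≤ a x) (hb0 : ∀ x, 0 ≤ b x) (x : E) :
    PC.q2 ε a b x = if a x + ε < b x then b x ^ 2 / (a x + ε) - (a x + ε) else 0 := by
  have hA0 : 0 < a x + ε := by linarith [ha0 x]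
  by_cases h : a x + ε < b x
  · rw [if_pos h]
    have h1 := (PC.cond2 (b := b x) hA0 (hb0 x)).2 h
    rw [PC.q2, max_eq_left h1.le]
  · rw [if_neg h]
    have h1 : ¬ 0 < b x ^ 2 / (a x + ε) - (a x + ε) := fun hh => h ((PC.cond2 hA0 (hb0 x)).1 hh)
    rw [PC.q2, max_eq_right (not_lt.1 h1)]

theorem PC.q1_le (hε : 0 < ε) (ha0 : ∀ x, 0 ≤ a x) (x : E) :
    PC.q1 ε a b x ≤ 2 * max (b x - a x) 0 := by
  rw [PC.q1_eq hε ha0]
  split_ifs with h
  · have hA0 : 0 < a x + ε := by linarith [ha0 x]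
    have hb0 : 0 < b x := hA0.trans h
    have h1 : b x - (a x + ε) ^ 2 / b x ≤ 2 * (b x - (a x + ε)) := by
      rw [sub_le_iff_le_add, ← sub_le_iff_le_add', le_div_iff₀ hb0]
      nlinarith [sq_nonneg (b x - (a x + ε))]
    have h2 : b x - a x ≤ max (b x - a x) 0 := le_max_left _ _
    linarith
  · have := le_max_right (b x - a x) 0
    linarith

theorem PC.q2_le (hε : 0 < ε) (ha0 : ∀ x, 0 ≤ a x) (hb0 : ∀ x, 0 ≤ b x) (hbc : ∀ x, b x ≤ c)
    (x : E) : PC.q2 ε a b x ≤ (2 * c / ε) * max (b x - a x) 0 := by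
  rw [PC.q2_eq hε ha0 hb0]
  have hm := le_max_right (b x - a x) 0
  have hc0 : 0 ≤ c := (hb0 x).trans (hbc x)
  split_ifs with h
  · have hA0 : 0 < a x + ε := by linarith [ha0 x]
    have hb' : 0 < b x := hA0.trans h
    have h1 : b x ^ 2 / (a x + ε) - (a x + ε) = (b x + (a x + ε)) / (a x + ε) * (b x - (a x + ε)) := by
      field_simp
      ring
    rw [h1]
    have h3 : (b x + (a x + ε)) / (a x + ε) ≤ 2 * c / ε := by
      rw [div_le_div_iff₀ hA0 hε]
      have e1 : b x + (a x + ε) ≤ 2 * c := by linarith [hbc x]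
      have e2 : ε ≤ a x + ε := by linarith [ha0 x]
      nlinarith
    have h4 : b x - (a x + ε) ≤ max (b x - a x) 0 := by
      have := le_max_left (b x - a x) 0
      linarith
    exact mul_le_mul h3 h4 (by linarith) (by positivity)
  · positivity

theorem PC.norm_G1_le (hε : 0 < ε) (ha0 : ∀ x, 0 ≤ a x) (x : E) :
    ‖PC.G1 ε a b ga gb x‖ ≤ 2 * ‖gb x‖ + 2 * ‖ga x‖ := by
  rw [PC.G1]
  split_ifs with h
  · have hA0 : 0 < a x + ε := by linarith [ha0 x]
    have hb0 : 0 < b x := hA0.trans h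
    have h1 : (a x + ε) / b x ≤ 1 := (div_le_one hb0).2 h.le
    have h1' : 0 ≤ (a x + ε) / b x := by positivity
    have h2 : (a x + ε) ^ 2 / b x ^ 2 ≤ 1 := by
      rw [← div_pow]; exact pow_le_one₀ h1' h1
    refine (norm_sub_le _ _).trans ?_
    rw [norm_smul, norm_smul, Real.norm_eq_abs, Real.norm_eq_abs, abs_of_nonneg (by positivity),
      abs_of_nonneg (by positivity)]
    have h3 : 2 * (a x + ε) / b x ≤ 2 := by rw [mul_div_assoc]; linarith
    have h4 : 1 + (a x + ε) ^ 2 / b x ^ 2 ≤ 2 := by linarith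
    exact add_le_add (mul_le_mul_of_nonneg_right h4 (norm_nonneg _))
      (mul_le_mul_of_nonneg_right h3 (norm_nonneg _))
  · rw [norm_zero]; positivity

theorem PC.norm_G2_le (hε : 0 < ε) (ha0 : ∀ x, 0 ≤ a x) (hb0 : ∀ x, 0 ≤ b x)
    (hbc : ∀ x, b x ≤ c) (x : E) :
    ‖PC.G2 ε a b ga gb x‖ ≤ (2 * c / ε) * ‖gb x‖ + (c ^ 2 / ε ^ 2 + 1) * ‖ga x‖ := by
  have hc0 : 0 ≤ c := (hb0 x).trans (hbc x)
  rw [PC.G2]
  split_ifs with h
  · have hA0 : 0 < a x + ε := by linarith [ha0 x]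
    have hb' : 0 < b x := hA0.trans h
    have hAe : ε ≤ a x + ε := by linarith [ha0 x]
    refine (norm_sub_le _ _).trans ?_
    rw [norm_smul, norm_smul, Real.norm_eq_abs, Real.norm_eq_abs, abs_of_nonneg (by positivity),
      abs_of_nonneg (by positivity)]
    have h3 : 2 * b x / (a x + ε) ≤ 2 * c / ε :=
      div_le_div₀ (by positivity) (by linarith [hbc x]) hε hAe
    have h4 : b x ^ 2 / (a x + ε) ^ 2 + 1 ≤ c ^ 2 / ε ^ 2 + 1 := by
      have := div_le_div₀ (by positivity) (pow_le_pow_left₀ hb'.le (hbc x) 2)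
        (by positivity : 0 < ε ^ 2) (pow_le_pow_left₀ hε.le hAe 2)
      linarith
    exact add_le_add (mul_le_mul_of_nonneg_right h3 (norm_nonneg _))
      (mul_le_mul_of_nonneg_right h4 (norm_nonneg _))
  · rw [norm_zero]; positivity

theorem PC.q1_le_b (hε : 0 < ε) (ha0 : ∀ x, 0 ≤ a x) (hb0 : ∀ x, 0 ≤ b x) (x : EuclideanSpace ℝ ι) :
    PC.q1 ε a b x ≤ b x := by
  rw [PC.q1_eq hε ha0]
  split_ifs with h
  · have hA0 : 0 < a x + ε := by linarith [ha0 x]
    have hb' : 0 < b x := hA0.trans h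
    have : 0 ≤ (a x + ε) ^ 2 / b x := by positivity
    linarith
  · exact hb0 x

theorem PC.sin_mul_q2_le (hε : 0 < ε) (ha0 : ∀ x, 0 ≤ a x) (hb0 : ∀ x, 0 ≤ b x)
    (x : EuclideanSpace ℝ ι) : Real.sin (2 * a x) * PC.q2 ε a b x ≤ 2 * b x ^ 2 := by
  rw [PC.q2_eq hε ha0 hb0]
  split_ifs with h
  · have hA0 : 0 < a x + ε := by linarith [ha0 x]
    have h1 : Real.sin (2 * a x) ≤ 2 * a x := Real.sin_le (by linarith [ha0 x])
    have h2 : 0 ≤ b x ^ 2 / (a x + ε) - (a x + ε) := by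
      have := (PC.cond2 (b := b x) hA0 (hb0 x)).2 h
      exact this.le
    calc Real.sin (2 * a x) * (b x ^ 2 / (a x + ε) - (a x + ε))
        ≤ (2 * a x) * (b x ^ 2 / (a x + ε) - (a x + ε)) := mul_le_mul_of_nonneg_right h1 h2
      _ ≤ (2 * (a x + ε)) * (b x ^ 2 / (a x + ε)) := by
          have h3 : 0 ≤ b x ^ 2 / (a x + ε) := by positivity
          exact mul_le_mul (by linarith) (by linarith) h2 (by positivity)
      _ = 2 * b x ^ 2 := by field_simp
  · rw [mul_zero]; positivity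

end picone

/-- `sin 2x / x` is strictly decreasing on `(0, π/2]` -/
theorem PC.sin_div_lt {x y : ℝ} (hx : 0 < x) (hxy : x < y) (hy : y ≤ Real.pi / 2) :
    Real.sin (2 * y) / y < Real.sin (2 * x) / x := by
  have hy0 : 0 < y := hx.trans hxy
  have hconc := strictConcaveOn_sin_Icc
  have h0 : (0 : ℝ) ∈ Icc 0 Real.pi := ⟨le_rfl, Real.pi_pos.le⟩
  have hyI : 2 * y ∈ Icc 0 Real.pi := ⟨by linarith, by linarith⟩
  have h1 := hconc.2 h0 hyI (by linarith : (0 : ℝ) ≠ 2 * y)
    (show 0 < 1 - x / y by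
      have : x / y < 1 := (div_lt_one hy0).2 hxy
      linarith) (show 0 < x / y by positivity) (by ring)
  simp only [smul_eq_mul, mul_zero, zero_add, Real.sin_zero] at h1
  have h2 : x / y * (2 * y) = 2 * x := by field_simp
  rw [h2] at h1
  rw [div_lt_div_iff₀ hy0 hx]
  have h3 : x / y * Real.sin (2 * y) * y = Real.sin (2 * y) * x := by field_simp
  nlinarith

/-- the limit integrand -/
def PC.L (a b : EuclideanSpace ℝ ι → ℝ) (x : EuclideanSpace ℝ ι) : ℝ :=
  Real.sin (2 * b x) * max (b x - a x ^ 2 / b x) 0 -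
    Real.sin (2 * a x) * max (b x ^ 2 / a x - a x) 0

theorem PC.L_neg {a b : EuclideanSpace ℝ ι → ℝ} {x : EuclideanSpace ℝ ι} (ha : 0 < a x)
    (hab : a x < b x) (hb : b x ≤ Real.pi / 2) : PC.L a b x < 0 := by
  have hb0 : 0 < b x := ha.trans hab
  have h1 := PC.sin_div_lt ha hab hb
  have e1 : b x - a x ^ 2 / b x = (b x ^ 2 - a x ^ 2) / b x := by field_simp
  have e2 : b x ^ 2 / a x - a x = (b x ^ 2 - a x ^ 2) / a x := by field_simp
  have hd : 0 < b x ^ 2 - a x ^ 2 := by nlinarith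
  rw [PC.L, e1, e2, max_eq_left (by positivity), max_eq_left (by positivity)]
  have e3 : Real.sin (2 * b x) * ((b x ^ 2 - a x ^ 2) / b x) -
      Real.sin (2 * a x) * ((b x ^ 2 - a x ^ 2) / a x) =
      (b x ^ 2 - a x ^ 2) * (Real.sin (2 * b x) / b x - Real.sin (2 * a x) / a x) := by ring
  rw [e3]
  exact mul_neg_of_pos_of_neg hd (by linarith)

theorem PC.L_nonpos {a b : EuclideanSpace ℝ ι → ℝ} {x : EuclideanSpace ℝ ι} (ha : 0 < a x)
    (hb0 : 0 ≤ b x) (hb : b x ≤ Real.pi / 2) : PC.L a b x ≤ 0 := by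
  by_cases hab : a x < b x
  · exact (PC.L_neg ha hab hb).le
  · rw [not_lt] at hab
    have h1 : b x - a x ^ 2 / b x ≤ 0 := by
      rcases hb0.eq_or_lt with h | h
      · rw [← h]; simp
      · have : b x ≤ a x ^ 2 / b x := by
          rw [le_div_iff₀ h]; nlinarith
        linarith
    have h2 : b x ^ 2 / a x - a x ≤ 0 := by
      have : b x ^ 2 / a x ≤ a x := by
        rw [div_le_iff₀ ha]; nlinarith
      linarith
    rw [PC.L, max_eq_right h1, max_eq_right h2]
    simp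

theorem PC.tendsto_q1 {a b : EuclideanSpace ℝ ι → ℝ} {x : EuclideanSpace ℝ ι} (ha : 0 < a x)
    (hb0 : 0 ≤ b x) {e : ℕ → ℝ} (he0 : ∀ n, 0 < e n) (he : Tendsto e atTop (𝓝 0)) :
    Tendsto (fun n => PC.q1 (e n) a b x) atTop (𝓝 (max (b x - a x ^ 2 / b x) 0)) := by
  rcases hb0.eq_or_lt with h | h
  · have h1 : ∀ n, PC.q1 (e n) a b x = 0 := by
      intro n
      rw [PC.q1, ← h, max_eq_right]
      have h2 : 0 ≤ (a x + e n) ^ 2 / max 0 (e n) := by positivity
      linarith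
    simp only [h1, ← h]
    simp
  · have h1 : Tendsto (fun n => b x - (a x + e n) ^ 2 / max (b x) (e n)) atTop
        (𝓝 (b x - (a x + 0) ^ 2 / max (b x) 0)) := by
      refine tendsto_const_nhds.sub (Tendsto.div ((tendsto_const_nhds.add he).pow 2)
        (tendsto_const_nhds.max he) ?_)
      rw [max_eq_left h.le]; exact h.ne'
    rw [add_zero, max_eq_left h.le] at h1
    exact h1.max tendsto_const_nhds

theorem PC.tendsto_q2 {a b : EuclideanSpace ℝ ι → ℝ} {x : EuclideanSpace ℝ ι} (ha : 0 < a x)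
    {e : ℕ → ℝ} (he : Tendsto e atTop (𝓝 0)) :
    Tendsto (fun n => PC.q2 (e n) a b x) atTop (𝓝 (max (b x ^ 2 / a x - a x) 0)) := by
  have h2 : Tendsto (fun n => a x + e n) atTop (𝓝 (a x)) := by
    simpa using tendsto_const_nhds.add he (f := fun _ => a x)
  have h1 : Tendsto (fun n => b x ^ 2 / (a x + e n) - (a x + e n)) atTop
      (𝓝 (b x ^ 2 / a x - a x)) :=
    (tendsto_const_nhds.div h2 ha.ne').sub h2
  exact h1.max tendsto_const_nhds

end Crest.Agent.R335
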