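import Crest.Agent.R335.PCS

/-!
Row 335 (S0521), Part C.3: LEMMA CS (comparison lemma for `-div (s² ∇a) = (Q/2) s² sin 2a`),
final statement `CS` (module PCSMain).
-/

set_option autoImplicit false
set_option linter.unusedSectionVars false

open MeasureTheory Filter Set
open scoped ENNReal Topology ContDiff

noncomputable section
namespace Crest.Agent.R335

variable {ι : Type*} [Fintype ι] [DecidableEq ι]

local notation "E" => EuclideanSpace ℝ ι

/-- integrability of `s² ⟨u,v⟩` -/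
theorem PC.int_inner {μ : Measure E} {s : E → ℝ} {ga gb u v : E → E} (hs : MemLp s 2 μ)
    (hga : AEStronglyMeasurable ga μ) (hgb : AEStronglyMeasurable gb μ)
    (haE : Integrable (fun x => s x ^ 2 * ‖ga x‖ ^ 2) μ)
    (hbE : Integrable (fun x => s x ^ 2 * ‖gb x‖ ^ 2) μ)
    (hu : AEStronglyMeasurable u μ) (hv : AEStronglyMeasurable v μ) {C : ℝ}
    (hub : ∀ᵐ x ∂μ, ‖u x‖ ≤ ‖ga x‖ + ‖gb x‖ + 1)
    (hvb : ∀ᵐ x ∂μ, ‖v x‖ ≤ C * (‖ga x‖ + ‖gb x‖ + 1)) :
    Integrable (fun x => s x ^ 2 * inner ℝ (u x) (v x)) μ := by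
  have hs2 : Integrable (fun x => s x ^ 2) μ := hs.integrable_sq
  have hdom : Integrable (fun x => |C| * (3 * (s x ^ 2 * ‖ga x‖ ^ 2 + s x ^ 2 * ‖gb x‖ ^ 2 +
      s x ^ 2))) μ := (((haE.add hbE).add hs2).const_mul 3).const_mul _
  refine hdom.mono' ((hs.aestronglyMeasurable.pow 2).mul (hu.inner hv)) ?_
  filter_upwards [hub, hvb] with x h1 h2
  rw [norm_mul, Real.norm_eq_abs, abs_of_nonneg (sq_nonneg _)]
  set e := ‖ga x‖ + ‖gb x‖ + 1 with he
  have he0 : 0 ≤ e := by positivity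
  have h3 : ‖inner ℝ (u x) (v x)‖ ≤ e * (|C| * e) := by
    refine (norm_inner_le_norm _ _).trans ?_
    refine mul_le_mul h1 (h2.trans ?_) (norm_nonneg _) he0
    exact mul_le_mul_of_nonneg_right (le_abs_self _) he0
  have h4 : e ^ 2 ≤ 3 * (‖ga x‖ ^ 2 + ‖gb x‖ ^ 2 + 1) := by
    rw [he]
    nlinarith [sq_nonneg (‖ga x‖ - ‖gb x‖), sq_nonneg (‖ga x‖ - 1), sq_nonneg (‖gb x‖ - 1)]
  calc s x ^ 2 * ‖inner ℝ (u x) (v x)‖ ≤ s x ^ 2 * (e * (|C| * e)) :=
        mul_le_mul_of_nonneg_left h3 (sq_nonneg _)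
    _ = |C| * (s x ^ 2 * e ^ 2) := by ring
    _ ≤ |C| * (s x ^ 2 * (3 * (‖ga x‖ ^ 2 + ‖gb x‖ ^ 2 + 1))) := by gcongr
    _ = _ := by ring

/-- admissibility of a cut-off test function -/
theorem PC.admissible {Om : Set E} (hO : IsOpen Om) {s : E → ℝ} (hsc : Continuous s)
    (hs0 : ∀ x, 0 < s x) {ga gb : E → E}
    (hga : AEStronglyMeasurable ga (volume.restrict Om))
    (hgb : AEStronglyMeasurable gb (volume.restrict Om))
    (haE : IntegrableOn (fun x => s x ^ 2 * ‖ga x‖ ^ 2) Om)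
    (hbE : IntegrableOn (fun x => s x ^ 2 * ‖gb x‖ ^ 2) Om)
    {χ : E → ℝ} (hχ : Test univ χ) (hχ01 : ∀ x, χ x ∈ Icc (0 : ℝ) 1)
    {q m : E → ℝ} {G l : E → E} (hq : WG Om q G) (hq0 : ∀ x, 0 ≤ q x) {Cq Cm CG : ℝ}
    (hqb : ∀ x, q x ≤ Cq)
    (hqm : ∀ x, q x ≤ Cm * m x)
    (hG : ∀ x, ‖G x‖ ≤ CG * (‖ga x‖ + ‖gb x‖))
    (hm : H10 Om (Om.indicator fun x => χ x * m x) l) :
    H10 Om (Om.indicator fun x => χ x * q x)
      (Om.indicator fun x => χ x • G x + q x • gr χ x) ∧
    MemLp (fun x => χ x • G x + q x • gr χ x) 2 (volume.restrict Om) := by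
  have hχc : Continuous χ := hχ.continuous
  have hχ2 : MemLp χ 2 volume := hχc.memLp_of_hasCompactSupport hχ.cpt
  have hgrc : Continuous (gr χ) := continuous_gr hχ.contDiff_one
  have hgrcs : HasCompactSupport (gr χ) := by
    refine hχ.cpt.of_isClosed_subset (isClosed_tsupport _) ?_
    refine closure_minimal (fun x hx => ?_) (isClosed_tsupport _)
    by_contra hcon
    exact hx (gr_eq_zero_of_notMem' hcon)
  have hgr2 : MemLp (gr χ) 2 volume := hgrc.memLp_of_hasCompactSupport hgrcs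
  -- lower bound of `s` on the support
  obtain ⟨m0, hm0, hm0s⟩ : ∃ m0, 0 < m0 ∧ ∀ x ∈ tsupport χ, m0 ≤ s x := by
    rcases (tsupport χ).eq_empty_or_nonempty with he | hne
    · exact ⟨1, one_pos, fun x hx => by rw [he] at hx; exact hx.elim⟩
    · obtain ⟨y, hy, hmin⟩ := hχ.cpt.isCompact.exists_isMinOn hne hsc.continuousOn
      exact ⟨s y, hs0 y, fun x hx => hmin hx⟩
  have key : ∀ {g : E → E}, AEStronglyMeasurable g (volume.restrict Om) →
      IntegrableOn (fun x => s x ^ 2 * ‖g x‖ ^ 2) Om → MemLp (fun x => χ x * ‖g x‖) 2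
        (volume.restrict Om) := by
    intro g hg hgE
    have h1 : MemLp (fun x => s x * ‖g x‖) 2 (volume.restrict Om) := by
      refine (memLp_two_iff_integrable_sq (f := fun x => s x * ‖g x‖)
        (hsc.aestronglyMeasurable.mul hg.norm)).2 ?_
      refine hgE.congr (Eventually.of_forall fun x => ?_)
      simp only
      ring
    refine MemLp.of_le_mul (c := 1 / m0) h1 (hχc.aestronglyMeasurable.mul hg.norm)
      (Eventually.of_forall fun x => ?_)
    rw [Real.norm_eq_abs, Real.norm_eq_abs, abs_mul, abs_mul, abs_norm]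
    by_cases hx : x ∈ tsupport χ
    · have h2 := hm0s x hx
      have h3 : |χ x| ≤ 1 := by
        rw [abs_of_nonneg (hχ01 x).1]; exact (hχ01 x).2
      have h4 : 1 ≤ 1 / m0 * |s x| := by
        rw [abs_of_pos (hs0 x), one_div, ← div_eq_inv_mul, le_div_iff₀ hm0]
        linarith
      calc |χ x| * ‖g x‖ ≤ 1 * ‖g x‖ := by gcongr
        _ ≤ (1 / m0 * |s x|) * ‖g x‖ := by gcongr
        _ = _ := by ring
    · rw [image_eq_zero_of_notMem_tsupport hx]
      simp only [abs_zero, zero_mul]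
      positivity
  have hka := key hga haE
  have hkb := key hgb hbE
  have hqm' : AEStronglyMeasurable q (volume.restrict Om) := hq.intf.aestronglyMeasurable
  have hGm' : AEStronglyMeasurable G (volume.restrict Om) := hq.intg.aestronglyMeasurable
  have hCG : ∀ x, 0 ≤ |CG| * (‖ga x‖ + ‖gb x‖) := fun x => by positivity
  have hmemg : MemLp (fun x => χ x • G x + q x • gr χ x) 2 (volume.restrict Om) := by
    refine MemLp.add ?_ ?_
    · refine MemLp.of_le_mul (c := |CG|) (hka.add hkb) (hχc.aestronglyMeasurable.smul hGm')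
        (Eventually.of_forall fun x => ?_)
      have h1 : ‖G x‖ ≤ |CG| * (‖ga x‖ + ‖gb x‖) :=
        (hG x).trans (mul_le_mul_of_nonneg_right (le_abs_self _) (by positivity))
      rw [norm_smul, Real.norm_eq_abs, abs_of_nonneg (hχ01 x).1, Real.norm_eq_abs]
      have h2 : 0 ≤ (fun x => χ x * ‖ga x‖) x + (fun x => χ x * ‖gb x‖) x := by
        have := (hχ01 x).1
        simp only; positivity
      rw [Pi.add_apply, abs_of_nonneg h2]
      calc χ x * ‖G x‖ ≤ χ x * (|CG| * (‖ga x‖ + ‖gb x‖)) :=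
            mul_le_mul_of_nonneg_left h1 (hχ01 x).1
        _ = _ := by simp only; ring
    · refine MemLp.of_le_mul (c := |Cq|) (hgr2.restrict Om) (hqm'.smul hgrc.aestronglyMeasurable)
        (Eventually.of_forall fun x => ?_)
      rw [norm_smul, Real.norm_eq_abs, abs_of_nonneg (hq0 x)]
      exact mul_le_mul_of_nonneg_right ((hqb x).trans (le_abs_self _)) (norm_nonneg _)
  refine ⟨?_, hmemg⟩
  have hP := hm.const_mul Cm
  refine H10.of_WG_le hO hP (hq.mul_smooth hO hχ.smooth) ?_ hmemg ?_ ?_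
  · refine MemLp.of_le_mul (c := |Cq|) (hχ2.restrict Om) (hχc.aestronglyMeasurable.mul hqm')
      (Eventually.of_forall fun x => ?_)
    rw [norm_mul, Real.norm_eq_abs, Real.norm_eq_abs, abs_of_nonneg (hq0 x), mul_comm]
    exact mul_le_mul_of_nonneg_right ((hqb x).trans (le_abs_self _)) (abs_nonneg _)
  · exact Eventually.of_forall fun x => mul_nonneg (hχ01 x).1 (hq0 x)
  · filter_upwards [ae_restrict_mem hO.measurableSet] with x hx
    rw [indicator_of_mem hx]
    calc χ x * q x ≤ χ x * (Cm * m x) := mul_le_mul_of_nonneg_left (hqm x) (hχ01 x).1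
      _ = Cm * (χ x * m x) := by ring

/-- test class of Lemma CS -/
structure TC (Om : Set E) (p : E → ℝ) (gp : E → E) : Prop where
  h10 : H10 Om p gp
  bdd : ∃ C : ℝ, ∀ᵐ x, |p x| ≤ C
  cpt : ∃ R : ℝ, ∀ᵐ x, R ≤ ‖x‖ → p x = 0
  nonneg : ∀ᵐ x, 0 ≤ p x

set_option maxHeartbeats 2000000 in
/-- Lemma CS for pointwise clipped functions -/
theorem PC.CS_pt {Om : Set E} (hO : IsOpen Om) {s a b : E → ℝ} {ga gb : E → E} {Q : ℝ}
    (hQ : 0 < Q) (hs : MemLp s 2 volume) (hsc : Continuous s) (hs0 : ∀ x, 0 < s x)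
    (ha : WG Om a ga) (hb : WG Om b gb)
    (ha0 : ∀ x, 0 ≤ a x) (hac : ∀ x, a x ≤ Real.pi / 2)
    (hb0 : ∀ x, 0 ≤ b x) (hbc : ∀ x, b x ≤ Real.pi / 2)
    (hapos : ∀ᵐ x ∂(volume.restrict Om), 0 < a x)
    (haE : IntegrableOn (fun x => s x ^ 2 * ‖ga x‖ ^ 2) Om)
    (hbE : IntegrableOn (fun x => s x ^ 2 * ‖gb x‖ ^ 2) Om)
    (hEL : ∀ p gp, TC Om p gp → (Q / 2) * ∫ x in Om, s x ^ 2 * Real.sin (2 * a x) * p x ≤
      ∫ x in Om, s x ^ 2 * inner ℝ (ga x) (gp x))
    (hSub : ∀ p gp, TC Om p gp → ∫ x in Om, s x ^ 2 * inner ℝ (gb x) (gp x) ≤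
      (Q / 2) * ∫ x in Om, s x ^ 2 * Real.sin (2 * b x) * p x)
    (hbd : ∀ k, Test univ k → ∃ l, H10 Om (Om.indicator fun x => k x * max (b x - a x) 0) l) :
    ∀ᵐ x ∂(volume.restrict Om), b x ≤ a x := by
  have hOm : MeasurableSet Om := hO.measurableSet
  have hsr : MemLp s 2 (volume.restrict Om) := hs.restrict Om
  have hga : AEStronglyMeasurable ga (volume.restrict Om) := ha.intg.aestronglyMeasurable
  have hgb : AEStronglyMeasurable gb (volume.restrict Om) := hb.intg.aestronglyMeasurable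
  have ham : AEStronglyMeasurable a (volume.restrict Om) := ha.intf.aestronglyMeasurable
  have hbm : AEStronglyMeasurable b (volume.restrict Om) := hb.intf.aestronglyMeasurable
  have hsm : AEStronglyMeasurable s (volume.restrict Om) := hsc.aestronglyMeasurable
  have hs2 : Integrable (fun x => s x ^ 2) (volume.restrict Om) := hsr.integrable_sq
  obtain ⟨C0, hC0, hcut⟩ := exists_cutoff_ball (ι := ι)
  have hsina : ∀ x, 0 ≤ Real.sin (2 * a x) := fun x =>
    Real.sin_nonneg_of_nonneg_of_le_pi (by linarith [ha0 x]) (by linarith [hac x])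
  have hsinb : ∀ x, 0 ≤ Real.sin (2 * b x) := fun x =>
    Real.sin_nonneg_of_nonneg_of_le_pi (by linarith [hb0 x]) (by linarith [hbc x])
  -- the integrand
  set F : ℝ → E → ℝ := fun ε x => s x ^ 2 * (Real.sin (2 * b x) * PC.q1 ε a b x -
    Real.sin (2 * a x) * PC.q2 ε a b x) with hF
  have hFb : ∀ ε, 0 < ε → ∀ x, |F ε x| ≤ 8 * s x ^ 2 := by
    intro ε hε x
    have h1 : PC.q1 ε a b x ≤ b x := PC.q1_le_b hε ha0 hb0 x
    have h2 : 0 ≤ PC.q1 ε a b x := PC.q1_nonneg x
    have h3 : 0 ≤ PC.q2 ε a b x := PC.q2_nonneg x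
    have h4 := PC.sin_mul_q2_le hε ha0 hb0 x
    have h5 : Real.sin (2 * b x) ≤ 1 := Real.sin_le_one _
    have h6 := Real.pi_lt_four
    have h7 : b x ≤ 2 := by linarith [hbc x]
    have h8 : Real.sin (2 * b x) * PC.q1 ε a b x ≤ 2 := by
      calc Real.sin (2 * b x) * PC.q1 ε a b x ≤ 1 * 2 :=
            mul_le_mul h5 (h1.trans h7) h2 zero_le_one
        _ = 2 := one_mul _
    have h9 : 2 * b x ^ 2 ≤ 8 := by nlinarith [hb0 x]
    have h10 : 0 ≤ Real.sin (2 * b x) * PC.q1 ε a b x := mul_nonneg (hsinb x) h2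
    have h11 : 0 ≤ Real.sin (2 * a x) * PC.q2 ε a b x := mul_nonneg (hsina x) h3
    rw [hF]
    simp only
    rw [abs_mul, abs_of_nonneg (sq_nonneg (s x)), mul_comm]
    refine mul_le_mul_of_nonneg_right ?_ (sq_nonneg _)
    rw [abs_le]
    constructor <;> linarith
  have hFm : ∀ ε, 0 < ε → AEStronglyMeasurable (F ε) (volume.restrict Om) := by
    intro ε hε
    have hq1m := (PC.wg_q1 hO ha hb ha0 hac hb0 hbc hε).intf.aestronglyMeasurable
    have hq2m := (PC.wg_q2 hO ha hb ha0 hac hb0 hbc hε).intf.aestronglyMeasurable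
    have h1 : AEStronglyMeasurable (fun x => Real.sin (2 * b x)) (volume.restrict Om) :=
      Real.continuous_sin.comp_aestronglyMeasurable (hbm.const_mul 2)
    have h2 : AEStronglyMeasurable (fun x => Real.sin (2 * a x)) (volume.restrict Om) :=
      Real.continuous_sin.comp_aestronglyMeasurable (ham.const_mul 2)
    exact (hsm.pow 2).mul ((h1.mul hq1m).sub (h2.mul hq2m))
  have hFi : ∀ ε, 0 < ε → Integrable (F ε) (volume.restrict Om) := fun ε hε =>
    (hs2.const_mul 8).mono' (hFm ε hε) (Eventually.of_forall (hFb ε hε))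
  -- Step A
  have stepA : ∀ ε, 0 < ε → ε ≤ 1 → ∃ K : ℝ, 0 ≤ K ∧ ∀ (R : ℝ) (χ : E → ℝ), 1 ≤ R → Test univ χ →
      (∀ x, χ x ∈ Icc (0 : ℝ) 1) → (∀ x, 2 * R ≤ ‖x‖ → χ x = 0) → (∀ x, ‖gr χ x‖ ≤ C0 / R) →
      0 ≤ (Q / 2) * (∫ x in Om, χ x * F ε x) + K / R := by
    intro ε hε _
    have hw1 := PC.wg_q1 hO ha hb ha0 hac hb0 hbc hε
    have hw2 := PC.wg_q2 hO ha hb ha0 hac hb0 hbc hε
    set c := Real.pi / 2 with hc
    have hc0 : 0 ≤ c := by positivity
    set M : ℝ := 2 * c / ε * c + c with hM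
    have hM0 : 0 ≤ M := by positivity
    have hq1M : ∀ x, PC.q1 ε a b x ≤ M := fun x => by
      have := PC.q1_le_b hε ha0 hb0 x
      have h2 : 0 ≤ 2 * c / ε * c := by positivity
      linarith [hbc x]
    have hq2M : ∀ x, PC.q2 ε a b x ≤ M := fun x => by
      have h1 := PC.q2_le hε ha0 hb0 hbc x
      have h2 : max (b x - a x) 0 ≤ c := max_le (by linarith [hbc x, ha0 x]) hc0
      have h3 : 2 * c / ε * max (b x - a x) 0 ≤ 2 * c / ε * c :=
        mul_le_mul_of_nonneg_left h2 (by positivity)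
      linarith
    set CG : ℝ := 2 + 2 * c / ε + (c ^ 2 / ε ^ 2 + 1) with hCG
    have hCG0 : 0 ≤ CG := by positivity
    have hG1 : ∀ x, ‖PC.G1 ε a b ga gb x‖ ≤ CG * (‖ga x‖ + ‖gb x‖) := fun x => by
      have h1 := PC.norm_G1_le (ga := ga) (gb := gb) (b := b) hε ha0 x
      have h2 : 2 ≤ CG := by
        have : 0 ≤ 2 * c / ε + (c ^ 2 / ε ^ 2 + 1) := by positivity
        linarith
      have := mul_le_mul_of_nonneg_right h2 (by positivity : 0 ≤ ‖ga x‖ + ‖gb x‖)
      linarith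
    have hG2 : ∀ x, ‖PC.G2 ε a b ga gb x‖ ≤ CG * (‖ga x‖ + ‖gb x‖) := fun x => by
      have h1 := PC.norm_G2_le (ga := ga) (gb := gb) hε ha0 hb0 hbc x
      have e1 : 0 ≤ 2 * c / ε := by positivity
      have e2 : 0 ≤ c ^ 2 / ε ^ 2 + 1 := by positivity
      have h2 : 2 * c / ε * ‖gb x‖ ≤ CG * ‖gb x‖ :=
        mul_le_mul_of_nonneg_right (by linarith) (norm_nonneg _)
      have h3 : (c ^ 2 / ε ^ 2 + 1) * ‖ga x‖ ≤ CG * ‖ga x‖ :=
        mul_le_mul_of_nonneg_right (by linarith) (norm_nonneg _)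
      linarith
    have h1a : Integrable (fun x => s x ^ 2 * ‖ga x‖) (volume.restrict Om) := by
      refine (haE.add hs2).mono' ((hsm.pow 2).mul hga.norm) (Eventually.of_forall fun x => ?_)
      rw [norm_mul, norm_norm, Real.norm_eq_abs, abs_of_nonneg (sq_nonneg _), Pi.add_apply]
      have : ‖ga x‖ ≤ ‖ga x‖ ^ 2 + 1 := by nlinarith [sq_nonneg (‖ga x‖ - 1), norm_nonneg (ga x)]
      calc s x ^ 2 * ‖ga x‖ ≤ s x ^ 2 * (‖ga x‖ ^ 2 + 1) :=
            mul_le_mul_of_nonneg_left this (sq_nonneg _)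
        _ = _ := by ring
    have h1b : Integrable (fun x => s x ^ 2 * ‖gb x‖) (volume.restrict Om) := by
      refine (hbE.add hs2).mono' ((hsm.pow 2).mul hgb.norm) (Eventually.of_forall fun x => ?_)
      rw [norm_mul, norm_norm, Real.norm_eq_abs, abs_of_nonneg (sq_nonneg _), Pi.add_apply]
      have : ‖gb x‖ ≤ ‖gb x‖ ^ 2 + 1 := by nlinarith [sq_nonneg (‖gb x‖ - 1), norm_nonneg (gb x)]
      calc s x ^ 2 * ‖gb x‖ ≤ s x ^ 2 * (‖gb x‖ ^ 2 + 1) :=
            mul_le_mul_of_nonneg_left this (sq_nonneg _)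
        _ = _ := by ring
    set Ka := ∫ x in Om, s x ^ 2 * ‖ga x‖ with hKa
    set Kb := ∫ x in Om, s x ^ 2 * ‖gb x‖ with hKb
    have hKa0 : 0 ≤ Ka := integral_nonneg fun x => by positivity
    have hKb0 : 0 ≤ Kb := integral_nonneg fun x => by positivity
    refine ⟨C0 * M * (Ka + Kb), by positivity, fun R χ hR hχ hχ01 hχR hχg => ?_⟩
    have hR0 : 0 < R := by linarith
    obtain ⟨l, hl⟩ := hbd χ hχ
    have hχc : Continuous χ := hχ.continuous
    have hgrc : Continuous (gr χ) := continuous_gr hχ.contDiff_one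
    have hCR : 0 ≤ C0 / R := by positivity
    have mk : ∀ {q : E → ℝ} {G : E → E} {Cm : ℝ}, WG Om q G → (∀ x, 0 ≤ q x) → (∀ x, q x ≤ M) →
        (∀ x, q x ≤ Cm * max (b x - a x) 0) → (∀ x, ‖G x‖ ≤ CG * (‖ga x‖ + ‖gb x‖)) →
        TC Om (Om.indicator fun x => χ x * q x)
          (Om.indicator fun x => χ x • G x + q x • gr χ x) := by
      intro q G Cm hq hq0 hqM hqm hG
      obtain ⟨h10, -⟩ := PC.admissible hO hsc hs0 hga hgb haE hbE hχ hχ01 hq hq0 hqM hqm hG hl
      refine ⟨h10, ⟨M, Eventually.of_forall fun x => ?_⟩, ⟨2 * R, Eventually.of_forall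
        fun x hx => ?_⟩, Eventually.of_forall fun x => ?_⟩
      · by_cases hxO : x ∈ Om
        · rw [indicator_of_mem hxO, abs_of_nonneg (mul_nonneg (hχ01 x).1 (hq0 x))]
          calc χ x * q x ≤ 1 * M := mul_le_mul (hχ01 x).2 (hqM x) (hq0 x) zero_le_one
            _ = M := one_mul _
        · rw [indicator_of_notMem hxO, abs_zero]; exact hM0
      · by_cases hxO : x ∈ Om
        · rw [indicator_of_mem hxO, hχR x hx, zero_mul]
        · rw [indicator_of_notMem hxO]
      · by_cases hxO : x ∈ Om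
        · rw [indicator_of_mem hxO]; exact mul_nonneg (hχ01 x).1 (hq0 x)
        · rw [indicator_of_notMem hxO]
    have t1 := hSub _ _ (mk hw1 PC.q1_nonneg hq1M (fun x => PC.q1_le hε ha0 x) hG1)
    have t2 := hEL _ _ (mk hw2 PC.q2_nonneg hq2M (fun x => PC.q2_le hε ha0 hb0 hbc x) hG2)
    have e1 : ∫ x in Om, s x ^ 2 * inner ℝ (gb x) (Om.indicator (fun x => χ x •
        PC.G1 ε a b ga gb x + PC.q1 ε a b x • gr χ x) x) = ∫ x in Om, s x ^ 2 * inner ℝ (gb x)
        (χ x • PC.G1 ε a b ga gb x + PC.q1 ε a b x • gr χ x) :=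
      setIntegral_congr_fun hOm fun x hx => by simp only [indicator_of_mem hx]
    have e2 : ∫ x in Om, s x ^ 2 * inner ℝ (ga x) (Om.indicator (fun x => χ x •
        PC.G2 ε a b ga gb x + PC.q2 ε a b x • gr χ x) x) = ∫ x in Om, s x ^ 2 * inner ℝ (ga x)
        (χ x • PC.G2 ε a b ga gb x + PC.q2 ε a b x • gr χ x) :=
      setIntegral_congr_fun hOm fun x hx => by simp only [indicator_of_mem hx]
    have e3 : ∫ x in Om, s x ^ 2 * Real.sin (2 * b x) * (Om.indicator (fun x => χ x *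
        PC.q1 ε a b x) x) = ∫ x in Om, s x ^ 2 * Real.sin (2 * b x) * (χ x * PC.q1 ε a b x) :=
      setIntegral_congr_fun hOm fun x hx => by simp only [indicator_of_mem hx]
    have e4 : ∫ x in Om, s x ^ 2 * Real.sin (2 * a x) * (Om.indicator (fun x => χ x *
        PC.q2 ε a b x) x) = ∫ x in Om, s x ^ 2 * Real.sin (2 * a x) * (χ x * PC.q2 ε a b x) :=
      setIntegral_congr_fun hOm fun x hx => by simp only [indicator_of_mem hx]
    rw [e1, e3] at t1
    rw [e2, e4] at t2
    -- integrability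
    have hq1m := hw1.intf.aestronglyMeasurable
    have hq2m := hw2.intf.aestronglyMeasurable
    have hG1m := hw1.intg.aestronglyMeasurable
    have hG2m := hw2.intg.aestronglyMeasurable
    have hv1 : AEStronglyMeasurable (fun x => χ x • PC.G1 ε a b ga gb x +
        PC.q1 ε a b x • gr χ x) (volume.restrict Om) :=
      (hχc.aestronglyMeasurable.smul hG1m).add (hq1m.smul hgrc.aestronglyMeasurable)
    have hv2 : AEStronglyMeasurable (fun x => χ x • PC.G2 ε a b ga gb x +
        PC.q2 ε a b x • gr χ x) (volume.restrict Om) :=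
      (hχc.aestronglyMeasurable.smul hG2m).add (hq2m.smul hgrc.aestronglyMeasurable)
    have hbound : ∀ {q : E → ℝ} {G : E → E}, (∀ x, 0 ≤ q x) → (∀ x, q x ≤ M) →
        (∀ x, ‖G x‖ ≤ CG * (‖ga x‖ + ‖gb x‖)) → ∀ x, ‖χ x • G x + q x • gr χ x‖ ≤
        (CG + M * (C0 / R)) * (‖ga x‖ + ‖gb x‖ + 1) := by
      intro q G hq0 hqM hG x
      refine (norm_add_le _ _).trans ?_
      rw [norm_smul, norm_smul, Real.norm_eq_abs, Real.norm_eq_abs, abs_of_nonneg (hχ01 x).1,
        abs_of_nonneg (hq0 x)]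
      have h2 : χ x * ‖G x‖ ≤ CG * (‖ga x‖ + ‖gb x‖) := by
        calc χ x * ‖G x‖ ≤ 1 * (CG * (‖ga x‖ + ‖gb x‖)) :=
              mul_le_mul (hχ01 x).2 (hG x) (norm_nonneg _) zero_le_one
          _ = _ := one_mul _
      have h3 : q x * ‖gr χ x‖ ≤ M * (C0 / R) :=
        mul_le_mul (hqM x) (hχg x) (norm_nonneg _) hM0
      have h4 : 0 ≤ M * (C0 / R) * (‖ga x‖ + ‖gb x‖) := by positivity
      have h5 : 0 ≤ CG := hCG0
      nlinarith [norm_nonneg (ga x), norm_nonneg (gb x)]
    have i1 : Integrable (fun x => s x ^ 2 * inner ℝ (gb x) (χ x • PC.G1 ε a b ga gb x +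
        PC.q1 ε a b x • gr χ x)) (volume.restrict Om) :=
      PC.int_inner hsr hga hgb haE hbE hgb hv1 (Eventually.of_forall fun x => by
        linarith [norm_nonneg (ga x)]) (Eventually.of_forall (hbound PC.q1_nonneg hq1M hG1))
    have i2 : Integrable (fun x => s x ^ 2 * inner ℝ (ga x) (χ x • PC.G2 ε a b ga gb x +
        PC.q2 ε a b x • gr χ x)) (volume.restrict Om) :=
      PC.int_inner hsr hga hgb haE hbE hga hv2 (Eventually.of_forall fun x => by
        linarith [norm_nonneg (gb x)]) (Eventually.of_forall (hbound PC.q2_nonneg hq2M hG2))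
    have hsinbm : AEStronglyMeasurable (fun x => Real.sin (2 * b x)) (volume.restrict Om) :=
      Real.continuous_sin.comp_aestronglyMeasurable (hbm.const_mul 2)
    have hsinam : AEStronglyMeasurable (fun x => Real.sin (2 * a x)) (volume.restrict Om) :=
      Real.continuous_sin.comp_aestronglyMeasurable (ham.const_mul 2)
    have i3 : Integrable (fun x => s x ^ 2 * Real.sin (2 * b x) * (χ x * PC.q1 ε a b x))
        (volume.restrict Om) := by
      refine (hs2.const_mul M).mono' (((hsm.pow 2).mul hsinbm).mul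
        (hχc.aestronglyMeasurable.mul hq1m)) (Eventually.of_forall fun x => ?_)
      rw [norm_mul, norm_mul, Real.norm_eq_abs, Real.norm_eq_abs, Real.norm_eq_abs,
        abs_of_nonneg (sq_nonneg _), abs_of_nonneg (hsinb x),
        abs_of_nonneg (mul_nonneg (hχ01 x).1 (PC.q1_nonneg x))]
      have h2 : χ x * PC.q1 ε a b x ≤ M := by
        calc χ x * PC.q1 ε a b x ≤ 1 * M :=
              mul_le_mul (hχ01 x).2 (hq1M x) (PC.q1_nonneg x) zero_le_one
          _ = M := one_mul _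
      calc s x ^ 2 * Real.sin (2 * b x) * (χ x * PC.q1 ε a b x) ≤ s x ^ 2 * 1 * M := by
            refine mul_le_mul (mul_le_mul_of_nonneg_left (Real.sin_le_one _) (sq_nonneg _)) h2
              (mul_nonneg (hχ01 x).1 (PC.q1_nonneg x)) (by positivity)
        _ = M * s x ^ 2 := by ring
    have i4 : Integrable (fun x => s x ^ 2 * Real.sin (2 * a x) * (χ x * PC.q2 ε a b x))
        (volume.restrict Om) := by
      refine (hs2.const_mul M).mono' (((hsm.pow 2).mul hsinam).mul
        (hχc.aestronglyMeasurable.mul hq2m)) (Eventually.of_forall fun x => ?_)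
      rw [norm_mul, norm_mul, Real.norm_eq_abs, Real.norm_eq_abs, Real.norm_eq_abs,
        abs_of_nonneg (sq_nonneg _), abs_of_nonneg (hsina x),
        abs_of_nonneg (mul_nonneg (hχ01 x).1 (PC.q2_nonneg x))]
      have h2 : χ x * PC.q2 ε a b x ≤ M := by
        calc χ x * PC.q2 ε a b x ≤ 1 * M :=
              mul_le_mul (hχ01 x).2 (hq2M x) (PC.q2_nonneg x) zero_le_one
          _ = M := one_mul _
      calc s x ^ 2 * Real.sin (2 * a x) * (χ x * PC.q2 ε a b x) ≤ s x ^ 2 * 1 * M := by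
            refine mul_le_mul (mul_le_mul_of_nonneg_left (Real.sin_le_one _) (sq_nonneg _)) h2
              (mul_nonneg (hχ01 x).1 (PC.q2_nonneg x)) (by positivity)
        _ = M * s x ^ 2 := by ring
    -- lower bound of the difference of the gradient terms
    have hlow : -(C0 * M * (Ka + Kb) / R) ≤
        (∫ x in Om, s x ^ 2 * inner ℝ (gb x) (χ x • PC.G1 ε a b ga gb x +
          PC.q1 ε a b x • gr χ x)) - ∫ x in Om, s x ^ 2 * inner ℝ (ga x) (χ x •
          PC.G2 ε a b ga gb x + PC.q2 ε a b x • gr χ x) := by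
      rw [← integral_sub i1 i2]
      have h2 : -(C0 * M * (Ka + Kb) / R) = ∫ x in Om, -((C0 / R * M) * (s x ^ 2 * ‖ga x‖ +
          s x ^ 2 * ‖gb x‖)) := by
        rw [integral_neg, integral_const_mul, integral_add h1a h1b]
        ring
      rw [h2]
      refine integral_mono ((h1a.add h1b).const_mul _).neg (i1.sub i2) fun x => ?_
      have hp := PC.picone (ga := ga) (gb := gb) (b := b) ha0 hε x
      simp only [inner_add_right, inner_smul_right]
      have h3 : |inner ℝ (gb x) (gr χ x)| ≤ ‖gb x‖ * (C0 / R) :=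
        (abs_real_inner_le_norm _ _).trans (mul_le_mul_of_nonneg_left (hχg x) (norm_nonneg _))
      have h4 : |inner ℝ (ga x) (gr χ x)| ≤ ‖ga x‖ * (C0 / R) :=
        (abs_real_inner_le_norm _ _).trans (mul_le_mul_of_nonneg_left (hχg x) (norm_nonneg _))
      have h5 : -(M * (‖gb x‖ * (C0 / R))) ≤ PC.q1 ε a b x * inner ℝ (gb x) (gr χ x) := by
        have h6 := (abs_le.1 h3).1
        have h7 : PC.q1 ε a b x * (-(‖gb x‖ * (C0 / R))) ≤
            PC.q1 ε a b x * inner ℝ (gb x) (gr χ x) :=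
          mul_le_mul_of_nonneg_left h6 (PC.q1_nonneg x)
        have h8 : PC.q1 ε a b x * (‖gb x‖ * (C0 / R)) ≤ M * (‖gb x‖ * (C0 / R)) :=
          mul_le_mul_of_nonneg_right (hq1M x) (by positivity)
        linarith
      have h5' : PC.q2 ε a b x * inner ℝ (ga x) (gr χ x) ≤ M * (‖ga x‖ * (C0 / R)) := by
        have h6 := (abs_le.1 h4).2
        have h7 : PC.q2 ε a b x * inner ℝ (ga x) (gr χ x) ≤
            PC.q2 ε a b x * (‖ga x‖ * (C0 / R)) :=
          mul_le_mul_of_nonneg_left h6 (PC.q2_nonneg x)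
        have h8 : PC.q2 ε a b x * (‖ga x‖ * (C0 / R)) ≤ M * (‖ga x‖ * (C0 / R)) :=
          mul_le_mul_of_nonneg_right (hq2M x) (by positivity)
        linarith
      have h9 : 0 ≤ χ x * (inner ℝ (gb x) (PC.G1 ε a b ga gb x) -
          inner ℝ (ga x) (PC.G2 ε a b ga gb x)) := mul_nonneg (hχ01 x).1 hp
      have h10 : -((C0 / R * M) * (‖ga x‖ + ‖gb x‖)) ≤
          (χ x * inner ℝ (gb x) (PC.G1 ε a b ga gb x) +
            PC.q1 ε a b x * inner ℝ (gb x) (gr χ x)) -
          (χ x * inner ℝ (ga x) (PC.G2 ε a b ga gb x) +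
            PC.q2 ε a b x * inner ℝ (ga x) (gr χ x)) := by
        have e5 : (C0 / R * M) * (‖ga x‖ + ‖gb x‖) =
            M * (‖gb x‖ * (C0 / R)) + M * (‖ga x‖ * (C0 / R)) := by ring
        rw [e5]
        rw [mul_sub] at h9
        linarith
      have h11 := mul_le_mul_of_nonneg_left h10 (sq_nonneg (s x))
      have e6 : -((C0 / R * M) * (s x ^ 2 * ‖ga x‖ + s x ^ 2 * ‖gb x‖)) =
          s x ^ 2 * -((C0 / R * M) * (‖ga x‖ + ‖gb x‖)) := by ring
      show -((C0 / R * M) * (s x ^ 2 * ‖ga x‖ + s x ^ 2 * ‖gb x‖)) ≤ _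
      rw [e6]
      refine h11.trans (le_of_eq ?_)
      ring
    have hFχ : (∫ x in Om, χ x * F ε x) =
        (∫ x in Om, s x ^ 2 * Real.sin (2 * b x) * (χ x * PC.q1 ε a b x)) -
          ∫ x in Om, s x ^ 2 * Real.sin (2 * a x) * (χ x * PC.q2 ε a b x) := by
      rw [← integral_sub i3 i4]
      refine integral_congr_ae (Eventually.of_forall fun x => ?_)
      simp only [hF]
      ring
    rw [hFχ, mul_sub]
    linarith
  -- Step B
  have stepB : ∀ ε, 0 < ε → ε ≤ 1 → 0 ≤ ∫ x in Om, F ε x := by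
    intro ε hε hε1
    obtain ⟨K, hK0, hK⟩ := stepA ε hε hε1
    choose χ h1 h2 h3 h4 h5 using hcut
    set R : ℕ → ℝ := fun n => (n : ℝ) + 1 with hR
    have hR1 : ∀ n, 1 ≤ R n := fun n => by simp [hR]
    have hlim : Tendsto (fun n => (Q / 2) * (∫ x in Om, χ (R n) (hR1 n) x * F ε x) + K / R n)
        atTop (𝓝 ((Q / 2) * (∫ x in Om, F ε x) + 0)) := by
      refine Tendsto.add (Tendsto.const_mul _ ?_) ?_
      · refine tendsto_integral_of_dominated_convergence (fun x => |F ε x|)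
          (fun n => (h1 _ _).continuous.aestronglyMeasurable.mul (hFm ε hε)) (hFi ε hε).norm
          (fun n => Eventually.of_forall fun x => ?_) (Eventually.of_forall fun x => ?_)
        · rw [norm_mul, Real.norm_eq_abs, Real.norm_eq_abs,
            abs_of_nonneg (h2 (R n) (hR1 n) x).1]
          calc χ (R n) (hR1 n) x * |F ε x| ≤ 1 * |F ε x| :=
                mul_le_mul_of_nonneg_right (h2 (R n) (hR1 n) x).2 (abs_nonneg _)
            _ = _ := one_mul _
        · refine tendsto_const_nhds.congr' ?_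
          filter_upwards [(tendsto_natCast_atTop_atTop (R := ℝ)).eventually_ge_atTop ‖x‖] with n hn
          rw [h3 (R n) (hR1 n) x (by simp only [hR]; linarith), one_mul]
      · have : Tendsto R atTop atTop := tendsto_atTop_add_const_right _ _
          tendsto_natCast_atTop_atTop
        exact tendsto_const_nhds.div_atTop this
    have hge : 0 ≤ (Q / 2) * (∫ x in Om, F ε x) + 0 :=
      ge_of_tendsto' hlim fun n => hK (R n) _ (hR1 n) (h1 _ _) (h2 _ _) (h4 _ _) (h5 _ _)
    rw [add_zero] at hge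
    exact nonneg_of_mul_nonneg_right hge (by positivity)
  -- Step C
  have stepC : 0 ≤ ∫ x in Om, s x ^ 2 * PC.L a b x := by
    set e : ℕ → ℝ := fun n => 1 / ((n : ℝ) + 1) with he
    have he0 : ∀ n, 0 < e n := fun n => by simp only [he]; positivity
    have he1 : ∀ n, e n ≤ 1 := fun n => by
      simp only [he]
      rw [div_le_one (by positivity)]
      linarith [(Nat.cast_nonneg n : (0 : ℝ) ≤ n)]
    have hlime : Tendsto e atTop (𝓝 0) := tendsto_one_div_add_atTop_nhds_zero_nat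
    have hlim : Tendsto (fun n => ∫ x in Om, F (e n) x) atTop
        (𝓝 (∫ x in Om, s x ^ 2 * PC.L a b x)) := by
      refine tendsto_integral_of_dominated_convergence (fun x => 8 * s x ^ 2)
        (fun n => hFm _ (he0 n)) (hs2.const_mul 8)
        (fun n => Eventually.of_forall (hFb _ (he0 n))) ?_
      filter_upwards [hapos] with x hx
      refine Tendsto.const_mul _ (Tendsto.sub (Tendsto.const_mul _ ?_) (Tendsto.const_mul _ ?_))
      · exact PC.tendsto_q1 hx (hb0 x) he0 hlime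
      · exact PC.tendsto_q2 hx hlime
    exact ge_of_tendsto' hlim fun n => stepB _ (he0 n) (he1 n)
  -- Step D
  have hLi : Integrable (fun x => s x ^ 2 * PC.L a b x) (volume.restrict Om) := by
    have hLm : AEStronglyMeasurable (fun x => s x ^ 2 * PC.L a b x) (volume.restrict Om) := by
      have h1 : AEStronglyMeasurable (fun x => Real.sin (2 * b x)) (volume.restrict Om) :=
        Real.continuous_sin.comp_aestronglyMeasurable (hbm.const_mul 2)
      have h2 : AEStronglyMeasurable (fun x => Real.sin (2 * a x)) (volume.restrict Om) :=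
        Real.continuous_sin.comp_aestronglyMeasurable (ham.const_mul 2)
      have h3 : AEStronglyMeasurable (fun x => max (b x - a x ^ 2 / b x) 0)
          (volume.restrict Om) :=
        (hbm.sub ((ham.pow 2).div₀ hbm)).sup aestronglyMeasurable_const
      have h4 : AEStronglyMeasurable (fun x => max (b x ^ 2 / a x - a x) 0)
          (volume.restrict Om) :=
        (((hbm.pow 2).div₀ ham).sub ham).sup aestronglyMeasurable_const
      exact (hsm.pow 2).mul ((h1.mul h3).sub (h2.mul h4))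
    refine (hs2.const_mul 8).mono' hLm ?_
    -- the limit of bounded functions
    filter_upwards [hapos] with x hx
    set e : ℕ → ℝ := fun n => 1 / ((n : ℝ) + 1) with he
    have he0 : ∀ n, 0 < e n := fun n => by simp only [he]; positivity
    have hlime : Tendsto e atTop (𝓝 0) := tendsto_one_div_add_atTop_nhds_zero_nat
    have hlim : Tendsto (fun n => F (e n) x) atTop (𝓝 (s x ^ 2 * PC.L a b x)) := by
      refine Tendsto.const_mul _ (Tendsto.sub (Tendsto.const_mul _ ?_) (Tendsto.const_mul _ ?_))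
      · exact PC.tendsto_q1 hx (hb0 x) he0 hlime
      · exact PC.tendsto_q2 hx hlime
    exact le_of_tendsto' hlim.norm fun n => hFb _ (he0 n) x
  have hnn : 0 ≤ᵐ[volume.restrict Om] fun x => -(s x ^ 2 * PC.L a b x) := by
    filter_upwards [hapos] with x hx
    have h1 := PC.L_nonpos (a := a) (b := b) hx (hb0 x) (hbc x)
    have h2 := mul_nonneg (sq_nonneg (s x)) (neg_nonneg.2 h1)
    show 0 ≤ -(s x ^ 2 * PC.L a b x)
    linarith
  have hzero : ∫ x in Om, -(s x ^ 2 * PC.L a b x) = 0 := by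
    refine le_antisymm ?_ (integral_nonneg_of_ae hnn)
    rw [integral_neg]
    linarith
  have hae := (integral_eq_zero_iff_of_nonneg_ae hnn hLi.neg).1 hzero
  filter_upwards [hapos, hae] with x hx hx0
  by_contra hcon
  rw [not_le] at hcon
  have h1 := PC.L_neg (a := a) (b := b) hx hcon (hbc x)
  have h2 : 0 < s x ^ 2 := pow_pos (hs0 x) 2
  have h3 : -(s x ^ 2 * PC.L a b x) = 0 := hx0
  nlinarith

/-- LEMMA CS (Diaz-Saa / Brezis-Oswald comparison): `a` a supersolution, `b` a subsolution of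
`-div (s² ∇·) = (Q/2) s² sin (2·)` on `Om`, `0 < a ≤ π/2`, `0 ≤ b ≤ π/2`, `(b - a)₊` of zero trace
(locally): then `b ≤ a`. -/
theorem CS {Om : Set E} (hO : IsOpen Om) {s a b : E → ℝ} {ga gb : E → E} {Q : ℝ}
    (hQ : 0 < Q) (hs : MemLp s 2 volume) (hsc : Continuous s) (hs0 : ∀ x, 0 < s x)
    (ha : WG Om a ga) (hb : WG Om b gb)
    (ha0 : ∀ᵐ x ∂(volume.restrict Om), 0 < a x ∧ a x ≤ Real.pi / 2)
    (hb0 : ∀ᵐ x ∂(volume.restrict Om), 0 ≤ b x ∧ b x ≤ Real.pi / 2)
    (haE : IntegrableOn (fun x => s x ^ 2 * ‖ga x‖ ^ 2) Om)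
    (hbE : IntegrableOn (fun x => s x ^ 2 * ‖gb x‖ ^ 2) Om)
    (hEL : ∀ p gp, TC Om p gp → (Q / 2) * ∫ x in Om, s x ^ 2 * Real.sin (2 * a x) * p x ≤
      ∫ x in Om, s x ^ 2 * inner ℝ (ga x) (gp x))
    (hSub : ∀ p gp, TC Om p gp → ∫ x in Om, s x ^ 2 * inner ℝ (gb x) (gp x) ≤
      (Q / 2) * ∫ x in Om, s x ^ 2 * Real.sin (2 * b x) * p x)
    (hbd : ∀ k, Test univ k → ∃ l, H10 Om (Om.indicator fun x => k x * max (b x - a x) 0) l) :
    ∀ᵐ x ∂(volume.restrict Om), b x ≤ a x := by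
  have hOm : MeasurableSet Om := hO.measurableSet
  set a1 : E → ℝ := fun x => min (max (a x) 0) (Real.pi / 2) with ha1
  set b1 : E → ℝ := fun x => min (max (b x) 0) (Real.pi / 2) with hb1
  have hpi : 0 ≤ Real.pi / 2 := by positivity
  have ea : a =ᵐ[volume.restrict Om] a1 := by
    filter_upwards [ha0] with x hx
    simp only [ha1]
    rw [max_eq_left hx.1.le, min_eq_left hx.2]
  have eb : b =ᵐ[volume.restrict Om] b1 := by
    filter_upwards [hb0] with x hx
    simp only [hb1]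
    rw [max_eq_left hx.1, min_eq_left hx.2]
  have key : ∀ᵐ x ∂(volume.restrict Om), b1 x ≤ a1 x := by
    refine PC.CS_pt (a := a1) (b := b1) hO hQ hs hsc hs0
      (ha.congr hO ea (Filter.EventuallyEq.refl _ _))
      (hb.congr hO eb (Filter.EventuallyEq.refl _ _))
      (fun x => le_min (le_max_right _ _) hpi) (fun x => min_le_right _ _)
      (fun x => le_min (le_max_right _ _) hpi) (fun x => min_le_right _ _) ?_ haE hbE ?_ ?_ ?_
    · filter_upwards [ha0, ea] with x hx hx'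
      rw [← hx']; exact hx.1
    · intro p gp hp
      have e : ∫ x in Om, s x ^ 2 * Real.sin (2 * a1 x) * p x =
          ∫ x in Om, s x ^ 2 * Real.sin (2 * a x) * p x := by
        refine integral_congr_ae ?_
        filter_upwards [ea] with x hx
        rw [hx]
      rw [e]
      exact hEL p gp hp
    · intro p gp hp
      have e : ∫ x in Om, s x ^ 2 * Real.sin (2 * b1 x) * p x =
          ∫ x in Om, s x ^ 2 * Real.sin (2 * b x) * p x := by
        refine integral_congr_ae ?_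
        filter_upwards [eb] with x hx
        rw [hx]
      rw [e]
      exact hSub p gp hp
    · intro k hk
      obtain ⟨l, hl⟩ := hbd k hk
      refine ⟨l, hl.congr ?_ (Filter.EventuallyEq.refl _ _)⟩
      have ea' := (ae_restrict_iff' hOm).1 ea
      have eb' := (ae_restrict_iff' hOm).1 eb
      filter_upwards [ea', eb'] with x hx hx'
      by_cases hxO : x ∈ Om
      · rw [indicator_of_mem hxO, indicator_of_mem hxO, hx hxO, hx' hxO]
      · rw [indicator_of_notMem hxO, indicator_of_notMem hxO]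
  filter_upwards [key, ea, eb] with x hx h1 h2
  rw [h1, h2]; exact hx

end Crest.Agent.R335
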