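import Crest.Agent.R335.HZero
import Crest.Agent.R335.HProd
import Crest.Agent.R335.HWeak
import Crest.Agent.R335.HCut
import Crest.Agent.R335.HBasic

/-!
Row 335 (S0521), Part C: membership in `H¹₀(U)` of functions which are only weakly differentiable
on `U` and lie between `0` and an `H¹₀(U)` function (module PCZero).
-/

set_option autoImplicit false
set_option linter.unusedSectionVars false

open MeasureTheory Filter Set
open scoped ENNReal Topology ContDiff

noncomputable section
namespace Crest.Agent.R335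

variable {ι : Type*} [Fintype ι] [DecidableEq ι]

local notation "E" => EuclideanSpace ℝ ι

theorem PC.gr_const (c : ℝ) : gr (fun _ : E => c) = fun _ => (0 : E) := by
  funext x
  ext i
  rw [gr_apply, pd, fderiv_const_apply]
  rfl

theorem PC.WG_const {U : Set E} (hU : IsOpen U) (c : ℝ) :
    WG U (fun _ => c) (fun _ => (0 : E)) := by
  have h := WG.of_contDiffOn hU (f := fun _ : E => c) contDiffOn_const
  rwa [PC.gr_const] at h

/-- zero trace lemma: `0 ≤ w ≤ P` on `U` with `P ∈ H¹₀(U)` and `w ∈ H¹(U)` gives `w ∈ H¹₀(U)`. -/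
theorem H10.of_WG_le {U : Set E} (hU : IsOpen U) {P w : E → ℝ} {gP gw : E → E}
    (hP : H10 U P gP) (hw : WG U w gw) (hw2 : MemLp w 2 (volume.restrict U))
    (hgw2 : MemLp gw 2 (volume.restrict U)) (h0 : ∀ᵐ x ∂(volume.restrict U), 0 ≤ w x)
    (hle : ∀ᵐ x ∂(volume.restrict U), w x ≤ P x) :
    H10 U (U.indicator w) (U.indicator gw) := by
  have hUm : MeasurableSet U := hU.measurableSet
  obtain ⟨φ, h1, h2⟩ := hP.approx
  set f : ℕ → E → ℝ := fun n x => min (max (w x) 0) (max (φ n x) 0) with hf
  set g : ℕ → E → E := fun n x => if max (w x) 0 < max (φ n x) 0 then (if 0 < w x then gw x else 0)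
    else (if 0 < φ n x then gr (φ n) x else 0) with hg
  have hwg : ∀ n, WG U (f n) (g n) := fun n =>
    (hw.pos hU).min hU (((H1.of_test (h1 n)).wg.mono (subset_univ U)).pos hU)
  have hout : ∀ n x, x ∉ tsupport (φ n) → f n x = 0 ∧ g n x = 0 := by
    intro n x hx
    have hz : φ n x = 0 := image_eq_zero_of_notMem_tsupport hx
    constructor
    · simp only [hf, hz, max_self]
      exact min_eq_right (le_max_right _ _)
    · simp only [hg, hz, max_self]
      rw [if_neg (not_lt.2 (le_max_right _ _)), if_neg (lt_irrefl _)]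
  have hwgu : ∀ n, WG univ (f n) (g n) := fun n =>
    (hwg n).extend_zero hU (h1 n).cpt (h1 n).sub (fun x hx => (hout n x hx).1)
      (fun x hx => (hout n x hx).2)
  have hfb : ∀ n x, |f n x| ≤ |φ n x| := by
    intro n x
    have h3 : 0 ≤ f n x := le_min (le_max_right _ _) (le_max_right _ _)
    rw [abs_of_nonneg h3]
    exact (min_le_right _ _).trans (max_le (le_abs_self _) (abs_nonneg _))
  have hfm : ∀ n, AEStronglyMeasurable (f n) volume := fun n => by
    have := (hwgu n).intf.aestronglyMeasurable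
    rwa [Measure.restrict_univ] at this
  have hgm : ∀ n, AEStronglyMeasurable (g n) volume := fun n => by
    have := (hwgu n).intg.aestronglyMeasurable
    rwa [Measure.restrict_univ] at this
  have hgwI : MemLp (U.indicator gw) 2 volume := by
    rw [memLp_indicator_iff_restrict hUm]; exact hgw2
  have hwI : MemLp (U.indicator w) 2 volume := by
    rw [memLp_indicator_iff_restrict hUm]; exact hw2
  have hgb : ∀ n x, ‖g n x‖ ≤ ‖U.indicator gw x‖ + ‖gr (φ n) x‖ := by
    intro n x
    by_cases hx : x ∈ tsupport (φ n)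
    · have hxU : x ∈ U := (h1 n).sub hx
      rw [indicator_of_mem hxU]
      simp only [hg]
      split_ifs
      · linarith [norm_nonneg (gr (φ n) x)]
      · rw [norm_zero]; positivity
      · linarith [norm_nonneg (gw x)]
      · rw [norm_zero]; positivity
    · rw [(hout n x hx).2, norm_zero]; positivity
  have hH1 : ∀ n, H1 (f n) (g n) := by
    intro n
    have ht := H1.of_test (h1 n)
    refine ⟨?_, ?_, hwgu n⟩
    · refine ht.memf.mono (hfm n) (Eventually.of_forall fun x => ?_)
      rw [Real.norm_eq_abs, Real.norm_eq_abs]; exact hfb n x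
    · refine MemLp.mono (hgwI.norm.add ht.memg.norm) (hgm n) (Eventually.of_forall fun x => ?_)
      refine (hgb n x).trans (le_abs_self _)
  have hlimf : Tendsto (fun n => eLpNorm (fun x => f n x - U.indicator w x) 2 volume) atTop
      (𝓝 0) := by
    refine HZ.tendsto_mono 1 (fun n => ?_) h2.1
    have h0' := (ae_restrict_iff' hUm).1 h0
    have hle' := (ae_restrict_iff' hUm).1 hle
    filter_upwards [h0', hle'] with x hx0 hxle
    rw [one_mul, Real.norm_eq_abs, Real.norm_eq_abs]
    by_cases hxU : x ∈ U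
    · rw [indicator_of_mem hxU]
      have ha := hx0 hxU
      have hb := hxle hxU
      have e1 : w x = min (max (w x) 0) (max (P x) 0) := by
        rw [max_eq_left ha, max_eq_left (ha.trans hb), min_eq_left hb]
      calc |f n x - w x| = |min (max (w x) 0) (max (φ n x) 0) -
            min (max (w x) 0) (max (P x) 0)| := by rw [← e1]
        _ ≤ max |max (w x) 0 - max (w x) 0| |max (φ n x) 0 - max (P x) 0| :=
            abs_min_sub_min_le_max _ _ _ _
        _ ≤ |max (φ n x) 0 - max (P x) 0| := by
            rw [sub_self, abs_zero]; exact max_le (abs_nonneg _) le_rfl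
        _ ≤ max |φ n x - P x| |(0 : ℝ) - 0| := abs_max_sub_max_le_max _ _ _ _
        _ ≤ |φ n x - P x| := by
            rw [sub_zero, abs_zero]; exact max_le le_rfl (abs_nonneg _)
    · rw [indicator_of_notMem hxU]
      have : x ∉ tsupport (φ n) := fun h => hxU ((h1 n).sub h)
      rw [(hout n x this).1, sub_zero, abs_zero]
      exact abs_nonneg _
  -- uniform bound of the gradients
  have hbdd : ∃ C, ∀ n, ∫ x, ‖g n x‖ ^ 2 ≤ C := by
    have hgrn : ∃ C, ∀ n, ∫ x, ‖gr (φ n) x‖ ^ 2 ≤ C := by
      have ht : Tendsto (fun n => ((H1.of_test (h1 n)).memg.toLp (gr (φ n)))) atTop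
          (𝓝 (hP.h1.memg.toLp gP)) := by
        rw [Lp.tendsto_Lp_iff_tendsto_eLpNorm'']
        exact h2.2
      have ht2 := (ht.norm.pow 2).bddAbove_range
      obtain ⟨C, hC⟩ := ht2
      refine ⟨C, fun n => ?_⟩
      rw [← norm_toLp_sq (H1.of_test (h1 n)).memg]
      exact hC ⟨n, rfl⟩
    obtain ⟨C, hC⟩ := hgrn
    refine ⟨2 * (∫ x, ‖U.indicator gw x‖ ^ 2) + 2 * C, fun n => ?_⟩
    have i1 : Integrable (fun x => ‖U.indicator gw x‖ ^ 2) := hgwI.integrable_norm_pow two_ne_zero
    have i2 : Integrable (fun x => ‖gr (φ n) x‖ ^ 2) :=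
      (H1.of_test (h1 n)).memg.integrable_norm_pow two_ne_zero
    have i3 : Integrable (fun x => ‖g n x‖ ^ 2) := (hH1 n).memg.integrable_norm_pow two_ne_zero
    calc ∫ x, ‖g n x‖ ^ 2 ≤ ∫ x, (2 * ‖U.indicator gw x‖ ^ 2 + 2 * ‖gr (φ n) x‖ ^ 2) := by
          refine integral_mono i3 ((i1.const_mul 2).add (i2.const_mul 2)) fun x => ?_
          have := hgb n x
          have h5 : ‖g n x‖ ^ 2 ≤ (‖U.indicator gw x‖ + ‖gr (φ n) x‖) ^ 2 :=
            pow_le_pow_left₀ (norm_nonneg _) this 2
          show ‖g n x‖ ^ 2 ≤ 2 * ‖U.indicator gw x‖ ^ 2 + 2 * ‖gr (φ n) x‖ ^ 2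
          nlinarith [sq_nonneg (‖U.indicator gw x‖ - ‖gr (φ n) x‖)]
      _ = 2 * (∫ x, ‖U.indicator gw x‖ ^ 2) + 2 * ∫ x, ‖gr (φ n) x‖ ^ 2 := by
          rw [integral_add (i1.const_mul 2) (i2.const_mul 2), integral_const_mul,
            integral_const_mul]
      _ ≤ _ := by linarith [hC n]
  obtain ⟨C, hC⟩ := hbdd
  obtain ⟨G, hG, -⟩ := H1.of_bounded hH1 hwI hlimf hC
  -- identify the gradient
  have hGe : G =ᵐ[volume] U.indicator gw := by
    have e1 : G =ᵐ[volume.restrict U] gw := by
      have hGU : WG U (U.indicator w) G := hG.wg.mono (subset_univ U)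
      have hGU' : WG U w G := hGU.congr hU (by
        filter_upwards [ae_restrict_mem hUm] with x hx
        exact indicator_of_mem hx _) (Filter.EventuallyEq.refl _ _)
      exact hGU'.unique hU hw
    have e2 := hG.wg.zero_of_level isOpen_univ 0
    rw [Measure.restrict_univ] at e2
    have e1' := (ae_restrict_iff' hUm).1 e1
    filter_upwards [e1', e2] with x hx1 hx2
    by_cases hxU : x ∈ U
    · rw [indicator_of_mem hxU]; exact hx1 hxU
    · rw [indicator_of_notMem hxU]; exact hx2 (indicator_of_notMem hxU _)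
  have hW1 : H1 (U.indicator w) (U.indicator gw) :=
    hG.congr (Filter.EventuallyEq.refl _ _) hGe
  refine H10.of_le hU hP hW1 ?_ ?_
  · have h0' := (ae_restrict_iff' hUm).1 h0
    filter_upwards [h0'] with x hx
    by_cases hxU : x ∈ U
    · rw [indicator_of_mem hxU]; exact hx hxU
    · rw [indicator_of_notMem hxU]
  · have hle' := (ae_restrict_iff' hUm).1 hle
    filter_upwards [hle', hP.ae_eq_zero] with x hx hx2
    by_cases hxU : x ∈ U
    · rw [indicator_of_mem hxU]; exact hx hxU
    · rw [indicator_of_notMem hxU, hx2 hxU]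

end Crest.Agent.R335
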