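import Crest.Agent.R335.HSob
import Crest.Agent.R335.HLip
import Crest.Agent.R335.KDefs
import Crest.Agent.R335.PCZero

/-!
Row 335 (S0521), PART C: local sup bound (De Giorgi) for
`div (a ∇u) = div G - f`, `|f| ≤ A |u| + H`, `G ∈ L⁶`.
-/

set_option autoImplicit false

open MeasureTheory Filter Set Crest.MathPhysics.ThreeBody
open scoped ENNReal Topology ContDiff

noncomputable section
namespace Crest.Agent.R335

/-- Hölder `6 → 2` on a set of measure at most `v³` -/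
theorem SB.holder {F : Type*} [NormedAddCommGroup F] {S : Set Pos3} {h : Pos3 → F}
    (hh : MemLp h 6 (volume.restrict S)) {v : ℝ} (hv : 0 ≤ v)
    (hS : volume S ≤ ENNReal.ofReal (v ^ 3)) :
    MemLp h 2 (volume.restrict S) ∧
    ∫ x in S, ‖h x‖ ^ 2 ≤ (eLpNorm h 6 (volume.restrict S)).toReal ^ 2 * v ^ 2 := by
  have h1 := eLpNorm_le_eLpNorm_mul_rpow_measure_univ (μ := volume.restrict S) (f := h)
    (p := 2) (q := 6) (by norm_num) hh.1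
  have he : (1 / (2 : ℝ≥0∞).toReal - 1 / (6 : ℝ≥0∞).toReal) = 1 / 3 := by norm_num
  rw [he, Measure.restrict_apply_univ] at h1
  have h2 : volume S ^ ((1 : ℝ) / 3) ≤ ENNReal.ofReal v := by
    calc volume S ^ ((1 : ℝ) / 3) ≤ (ENNReal.ofReal (v ^ 3)) ^ ((1 : ℝ) / 3) :=
          ENNReal.rpow_le_rpow hS (by norm_num)
      _ = ENNReal.ofReal ((v ^ 3) ^ ((1 : ℝ) / 3)) :=
          ENNReal.ofReal_rpow_of_nonneg (by positivity) (by norm_num)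
      _ = ENNReal.ofReal v := by
          congr 1
          rw [← Real.rpow_natCast v 3, ← Real.rpow_mul hv]
          norm_num
  have h3 : eLpNorm h 2 (volume.restrict S) ≤
      eLpNorm h 6 (volume.restrict S) * ENNReal.ofReal v :=
    h1.trans (mul_le_mul_right h2 _)
  have hfin : eLpNorm h 6 (volume.restrict S) * ENNReal.ofReal v < ⊤ :=
    ENNReal.mul_lt_top hh.2 ENNReal.ofReal_lt_top
  have hm2 : MemLp h 2 (volume.restrict S) := ⟨hh.1, h3.trans_lt hfin⟩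
  refine ⟨hm2, ?_⟩
  have h4 : (eLpNorm h 2 (volume.restrict S)).toReal ≤
      (eLpNorm h 6 (volume.restrict S)).toReal * v := by
    have := ENNReal.toReal_mono hfin.ne h3
    rwa [ENNReal.toReal_mul, ENNReal.toReal_ofReal hv] at this
  have h5 : (eLpNorm h 2 (volume.restrict S)).toReal ^ 2 = ∫ x in S, ‖h x‖ ^ 2 := by
    rw [← ENNReal.toReal_pow, eLpNorm_two_sq, lintegral_enorm_sq hm2,
      ENNReal.toReal_ofReal (integral_nonneg fun x => by positivity)]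
  rw [← h5, ← mul_pow]
  exact pow_le_pow_left₀ ENNReal.toReal_nonneg h4 2

/-- cutoff: `1` on `‖x‖ ≤ r'`, `0` on `‖x‖ ≥ r` -/
def SB.cut (r' r : ℝ) (x : Pos3) : ℝ := max 0 (min 1 ((r - ‖x‖) / (r - r')))

theorem SB.cut_nonneg (r' r : ℝ) (x : Pos3) : 0 ≤ SB.cut r' r x := le_max_left _ _

theorem SB.cut_le_one (r' r : ℝ) (x : Pos3) : SB.cut r' r x ≤ 1 :=
  max_le zero_le_one (min_le_left _ _)

theorem SB.cut_eq_one {r' r : ℝ} (h : r' < r) {x : Pos3} (hx : ‖x‖ ≤ r') : SB.cut r' r x = 1 := by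
  unfold SB.cut
  have h1 : 1 ≤ (r - ‖x‖) / (r - r') := by
    rw [le_div_iff₀ (by linarith)]
    linarith
  rw [min_eq_left h1, max_eq_right zero_le_one]

theorem SB.cut_eq_zero {r' r : ℝ} (h : r' < r) {x : Pos3} (hx : r ≤ ‖x‖) : SB.cut r' r x = 0 := by
  unfold SB.cut
  have h1 : (r - ‖x‖) / (r - r') ≤ 0 := div_nonpos_of_nonpos_of_nonneg (by linarith) (by linarith)
  exact max_eq_left ((min_le_right _ _).trans h1)

theorem SB.cut_lip {r' r : ℝ} (h : r' < r) :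
    LipschitzWith (Real.toNNReal (1 / (r - r'))) (SB.cut r' r) := by
  have hL : 0 ≤ 1 / (r - r') := by
    have : 0 < r - r' := by linarith
    positivity
  have h1 : LipschitzWith (Real.toNNReal (1 / (r - r'))) fun x : Pos3 => (r - ‖x‖) / (r - r') := by
    refine LipschitzWith.of_dist_le_mul fun x y => ?_
    rw [Real.coe_toNNReal _ hL, Real.dist_eq, div_sub_div_same]
    have h2 : r - ‖x‖ - (r - ‖y‖) = -(‖x‖ - ‖y‖) := by ring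
    rw [h2, abs_div, abs_neg, abs_of_pos (by linarith : 0 < r - r'), div_eq_inv_mul, one_div]
    refine mul_le_mul_of_nonneg_left ?_ (by rw [one_div] at hL; exact hL)
    rw [dist_eq_norm]
    exact abs_norm_sub_norm_le x y
  have h2 := (h1.const_min 1).const_max 0
  exact h2

/-- data of a solution -/
structure SB.Data (c0 C0 A R Cb : ℝ) (a u f : Pos3 → ℝ) (gu G : Pos3 → Pos3) (M H : ℝ) :
    Prop where
  am : AEStronglyMeasurable a volume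
  ha : ∀ᵐ x, ‖x‖ ≤ 2 * R → c0 ≤ a x ∧ a x ≤ C0
  wg : WG univ u gu
  um : Measurable u
  ub : ∀ x, |u x| ≤ Cb
  mg : MemLp gu 2 (volume.restrict (Metric.closedBall 0 (2 * R)))
  mG : MemLp G 6 (volume.restrict (Metric.closedBall 0 (2 * R)))
  fm : AEStronglyMeasurable f volume
  hf : ∀ᵐ x, ‖x‖ ≤ 2 * R → |f x| ≤ A * |u x| + H
  eq : ∀ φ gφ, BT φ gφ → (∀ᵐ x, 2 * R ≤ ‖x‖ → φ x = 0) →
    ∫ x, a x * inner ℝ (gu x) (gφ x) = (∫ x, inner ℝ (G x) (gφ x)) + ∫ x, f x * φ x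
  hM : (eLpNorm G 6 (volume.restrict (Metric.closedBall 0 (2 * R)))).toReal ≤ M

/-- the constant of the energy inequality -/
def SB.Cq (c0 C0 A : ℝ) : ℝ :=
  2 + (4 / c0) * (4 * C0 ^ 2 / c0 + 1) + (4 / c0) * (1 / c0 + 1) + (4 / c0) * (A + 1)

/-- scalar form of the pointwise inequality -/
theorem SB.scalar {c0 C0 A H L κ a f ζ w g z t p q s : ℝ} (hc0 : 0 < c0)
    (hCa : c0 ≤ a) (hCb : a ≤ C0) (hA : 0 ≤ A)
    (hz0 : 0 ≤ ζ) (hz1 : ζ ≤ 1) (hz : 0 ≤ z) (hgz : z ≤ L)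
    (hw : 0 ≤ w) (hf : |f| ≤ A * (w + κ) + H)
    (hp : |p| ≤ g * z) (hq : |q| ≤ t * g) (hs : |s| ≤ t * z) :
    2 * ζ ^ 2 * g ^ 2 + 2 * w ^ 2 * z ^ 2 ≤
      (4 / c0) * (a * (ζ ^ 2 * g ^ 2 + 2 * ζ * w * p) - (ζ ^ 2 * q + 2 * ζ * w * s)
        - f * (ζ ^ 2 * w)) +
      SB.Cq c0 C0 A * ((L ^ 2 + 1) * w ^ 2 + t ^ 2 + (A * κ + H) ^ 2) := by
  have hC0 : 0 < C0 := hc0.trans_le (hCa.trans hCb)
  have ha : 0 < a := hc0.trans_le hCa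
  have e1 : c0 * (ζ ^ 2 * g ^ 2) ≤ a * (ζ ^ 2 * g ^ 2) :=
    mul_le_mul_of_nonneg_right hCa (by positivity)
  have e2 : -(c0 / 4 * (ζ ^ 2 * g ^ 2) + 4 * C0 ^ 2 / c0 * (w ^ 2 * z ^ 2)) ≤
      a * (2 * ζ * w * p) := by
    have h1 : |a * (2 * ζ * w * p)| ≤ C0 * (2 * ζ * w * (g * z)) := by
      rw [abs_mul, abs_of_pos ha, abs_mul, abs_of_nonneg (by positivity : 0 ≤ 2 * ζ * w)]
      exact mul_le_mul hCb (mul_le_mul_of_nonneg_left hp (by positivity)) (by positivity) hC0.le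
    have h2 : C0 * (2 * ζ * w * (g * z)) ≤
        c0 / 4 * (ζ ^ 2 * g ^ 2) + 4 * C0 ^ 2 / c0 * (w ^ 2 * z ^ 2) := by
      have h3 : c0 / 4 * (ζ ^ 2 * g ^ 2) + 4 * C0 ^ 2 / c0 * (w ^ 2 * z ^ 2) -
          C0 * (2 * ζ * w * (g * z)) =
          1 / c0 * ((c0 * (ζ * g) / 2 - 2 * C0 * (w * z)) ^ 2) := by
        field_simp
        ring
      have h4 : 0 ≤ 1 / c0 * ((c0 * (ζ * g) / 2 - 2 * C0 * (w * z)) ^ 2) := by positivity
      linarith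
    have h5 := neg_abs_le (a * (2 * ζ * w * p))
    linarith
  have e3 : ζ ^ 2 * q ≤ c0 / 4 * (ζ ^ 2 * g ^ 2) + 1 / c0 * (ζ ^ 2 * t ^ 2) := by
    have h1 : ζ ^ 2 * q ≤ ζ ^ 2 * (t * g) :=
      mul_le_mul_of_nonneg_left ((le_abs_self q).trans hq) (by positivity)
    have h3 : c0 / 4 * (ζ ^ 2 * g ^ 2) + 1 / c0 * (ζ ^ 2 * t ^ 2) - ζ ^ 2 * (t * g) =
        ζ ^ 2 / c0 * ((c0 * g / 2 - t) ^ 2) := by
      field_simp
      ring
    have h4 : 0 ≤ ζ ^ 2 / c0 * ((c0 * g / 2 - t) ^ 2) := by positivity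
    linarith
  have e4 : 2 * ζ * w * s ≤ w ^ 2 * z ^ 2 + ζ ^ 2 * t ^ 2 := by
    have h1 : 2 * ζ * w * s ≤ 2 * ζ * w * (t * z) :=
      mul_le_mul_of_nonneg_left ((le_abs_self s).trans hs) (by positivity)
    have h2 := sq_nonneg (w * z - ζ * t)
    have h3 : (w * z - ζ * t) ^ 2 = w ^ 2 * z ^ 2 + ζ ^ 2 * t ^ 2 - 2 * ζ * w * (t * z) := by ring
    linarith
  have e5 : f * (ζ ^ 2 * w) ≤ (A + 1) * w ^ 2 + (A + 1) * (A * κ + H) ^ 2 := by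
    have hz2 : ζ ^ 2 ≤ 1 := pow_le_one₀ hz0 hz1
    have h1 : f * (ζ ^ 2 * w) ≤ (A * (w + κ) + H) * (ζ ^ 2 * w) :=
      mul_le_mul_of_nonneg_right ((le_abs_self f).trans hf) (by positivity)
    have h0 : 0 ≤ A * (w + κ) + H := (abs_nonneg f).trans hf
    have h2 : (A * (w + κ) + H) * (ζ ^ 2 * w) ≤ (A * (w + κ) + H) * (1 * w) :=
      mul_le_mul_of_nonneg_left (mul_le_mul_of_nonneg_right hz2 hw) h0
    have h3 : (A * (w + κ) + H) * (1 * w) = A * w ^ 2 + (A * κ + H) * w := by ring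
    have h4 : (A * κ + H) * w ≤ (A * κ + H) ^ 2 + w ^ 2 := by
      nlinarith [sq_nonneg ((A * κ + H) - w), sq_nonneg (A * κ + H), sq_nonneg w]
    have h5 : 0 ≤ A * (A * κ + H) ^ 2 := by positivity
    linarith
  have e6 : w ^ 2 * z ^ 2 ≤ L ^ 2 * w ^ 2 := by
    have : z ^ 2 ≤ L ^ 2 := pow_le_pow_left₀ hz hgz 2
    nlinarith [sq_nonneg w]
  have e7 : ζ ^ 2 * t ^ 2 ≤ t ^ 2 := by
    have hz2 : ζ ^ 2 ≤ 1 := pow_le_one₀ hz0 hz1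
    nlinarith [sq_nonneg t]
  -- collect
  set D := a * (ζ ^ 2 * g ^ 2 + 2 * ζ * w * p) - (ζ ^ 2 * q + 2 * ζ * w * s) - f * (ζ ^ 2 * w)
    with hD
  have hDl : c0 / 2 * (ζ ^ 2 * g ^ 2) ≤ D + ((4 * C0 ^ 2 / c0 + 1) * (L ^ 2 * w ^ 2) +
      (1 / c0 + 1) * t ^ 2 + (A + 1) * w ^ 2 + (A + 1) * (A * κ + H) ^ 2) := by
    have k1 : 4 * C0 ^ 2 / c0 * (w ^ 2 * z ^ 2) ≤ 4 * C0 ^ 2 / c0 * (L ^ 2 * w ^ 2) :=
      mul_le_mul_of_nonneg_left e6 (by positivity)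
    have k2 : 1 / c0 * (ζ ^ 2 * t ^ 2) ≤ 1 / c0 * t ^ 2 :=
      mul_le_mul_of_nonneg_left e7 (by positivity)
    have k3 : D = a * (ζ ^ 2 * g ^ 2) + a * (2 * ζ * w * p) - ζ ^ 2 * q - 2 * ζ * w * s
        - f * (ζ ^ 2 * w) := by rw [hD]; ring
    rw [k3]
    linarith
  have hmul := mul_le_mul_of_nonneg_left hDl (by positivity : 0 ≤ 4 / c0)
  have k4 : 4 / c0 * (c0 / 2 * (ζ ^ 2 * g ^ 2)) = 2 * ζ ^ 2 * g ^ 2 := by
    field_simp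
    ring
  rw [k4] at hmul
  have c1 : 0 ≤ 4 / c0 * (4 * C0 ^ 2 / c0 + 1) := by positivity
  have c2 : 0 ≤ 4 / c0 * (1 / c0 + 1) := by positivity
  have c3 : 0 ≤ 4 / c0 * (A + 1) := by positivity
  have hfin : SB.Cq c0 C0 A * ((L ^ 2 + 1) * w ^ 2 + t ^ 2 + (A * κ + H) ^ 2) -
      (2 * (L ^ 2 * w ^ 2) + 4 / c0 * ((4 * C0 ^ 2 / c0 + 1) * (L ^ 2 * w ^ 2) +
      (1 / c0 + 1) * t ^ 2 + (A + 1) * w ^ 2 + (A + 1) * (A * κ + H) ^ 2)) =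
      2 * (w ^ 2 + t ^ 2 + (A * κ + H) ^ 2) +
      (4 / c0 * (4 * C0 ^ 2 / c0 + 1)) * (w ^ 2 + t ^ 2 + (A * κ + H) ^ 2) +
      (4 / c0 * (1 / c0 + 1)) * ((L ^ 2 + 1) * w ^ 2 + (A * κ + H) ^ 2) +
      (4 / c0 * (A + 1)) * (L ^ 2 * w ^ 2 + t ^ 2) := by
    unfold SB.Cq
    ring
  have hpos : 0 ≤ 2 * (w ^ 2 + t ^ 2 + (A * κ + H) ^ 2) +
      (4 / c0 * (4 * C0 ^ 2 / c0 + 1)) * (w ^ 2 + t ^ 2 + (A * κ + H) ^ 2) +
      (4 / c0 * (1 / c0 + 1)) * ((L ^ 2 + 1) * w ^ 2 + (A * κ + H) ^ 2) +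
      (4 / c0 * (A + 1)) * (L ^ 2 * w ^ 2 + t ^ 2) := by positivity
  rw [mul_add] at hmul
  linarith

/-- pointwise inequality -/
theorem SB.pointwise {c0 C0 A H L κ a f ζ w : ℝ} {gu G gz : Pos3} (hc0 : 0 < c0)
    (hCa : c0 ≤ a) (hCb : a ≤ C0) (hA : 0 ≤ A)
    (hz0 : 0 ≤ ζ) (hz1 : ζ ≤ 1) (hgz : ‖gz‖ ≤ L) (hw : 0 ≤ w)
    (hf : |f| ≤ A * (w + κ) + H) :
    ‖ζ • gu + w • gz‖ ^ 2 ≤
      (4 / c0) * (a * inner ℝ gu (ζ • (ζ • gu + w • gz) + (ζ * w) • gz)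
        - inner ℝ G (ζ • (ζ • gu + w • gz) + (ζ * w) • gz) - f * (ζ * (ζ * w))) +
      SB.Cq c0 C0 A * ((L ^ 2 + 1) * w ^ 2 + ‖G‖ ^ 2 + (A * κ + H) ^ 2) := by
  have h1 := SB.scalar (κ := κ) (H := H) (g := ‖gu‖) (z := ‖gz‖) (t := ‖G‖) (p := inner ℝ gu gz)
    (q := inner ℝ G gu) (s := inner ℝ G gz) hc0 hCa hCb hA hz0 hz1
    (norm_nonneg _) hgz hw hf (abs_real_inner_le_norm _ _)
    (abs_real_inner_le_norm _ _) (abs_real_inner_le_norm _ _)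
  have h2 : (inner ℝ gu (ζ • (ζ • gu + w • gz) + (ζ * w) • gz) : ℝ) =
      ζ ^ 2 * ‖gu‖ ^ 2 + 2 * ζ * w * inner ℝ gu gz := by
    simp only [inner_add_right, inner_smul_right, real_inner_self_eq_norm_sq]
    ring
  have h3 : (inner ℝ G (ζ • (ζ • gu + w • gz) + (ζ * w) • gz) : ℝ) =
      ζ ^ 2 * inner ℝ G gu + 2 * ζ * w * inner ℝ G gz := by
    simp only [inner_add_right, inner_smul_right]
    ring
  have h4 : ζ * (ζ * w) = ζ ^ 2 * w := by ring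
  rw [h2, h3, h4]
  refine le_trans ?_ h1
  have h5 : ‖ζ • gu + w • gz‖ ^ 2 ≤ 2 * (‖ζ • gu‖ ^ 2 + ‖w • gz‖ ^ 2) := by
    have := norm_add_le (ζ • gu) (w • gz)
    have h6 : ‖ζ • gu + w • gz‖ ^ 2 ≤ (‖ζ • gu‖ + ‖w • gz‖) ^ 2 :=
      pow_le_pow_left₀ (norm_nonneg _) this 2
    nlinarith [sq_nonneg (‖ζ • gu‖ - ‖w • gz‖)]
  rw [norm_smul, norm_smul, mul_pow, mul_pow, Real.norm_eq_abs, Real.norm_eq_abs, sq_abs,
    sq_abs] at h5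
  linarith

end Crest.Agent.R335
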