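import Crest.Agent.R335.HProd
import Crest.Agent.R335.HChain
import Crest.Agent.R335.HBasic
import Crest.Agent.R335.OBPot
import Crest.Agent.R335.KTest

/-!
Row 335 (S0521), Part C, C.1 and C.2 (helper801): closeness of the Kohn-Sham pair to the one-body
states and convergence of the multiplier.
-/

set_option autoImplicit false
set_option linter.unusedVariables false

open MeasureTheory Filter Set Crest.MathPhysics.ThreeBody
open scoped ENNReal Topology ContDiff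

noncomputable section
namespace Crest.Agent.R335

/-- odd and even parts `s1` (signed), `s2` of the amplitude `s` -/
structure SComp (s s1 : Pos3 → ℝ) (g1 : Pos3 → Pos3) (s2 : Pos3 → ℝ) (g2 : Pos3 → Pos3) :
    Prop where
  h1 : H1 s1 g1
  h2 : H1 s2 g2
  sq : ∀ x, s1 x ^ 2 + s2 x ^ 2 = s x ^ 2
  odd1 : ∀ x, s1 (rz x) = - s1 x
  even2 : ∀ x, s2 (rz x) = s2 x

namespace PJ

/-! ### `L²` calculus -/

section L2
variable {α : Type*} [MeasurableSpace α] {μ : Measure α}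

theorem cs {f k : α → ℝ} (hf : MemLp f 2 μ) (hk : MemLp k 2 μ) :
    (∫ x, f x * k x ∂μ) ^ 2 ≤ (∫ x, f x ^ 2 ∂μ) * ∫ x, k x ^ 2 ∂μ := by
  have hff := hf.integrable_sq
  have hkk := hk.integrable_sq
  have hfk : Integrable (fun x => f x * k x) μ := hf.integrable_mul hk
  have key : ∀ t : ℝ, 0 ≤ (∫ x, k x ^ 2 ∂μ) * (t * t) + (2 * ∫ x, f x * k x ∂μ) * t +
      ∫ x, f x ^ 2 ∂μ := by
    intro t
    have h0 : 0 ≤ ∫ x, (f x + t * k x) ^ 2 ∂μ := integral_nonneg fun x => sq_nonneg _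
    have e : ∫ x, (f x + t * k x) ^ 2 ∂μ = (∫ x, k x ^ 2 ∂μ) * (t * t) +
        (2 * ∫ x, f x * k x ∂μ) * t + ∫ x, f x ^ 2 ∂μ := by
      have : (fun x => (f x + t * k x) ^ 2) =
          fun x => (t * t) * k x ^ 2 + (2 * t) * (f x * k x) + f x ^ 2 := by
        funext x; ring
      have i1 : Integrable (fun x => (t * t) * k x ^ 2 + (2 * t) * (f x * k x)) μ :=
        (hkk.const_mul _).add (hfk.const_mul _)
      rw [this, integral_add i1 hff,
        integral_add (hkk.const_mul _) (hfk.const_mul _), integral_const_mul, integral_const_mul]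
      ring
    rwa [e] at h0
  have := discrim_le_zero key
  unfold discrim at this
  nlinarith [this]

theorem abs_le_sqrt {f k : α → ℝ} (hf : MemLp f 2 μ) (hk : MemLp k 2 μ) :
    |∫ x, f x * k x ∂μ| ≤ √(∫ x, f x ^ 2 ∂μ) * √(∫ x, k x ^ 2 ∂μ) := by
  rw [← Real.sqrt_mul (integral_nonneg fun x => sq_nonneg _)]
  exact Real.abs_le_sqrt (cs hf hk)

/-- `∫ |a| ‖b‖ ≤ √∫a² √∫‖b‖²` -/
theorem int_norm_le {F : Type*} [NormedAddCommGroup F] {a : α → ℝ} {b : α → F}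
    (ha : MemLp a 2 μ) (hb : MemLp b 2 μ) :
    Integrable (fun x => |a x| * ‖b x‖) μ ∧
    ∫ x, |a x| * ‖b x‖ ∂μ ≤ √(∫ x, a x ^ 2 ∂μ) * √(∫ x, ‖b x‖ ^ 2 ∂μ) := by
  have ha' : MemLp (fun x => |a x|) 2 μ := ha.norm
  refine ⟨ha'.integrable_mul hb.norm, ?_⟩
  have := le_trans (le_abs_self _) (abs_le_sqrt ha' hb.norm)
  simpa [sq_abs] using this

end L2

/-! ### parity -/

theorem mp_rz : MeasurePreserving (fun x : Pos3 => rz x) volume volume :=
  rz.measurePreserving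

theorem rz_rz (x : Pos3) : rz (rz x) = x := by
  ext i
  rw [rz_apply, rz_apply]
  split_ifs <;> simp

theorem integral_rz (f : Pos3 → ℝ) : ∫ x, f (rz x) = ∫ x, f x :=
  mp_rz.integral_comp rz.toHomeomorph.measurableEmbedding f

theorem integral_odd {f : Pos3 → ℝ} (h : ∀ x, f (rz x) = - f x) : ∫ x, f x = 0 := by
  have h1 := integral_rz f
  have h2 : ∫ x, f (rz x) = - ∫ x, f x := by
    rw [← integral_neg]; exact integral_congr_ae (Eventually.of_forall h)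
  linarith

/-! ### the trial pair -/

section Trial
variable {η : Pos3 → ℝ}

theorem wg_test (hη : Test univ η) : WG univ η (gr η) :=
  WG.of_contDiffOn isOpen_univ (hη.smooth.of_le (by norm_num)).contDiffOn

theorem wg_cos (hη : Test univ η) (t : ℝ) :
    WG univ (fun x => Real.cos (t * η x)) (fun x => (-(t * Real.sin (t * η x))) • gr η x) := by
  have hd : ∀ y : ℝ, HasDerivAt (fun y => Real.cos (t * y)) (-(t * Real.sin (t * y))) y := by
    intro y
    have h1 : HasDerivAt (fun y : ℝ => t * y) t y := by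
      simpa using (hasDerivAt_id y).const_mul t
    exact ((Real.hasDerivAt_cos (t * y)).comp y h1).congr_deriv (by ring)
  have h := WG.comp isOpen_univ (wg_test hη) (F := fun y => Real.cos (t * y)) (by fun_prop)
    (C := |t|) (fun y => by
      rw [(hd y).deriv, abs_neg, abs_mul]
      exact mul_le_of_le_one_right (abs_nonneg _) (Real.abs_sin_le_one _))
  have e : (fun x => deriv (fun y => Real.cos (t * y)) (η x) • gr η x) =
      fun x => (-(t * Real.sin (t * η x))) • gr η x := by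
    funext x; rw [(hd _).deriv]
  rwa [e] at h

theorem wg_sin (hη : Test univ η) (t : ℝ) :
    WG univ (fun x => Real.sin (t * η x)) (fun x => (t * Real.cos (t * η x)) • gr η x) := by
  have hd : ∀ y : ℝ, HasDerivAt (fun y => Real.sin (t * y)) (t * Real.cos (t * y)) y := by
    intro y
    have h1 : HasDerivAt (fun y : ℝ => t * y) t y := by
      simpa using (hasDerivAt_id y).const_mul t
    exact ((Real.hasDerivAt_sin (t * y)).comp y h1).congr_deriv (by ring)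
  have h := WG.comp isOpen_univ (wg_test hη) (F := fun y => Real.sin (t * y)) (by fun_prop)
    (C := |t|) (fun y => by
      rw [(hd y).deriv, abs_mul]
      exact mul_le_of_le_one_right (abs_nonneg _) (Real.abs_cos_le_one _))
  have e : (fun x => deriv (fun y => Real.sin (t * y)) (η x) • gr η x) =
      fun x => (t * Real.cos (t * η x)) • gr η x := by
    funext x; rw [(hd _).deriv]
  rwa [e] at h

def tU (η s1 s2 : Pos3 → ℝ) (t : ℝ) (x : Pos3) : ℝ :=
  Real.cos (t * η x) * s2 x - Real.sin (t * η x) * s1 x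

def tw (η s1 s2 : Pos3 → ℝ) (t : ℝ) (x : Pos3) : ℝ :=
  Real.cos (t * η x) * s1 x + Real.sin (t * η x) * s2 x

def tgU (η s1 s2 : Pos3 → ℝ) (g1 g2 : Pos3 → Pos3) (t : ℝ) (x : Pos3) : Pos3 :=
  (Real.cos (t * η x) • g2 x + s2 x • ((-(t * Real.sin (t * η x))) • gr η x)) -
    (Real.sin (t * η x) • g1 x + s1 x • ((t * Real.cos (t * η x)) • gr η x))

def tgw (η s1 s2 : Pos3 → ℝ) (g1 g2 : Pos3 → Pos3) (t : ℝ) (x : Pos3) : Pos3 :=
  (Real.cos (t * η x) • g1 x + s1 x • ((-(t * Real.sin (t * η x))) • gr η x)) +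
    (Real.sin (t * η x) • g2 x + s2 x • ((t * Real.cos (t * η x)) • gr η x))

variable {s s1 s2 : Pos3 → ℝ} {g1 g2 : Pos3 → Pos3} {M : ℝ}

theorem bdd_cos (hM : ∀ x, ‖gr η x‖ ≤ M) (t : ℝ) (x : Pos3) :
    ‖(-(t * Real.sin (t * η x))) • gr η x‖ ≤ |t| * M := by
  rw [norm_smul, Real.norm_eq_abs, abs_neg, abs_mul, mul_assoc]
  refine mul_le_mul_of_nonneg_left ?_ (abs_nonneg _)
  calc |Real.sin (t * η x)| * ‖gr η x‖ ≤ 1 * M :=
        mul_le_mul (Real.abs_sin_le_one _) (hM x) (norm_nonneg _) zero_le_one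
    _ = M := one_mul _

theorem bdd_sin (hM : ∀ x, ‖gr η x‖ ≤ M) (t : ℝ) (x : Pos3) :
    ‖(t * Real.cos (t * η x)) • gr η x‖ ≤ |t| * M := by
  rw [norm_smul, Real.norm_eq_abs, abs_mul, mul_assoc]
  refine mul_le_mul_of_nonneg_left ?_ (abs_nonneg _)
  calc |Real.cos (t * η x)| * ‖gr η x‖ ≤ 1 * M :=
        mul_le_mul (Real.abs_cos_le_one _) (hM x) (norm_nonneg _) zero_le_one
    _ = M := one_mul _

theorem h1_cos_mul (hη : Test univ η) (hM : ∀ x, ‖gr η x‖ ≤ M) (t : ℝ) {f : Pos3 → ℝ}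
    {g : Pos3 → Pos3} (h : H1 f g) :
    H1 (fun x => Real.cos (t * η x) * f x)
      (fun x => Real.cos (t * η x) • g x + f x • ((-(t * Real.sin (t * η x))) • gr η x)) :=
  H1.mul_bdd h (wg_cos hη t) (C := max 1 (|t| * M))
    (fun x => (Real.abs_cos_le_one _).trans (le_max_left _ _))
    (fun x => (bdd_cos hM t x).trans (le_max_right _ _))

theorem h1_sin_mul (hη : Test univ η) (hM : ∀ x, ‖gr η x‖ ≤ M) (t : ℝ) {f : Pos3 → ℝ}
    {g : Pos3 → Pos3} (h : H1 f g) :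
    H1 (fun x => Real.sin (t * η x) * f x)
      (fun x => Real.sin (t * η x) • g x + f x • ((t * Real.cos (t * η x)) • gr η x)) :=
  H1.mul_bdd h (wg_sin hη t) (C := max 1 (|t| * M))
    (fun x => (Real.abs_sin_le_one _).trans (le_max_left _ _))
    (fun x => (bdd_sin hM t x).trans (le_max_right _ _))

theorem h1_tU (hη : Test univ η) (hM : ∀ x, ‖gr η x‖ ≤ M) (hc : SComp s s1 g1 s2 g2) (t : ℝ) :
    H1 (tU η s1 s2 t) (tgU η s1 s2 g1 g2 t) :=
  H1.sub (h1_cos_mul hη hM t hc.h2) (h1_sin_mul hη hM t hc.h1)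

theorem h1_tw (hη : Test univ η) (hM : ∀ x, ‖gr η x‖ ≤ M) (hc : SComp s s1 g1 s2 g2) (t : ℝ) :
    H1 (tw η s1 s2 t) (tgw η s1 s2 g1 g2 t) :=
  H1.add (h1_cos_mul hη hM t hc.h1) (h1_sin_mul hη hM t hc.h2)

theorem t_sq (hc : SComp s s1 g1 s2 g2) (t : ℝ) (x : Pos3) :
    tU η s1 s2 t x ^ 2 + tw η s1 s2 t x ^ 2 = s x ^ 2 := by
  unfold tU tw
  rw [← hc.sq x]
  have := Real.sin_sq_add_cos_sq (t * η x)
  linear_combination (s1 x ^ 2 + s2 x ^ 2) * this

theorem tU_even (hodd : ∀ x, η (rz x) = - η x) (hc : SComp s s1 g1 s2 g2) (t : ℝ) (x : Pos3) :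
    tU η s1 s2 t (rz x) = tU η s1 s2 t x := by
  unfold tU
  rw [hodd, hc.odd1, hc.even2, mul_neg, Real.cos_neg, Real.sin_neg]; ring

theorem tw_odd (hodd : ∀ x, η (rz x) = - η x) (hc : SComp s s1 g1 s2 g2) (t : ℝ) (x : Pos3) :
    tw η s1 s2 t (rz x) = - tw η s1 s2 t x := by
  unfold tw
  rw [hodd, hc.odd1, hc.even2, mul_neg t, Real.cos_neg, Real.sin_neg]; ring

theorem energy_id {F : Type*} [NormedAddCommGroup F] [InnerProductSpace ℝ F] (a b n : F)
    (c sn t p q : ℝ) (h : sn ^ 2 + c ^ 2 = 1) :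
    ‖(c • b + q • ((-(t * sn)) • n)) - (sn • a + p • ((t * c) • n))‖ ^ 2 +
      ‖(c • a + p • ((-(t * sn)) • n)) + (sn • b + q • ((t * c) • n))‖ ^ 2 =
      (‖a‖ ^ 2 + ‖b‖ ^ 2) + 2 * t * (q * inner ℝ a n - p * inner ℝ b n) +
        t ^ 2 * ‖n‖ ^ 2 * (p ^ 2 + q ^ 2) := by
  simp only [← real_inner_self_eq_norm_sq, inner_add_left, inner_add_right, inner_sub_left,
    inner_sub_right, inner_smul_left, inner_smul_right, conj_trivial]
  rw [real_inner_comm a b, real_inner_comm a n, real_inner_comm b n]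
  linear_combination (inner ℝ a a + inner ℝ b b + t ^ 2 * inner ℝ n n * (p ^ 2 + q ^ 2) +
    2 * t * (q * inner ℝ a n - p * inner ℝ b n)) * h

/-- pointwise energy bound -/
theorem t_energy (hM : ∀ x, ‖gr η x‖ ≤ M) (hc : SComp s s1 g1 s2 g2) (t : ℝ) (x : Pos3) :
    ‖tgU η s1 s2 g1 g2 t x‖ ^ 2 + ‖tgw η s1 s2 g1 g2 t x‖ ^ 2 ≤
      (1 + |t| * M) * (‖g1 x‖ ^ 2 + ‖g2 x‖ ^ 2) + (|t| * M + (|t| * M) ^ 2) * s x ^ 2 := by
  have hs := hc.sq x
  have e := energy_id (g1 x) (g2 x) (gr η x) (Real.cos (t * η x)) (Real.sin (t * η x)) t (s1 x)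
    (s2 x) (Real.sin_sq_add_cos_sq _)
  unfold tgU tgw
  rw [e, hs]
  have hM0 : 0 ≤ M := (norm_nonneg _).trans (hM x)
  have hn := hM x
  have i1 : |inner ℝ (g1 x) (gr η x)| ≤ ‖g1 x‖ * M :=
    (abs_real_inner_le_norm _ _).trans (mul_le_mul_of_nonneg_left hn (norm_nonneg _))
  have i2 : |inner ℝ (g2 x) (gr η x)| ≤ ‖g2 x‖ * M :=
    (abs_real_inner_le_norm _ _).trans (mul_le_mul_of_nonneg_left hn (norm_nonneg _))
  have h1 : 2 * t * (s2 x * inner ℝ (g1 x) (gr η x) - s1 x * inner ℝ (g2 x) (gr η x)) ≤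
      2 * |t| * (|s2 x| * (‖g1 x‖ * M) + |s1 x| * (‖g2 x‖ * M)) := by
    refine (le_abs_self _).trans ?_
    rw [abs_mul, abs_mul, abs_two]
    refine mul_le_mul_of_nonneg_left ?_ (by positivity)
    refine (abs_sub _ _).trans ?_
    rw [abs_mul, abs_mul]
    gcongr
  have h2 : 2 * (|s2 x| * ‖g1 x‖ + |s1 x| * ‖g2 x‖) ≤ ‖g1 x‖ ^ 2 + ‖g2 x‖ ^ 2 + s x ^ 2 := by
    rw [← hs, ← sq_abs (s1 x), ← sq_abs (s2 x)]
    nlinarith [sq_nonneg (|s2 x| - ‖g1 x‖), sq_nonneg (|s1 x| - ‖g2 x‖)]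
  have h3 : 2 * |t| * (|s2 x| * (‖g1 x‖ * M) + |s1 x| * (‖g2 x‖ * M)) ≤
      (|t| * M) * (‖g1 x‖ ^ 2 + ‖g2 x‖ ^ 2 + s x ^ 2) := by
    have := mul_le_mul_of_nonneg_left h2 (mul_nonneg (abs_nonneg t) hM0)
    linarith
  have h4 : t ^ 2 * ‖gr η x‖ ^ 2 * s x ^ 2 ≤ (|t| * M) ^ 2 * s x ^ 2 := by
    rw [mul_pow, sq_abs]
    gcongr
  linarith

theorem int_s (hc : SComp s s1 g1 s2 g2) : Integrable (fun x => s x ^ 2) := by
  have := hc.h1.memf.integrable_sq.add hc.h2.memf.integrable_sq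
  exact this.congr (Eventually.of_forall fun x => hc.sq x)

theorem int_tw (hη : Test univ η) (hM : ∀ x, ‖gr η x‖ ≤ M) (hc : SComp s s1 g1 s2 g2) (t : ℝ) :
    Integrable (fun x => tw η s1 s2 t x ^ 2) :=
  (h1_tw hη hM hc t).memf.integrable_sq

theorem mass_cont (hη : Test univ η) (hM : ∀ x, ‖gr η x‖ ≤ M) (hc : SComp s s1 g1 s2 g2) :
    Continuous (fun t => ∫ x, tw η s1 s2 t x ^ 2) := by
  refine continuous_of_dominated (bound := fun x => s x ^ 2)
    (fun t => (int_tw hη hM hc t).aestronglyMeasurable) (fun t => Eventually.of_forall fun x => ?_)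
    (int_s hc) (Eventually.of_forall fun x => ?_)
  · rw [Real.norm_eq_abs, abs_of_nonneg (sq_nonneg _), ← t_sq (η := η) hc t x]
    nlinarith [sq_nonneg (tU η s1 s2 t x)]
  · unfold tw
    fun_prop

theorem sin_sub_le {y : ℝ} (hy : |y| ≤ 1) : |Real.sin y - y| ≤ |y| ^ 3 / 4 := by
  rcases lt_trichotomy y 0 with h | h | h
  · have h1 : 0 < -y := by linarith
    have h2 : -y ≤ 1 := by rw [abs_of_neg h] at hy; exact hy
    have h3 := Real.sin_gt_sub_cube h1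
    have h4 := Real.sin_lt h1
    rw [Real.sin_neg] at h3 h4
    rw [abs_of_neg h, abs_le]
    have h5 : 0 ≤ (-y) ^ 3 := by positivity
    constructor <;> linarith
  · simp [h]
  · have h2 : y ≤ 1 := by rw [abs_of_pos h] at hy; exact hy
    have h3 := Real.sin_gt_sub_cube h
    have h4 := Real.sin_lt h
    rw [abs_of_pos h, abs_le]
    have h5 : 0 ≤ y ^ 3 := by positivity
    constructor <;> linarith

theorem mass_est (hη : Test univ η) (hM : ∀ x, ‖gr η x‖ ≤ M) (h1 : ∀ x, |η x| ≤ 1)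
    (hc : SComp s s1 g1 s2 g2) {t : ℝ} (ht : |t| ≤ 1 / 2) :
    |(∫ x, tw η s1 s2 t x ^ 2) - (∫ x, s1 x ^ 2) - 2 * t * ∫ x, s1 x * s2 x * η x| ≤
      2 * t ^ 2 * ∫ x, s x ^ 2 := by
  have i1 := int_tw hη hM hc t
  have i2 := hc.h1.memf.integrable_sq
  have i3 : Integrable (fun x => s1 x * s2 x * η x) := by
    have h12 : Integrable (fun x => s1 x * s2 x) := hc.h1.memf.integrable_mul hc.h2.memf
    refine h12.mul_bdd (c := 1) hη.continuous.aestronglyMeasurable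
      (Eventually.of_forall fun x => h1 x)
  have i4 : Integrable (fun x => tw η s1 s2 t x ^ 2 - s1 x ^ 2) := i1.sub i2
  rw [← integral_const_mul, ← integral_sub i1 i2, ← integral_sub i4 (i3.const_mul _),
    ← integral_const_mul]
  refine (abs_integral_le_integral_abs).trans ?_
  refine integral_mono_of_nonneg (Eventually.of_forall fun x => abs_nonneg _)
    ((int_s hc).const_mul _) (Eventually.of_forall fun x => ?_)
  have hs := hc.sq x
  have hty : |2 * (t * η x)| ≤ 2 * |t| := by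
    rw [abs_mul, abs_mul, abs_two]
    nlinarith [h1 x, abs_nonneg t, abs_nonneg (η x)]
  have hty1 : |2 * (t * η x)| ≤ 1 := hty.trans (by linarith)
  have b1 := sin_sub_le hty1
  have b2 : |2 * (t * η x)| ^ 3 / 4 ≤ t ^ 2 := by
    have : |2 * (t * η x)| ^ 3 ≤ (2 * |t|) ^ 3 := pow_le_pow_left₀ (abs_nonneg _) hty 3
    have h5 : (2 * |t|) ^ 3 = 8 * |t| * t ^ 2 := by rw [← sq_abs t]; ring
    nlinarith [sq_nonneg t, abs_nonneg t]
  have b3 : |Real.sin (t * η x)| ≤ |t| := by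
    refine (Real.abs_sin_le_abs).trans ?_
    rw [abs_mul]
    exact mul_le_of_le_one_right (abs_nonneg _) (h1 x)
  have b4 : Real.sin (t * η x) ^ 2 ≤ t ^ 2 := by
    rw [← sq_abs (Real.sin _), ← sq_abs t]
    exact pow_le_pow_left₀ (abs_nonneg _) b3 2
  have e : tw η s1 s2 t x ^ 2 - s1 x ^ 2 - 2 * t * (s1 x * s2 x * η x) =
      (Real.sin (2 * (t * η x)) - 2 * (t * η x)) * (s1 x * s2 x) +
        Real.sin (t * η x) ^ 2 * (s2 x ^ 2 - s1 x ^ 2) := by
    unfold tw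
    rw [Real.sin_two_mul]
    have := Real.sin_sq_add_cos_sq (t * η x)
    linear_combination (s1 x ^ 2) * this
  have e1 : |s1 x * s2 x| ≤ s x ^ 2 / 2 := by
    rw [abs_le]; constructor <;> nlinarith [sq_nonneg (s1 x - s2 x), sq_nonneg (s1 x + s2 x)]
  have e2 : |s2 x ^ 2 - s1 x ^ 2| ≤ s x ^ 2 := by
    rw [abs_le]; constructor <;> nlinarith [sq_nonneg (s1 x), sq_nonneg (s2 x)]
  show |tw η s1 s2 t x ^ 2 - s1 x ^ 2 - 2 * t * (s1 x * s2 x * η x)| ≤ 2 * t ^ 2 * s x ^ 2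
  rw [e]
  refine (abs_add_le _ _).trans ?_
  rw [abs_mul _ (s1 x * s2 x), abs_mul _ (s2 x ^ 2 - s1 x ^ 2),
    abs_of_nonneg (sq_nonneg (Real.sin (t * η x)))]
  have p1 : |Real.sin (2 * (t * η x)) - 2 * (t * η x)| * |s1 x * s2 x| ≤
      t ^ 2 * (s x ^ 2 / 2) :=
    mul_le_mul (b1.trans b2) e1 (abs_nonneg _) (sq_nonneg _)
  have p2 : Real.sin (t * η x) ^ 2 * |s2 x ^ 2 - s1 x ^ 2| ≤ t ^ 2 * s x ^ 2 :=
    mul_le_mul b4 e2 (abs_nonneg _) (sq_nonneg _)
  nlinarith [mul_nonneg (sq_nonneg t) (sq_nonneg (s x))]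

/-- the mass can be adjusted -/
theorem mass_adjust (hη : Test univ η) (hM : ∀ x, ‖gr η x‖ ≤ M) (h1 : ∀ x, |η x| ≤ 1)
    (hc : SComp s s1 g1 s2 g2) (hs3 : ∫ x, s x ^ 2 = 3) {c0 : ℝ} (hc0 : 0 < c0) (hc1 : c0 ≤ 3)
    (hI : c0 ≤ ∫ x, s1 x * s2 x * η x) (hm : |(∫ x, s1 x ^ 2) - 1| ≤ c0 ^ 2 / 6) :
    ∃ t : ℝ, |t| ≤ |(∫ x, s1 x ^ 2) - 1| / c0 ∧ ∫ x, tw η s1 s2 t x ^ 2 = 1 := by
  set m := (∫ x, s1 x ^ 2) - 1 with hmdef
  set τ := |m| / c0 with hτ
  have hτ0 : 0 ≤ τ := by positivity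
  have hτm : c0 * τ = |m| := by rw [hτ]; field_simp
  have hτ1 : τ ≤ c0 / 6 := by
    rw [hτ, div_le_iff₀ hc0]; linarith
  have hF : ∀ t : ℝ, |t| ≤ τ → |(∫ x, tw η s1 s2 t x ^ 2) - (∫ x, s1 x ^ 2) -
      2 * t * ∫ x, s1 x * s2 x * η x| ≤ c0 * |t| := by
    intro t ht
    have h2 : |t| ≤ 1 / 2 := by linarith
    refine (mass_est hη hM h1 hc h2).trans ?_
    rw [hs3, ← sq_abs t]
    nlinarith [abs_nonneg t]
  have hcont := mass_cont hη hM hc
  have h0 : ∫ x, tw η s1 s2 0 x ^ 2 = ∫ x, s1 x ^ 2 := by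
    refine integral_congr_ae (Eventually.of_forall fun x => ?_)
    simp [tw]
  rcases le_total m 0 with hm0 | hm0
  · have ha : |m| = -m := abs_of_nonpos hm0
    have h3 := hF τ (by rw [abs_of_nonneg hτ0])
    rw [abs_of_nonneg hτ0, abs_le] at h3
    have h4 : 1 ≤ ∫ x, tw η s1 s2 τ x ^ 2 := by nlinarith [h3.1]
    have h5 : (∫ x, tw η s1 s2 0 x ^ 2) ≤ 1 := by rw [h0]; linarith
    obtain ⟨t, ht, ht1⟩ := intermediate_value_Icc hτ0 hcont.continuousOn ⟨h5, h4⟩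
    exact ⟨t, by rw [abs_of_nonneg ht.1]; exact ht.2, ht1⟩
  · have ha : |m| = m := abs_of_nonneg hm0
    have h3 := hF (-τ) (by rw [abs_neg, abs_of_nonneg hτ0])
    rw [abs_neg, abs_of_nonneg hτ0, abs_le] at h3
    have h4 : (∫ x, tw η s1 s2 (-τ) x ^ 2) ≤ 1 := by nlinarith [h3.2]
    have h5 : 1 ≤ ∫ x, tw η s1 s2 0 x ^ 2 := by rw [h0]; linarith
    obtain ⟨t, ht, ht1⟩ := intermediate_value_Icc (neg_nonpos.2 hτ0) hcont.continuousOn ⟨h4, h5⟩
    exact ⟨t, by rw [abs_of_nonpos ht.2]; linarith [ht.1], ht1⟩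

end Trial

/-! ### the quadratic form -/

section Form
variable {D : ℝ}

theorem inner_int {f k : Pos3 → Pos3} (hf : MemLp f 2 volume) (hk : MemLp k 2 volume) :
    Integrable (fun x => inner ℝ (f x) (k x)) volume := by
  have hm : Integrable (fun x => ‖f x‖ * ‖k x‖) volume := MemLp.integrable_mul hf.norm hk.norm
  refine hm.mono' (hf.aestronglyMeasurable.inner hk.aestronglyMeasurable)
    (Eventually.of_forall fun x => ?_)
  exact norm_inner_le_norm _ _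

theorem norm_sq_int {f : Pos3 → Pos3} (hf : MemLp f 2 volume) :
    Integrable (fun x => ‖f x‖ ^ 2) volume := hf.integrable_norm_pow (by norm_num)

theorem Q2_eq_B2 (f : Pos3 → ℝ) (g : Pos3 → Pos3) : Q2 D f g = B2 D f g f g := by
  unfold Q2 B2
  simp only [real_inner_self_eq_norm_sq, pow_two]

theorem Q2_sub {f k : Pos3 → ℝ} {g l : Pos3 → Pos3} (h : H1 f g) (h' : H1 k l) (c : ℝ) :
    Q2 D (fun x => f x - c * k x) (fun x => g x - c • l x) =
      Q2 D f g - 2 * c * B2 D k l f g + c ^ 2 * Q2 D k l := by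
  unfold Q2 B2
  have i1 := norm_sq_int h.memg
  have i2 := norm_sq_int h'.memg
  have i3 := inner_int h'.memg h.memg
  have j1 := V2_integrable_sq D h
  have j2 := V2_integrable_sq D h'
  have j3 := V2_integrable D h' h.memf
  have e1 : ∫ x, ‖g x - c • l x‖ ^ 2 =
      (∫ x, ‖g x‖ ^ 2) - 2 * c * (∫ x, inner ℝ (l x) (g x)) + c ^ 2 * ∫ x, ‖l x‖ ^ 2 := by
    rw [← integral_const_mul, ← integral_const_mul, ← integral_sub i1 (i3.const_mul _)]
    have i4 : Integrable (fun x => ‖g x‖ ^ 2 - 2 * c * inner ℝ (l x) (g x)) :=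
      i1.sub (i3.const_mul _)
    rw [← integral_add i4 (i2.const_mul _)]
    refine integral_congr_ae (Eventually.of_forall fun x => ?_)
    show ‖g x - c • l x‖ ^ 2 = ‖g x‖ ^ 2 - 2 * c * inner ℝ (l x) (g x) + c ^ 2 * ‖l x‖ ^ 2
    rw [norm_sub_sq_real, norm_smul, mul_pow, Real.norm_eq_abs, sq_abs, inner_smul_right,
      real_inner_comm]
    ring
  have e2 : ∫ x, V2 D x * (f x - c * k x) ^ 2 =
      (∫ x, V2 D x * f x ^ 2) - 2 * c * (∫ x, V2 D x * (k x * f x)) +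
        c ^ 2 * ∫ x, V2 D x * k x ^ 2 := by
    rw [← integral_const_mul, ← integral_const_mul, ← integral_sub j1 (j3.const_mul _)]
    have j4 : Integrable (fun x => V2 D x * f x ^ 2 - 2 * c * (V2 D x * (k x * f x))) :=
      j1.sub (j3.const_mul _)
    rw [← integral_add j4 (j2.const_mul _)]
    refine integral_congr_ae (Eventually.of_forall fun x => ?_)
    show _ = _
    ring
  rw [e1, e2]
  ring

theorem int_sub_sq {f k : Pos3 → ℝ} (h : MemLp f 2 volume) (h' : MemLp k 2 volume) (c : ℝ) :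
    ∫ x, (f x - c * k x) ^ 2 = (∫ x, f x ^ 2) - 2 * c * (∫ x, k x * f x) + c ^ 2 * ∫ x, k x ^ 2 := by
  have i1 := h.integrable_sq
  have i2 := h'.integrable_sq
  have i3 : Integrable (fun x => k x * f x) := h'.integrable_mul h
  rw [← integral_const_mul, ← integral_const_mul, ← integral_sub i1 (i3.const_mul _)]
  have i4 : Integrable (fun x => f x ^ 2 - 2 * c * (k x * f x)) := i1.sub (i3.const_mul _)
  rw [← integral_add i4 (i2.const_mul _)]
  refine integral_congr_ae (Eventually.of_forall fun x => ?_)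
  show _ = _
  ring

end Form

section Close
variable {D : ℝ} {g u : Pos3 → ℝ} {dg du : Pos3 → Pos3} {eg eu e3 : ℝ}

theorem Q2_g (hO : OneBody D g u dg du eg eu e3) : Q2 D g dg = eg := by
  rw [Q2_eq_B2, hO.g_eq g dg hO.hg]
  have : ∫ x, g x * g x = 1 := by rw [← hO.ng]; simp only [pow_two]
  rw [this, mul_one]

theorem Q2_u (hO : OneBody D g u dg du eg eu e3) : Q2 D u du = eu := by
  rw [Q2_eq_B2, hO.u_eq u du hO.hu]
  have : ∫ x, u x * u x = 1 := by rw [← hO.nu]; simp only [pow_two]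
  rw [this, mul_one]

/-- components have bounded kinetic energy; the form of the amplitude -/
theorem comp_energy {s s1 s2 : Pos3 → ℝ} {g1 g2 : Pos3 → Pos3} (hc : SComp s s1 g1 s2 g2) :
    Q2 D s1 g1 + Q2 D s2 g2 = (1 / 2) * ((∫ x, ‖g1 x‖ ^ 2) + ∫ x, ‖g2 x‖ ^ 2) +
      ∫ x, V2 D x * s x ^ 2 := by
  have j1 := V2_integrable_sq D hc.h1
  have j2 := V2_integrable_sq D hc.h2
  have e : ∫ x, V2 D x * s x ^ 2 = (∫ x, V2 D x * s1 x ^ 2) + ∫ x, V2 D x * s2 x ^ 2 := by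
    rw [← integral_add j1 j2]
    refine integral_congr_ae (Eventually.of_forall fun x => ?_)
    show V2 D x * s x ^ 2 = V2 D x * s1 x ^ 2 + V2 D x * s2 x ^ 2
    rw [← hc.sq x]; ring
  unfold Q2
  rw [e]; ring

theorem comp_kin {s s1 s2 : Pos3 → ℝ} {g1 g2 : Pos3 → Pos3} (hc : SComp s s1 g1 s2 g2)
    (hs3 : ∫ x, s x ^ 2 = 3) :
    (∫ x, ‖g1 x‖ ^ 2) + (∫ x, ‖g2 x‖ ^ 2) ≤
      4 * ((1 / 2) * ((∫ x, ‖g1 x‖ ^ 2) + ∫ x, ‖g2 x‖ ^ 2) + ∫ x, V2 D x * s x ^ 2) + 192 := by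
  have h1 := Q2_coercive D hc.h1
  have h2 := Q2_coercive D hc.h2
  have h3 := comp_energy (D := D) hc
  have h4 : (∫ x, s1 x ^ 2) + (∫ x, s2 x ^ 2) = 3 := by
    rw [← hs3, ← integral_add hc.h1.memf.integrable_sq hc.h2.memf.integrable_sq]
    exact integral_congr_ae (Eventually.of_forall fun x => hc.sq x)
  linarith

theorem pairAdm_comp {s U w : Pos3 → ℝ} {gU gw : Pos3 → Pos3} (hp : PairAdm s U gU w gw) :
    SComp s w gw U gU :=
  ⟨hp.hw, hp.hU, fun x => by rw [add_comm]; exact hp.sq x, hp.oddw, hp.evenU⟩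

/-- energy of the pair -/
theorem pair_energy (eg eu : ℝ) {K : ℝ} (hK : 0 ≤ K) {η : Pos3 → ℝ} (hη : Test univ η)
    (hodd : ∀ x, η (rz x) = - η x) {M : ℝ} (hM : ∀ x, ‖gr η x‖ ≤ M) (h1 : ∀ x, |η x| ≤ 1)
    {c0 : ℝ} (hc0 : 0 < c0) (hc1 : c0 ≤ 3) :
    ∃ K1 l0 : ℝ, 0 ≤ K1 ∧ 0 < l0 ∧ ∀ (l : ℝ) (s s1 s2 : Pos3 → ℝ) (g1 g2 : Pos3 → Pos3)
      (U w : Pos3 → ℝ) (gU gw : Pos3 → Pos3) (om : ℝ), 0 ≤ l → l ≤ l0 →
      SComp s s1 g1 s2 g2 → ∫ x, s x ^ 2 = 3 → |(∫ x, s1 x ^ 2) - 1| ≤ K * l →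
      (1 / 2) * ((∫ x, ‖g1 x‖ ^ 2) + ∫ x, ‖g2 x‖ ^ 2) + (∫ x, V2 D x * s x ^ 2) ≤
        2 * eg + eu + K * l →
      c0 ≤ ∫ x, s1 x * s2 x * η x → Pair s U gU w gw om →
      Q2 D U gU + Q2 D w gw ≤ 2 * eg + eu + K1 * l := by
  have hM0 : 0 ≤ M := (norm_nonneg _).trans (hM 0)
  set T := K * M / c0 with hT
  have hT0 : 0 ≤ T := by positivity
  set A0 := 4 * |2 * eg + eu| + 4 * K + 192 with hA0
  have hA0' : 0 ≤ A0 := by positivity
  refine ⟨K + (1 / 2) * (T * A0 + 3 * T + 3 * T ^ 2), min 1 (c0 ^ 2 / (6 * (K + 1))), by positivity,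
    by positivity, ?_⟩
  intro l s s1 s2 g1 g2 U w gU gw om hl hl0 hc hs3 hm hE hI hp
  have hl1 : l ≤ 1 := hl0.trans (min_le_left _ _)
  have hl2 : K * l ≤ c0 ^ 2 / 6 := by
    have h2 : l ≤ c0 ^ 2 / (6 * (K + 1)) := hl0.trans (min_le_right _ _)
    rw [le_div_iff₀ (by positivity)] at h2
    nlinarith
  obtain ⟨t, ht, ht1⟩ := mass_adjust hη hM h1 hc hs3 hc0 hc1 hI (hm.trans hl2)
  have htl : |t| * M ≤ T * l := by
    have : |t| ≤ K * l / c0 := ht.trans (by gcongr)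
    calc |t| * M ≤ K * l / c0 * M := mul_le_mul_of_nonneg_right this hM0
      _ = T * l := by rw [hT]; ring
  have hadm : PairAdm s (tU η s1 s2 t) (tgU η s1 s2 g1 g2 t) (tw η s1 s2 t)
      (tgw η s1 s2 g1 g2 t) :=
    { hU := h1_tU hη hM hc t
      hw := h1_tw hη hM hc t
      sq := t_sq hc t
      evenU := tU_even hodd hc t
      oddw := tw_odd hodd hc t
      nU := by
        have h5 : (∫ x, tU η s1 s2 t x ^ 2) + (∫ x, tw η s1 s2 t x ^ 2) = 3 := by
          rw [← hs3, ← integral_add (h1_tU hη hM hc t).memf.integrable_sq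
            (h1_tw hη hM hc t).memf.integrable_sq]
          exact integral_congr_ae (Eventually.of_forall fun x => t_sq hc t x)
        linarith
      nw := ht1 }
  have hmin := hp.min _ _ _ _ hadm
  have iS := int_s hc
  have i1 := norm_sq_int hc.h1.memg
  have i2 := norm_sq_int hc.h2.memg
  have hA := comp_kin (D := D) hc hs3
  set A := (∫ x, ‖g1 x‖ ^ 2) + ∫ x, ‖g2 x‖ ^ 2 with hAdef
  have hAA : A ≤ A0 := by
    have : 2 * eg + eu + K * l ≤ |2 * eg + eu| + K := by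
      have := le_abs_self (2 * eg + eu)
      nlinarith
    rw [hA0]; linarith
  have hA00 : 0 ≤ A := add_nonneg (integral_nonneg fun _ => sq_nonneg _)
    (integral_nonneg fun _ => sq_nonneg _)
  have hint : (∫ x, ‖tgU η s1 s2 g1 g2 t x‖ ^ 2) + (∫ x, ‖tgw η s1 s2 g1 g2 t x‖ ^ 2) ≤
      (1 + |t| * M) * A + (|t| * M + (|t| * M) ^ 2) * 3 := by
    rw [← integral_add (norm_sq_int (h1_tU hη hM hc t).memg)
      (norm_sq_int (h1_tw hη hM hc t).memg), hAdef, ← integral_add i1 i2, ← hs3,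
      ← integral_const_mul, ← integral_const_mul]
    have i12 : Integrable (fun x => (1 + |t| * M) * (‖g1 x‖ ^ 2 + ‖g2 x‖ ^ 2)) :=
      (i1.add i2).const_mul _
    rw [← integral_add i12 (iS.const_mul _)]
    refine integral_mono_of_nonneg (Eventually.of_forall fun x => by positivity)
      (i12.add (iS.const_mul _)) (Eventually.of_forall fun x => ?_)
    exact t_energy hM hc t x
  have hb0 : 0 ≤ |t| * M := by positivity
  have hfin : (1 + |t| * M) * A + (|t| * M + (|t| * M) ^ 2) * 3 ≤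
      A + (T * A0 + 3 * T + 3 * T ^ 2) * l := by
    have hTl : 0 ≤ T * l := mul_nonneg hT0 hl
    have e1 : |t| * M * A ≤ T * l * A0 := mul_le_mul htl hAA hA00 hTl
    have e2 : (|t| * M) ^ 2 ≤ (T * l) ^ 2 := pow_le_pow_left₀ hb0 htl 2
    have e3 : (T * l) ^ 2 ≤ T ^ 2 * l := by
      rw [mul_pow]; exact mul_le_mul_of_nonneg_left (by nlinarith) (sq_nonneg _)
    nlinarith
  have hpe := comp_energy (D := D) (pairAdm_comp hp.adm)
  have : Q2 D U gU + Q2 D w gw = Q2 D w gw + Q2 D U gU := add_comm _ _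
  rw [this, hpe]
  nlinarith

theorem prod_nonneg_of_odd {f k : Pos3 → ℝ} (hf : ∀ x, f (rz x) = - f x)
    (hk : ∀ x, k (rz x) = - k x) (hf0 : ∀ x : Pos3, 0 < x 2 → 0 ≤ f x)
    (hk0 : ∀ x : Pos3, 0 < x 2 → 0 ≤ k x) (x : Pos3) : 0 ≤ f x * k x := by
  rcases lt_trichotomy (x 2) 0 with h | h | h
  · have h2 : 0 < (rz x) 2 := by rw [rz_apply]; simpa using h
    have := mul_nonneg (hf0 _ h2) (hk0 _ h2)
    rw [hf, hk] at this
    linarith
  · have h2 : rz x = x := by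
      ext i
      rw [rz_apply]
      split_ifs with hi
      · rw [hi, h]; simp
      · rfl
    have := hf x
    rw [h2] at this
    have h3 : f x = 0 := by linarith
    rw [h3, zero_mul]
  · exact mul_nonneg (hf0 _ h) (hk0 _ h)

set_option maxHeartbeats 800000 in
/-- closeness in terms of the excess energy -/
theorem close_of_energy (hO : OneBody D g u dg du eg eu e3) :
    ∃ C : ℝ, 0 ≤ C ∧ ∀ (ε : ℝ) (s U w : Pos3 → ℝ) (gU gw : Pos3 → Pos3), 0 ≤ ε →
      PairAdm s U gU w gw → (∀ x, 0 ≤ U x) → (∀ x : Pos3, 0 < x 2 → 0 ≤ w x) →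
      Q2 D U gU + Q2 D w gw ≤ 2 * eg + eu + ε →
      (∫ x, (U x - √2 * g x) ^ 2) ≤ C * ε ∧ (∫ x, ‖gU x - √2 • dg x‖ ^ 2) ≤ C * ε ∧
      (∫ x, (w x - u x) ^ 2) ≤ C * ε ∧ (∫ x, ‖gw x - du x‖ ^ 2) ≤ C * ε := by
  have hγ : 0 < e3 - eu := sub_pos.2 hO.eu_lt
  set γ := e3 - eu with hγd
  -- constants
  set C1 := 2 / γ with hC1
  have hC10 : 0 < C1 := by positivity
  refine ⟨C1 * (64 + 8 * |eg| + 8 * |eu|) + 8, by positivity, ?_⟩
  intro ε s U w gU gw hε hp hU0 hw0 hE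
  set a := ∫ x, g x * U x with ha
  set b := ∫ x, u x * w x with hb
  have z1 : ∫ x, u x * U x = 0 := integral_odd fun x => by rw [hO.u_odd, hp.evenU]; ring
  have z2 : ∫ x, g x * w x = 0 := integral_odd fun x => by rw [hO.g_even, hp.oddw]; ring
  have a0 : 0 ≤ a := integral_nonneg fun x => mul_nonneg (hO.g_pos x).le (hU0 x)
  have b0 : 0 ≤ b := integral_nonneg fun x =>
    prod_nonneg_of_odd hO.u_odd hp.oddw (fun x hx => (hO.u_pos x hx).le) hw0 x
  have a2 : a ^ 2 ≤ 2 := by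
    have := cs hO.hg.memf hp.hU.memf
    rw [hO.ng, hp.nU] at this; linarith
  have b2 : b ^ 2 ≤ 1 := by
    have := cs hO.hu.memf hp.hw.memf
    rw [hO.nu, hp.nw] at this; linarith
  have gU' := hO.gap U gU hp.hU
  have gw' := hO.gap w gw hp.hw
  rw [z1, hp.nU, ← ha] at gU'
  rw [z2, hp.nw, ← hb] at gw'
  have h1 : γ * ((2 - a ^ 2) + (1 - b ^ 2)) ≤ ε := by
    have h0 := mul_nonneg (sub_nonneg.2 hO.eg_lt.le) (sub_nonneg.2 a2)
    linarith
  have h2 : (2 - a ^ 2) + (1 - b ^ 2) ≤ ε / γ := by rw [le_div_iff₀ hγ]; linarith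
  have hs2 : √2 ^ 2 = 2 := Real.sq_sqrt (by norm_num)
  have hs0 : 0 ≤ √2 := Real.sqrt_nonneg _
  have aS : a ≤ √2 := Real.le_sqrt_of_sq_le a2
  have bS : b ≤ 1 := by
    by_contra hb1
    rw [not_le] at hb1
    nlinarith
  have hsq2 : (1 : ℝ) ≤ √2 := Real.one_le_sqrt.2 (by norm_num)
  -- L2 closeness
  have l1 : ∫ x, (U x - √2 * g x) ^ 2 = 4 - 2 * √2 * a := by
    rw [int_sub_sq hp.hU.memf hO.hg.memf, hp.nU, hO.ng, hs2]; ring
  have l2 : ∫ x, (w x - u x) ^ 2 = 2 - 2 * b := by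
    have := int_sub_sq hp.hw.memf hO.hu.memf 1
    simp only [one_mul, mul_one, one_pow] at this
    rw [this, hp.nw, hO.nu]; ring
  have l3 : 4 - 2 * √2 * a ≤ C1 * ε := by
    have h4 := mul_nonneg a0 (sub_nonneg.2 aS)
    have h3 : 2 * (ε / γ) = C1 * ε := by rw [hC1]; ring
    linarith
  have l4 : 2 - 2 * b ≤ C1 * ε := by
    have h4 := mul_nonneg b0 (sub_nonneg.2 bS)
    have h3 : 2 * (ε / γ) = C1 * ε := by rw [hC1]; ring
    linarith
  -- forms
  have qw : eu ≤ Q2 D w gw := by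
    have := mul_nonneg hγ.le (sub_nonneg.2 b2)
    linarith
  have qU : 2 * eg ≤ Q2 D U gU := by
    have := mul_nonneg (sub_nonneg.2 (hO.eg_lt.trans hO.eu_lt).le) (sub_nonneg.2 a2)
    linarith
  have q1 : Q2 D (fun x => U x - √2 * g x) (fun x => gU x - √2 • dg x) ≤
      ε + |eg| * (4 - 2 * √2 * a) := by
    rw [Q2_sub hp.hU hO.hg, hO.g_eq U gU hp.hU, Q2_g hO, hs2, ← ha]
    have h4 : -|eg| ≤ eg := neg_abs_le eg
    have h5 : 0 ≤ 4 - 2 * √2 * a := by rw [← l1]; exact integral_nonneg fun x => sq_nonneg _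
    have h6 : eg ≤ |eg| := le_abs_self eg
    have h8 := mul_le_mul_of_nonneg_right h6 h5
    linarith
  have q2 : Q2 D (fun x => w x - u x) (fun x => gw x - du x) ≤ ε + |eu| * (2 - 2 * b) := by
    have h7 := Q2_sub (D := D) hp.hw hO.hu 1
    simp only [one_mul, mul_one, one_pow, one_smul] at h7
    rw [h7, hO.u_eq w gw hp.hw, Q2_u hO, ← hb]
    have h5 : 0 ≤ 2 - 2 * b := by rw [← l2]; exact integral_nonneg fun x => sq_nonneg _
    have h6 : eu ≤ |eu| := le_abs_self eu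
    have h8 := mul_le_mul_of_nonneg_right h6 h5
    linarith
  have k1 := Q2_coercive D (H1.sub hp.hU (H1.const_mul hO.hg √2))
  have k2 := Q2_coercive D (H1.sub hp.hw hO.hu)
  rw [l1] at k1
  rw [l2] at k2
  have hc : C1 * ε * (64 + 8 * |eg| + 8 * |eu|) + 8 * ε =
      (C1 * (64 + 8 * |eg| + 8 * |eu|) + 8) * ε := by ring
  have hg0 : 0 ≤ |eg| := abs_nonneg _
  have hu0 : 0 ≤ |eu| := abs_nonneg _
  have hX : 0 ≤ C1 * ε := by positivity
  have h5 : 0 ≤ 4 - 2 * √2 * a := by rw [← l1]; exact integral_nonneg fun x => sq_nonneg _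
  have h6 : 0 ≤ 2 - 2 * b := by rw [← l2]; exact integral_nonneg fun x => sq_nonneg _
  have m1 : |eg| * (4 - 2 * √2 * a) ≤ |eg| * (C1 * ε) := mul_le_mul_of_nonneg_left l3 hg0
  have m2 : |eu| * (2 - 2 * b) ≤ |eu| * (C1 * ε) := mul_le_mul_of_nonneg_left l4 hu0
  have m3 : 0 ≤ |eg| * (C1 * ε) := by positivity
  have m4 : 0 ≤ |eu| * (C1 * ε) := by positivity
  rw [← hc]
  have m5 : C1 * ε * (64 + 8 * |eg| + 8 * |eu|) + 8 * ε =
      64 * (C1 * ε) + 8 * (|eg| * (C1 * ε)) + 8 * (|eu| * (C1 * ε)) + 8 * ε := by ring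
  rw [m5]
  clear_value γ C1 a b
  refine ⟨?_, ?_, ?_, ?_⟩
  · rw [l1]; linarith
  · refine k1.trans ?_
    linarith
  · rw [l2]; linarith
  · refine k2.trans ?_
    linarith

/-! ### a fixed odd test function -/

theorem exists_eta (hO : OneBody D g u dg du eg eu e3) :
    ∃ (η : Pos3 → ℝ) (M c : ℝ), Test univ η ∧ (∀ x, η (rz x) = - η x) ∧ (∀ x, |η x| ≤ 1) ∧
      (∀ x, ‖gr η x‖ ≤ M) ∧ (∀ x, η x ≠ 0 → ‖x‖ ≤ 1) ∧ 0 < c ∧ c ≤ ∫ x, g x * u x * η x := by
  let χ : ContDiffBump (0 : Pos3) := ⟨1 / 2, 1, by norm_num, by norm_num⟩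
  let η : Pos3 → ℝ := fun x => x 2 * ((χ x + χ (rz x)) / 2)
  have hp2 : ContDiff ℝ ∞ (fun x : Pos3 => x 2) :=
    (EuclideanSpace.proj (𝕜 := ℝ) (2 : Fin 3)).contDiff
  have hsm : ContDiff ℝ ∞ η := by
    refine hp2.mul ((χ.contDiff.add (χ.contDiff.comp rz.contDiff)).div_const 2)
  have hsupp : ∀ x, η x ≠ 0 → ‖x‖ ≤ 1 := by
    intro x hx
    by_contra hcon
    rw [not_le] at hcon
    refine hx ?_
    have h1 : χ x = 0 := χ.zero_of_le_dist (by rw [dist_zero_right]; exact hcon.le)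
    have h2 : χ (rz x) = 0 := χ.zero_of_le_dist (by
      rw [dist_zero_right, LinearIsometryEquiv.norm_map]; exact hcon.le)
    show x 2 * ((χ x + χ (rz x)) / 2) = 0
    rw [h1, h2]; ring
  have hcpt : HasCompactSupport η := by
    refine HasCompactSupport.intro (isCompact_closedBall (0 : Pos3) 1) (fun x hx => ?_)
    by_contra hne
    exact hx (by rw [mem_closedBall_zero_iff]; exact hsupp x hne)
  have htest : Test univ η := ⟨hsm, hcpt, subset_univ _⟩
  have hodd : ∀ x, η (rz x) = - η x := by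
    intro x
    show (rz x) 2 * ((χ (rz x) + χ (rz (rz x))) / 2) = -(x 2 * ((χ x + χ (rz x)) / 2))
    rw [rz_rz, rz_apply]
    simp only [if_true]
    ring
  have hx2 : ∀ x : Pos3, |x 2| ≤ ‖x‖ := fun x => PiLp.norm_apply_le x 2
  have hle : ∀ x, |η x| ≤ 1 := by
    intro x
    by_cases h0 : η x = 0
    · rw [h0]; simp
    · have h1 := hsupp x h0
      show |x 2 * ((χ x + χ (rz x)) / 2)| ≤ 1
      rw [abs_mul]
      have h2 : |(χ x + χ (rz x)) / 2| ≤ 1 := by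
        rw [abs_of_nonneg (by have := χ.nonneg (x := x); have := χ.nonneg (x := rz x); linarith)]
        have := χ.le_one (x := x); have := χ.le_one (x := rz x); linarith
      calc |x 2| * |(χ x + χ (rz x)) / 2| ≤ 1 * 1 :=
            mul_le_mul ((hx2 x).trans h1) h2 (abs_nonneg _) zero_le_one
        _ = 1 := by norm_num
  have hgc : Continuous (gr η) := continuous_gr (hsm.of_le (by norm_num))
  obtain ⟨M, hM⟩ := hgc.bounded_above_of_compact_support (hasCompactSupport_gr hcpt)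
  have hcont : Continuous (fun x => g x * u x * η x) := (hO.cg.mul hO.cu).mul hsm.continuous
  have hnn : ∀ x, 0 ≤ g x * u x * η x := by
    intro x
    have h1 : 0 ≤ u x * x 2 := prod_nonneg_of_odd hO.u_odd (k := fun x => x 2)
      (fun x => by rw [rz_apply]; simp) (fun x hx => (hO.u_pos x hx).le) (fun x hx => hx.le) x
    have h2 : 0 ≤ (χ x + χ (rz x)) / 2 := by
      have := χ.nonneg (x := x); have := χ.nonneg (x := rz x); linarith
    have : g x * u x * η x = g x * (u x * x 2) * ((χ x + χ (rz x)) / 2) := by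
      show g x * u x * (x 2 * ((χ x + χ (rz x)) / 2)) = _
      ring
    rw [this]
    exact mul_nonneg (mul_nonneg (hO.g_pos x).le h1) h2
  have hpos : 0 < ∫ x, g x * u x * η x := by
    let x0 : Pos3 := EuclideanSpace.single 2 (1 / 4 : ℝ)
    have hx0 : ‖x0‖ = 1 / 4 := by
      show ‖(EuclideanSpace.single 2 (1 / 4 : ℝ) : Pos3)‖ = 1 / 4
      rw [EuclideanSpace.norm_single]; norm_num
    have hx02 : x0 2 = 1 / 4 := by
      show (EuclideanSpace.single 2 (1 / 4 : ℝ) : Pos3) 2 = 1 / 4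
      simp
    have hχ : χ x0 = 1 := χ.one_of_mem_closedBall (by
      rw [mem_closedBall_zero_iff, hx0]; show (1 / 4 : ℝ) ≤ 1 / 2; norm_num)
    refine hcont.integral_pos_of_hasCompactSupport_nonneg_nonzero (x := x0)
      (hcpt.mul_left) hnn ?_
    have h3 : 0 < u x0 := hO.u_pos x0 (by rw [hx02]; norm_num)
    have h4 : 0 < η x0 := by
      show 0 < x0 2 * ((χ x0 + χ (rz x0)) / 2)
      have := χ.nonneg (x := rz x0)
      rw [hx02, hχ]
      have : 0 < (1 + χ (rz x0)) / 2 := by linarith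
      positivity
    exact (mul_pos (mul_pos (hO.g_pos x0) h3) h4).ne'
  exact ⟨η, M, _, htest, hodd, hle, hM, hsupp, hpos, le_rfl⟩

end Close

end PJ
end Crest.Agent.R335
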