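import Crest.Agent.R335.PLMainE
import Crest.Agent.R335.PAng
import Crest.Agent.R335.CDefs

/-!
Row 335 (S0521), C.6: the angle `H = π/2 - α` of a pair, and the interface `Appl` of the explicit
half (helper16) (helper297).
-/

set_option autoImplicit false

open MeasureTheory Filter Set Crest.MathPhysics.ThreeBody
open scoped ENNReal Topology ContDiff

noncomputable section
namespace Crest.Agent.R335.PL
open Crest.Agent.R335

/-- the fields of `Core` concerning `H` -/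
structure HF (om R1 Z1 : ℝ) (s H : Pos3 → ℝ) (dH : Pos3 → Pos3) : Prop where
  H_wg : WG (Dom R1 Z1) H dH
  H_l2 : L2locV (Dom R1 Z1) dH
  H_nn : ∀ x ∈ Dom R1 Z1, 0 ≤ H x
  H_le : ∀ x ∈ Dom R1 Z1, H x ≤ Real.pi / 2
  H_eq : ∀ φ, Test (Dom R1 Z1) φ →
    ∫ x, s x ^ 2 * inner ℝ (dH x) (gr φ x) = - om * ∫ x, s x ^ 2 * Real.sin (2 * H x) * φ x

/-- the angle `H` of a pair -/
def Hp (s w : Pos3 → ℝ) (x : Pos3) : ℝ := Real.pi / 2 - al s w x

def dHp (s U : Pos3 → ℝ) (gU : Pos3 → Pos3) (w : Pos3 → ℝ) (gw : Pos3 → Pos3) (x : Pos3) : Pos3 :=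
  - gal s U gU w gw x

variable {s U w : Pos3 → ℝ} {gs gU gw : Pos3 → Pos3} {om : ℝ}

theorem hf_of_pair (hs : Amp s gs) (hp : Pair s U gU w gw om) (R1 Z1 : ℝ) :
    HF om R1 Z1 s (Hp s w) (dHp s U gU w gw) := by
  have ha := hp.angP hs
  have hU := isOpen_Dom R1 Z1
  refine ⟨?_, ?_, ?_, ?_, ?_⟩
  · have h1 := WG.sub (PJ.wg_const (Real.pi / 2)) ha.wg isOpen_univ
    have h2 : WG (univ : Set Pos3) (Hp s w) (dHp s U gU w gw) := by
      refine WG.congr isOpen_univ h1 (Eventually.of_forall fun x => rfl)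
        (Eventually.of_forall fun x => ?_)
      simp [dHp]
    exact WG.mono h2 (subset_univ _)
  · intro K hK _
    obtain ⟨R, hR⟩ := hK.isBounded.subset_closedBall (0 : Pos3)
    exact ((ha.memLp_gal R).mono_measure (Measure.restrict_mono hR le_rfl)).neg
  · intro x _
    have := abs_le.1 (AngP.abs_al_le (s := s) (w := w) x)
    rw [Hp]; linarith [this.2]
  · intro x hx
    have := Pair.al_nonneg hs hp hx.2.1
    rw [Hp]; linarith
  · intro φ hφ
    have h1 := Pair.el_al hs hp (ψ := φ) (gψ := gr φ)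
      ⟨H1.of_test hφ, by
        obtain ⟨C, hC⟩ := hφ.cpt.exists_bound_of_continuous hφ.smooth.continuous
        exact ⟨C, Eventually.of_forall hC⟩, by
        obtain ⟨R, hR⟩ := hφ.cpt.isBounded.subset_ball (0 : Pos3)
        refine ⟨R, Eventually.of_forall fun x hx => image_eq_zero_of_notMem_tsupport fun hxK => ?_⟩
        have := hR hxK
        rw [mem_ball_zero_iff] at this
        linarith⟩
    have e1 : ∫ x, s x ^ 2 * inner ℝ (dHp s U gU w gw x) (gr φ x) =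
        - ∫ x, s x ^ 2 * inner ℝ (gal s U gU w gw x) (gr φ x) := by
      rw [← integral_neg]
      refine integral_congr_ae (Eventually.of_forall fun x => ?_)
      simp only [dHp, inner_neg_left]
      ring
    have e2 : ∫ x, s x ^ 2 * Real.sin (2 * Hp s w x) * φ x =
        ∫ x, s x ^ 2 * Real.sin (2 * al s w x) * φ x := by
      refine integral_congr_ae (Eventually.of_forall fun x => ?_)
      have : 2 * Hp s w x = Real.pi - 2 * al s w x := by rw [Hp]; ring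
      simp only
      rw [this, Real.sin_pi_sub]
    rw [e1, e2, h1]
    ring

theorem s_sin_Hp (hs : Amp s gs) (hp : Pair s U gU w gw om) (x : Pos3) :
    s x * Real.sin (Hp s w x) = U x := by
  rw [Hp, Real.sin_pi_div_two_sub]
  exact (hp.angP hs).cos_al x

theorem s_cos_Hp (hs : Amp s gs) (hp : Pair s U gU w gw om) (x : Pos3) :
    s x * Real.cos (Hp s w x) = w x := by
  rw [Hp, Real.cos_pi_div_two_sub]
  exact (hp.angP hs).sin_al x

/-- zero trace: `α ≤ (π/2) w/s` on `z > 0` -/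
theorem tr_of_pair (hs : Amp s gs) (hp : Pair s U gU w gw om) {x : Pos3} (hx : 0 < x 2) :
    (Real.pi / 2 - Hp s w x) * s x ≤ Real.pi / 2 * w x := by
  have h1 := Pair.al_nonneg hs hp hx
  have h2 := (abs_le.1 (AngP.abs_al_le (s := s) (w := w) x)).2
  have h3 := Real.mul_le_sin h1 h2
  have h4 := (hp.angP hs).sin_al x
  have hsx := hs.pos x
  have hpi := Real.pi_pos
  have h5 : Real.pi / 2 - Hp s w x = al s w x := by rw [Hp]; ring
  rw [h5]
  have h6 := mul_le_mul_of_nonneg_left h3 (mul_nonneg (by positivity : 0 ≤ Real.pi / 2) hsx.le)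
  have h7 : Real.pi / 2 * s x * (2 / Real.pi * al s w x) = al s w x * s x := by
    field_simp
  rw [h7] at h6
  calc al s w x * s x ≤ Real.pi / 2 * s x * Real.sin (al s w x) := h6
    _ = Real.pi / 2 * w x := by rw [mul_assoc, h4]

/-- OUTPUT OF THE EXPLICIT HALF (helper16) at one value of `λ` -/
def Appl (om R1 Z1 dp csh : ℝ) (s s1 s2 F : Pos3 → ℝ) (gs gs1 gs2 gF : Pos3 → Pos3) : Prop :=
  ∃ (q0 lam : ℝ) (P wc X sig er cpl sh : Pos3 → ℝ) (dsh : Pos3 → Pos3),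
    (∀ H dH, HF om R1 Z1 s H dH →
      Core om q0 lam R1 Z1 P wc X sig er cpl s s1 s2 F H sh gs gs1 gs2 gF dH dsh) ∧
    RQ om R1 Z1 dp er cpl s2 sh ∧
    (∀ᵐ x, x ∈ Dom R1 Z1 → 4 * eps lam x * F x ≤ dp * sh x) ∧
    (∀ᵐ x, x ∈ Dom R1 Z1 → ‖x‖ ≤ R1 + 1 → csh ≤ sh x) ∧
    (∀ᵐ x, x ∈ Dom R1 Z1 → x 2 ≤ 1 → (8 / Z1 + dp) * sh x ≤ s2 x / 2)

/-- TARGET OF helper16 (`PLRQ`) : existence of `Appl` from `COut` -/
def ApplExists (cg C0 P0 : ℝ) : Prop :=
  ∃ D0 : ℝ, 4 ≤ D0 ∧ ∀ D : ℝ, D0 ≤ D → ∀ (B : OBD cg C0 D) (K1 : ℝ),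
    ∃ Z1 dp R0 : ℝ, 1 < Z1 ∧ 0 < dp ∧ ∀ R1 : ℝ, R0 ≤ R1 → ∀ K2 : ℝ, ∃ l' csh : ℝ, 0 < l' ∧
      0 < csh ∧ ∀ lam, 0 < lam → lam ≤ l' →
      ∀ (κ κS κT : ℝ) (s s1 s2 F w0 X sig : Pos3 → ℝ) (gs gs1 gs2 gF : Pos3 → Pos3),
        COut B (P0 * D ^ 20) K1 K2 R1 lam κ κS κT s s1 s2 F w0 X sig gs gs1 gs2 gF →
        ∀ om : ℝ, 0 < om → |om - B.om| ≤ B.om / 2 →
          Appl om R1 Z1 dp csh s s1 s2 F gs gs1 gs2 gF

end Crest.Agent.R335.PL
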