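import Crest.Agent.R335.HKato
import Crest.Agent.R335.HProd
import Crest.Agent.R335.XLap

/-!
Row 335 (S0521), Part C.6: calculus of locally bounded `H¹_loc` functions with locally integrable
weak Laplacian.

* `LBd U f`      : `f` is a.e. bounded on compact subsets of `U`;
* `LPos U f`     : `f` is a.e. bounded below by a positive constant on compact subsets of `U`;
* `WB U f g`     : `f ∈ H¹_loc(U) ∩ L^∞_loc(U)` with weak gradient `g`;
* `WL U f g a`   : moreover the weak Laplacian is the function `a ∈ L¹_loc(U)`;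
* `TB U w l`     : `w` bounded, `H¹`, compactly supported in `U` (test functions).
-/

set_option autoImplicit false
set_option linter.unusedSectionVars false

open MeasureTheory Filter Set
open scoped ENNReal Topology ContDiff

noncomputable section
namespace Crest.Agent.R335

variable {ι : Type*} [Fintype ι] [DecidableEq ι]

local notation "E" => EuclideanSpace ℝ ι

/-- `f` is a.e. bounded on compact subsets of `U` -/
def LBd (U : Set (EuclideanSpace ℝ ι)) (f : EuclideanSpace ℝ ι → ℝ) : Prop :=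
  ∀ K, IsCompact K → K ⊆ U → ∃ C : ℝ, ∀ᵐ x ∂(volume.restrict K), |f x| ≤ C

/-- `f` is a.e. bounded below by a positive constant on compact subsets of `U` -/
def LPos (U : Set (EuclideanSpace ℝ ι)) (f : EuclideanSpace ℝ ι → ℝ) : Prop :=
  ∀ K, IsCompact K → K ⊆ U → ∃ c : ℝ, 0 < c ∧ ∀ᵐ x ∂(volume.restrict K), c ≤ f x

/-- `f ∈ H¹_loc(U) ∩ L^∞_loc(U)` with weak gradient `g` -/
structure WB (U : Set (EuclideanSpace ℝ ι)) (f : EuclideanSpace ℝ ι → ℝ)
    (g : EuclideanSpace ℝ ι → EuclideanSpace ℝ ι) : Prop where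
  wg : WG U f g
  g2 : L2locV U g
  bd : LBd U f

/-- `f ∈ H¹_loc(U) ∩ L^∞_loc(U)` with weak gradient `g` and weak Laplacian `a ∈ L¹_loc(U)` -/
structure WL (U : Set (EuclideanSpace ℝ ι)) (f : EuclideanSpace ℝ ι → ℝ)
    (g : EuclideanSpace ℝ ι → EuclideanSpace ℝ ι) (a : EuclideanSpace ℝ ι → ℝ) : Prop
    extends WB U f g where
  ia : LocallyIntegrableOn a U volume
  eq : ∀ φ, Test U φ → ∫ x, inner ℝ (g x) (gr φ x) = - ∫ x, a x * φ x

/-- bounded `H¹` function with compact support in `U` -/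
structure TB (U : Set (EuclideanSpace ℝ ι)) (w : EuclideanSpace ℝ ι → ℝ)
    (l : EuclideanSpace ℝ ι → EuclideanSpace ℝ ι) : Prop where
  h1 : H1 w l
  bd : ∃ b : ℝ, ∀ᵐ x, |w x| ≤ b
  supp : ∃ K, IsCompact K ∧ K ⊆ U ∧ (∀ x, x ∉ K → w x = 0) ∧ (∀ x, x ∉ K → l x = 0)

namespace PLC

/-! ### local integrability -/

theorem finite_restrict {K : Set E} (hK : IsCompact K) :
    IsFiniteMeasure ((volume : Measure E).restrict K) := ⟨by simpa using hK.measure_lt_top⟩

theorem aesmK {F : Type*} [NormedAddCommGroup F] {U K : Set E} {f : E → F}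
    (hf : AEStronglyMeasurable f (volume.restrict U)) (hKU : K ⊆ U) :
    AEStronglyMeasurable f (volume.restrict K) :=
  hf.mono_measure (Measure.restrict_mono hKU le_rfl)

/-- locally bounded times locally integrable -/
theorem locInt_bd_smul {F : Type*} [NormedAddCommGroup F] [NormedSpace ℝ F] {U : Set E}
    (hU : IsOpen U) {f : E → ℝ} (hf : LBd U f) (hfm : AEStronglyMeasurable f (volume.restrict U))
    {u : E → F} (hu : LocallyIntegrableOn u U volume) :
    LocallyIntegrableOn (fun x => f x • u x) U volume := by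
  rw [locallyIntegrableOn_iff hU.isLocallyClosed]
  intro K hKU hK
  obtain ⟨C, hC⟩ := hf K hK hKU
  have h1 : IntegrableOn u K volume := hu.integrableOn_compact_subset hKU hK
  refine (h1.norm.const_mul C).mono' ((aesmK hfm hKU).smul h1.aestronglyMeasurable) ?_
  filter_upwards [hC] with x hx
  rw [norm_smul]
  exact mul_le_mul_of_nonneg_right hx (norm_nonneg _)

theorem locInt_bd_mul {U : Set E}
    (hU : IsOpen U) {f : E → ℝ} (hf : LBd U f) (hfm : AEStronglyMeasurable f (volume.restrict U))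
    {u : E → ℝ} (hu : LocallyIntegrableOn u U volume) :
    LocallyIntegrableOn (fun x => f x * u x) U volume := by
  have := locInt_bd_smul hU hf hfm hu
  simpa only [smul_eq_mul] using this

theorem locInt_const_mul {U : Set E} {u : E → ℝ} (hu : LocallyIntegrableOn u U volume)
    (c : ℝ) : LocallyIntegrableOn (fun x => c * u x) U volume := by
  have := hu.smul c
  exact this

theorem locInt_congr {F : Type*} [NormedAddCommGroup F] {U : Set E} (hU : IsOpen U) {u v : E → F}
    (hu : LocallyIntegrableOn u U volume) (h : u =ᵐ[volume.restrict U] v) :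
    LocallyIntegrableOn v U volume := by
  rw [locallyIntegrableOn_iff hU.isLocallyClosed] at hu ⊢
  intro K hKU hK
  exact (hu K hKU hK).congr (ae_mono (Measure.restrict_mono hKU le_rfl) h)

theorem integral_lin3 {α : Type*} [MeasurableSpace α] {μ : Measure α} {u v w : α → ℝ}
    (hu : Integrable u μ) (hv : Integrable v μ) (hw : Integrable w μ) (c : ℝ) :
    ∫ x, (u x + v x + c * w x) ∂μ = (∫ x, u x ∂μ) + (∫ x, v x ∂μ) + c * ∫ x, w x ∂μ := by
  have h1 : Integrable (fun x => u x + v x) μ := hu.add hv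
  rw [integral_add h1 (hw.const_mul c), integral_add hu hv, integral_const_mul]

/-- pairing of two `L²_loc` fields -/
theorem locInt_inner {U : Set E} (hU : IsOpen U) {g l : E → E} (hg : L2locV U g)
    (hl : L2locV U l) : LocallyIntegrableOn (fun x => (inner ℝ (g x) (l x) : ℝ)) U volume := by
  rw [locallyIntegrableOn_iff hU.isLocallyClosed]
  intro K hKU hK
  have h1 := L2.integrable_inner (𝕜 := ℝ) ((hg K hK hKU).toLp _) ((hl K hK hKU).toLp _)
  refine h1.congr ?_
  filter_upwards [(hg K hK hKU).coeFn_toLp, (hl K hK hKU).coeFn_toLp] with x hx1 hx2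
  rw [hx1, hx2]

theorem locInt_normsq {U : Set E} (hU : IsOpen U) {g : E → E} (hg : L2locV U g) :
    LocallyIntegrableOn (fun x => ‖g x‖ ^ 2) U volume := by
  have := locInt_inner hU hg hg
  simpa only [real_inner_self_eq_norm_sq] using this

theorem L2locV_bd_smul {U : Set E} {f : E → ℝ} (hf : LBd U f)
    (hfm : AEStronglyMeasurable f (volume.restrict U)) {g : E → E} (hg : L2locV U g) :
    L2locV U (fun x => f x • g x) := by
  intro K hK hKU
  obtain ⟨C, hC⟩ := hf K hK hKU
  have h1 := hg K hK hKU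
  refine h1.of_le_mul (c := C) ((aesmK hfm hKU).smul h1.aestronglyMeasurable) ?_
  filter_upwards [hC] with x hx
  rw [norm_smul]
  exact mul_le_mul_of_nonneg_right hx (norm_nonneg _)

theorem L2locV_add {U : Set E} {g l : E → E} (hg : L2locV U g) (hl : L2locV U l) :
    L2locV U (fun x => g x + l x) := fun K hK hKU => (hg K hK hKU).add (hl K hK hKU)

theorem L2locV_sub {U : Set E} {g l : E → E} (hg : L2locV U g) (hl : L2locV U l) :
    L2locV U (fun x => g x - l x) := fun K hK hKU => (hg K hK hKU).sub (hl K hK hKU)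

theorem L2locV_smul {U : Set E} {g : E → E} (hg : L2locV U g) (c : ℝ) :
    L2locV U (fun x => c • g x) := fun K hK hKU => (hg K hK hKU).const_smul c

theorem LBd_mul {U : Set E} {f k : E → ℝ} (hf : LBd U f) (hk : LBd U k) :
    LBd U (fun x => f x * k x) := by
  intro K hK hKU
  obtain ⟨C, hC⟩ := hf K hK hKU
  obtain ⟨D, hD⟩ := hk K hK hKU
  refine ⟨C * D, ?_⟩
  filter_upwards [hC, hD] with x h1 h2
  rw [abs_mul]
  exact mul_le_mul h1 h2 (abs_nonneg _) ((abs_nonneg _).trans h1)

theorem LBd_add {U : Set E} {f k : E → ℝ} (hf : LBd U f) (hk : LBd U k) :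
    LBd U (fun x => f x + k x) := by
  intro K hK hKU
  obtain ⟨C, hC⟩ := hf K hK hKU
  obtain ⟨D, hD⟩ := hk K hK hKU
  refine ⟨C + D, ?_⟩
  filter_upwards [hC, hD] with x h1 h2
  exact (abs_add_le _ _).trans (add_le_add h1 h2)

theorem LBd_const {U : Set E} (c : ℝ) : LBd U (fun _ => c) :=
  fun _ _ _ => ⟨|c|, Eventually.of_forall fun _ => le_rfl⟩

theorem LBd_sub {U : Set E} {f k : E → ℝ} (hf : LBd U f) (hk : LBd U k) :
    LBd U (fun x => f x - k x) := by
  have h := LBd_add hf (LBd_mul (LBd_const (U := U) (-1)) hk)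
  refine fun K hK hKU => ?_
  obtain ⟨C, hC⟩ := h K hK hKU
  refine ⟨C, ?_⟩
  filter_upwards [hC] with x hx
  have e : f x - k x = f x + -1 * k x := by ring
  rw [e]; exact hx

theorem LBd_of_continuousOn {U : Set E} {f : E → ℝ} (hf : ContinuousOn f U) : LBd U f := by
  intro K hK hKU
  obtain ⟨C, hC⟩ := hK.exists_bound_of_continuousOn (hf.mono hKU)
  refine ⟨C, ?_⟩
  filter_upwards [ae_restrict_mem hK.measurableSet] with x hx
  exact hC x hx

theorem LPos_of_continuousOn {U : Set E} {f : E → ℝ} (hf : ContinuousOn f U)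
    (h0 : ∀ x ∈ U, 0 < f x) : LPos U f := by
  intro K hK hKU
  rcases K.eq_empty_or_nonempty with h | h
  · subst h
    exact ⟨1, one_pos, by simp⟩
  · obtain ⟨x0, hx0, hm⟩ := hK.exists_isMinOn h (hf.mono hKU)
    refine ⟨f x0, h0 x0 (hKU hx0), ?_⟩
    filter_upwards [ae_restrict_mem hK.measurableSet] with x hx
    exact hm hx

theorem L2locV_of_continuousOn {U : Set E} {g : E → E} (hg : ContinuousOn g U) :
    L2locV U g := by
  intro K hK hKU
  obtain ⟨C, hC⟩ := hK.exists_bound_of_continuousOn (hg.mono hKU)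
  have := finite_restrict hK
  refine MemLp.of_bound ((hg.mono hKU).aestronglyMeasurable hK.measurableSet) C ?_
  filter_upwards [ae_restrict_mem hK.measurableSet] with x hx
  exact hC x hx

/-- a property true a.e. on every compact subset is true a.e. on the open set -/
theorem ae_of_compacts {U : Set E} (hU : IsOpen U) {P : E → Prop}
    (h : ∀ K, IsCompact K → K ⊆ U → ∀ᵐ x ∂(volume.restrict K), P x) :
    ∀ᵐ x ∂(volume.restrict U), P x := by
  rw [ae_restrict_iff' hU.measurableSet, ae_iff]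
  refine measure_null_of_locally_null _ fun x hx => ?_
  have hxU : x ∈ U := by
    by_contra hcon
    exact hx fun h => absurd h hcon
  obtain ⟨K, hK, hxK, hKU⟩ := exists_compact_subset hU hxU
  have h1 := h K hK hKU
  rw [ae_restrict_iff' hK.measurableSet, ae_iff] at h1
  refine ⟨{a | ¬(a ∈ K → P a)}, ?_, h1⟩
  rw [mem_nhdsWithin_iff_exists_mem_nhds_inter]
  refine ⟨K, mem_interior_iff_mem_nhds.1 hxK, ?_⟩
  rintro y ⟨hy1, hy2⟩ hcon
  exact hy2 fun _ => hcon hy1

theorem LPos.ae_pos {U : Set E} (hU : IsOpen U) {f : E → ℝ} (hf : LPos U f) :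
    ∀ᵐ x ∂(volume.restrict U), 0 < f x := by
  refine ae_of_compacts hU fun K hK hKU => ?_
  obtain ⟨c, hc, hcf⟩ := hf K hK hKU
  filter_upwards [hcf] with y hy using hc.trans_le hy

/-! ### `WB` -/

theorem WB.aesm {U : Set E} {f : E → ℝ} {g : E → E} (h : WB U f g) :
    AEStronglyMeasurable f (volume.restrict U) := h.wg.intf.aestronglyMeasurable

theorem WB.aesmg {U : Set E} {f : E → ℝ} {g : E → E} (h : WB U f g) :
    AEStronglyMeasurable g (volume.restrict U) := h.wg.intg.aestronglyMeasurable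

theorem WB.mul {U : Set E} (hU : IsOpen U) {f k : E → ℝ} {g l : E → E} (h : WB U f g)
    (h' : WB U k l) : WB U (fun x => f x * k x) (fun x => f x • l x + k x • g x) where
  wg := WG.mul hU h.wg h'.wg (locInt_bd_mul hU h.bd (WB.aesm h) h'.wg.intf)
    (locInt_bd_smul hU h.bd (WB.aesm h) h'.wg.intg) (locInt_bd_smul hU h'.bd (WB.aesm h') h.wg.intg)
  g2 := L2locV_add (L2locV_bd_smul h.bd (WB.aesm h) h'.g2) (L2locV_bd_smul h'.bd (WB.aesm h') h.g2)
  bd := LBd_mul h.bd h'.bd

theorem WB.add {U : Set E} (hU : IsOpen U) {f k : E → ℝ} {g l : E → E} (h : WB U f g)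
    (h' : WB U k l) : WB U (fun x => f x + k x) (fun x => g x + l x) where
  wg := WG.add h.wg h'.wg hU
  g2 := L2locV_add h.g2 h'.g2
  bd := LBd_add h.bd h'.bd

theorem WB.sub {U : Set E} (hU : IsOpen U) {f k : E → ℝ} {g l : E → E} (h : WB U f g)
    (h' : WB U k l) : WB U (fun x => f x - k x) (fun x => g x - l x) where
  wg := WG.sub h.wg h'.wg hU
  g2 := L2locV_sub h.g2 h'.g2
  bd := LBd_sub h.bd h'.bd

theorem WB.const_mul {U : Set E} (hU : IsOpen U) {f : E → ℝ} {g : E → E} (h : WB U f g) (c : ℝ) :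
    WB U (fun x => c * f x) (fun x => c • g x) where
  wg := WG.const_mul h.wg c hU
  g2 := L2locV_smul h.g2 c
  bd := LBd_mul (LBd_const c) h.bd

theorem WB.mono {U V : Set E} {f : E → ℝ} {g : E → E} (h : WB U f g) (hV : V ⊆ U) :
    WB V f g where
  wg := WG.mono h.wg hV
  g2 := fun K hK hKV => h.g2 K hK (hKV.trans hV)
  bd := fun K hK hKV => h.bd K hK (hKV.trans hV)

theorem WB.congr {U : Set E} (hU : IsOpen U) {f f' : E → ℝ} {g g' : E → E} (h : WB U f g)
    (hf : f =ᵐ[volume.restrict U] f') (hg : g =ᵐ[volume.restrict U] g') : WB U f' g' where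
  wg := WG.congr hU h.wg hf hg
  g2 := fun K hK hKU => (h.g2 K hK hKU).ae_eq
    (ae_mono (Measure.restrict_mono hKU le_rfl) hg)
  bd := fun K hK hKU => by
    obtain ⟨C, hC⟩ := h.bd K hK hKU
    refine ⟨C, ?_⟩
    have hf' : f =ᵐ[volume.restrict K] f' := ae_mono (Measure.restrict_mono hKU le_rfl) hf
    filter_upwards [hC, hf'] with x h1 h2
    rw [← h2]; exact h1

theorem WB.of_contDiffOn {U : Set E} (hU : IsOpen U) {f : E → ℝ} (hf : ContDiffOn ℝ 1 f U) :
    WB U f (gr f) where
  wg := WG.of_contDiffOn hU hf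
  g2 := by
    refine L2locV_of_continuousOn ?_
    have h1 : ContinuousOn (fun x => fderiv ℝ f x) U := hf.continuousOn_fderiv_of_isOpen hU le_rfl
    refine (PiLp.continuous_toLp 2 _).comp_continuousOn (continuousOn_pi.2 fun i => ?_)
    exact h1.clm_apply continuousOn_const
  bd := LBd_of_continuousOn hf.continuousOn

theorem WB.const {U : Set E} (hU : IsOpen U) (c : ℝ) :
    WB U (fun _ : E => c) (fun _ => 0) := by
  have h := WB.of_contDiffOn hU (contDiffOn_const (c := c) (𝕜 := ℝ) (n := 1) (s := U))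
  have e : gr (fun _ : E => c) = fun _ => 0 := by
    funext x
    ext i
    simp [pd]
  rwa [e] at h

theorem comp_LBd {U : Set E} {f : E → ℝ} (hb : LBd U f) (hp : LPos U f) {G : ℝ → ℝ}
    (hG : ContinuousOn G (Ioi 0)) : LBd U (fun x => G (f x)) := by
  intro K hK hKU
  obtain ⟨c, hc0, hc1⟩ := hp K hK hKU
  obtain ⟨C, hC⟩ := hb K hK hKU
  have hsub : Icc c C ⊆ Ioi 0 := fun t ht => hc0.trans_le ht.1
  obtain ⟨M, hM⟩ := (isCompact_Icc (a := c) (b := C)).exists_bound_of_continuousOn (hG.mono hsub)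
  refine ⟨M, ?_⟩
  filter_upwards [hc1, hC] with x h1 h2
  exact hM _ ⟨h1, (le_abs_self _).trans h2⟩

theorem comp_aesm {U : Set E} (hU : IsOpen U) {f : E → ℝ}
    (hf : AEStronglyMeasurable f (volume.restrict U)) (hp : LPos U f) {G : ℝ → ℝ}
    (hG : ContinuousOn G (Ioi 0)) :
    AEStronglyMeasurable (fun x => G (f x)) (volume.restrict U) := by
  -- replace `G` by its extension by zero, which is measurable
  have h1 : Measurable ((Ioi (0 : ℝ)).indicator G) := by
    refine measurable_of_isOpen ?_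
    intro s hs
    obtain ⟨t, ht, hts⟩ := (continuousOn_iff'.1 hG) s hs
    by_cases h0 : (0 : ℝ) ∈ s
    · have e : (Ioi (0 : ℝ)).indicator G ⁻¹' s = (t ∩ Ioi 0) ∪ (Ioi 0)ᶜ := by
        rw [← hts]
        ext x
        by_cases hx : x ∈ Ioi (0 : ℝ)
        · simp only [mem_preimage, indicator_of_mem hx, mem_union, mem_inter_iff, hx,
            mem_compl_iff, not_true, or_false, and_true]
        · simp only [mem_preimage, indicator_of_notMem hx, mem_union, mem_inter_iff, hx,
            mem_compl_iff, not_false_eq_true, or_true, h0]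
      rw [e]
      exact (ht.inter isOpen_Ioi).measurableSet.union measurableSet_Ioi.compl
    · have e : (Ioi (0 : ℝ)).indicator G ⁻¹' s = (t ∩ Ioi 0) := by
        rw [← hts]
        ext x
        by_cases hx : x ∈ Ioi (0 : ℝ)
        · simp only [mem_preimage, indicator_of_mem hx, mem_inter_iff, hx, and_true]
        · simp only [mem_preimage, indicator_of_notMem hx, mem_inter_iff, hx, h0, and_false]
      rw [e]
      exact (ht.inter isOpen_Ioi).measurableSet
  have h2 := h1.comp_aemeasurable hf.aemeasurable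
  refine h2.aestronglyMeasurable.congr ?_
  filter_upwards [LPos.ae_pos hU hp] with x hx
  simp only [Function.comp_apply]
  rw [indicator_of_mem (mem_Ioi.2 hx)]

/-- composition with a function which is `C¹` near the values of `f` on compact subsets: here on
`(0,∞)` and `f` locally bounded below -/
theorem WB.comp_pos {U : Set E} (hU : IsOpen U) {f : E → ℝ} {g : E → E} (h : WB U f g)
    (hp : LPos U f) {F F' : ℝ → ℝ} (hF : ∀ t, 0 < t → HasDerivAt F (F' t) t)
    (hc : ContinuousOn F' (Ioi 0)) : WB U (fun x => F (f x)) (fun x => F' (f x) • g x) := by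
  have key : ∀ K, IsCompact K → K ⊆ U → ∃ c C : ℝ, 0 < c ∧
      ∀ᵐ x ∂(volume.restrict K), c ≤ f x ∧ f x ≤ C := by
    intro K hK hKU
    obtain ⟨c, hc0, hc1⟩ := hp K hK hKU
    obtain ⟨C, hC⟩ := h.bd K hK hKU
    refine ⟨c, C, hc0, ?_⟩
    filter_upwards [hc1, hC] with x h1 h2
    exact ⟨h1, (le_abs_self _).trans h2⟩
  have hFc : ContinuousOn F (Ioi 0) := fun t ht => (hF t ht).continuousAt.continuousWithinAt
  have hbd : ∀ {G : ℝ → ℝ}, ContinuousOn G (Ioi 0) → LBd U (fun x => G (f x)) :=
    fun hG => comp_LBd h.bd hp hG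
  have hm : ∀ {G : ℝ → ℝ}, ContinuousOn G (Ioi 0) →
      AEStronglyMeasurable (fun x => G (f x)) (volume.restrict U) :=
    fun hG => comp_aesm hU (WB.aesm h) hp hG
  refine ⟨?_, ?_, hbd hFc⟩
  · refine WG.of_local hU fun x hx => ?_
    obtain ⟨K, hK, hxK, hKU⟩ := exists_compact_subset hU hx
    obtain ⟨c, C, hc0, hcC⟩ := key K hK hKU
    refine ⟨interior K, isOpen_interior, hxK, ?_⟩
    have hsub : {t : ℝ | ((c : ℝ) : EReal) ≤ (t : EReal) ∧ (t : EReal) ≤ ((C : ℝ) : EReal)} ⊆
        Icc c C := fun t ht => ⟨by exact_mod_cast ht.1, by exact_mod_cast ht.2⟩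
    have hsub' : Icc c C ⊆ Ioi 0 := fun t ht => hc0.trans_le ht.1
    obtain ⟨M, hM⟩ := (isCompact_Icc (a := c) (b := C)).exists_bound_of_continuousOn
      (hc.mono hsub')
    refine WG.comp_on isOpen_interior (WG.mono h.wg (interior_subset.trans hKU))
      (a := ((c : ℝ) : EReal)) (b := ((C : ℝ) : EReal)) (C := M) ?_ ?_ ?_ ?_
    · have := ae_mono (Measure.restrict_mono interior_subset le_rfl) hcC
      filter_upwards [this] with y hy
      exact ⟨by exact_mod_cast hy.1, by exact_mod_cast hy.2⟩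
    · intro t ht1 ht2
      exact hF t (hsub' (hsub ⟨ht1, ht2⟩))
    · exact hc.mono (hsub.trans hsub')
    · intro t ht1 ht2
      exact hM t (hsub ⟨ht1, ht2⟩)
  · exact L2locV_bd_smul (hbd hc) (hm hc) h.g2

/-! ### test functions -/

theorem ae_of_restrict_of_compl {K : Set E} (hK : MeasurableSet K) {P : E → Prop}
    (h1 : ∀ᵐ x ∂(volume.restrict K), P x) (h2 : ∀ x, x ∉ K → P x) : ∀ᵐ x, P x := by
  rw [ae_restrict_iff' hK] at h1
  filter_upwards [h1] with x hx
  by_cases hxK : x ∈ K
  · exact hx hxK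
  · exact h2 x hxK

theorem TB.WB {U : Set E} {w : E → ℝ} {l : E → E} (h : TB U w l) : R335.WB U w l where
  wg := WG.mono h.h1.wg (subset_univ _)
  g2 := fun _ _ _ => h.h1.memg.restrict _
  bd := fun K _ _ => by
    obtain ⟨b, hb⟩ := h.bd
    exact ⟨b, ae_restrict_of_ae hb⟩

theorem TB.of_WB {U : Set E} (hU : IsOpen U) {w : E → ℝ} {l : E → E} (h : R335.WB U w l)
    {K : Set E} (hK : IsCompact K) (hKU : K ⊆ U) (hw : ∀ x, x ∉ K → w x = 0)
    (hl : ∀ x, x ∉ K → l x = 0) : TB U w l where
  h1 := by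
    have := finite_restrict hK
    refine H1.of_WG_supp hU h.wg hK hKU hw hl ?_ (h.g2 K hK hKU)
    obtain ⟨C, hC⟩ := h.bd K hK hKU
    exact MemLp.of_bound (aesmK (WB.aesm h) hKU) C hC
  bd := by
    obtain ⟨C, hC⟩ := h.bd K hK hKU
    refine ⟨max C 0, ae_of_restrict_of_compl hK.measurableSet ?_ ?_⟩
    · filter_upwards [hC] with x hx using hx.trans (le_max_left _ _)
    · intro x hx
      rw [hw x hx, abs_zero]
      exact le_max_right _ _
  supp := ⟨K, hK, hKU, hw, hl⟩

theorem TB.mul {U : Set E} (hU : IsOpen U) {f w : E → ℝ} {g l : E → E} (h : R335.WB U f g)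
    (hw : TB U w l) : TB U (fun x => f x * w x) (fun x => f x • l x + w x • g x) := by
  obtain ⟨K, hK, hKU, h1, h2⟩ := hw.supp
  refine TB.of_WB hU (WB.mul hU h (TB.WB hw)) hK hKU ?_ ?_
  · intro x hx
    rw [h1 x hx, mul_zero]
  · intro x hx
    rw [h1 x hx, h2 x hx, smul_zero, zero_smul, add_zero]

theorem TB.of_test {U : Set E} {φ : E → ℝ} (h : Test U φ) : TB U φ (gr φ) where
  h1 := H1.of_test h
  bd := by
    obtain ⟨M, _, h1, _⟩ := exists_bound_gr h
    exact ⟨M, Eventually.of_forall h1⟩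
  supp := ⟨tsupport φ, h.cpt, h.sub, fun _ hx => image_eq_zero_of_notMem_tsupport hx,
    fun _ hx => gr_eq_zero_of_notMem hx⟩

/-- conversion: an `H¹` function vanishing outside a compact subset -/
theorem TB.of_H1 {U : Set E} {w : E → ℝ} {l : E → E} (h : H1 w l) {b : ℝ}
    (hb : ∀ᵐ x, |w x| ≤ b) {K : Set E} (hK : IsCompact K) (hKU : K ⊆ U) (hw : SuppIn K w) :
    TB U w (K.indicator l) ∧ l =ᵐ[volume] K.indicator l := by
  have e : l =ᵐ[volume] K.indicator l := by
    have h0 := WG.zero_of_level isOpen_univ h.wg 0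
    rw [Measure.restrict_univ] at h0
    filter_upwards [h0] with x hx
    by_cases hxK : x ∈ K
    · rw [indicator_of_mem hxK]
    · rw [indicator_of_notMem hxK, hx (hw x hxK)]
  exact ⟨⟨H1.congr h (Filter.EventuallyEq.refl _ _) e, ⟨b, hb⟩, K, hK, hKU, hw,
    fun x hx => indicator_of_notMem hx _⟩, e⟩

/-- bounded representative -/
theorem TB.exists_bdd {U : Set E} {w : E → ℝ} {l : E → E} (h : TB U w l) :
    ∃ w' : E → ℝ, ∃ b : ℝ, TB U w' l ∧ w' =ᵐ[volume] w ∧ (∀ x, |w' x| ≤ b) ∧
      ((∀ᵐ x, 0 ≤ w x) → ∀ x, 0 ≤ w' x) := by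
  obtain ⟨b, hb⟩ := h.bd
  obtain ⟨K, hK, hKU, h1, h2⟩ := h.supp
  by_cases hpos : ∀ᵐ x, 0 ≤ w x
  · refine ⟨fun x => if |w x| ≤ b ∧ 0 ≤ w x then w x else 0, max b 0, ?_, ?_, ?_, ?_⟩
    · have e : w =ᵐ[volume] fun x => if |w x| ≤ b ∧ 0 ≤ w x then w x else 0 := by
        filter_upwards [hb, hpos] with x hx1 hx2
        rw [if_pos ⟨hx1, hx2⟩]
      refine ⟨H1.congr h.h1 e (Filter.EventuallyEq.refl _ _), ⟨max b 0,
        Eventually.of_forall fun x => ?_⟩, K, hK, hKU, fun x hx => ?_, h2⟩
      · split_ifs with hh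
        · exact hh.1.trans (le_max_left _ _)
        · rw [abs_zero]; exact le_max_right _ _
      · rw [h1 x hx, ite_self]
    · filter_upwards [hb, hpos] with x hx1 hx2
      rw [if_pos ⟨hx1, hx2⟩]
    · intro x
      dsimp only
      split_ifs with hh
      · exact hh.1.trans (le_max_left _ _)
      · rw [abs_zero]; exact le_max_right _ _
    · intro _ x
      dsimp only
      split_ifs with hh
      · exact hh.2
      · exact le_rfl
  · refine ⟨fun x => if |w x| ≤ b then w x else 0, max b 0, ?_, ?_, ?_, fun hcon => absurd hcon hpos⟩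
    · have e : w =ᵐ[volume] fun x => if |w x| ≤ b then w x else 0 := by
        filter_upwards [hb] with x hx1
        rw [if_pos hx1]
      refine ⟨H1.congr h.h1 e (Filter.EventuallyEq.refl _ _), ⟨max b 0,
        Eventually.of_forall fun x => ?_⟩, K, hK, hKU, fun x hx => ?_, h2⟩
      · split_ifs with hh
        · exact hh.trans (le_max_left _ _)
        · rw [abs_zero]; exact le_max_right _ _
      · rw [h1 x hx, ite_self]
    · filter_upwards [hb] with x hx1
      rw [if_pos hx1]
    · intro x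
      dsimp only
      split_ifs with hh
      · exact hh.trans (le_max_left _ _)
      · rw [abs_zero]; exact le_max_right _ _

theorem TB.integrable_mul {U : Set E} {w : E → ℝ} {l : E → E} (h : TB U w l)
    {a : E → ℝ} (ha : LocallyIntegrableOn a U volume) :
    Integrable (fun x => a x * w x) volume := by
  obtain ⟨b, hb⟩ := h.bd
  obtain ⟨K, hK, hKU, h1, h2⟩ := h.supp
  rw [← integrableOn_iff_integrable_of_support_subset (s := K)]
  · have hi : IntegrableOn a K volume := ha.integrableOn_compact_subset hKU hK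
    refine (hi.norm.mul_const b).mono' (hi.aestronglyMeasurable.mul
      h.h1.memf.aestronglyMeasurable.restrict) ?_
    filter_upwards [ae_restrict_of_ae hb] with x hx
    rw [norm_mul]
    exact mul_le_mul_of_nonneg_left hx (norm_nonneg _)
  · intro x hx
    by_contra hcon
    exact hx (by simp only [h1 x hcon, mul_zero])

theorem TB.integrable_inner {U : Set E} {w : E → ℝ} {l : E → E} (h : TB U w l)
    {g : E → E} (hg : L2locV U g) : Integrable (fun x => (inner ℝ (g x) (l x) : ℝ)) volume := by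
  obtain ⟨K, hK, hKU, h1, h2⟩ := h.supp
  exact integrable_inner_supp hg hK hKU h.h1.memg h2

/-- the weak equation tested with bounded compactly supported `H¹` functions -/
theorem WL.pair {U : Set E} (hU : IsOpen U) {f : E → ℝ} {g : E → E} {a : E → ℝ}
    (h : WL U f g a) {w : E → ℝ} {l : E → E} (hw : TB U w l) :
    ∫ x, inner ℝ (g x) (l x) = - ∫ x, a x * w x := by
  obtain ⟨w', b, hw', e, hb, _⟩ := TB.exists_bdd hw
  obtain ⟨K, hK, hKU, h1, h2⟩ := hw'.supp
  have h3 := test_eq_bdd hU h.g2 h.ia (c := 1) (fun φ hφ => by rw [one_mul, h.eq φ hφ]; ring)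
    hw'.h1 hK hKU h1 hb
  have e2 : ∫ x, a x * w' x = ∫ x, a x * w x := by
    refine integral_congr_ae ?_
    filter_upwards [e] with x hx
    rw [hx]
  rw [one_mul, e2] at h3
  linarith

/-- a weak inequality tested with bounded compactly supported `H¹` functions -/
theorem TB.pair_le {U : Set E} (hU : IsOpen U) {G : E → E} (hG : L2locV U G) {q : E → ℝ}
    (hq : LocallyIntegrableOn q U volume)
    (h : ∀ φ : E → ℝ, Test U φ → (∀ x, 0 ≤ φ x) →
      (∫ x, inner ℝ (G x) (gr φ x)) + ∫ x, q x * φ x ≤ 0)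
    {w : E → ℝ} {l : E → E} (hw : TB U w l) (h0 : ∀ᵐ x, 0 ≤ w x) :
    (∫ x, inner ℝ (G x) (l x)) + ∫ x, q x * w x ≤ 0 := by
  obtain ⟨w', b, hw', e, hb, hp⟩ := TB.exists_bdd hw
  obtain ⟨K, hK, hKU, h1, h2⟩ := hw'.supp
  have h3 := test_ineq_bdd hU hG hq (c := 1) (fun φ hφ h0 => by rw [one_mul]; exact h φ hφ h0)
    hw'.h1 hK hKU h1 (fun x => ⟨hp h0 x, (le_abs_self _).trans (hb x)⟩)
  have e2 : ∫ x, q x * w' x = ∫ x, q x * w x := by
    refine integral_congr_ae ?_
    filter_upwards [e] with x hx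
    rw [hx]
  rw [one_mul, e2] at h3
  exact h3

/-! ### calculus of weak Laplacians -/

theorem WL.mono {U V : Set E} {f : E → ℝ} {g : E → E} {a : E → ℝ} (h : WL U f g a)
    (hV : V ⊆ U) : WL V f g a where
  toWB := WB.mono h.toWB hV
  ia := h.ia.mono_set hV
  eq := fun φ hφ => h.eq φ ⟨hφ.smooth, hφ.cpt, hφ.sub.trans hV⟩

theorem WL.congr_lap {U : Set E} (hU : IsOpen U) {f : E → ℝ} {g : E → E} {a a' : E → ℝ}
    (h : WL U f g a) (ha : a =ᵐ[volume.restrict U] a') : WL U f g a' where
  toWB := h.toWB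
  ia := locInt_congr hU h.ia ha
  eq := fun φ hφ => by
    rw [h.eq φ hφ]
    congr 1
    refine integral_congr_ae ?_
    rw [Filter.EventuallyEq, ae_restrict_iff' hU.measurableSet] at ha
    filter_upwards [ha] with x hx
    by_cases hxU : x ∈ U
    · rw [hx hxU]
    · have : φ x = 0 := image_eq_zero_of_notMem_tsupport fun h => hxU (hφ.sub h)
      rw [this, mul_zero, mul_zero]

theorem WL.add {U : Set E} (hU : IsOpen U) {f k : E → ℝ} {g l : E → E} {a b : E → ℝ}
    (h : WL U f g a) (h' : WL U k l b) :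
    WL U (fun x => f x + k x) (fun x => g x + l x) (fun x => a x + b x) where
  toWB := WB.add hU h.toWB h'.toWB
  ia := h.ia.add h'.ia
  eq := fun φ hφ => by
    have hT := TB.of_test hφ
    simp only [inner_add_left, add_mul]
    rw [integral_add (TB.integrable_inner hT h.g2) (TB.integrable_inner hT h'.g2),
      integral_add (TB.integrable_mul hT h.ia) (TB.integrable_mul hT h'.ia), h.eq φ hφ, h'.eq φ hφ]
    ring

theorem WL.const_mul {U : Set E} (hU : IsOpen U) {f : E → ℝ} {g : E → E} {a : E → ℝ}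
    (h : WL U f g a) (c : ℝ) :
    WL U (fun x => c * f x) (fun x => c • g x) (fun x => c * a x) where
  toWB := WB.const_mul hU h.toWB c
  ia := h.ia.smul c
  eq := fun φ hφ => by
    simp only [real_inner_smul_left, mul_assoc, integral_const_mul]
    rw [h.eq φ hφ]
    ring

theorem WL.const {U : Set E} (hU : IsOpen U) (c : ℝ) :
    WL U (fun _ : E => c) (fun _ => 0) (fun _ => 0) where
  toWB := WB.const hU c
  ia := locallyIntegrableOn_zero
  eq := fun φ _ => by simp

/-- product rule for weak Laplacians -/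
theorem WL.mul {U : Set E} (hU : IsOpen U) {f k : E → ℝ} {g l : E → E} {a b : E → ℝ}
    (h : WL U f g a) (h' : WL U k l b) :
    WL U (fun x => f x * k x) (fun x => f x • l x + k x • g x)
      (fun x => f x * b x + k x * a x + 2 * inner ℝ (g x) (l x)) where
  toWB := WB.mul hU h.toWB h'.toWB
  ia := ((locInt_bd_mul hU h.bd (WB.aesm h.toWB) h'.ia).add
    (locInt_bd_mul hU h'.bd (WB.aesm h'.toWB) h.ia)).add
      (locInt_const_mul (locInt_inner hU h.g2 h'.g2) 2)
  eq := fun φ hφ => by
    have hT := TB.of_test hφ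
    have t1 := TB.mul hU h.toWB hT
    have t2 := TB.mul hU h'.toWB hT
    have p1 := WL.pair hU h' t1
    have p2 := WL.pair hU h t2
    have i1 := TB.integrable_inner t1 h'.g2
    have i2 := TB.integrable_inner t2 h.g2
    have j1 := TB.integrable_mul t1 h'.ia
    have j2 := TB.integrable_mul t2 h.ia
    have j3 := TB.integrable_mul hT (locInt_inner hU h.g2 h'.g2)
    have e1 : ∫ x, inner ℝ (f x • l x + k x • g x) (gr φ x) =
        (∫ x, inner ℝ (l x) (f x • gr φ x + φ x • g x)) +
        (∫ x, inner ℝ (g x) (k x • gr φ x + φ x • l x)) +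
        (-2) * ∫ x, inner ℝ (g x) (l x) * φ x := by
      rw [← integral_lin3 i1 i2 j3]
      refine integral_congr_ae (Eventually.of_forall fun x => ?_)
      simp only [inner_add_left, inner_add_right, real_inner_smul_left, real_inner_smul_right]
      rw [real_inner_comm (g x) (l x)]
      ring
    have e2 : ∫ x, (f x * b x + k x * a x + 2 * inner ℝ (g x) (l x)) * φ x =
        (∫ x, b x * (f x * φ x)) + (∫ x, a x * (k x * φ x)) +
        2 * ∫ x, inner ℝ (g x) (l x) * φ x := by
      rw [← integral_lin3 j1 j2 j3]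
      refine integral_congr_ae (Eventually.of_forall fun x => ?_)
      simp only
      ring
    rw [e1, e2, p1, p2]
    ring

/-- chain rule for weak Laplacians, functions which are `C²` on `(0,∞)` -/
theorem WL.comp_pos {U : Set E} (hU : IsOpen U) {f : E → ℝ} {g : E → E} {a : E → ℝ}
    (h : WL U f g a) (hp : LPos U f) {F F' F'' : ℝ → ℝ}
    (hF : ∀ t, 0 < t → HasDerivAt F (F' t) t) (hF' : ∀ t, 0 < t → HasDerivAt F' (F'' t) t)
    (hc : ContinuousOn F'' (Ioi 0)) :
    WL U (fun x => F (f x)) (fun x => F' (f x) • g x)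
      (fun x => F' (f x) * a x + F'' (f x) * ‖g x‖ ^ 2) := by
  have hc' : ContinuousOn F' (Ioi 0) := fun t ht => (hF' t ht).continuousAt.continuousWithinAt
  have w1 := WB.comp_pos hU h.toWB hp hF hc'
  have w2 := WB.comp_pos hU h.toWB hp hF' hc
  have hbd2 : LBd U (fun x => F'' (f x)) := comp_LBd h.bd hp hc
  have hm2 : AEStronglyMeasurable (fun x => F'' (f x)) (volume.restrict U) :=
    comp_aesm hU (WB.aesm h.toWB) hp hc
  refine ⟨w1, ?_, ?_⟩
  · have h1 := locInt_bd_mul hU hbd2 hm2 (locInt_normsq hU h.g2)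
    exact (locInt_bd_mul hU w2.bd (WB.aesm w2) h.ia).add h1
  · intro φ hφ
    have hT := TB.of_test hφ
    have t1 := TB.mul hU w2 hT
    have p1 := WL.pair hU h t1
    have i1 := TB.integrable_inner t1 h.g2
    have j1 := TB.integrable_mul t1 h.ia
    have j3 := TB.integrable_mul hT (locInt_bd_mul hU hbd2 hm2 (locInt_normsq hU h.g2))
    have e1 : ∫ x, inner ℝ (F' (f x) • g x) (gr φ x) =
        (∫ x, inner ℝ (g x) (F' (f x) • gr φ x + φ x • F'' (f x) • g x)) -
        ∫ x, F'' (f x) * ‖g x‖ ^ 2 * φ x := by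
      rw [← integral_sub i1 j3]
      refine integral_congr_ae (Eventually.of_forall fun x => ?_)
      simp only [inner_add_right, real_inner_smul_left, real_inner_smul_right,
        real_inner_self_eq_norm_sq]
      ring
    have e2 : ∫ x, (F' (f x) * a x + F'' (f x) * ‖g x‖ ^ 2) * φ x =
        (∫ x, a x * (F' (f x) * φ x)) + ∫ x, F'' (f x) * ‖g x‖ ^ 2 * φ x := by
      rw [← integral_add j1 j3]
      refine integral_congr_ae (Eventually.of_forall fun x => ?_)
      simp only
      ring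
    rw [e1, e2, p1]
    ring

/-- `C²` functions -/
theorem WL.of_jet {U : Set E} (hU : IsOpen U) {b : E → ℝ} {G : E → E} {L : E → ℝ}
    (h : Jet U b G L) : WL U b G L where
  wg := h.wg hU
  g2 := by
    refine L2locV_of_continuousOn ?_
    have h1 : ContinuousOn (fun x => fderiv ℝ b x) U :=
      h.smooth.continuousOn_fderiv_of_isOpen hU (by norm_num)
    have h2 : ContinuousOn (gr b) U :=
      (PiLp.continuous_toLp 2 _).comp_continuousOn
        (continuousOn_pi.2 fun i => h1.clm_apply continuousOn_const)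
    exact h2.congr fun x hx => (h.grad x hx).symm
  bd := LBd_of_continuousOn h.smooth.continuousOn
  ia := h.locInt_lap hU
  eq := fun φ hφ => h.ibp hU hφ

end PLC
end Crest.Agent.R335
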