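import Crest.Agent.R335.PLRQ
import Crest.Agent.R335.PLLoc

/-!
Row 335 (S0521), C.6 (lower bound): `COut` gives the hypotheses `PL.Core` (helper16).
-/

set_option autoImplicit false
set_option linter.unusedSectionVars false

open MeasureTheory Filter Set Crest.MathPhysics.ThreeBody
open scoped ENNReal Topology ContDiff

noncomputable section
namespace Crest.Agent.R335.PLS
open Crest.Agent.R335

/-! ### weak equations with the factor two -/

theorem weq_two {U V : Set Pos3} (hVU : V ⊆ U) {s : Pos3 → ℝ} {ds : Pos3 → Pos3} {m f : Pos3 → ℝ}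
    (h : WEq U s ds m f) {φ : Pos3 → ℝ} (hφ : Test V φ) :
    (∫ x, inner ℝ (ds x) (gr φ x)) + ∫ x, (2 * (m x * s x) - 2 * f x) * φ x = 0 := by
  have hφU : Test U φ := ⟨hφ.smooth, hφ.cpt, hφ.sub.trans hVU⟩
  have h1 := h.eq φ hφU
  have i1 := PLC.TB.integrable_mul (PLC.TB.of_test hφU) h.ims
  have i2 := PLC.TB.integrable_mul (PLC.TB.of_test hφU) h.if'
  have e1 : ∫ x, (2 * (m x * s x) - 2 * f x) * φ x =
      2 * (∫ x, m x * s x * φ x) - 2 * ∫ x, f x * φ x := by
    rw [← integral_const_mul, ← integral_const_mul,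
      ← integral_sub (i1.const_mul 2) (i2.const_mul 2)]
    refine integral_congr_ae (Eventually.of_forall fun x => ?_)
    simp only
    ring
  rw [e1]
  linarith

theorem wle_two {U V : Set Pos3} (hVU : V ⊆ U) {s : Pos3 → ℝ} {ds : Pos3 → Pos3} {m f : Pos3 → ℝ}
    (h : WLe U s ds m f) {φ : Pos3 → ℝ} (hφ : Test V φ) (h0 : ∀ x, 0 ≤ φ x) :
    (∫ x, inner ℝ (ds x) (gr φ x)) + ∫ x, 2 * m x * s x * φ x ≤ ∫ x, 2 * f x * φ x := by
  have hφU : Test U φ := ⟨hφ.smooth, hφ.cpt, hφ.sub.trans hVU⟩
  have h1 := h.le φ hφU h0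
  have e1 : ∫ x, 2 * m x * s x * φ x = 2 * ∫ x, m x * s x * φ x := by
    rw [← integral_const_mul]
    refine integral_congr_ae (Eventually.of_forall fun x => ?_)
    simp only
    ring
  have e2 : ∫ x, 2 * f x * φ x = 2 * ∫ x, f x * φ x := by
    rw [← integral_const_mul]
    refine integral_congr_ae (Eventually.of_forall fun x => ?_)
    simp only
    ring
  rw [e1, e2]
  linarith

section

variable {cg C0 D : ℝ} {B : OBD cg C0 D} {C P K1 K2 R1 lam κ κS κT Z1 dp : ℝ}
  {s s1 s2 F w0 X sig : Pos3 → ℝ} {gs gs1 gs2 gF : Pos3 → Pos3}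

/-- the potential `κ² + 2V` -/
def pot (D κ : ℝ) (x : Pos3) : ℝ := κ ^ 2 + 2 * V2 D x

theorem pot_meas (D κ : ℝ) : Measurable (pot D κ) := by
  unfold pot V2
  fun_prop

theorem pot_cont (N : Num C P D B.om B.a K1 K2 R1 lam Z1 dp) :
    ContinuousOn (pot D κ) (PL.Dom R1 Z1) := by
  intro x hx
  refine ContinuousAt.continuousWithinAt ?_
  have h2 := dist_slab N.D4 (dom_slab N hx).2.1
  have h1 := (dom_slab N hx).1
  have ha : ‖x - nuc D‖ ≠ 0 := by
    have := (abs_le.1 h2.1).1
    linarith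
  have hb : ‖x - nuc (-D)‖ ≠ 0 := by
    have := (abs_le.1 h2.2).1
    linarith
  unfold pot V2
  have c1 : ContinuousAt (fun x : Pos3 => ‖x - nuc D‖) x := by fun_prop
  have c2 : ContinuousAt (fun x : Pos3 => ‖x - nuc (-D)‖) x := by fun_prop
  have d1 := (continuousAt_const (y := (1 : ℝ))).div c1 ha
  have d2 := (continuousAt_const (y := (1 : ℝ))).div c2 hb
  exact continuousAt_const.add (continuousAt_const.mul (d1.neg.sub d2))

theorem shf_jet (N : Num C P D B.om B.a K1 K2 R1 lam Z1 dp) :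
    Jet (PL.Dom R1 Z1) (shf C P κS κT κ lam B.om) (dshf C P κS κT κ lam B.om)
      (fun x => 3 * C * P * lprf κS κT κ lam B.om ‖x‖) := by
  refine prf_jet (3 * C * P) κS κT κ lam B.om (PL.isOpen_Dom R1 Z1) fun x hx => ?_
  intro h0
  have := (dom_slab N hx).1
  rw [h0, norm_zero] at this
  linarith

theorem shf_pos (N : Num C P D B.om B.a K1 K2 R1 lam Z1 dp)
    (h : COut B P K1 K2 R1 lam κ κS κT s s1 s2 F w0 X sig gs gs1 gs2 gF) {x : Pos3}
    (hx : x ∈ PL.Dom R1 Z1) : 0 < shf C P κS κT κ lam B.om x := by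
  have h1 := shf_ge N h (x := x) (by linarith [(dom_slab N hx).1])
  exact lt_of_lt_of_le (Real.exp_pos _) h1

/-- `Δ ŝ ≤ (κ² + 2V + 6 om) ŝ` -/
theorem shf_lap (N : Num C P D B.om B.a K1 K2 R1 lam Z1 dp)
    (h : COut B P K1 K2 R1 lam κ κS κT s s1 s2 F w0 X sig gs gs1 gs2 gF) {om : ℝ}
    (ho : 2 / 3 * B.om ≤ om) {x : Pos3} (hx : x ∈ PL.Dom R1 Z1) :
    3 * C * P * lprf κS κT κ lam B.om ‖x‖ ≤ (pot D κ x + 6 * om) * shf C P κS κT κ lam B.om x := by
  obtain ⟨q1, q2, q3, q4, q5⟩ := dom_slab N hx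
  have hC := N.C1
  have hP := N.P1
  have hD := N.D4
  have hl0 := N.l0
  have hl1 := N.l1
  have hom := N.om0
  have hr : 0 < ‖x‖ := by linarith
  have hK2 := N.K20
  have hlK := N.lK
  have e2 : (2 * K2 + 4) * lam = 2 * (K2 * lam) + 4 * lam := by ring
  have hB : B.om = B.eu - B.eg := rfl
  have k1 := h.κ_near
  have k2 := h.κS_near
  have k3 := h.κT_near
  rw [abs_le] at k1 k2 k3
  have hlr : 4 * lam / ‖x‖ ≤ 4 * lam := by
    refine div_le_self (by positivity) (by linarith)
  have hKl : 0 ≤ K2 * lam := by positivity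
  have h9 : (9 + 4 * lam) / ‖x‖ ≤ 4 * B.om := by
    rw [div_le_iff₀ hr]
    have h10 := N.Rom
    rw [div_le_iff₀ hom] at h10
    have h11 : R1 * B.om ≤ ‖x‖ * B.om := mul_le_mul_of_nonneg_right hx.1.le hom.le
    linarith
  have hpn := N.pn h.κ_rng h.κS_rng h.κT_rng
  have key := lprf_le hpn (t := ‖x‖) (e := 4 * B.om) (by linarith) (by linarith [k2.2, k1.1])
    (by linarith [k3.2, k1.1]) h9
  have hprf := prf_pos hpn (t := ‖x‖) (by linarith)
  have hV : -(4 / ‖x‖) ≤ 2 * V2 D x := V2_ge hr (by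
    rw [q4]
    have h1 : 2 * x 2 ≤ 2 * D * |x 2| := by
      rw [q4]
      nlinarith
    have h2 : 0 ≤ D ^ 2 := by positivity
    linarith)
  have h12 : lprf κS κT κ lam B.om ‖x‖ ≤ (pot D κ x + 6 * om) * prf κS κT κ lam B.om ‖x‖ := by
    refine key.trans (mul_le_mul_of_nonneg_right ?_ hprf.le)
    unfold pot
    linarith
  have h13 := mul_le_mul_of_nonneg_left h12 (by positivity : (0 : ℝ) ≤ 3 * C * P)
  unfold shf
  linarith

theorem dshf_z (N : Num C P D B.om B.a K1 K2 R1 lam Z1 dp)
    (h : COut B P K1 K2 R1 lam κ κS κT s s1 s2 F w0 X sig gs gs1 gs2 gF) {x : Pos3}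
    (hx : x ∈ PL.Dom R1 Z1) : dshf C P κS κT κ lam B.om x 2 ≤ 0 := by
  obtain ⟨q1, q2, q3, q4, q5⟩ := dom_slab N hx
  have hC := N.C1
  have hP := N.P1
  have hpn := N.pn h.κ_rng h.κS_rng h.κT_rng
  have h1 := dprf_pos hpn (t := ‖x‖) (by linarith)
  have hr : 0 < ‖x‖ := by linarith
  unfold dshf
  rw [PiLp.smul_apply, smul_eq_mul]
  have : 0 ≤ 3 * C * P * dprf κS κT κ lam B.om ‖x‖ / ‖x‖ * x 2 := by positivity
  linarith

/-- `PL.Core` from `COut` and the angle -/
theorem core_of_out (hsl : SlabC C) (N : Num C P D B.om B.a K1 K2 R1 lam Z1 dp)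
    (h : COut B P K1 K2 R1 lam κ κS κT s s1 s2 F w0 X sig gs gs1 gs2 gF) {om : ℝ}
    (ho : 2 / 3 * B.om ≤ om) (ho2 : om ≤ 2 * B.om) {H : Pos3 → ℝ} {dH : Pos3 → Pos3}
    (H_wg : WG (PL.Dom R1 Z1) H dH) (H_l2 : L2locV (PL.Dom R1 Z1) dH)
    (H_nn : ∀ x ∈ PL.Dom R1 Z1, 0 ≤ H x) (H_le : ∀ x ∈ PL.Dom R1 Z1, H x ≤ Real.pi / 2)
    (H_eq : ∀ φ, Test (PL.Dom R1 Z1) φ →
      ∫ x, s x ^ 2 * inner ℝ (dH x) (gr φ x) =
        - om * ∫ x, s x ^ 2 * Real.sin (2 * H x) * φ x) :
    ∃ er cpl : Pos3 → ℝ,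
      PL.Core om (√(2 * B.om)) lam R1 Z1 (pot D κ) (fun x => 2 * w0 x) (fun x => 2 * X x)
        (fun x => 2 * sig x) er cpl s s1 s2 F H (shf C P κS κT κ lam B.om) gs gs1 gs2 gF dH
        (dshf C P κS κT κ lam B.om) ∧
      PL.RQ om R1 Z1 dp er cpl s2 (shf C P κS κT κ lam B.om) ∧
      (∀ᵐ x, x ∈ PL.Dom R1 Z1 →
        4 * PL.eps lam x * F x ≤ dp * shf C P κS κT κ lam B.om x) := by
  have hU := PL.isOpen_Dom R1 Z1
  have hom := N.om0
  have hom' : 0 < om := by linarith
  have hVU : PL.Dom R1 Z1 ⊆ UpExt R1 := dom_upExt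
  have hq0 : √(2 * B.om) ^ 2 = 2 * B.om := Real.sq_sqrt (by linarith)
  -- measurable representatives
  have m1 := h.h1.memf.aestronglyMeasurable
  have m2 := h.h2.memf.aestronglyMeasurable
  obtain ⟨t1, ht1⟩ : ∃ t, t = m1.mk s1 := ⟨_, rfl⟩
  obtain ⟨t2, ht2⟩ : ∃ t, t = m2.mk s2 := ⟨_, rfl⟩
  have hm1 : Measurable t1 := by rw [ht1]; exact m1.stronglyMeasurable_mk.measurable
  have hm2 : Measurable t2 := by rw [ht2]; exact m2.stronglyMeasurable_mk.measurable
  have he1 : s1 =ᵐ[volume] t1 := by rw [ht1]; exact m1.ae_eq_mk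
  have he2 : s2 =ᵐ[volume] t2 := by rw [ht2]; exact m2.ae_eq_mk
  obtain ⟨er, her⟩ : ∃ e : Pos3 → ℝ, e = fun x => 2 * eC K1 K2 lam κ B.a t1 t2 x := ⟨_, rfl⟩
  obtain ⟨cpl, hcpl⟩ : ∃ e : Pos3 → ℝ, e = fun x => 2 * cC P K1 lam κ B.a t1 x := ⟨_, rfl⟩
  have her' : ∀ᵐ x, er x = 2 * eC K1 K2 lam κ B.a s1 s2 x := by
    filter_upwards [he1, he2] with x h1 h2
    rw [her]
    unfold eC
    rw [h1, h2]
  have hcpl' : ∀ᵐ x, cpl x = 2 * cC P K1 lam κ B.a s1 x := by
    filter_upwards [he1] with x h1
    rw [hcpl]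
    unfold cC
    rw [h1]
  have herm : Measurable er := by
    rw [her]
    unfold eC
    fun_prop
  have hcplm : Measurable cpl := by
    rw [hcpl]
    unfold cC
    fun_prop
  have herr := err_bounds hsl N h
  have hshc : ContinuousOn (shf C P κS κT κ lam B.om) (PL.Dom R1 Z1) :=
    (shf_jet N).smooth.continuousOn
  have hK1 := N.K10
  have hK2 := N.K20
  have hl0 := N.l0
  have hP1 := N.P1
  have heC0 : ∀ x, 0 ≤ eC K1 K2 lam κ B.a s1 s2 x := by
    intro x
    unfold eC
    have := h.nn1 x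
    have := h.nn2 x
    positivity
  have hcC0 : ∀ x, 0 ≤ cC P K1 lam κ B.a s1 x := by
    intro x
    unfold cC
    have := h.nn1 x
    positivity
  have hF0 : ∀ᵐ x, x ∈ PL.Dom R1 Z1 → 0 < F x := by
    have h1 := PLC.LPos.ae_pos hU (f := F) (by
      intro K hK hKU
      obtain ⟨c, hc, hc1⟩ := F_pos hsl N h K hK hKU
      exact ⟨c, hc, (ae_restrict_iff' hK.measurableSet).2 hc1⟩)
    rw [ae_restrict_iff' hU.measurableSet] at h1
    exact h1
  refine ⟨er, cpl, ?_, ?_, ?_⟩
  · exact
    { om_pos := hom'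
      q0_pos := Real.sqrt_pos.2 (by linarith)
      lam_pos := N.l0
      lam_le := N.l1
      R1_ge := by linarith [N.R200]
      Z1_pos := N.Z0
      P_m := pot_meas D κ
      P_b := PL.LocB.of_continuousOn (pot_cont N)
      wc_m := h.w0m.const_mul 2
      wc_nn := by
        filter_upwards [h.w0b] with x h1 hx
        linarith [(h1 (hVU hx)).1]
      wc_le := by
        filter_upwards [h.w0b] with x h1 hx
        rw [hq0]
        linarith [(h1 (hVU hx)).2]
      er_m := herm
      er_nn := by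
        filter_upwards [her'] with x h1 hx
        rw [h1]
        linarith [heC0 x]
      er_b := by
        refine PL.LocB.of_le (PL.LocB.mul (PL.LocB.const _ (4.4 * B.om))
          (PL.LocB.of_continuousOn hshc)) ?_
        filter_upwards [her', herr] with x h1 h2 hx
        have h3 := (h2 hx).2.1
        rw [h1, abs_of_nonneg (by linarith [heC0 x])]
        exact h3.trans (le_abs_self _)
      cpl_m := hcplm
      cpl_nn := by
        filter_upwards [hcpl'] with x h1 hx
        rw [h1]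
        linarith [hcC0 x]
      cpl_b := by
        refine PL.LocB.of_le (PL.LocB.mul (PL.LocB.const _ B.om)
          (PL.LocB.of_continuousOn hshc)) ?_
        filter_upwards [hcpl', herr] with x h1 h2 hx
        have h3 := (h2 hx).1
        rw [h1, abs_of_nonneg (by linarith [hcC0 x])]
        exact h3.trans (le_abs_self _)
      X_int := by
        have h1 := PLC.locInt_const_mul (h.eq1.if'.mono_set hVU) (-2)
        refine PLC.locInt_congr hU h1 (Eventually.of_forall fun x => ?_)
        simp only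
        ring
      sig_int := by
        have h1 := PLC.locInt_const_mul (h.eqF.if'.mono_set hVU) (-2)
        refine PLC.locInt_congr hU h1 (Eventually.of_forall fun x => ?_)
        simp only
        ring
      s_h1 := h.amp.h1
      s_cont := h.amp.cont
      s_pos := h.amp.pos
      s_b := h.amp.bdd
      s1_wg := WG.mono h.h1.wg (subset_univ _)
      s1_l2 := fun K _ _ => h.h1.memg.restrict K
      s1_nn := h.nn1
      s2_wg := WG.mono h.h2.wg (subset_univ _)
      s2_l2 := fun K _ _ => h.h2.memg.restrict K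
      s2_nn := h.nn2
      sq := h.sq
      kato := by
        intro φ hφ hφ0
        have h1 := wle_two (subset_univ _) h.kato hφ hφ0
        have e1 : ∫ x, 2 * (κ ^ 2 / 2 + V2 D x) * s x * φ x = ∫ x, pot D κ x * s x * φ x := by
          refine integral_congr_ae (Eventually.of_forall fun x => ?_)
          simp only [pot]
          ring
        rw [e1] at h1
        simpa using h1
      s2_sub := by
        intro φ hφ hφ0
        have h1 := wle_two hVU h.kato2 hφ hφ0
        have e1 : ∫ x, 2 * (κ ^ 2 / 2 + V2 D x + B.om / 2) * s2 x * φ x =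
            ∫ x, (pot D κ x + √(2 * B.om) ^ 2 / 2) * s2 x * φ x := by
          refine integral_congr_ae (Eventually.of_forall fun x => ?_)
          simp only [pot]
          rw [hq0]
          ring
        have e2 : ∫ x, 2 * cC P K1 lam κ B.a s1 x * φ x = ∫ x, cpl x * φ x := by
          refine integral_congr_ae ?_
          filter_upwards [hcpl'] with x hx
          rw [hx]
        rw [e1, e2] at h1
        exact h1
      s1_eq := by
        intro φ hφ
        have h1 := weq_two hVU h.eq1 hφ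
        have e1 : ∫ x, (2 * ((κ ^ 2 / 2 + V2 D x + w0 x) * s1 x) - 2 * -X x) * φ x =
            ∫ x, ((pot D κ x + 2 * w0 x) * s1 x + 2 * X x) * φ x := by
          refine integral_congr_ae (Eventually.of_forall fun x => ?_)
          simp only [pot]
          ring
        rw [e1] at h1
        exact h1
      F_wg := WG.mono h.hF.wg (subset_univ _)
      F_l2 := fun K _ _ => h.hF.memg.restrict K
      F_pos := F_pos hsl N h
      F_le := by
        filter_upwards [h.Fs1] with x h1 hx
        exact h1 (hVU hx)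
      F_eq := by
        intro φ hφ
        have h1 := weq_two hVU h.eqF hφ
        have e1 : ∫ x, (2 * ((κ ^ 2 / 2 + V2 D x + w0 x) * F x) - 2 * -sig x) * φ x =
            ∫ x, ((pot D κ x + 2 * w0 x) * F x + 2 * sig x) * φ x := by
          refine integral_congr_ae (Eventually.of_forall fun x => ?_)
          simp only [pot]
          ring
        rw [e1] at h1
        exact h1
      sig_le := by
        filter_upwards [her', h.sigb] with x h1 h2 hx
        rw [h1, abs_mul, abs_two]
        linarith [h2 (hVU hx)]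
      X_ge := by
        filter_upwards [her', h.Xb] with x h1 h2 hx
        rw [h1]
        linarith [h2 (hVU hx)]
      m_ge := by
        filter_upwards [h.s1F, hF0] with x h1 h2 hx
        have h3 := h1 (hVU hx)
        have h4 := h2 hx
        obtain ⟨q1, q2, q3, q4, q5⟩ := dom_slab N hx
        have hr4 : (1 : ℝ) ≤ ‖x‖ ^ 4 := one_le_pow₀ (by linarith)
        obtain ⟨e, he⟩ : ∃ e, e = lam / ‖x‖ ^ 4 := ⟨_, rfl⟩
        have he0 : 0 ≤ e := by rw [he]; positivity
        have he1 : e ≤ 1 := by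
          rw [he, div_le_one (by positivity)]
          linarith [N.l1]
        have h5 : K2 * lam ^ 2 / ‖x‖ ^ 4 ≤ e := by
          have h6 : K2 * lam ^ 2 / ‖x‖ ^ 4 = (K2 * lam) * e := by rw [he]; ring
          rw [h6]
          have := mul_le_mul_of_nonneg_right N.lK3 he0
          linarith
        have h7 : s1 x ^ 2 ≤ (1 + e) * F x ^ 2 := by
          have := mul_le_mul_of_nonneg_right h5 (sq_nonneg (F x))
          linarith
        have h8 : ((1 - e) * s1 x) ^ 2 ≤ F x ^ 2 := by
          have h9 : ((1 - e) * s1 x) ^ 2 ≤ (1 - e) ^ 2 * ((1 + e) * F x ^ 2) := by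
            rw [mul_pow]
            exact mul_le_mul_of_nonneg_left h7 (sq_nonneg _)
          have h10 : (1 - e) ^ 2 * (1 + e) ≤ 1 := by
            have h11 : (1 - e) * (1 - e ^ 2) ≤ 1 * 1 :=
              mul_le_mul (by linarith) (by nlinarith) (by nlinarith) (by norm_num)
            have h12 : (1 - e) ^ 2 * (1 + e) = (1 - e) * (1 - e ^ 2) := by ring
            linarith
          have h13 := mul_le_mul_of_nonneg_right h10 (sq_nonneg (F x))
          linarith
        have h14 := (abs_le_of_sq_le_sq' h8 h4.le).2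
        unfold PL.eps
        rw [← he]
        exact h14
      m_grad := by
        filter_upwards [h.mgrad, her', hF0, h.Fs1] with x h1 h2 h3 h4 hx
        have h5 := h1 (hVU hx)
        have hs1 : 0 < s1 x := lt_of_lt_of_le (h3 hx) (h4 (hVU hx))
        have hs0 : s1 x ≠ 0 := hs1.ne'
        have e1 : s1 x • gF x - F x • gs1 x = s1 x ^ 2 • PL.dm F s1 gF gs1 x := by
          unfold PL.dm
          rw [smul_sub, smul_smul, smul_smul]
          congr 2 <;> field_simp
        rw [e1, norm_smul, mul_pow, Real.norm_eq_abs, abs_of_nonneg (sq_nonneg _)] at h5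
        rw [h2]
        have h6 : s1 x ^ 2 * (s1 x ^ 2 * ‖PL.dm F s1 gF gs1 x‖ ^ 2) ≤
            s1 x ^ 2 * ((1 - (F x / s1 x) ^ 2) * s1 x *
              (2 * X x + 2 * eC K1 K2 lam κ B.a s1 s2 x)) := by
          have e2 : s1 x ^ 2 * ((1 - (F x / s1 x) ^ 2) * s1 x *
              (2 * X x + 2 * eC K1 K2 lam κ B.a s1 s2 x)) =
              2 * (s1 x ^ 2 - F x ^ 2) * s1 x * (X x + eC K1 K2 lam κ B.a s1 s2 x) := by
            field_simp
          rw [e2]
          linarith
        exact le_of_mul_le_mul_left h6 (by positivity)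
      sh_wg := (shf_jet N).wg hU
      sh_l2 := (PLC.WL.of_jet hU (shf_jet N)).g2
      sh_b := PL.LocB.of_continuousOn hshc
      sh_nn := Eventually.of_forall fun x hx => (shf_pos N h hx).le
      sh_z := Eventually.of_forall fun x hx => dshf_z N h hx
      sh_sup := by
        intro φ hφ hφ0
        have hq : LocallyIntegrableOn (fun x => (1 / 2) * ((pot D κ x + 6 * om) *
            shf C P κS κT κ lam B.om x)) (PL.Dom R1 Z1) volume := by
          refine ContinuousOn.locallyIntegrableOn ?_ hU.measurableSet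
          exact continuousOn_const.mul (((pot_cont N).add continuousOn_const).mul hshc)
        have h1 := (shf_jet (κ := κ) (κS := κS) (κT := κT) N).weak_ge hU hq
          (f := fun _ => 0) (locallyIntegrableOn_zero) (fun x hx => by
            have := shf_lap N h ho hx
            linarith) hφ hφ0
        have e1 : ∫ x, (1 / 2) * ((pot D κ x + 6 * om) * shf C P κS κT κ lam B.om x) * φ x =
            (1 / 2) * ∫ x, (pot D κ x + 6 * om) * shf C P κS κT κ lam B.om x * φ x := by
          rw [← integral_const_mul]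
          refine integral_congr_ae (Eventually.of_forall fun x => ?_)
          simp only
          ring
        rw [e1] at h1
        simp only [zero_mul, integral_zero] at h1
        linarith
      s2_le := s2_le hsl N h
      H_wg := H_wg
      H_l2 := H_l2
      H_nn := H_nn
      H_le := H_le
      H_eq := H_eq }
  · filter_upwards [rq hsl N h hom' ho2, her', hcpl'] with x h1 h2 h3 hx
    rw [h2, h3]
    exact h1 hx
  · filter_upwards [herr] with x h1 hx
    exact (h1 hx).2.2

end

end Crest.Agent.R335.PLS
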