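import Crest.Agent.R335.KDefs
import Crest.Agent.R335.OBDefs

/-!
Row 335 (S0521), part C, section C.6 (LOWER BOUND of the pair), definitions and hypotheses
(helper297; mathematics: note 10569 of helper720).

Everything happens in the slab region `Dom R1 Z1 = {R1 < |x|, 0 < z < Z1}`.
`P = κ² + 2 V` (`V = V2 D`), `wc = 2 λ ⟨Φ₀, W_X Φ₀⟩`, `s² = s1² + s2²`,
`F = √2 ⟨Φ₀, Ψ^o⟩` (normalised so that `F ≤ s1`), `m = F / s1`,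
`H = arctan (U / w)`, `U = s sin H`, `w = s cos H`, `sh = ŝ` radial supersolution, `s2 ≤ sh`.
`X = Δ s1 - (P + wc) s1`, `sig = Δ F - (P + wc) F` (functions), `|sig| ≤ er`, `X ≥ -er`.
Version 3: simplification (S) of helper783 (note 10764): `X_M = 2 F (m - 1)`.
-/

set_option autoImplicit false

open MeasureTheory Filter Set Crest.MathPhysics.ThreeBody
open scoped ENNReal Topology ContDiff

noncomputable section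
namespace Crest.Agent.R335.PL
open Crest.Agent.R335

/-- the slab region of the lower bound -/
def Dom (R1 Z1 : ℝ) : Set Pos3 := {x | R1 < ‖x‖ ∧ 0 < x 2 ∧ x 2 < Z1}

/-- bounded `H¹` functions with compact support in `U` (everything a.e.) -/
structure BTin (U : Set Pos3) (φ : Pos3 → ℝ) (g : Pos3 → Pos3) : Prop where
  h1 : H1 φ g
  bdd : ∃ C : ℝ, ∀ᵐ x, |φ x| ≤ C
  cpt : ∃ K, IsCompact K ∧ K ⊆ U ∧ ∀ᵐ x, x ∉ K → φ x = 0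

/-- bounded on the compact subsets of `U` -/
def LocB (U : Set Pos3) (f : Pos3 → ℝ) : Prop :=
  ∀ K, IsCompact K → K ⊆ U → ∃ C : ℝ, ∀ᵐ x, x ∈ K → |f x| ≤ C

/-- bounded below by positive constants on the compact subsets of `U` -/
def LocPos (U : Set Pos3) (f : Pos3 → ℝ) : Prop :=
  ∀ K, IsCompact K → K ⊆ U → ∃ c : ℝ, 0 < c ∧ ∀ᵐ x, x ∈ K → c ≤ f x

/-- gradient of `m = F / s1` -/
def dm (F s1 : Pos3 → ℝ) (dF ds1 : Pos3 → Pos3) (x : Pos3) : Pos3 :=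
  (1 / s1 x) • dF x - (F x / s1 x ^ 2) • ds1 x

/-- `ε = λ r⁻⁴`, the bound of `1 - m` -/
def eps (lam : ℝ) (x : Pos3) : ℝ := lam / ‖x‖ ^ 4

/-- the weak equations and inequalities used in C.6 -/
structure Core (om q0 lam R1 Z1 : ℝ) (P wc X sig er cpl : Pos3 → ℝ)
    (s s1 s2 F H sh : Pos3 → ℝ) (ds ds1 ds2 dF dH dsh : Pos3 → Pos3) : Prop where
  -- numbers
  om_pos : 0 < om
  q0_pos : 0 < q0
  lam_pos : 0 < lam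
  lam_le : lam ≤ 1 / 1000
  R1_ge : 1 ≤ R1
  Z1_pos : 0 < Z1
  -- potentials and errors
  P_m : Measurable P
  P_b : LocB (Dom R1 Z1) P
  wc_m : Measurable wc
  wc_nn : ∀ᵐ x, x ∈ Dom R1 Z1 → 0 ≤ wc x
  wc_le : ∀ᵐ x, x ∈ Dom R1 Z1 → wc x ≤ q0 ^ 2 / 2
  er_m : Measurable er
  er_nn : ∀ᵐ x, x ∈ Dom R1 Z1 → 0 ≤ er x
  er_b : LocB (Dom R1 Z1) er
  cpl_m : Measurable cpl
  cpl_nn : ∀ᵐ x, x ∈ Dom R1 Z1 → 0 ≤ cpl x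
  cpl_b : LocB (Dom R1 Z1) cpl
  X_int : LocallyIntegrableOn X (Dom R1 Z1) volume
  sig_int : LocallyIntegrableOn sig (Dom R1 Z1) volume
  -- s, s1, s2
  s_h1 : H1 s ds
  s_cont : Continuous s
  s_pos : ∀ x, 0 < s x
  s_b : ∃ C : ℝ, ∀ x, s x ≤ C
  s1_wg : WG (Dom R1 Z1) s1 ds1
  s1_l2 : L2locV (Dom R1 Z1) ds1
  s1_nn : ∀ x, 0 ≤ s1 x
  s2_wg : WG (Dom R1 Z1) s2 ds2
  s2_l2 : L2locV (Dom R1 Z1) ds2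
  s2_nn : ∀ x, 0 ≤ s2 x
  sq : ∀ x, s1 x ^ 2 + s2 x ^ 2 = s x ^ 2
  /-- `Δ s ≥ P s` -/
  kato : ∀ φ, Test (Dom R1 Z1) φ → (∀ x, 0 ≤ φ x) →
    (∫ x, inner ℝ (ds x) (gr φ x)) + ∫ x, P x * s x * φ x ≤ 0
  /-- `Δ s2 ≥ (P + q0²/2) s2 - cpl` -/
  s2_sub : ∀ φ, Test (Dom R1 Z1) φ → (∀ x, 0 ≤ φ x) →
    (∫ x, inner ℝ (ds2 x) (gr φ x)) + ∫ x, (P x + q0 ^ 2 / 2) * s2 x * φ x ≤
      ∫ x, cpl x * φ x
  /-- `Δ s1 = (P + wc) s1 + X` -/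
  s1_eq : ∀ φ, Test (Dom R1 Z1) φ →
    (∫ x, inner ℝ (ds1 x) (gr φ x)) + ∫ x, ((P x + wc x) * s1 x + X x) * φ x = 0
  -- F
  F_wg : WG (Dom R1 Z1) F dF
  F_l2 : L2locV (Dom R1 Z1) dF
  F_pos : LocPos (Dom R1 Z1) F
  F_le : ∀ᵐ x, x ∈ Dom R1 Z1 → F x ≤ s1 x
  /-- `Δ F = (P + wc) F + σ` -/
  F_eq : ∀ φ, Test (Dom R1 Z1) φ →
    (∫ x, inner ℝ (dF x) (gr φ x)) + ∫ x, ((P x + wc x) * F x + sig x) * φ x = 0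
  -- pointwise
  sig_le : ∀ᵐ x, x ∈ Dom R1 Z1 → |sig x| ≤ er x
  X_ge : ∀ᵐ x, x ∈ Dom R1 Z1 → - er x ≤ X x
  m_ge : ∀ᵐ x, x ∈ Dom R1 Z1 → (1 - eps lam x) * s1 x ≤ F x
  m_grad : ∀ᵐ x, x ∈ Dom R1 Z1 →
    s1 x ^ 2 * ‖dm F s1 dF ds1 x‖ ^ 2 ≤ (1 - (F x / s1 x) ^ 2) * s1 x * (X x + er x)
  -- the radial function `ŝ`
  sh_wg : WG (Dom R1 Z1) sh dsh
  sh_l2 : L2locV (Dom R1 Z1) dsh
  sh_b : LocB (Dom R1 Z1) sh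
  sh_nn : ∀ᵐ x, x ∈ Dom R1 Z1 → 0 ≤ sh x
  sh_z : ∀ᵐ x, x ∈ Dom R1 Z1 → dsh x 2 ≤ 0
  /-- `Δ ŝ ≤ (P + 3 q²) ŝ`, `q² = 2 om` -/
  sh_sup : ∀ φ, Test (Dom R1 Z1) φ → (∀ x, 0 ≤ φ x) →
    0 ≤ (∫ x, inner ℝ (dsh x) (gr φ x)) + ∫ x, (P x + 6 * om) * sh x * φ x
  s2_le : ∀ᵐ x, x ∈ Dom R1 Z1 → s2 x ≤ sh x
  -- the angle `H`
  H_wg : WG (Dom R1 Z1) H dH
  H_l2 : L2locV (Dom R1 Z1) dH
  H_nn : ∀ x ∈ Dom R1 Z1, 0 ≤ H x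
  H_le : ∀ x ∈ Dom R1 Z1, H x ≤ Real.pi / 2
  H_eq : ∀ φ, Test (Dom R1 Z1) φ →
    ∫ x, s x ^ 2 * inner ℝ (dH x) (gr φ x) = - om * ∫ x, s x ^ 2 * Real.sin (2 * H x) * φ x

/-- `X_M = 2 F (m - 1) = 2 (F² / s1 - F)` -/
def XM (F s1 : Pos3 → ℝ) (x : Pos3) : ℝ := 2 * F x * (F x / s1 x - 1)

/-- its gradient -/
def dXM (F s1 : Pos3 → ℝ) (dF ds1 : Pos3 → Pos3) (x : Pos3) : Pos3 :=
  (4 * (F x / s1 x) - 2) • dF x - (2 * (F x ^ 2 / s1 x ^ 2)) • ds1 x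

/-- OUTPUT OF C6b (helper16): gauge lemma (6.2), simplified form (S) -/
def Gauge (lam R1 Z1 : ℝ) (P X er s1 F : Pos3 → ℝ) (ds1 dF : Pos3 → Pos3) : Prop :=
  WG (Dom R1 Z1) (XM F s1) (dXM F s1 dF ds1) ∧ L2locV (Dom R1 Z1) (dXM F s1 dF ds1) ∧
    ∀ φ g, BTin (Dom R1 Z1) φ g → (∀ᵐ x, 0 ≤ φ x) →
      ∫ x, (2 * ((F x / s1 x) ^ 2 - 4 * eps lam x) * X x - (2 + 8 * eps lam x) * er x) * φ x ≤
        (∫ x, inner ℝ (dXM F s1 dF ds1 x) (g x)) + ∫ x, P x * XM F s1 x * φ x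

/-- the comparison angle `H_c = arctan (s2 / s1)` -/
def Hc (s1 s2 : Pos3 → ℝ) (x : Pos3) : ℝ := Real.arctan (s2 x / s1 x)

/-- boundary data of C.6 -/
structure Bdry (om R1 Z1 dp ch : ℝ) (s s1 s2 H sh w : Pos3 → ℝ) (gw : Pos3 → Pos3) : Prop where
  w_h1 : H1 w gw
  w_odd : ∀ x, w (rz x) = - w x
  w_nn : ∀ x : Pos3, 0 < x 2 → 0 ≤ w x
  w_le : ∀ x, w x ≤ s x
  /-- `α = π/2 - H ≤ (π/2) w / s` -/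
  tr : ∀ᵐ x, x ∈ Dom R1 Z1 → (Real.pi / 2 - H x) * s x ≤ Real.pi / 2 * w x
  shell : ∀ᵐ x, x ∈ Dom R1 Z1 → ‖x‖ ≤ R1 + 1 → s x * (Hc s1 s2 x - H x) ≤ dp / 2 * sh x
  dp_nn : 0 ≤ dp
  /-- Hardy (H1) -/
  hardy : ∀ χ g, BT χ g → (∀ᵐ x, ‖x‖ ≤ R1 → χ x = 0) →
    ch * (∫ x, s x ^ 2 * χ x ^ 2) ≤ ∫ x, s x ^ 2 * ‖g x‖ ^ 2
  ch_gt : 2 * om < ch

/-- the pointwise inequality (6.3) between the sources and the supersolution -/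
def RQ (om R1 Z1 dp : ℝ) (er cpl s2 sh : Pos3 → ℝ) : Prop :=
  ∀ᵐ x, x ∈ Dom R1 Z1 →
    2 * om * s2 x + cpl x + 5 * er x + 8 * om * (4 + dp) * sh x ≤ 8 * sh x / Z1 ^ 2

/-- profile `p(z) = (z/Z1)(2 - z/Z1)` -/
def prof (Z1 z : ℝ) : ℝ := z / Z1 * (2 - z / Z1)

/-- the total supersolution `Y = X_0 + X_M + dp ŝ`, `X_0 = 4 ŝ p(z)` -/
def Ytot (Z1 dp : ℝ) (F s1 sh : Pos3 → ℝ) (x : Pos3) : ℝ :=
  4 * sh x * prof Z1 (x 2) + XM F s1 x + dp * sh x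

end Crest.Agent.R335.PL
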