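import Crest.Agent.R335.PLLoc

/-!
Row 335 (S0521), C.6: step C6a, the weak inequality of `D = H_c - H` (helper297).
-/

set_option autoImplicit false

open MeasureTheory Filter Set Crest.MathPhysics.ThreeBody
open scoped ENNReal Topology ContDiff

noncomputable section
namespace Crest.Agent.R335.PL
open Crest.Agent.R335

theorem BTin.g0 {U : Set Pos3} {ζ : Pos3 → ℝ} {g : Pos3 → Pos3} (h : BTin U ζ g) :
    ∃ K, IsCompact K ∧ K ⊆ U ∧ ∀ᵐ x, x ∉ K → ζ x = 0 ∧ g x = 0 := by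
  obtain ⟨K, hK, hKU, hK0⟩ := h.cpt
  refine ⟨K, hK, hKU, ?_⟩
  have h1 := WG.zero_of_level isOpen_univ h.h1.wg 0
  rw [Measure.restrict_univ] at h1
  filter_upwards [hK0, h1] with x h2 h3 hx
  exact ⟨h2 hx, h3 (h2 hx)⟩

theorem integrable_inner_of_memLp {G l : Pos3 → Pos3} (hG : MemLp G 2 volume)
    (hl : MemLp l 2 volume) : Integrable (fun x => inner ℝ (G x) (l x)) := by
  have h1 : Integrable (fun x => ‖G x‖ ^ 2) := hG.integrable_norm_pow (by norm_num)
  have h2 : Integrable (fun x => ‖l x‖ ^ 2) := hl.integrable_norm_pow (by norm_num)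
  refine (h1.add h2).mono' (hG.1.inner hl.1) (Eventually.of_forall fun x => ?_)
  have h3 := norm_inner_le_norm (𝕜 := ℝ) (G x) (l x)
  simp only [Pi.add_apply]
  nlinarith [sq_nonneg (‖G x‖ - ‖l x‖), sq_nonneg (‖G x‖), sq_nonneg (‖l x‖), norm_nonneg (G x),
    norm_nonneg (l x)]

/-- pairing of an `L²_loc` field with the gradient of a `BTin` function -/
theorem BTin.int_inner {U : Set Pos3} {ζ : Pos3 → ℝ} {g : Pos3 → Pos3} (h : BTin U ζ g)
    {G : Pos3 → Pos3} (hG : L2locV U G) : Integrable (fun x => inner ℝ (G x) (g x)) := by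
  obtain ⟨K, hK, hKU, hK0⟩ := h.g0
  have hGK : MemLp (K.indicator G) 2 volume :=
    (memLp_indicator_iff_restrict hK.measurableSet).2 (hG K hK hKU)
  refine (integrable_inner_of_memLp hGK h.h1.memg).congr ?_
  filter_upwards [hK0] with x hx
  by_cases hxK : x ∈ K
  · rw [indicator_of_mem hxK]
  · rw [(hx hxK).2, inner_zero_right, inner_zero_right]

/-- pairing of an `L¹_loc` function with a `BTin` function -/
theorem BTin.int_mul {U : Set Pos3} {ζ : Pos3 → ℝ} {g : Pos3 → Pos3} (h : BTin U ζ g)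
    {q : Pos3 → ℝ} (hq : LocallyIntegrableOn q U volume) : Integrable (fun x => q x * ζ x) := by
  obtain ⟨K, hK, hKU, hK0⟩ := h.g0
  obtain ⟨C, hC⟩ := h.bdd
  have hqK : IntegrableOn q K volume := hq.integrableOn_compact_subset hKU hK
  have h1 : Integrable (K.indicator q) volume := (integrable_indicator_iff hK.measurableSet).2 hqK
  have h2 : Integrable (fun x => K.indicator q x * ζ x) :=
    h1.mul_bdd (c := C) h.h1.memf.1 (by filter_upwards [hC] with x hx using hx)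
  refine h2.congr ?_
  filter_upwards [hK0] with x hx
  by_cases hxK : x ∈ K
  · rw [indicator_of_mem hxK]
  · rw [(hx hxK).1, mul_zero, mul_zero]

theorem BTin.of_test {U : Set Pos3} {φ : Pos3 → ℝ} (h : Test U φ) : BTin U φ (gr φ) := by
  refine ⟨H1.of_test h, ?_, ⟨tsupport φ, h.cpt, h.sub, ?_⟩⟩
  · obtain ⟨C, hC⟩ := h.cpt.exists_bound_of_continuous h.smooth.continuous
    exact ⟨C, Eventually.of_forall hC⟩
  · exact Eventually.of_forall fun x hx => image_eq_zero_of_notMem_tsupport hx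

theorem locInt_mul_bdd {U : Set Pos3} (hU : IsOpen U) {f g : Pos3 → ℝ}
    (hf : AEStronglyMeasurable f (volume.restrict U)) (hb : LocB U f)
    (hg : AEStronglyMeasurable g (volume.restrict U)) (hb' : LocB U g) :
    LocallyIntegrableOn (fun x => f x * g x) U volume :=
  locInt_of_bdd hU (hf.mul hg) (LocB.mul hb hb')

theorem locInt_bdd_mul {U : Set Pos3} (hU : IsOpen U) {f q : Pos3 → ℝ}
    (hf : AEStronglyMeasurable f (volume.restrict U)) (hb : LocB U f)
    (hq : LocallyIntegrableOn q U volume) : LocallyIntegrableOn (fun x => f x * q x) U volume := by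
  rw [locallyIntegrableOn_iff hU.isLocallyClosed]
  intro K hKU hK
  obtain ⟨C, hC⟩ := hb K hK hKU
  have hqK : IntegrableOn q K volume := hq.integrableOn_compact_subset hKU hK
  refine hqK.bdd_mul (c := C) (hf.mono_measure (Measure.restrict_mono hKU le_rfl)) ?_
  rw [ae_restrict_iff' hK.measurableSet]
  exact hC

variable {om q0 lam R1 Z1 : ℝ} {P wc X sig er cpl s s1 s2 F H sh : Pos3 → ℝ}
  {ds ds1 ds2 dF dH dsh : Pos3 → Pos3}

section facts
variable (h : Core om q0 lam R1 Z1 P wc X sig er cpl s s1 s2 F H sh ds ds1 ds2 dF dH dsh)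
include h

theorem Core.s1_le : ∀ x, s1 x ≤ s x := fun x => by
  have h1 := h.sq x
  have h2 := (h.s_pos x).le
  nlinarith [h.s1_nn x, sq_nonneg (s2 x), abs_le_of_sq_le_sq' (by nlinarith [sq_nonneg (s2 x)] : s1 x ^ 2 ≤ s x ^ 2) h2]

theorem Core.s2_le_s : ∀ x, s2 x ≤ s x := fun x => by
  have h1 := h.sq x
  have h2 := (h.s_pos x).le
  nlinarith [h.s2_nn x, sq_nonneg (s1 x), abs_le_of_sq_le_sq' (by nlinarith [sq_nonneg (s1 x)] : s2 x ^ 2 ≤ s x ^ 2) h2]

theorem Core.s_lb : LocB (Dom R1 Z1) s := LocB.of_continuousOn h.s_cont.continuousOn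

theorem Core.Ls : LH (Dom R1 Z1) s ds := LH.of_H1 h.s_h1 h.s_lb

theorem Core.s_lp : LocPos (Dom R1 Z1) s := by
  intro K hK _
  rcases K.eq_empty_or_nonempty with rfl | hne
  · exact ⟨1, one_pos, Eventually.of_forall fun x hx => hx.elim⟩
  · obtain ⟨x0, _, hx0⟩ := hK.exists_isMinOn hne h.s_cont.continuousOn
    exact ⟨s x0, h.s_pos x0, Eventually.of_forall fun x hx => hx0 hx⟩

theorem Core.Ls1 : LH (Dom R1 Z1) s1 ds1 := by
  refine ⟨h.s1_wg, LocB.of_le h.s_lb (Eventually.of_forall fun x _ => ?_), h.s1_l2⟩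
  rw [abs_of_nonneg (h.s1_nn x), abs_of_pos (h.s_pos x)]
  exact h.s1_le x

theorem Core.Ls2 : LH (Dom R1 Z1) s2 ds2 := by
  refine ⟨h.s2_wg, LocB.of_le h.s_lb (Eventually.of_forall fun x _ => ?_), h.s2_l2⟩
  rw [abs_of_nonneg (h.s2_nn x), abs_of_pos (h.s_pos x)]
  exact h.s2_le_s x

theorem Core.s1_lp : LocPos (Dom R1 Z1) s1 := by
  intro K hK hKU
  obtain ⟨c, hc, hcK⟩ := h.F_pos K hK hKU
  refine ⟨c, hc, ?_⟩
  filter_upwards [hcK, h.F_le] with x h1 h2 hx
  exact (h1 hx).trans (h2 (hKU hx))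

end facts

/-- on an open set, a positive lower bound on compacts gives a.e. positivity -/
theorem LocPos.ae_pos {U : Set Pos3} (hU : IsOpen U) {f : Pos3 → ℝ} (hf : LocPos U f) :
    ∀ᵐ x, x ∈ U → 0 < f x := by
  rw [ae_iff]
  refine measure_null_of_locally_null _ fun x hx => ?_
  have hxU : x ∈ U := by
    by_contra hcon
    exact hx fun h => absurd h hcon
  obtain ⟨K, hK, hxK, hKU⟩ := exists_compact_subset hU hxU
  obtain ⟨c, hc, hcf⟩ := hf K hK hKU
  have h1 : ∀ᵐ x, x ∈ K → 0 < f x := by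
    filter_upwards [hcf] with y hy hyK using hc.trans_le (hy hyK)
  rw [ae_iff] at h1
  refine ⟨{a | ¬(a ∈ K → 0 < f a)}, ?_, h1⟩
  rw [mem_nhdsWithin_iff_exists_mem_nhds_inter]
  refine ⟨interior K, isOpen_interior.mem_nhds hxK, ?_⟩
  rintro y ⟨hyK, hy⟩ hcon
  exact hy fun _ => hcon (interior_subset hyK)

theorem contDiff_arctan' : ContDiff ℝ 1 Real.arctan := Real.contDiff_arctan

theorem abs_deriv_arctan_le (t : ℝ) : |deriv Real.arctan t| ≤ 1 := by
  rw [Real.deriv_arctan, abs_of_nonneg (by positivity), div_le_one (by positivity)]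
  nlinarith [sq_nonneg t]

/-- gradient of `H_c` -/
def dHc (s s1 s2 : Pos3 → ℝ) (ds1 ds2 : Pos3 → Pos3) (x : Pos3) : Pos3 :=
  (1 / s x ^ 2) • (s1 x • ds2 x - s2 x • ds1 x)

section facts2
variable (h : Core om q0 lam R1 Z1 P wc X sig er cpl s s1 s2 F H sh ds ds1 ds2 dF dH dsh)
include h

theorem Core.s1_pos : ∀ᵐ x, x ∈ Dom R1 Z1 → 0 < s1 x := LocPos.ae_pos (isOpen_Dom _ _) h.s1_lp

theorem Core.F_pos' : ∀ᵐ x, x ∈ Dom R1 Z1 → 0 < F x := LocPos.ae_pos (isOpen_Dom _ _) h.F_pos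

theorem Core.LHc : LH (Dom R1 Z1) (Hc s1 s2) (dHc s s1 s2 ds1 ds2) := by
  have hU := isOpen_Dom R1 Z1
  have h1 := LH.comp hU (LH.div hU h.Ls2 h.Ls1 h.s1_lp) contDiff_arctan' abs_deriv_arctan_le
  refine LH.congr hU h1 (Eventually.of_forall fun x _ => rfl) ?_
  filter_upwards [h.s1_pos] with x hx hxU
  have h2 := hx hxU
  have h3 := h.s_pos x
  have h4 := h.sq x
  rw [dHc, Real.deriv_arctan, smul_sub, smul_sub, smul_smul, smul_smul, smul_smul, smul_smul]
  beta_reduce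
  have h5 : 1 + (s2 x / s1 x) ^ 2 = s x ^ 2 / s1 x ^ 2 := by
    field_simp
    linarith
  rw [h5]
  congr 2 <;> field_simp

theorem Core.LHH : LH (Dom R1 Z1) H dH := by
  refine ⟨h.H_wg, fun K _ hKU => ⟨Real.pi / 2, Eventually.of_forall fun x hx => ?_⟩, h.H_l2⟩
  rw [abs_of_nonneg (h.H_nn x (hKU hx))]
  exact h.H_le x (hKU hx)

/-- `ds2` inequality with `BTin` -/
theorem Core.s2_bt {θ : Pos3 → ℝ} {g : Pos3 → Pos3} (hθ : BTin (Dom R1 Z1) θ g)
    (h0 : ∀ᵐ x, 0 ≤ θ x) :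
    (∫ x, inner ℝ (ds2 x) (g x)) + ∫ x, ((P x + q0 ^ 2 / 2) * s2 x - cpl x) * θ x ≤ 0 := by
  have hU := isOpen_Dom R1 Z1
  have hPm : AEStronglyMeasurable P (volume.restrict (Dom R1 Z1)) := h.P_m.aestronglyMeasurable
  have h1 : LocallyIntegrableOn (fun x => (P x + q0 ^ 2 / 2) * s2 x) (Dom R1 Z1) volume :=
    locInt_mul_bdd hU (hPm.add aestronglyMeasurable_const) (LocB.add h.P_b (LocB.const _ _))
      h.Ls2.aesm h.Ls2.b
  have h2 : LocallyIntegrableOn cpl (Dom R1 Z1) volume :=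
    locInt_of_bdd hU h.cpl_m.aestronglyMeasurable h.cpl_b
  have h12 : LocallyIntegrableOn (fun x => (P x + q0 ^ 2 / 2) * s2 x - cpl x) (Dom R1 Z1) volume :=
    h1.sub h2
  refine ext_ineq hU h.s2_l2 h12 (fun φ hφ hφ0 => ?_) hθ h0
  have h3 := h.s2_sub φ hφ hφ0
  have hB := BTin.of_test hφ
  have e1 : ∫ x, ((P x + q0 ^ 2 / 2) * s2 x - cpl x) * φ x =
      (∫ x, (P x + q0 ^ 2 / 2) * s2 x * φ x) - ∫ x, cpl x * φ x := by
    rw [← integral_sub (hB.int_mul h1) (hB.int_mul h2)]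
    refine integral_congr_ae (Eventually.of_forall fun x => ?_)
    ring
  rw [e1]
  linarith

theorem Core.s1_bt {θ : Pos3 → ℝ} {g : Pos3 → Pos3} (hθ : BTin (Dom R1 Z1) θ g) :
    (∫ x, inner ℝ (ds1 x) (g x)) + ∫ x, ((P x + wc x) * s1 x + X x) * θ x = 0 := by
  have hU := isOpen_Dom R1 Z1
  have hPm : AEStronglyMeasurable P (volume.restrict (Dom R1 Z1)) := h.P_m.aestronglyMeasurable
  have hwm : AEStronglyMeasurable wc (volume.restrict (Dom R1 Z1)) := h.wc_m.aestronglyMeasurable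
  have hwb : LocB (Dom R1 Z1) wc := by
    refine LocB.of_le (LocB.const (Dom R1 Z1) (q0 ^ 2 / 2)) ?_
    filter_upwards [h.wc_nn, h.wc_le] with x h1 h2 hx
    rw [abs_of_nonneg (h1 hx), abs_of_nonneg (by positivity)]
    exact h2 hx
  have h1 : LocallyIntegrableOn (fun x => (P x + wc x) * s1 x) (Dom R1 Z1) volume :=
    locInt_mul_bdd hU (hPm.add hwm) (LocB.add h.P_b hwb) h.Ls1.aesm h.Ls1.b
  exact ext_eq hU h.s1_l2 (h1.add h.X_int) (fun φ hφ => h.s1_eq φ hφ) hθ

theorem Core.H_bt {θ : Pos3 → ℝ} {g : Pos3 → Pos3} (hθ : BTin (Dom R1 Z1) θ g) :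
    (∫ x, s x ^ 2 * inner ℝ (dH x) (g x)) = - om * ∫ x, s x ^ 2 * Real.sin (2 * H x) * θ x := by
  have hU := isOpen_Dom R1 Z1
  have hss : LocB (Dom R1 Z1) (fun x => s x ^ 2) := by
    refine LocB.of_le (LocB.mul h.s_lb h.s_lb) (Eventually.of_forall fun x _ => ?_)
    rw [pow_two]
  have hsm : AEStronglyMeasurable (fun x => s x ^ 2) (volume.restrict (Dom R1 Z1)) :=
    (h.s_cont.pow 2).aestronglyMeasurable
  have hG : L2locV (Dom R1 Z1) (fun x => s x ^ 2 • dH x) := L2locV.smul h.H_l2 hsm hss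
  have hsin : AEStronglyMeasurable (fun x => Real.sin (2 * H x)) (volume.restrict (Dom R1 Z1)) :=
    (Real.continuous_sin.comp (continuous_const.mul continuous_id)).comp_aestronglyMeasurable
      h.LHH.aesm
  have hq1 : LocallyIntegrableOn (fun x => s x ^ 2 * Real.sin (2 * H x)) (Dom R1 Z1) volume :=
    locInt_mul_bdd hU hsm hss hsin (LocB.of_le (LocB.const (Dom R1 Z1) 1)
      (Eventually.of_forall fun x _ => by rw [abs_one]; exact Real.abs_sin_le_one _))
  have hq : LocallyIntegrableOn (fun x => om * (s x ^ 2 * Real.sin (2 * H x))) (Dom R1 Z1)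
      volume := by
    exact locInt_bdd_mul hU aestronglyMeasurable_const (LocB.const _ om) hq1
  have key := ext_eq hU hG hq (fun φ hφ => ?_) hθ
  · have e1 : ∫ x, inner ℝ (s x ^ 2 • dH x) (g x) = ∫ x, s x ^ 2 * inner ℝ (dH x) (g x) :=
      integral_congr_ae (Eventually.of_forall fun x => by simp only [real_inner_smul_left])
    have e2 : ∫ x, om * (s x ^ 2 * Real.sin (2 * H x)) * θ x =
        om * ∫ x, s x ^ 2 * Real.sin (2 * H x) * θ x := by
      rw [← integral_const_mul]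
      exact integral_congr_ae (Eventually.of_forall fun x => by ring)
    rw [e1, e2] at key
    linarith
  · have e1 : ∫ x, inner ℝ (s x ^ 2 • dH x) (gr φ x) = ∫ x, s x ^ 2 * inner ℝ (dH x) (gr φ x) :=
      integral_congr_ae (Eventually.of_forall fun x => by simp only [real_inner_smul_left])
    have e2 : ∫ x, om * (s x ^ 2 * Real.sin (2 * H x)) * φ x =
        om * ∫ x, s x ^ 2 * Real.sin (2 * H x) * φ x := by
      rw [← integral_const_mul]
      exact integral_congr_ae (Eventually.of_forall fun x => by ring)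
    rw [e1, e2, h.H_eq φ hφ]
    ring

/-- C6a : the weak inequality of `D = H_c - H` -/
theorem Core.c6a {ζ : Pos3 → ℝ} {g : Pos3 → Pos3} (hζ : BTin (Dom R1 Z1) ζ g)
    (h0 : ∀ᵐ x, 0 ≤ ζ x) :
    ∫ x, s x ^ 2 * inner ℝ (dHc s s1 s2 ds1 ds2 x - dH x) (g x) ≤
      ∫ x, (cpl x * s1 x + X x * s2 x + om * (s x ^ 2 * Real.sin (2 * H x))) * ζ x := by
  have hU := isOpen_Dom R1 Z1
  obtain ⟨g1, hb1, hg1⟩ := BTin.mul hU h.Ls1 hζ
  obtain ⟨g2, hb2, hg2⟩ := BTin.mul hU h.Ls2 hζ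
  have i1 := h.s2_bt hb1 (by
    filter_upwards [h0] with x hx using mul_nonneg (h.s1_nn x) hx)
  have i2 := h.s1_bt hb2
  have i3 := h.H_bt hζ
  -- integrability
  have hPm : AEStronglyMeasurable P (volume.restrict (Dom R1 Z1)) := h.P_m.aestronglyMeasurable
  have hwm : AEStronglyMeasurable wc (volume.restrict (Dom R1 Z1)) := h.wc_m.aestronglyMeasurable
  have hwb : LocB (Dom R1 Z1) wc := by
    refine LocB.of_le (LocB.const (Dom R1 Z1) (q0 ^ 2 / 2)) ?_
    filter_upwards [h.wc_nn, h.wc_le] with x h1 h2 hx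
    rw [abs_of_nonneg (h1 hx), abs_of_nonneg (by positivity)]
    exact h2 hx
  have l1 : LocallyIntegrableOn (fun x => (P x + q0 ^ 2 / 2) * s2 x - cpl x) (Dom R1 Z1) volume :=
    (locInt_mul_bdd hU (hPm.add aestronglyMeasurable_const) (LocB.add h.P_b (LocB.const _ _))
      h.Ls2.aesm h.Ls2.b).sub (locInt_of_bdd hU h.cpl_m.aestronglyMeasurable h.cpl_b)
  have l2 : LocallyIntegrableOn (fun x => (P x + wc x) * s1 x + X x) (Dom R1 Z1) volume :=
    (locInt_mul_bdd hU (hPm.add hwm) (LocB.add h.P_b hwb) h.Ls1.aesm h.Ls1.b).add h.X_int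
  have a1 := hb1.int_inner h.s2_l2
  have a2 := hb2.int_inner h.s1_l2
  have a3 := hb1.int_mul l1
  have a4 := hb2.int_mul l2
  have hss : LocB (Dom R1 Z1) (fun x => s x ^ 2) := by
    refine LocB.of_le (LocB.mul h.s_lb h.s_lb) (Eventually.of_forall fun x _ => ?_)
    rw [pow_two]
  have hsm : AEStronglyMeasurable (fun x => s x ^ 2) (volume.restrict (Dom R1 Z1)) :=
    (h.s_cont.pow 2).aestronglyMeasurable
  have hG : L2locV (Dom R1 Z1) (fun x => s x ^ 2 • dH x) := L2locV.smul h.H_l2 hsm hss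
  have a5 : Integrable (fun x => s x ^ 2 * inner ℝ (dH x) (g x)) := by
    refine (hζ.int_inner hG).congr (Eventually.of_forall fun x => ?_)
    simp only [real_inner_smul_left]
  have hsin : AEStronglyMeasurable (fun x => Real.sin (2 * H x)) (volume.restrict (Dom R1 Z1)) :=
    (Real.continuous_sin.comp (continuous_const.mul continuous_id)).comp_aestronglyMeasurable
      h.LHH.aesm
  have hq1 : LocallyIntegrableOn (fun x => s x ^ 2 * Real.sin (2 * H x)) (Dom R1 Z1) volume :=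
    locInt_mul_bdd hU hsm hss hsin (LocB.of_le (LocB.const (Dom R1 Z1) 1)
      (Eventually.of_forall fun x _ => by rw [abs_one]; exact Real.abs_sin_le_one _))
  have a6 := hζ.int_mul hq1
  have l3 : LocallyIntegrableOn (fun x => (wc x - q0 ^ 2 / 2) * (s1 x * s2 x)) (Dom R1 Z1)
      volume := locInt_mul_bdd hU (hwm.sub aestronglyMeasurable_const)
        (LocB.sub hwb (LocB.const _ _)) (h.Ls1.aesm.mul h.Ls2.aesm) (LocB.mul h.Ls1.b h.Ls2.b)
  have l4 : LocallyIntegrableOn (fun x => cpl x * s1 x) (Dom R1 Z1) volume :=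
    locInt_mul_bdd hU h.cpl_m.aestronglyMeasurable h.cpl_b h.Ls1.aesm h.Ls1.b
  have l5 : LocallyIntegrableOn (fun x => s2 x * X x) (Dom R1 Z1) volume :=
    locInt_bdd_mul hU h.Ls2.aesm h.Ls2.b h.X_int
  have l345 : LocallyIntegrableOn (fun x => (wc x - q0 ^ 2 / 2) * (s1 x * s2 x) + cpl x * s1 x +
      s2 x * X x) (Dom R1 Z1) volume := (l3.add l4).add l5
  -- pointwise identity
  have e1 : ∫ x, s x ^ 2 * inner ℝ (dHc s s1 s2 ds1 ds2 x - dH x) (g x) =
      (∫ x, inner ℝ (ds2 x) (g1 x)) - (∫ x, inner ℝ (ds1 x) (g2 x)) -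
        ∫ x, s x ^ 2 * inner ℝ (dH x) (g x) := by
    have a12 : Integrable (fun x => inner ℝ (ds2 x) (g1 x) - inner ℝ (ds1 x) (g2 x)) := a1.sub a2
    rw [← integral_sub a1 a2, ← integral_sub a12 a5]
    refine integral_congr_ae ?_
    filter_upwards [hg1, hg2] with x h1 h2
    have h3 := (h.s_pos x).ne'
    rw [h1, h2, dHc, inner_sub_left, real_inner_smul_left, inner_sub_left, real_inner_smul_left,
      real_inner_smul_left, inner_add_right, inner_add_right, real_inner_smul_right,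
      real_inner_smul_right, real_inner_smul_right, real_inner_smul_right,
      real_inner_comm (ds1 x) (ds2 x)]
    field_simp
    ring
  have e2 : (∫ x, ((P x + q0 ^ 2 / 2) * s2 x - cpl x) * (s1 x * ζ x)) =
      (∫ x, ((P x + wc x) * s1 x + X x) * (s2 x * ζ x)) -
      ∫ x, ((wc x - q0 ^ 2 / 2) * (s1 x * s2 x) + cpl x * s1 x + s2 x * X x) * ζ x := by
    rw [← integral_sub a4 (hζ.int_mul l345)]
    refine integral_congr_ae (Eventually.of_forall fun x => ?_)
    ring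
  have e3 : (∫ x, (cpl x * s1 x + X x * s2 x + om * (s x ^ 2 * Real.sin (2 * H x))) * ζ x) =
      (∫ x, ((wc x - q0 ^ 2 / 2) * (s1 x * s2 x) + cpl x * s1 x + s2 x * X x) * ζ x) -
      (∫ x, (wc x - q0 ^ 2 / 2) * (s1 x * s2 x) * ζ x) +
      om * ∫ x, s x ^ 2 * Real.sin (2 * H x) * ζ x := by
    have b1 : Integrable (fun x => ((wc x - q0 ^ 2 / 2) * (s1 x * s2 x) + cpl x * s1 x +
        s2 x * X x) * ζ x - (wc x - q0 ^ 2 / 2) * (s1 x * s2 x) * ζ x) :=
      (hζ.int_mul l345).sub (hζ.int_mul l3)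
    rw [← integral_const_mul, ← integral_sub (hζ.int_mul l345) (hζ.int_mul l3),
      ← integral_add b1 (a6.const_mul om)]
    refine integral_congr_ae (Eventually.of_forall fun x => ?_)
    ring
  have e4 : (∫ x, (wc x - q0 ^ 2 / 2) * (s1 x * s2 x) * ζ x) ≤ 0 := by
    refine integral_nonpos_of_ae ?_
    obtain ⟨K, hK, hKU, hK0⟩ := hζ.g0
    filter_upwards [h0, h.wc_le, hK0] with x h1 h2 h3
    by_cases hx : x ∈ K
    · have h4 := h2 (hKU hx)
      have h5 := mul_nonneg (mul_nonneg (h.s1_nn x) (h.s2_nn x)) h1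
      simp only [Pi.zero_apply]
      nlinarith
    · rw [(h3 hx).1]
      simp
  rw [e1, e3, i3]
  linarith

end facts2

end Crest.Agent.R335.PL
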