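import Crest.Agent.R335.PLMainA

/-!
Row 335 (S0521), C.6: step C6c, the supersolution `Y = 4 ŝ p(z) + 2F(m-1) + dp ŝ` and the combined
inequality (helper297).
-/

set_option autoImplicit false

open MeasureTheory Filter Set Crest.MathPhysics.ThreeBody
open scoped ENNReal Topology ContDiff

noncomputable section
namespace Crest.Agent.R335.PL
open Crest.Agent.R335

/-- unit vector `e_z` -/
def ez : Pos3 := EuclideanSpace.single 2 1

theorem inner_ez (v : Pos3) : inner ℝ v ez = v 2 := by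
  rw [ez, real_inner_comm, EuclideanSpace.inner_single_left]
  simp

/-- functions of `z` -/
theorem LH.of_z {U : Set Pos3} (hU : IsOpen U) {q q' : ℝ → ℝ} (hq : ∀ t, HasDerivAt q (q' t) t)
    (hc : Continuous q') : LH U (fun x => q (x 2)) (fun x => q' (x 2) • ez) := by
  have hq1 : ContDiff ℝ 1 q := by
    rw [contDiff_one_iff_deriv]
    refine ⟨fun t => (hq t).differentiableAt, ?_⟩
    rw [funext fun t => (hq t).deriv]
    exact hc
  have hz : ContDiff ℝ 1 fun x : Pos3 => x 2 := by fun_prop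
  have hf : ContDiff ℝ 1 fun x : Pos3 => q (x 2) := hq1.comp hz
  have hgr : gr (fun x : Pos3 => q (x 2)) = fun x => q' (x 2) • ez := by
    funext x
    ext i
    rw [gr_apply, pd]
    have h1 : HasFDerivAt (fun x : Pos3 => x 2) (EuclideanSpace.proj (2 : Fin 3) : Pos3 →L[ℝ] ℝ) x :=
      (EuclideanSpace.proj (2 : Fin 3) : Pos3 →L[ℝ] ℝ).hasFDerivAt
    have h2 := (hq (x 2)).comp_hasFDerivAt x h1
    have h3 : fderiv ℝ (fun x : Pos3 => q (x 2)) x =
        q' (x 2) • (EuclideanSpace.proj (2 : Fin 3) : Pos3 →L[ℝ] ℝ) := h2.fderiv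
    rw [h3]
    fin_cases i <;> simp [ez]
  have hzc : Continuous fun x : Pos3 => x 2 := hz.continuous
  refine ⟨hgr ▸ WG.of_contDiffOn hU hf.contDiffOn, LocB.of_continuousOn hf.continuous.continuousOn,
    ?_⟩
  intro K hK _
  have : IsFiniteMeasure (volume.restrict K : Measure Pos3) :=
    ⟨by rw [Measure.restrict_apply_univ]; exact hK.measure_lt_top⟩
  have hcz : Continuous fun x : Pos3 => q' (x 2) • ez := (hc.comp hzc).smul continuous_const
  obtain ⟨C, hC⟩ := hK.exists_bound_of_continuousOn hcz.continuousOn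
  exact MemLp.of_bound hcz.aestronglyMeasurable C
    ((ae_restrict_iff' hK.measurableSet).2 (Eventually.of_forall hC))

/-- the integral of the gradient of a compactly supported function vanishes -/
theorem BTin.int_grad {U : Set Pos3} {ζ : Pos3 → ℝ} {g : Pos3 → Pos3} (h : BTin U ζ g)
    (i : Fin 3) : ∫ x, g x i = 0 := by
  obtain ⟨K, hK, hKU, hK0⟩ := h.g0
  obtain ⟨χ, hχT, hχ01, V, hV, hKV, hVU, hχV⟩ := exists_cutoff hK isOpen_univ (subset_univ K)
  have h1 := h.h1.wg.ibp χ hχT i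
  have h2 : ∫ x, ζ x * pd i χ x = 0 := by
    refine integral_eq_zero_of_ae ?_
    filter_upwards [hK0] with x hx
    by_cases hxK : x ∈ K
    · have h3 : χ =ᶠ[𝓝 x] fun _ => (1 : ℝ) := by
        filter_upwards [hV.mem_nhds (hKV hxK)] with y hy using hχV y hy
      have h4 : pd i χ x = 0 := by
        rw [pd, h3.fderiv_eq, fderiv_fun_const]; rfl
      rw [h4, mul_zero]; rfl
    · rw [(hx hxK).1, zero_mul]; rfl
  rw [h2] at h1
  have h3 : ∫ x, g x i * χ x = ∫ x, g x i := by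
    refine integral_congr_ae ?_
    filter_upwards [hK0] with x hx
    by_cases hxK : x ∈ K
    · rw [hχV x (hKV hxK), mul_one]
    · rw [(hx hxK).2]; simp
  rw [h3] at h1
  linarith

/-- derivative of the profile -/
def prof' (Z1 z : ℝ) : ℝ := 2 / Z1 * (1 - z / Z1)

theorem hasDerivAt_prof {Z1 : ℝ} (hZ : 0 < Z1) (z : ℝ) : HasDerivAt (prof Z1) (prof' Z1 z) z := by
  have h1 : HasDerivAt (fun z : ℝ => z / Z1 * (2 - z / Z1))
      (1 / Z1 * (2 - z / Z1) + z / Z1 * (0 - 1 / Z1)) z :=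
    ((hasDerivAt_id z).div_const Z1).mul ((hasDerivAt_const z 2).sub ((hasDerivAt_id z).div_const Z1))
  have h2 : prof' Z1 z = 1 / Z1 * (2 - z / Z1) + z / Z1 * (0 - 1 / Z1) := by
    rw [prof']; ring
  rw [h2]; exact h1

theorem hasDerivAt_prof' {Z1 : ℝ} (hZ : 0 < Z1) (z : ℝ) :
    HasDerivAt (prof' Z1) (-(2 / Z1 ^ 2)) z := by
  have h1 : HasDerivAt (fun z : ℝ => 2 / Z1 * (1 - z / Z1)) (2 / Z1 * (0 - 1 / Z1)) z :=
    ((hasDerivAt_const z 1).sub ((hasDerivAt_id z).div_const Z1)).const_mul (2 / Z1)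
  have h2 : -(2 / Z1 ^ 2) = 2 / Z1 * (0 - 1 / Z1) := by
    field_simp; ring
  rw [h2]; exact h1

theorem prof_mem {Z1 z : ℝ} (h0 : 0 < z) (h1 : z < Z1) : 0 ≤ prof Z1 z ∧ prof Z1 z ≤ 1 := by
  have hZ : 0 < Z1 := h0.trans h1
  have h2 : 0 < z / Z1 := div_pos h0 hZ
  have h3 : z / Z1 < 1 := (div_lt_one hZ).2 h1
  rw [prof]
  constructor <;> nlinarith

theorem prof'_nn {Z1 z : ℝ} (h0 : 0 < z) (h1 : z < Z1) : 0 ≤ prof' Z1 z := by
  have hZ : 0 < Z1 := h0.trans h1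
  have h3 : z / Z1 < 1 := (div_lt_one hZ).2 h1
  rw [prof']
  have : 0 ≤ 2 / Z1 := by positivity
  nlinarith

variable {om q0 lam R1 Z1 dp : ℝ} {P wc X sig er cpl s s1 s2 F H sh : Pos3 → ℝ}
  {ds ds1 ds2 dF dH dsh : Pos3 → Pos3}

/-- gradient of `Ytot` -/
def dY (Z1 dp : ℝ) (F s1 sh : Pos3 → ℝ) (dF ds1 dsh : Pos3 → Pos3) (x : Pos3) : Pos3 :=
  4 • (prof Z1 (x 2) • dsh x + sh x • (prof' Z1 (x 2) • ez)) + dXM F s1 dF ds1 x + dp • dsh x

/-- the lower bound of the operator applied to `Y` -/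
def stuff (om lam Z1 dp : ℝ) (X er F s1 sh : Pos3 → ℝ) (x : Pos3) : ℝ :=
  8 * sh x / Z1 ^ 2 - 24 * om * (sh x * prof Z1 (x 2)) - 6 * om * dp * sh x +
    (2 * ((F x / s1 x) ^ 2 - 4 * eps lam x) * X x - (2 + 8 * eps lam x) * er x)

section facts
variable (h : Core om q0 lam R1 Z1 P wc X sig er cpl s s1 s2 F H sh ds ds1 ds2 dF dH dsh)
include h

theorem Core.Lsh : LH (Dom R1 Z1) sh dsh := ⟨h.sh_wg, h.sh_b, h.sh_l2⟩

theorem Core.LF : LH (Dom R1 Z1) F dF := by
  refine ⟨h.F_wg, LocB.of_le h.Ls1.b ?_, h.F_l2⟩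
  filter_upwards [h.F_pos', h.F_le] with x h1 h2 hx
  rw [abs_of_pos (h1 hx), abs_of_nonneg (h.s1_nn x)]
  exact h2 hx

theorem Core.sh_bt {θ : Pos3 → ℝ} {g : Pos3 → Pos3} (hθ : BTin (Dom R1 Z1) θ g)
    (h0 : ∀ᵐ x, 0 ≤ θ x) :
    0 ≤ (∫ x, inner ℝ (dsh x) (g x)) + ∫ x, (P x + 6 * om) * sh x * θ x := by
  have hU := isOpen_Dom R1 Z1
  have hPm : AEStronglyMeasurable P (volume.restrict (Dom R1 Z1)) := h.P_m.aestronglyMeasurable
  have h1 : LocallyIntegrableOn (fun x => (P x + 6 * om) * sh x) (Dom R1 Z1) volume :=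
    locInt_mul_bdd hU (hPm.add aestronglyMeasurable_const) (LocB.add h.P_b (LocB.const _ _))
      h.Lsh.aesm h.Lsh.b
  have h2 := ext_ineq hU (L2locV.neg h.sh_l2) (h1.neg) (fun φ hφ hφ0 => ?_) hθ h0
  · have e1 : ∫ x, inner ℝ (- dsh x) (g x) = - ∫ x, inner ℝ (dsh x) (g x) := by
      rw [← integral_neg]
      exact integral_congr_ae (Eventually.of_forall fun x => inner_neg_left _ _)
    have e2 : ∫ x, (-fun x => (P x + 6 * om) * sh x) x * θ x =
        - ∫ x, (P x + 6 * om) * sh x * θ x := by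
      rw [← integral_neg]
      exact integral_congr_ae (Eventually.of_forall fun x => by simp only [Pi.neg_apply]; ring)
    rw [e1, e2] at h2
    linarith
  · have h3 := h.sh_sup φ hφ hφ0
    have e1 : ∫ x, inner ℝ (- dsh x) (gr φ x) = - ∫ x, inner ℝ (dsh x) (gr φ x) := by
      rw [← integral_neg]
      exact integral_congr_ae (Eventually.of_forall fun x => inner_neg_left _ _)
    have e2 : ∫ x, (-fun x => (P x + 6 * om) * sh x) x * φ x =
        - ∫ x, (P x + 6 * om) * sh x * φ x := by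
      rw [← integral_neg]
      exact integral_congr_ae (Eventually.of_forall fun x => by simp only [Pi.neg_apply]; ring)
    rw [e1, e2]
    linarith

/-- the explicit part `ŝ p(z)` -/
theorem Core.x0_bt {θ : Pos3 → ℝ} {g : Pos3 → Pos3} (hθ : BTin (Dom R1 Z1) θ g)
    (h0 : ∀ᵐ x, 0 ≤ θ x) :
    ∫ x, (2 / Z1 ^ 2 * sh x - 6 * om * (sh x * prof Z1 (x 2))) * θ x ≤
      (∫ x, inner ℝ (prof Z1 (x 2) • dsh x + sh x • (prof' Z1 (x 2) • ez)) (g x)) +
        ∫ x, P x * (sh x * prof Z1 (x 2)) * θ x := by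
  have hU := isOpen_Dom R1 Z1
  have hPm : AEStronglyMeasurable P (volume.restrict (Dom R1 Z1)) := h.P_m.aestronglyMeasurable
  have hpc : Continuous (prof' Z1) := by unfold prof'; fun_prop
  have Lp : LH (Dom R1 Z1) (fun x => prof Z1 (x 2)) (fun x => prof' Z1 (x 2) • ez) :=
    LH.of_z hU (hasDerivAt_prof h.Z1_pos) hpc
  have Lp' : LH (Dom R1 Z1) (fun x => prof' Z1 (x 2)) (fun x => (-(2 / Z1 ^ 2)) • ez) :=
    LH.of_z hU (q' := fun _ => -(2 / Z1 ^ 2)) (hasDerivAt_prof' h.Z1_pos) continuous_const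
  have Lshp := LH.mul hU h.Lsh Lp'
  obtain ⟨g1, hb1, hg1⟩ := BTin.mul hU Lp hθ
  obtain ⟨g2, hb2, hg2⟩ := BTin.mul hU Lshp hθ
  obtain ⟨K, hK, hKU, hK0⟩ := hθ.g0
  have j0 : ∀ᵐ x, 0 ≤ prof Z1 (x 2) * θ x := by
    filter_upwards [h0, hK0] with x h1 h2
    by_cases hx : x ∈ K
    · have h3 := hKU hx
      exact mul_nonneg (prof_mem h3.2.1 h3.2.2).1 h1
    · rw [(h2 hx).1, mul_zero]
  have i1 := h.sh_bt hb1 j0
  have i2 := hb2.int_grad 2
  -- integrability
  have l1 : LocallyIntegrableOn (fun x => (P x + 6 * om) * sh x) (Dom R1 Z1) volume :=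
    locInt_mul_bdd hU (hPm.add aestronglyMeasurable_const) (LocB.add h.P_b (LocB.const _ _))
      h.Lsh.aesm h.Lsh.b
  have l2 : LocallyIntegrableOn (fun x => P x * (sh x * prof Z1 (x 2))) (Dom R1 Z1) volume :=
    locInt_mul_bdd hU hPm h.P_b (h.Lsh.aesm.mul Lp.aesm) (LocB.mul h.Lsh.b Lp.b)
  have l3 : LocallyIntegrableOn (fun x => sh x * prof Z1 (x 2)) (Dom R1 Z1) volume :=
    locInt_mul_bdd hU h.Lsh.aesm h.Lsh.b Lp.aesm Lp.b
  have l4 : LocallyIntegrableOn sh (Dom R1 Z1) volume := h.sh_wg.intf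
  have l5 : LocallyIntegrableOn (fun x => 2 / Z1 ^ 2 * sh x - 6 * om * (sh x * prof Z1 (x 2)))
      (Dom R1 Z1) volume :=
    (locInt_bdd_mul hU aestronglyMeasurable_const (LocB.const _ (2 / Z1 ^ 2)) l4).sub
      (locInt_bdd_mul hU aestronglyMeasurable_const (LocB.const _ (6 * om)) l3)
  have G1 : L2locV (Dom R1 Z1) (fun x => prof Z1 (x 2) • dsh x) := L2locV.smul h.sh_l2 Lp.aesm Lp.b
  have G2 : L2locV (Dom R1 Z1) (fun x => sh x • (prof' Z1 (x 2) • ez)) :=
    L2locV.smul Lp.l2 h.Lsh.aesm h.Lsh.b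
  have G12 : L2locV (Dom R1 Z1)
      (fun x => prof Z1 (x 2) • dsh x + sh x • (prof' Z1 (x 2) • ez)) := L2locV.add G1 G2
  have a1 := hθ.int_inner G12
  have a2 := hb1.int_inner h.sh_l2
  have a3 := hb1.int_mul l1
  have a4 := hθ.int_mul l2
  have a5 := hθ.int_mul l5
  -- `g2 x 2` integrable
  have a6 : Integrable (fun x => g2 x 2) := by
    have hG : L2locV (Dom R1 Z1) (fun _ => ez) := by
      intro K' hK' _
      have : IsFiniteMeasure (volume.restrict K' : Measure Pos3) :=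
        ⟨by rw [Measure.restrict_apply_univ]; exact hK'.measure_lt_top⟩
      exact memLp_const _
    refine (hb2.int_inner hG).congr (Eventually.of_forall fun x => ?_)
    simp only
    rw [real_inner_comm, inner_ez]
  have a23 : Integrable (fun x => inner ℝ (dsh x) (g1 x) +
      (P x + 6 * om) * sh x * (prof Z1 (x 2) * θ x)) := a2.add a3
  have a236 : Integrable (fun x => inner ℝ (dsh x) (g1 x) +
      (P x + 6 * om) * sh x * (prof Z1 (x 2) * θ x) + g2 x 2) := a23.add a6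
  have a14 : Integrable (fun x => inner ℝ (prof Z1 (x 2) • dsh x + sh x • (prof' Z1 (x 2) • ez))
      (g x) + P x * (sh x * prof Z1 (x 2)) * θ x) := a1.add a4
  have key : ∀ᵐ x, inner ℝ (dsh x) (g1 x) + (P x + 6 * om) * sh x * (prof Z1 (x 2) * θ x) +
      g2 x 2 ≤ (inner ℝ (prof Z1 (x 2) • dsh x + sh x • (prof' Z1 (x 2) • ez))
      (g x) + P x * (sh x * prof Z1 (x 2)) * θ x) -
      (2 / Z1 ^ 2 * sh x - 6 * om * (sh x * prof Z1 (x 2))) * θ x := by
    filter_upwards [h0, hK0, hg1, hg2, h.sh_z] with x h1 h2 h3 h4 h5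
    by_cases hx : x ∈ K
    · have h6 := hKU hx
      have h7 := h5 h6
      have h8 := prof'_nn h6.2.1 h6.2.2
      rw [h3, h4]
      simp only [inner_add_left, inner_add_right, real_inner_smul_left, real_inner_smul_right,
        inner_ez, PiLp.add_apply, PiLp.smul_apply, smul_eq_mul]
      have h9 : (inner ℝ ez (g x) : ℝ) = g x 2 := by rw [real_inner_comm, inner_ez]
      have h10 : (ez : Pos3) 2 = 1 := by simp [ez]
      rw [h9, h10]
      have h11 : 0 ≤ θ x * prof' Z1 (x 2) * (-(dsh x 2)) :=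
        mul_nonneg (mul_nonneg h1 h8) (by linarith)
      nlinarith
    · have h12 := (h2 hx).1
      have h13 := (h2 hx).2
      rw [h3, h4, h12, h13]
      simp
  have a145 : Integrable (fun x => (inner ℝ (prof Z1 (x 2) • dsh x + sh x •
      (prof' Z1 (x 2) • ez)) (g x) + P x * (sh x * prof Z1 (x 2)) * θ x) -
      (2 / Z1 ^ 2 * sh x - 6 * om * (sh x * prof Z1 (x 2))) * θ x) := a14.sub a5
  have i3 := integral_mono_ae a236 a145 key
  rw [integral_add a23 a6, integral_add a2 a3, integral_sub a14 a5, integral_add a1 a4, i2] at i3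
  linarith

/-- `Y ≥ 0` under `2 ε F ≤ dp ŝ` -/
theorem Core.Y_nn (hdp : ∀ᵐ x, x ∈ Dom R1 Z1 → 2 * eps lam x * F x ≤ dp * sh x) :
    ∀ᵐ x, x ∈ Dom R1 Z1 → 0 ≤ Ytot Z1 dp F s1 sh x := by
  filter_upwards [hdp, h.m_ge, h.s1_pos, h.sh_nn, h.F_pos'] with x h1 h2 h3 h4 h5 hx
  have h6 := (prof_mem hx.2.1 hx.2.2).1
  have h7 : 1 - eps lam x ≤ F x / s1 x := by
    rw [le_div_iff₀ (h3 hx)]; exact h2 hx
  rw [Ytot, XM]
  have h8 : -(2 * eps lam x * F x) ≤ 2 * F x * (F x / s1 x - 1) := by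
    nlinarith [h5 hx]
  have h9 : 0 ≤ 4 * sh x * prof Z1 (x 2) := mul_nonneg (mul_nonneg (by norm_num) (h4 hx)) h6
  linarith [h1 hx]

theorem Core.LY (hG : Gauge lam R1 Z1 P X er s1 F ds1 dF) :
    LH (Dom R1 Z1) (Ytot Z1 dp F s1 sh) (dY Z1 dp F s1 sh dF ds1 dsh) := by
  have hU := isOpen_Dom R1 Z1
  have hpc : Continuous (prof' Z1) := by unfold prof'; fun_prop
  have Lp : LH (Dom R1 Z1) (fun x => prof Z1 (x 2)) (fun x => prof' Z1 (x 2) • ez) :=
    LH.of_z hU (hasDerivAt_prof h.Z1_pos) hpc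
  have LX : LH (Dom R1 Z1) (XM F s1) (dXM F s1 dF ds1) := by
    refine ⟨hG.1, LocB.of_le (LocB.mul (LocB.const _ 2) h.Ls1.b) ?_, hG.2.1⟩
    filter_upwards [h.F_pos', h.F_le, h.s1_pos] with x h1 h2 h3 hx
    have h4 := h1 hx
    have h5 := h2 hx
    have h6 := h3 hx
    have h7 : F x / s1 x ≤ 1 := (div_le_one h6).2 h5
    have h8 : 0 ≤ F x / s1 x := (div_pos h4 h6).le
    rw [XM, abs_mul, abs_mul, abs_of_pos h4, abs_of_nonneg (by norm_num : (0 : ℝ) ≤ 2), abs_mul,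
      abs_of_nonneg (by norm_num : (0 : ℝ) ≤ 2), abs_of_pos h6]
    have h9 : |F x / s1 x - 1| ≤ 1 := by rw [abs_le]; constructor <;> linarith
    nlinarith [abs_nonneg (F x / s1 x - 1)]
  refine LH.congr hU (LH.add hU (LH.add hU (LH.const_mul hU (LH.mul hU h.Lsh Lp) 4) LX)
    (LH.const_mul hU h.Lsh dp)) (Eventually.of_forall fun x _ => ?_)
    (Eventually.of_forall fun x _ => ?_)
  · simp only [Ytot]
    ring
  · simp only [dY]
    congr 2
    rw [add_comm]
    exact ofNat_smul_eq_nsmul ℝ 4 _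

/-- the supersolution inequality for `Y` -/
theorem Core.sup (hG : Gauge lam R1 Z1 P X er s1 F ds1 dF) (hdp0 : 0 ≤ dp)
    (hdp : ∀ᵐ x, x ∈ Dom R1 Z1 → 2 * eps lam x * F x ≤ dp * sh x)
    {ζ : Pos3 → ℝ} {g : Pos3 → Pos3} (hζ : BTin (Dom R1 Z1) ζ g) (h0 : ∀ᵐ x, 0 ≤ ζ x) :
    ∫ x, stuff om lam Z1 dp X er F s1 sh x * (s x * ζ x) ≤
      ∫ x, inner ℝ (s x • dY Z1 dp F s1 sh dF ds1 dsh x - Ytot Z1 dp F s1 sh x • ds x) (g x) := by
  have hU := isOpen_Dom R1 Z1
  have hPm : AEStronglyMeasurable P (volume.restrict (Dom R1 Z1)) := h.P_m.aestronglyMeasurable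
  have LY := h.LY (dp := dp) hG
  have hpc : Continuous (prof' Z1) := by unfold prof'; fun_prop
  have Lp : LH (Dom R1 Z1) (fun x => prof Z1 (x 2)) (fun x => prof' Z1 (x 2) • ez) :=
    LH.of_z hU (hasDerivAt_prof h.Z1_pos) hpc
  obtain ⟨gt, hbt, hgt⟩ := BTin.mul hU h.Ls hζ
  obtain ⟨gy, hby, hgy⟩ := BTin.mul hU LY hζ
  obtain ⟨K, hK, hKU, hK0⟩ := hζ.g0
  have ht0 : ∀ᵐ x, 0 ≤ s x * ζ x := by
    filter_upwards [h0] with x hx using mul_nonneg (h.s_pos x).le hx
  have hy0 : ∀ᵐ x, 0 ≤ Ytot Z1 dp F s1 sh x * ζ x := by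
    filter_upwards [h0, h.Y_nn hdp, hK0] with x h1 h2 h3
    by_cases hx : x ∈ K
    · exact mul_nonneg (h2 (hKU hx)) h1
    · rw [(h3 hx).1, mul_zero]
  -- Kato
  have lPs : LocallyIntegrableOn (fun x => P x * s x) (Dom R1 Z1) volume :=
    locInt_mul_bdd hU hPm h.P_b h.Ls.aesm h.Ls.b
  have k1 : (∫ x, inner ℝ (ds x) (gy x)) + ∫ x, P x * s x * (Ytot Z1 dp F s1 sh x * ζ x) ≤ 0 :=
    ext_ineq hU h.Ls.l2 lPs (fun φ hφ hφ0 => h.kato φ hφ hφ0) hby hy0
  have k2 := h.x0_bt hbt ht0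
  have k3 := hG.2.2 _ _ hbt ht0
  have k4 := h.sh_bt hbt ht0
  -- integrability
  have l1 : LocallyIntegrableOn (fun x => (P x + 6 * om) * sh x) (Dom R1 Z1) volume :=
    locInt_mul_bdd hU (hPm.add aestronglyMeasurable_const) (LocB.add h.P_b (LocB.const _ _))
      h.Lsh.aesm h.Lsh.b
  have l2 : LocallyIntegrableOn (fun x => P x * (sh x * prof Z1 (x 2))) (Dom R1 Z1) volume :=
    locInt_mul_bdd hU hPm h.P_b (h.Lsh.aesm.mul Lp.aesm) (LocB.mul h.Lsh.b Lp.b)
  have l3 : LocallyIntegrableOn (fun x => sh x * prof Z1 (x 2)) (Dom R1 Z1) volume :=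
    locInt_mul_bdd hU h.Lsh.aesm h.Lsh.b Lp.aesm Lp.b
  have l4 : LocallyIntegrableOn sh (Dom R1 Z1) volume := h.sh_wg.intf
  have l5 : LocallyIntegrableOn (fun x => 2 / Z1 ^ 2 * sh x - 6 * om * (sh x * prof Z1 (x 2)))
      (Dom R1 Z1) volume :=
    (locInt_bdd_mul hU aestronglyMeasurable_const (LocB.const _ (2 / Z1 ^ 2)) l4).sub
      (locInt_bdd_mul hU aestronglyMeasurable_const (LocB.const _ (6 * om)) l3)
  have G1 : L2locV (Dom R1 Z1) (fun x => prof Z1 (x 2) • dsh x) := L2locV.smul h.sh_l2 Lp.aesm Lp.b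
  have G2 : L2locV (Dom R1 Z1) (fun x => sh x • (prof' Z1 (x 2) • ez)) :=
    L2locV.smul Lp.l2 h.Lsh.aesm h.Lsh.b
  have G12 : L2locV (Dom R1 Z1)
      (fun x => prof Z1 (x 2) • dsh x + sh x • (prof' Z1 (x 2) • ez)) := L2locV.add G1 G2
  have LX : LH (Dom R1 Z1) (XM F s1) (dXM F s1 dF ds1) := by
    refine ⟨hG.1, LocB.of_le (LocB.mul (LocB.const _ 2) h.Ls1.b) ?_, hG.2.1⟩
    filter_upwards [h.F_pos', h.F_le, h.s1_pos] with x h1 h2 h3 hx
    have h4 := h1 hx
    have h5 := h2 hx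
    have h6 := h3 hx
    have h7 : F x / s1 x ≤ 1 := (div_le_one h6).2 h5
    have h8 : 0 ≤ F x / s1 x := (div_pos h4 h6).le
    rw [XM, abs_mul, abs_mul, abs_of_pos h4, abs_of_nonneg (by norm_num : (0 : ℝ) ≤ 2), abs_mul,
      abs_of_nonneg (by norm_num : (0 : ℝ) ≤ 2), abs_of_pos h6]
    have h9 : |F x / s1 x - 1| ≤ 1 := by rw [abs_le]; constructor <;> linarith
    nlinarith [abs_nonneg (F x / s1 x - 1)]
  have l6 : LocallyIntegrableOn (fun x => P x * XM F s1 x) (Dom R1 Z1) volume :=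
    locInt_mul_bdd hU hPm h.P_b LX.aesm LX.b
  have hepc : ContinuousOn (eps lam) (Dom R1 Z1) := by
    intro x hx
    have hx0 : ‖x‖ ^ 4 ≠ 0 := by
      have : 0 < ‖x‖ := lt_of_lt_of_le (by linarith [h.R1_ge]) hx.1.le
      positivity
    exact (continuousAt_const.div ((continuous_norm.pow 4).continuousAt) hx0).continuousWithinAt
  have hepm : AEStronglyMeasurable (eps lam) (volume.restrict (Dom R1 Z1)) :=
    hepc.aestronglyMeasurable hU.measurableSet
  have hmm : AEStronglyMeasurable (fun x => (F x / s1 x) ^ 2 - 4 * eps lam x)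
      (volume.restrict (Dom R1 Z1)) :=
    ((h.LF.aesm.div₀ h.Ls1.aesm).pow 2).sub (hepm.const_mul 4)
  have hmb : LocB (Dom R1 Z1) (fun x => (F x / s1 x) ^ 2 - 4 * eps lam x) := by
    refine LocB.sub (LocB.of_le (LocB.const _ 1) ?_) (LocB.mul (LocB.const _ 4)
      (LocB.of_continuousOn hepc))
    filter_upwards [h.F_pos', h.F_le, h.s1_pos] with x h1 h2 h3 hx
    have h7 : F x / s1 x ≤ 1 := (div_le_one (h3 hx)).2 (h2 hx)
    have h8 : 0 ≤ F x / s1 x := (div_pos (h1 hx) (h3 hx)).le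
    rw [abs_one, abs_of_nonneg (sq_nonneg _)]
    nlinarith
  have l7 : LocallyIntegrableOn (fun x => 2 * ((F x / s1 x) ^ 2 - 4 * eps lam x) * X x -
      (2 + 8 * eps lam x) * er x) (Dom R1 Z1) volume := by
    have b1 : LocallyIntegrableOn (fun x => 2 * ((F x / s1 x) ^ 2 - 4 * eps lam x) * X x)
        (Dom R1 Z1) volume :=
      locInt_bdd_mul hU (hmm.const_mul 2) (LocB.mul (LocB.const _ 2) hmb) h.X_int
    have b2 : LocallyIntegrableOn (fun x => (2 + 8 * eps lam x) * er x) (Dom R1 Z1) volume :=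
      locInt_mul_bdd hU (aestronglyMeasurable_const.add (hepm.const_mul 8))
        (LocB.add (LocB.const _ 2) (LocB.mul (LocB.const _ 8) (LocB.of_continuousOn hepc)))
        h.er_m.aestronglyMeasurable h.er_b
    exact b1.sub b2
  have l8 : LocallyIntegrableOn (fun x => P x * Ytot Z1 dp F s1 sh x) (Dom R1 Z1) volume :=
    locInt_mul_bdd hU hPm h.P_b LY.aesm LY.b
  have GY : L2locV (Dom R1 Z1) (dY Z1 dp F s1 sh dF ds1 dsh) := LY.l2
  have a1 := hbt.int_inner G12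
  have a2 := hbt.int_mul l2
  have a3 := hbt.int_inner LX.l2
  have a4 := hbt.int_mul l6
  have a5 := hbt.int_inner h.sh_l2
  have a6 := hbt.int_mul l1
  have a7 := hbt.int_mul l5
  have a8 := hbt.int_mul l7
  have a9 := hbt.int_inner GY
  have a10 := hbt.int_mul l8
  have a11 := hby.int_inner h.Ls.l2
  have a12 := hby.int_mul lPs
  -- `∫⟨dY,∇θ⟩` and `∫ P Y θ`
  have e1 : (∫ x, inner ℝ (dY Z1 dp F s1 sh dF ds1 dsh x) (gt x)) =
      4 * (∫ x, inner ℝ (prof Z1 (x 2) • dsh x + sh x • (prof' Z1 (x 2) • ez)) (gt x)) +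
      (∫ x, inner ℝ (dXM F s1 dF ds1 x) (gt x)) + dp * ∫ x, inner ℝ (dsh x) (gt x) := by
    rw [← integral_const_mul, ← integral_const_mul, ← integral_add (a1.const_mul 4) a3]
    have a13 : Integrable (fun x => 4 * inner ℝ (prof Z1 (x 2) • dsh x +
      sh x • (prof' Z1 (x 2) • ez)) (gt x) + inner ℝ (dXM F s1 dF ds1 x) (gt x)) :=
      (a1.const_mul 4).add a3
    rw [← integral_add a13 (a5.const_mul dp)]
    refine integral_congr_ae (Eventually.of_forall fun x => ?_)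
    have h4 : (4 : ℕ) • (prof Z1 (x 2) • dsh x + sh x • (prof' Z1 (x 2) • ez)) =
      (4 : ℝ) • (prof Z1 (x 2) • dsh x + sh x • (prof' Z1 (x 2) • ez)) :=
      (ofNat_smul_eq_nsmul ℝ 4 _).symm
    simp only [dY]
    rw [h4, inner_add_left, inner_add_left, real_inner_smul_left, real_inner_smul_left]
  have e2 : (∫ x, P x * Ytot Z1 dp F s1 sh x * (s x * ζ x)) =
      4 * (∫ x, P x * (sh x * prof Z1 (x 2)) * (s x * ζ x)) +
      (∫ x, P x * XM F s1 x * (s x * ζ x)) +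
      dp * ((∫ x, (P x + 6 * om) * sh x * (s x * ζ x)) - 6 * om * ∫ x, sh x * (s x * ζ x)) := by
    have a14 := hbt.int_mul l4
    rw [← integral_const_mul, ← integral_const_mul, ← integral_sub a6 (a14.const_mul (6 * om)),
      ← integral_const_mul, ← integral_add (a2.const_mul 4) a4]
    have a13 : Integrable (fun x => 4 * (P x * (sh x * prof Z1 (x 2)) * (s x * ζ x)) +
      P x * XM F s1 x * (s x * ζ x)) := (a2.const_mul 4).add a4
    have a15 : Integrable (fun x => (P x + 6 * om) * sh x * (s x * ζ x) -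
      6 * om * (sh x * (s x * ζ x))) := a6.sub (a14.const_mul (6 * om))
    rw [← integral_add a13 (a15.const_mul dp)]
    refine integral_congr_ae (Eventually.of_forall fun x => ?_)
    simp only [Ytot]
    ring
  have e3 : (∫ x, inner ℝ (s x • dY Z1 dp F s1 sh dF ds1 dsh x - Ytot Z1 dp F s1 sh x • ds x)
      (g x)) = (∫ x, inner ℝ (dY Z1 dp F s1 sh dF ds1 dsh x) (gt x)) -
      ∫ x, inner ℝ (ds x) (gy x) := by
    rw [← integral_sub a9 a11]
    refine integral_congr_ae ?_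
    filter_upwards [hgt, hgy] with x h1 h2
    rw [h1, h2, inner_sub_left, inner_add_right, inner_add_right, real_inner_smul_left,
      real_inner_smul_left, real_inner_smul_right, real_inner_smul_right, real_inner_smul_right,
      real_inner_smul_right, real_inner_comm (ds x) (dY Z1 dp F s1 sh dF ds1 dsh x)]
    ring
  have e4 : (∫ x, P x * s x * (Ytot Z1 dp F s1 sh x * ζ x)) =
      ∫ x, P x * Ytot Z1 dp F s1 sh x * (s x * ζ x) :=
    integral_congr_ae (Eventually.of_forall fun x => by ring)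
  have e5 : (∫ x, stuff om lam Z1 dp X er F s1 sh x * (s x * ζ x)) =
      4 * (∫ x, (2 / Z1 ^ 2 * sh x - 6 * om * (sh x * prof Z1 (x 2))) * (s x * ζ x)) +
      (∫ x, (2 * ((F x / s1 x) ^ 2 - 4 * eps lam x) * X x - (2 + 8 * eps lam x) * er x) *
        (s x * ζ x)) - dp * (6 * om * ∫ x, sh x * (s x * ζ x)) := by
    have a14 := hbt.int_mul l4
    rw [← integral_const_mul, ← integral_const_mul, ← integral_const_mul,
      ← integral_add (a7.const_mul 4) a8]
    have a13 : Integrable (fun x => 4 * ((2 / Z1 ^ 2 * sh x - 6 * om * (sh x * prof Z1 (x 2))) *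
      (s x * ζ x)) + (2 * ((F x / s1 x) ^ 2 - 4 * eps lam x) * X x - (2 + 8 * eps lam x) * er x) *
        (s x * ζ x)) := (a7.const_mul 4).add a8
    rw [← integral_sub a13 ((a14.const_mul (6 * om)).const_mul dp)]
    refine integral_congr_ae (Eventually.of_forall fun x => ?_)
    simp only [stuff]
    ring
  have k5 := mul_nonneg hdp0 k4
  rw [e3, e5, e1]
  rw [e4, e2] at k1
  nlinarith

end facts

end Crest.Agent.R335.PL
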