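import Crest.Agent.R335.PLMainB

/-!
Row 335 (S0521), C.6: combined inequality for `E = H_c - H - Y/s` and the truncation step
(helper297).
-/

set_option autoImplicit false

open MeasureTheory Filter Set Crest.MathPhysics.ThreeBody
open scoped ENNReal Topology ContDiff

noncomputable section
namespace Crest.Agent.R335.PL
open Crest.Agent.R335

/-- cutting to a compact set outside of which the function vanishes -/
theorem BTin.of_LH {U : Set Pos3} (hU : IsOpen U) {f : Pos3 → ℝ} {g : Pos3 → Pos3} (h : LH U f g)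
    {K : Set Pos3} (hK : IsCompact K) (hKU : K ⊆ U) (h0 : ∀ᵐ x, x ∈ U → x ∉ K → f x = 0) :
    BTin U (K.indicator f) (K.indicator g) := by
  have h1 := WG.zero_of_level hU h.wg 0
  rw [ae_restrict_iff' hU.measurableSet] at h1
  have hL : LH U (K.indicator f) (K.indicator g) := by
    refine LH.congr hU h ?_ ?_
    · filter_upwards [h0] with x hx hxU
      by_cases hxK : x ∈ K
      · rw [indicator_of_mem hxK]
      · rw [indicator_of_notMem hxK, hx hxU hxK]
    · filter_upwards [h0, h1] with x hx hx' hxU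
      by_cases hxK : x ∈ K
      · rw [indicator_of_mem hxK]
      · rw [indicator_of_notMem hxK, hx' hxU (hx hxU hxK)]
  obtain ⟨C, hC⟩ := hL.b K hK hKU
  have hbdd : ∀ᵐ x, |K.indicator f x| ≤ |C| := by
    filter_upwards [hC] with x hx
    by_cases hxK : x ∈ K
    · exact (hx hxK).trans (le_abs_self _)
    · rw [indicator_of_notMem hxK, abs_zero]; exact abs_nonneg _
  have hfin : IsFiniteMeasure (volume.restrict K : Measure Pos3) :=
    ⟨by rw [Measure.restrict_apply_univ]; exact hK.measure_lt_top⟩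
  refine ⟨H1.of_WG_supp hU hL.wg hK hKU (fun x hx => indicator_of_notMem hx _)
    (fun x hx => indicator_of_notMem hx _) ?_ (hL.l2 K hK hKU), ⟨|C|, hbdd⟩, K, hK, hKU,
    Eventually.of_forall fun x hx => indicator_of_notMem hx _⟩
  exact MemLp.of_bound (hL.aesm.mono_measure (Measure.restrict_mono hKU le_rfl)) _
    (ae_restrict_of_ae hbdd)

theorem LH.of_smooth {U : Set Pos3} (hU : IsOpen U) {f : Pos3 → ℝ} (hf : ContDiff ℝ ∞ f) :
    LH U f (gr f) := by
  have hf1 : ContDiff ℝ 1 f := hf.of_le (by exact_mod_cast le_top)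
  refine ⟨WG.of_contDiffOn hU hf1.contDiffOn, LocB.of_continuousOn hf.continuous.continuousOn, ?_⟩
  intro K hK _
  have : IsFiniteMeasure (volume.restrict K : Measure Pos3) :=
    ⟨by rw [Measure.restrict_apply_univ]; exact hK.measure_lt_top⟩
  have hc : Continuous (gr f) := continuous_gr hf1
  obtain ⟨C, hC⟩ := hK.exists_bound_of_continuousOn hc.continuousOn
  exact MemLp.of_bound hc.aestronglyMeasurable C
    ((ae_restrict_iff' hK.measurableSet).2 (Eventually.of_forall hC))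

variable {om q0 lam R1 Z1 dp ch : ℝ} {P wc X sig er cpl s s1 s2 F H sh w : Pos3 → ℝ}
  {ds ds1 ds2 dF dH dsh gw : Pos3 → Pos3}

/-- `E = H_c - H - Y/s` -/
def Ef (Z1 dp : ℝ) (s s1 s2 F H sh : Pos3 → ℝ) (x : Pos3) : ℝ :=
  Hc s1 s2 x - H x - Ytot Z1 dp F s1 sh x / s x

def dEf (Z1 dp : ℝ) (s s1 s2 F sh : Pos3 → ℝ) (ds ds1 ds2 dF dH dsh : Pos3 → Pos3) (x : Pos3) :
    Pos3 :=
  (dHc s s1 s2 ds1 ds2 x - dH x) - ((1 / s x) • dY Z1 dp F s1 sh dF ds1 dsh x -
    (Ytot Z1 dp F s1 sh x / s x ^ 2) • ds x)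

theorem sin_two_Hc {a b c : ℝ} (ha : 0 < a) (hc : a ^ 2 + b ^ 2 = c ^ 2) :
    c ^ 2 * Real.sin (2 * Real.arctan (b / a)) = 2 * a * b := by
  have h1 : Real.tan (Real.arctan (b / a)) = b / a := Real.tan_arctan _
  have hcos := Real.cos_arctan_pos (b / a)
  have h2 : Real.sin (Real.arctan (b / a)) = b / a * Real.cos (Real.arctan (b / a)) := by
    rw [Real.tan_eq_sin_div_cos, div_eq_iff hcos.ne'] at h1
    exact h1
  have h3 : Real.cos (Real.arctan (b / a)) ^ 2 = 1 / (1 + (b / a) ^ 2) := Real.cos_sq_arctan _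
  have hc0 : 0 < c ^ 2 := by rw [← hc]; positivity
  have h4 : 1 + (b / a) ^ 2 = c ^ 2 / a ^ 2 := by
    field_simp; linarith
  rw [Real.sin_two_mul, h2]
  have h5 : 2 * (b / a * Real.cos (Real.arctan (b / a))) * Real.cos (Real.arctan (b / a)) =
      2 * (b / a) * Real.cos (Real.arctan (b / a)) ^ 2 := by ring
  rw [h5, h3, h4]
  have hc1 : c ≠ 0 := fun h => by rw [h] at hc0; simp at hc0
  field_simp

section facts
variable (h : Core om q0 lam R1 Z1 P wc X sig er cpl s s1 s2 F H sh ds ds1 ds2 dF dH dsh)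
include h

theorem Core.LE (hG : Gauge lam R1 Z1 P X er s1 F ds1 dF) :
    LH (Dom R1 Z1) (Ef Z1 dp s s1 s2 F H sh) (dEf Z1 dp s s1 s2 F sh ds ds1 ds2 dF dH dsh) :=
  LH.sub (isOpen_Dom _ _) (LH.sub (isOpen_Dom _ _) h.LHc h.LHH)
    (LH.div (isOpen_Dom _ _) (h.LY hG) h.Ls h.s_lp)

theorem Core.eps_le : ∀ x ∈ Dom R1 Z1, 0 < eps lam x ∧ eps lam x ≤ 1 / 1000 := by
  intro x hx
  have h1 : 1 ≤ ‖x‖ := h.R1_ge.trans hx.1.le
  have h2 : 1 ≤ ‖x‖ ^ 4 := one_le_pow₀ h1
  rw [eps]
  refine ⟨div_pos h.lam_pos (by positivity), ?_⟩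
  rw [div_le_iff₀ (by positivity)]
  nlinarith [h.lam_le]

/-- the combined inequality -/
theorem Core.comb (hG : Gauge lam R1 Z1 P X er s1 F ds1 dF) (hRQ : RQ om R1 Z1 dp er cpl s2 sh)
    (hdp0 : 0 ≤ dp) (hdp : ∀ᵐ x, x ∈ Dom R1 Z1 → 2 * eps lam x * F x ≤ dp * sh x)
    {ζ : Pos3 → ℝ} {g : Pos3 → Pos3} (hζ : BTin (Dom R1 Z1) ζ g) (h0 : ∀ᵐ x, 0 ≤ ζ x)
    (hD : ∀ᵐ x, x ∈ Dom R1 Z1 → ζ x ≠ 0 → H x ≤ Hc s1 s2 x) :
    ∫ x, s x ^ 2 * inner ℝ (dEf Z1 dp s s1 s2 F sh ds ds1 ds2 dF dH dsh x) (g x) ≤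
      2 * om * ∫ x, s x ^ 2 * Ef Z1 dp s s1 s2 F H sh x * ζ x := by
  have hU := isOpen_Dom R1 Z1
  have k1 := h.c6a hζ h0
  have k2 := h.sup hG hdp0 hdp hζ h0
  have LE := h.LE (dp := dp) hG
  have LY := h.LY (dp := dp) hG
  obtain ⟨K, hK, hKU, hK0⟩ := hζ.g0
  have hss : LocB (Dom R1 Z1) (fun x => s x ^ 2) := by
    refine LocB.of_le (LocB.mul h.s_lb h.s_lb) (Eventually.of_forall fun x _ => ?_)
    rw [pow_two]
  have hsm : AEStronglyMeasurable (fun x => s x ^ 2) (volume.restrict (Dom R1 Z1)) :=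
    (h.s_cont.pow 2).aestronglyMeasurable
  -- integrability
  have a1 : Integrable (fun x => s x ^ 2 * inner ℝ (dHc s s1 s2 ds1 ds2 x - dH x) (g x)) := by
    refine (hζ.int_inner (L2locV.smul (L2locV.sub h.LHc.l2 h.H_l2) hsm hss)).congr
      (Eventually.of_forall fun x => ?_)
    simp only [real_inner_smul_left]
  have a2 : Integrable (fun x => inner ℝ (s x • dY Z1 dp F s1 sh dF ds1 dsh x -
      Ytot Z1 dp F s1 sh x • ds x) (g x)) :=
    hζ.int_inner (L2locV.sub (L2locV.smul LY.l2 h.Ls.aesm h.Ls.b)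
      (L2locV.smul h.Ls.l2 LY.aesm LY.b))
  have e1 : ∫ x, s x ^ 2 * inner ℝ (dEf Z1 dp s s1 s2 F sh ds ds1 ds2 dF dH dsh x) (g x) =
      (∫ x, s x ^ 2 * inner ℝ (dHc s s1 s2 ds1 ds2 x - dH x) (g x)) -
      ∫ x, inner ℝ (s x • dY Z1 dp F s1 sh dF ds1 dsh x - Ytot Z1 dp F s1 sh x • ds x) (g x) := by
    rw [← integral_sub a1 a2]
    refine integral_congr_ae (Eventually.of_forall fun x => ?_)
    have h3 := (h.s_pos x).ne'
    simp only [dEf, inner_sub_left, real_inner_smul_left]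
    field_simp
  -- sources
  have hsin : AEStronglyMeasurable (fun x => Real.sin (2 * H x)) (volume.restrict (Dom R1 Z1)) :=
    (Real.continuous_sin.comp (continuous_const.mul continuous_id)).comp_aestronglyMeasurable
      h.LHH.aesm
  have hq1 : LocallyIntegrableOn (fun x => s x ^ 2 * Real.sin (2 * H x)) (Dom R1 Z1) volume :=
    locInt_mul_bdd hU hsm hss hsin (LocB.of_le (LocB.const (Dom R1 Z1) 1)
      (Eventually.of_forall fun x _ => by rw [abs_one]; exact Real.abs_sin_le_one _))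
  have l1 : LocallyIntegrableOn (fun x => cpl x * s1 x + X x * s2 x +
      om * (s x ^ 2 * Real.sin (2 * H x))) (Dom R1 Z1) volume := by
    have b1 : LocallyIntegrableOn (fun x => cpl x * s1 x) (Dom R1 Z1) volume :=
      locInt_mul_bdd hU h.cpl_m.aestronglyMeasurable h.cpl_b h.Ls1.aesm h.Ls1.b
    have b2 : LocallyIntegrableOn (fun x => X x * s2 x) (Dom R1 Z1) volume := by
      have := locInt_bdd_mul hU h.Ls2.aesm h.Ls2.b h.X_int
      refine this.congr (Eventually.of_forall fun x => mul_comm _ _)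
    have b3 : LocallyIntegrableOn (fun x => om * (s x ^ 2 * Real.sin (2 * H x))) (Dom R1 Z1)
      volume := locInt_bdd_mul hU aestronglyMeasurable_const (LocB.const _ om) hq1
    exact (b1.add b2).add b3
  have hepc : ContinuousOn (eps lam) (Dom R1 Z1) := by
    intro x hx
    have hx0 : ‖x‖ ^ 4 ≠ 0 := by
      have : 0 < ‖x‖ := lt_of_lt_of_le (by linarith [h.R1_ge]) hx.1.le
      positivity
    exact (continuousAt_const.div ((continuous_norm.pow 4).continuousAt) hx0).continuousWithinAt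
  have hepm : AEStronglyMeasurable (eps lam) (volume.restrict (Dom R1 Z1)) :=
    hepc.aestronglyMeasurable hU.measurableSet
  have hmm : AEStronglyMeasurable (fun x => (F x / s1 x) ^ 2 - 4 * eps lam x)
      (volume.restrict (Dom R1 Z1)) :=
    ((h.LF.aesm.div₀ h.Ls1.aesm).pow 2).sub (hepm.const_mul 4)
  have hmb : LocB (Dom R1 Z1) (fun x => (F x / s1 x) ^ 2 - 4 * eps lam x) := by
    refine LocB.sub (LocB.of_le (LocB.const _ 1) ?_) (LocB.mul (LocB.const _ 4)
      (LocB.of_continuousOn hepc))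
    filter_upwards [h.F_pos', h.F_le, h.s1_pos] with x h1 h2 h3 hx
    have h7 : F x / s1 x ≤ 1 := (div_le_one (h3 hx)).2 (h2 hx)
    have h8 : 0 ≤ F x / s1 x := (div_pos (h1 hx) (h3 hx)).le
    rw [abs_one, abs_of_nonneg (sq_nonneg _)]
    nlinarith
  have hpc : Continuous (prof' Z1) := by unfold prof'; fun_prop
  have Lp : LH (Dom R1 Z1) (fun x => prof Z1 (x 2)) (fun x => prof' Z1 (x 2) • ez) :=
    LH.of_z hU (hasDerivAt_prof h.Z1_pos) hpc
  have l2 : LocallyIntegrableOn (stuff om lam Z1 dp X er F s1 sh) (Dom R1 Z1) volume := by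
    have b1 : LocallyIntegrableOn (fun x => 2 * ((F x / s1 x) ^ 2 - 4 * eps lam x) * X x)
        (Dom R1 Z1) volume :=
      locInt_bdd_mul hU (hmm.const_mul 2) (LocB.mul (LocB.const _ 2) hmb) h.X_int
    have b2 : LocallyIntegrableOn (fun x => (2 + 8 * eps lam x) * er x) (Dom R1 Z1) volume :=
      locInt_mul_bdd hU (aestronglyMeasurable_const.add (hepm.const_mul 8))
        (LocB.add (LocB.const _ 2) (LocB.mul (LocB.const _ 8) (LocB.of_continuousOn hepc)))
        h.er_m.aestronglyMeasurable h.er_b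
    have b3 : LocallyIntegrableOn sh (Dom R1 Z1) volume := h.sh_wg.intf
    have b4 : LocallyIntegrableOn (fun x => sh x * prof Z1 (x 2)) (Dom R1 Z1) volume :=
      locInt_mul_bdd hU h.Lsh.aesm h.Lsh.b Lp.aesm Lp.b
    have b5 : LocallyIntegrableOn (fun x => 8 / Z1 ^ 2 * sh x) (Dom R1 Z1) volume :=
      locInt_bdd_mul hU aestronglyMeasurable_const (LocB.const _ _) b3
    have b6 : LocallyIntegrableOn (fun x => 24 * om * (sh x * prof Z1 (x 2))) (Dom R1 Z1) volume :=
      locInt_bdd_mul hU aestronglyMeasurable_const (LocB.const _ _) b4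
    have b7 : LocallyIntegrableOn (fun x => 6 * om * dp * sh x) (Dom R1 Z1) volume :=
      locInt_bdd_mul hU aestronglyMeasurable_const (LocB.const _ _) b3
    refine (((b5.sub b6).sub b7).add (b1.sub b2)).congr (Eventually.of_forall fun x => ?_)
    simp only [stuff, Pi.sub_apply, Pi.add_apply]
    ring
  have l3 : LocallyIntegrableOn (fun x => stuff om lam Z1 dp X er F s1 sh x * s x) (Dom R1 Z1)
      volume := by
    have := locInt_bdd_mul hU h.Ls.aesm h.Ls.b l2
    exact this.congr (Eventually.of_forall fun x => mul_comm _ _)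
  have l4 : LocallyIntegrableOn (fun x => s x ^ 2 * Ef Z1 dp s s1 s2 F H sh x) (Dom R1 Z1)
      volume := locInt_mul_bdd hU hsm hss LE.aesm LE.b
  have a3 := hζ.int_mul l1
  have a4 := hζ.int_mul l3
  have a5 := hζ.int_mul l4
  have e2 : ∫ x, stuff om lam Z1 dp X er F s1 sh x * (s x * ζ x) =
      ∫ x, stuff om lam Z1 dp X er F s1 sh x * s x * ζ x :=
    integral_congr_ae (Eventually.of_forall fun x => by ring)
  rw [e1]
  rw [e2] at k2
  have key : (∫ x, (cpl x * s1 x + X x * s2 x + om * (s x ^ 2 * Real.sin (2 * H x))) * ζ x) -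
      (∫ x, stuff om lam Z1 dp X er F s1 sh x * s x * ζ x) ≤
      2 * om * ∫ x, s x ^ 2 * Ef Z1 dp s s1 s2 F H sh x * ζ x := by
    rw [← integral_sub a3 a4, ← integral_const_mul]
    refine integral_mono_ae (a3.sub a4) (a5.const_mul _) ?_
    filter_upwards [h0, hK0, hD, hRQ, h.X_ge, h.er_nn, h.cpl_nn, h.s1_pos, h.F_pos', h.F_le,
      h.m_ge, h.sh_nn] with x h1 h2 h3 h4 h5 h6 h7 h8 h9 h10 h11 h12
    by_cases hz : ζ x = 0
    · rw [hz]; simp
    have hxK : x ∈ K := by
      by_contra hcon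
      exact hz (h2 hcon).1
    have hx := hKU hxK
    have hDx := h3 hx hz
    have hRx := h4 hx
    have hXx := h5 hx
    have hex := h6 hx
    have hcx := h7 hx
    have h1x := h8 hx
    have hFx := h9 hx
    have hFs := h10 hx
    have hmx := h11 hx
    have hshx := h12 hx
    have hs := h.s_pos x
    have hs1 := h.s1_le x
    have hs2 := h.s2_le_s x
    have hs2n := h.s2_nn x
    have hp := prof_mem hx.2.1 hx.2.2
    have hep := h.eps_le x hx
    have hom := h.om_pos
    have hsin2 := sin_two_Hc h1x (h.sq x)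
    have habs := Real.abs_sin_sub_sin_le (2 * H x) (2 * Hc s1 s2 x)
    have hle : Real.sin (2 * H x) - Real.sin (2 * Hc s1 s2 x) ≤ 2 * (Hc s1 s2 x - H x) := by
      refine (le_abs_self _).trans (habs.trans ?_)
      rw [abs_sub_comm, abs_of_nonneg (by linarith)]
      linarith
    -- `m²` bounds
    set m := F x / s1 x with hm
    have hm1 : m ≤ 1 := (div_le_one h1x).2 hFs
    have hm0 : 1 - eps lam x ≤ m := by
      rw [hm, le_div_iff₀ h1x]; exact hmx
    have hmsq : 1 / 2 ≤ m ^ 2 - 4 * eps lam x := by nlinarith [hep.1, hep.2]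
    have hmsq1 : m ^ 2 - 4 * eps lam x ≤ 1 := by nlinarith [hep.1, hep.2]
    -- the `X` part
    have hXpart : X x * s2 x ≤ s x * (2 * (m ^ 2 - 4 * eps lam x) * X x) + 2 * s x * er x := by
      have hc1 : 0 ≤ 2 * s x * (m ^ 2 - 4 * eps lam x) - s2 x := by nlinarith
      have hc2 : 2 * s x * (m ^ 2 - 4 * eps lam x) - s2 x ≤ 2 * s x := by nlinarith
      have hc3 : 0 ≤ (2 * s x * (m ^ 2 - 4 * eps lam x) - s2 x) * (X x + er x) :=
        mul_nonneg hc1 (by linarith)
      have hc4 : (2 * s x * (m ^ 2 - 4 * eps lam x) - s2 x) * er x ≤ 2 * s x * er x :=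
        mul_le_mul_of_nonneg_right hc2 hex
      nlinarith
    have hYx : Ytot Z1 dp F s1 sh x ≤ 4 * sh x * prof Z1 (x 2) + dp * sh x := by
      rw [Ytot, XM, ← hm]
      have : 2 * F x * (m - 1) ≤ 0 := by nlinarith
      linarith
    have h8e : (2 + 8 * eps lam x) * er x + 2 * er x ≤ 5 * er x := by nlinarith
    have hpp : sh x * prof Z1 (x 2) ≤ sh x := by nlinarith
    have hppn : 0 ≤ sh x * prof Z1 (x 2) := mul_nonneg hshx hp.1
    have hRx' : cpl x + 2 * om * s2 x + (2 + 8 * eps lam x) * er x + 2 * er x +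
        24 * om * (sh x * prof Z1 (x 2)) + 6 * om * dp * sh x +
        2 * om * (4 * sh x * prof Z1 (x 2) + dp * sh x) ≤ 8 * sh x / Z1 ^ 2 := by
      have h32 : 32 * om * (sh x * prof Z1 (x 2)) ≤ 32 * om * sh x :=
        mul_le_mul_of_nonneg_left hpp (by positivity)
      linarith
    have hfin : cpl x * s1 x + X x * s2 x + 2 * om * s1 x * s2 x +
        2 * om * s x * Ytot Z1 dp F s1 sh x ≤ stuff om lam Z1 dp X er F s1 sh x * s x := by
      rw [stuff, ← hm]
      have t1 : cpl x * s1 x ≤ cpl x * s x := mul_le_mul_of_nonneg_left hs1 hcx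
      have t2 : 2 * om * s1 x * s2 x ≤ s x * (2 * om * s2 x) := by
        have : 2 * om * s2 x * s1 x ≤ 2 * om * s2 x * s x :=
          mul_le_mul_of_nonneg_left hs1 (by positivity)
        linarith
      have t3 : 2 * om * s x * Ytot Z1 dp F s1 sh x ≤
          2 * om * s x * (4 * sh x * prof Z1 (x 2) + dp * sh x) :=
        mul_le_mul_of_nonneg_left hYx (by positivity)
      have t4 := mul_le_mul_of_nonneg_left hRx' hs.le
      nlinarith
    have hsE : s x ^ 2 * Ef Z1 dp s s1 s2 F H sh x =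
        s x ^ 2 * (Hc s1 s2 x - H x) - s x * Ytot Z1 dp F s1 sh x := by
      rw [Ef]; field_simp
    have hsin3 : om * (s x ^ 2 * Real.sin (2 * H x)) ≤
        2 * om * s1 x * s2 x + 2 * om * (s x ^ 2 * (Hc s1 s2 x - H x)) := by
      have t5 : s x ^ 2 * Real.sin (2 * H x) ≤
          s x ^ 2 * Real.sin (2 * Hc s1 s2 x) + s x ^ 2 * (2 * (Hc s1 s2 x - H x)) := by
        have := mul_le_mul_of_nonneg_left hle (sq_nonneg (s x))
        linarith
      have t6 : s x ^ 2 * Real.sin (2 * Hc s1 s2 x) = 2 * s1 x * s2 x := hsin2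
      have t7 := mul_le_mul_of_nonneg_left t5 hom.le
      rw [t6] at t7
      linarith
    have hfin2 : (cpl x * s1 x + X x * s2 x + om * (s x ^ 2 * Real.sin (2 * H x))) -
        stuff om lam Z1 dp X er F s1 sh x * s x ≤
        2 * om * (s x ^ 2 * Ef Z1 dp s s1 s2 F H sh x) := by
      rw [hsE]
      linarith
    have := mul_le_mul_of_nonneg_right hfin2 h1
    linarith
  linarith

end facts

end Crest.Agent.R335.PL
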