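import Crest.Agent.R335.PLMainC

/-!
Row 335 (S0521), C.6: truncation step with cutoffs and Hardy (helper297).
-/

set_option autoImplicit false

open MeasureTheory Filter Set Crest.MathPhysics.ThreeBody
open scoped ENNReal Topology ContDiff

noncomputable section
namespace Crest.Agent.R335.PL
open Crest.Agent.R335

/-- integrals over a compact set of a weight times the square of an `L²_loc` field -/
theorem int_ind_sq {U : Set Pos3} {K : Set Pos3} (hK : IsCompact K) (hKU : K ⊆ U)
    {a : Pos3 → ℝ} {G : Pos3 → Pos3} (ha : AEStronglyMeasurable a (volume.restrict U))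
    (hb : LocB U a) (hG : L2locV U G) : Integrable (K.indicator fun x => a x * ‖G x‖ ^ 2) := by
  obtain ⟨C, hC⟩ := hb K hK hKU
  rw [integrable_indicator_iff hK.measurableSet]
  have h1 : Integrable (fun x => ‖G x‖ ^ 2) (volume.restrict K) :=
    (hG K hK hKU).integrable_norm_pow (by norm_num)
  refine h1.bdd_mul (c := C) (ha.mono_measure (Measure.restrict_mono hKU le_rfl)) ?_
  rw [ae_restrict_iff' hK.measurableSet]
  exact hC

theorem int_ind_bdd {U : Set Pos3} {K : Set Pos3} (hK : IsCompact K) (hKU : K ⊆ U)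
    {a : Pos3 → ℝ} (ha : AEStronglyMeasurable a (volume.restrict U))
    (hb : LocB U a) : Integrable (K.indicator a) := by
  obtain ⟨C, hC⟩ := hb K hK hKU
  rw [integrable_indicator_iff hK.measurableSet]
  have hfin : IsFiniteMeasure (volume.restrict K : Measure Pos3) :=
    ⟨by rw [Measure.restrict_apply_univ]; exact hK.measure_lt_top⟩
  refine Integrable.of_bound (ha.mono_measure (Measure.restrict_mono hKU le_rfl)) C ?_
  rw [ae_restrict_iff' hK.measurableSet]
  exact hC

variable {om q0 lam R1 Z1 dp ch : ℝ} {P wc X sig er cpl s s1 s2 F H sh w : Pos3 → ℝ}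
  {ds ds1 ds2 dF dH dsh gw : Pos3 → Pos3}

section facts
variable (h : Core om q0 lam R1 Z1 P wc X sig er cpl s s1 s2 F H sh ds ds1 ds2 dF dH dsh)
include h

/-- truncation step -/
theorem Core.step (hG : Gauge lam R1 Z1 P X er s1 F ds1 dF) (hRQ : RQ om R1 Z1 dp er cpl s2 sh)
    (hdp0 : 0 ≤ dp) (hdp : ∀ᵐ x, x ∈ Dom R1 Z1 → 2 * eps lam x * F x ≤ dp * sh x)
    (hardy : ∀ χ g, BT χ g → (∀ᵐ x, ‖x‖ ≤ R1 → χ x = 0) →
      ch * (∫ x, s x ^ 2 * χ x ^ 2) ≤ ∫ x, s x ^ 2 * ‖g x‖ ^ 2)
    {k : Pos3 → ℝ} {dk : Pos3 → Pos3} (hk : LH (Dom R1 Z1) k dk)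
    (hk0 : ∀ᵐ x, x ∈ Dom R1 Z1 → 0 ≤ k x) {χ : Pos3 → ℝ} (hχ : ContDiff ℝ ∞ χ)
    (hχ0 : ∀ x, 0 ≤ χ x) (hχ1 : ∀ x, χ x ≤ 1)
    {K : Set Pos3} (hK : IsCompact K) (hKU : K ⊆ Dom R1 Z1)
    (hKE : ∀ᵐ x, x ∈ Dom R1 Z1 → x ∉ K → χ x = 0 ∨ Ef Z1 dp s s1 s2 F H sh x ≤ k x)
    {t : ℝ} (ht : 0 < t) (ht1 : t < 1) :
    ((1 - t) * ch - 2 * om * (1 + t)) *
        (∫ x, K.indicator (fun x => s x ^ 2 * (χ x * max (Ef Z1 dp s s1 s2 F H sh x - k x) 0) ^ 2) x)
      ≤ ∫ x, K.indicator (fun x => s x ^ 2 * (3 / 2 *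
          max (Ef Z1 dp s s1 s2 F H sh x - k x) 0 ^ 2 * ‖gr χ x‖ ^ 2 +
          (1 / (4 * t) + 1 / 2) * (χ x ^ 2 * ‖dk x‖ ^ 2) +
          2 * om / (4 * t) * (χ x ^ 2 * k x ^ 2))) x := by
  classical
  have hU := isOpen_Dom R1 Z1
  set E := Ef Z1 dp s s1 s2 F H sh with hEdef
  set dE := dEf Z1 dp s s1 s2 F sh ds ds1 ds2 dF dH dsh with hdEdef
  have LE : LH (Dom R1 Z1) E dE := h.LE (dp := dp) hG
  have Lv := LH.pos hU (LH.sub hU LE hk)
  set v : Pos3 → ℝ := fun x => max (E x - k x) 0 with hv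
  set dv : Pos3 → Pos3 := fun x => if 0 < E x - k x then dE x - dk x else 0 with hdv
  have Lχ : LH (Dom R1 Z1) χ (gr χ) := LH.of_smooth hU hχ
  have L1 := LH.mul hU Lχ Lv
  have L2 := LH.mul hU Lχ L1
  have hv0 : ∀ x, 0 ≤ v x := fun x => le_max_right _ _
  have z1 : ∀ᵐ x, x ∈ Dom R1 Z1 → x ∉ K → χ x * v x = 0 := by
    filter_upwards [hKE] with x hx hxD hxK
    rcases hx hxD hxK with h1 | h1
    · rw [h1, zero_mul]
    · have : v x = 0 := max_eq_right (by linarith)
      rw [this, mul_zero]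
  have z2 : ∀ᵐ x, x ∈ Dom R1 Z1 → x ∉ K → χ x * (χ x * v x) = 0 := by
    filter_upwards [z1] with x hx hxD hxK
    rw [hx hxD hxK, mul_zero]
  have B1 := BTin.of_LH hU L1 hK hKU z1
  have B2 := BTin.of_LH hU L2 hK hKU z2
  set a : Pos3 → Pos3 := fun x => χ x • dv x + v x • gr χ x with ha
  -- combined inequality
  have n2 : ∀ᵐ x, 0 ≤ K.indicator (fun x => χ x * (χ x * v x)) x := by
    refine Eventually.of_forall fun x => indicator_nonneg (fun y _ => ?_) x
    exact mul_nonneg (hχ0 y) (mul_nonneg (hχ0 y) (hv0 y))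
  have d2 : ∀ᵐ x, x ∈ Dom R1 Z1 → K.indicator (fun x => χ x * (χ x * v x)) x ≠ 0 →
      H x ≤ Hc s1 s2 x := by
    filter_upwards [hk0, h.Y_nn (dp := dp) hdp] with x h1 h2 hx hne
    have hxK : x ∈ K := by
      by_contra hcon
      exact hne (indicator_of_notMem hcon _)
    rw [indicator_of_mem hxK] at hne
    have hvne : v x ≠ 0 := fun h3 => hne (by rw [h3]; ring)
    have h4 : 0 < E x - k x := by
      by_contra hcon
      exact hvne (max_eq_right (by linarith))
    have h5 := h1 hx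
    have h6 := h2 hx
    have h7 : 0 ≤ Ytot Z1 dp F s1 sh x / s x := div_nonneg h6 (h.s_pos x).le
    have h8 : E x = Hc s1 s2 x - H x - Ytot Z1 dp F s1 sh x / s x := rfl
    linarith
  have c1 := h.comb hG hRQ hdp0 hdp B2 n2 d2
  -- Hardy
  have BT1 : BT (K.indicator fun x => χ x * v x)
      (K.indicator fun x => χ x • dv x + v x • gr χ x) := by
    refine ⟨B1.h1, B1.bdd, ?_⟩
    obtain ⟨R, hR⟩ := hK.isBounded.subset_ball (0 : Pos3)
    refine ⟨R, Eventually.of_forall fun x hx => indicator_of_notMem (fun hxK => ?_) _⟩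
    have := hR hxK
    rw [mem_ball_zero_iff] at this
    linarith
  have c2 := hardy _ _ BT1 (Eventually.of_forall fun x hx =>
    indicator_of_notMem (fun hxK => not_lt.2 hx (hKU hxK).1) _)
  -- integrability
  have hss : LocB (Dom R1 Z1) (fun x => s x ^ 2) := by
    refine LocB.of_le (LocB.mul h.s_lb h.s_lb) (Eventually.of_forall fun x _ => ?_)
    rw [pow_two]
  have hsm : AEStronglyMeasurable (fun x => s x ^ 2) (volume.restrict (Dom R1 Z1)) :=
    (h.s_cont.pow 2).aestronglyMeasurable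
  have hχm : AEStronglyMeasurable χ (volume.restrict (Dom R1 Z1)) :=
    hχ.continuous.aestronglyMeasurable
  have La : L2locV (Dom R1 Z1) a := L1.l2
  have i1 : Integrable (K.indicator fun x => s x ^ 2 * ‖a x‖ ^ 2) := int_ind_sq hK hKU hsm hss La
  have i2 : Integrable (K.indicator fun x => s x ^ 2 * v x ^ 2 * ‖gr χ x‖ ^ 2) := by
    refine int_ind_sq hK hKU (hsm.mul (Lv.aesm.pow 2)) (LocB.mul hss ?_) Lχ.l2
    refine LocB.of_le (LocB.mul Lv.b Lv.b) (Eventually.of_forall fun x _ => ?_)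
    rw [pow_two]
  have i3 : Integrable (K.indicator fun x => s x ^ 2 * χ x ^ 2 * ‖dk x‖ ^ 2) := by
    refine int_ind_sq hK hKU (hsm.mul (hχm.pow 2)) (LocB.mul hss ?_) hk.l2
    refine LocB.of_le (LocB.mul Lχ.b Lχ.b) (Eventually.of_forall fun x _ => ?_)
    rw [pow_two]
  have i4 : Integrable (K.indicator fun x => s x ^ 2 * (χ x * v x) ^ 2) := by
    refine int_ind_bdd hK hKU (hsm.mul (L1.aesm.pow 2)) (LocB.mul hss ?_)
    refine LocB.of_le (LocB.mul L1.b L1.b) (Eventually.of_forall fun x _ => ?_)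
    rw [pow_two]
  have i5 : Integrable (K.indicator fun x => s x ^ 2 * (χ x * k x) ^ 2) := by
    refine int_ind_bdd hK hKU (hsm.mul ((hχm.mul hk.aesm).pow 2)) (LocB.mul hss ?_)
    refine LocB.of_le (LocB.mul (LocB.mul Lχ.b hk.b) (LocB.mul Lχ.b hk.b))
      (Eventually.of_forall fun x _ => ?_)
    rw [pow_two]
  have i6 : Integrable (fun x => s x ^ 2 * inner ℝ (dE x)
      (K.indicator (fun x => χ x • (χ x • dv x + v x • gr χ x) + (χ x * v x) • gr χ x) x)) := by
    refine (B2.int_inner (L2locV.smul LE.l2 hsm hss)).congr (Eventually.of_forall fun x => ?_)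
    simp only [real_inner_smul_left]
  have i7 : Integrable (fun x => s x ^ 2 * E x *
      K.indicator (fun x => χ x * (χ x * v x)) x) :=
    B2.int_mul (locInt_mul_bdd hU hsm hss LE.aesm LE.b)
  -- pointwise inequality
  set A := ∫ x, K.indicator (fun x => s x ^ 2 * ‖a x‖ ^ 2) x with hA
  set V := ∫ x, K.indicator (fun x => s x ^ 2 * (χ x * v x) ^ 2) x with hV
  have p1 : (1 - t) * A - ∫ x, K.indicator (fun x => s x ^ 2 * (3 / 2 * v x ^ 2 * ‖gr χ x‖ ^ 2 +
      (1 / (4 * t) + 1 / 2) * (χ x ^ 2 * ‖dk x‖ ^ 2))) x ≤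
      ∫ x, s x ^ 2 * inner ℝ (dE x)
      (K.indicator (fun x => χ x • (χ x • dv x + v x • gr χ x) + (χ x * v x) • gr χ x) x) := by
    have i8 : Integrable (K.indicator fun x => s x ^ 2 * (3 / 2 * v x ^ 2 * ‖gr χ x‖ ^ 2 +
      (1 / (4 * t) + 1 / 2) * (χ x ^ 2 * ‖dk x‖ ^ 2))) := by
      refine ((i2.const_mul (3 / 2)).add (i3.const_mul (1 / (4 * t) + 1 / 2))).congr
        (Eventually.of_forall fun x => ?_)
      by_cases hx : x ∈ K
      · simp only [Pi.add_apply, indicator_of_mem hx]; ring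
      · simp only [Pi.add_apply, indicator_of_notMem hx]; ring
    rw [hA, ← integral_const_mul, ← integral_sub (i1.const_mul (1 - t)) i8]
    refine integral_mono ((i1.const_mul (1 - t)).sub i8) i6 fun x => ?_
    simp only [Pi.sub_apply]
    by_cases hx : x ∈ K
    · simp only [indicator_of_mem hx]
      by_cases hp : 0 < E x - k x
      · have hvx : v x = E x - k x := max_eq_left hp.le
        have hdvx : dv x = dE x - dk x := if_pos hp
        have hdE : dE x = dv x + dk x := by rw [hdvx]; abel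
        have hax : a x = χ x • dv x + v x • gr χ x := rfl
        have e3 : inner ℝ (dE x) (χ x • (χ x • dv x + v x • gr χ x) + (χ x * v x) • gr χ x) =
            ‖a x‖ ^ 2 - v x ^ 2 * ‖gr χ x‖ ^ 2 + inner ℝ (χ x • dk x) (a x) +
              χ x * v x * inner ℝ (dk x) (gr χ x) := by
          rw [hdE, hax, norm_add_sq_real, norm_smul, norm_smul, mul_pow, mul_pow,
            Real.norm_eq_abs, Real.norm_eq_abs, sq_abs, sq_abs]
          simp only [inner_add_left, inner_add_right, real_inner_smul_left, real_inner_smul_right,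
            real_inner_self_eq_norm_sq]
          ring
        have e4 : - (t * ‖a x‖ ^ 2 + 1 / (4 * t) * (χ x ^ 2 * ‖dk x‖ ^ 2)) ≤
            inner ℝ (χ x • dk x) (a x) := by
          have h1 := abs_real_inner_le_norm (χ x • dk x) (a x)
          rw [norm_smul, Real.norm_eq_abs, abs_of_nonneg (hχ0 x)] at h1
          have h2 := (abs_le.1 h1).1
          have h3 : χ x * ‖dk x‖ * ‖a x‖ ≤ t * ‖a x‖ ^ 2 + 1 / (4 * t) * (χ x ^ 2 * ‖dk x‖ ^ 2) := by
            have h5 : 0 ≤ (2 * t * ‖a x‖ - χ x * ‖dk x‖) ^ 2 / (4 * t) := by positivity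
            have h6 : (2 * t * ‖a x‖ - χ x * ‖dk x‖) ^ 2 / (4 * t) =
                t * ‖a x‖ ^ 2 + 1 / (4 * t) * (χ x ^ 2 * ‖dk x‖ ^ 2) - χ x * ‖dk x‖ * ‖a x‖ := by
              field_simp; ring
            linarith
          linarith
        have e5 : - (1 / 2 * (χ x ^ 2 * ‖dk x‖ ^ 2) + 1 / 2 * (v x ^ 2 * ‖gr χ x‖ ^ 2)) ≤
            χ x * v x * inner ℝ (dk x) (gr χ x) := by
          have h1 := (abs_le.1 (abs_real_inner_le_norm (dk x) (gr χ x))).1
          have h2 : 0 ≤ χ x * v x := mul_nonneg (hχ0 x) (hv0 x)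
          have h3 := mul_le_mul_of_nonneg_left h1 h2
          nlinarith [sq_nonneg (χ x * ‖dk x‖ - v x * ‖gr χ x‖)]
        rw [e3]
        have h7 : (1 - t) * ‖a x‖ ^ 2 - (3 / 2 * v x ^ 2 * ‖gr χ x‖ ^ 2 +
            (1 / (4 * t) + 1 / 2) * (χ x ^ 2 * ‖dk x‖ ^ 2)) ≤
            ‖a x‖ ^ 2 - v x ^ 2 * ‖gr χ x‖ ^ 2 + inner ℝ (χ x • dk x) (a x) +
              χ x * v x * inner ℝ (dk x) (gr χ x) := by linarith
        have h8 := mul_le_mul_of_nonneg_left h7 (sq_nonneg (s x))
        linarith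
      · have hvx : v x = 0 := max_eq_right (not_lt.1 hp)
        have hdvx : dv x = 0 := if_neg hp
        have hax : a x = 0 := by
          change χ x • dv x + v x • gr χ x = 0
          rw [hvx, hdvx]; simp
        rw [hax, hvx, hdvx]
        simp only [smul_zero, zero_smul, mul_zero, add_zero, inner_zero_right, norm_zero]
        have : 0 ≤ s x ^ 2 * ((1 / (4 * t) + 1 / 2) * (χ x ^ 2 * ‖dk x‖ ^ 2)) := by positivity
        ring_nf
        ring_nf at this
        nlinarith
    · simp only [indicator_of_notMem hx, inner_zero_right]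
      simp
  have p2 : 2 * om * (∫ x, s x ^ 2 * E x * K.indicator (fun x => χ x * (χ x * v x)) x) ≤
      2 * om * (1 + t) * V + ∫ x, K.indicator (fun x => s x ^ 2 * (2 * om / (4 * t) *
        (χ x ^ 2 * k x ^ 2))) x := by
    have i9 : Integrable (K.indicator fun x => s x ^ 2 * (2 * om / (4 * t) *
        (χ x ^ 2 * k x ^ 2))) := by
      refine (i5.const_mul (2 * om / (4 * t))).congr (Eventually.of_forall fun x => ?_)
      by_cases hx : x ∈ K
      · simp only [indicator_of_mem hx]; ring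
      · simp only [indicator_of_notMem hx]; ring
    rw [hV, ← integral_const_mul, ← integral_const_mul,
      ← integral_add (i4.const_mul (2 * om * (1 + t))) i9]
    refine integral_mono (i7.const_mul _) ((i4.const_mul _).add i9) fun x => ?_
    simp only [Pi.add_apply]
    by_cases hx : x ∈ K
    · simp only [indicator_of_mem hx]
      have hom := h.om_pos
      by_cases hp : 0 < E x - k x
      · have hvx : v x = E x - k x := max_eq_left hp.le
        have hE : E x = v x + k x := by rw [hvx]; ring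
        rw [hE]
        have h3 : χ x * k x * (χ x * v x) ≤ t * (χ x * v x) ^ 2 + 1 / (4 * t) * (χ x * k x) ^ 2 := by
          have h5 : 0 ≤ (2 * t * (χ x * v x) - χ x * k x) ^ 2 / (4 * t) := by positivity
          have h6 : (2 * t * (χ x * v x) - χ x * k x) ^ 2 / (4 * t) =
              t * (χ x * v x) ^ 2 + 1 / (4 * t) * (χ x * k x) ^ 2 -
                χ x * k x * (χ x * v x) := by
            field_simp; ring
          linarith
        have h4 : 0 ≤ 2 * om * s x ^ 2 := by positivity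
        have h5 := mul_le_mul_of_nonneg_left h3 h4
        have h6 : 2 * om * (s x ^ 2 * (v x + k x) * (χ x * (χ x * v x))) =
            2 * om * (s x ^ 2 * (χ x * v x) ^ 2) + 2 * om * s x ^ 2 * (χ x * k x * (χ x * v x)) := by
          ring
        rw [h6]
        have h7 : 2 * om * (1 + t) * (s x ^ 2 * (χ x * v x) ^ 2) + s x ^ 2 * (2 * om / (4 * t) *
            (χ x ^ 2 * k x ^ 2)) = 2 * om * (s x ^ 2 * (χ x * v x) ^ 2) + 2 * om * s x ^ 2 *
            (t * (χ x * v x) ^ 2 + 1 / (4 * t) * (χ x * k x) ^ 2) := by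
          field_simp
          ring
        rw [h7]
        linarith
      · have hvx : v x = 0 := max_eq_right (not_lt.1 hp)
        rw [hvx]
        have : 0 ≤ s x ^ 2 * (2 * om / (4 * t) * (χ x ^ 2 * k x ^ 2)) := by positivity
        simp only [mul_zero]
        linarith [this]
    · simp only [indicator_of_notMem hx]
      simp
  -- assemble
  have c2' : ch * V ≤ A := by
    have e6 : ∫ x, s x ^ 2 * (K.indicator (fun x => χ x * v x) x) ^ 2 = V := by
      rw [hV]
      refine integral_congr_ae (Eventually.of_forall fun x => ?_)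
      by_cases hx : x ∈ K
      · simp only [indicator_of_mem hx]
      · simp only [indicator_of_notMem hx]; ring
    have e7 : ∫ x, s x ^ 2 * ‖K.indicator (fun x => χ x • dv x + v x • gr χ x) x‖ ^ 2 = A := by
      rw [hA]
      refine integral_congr_ae (Eventually.of_forall fun x => ?_)
      by_cases hx : x ∈ K
      · simp only [indicator_of_mem hx]; rfl
      · simp only [indicator_of_notMem hx, norm_zero]; ring
    rw [e6, e7] at c2
    exact c2
  have c1' : ∫ x, s x ^ 2 * inner ℝ (dE x)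
      (K.indicator (fun x => χ x • (χ x • dv x + v x • gr χ x) + (χ x * v x) • gr χ x) x) ≤
      2 * om * ∫ x, s x ^ 2 * E x * K.indicator (fun x => χ x * (χ x * v x)) x := c1
  have e8 : (∫ x, K.indicator (fun x => s x ^ 2 * (3 / 2 * v x ^ 2 * ‖gr χ x‖ ^ 2 +
          (1 / (4 * t) + 1 / 2) * (χ x ^ 2 * ‖dk x‖ ^ 2) +
          2 * om / (4 * t) * (χ x ^ 2 * k x ^ 2))) x) =
      (∫ x, K.indicator (fun x => s x ^ 2 * (3 / 2 * v x ^ 2 * ‖gr χ x‖ ^ 2 +
      (1 / (4 * t) + 1 / 2) * (χ x ^ 2 * ‖dk x‖ ^ 2))) x) +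
      ∫ x, K.indicator (fun x => s x ^ 2 * (2 * om / (4 * t) * (χ x ^ 2 * k x ^ 2))) x := by
    have i8 : Integrable (K.indicator fun x => s x ^ 2 * (3 / 2 * v x ^ 2 * ‖gr χ x‖ ^ 2 +
      (1 / (4 * t) + 1 / 2) * (χ x ^ 2 * ‖dk x‖ ^ 2))) := by
      refine ((i2.const_mul (3 / 2)).add (i3.const_mul (1 / (4 * t) + 1 / 2))).congr
        (Eventually.of_forall fun x => ?_)
      by_cases hx : x ∈ K
      · simp only [Pi.add_apply, indicator_of_mem hx]; ring
      · simp only [Pi.add_apply, indicator_of_notMem hx]; ring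
    have i9 : Integrable (K.indicator fun x => s x ^ 2 * (2 * om / (4 * t) *
        (χ x ^ 2 * k x ^ 2))) := by
      refine (i5.const_mul (2 * om / (4 * t))).congr (Eventually.of_forall fun x => ?_)
      by_cases hx : x ∈ K
      · simp only [indicator_of_mem hx]; ring
      · simp only [indicator_of_notMem hx]; ring
    rw [← integral_add i8 i9]
    refine integral_congr_ae (Eventually.of_forall fun x => ?_)
    by_cases hx : x ∈ K
    · simp only [indicator_of_mem hx]; ring
    · simp only [indicator_of_notMem hx]; ring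
  change _ * V ≤ _
  rw [e8]
  have h9 : (1 - t) * (ch * V) ≤ (1 - t) * A := mul_le_mul_of_nonneg_left c2' (by linarith)
  nlinarith

end facts

end Crest.Agent.R335.PL
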