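import Crest.Agent.R335.PLMainD
import Crest.Agent.R335.HHalf
import Crest.Agent.R335.HZero

/-!
Row 335 (S0521), C.6: conclusion `E = H_c - H - Y/s ≤ 0` (helper297).
-/

set_option autoImplicit false

open MeasureTheory Filter Set Crest.MathPhysics.ThreeBody
open scoped ENNReal Topology ContDiff

noncomputable section
namespace Crest.Agent.R335.PL
open Crest.Agent.R335

theorem rz_eq_rfl' (x : Pos3) : rz x = rfl' 2 x := by
  ext i
  rw [rz_apply, rfl'_apply]

/-- an exhausting sequence for the zero trace: `p n → 0` in `H¹`, `0 ≤ p n ≤ w₊`, and `p n = w`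
outside of a compact subset of `{0 < z}` -/
theorem exists_trace_seq {w : Pos3 → ℝ} {gw : Pos3 → Pos3} (hw : H1 w gw)
    (hodd : ∀ x, w (rz x) = - w x) (hnn : ∀ x : Pos3, 0 < x 2 → 0 ≤ w x) :
    ∃ (p : ℕ → Pos3 → ℝ) (dp : ℕ → Pos3 → Pos3) (T : ℕ → Set Pos3),
      (∀ n, H1 (p n) (dp n)) ∧ (∀ n x, 0 ≤ p n x) ∧
      (∀ n x, p n x ≤ if 0 < x 2 then w x else 0) ∧
      (∀ n, IsCompact (T n)) ∧ (∀ n, T n ⊆ {x | 0 < x 2}) ∧
      (∀ n x, 0 < x 2 → x ∉ T n → p n x = w x) ∧
      Tendsto (fun n => ∫ x, ‖dp n x‖ ^ 2) atTop (𝓝 0) ∧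
      Tendsto (fun n => ∫ x, p n x ^ 2) atTop (𝓝 0) ∧
      ∀ᵐ x, Tendsto (fun n => p n x) atTop (𝓝 0) := by
  set W : Pos3 → ℝ := fun x => if 0 < x 2 then w x else 0 with hW
  set G : Pos3 → Pos3 := fun x => if 0 < x 2 then gw x else 0 with hG
  have h10 : H10 {x : Pos3 | 0 < x 2} W G :=
    H10.half_of_odd (2 : Fin 3) hw (Eventually.of_forall fun x => by
      rw [← rz_eq_rfl']; exact hodd x)
  have hW0 : ∀ x, 0 ≤ W x := by
    intro x
    by_cases hx : 0 < x 2
    · simp only [hW, if_pos hx]; exact hnn x hx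
    · simp only [hW, if_neg hx]; exact le_rfl
  have hUo : IsOpen {x : Pos3 | 0 < x 2} := by
    have h2 : Continuous fun x : Pos3 => x 2 := by fun_prop
    exact isOpen_lt continuous_const h2
  obtain ⟨φ, hT, hφ0, h1, h2⟩ := H10.approx_nonneg hUo h10 (Eventually.of_forall hW0)
  have hφ2 : ∀ n, MemLp (φ n) 2 volume := fun n => (H1.of_test (hT n)).memf
  obtain ⟨ns, hns, hae⟩ := (tendstoInMeasure_of_tendsto_eLpNorm (by norm_num)
    (fun n => (hφ2 n).aestronglyMeasurable) h10.h1.memf.aestronglyMeasurable h1).exists_seq_tendsto_ae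
  have hH : ∀ n, H1 (fun x => W x - φ (ns n) x) (fun x => G x - gr (φ (ns n)) x) := fun n =>
    H1.sub h10.h1 (H1.of_test (hT _))
  refine ⟨fun n x => max (W x - φ (ns n) x) 0,
    fun n x => if 0 < W x - φ (ns n) x then G x - gr (φ (ns n)) x else 0,
    fun n => tsupport (φ (ns n)), fun n => H1.pos (hH n), fun n x => le_max_right _ _, ?_,
    fun n => (hT _).cpt, fun n => (hT _).sub, ?_, ?_, ?_, ?_⟩
  · intro n x
    refine max_le ?_ (hW0 x)
    have := hφ0 (ns n) x
    change W x - φ (ns n) x ≤ W x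
    linarith
  · intro n x hx hxT
    have h3 : φ (ns n) x = 0 := image_eq_zero_of_notMem_tsupport hxT
    simp only
    rw [h3, sub_zero, max_eq_left (hW0 x)]
    simp only [hW, if_pos hx]
  · -- gradients
    have h3 : Tendsto (fun n => ∫ x, ‖G x - gr (φ (ns n)) x‖ ^ 2) atTop (𝓝 0) := by
      have h4 : Tendsto (fun n => (eLpNorm (fun x => gr (φ (ns n)) x - G x) 2 volume).toReal ^ 2)
          atTop (𝓝 0) := by
        have h5 := (ENNReal.tendsto_toReal ENNReal.zero_ne_top).comp (h2.comp hns.tendsto_atTop)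
        have h6 := h5.pow 2
        simpa using h6
      refine h4.congr fun n => ?_
      have hm : MemLp (fun x => gr (φ (ns n)) x - G x) 2 volume :=
        (H1.of_test (hT (ns n))).memg.sub h10.h1.memg
      rw [← g2_integral_norm_sq_eq hm]
      refine integral_congr_ae (Eventually.of_forall fun x => ?_)
      simp only
      rw [norm_sub_rev]
    refine squeeze_zero (fun n => integral_nonneg fun x => sq_nonneg _) (fun n => ?_) h3
    refine integral_mono_of_nonneg (Eventually.of_forall fun x => sq_nonneg _)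
      ((h10.h1.memg.sub (H1.of_test (hT (ns n))).memg).integrable_norm_pow (by norm_num))
      (Eventually.of_forall fun x => ?_)
    simp only
    by_cases hx : 0 < W x - φ (ns n) x
    · rw [if_pos hx]
    · rw [if_neg hx, norm_zero]
      simpa using sq_nonneg ‖G x - gr (φ (ns n)) x‖
  · have h3 : Tendsto (fun n => ∫ x, ‖W x - φ (ns n) x‖ ^ 2) atTop (𝓝 0) := by
      have h4 : Tendsto (fun n => (eLpNorm (fun x => φ (ns n) x - W x) 2 volume).toReal ^ 2)
          atTop (𝓝 0) := by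
        have h5 := (ENNReal.tendsto_toReal ENNReal.zero_ne_top).comp (h1.comp hns.tendsto_atTop)
        have h6 := h5.pow 2
        simpa using h6
      refine h4.congr fun n => ?_
      have hm : MemLp (fun x => φ (ns n) x - W x) 2 volume := (hφ2 _).sub h10.h1.memf
      rw [← g2_integral_norm_sq_eq hm]
      refine integral_congr_ae (Eventually.of_forall fun x => ?_)
      simp only
      rw [norm_sub_rev]
    refine squeeze_zero (fun n => integral_nonneg fun x => sq_nonneg _) (fun n => ?_) h3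
    refine integral_mono_of_nonneg (Eventually.of_forall fun x => sq_nonneg _)
      ((h10.h1.memf.sub (hφ2 (ns n))).integrable_norm_pow (by norm_num))
      (Eventually.of_forall fun x => ?_)
    simp only [Real.norm_eq_abs, sq_abs]
    rcases le_total (W x - φ (ns n) x) 0 with hx | hx
    · rw [max_eq_right hx]
      simpa using sq_nonneg (W x - φ (ns n) x)
    · rw [max_eq_left hx]
  · filter_upwards [hae] with x hx
    have h3 : Tendsto (fun n => max (W x - φ (ns n) x) 0) atTop (𝓝 (max (W x - W x) 0)) :=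
      (tendsto_const_nhds.sub hx).max tendsto_const_nhds
    simpa using h3

variable {om q0 lam R1 Z1 dp ch : ℝ} {P wc X sig er cpl s s1 s2 F H sh w : Pos3 → ℝ}
  {ds ds1 ds2 dF dH dsh gw : Pos3 → Pos3}

section facts
variable (h : Core om q0 lam R1 Z1 P wc X sig er cpl s s1 s2 F H sh ds ds1 ds2 dF dH dsh)
include h

theorem Core.Hc_nn : ∀ x, 0 ≤ Hc s1 s2 x := fun x =>
  Real.arctan_nonneg.2 (div_nonneg (h.s2_nn x) (h.s1_nn x))

theorem Core.Hc_le (x : Pos3) : Hc s1 s2 x ≤ Real.pi / 2 := (Real.arctan_lt_pi_div_two _).le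

/-- `s H_c ≤ 2 s2` -/
theorem Core.sHc : ∀ᵐ x, x ∈ Dom R1 Z1 → s x * Hc s1 s2 x ≤ 2 * s2 x := by
  filter_upwards [h.s1_pos] with x h1 hx
  have h1x := h1 hx
  have hs := h.s_pos x
  have h2 := Real.mul_le_sin (h.Hc_nn x) (h.Hc_le x)
  have h3 : Real.sin (Hc s1 s2 x) = s2 x / s x := by
    rw [Hc, Real.sin_arctan]
    have h4 : 1 + (s2 x / s1 x) ^ 2 = (s x / s1 x) ^ 2 := by
      have := h.sq x
      field_simp
      linarith
    rw [h4, Real.sqrt_sq (by positivity)]
    field_simp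
  rw [h3] at h2
  have h5 : 2 / Real.pi * (s x * Hc s1 s2 x) ≤ s2 x := by
    have := mul_le_mul_of_nonneg_left h2 hs.le
    have h6 : s x * (s2 x / s x) = s2 x := by field_simp
    rw [h6] at this
    linarith
  have hpi : Real.pi ≤ 4 := Real.pi_le_four
  have hpi0 := Real.pi_pos
  have h7 : s x * Hc s1 s2 x ≤ Real.pi / 2 * s2 x := by
    have := mul_le_mul_of_nonneg_left h5 (by positivity : 0 ≤ Real.pi / 2)
    have h8 : Real.pi / 2 * (2 / Real.pi * (s x * Hc s1 s2 x)) = s x * Hc s1 s2 x := by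
      field_simp
    rw [h8] at this
    exact this
  nlinarith [h.s2_nn x]

theorem Core.E_le_of (hdp4 : ∀ᵐ x, x ∈ Dom R1 Z1 → 4 * eps lam x * F x ≤ dp * sh x) :
    ∀ᵐ x, x ∈ Dom R1 Z1 → dp / 2 * sh x + 4 * sh x * prof Z1 (x 2) ≤ Ytot Z1 dp F s1 sh x := by
  filter_upwards [hdp4, h.m_ge, h.s1_pos, h.F_pos'] with x h1 h2 h3 h5 hx
  have h7 : 1 - eps lam x ≤ F x / s1 x := by
    rw [le_div_iff₀ (h3 hx)]; exact h2 hx
  rw [Ytot, XM]
  have h8 : -(2 * eps lam x * F x) ≤ 2 * F x * (F x / s1 x - 1) := by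
    nlinarith [h5 hx]
  linarith [h1 hx]

/-- `E ≤ 0` a.e. in the slab region -/
theorem Core.concl (hB : Bdry om R1 Z1 dp ch s s1 s2 H sh w gw)
    (hG : Gauge lam R1 Z1 P X er s1 F ds1 dF) (hRQ : RQ om R1 Z1 dp er cpl s2 sh)
    (hdp4 : ∀ᵐ x, x ∈ Dom R1 Z1 → 4 * eps lam x * F x ≤ dp * sh x) :
    ∀ᵐ x, x ∈ Dom R1 Z1 → Ef Z1 dp s s1 s2 F H sh x ≤ 0 := by
  classical
  have hU := isOpen_Dom R1 Z1
  have hdp0 := hB.dp_nn
  have hdp : ∀ᵐ x, x ∈ Dom R1 Z1 → 2 * eps lam x * F x ≤ dp * sh x := by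
    filter_upwards [hdp4, h.F_pos'] with x h1 h2 hx
    have := (h.eps_le x hx).1
    have h3 := h2 hx
    have h4 := h1 hx
    have : 0 ≤ eps lam x * F x := by positivity
    linarith
  have hYge := h.E_le_of hdp4
  have hYnn := h.Y_nn hdp
  set E := Ef Z1 dp s s1 s2 F H sh with hEdef
  have LE : LH (Dom R1 Z1) E _ := h.LE (dp := dp) hG
  have hEx : ∀ x, E x = Hc s1 s2 x - H x - Ytot Z1 dp F s1 sh x / s x := fun x => rfl
  -- boundary facts
  have A1 : ∀ᵐ x, x ∈ Dom R1 Z1 → ‖x‖ ≤ R1 + 1 → E x ≤ 0 := by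
    filter_upwards [hB.shell, hYge, h.sh_nn] with x h1 h2 h3 hx hxR
    have hs := h.s_pos x
    have hp := (prof_mem hx.2.1 hx.2.2).1
    have h4 := mul_nonneg (mul_nonneg (by norm_num : (0:ℝ) ≤ 4) (h3 hx)) hp
    have h5 : s x * (Hc s1 s2 x - H x) ≤ Ytot Z1 dp F s1 sh x := by
      linarith [h1 hx hxR, h2 hx]
    have h6 : Hc s1 s2 x - H x ≤ Ytot Z1 dp F s1 sh x / s x := by
      rw [le_div_iff₀ hs]; linarith
    rw [hEx]; linarith
  have A2 : ∀ᵐ x, x ∈ Dom R1 Z1 → Z1 / 2 ≤ x 2 → E x ≤ 0 := by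
    filter_upwards [h.sHc, hYge, h.sh_nn, h.s2_le] with x h1 h2 h3 h7 hx hxZ
    have hs := h.s_pos x
    have hZ := h.Z1_pos
    have hp : 3 / 4 ≤ prof Z1 (x 2) := by
      have h8 : 1 / 2 ≤ x 2 / Z1 := by
        rw [le_div_iff₀ hZ]; linarith
      have h9 : x 2 / Z1 < 1 := (div_lt_one hZ).2 hx.2.2
      rw [prof]
      nlinarith
    have h4 : 3 * sh x ≤ Ytot Z1 dp F s1 sh x := by
      have h5 : 3 * sh x ≤ 4 * sh x * prof Z1 (x 2) := by nlinarith [h3 hx]
      have h6 : 0 ≤ dp / 2 * sh x := mul_nonneg (by linarith) (h3 hx)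
      linarith [h2 hx]
    have h5 : Hc s1 s2 x ≤ Ytot Z1 dp F s1 sh x / s x := by
      rw [le_div_iff₀ hs]
      have := h1 hx
      have := h7 hx
      have := h.s2_nn x
      linarith
    rw [hEx]; linarith [h.H_nn x hx]
  have A3 : ∀ᵐ x, x ∈ Dom R1 Z1 → E x ≤ Real.pi / 2 * (w x / s x) := by
    filter_upwards [hB.tr, hYnn] with x h1 h2 hx
    have hs := h.s_pos x
    have h3 : 0 ≤ Ytot Z1 dp F s1 sh x / s x := div_nonneg (h2 hx) hs.le
    have h4 : Real.pi / 2 - H x ≤ Real.pi / 2 * (w x / s x) := by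
      rw [← mul_div_assoc, le_div_iff₀ hs]
      exact h1 hx
    rw [hEx]; linarith [h.Hc_le x]
  have A4 : ∀ᵐ x, x ∈ Dom R1 Z1 → E x ≤ 2 := by
    filter_upwards [hYnn] with x h2 hx
    have hs := h.s_pos x
    have h3 : 0 ≤ Ytot Z1 dp F s1 sh x / s x := div_nonneg (h2 hx) hs.le
    rw [hEx]; linarith [h.Hc_le x, h.H_nn x hx, Real.pi_le_four]
  -- the sequence
  obtain ⟨p, dq, T, hpH, hp0, hpw, hTc, hTU, hpT, hdq, hpq, hpae⟩ :=
    exists_trace_seq hB.w_h1 hB.w_odd hB.w_nn
  have hps : ∀ n x, p n x ≤ s x := by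
    intro n x
    refine (hpw n x).trans ?_
    by_cases hx : 0 < x 2
    · rw [if_pos hx]; exact hB.w_le x
    · rw [if_neg hx]; exact (h.s_pos x).le
  -- constants
  set t : ℝ := (ch - 2 * om) / (2 * (ch + 2 * om)) with ht_def
  have hom := h.om_pos
  have hch : 0 < ch := by linarith [hB.ch_gt]
  have hsum : 0 < 2 * (ch + 2 * om) := by positivity
  have ht : 0 < t := div_pos (by linarith [hB.ch_gt]) hsum
  have ht1 : t < 1 := by
    rw [ht_def, div_lt_one hsum]; linarith
  set ct : ℝ := (1 - t) * ch - 2 * om * (1 + t) with hct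
  have hctpos : 0 < ct := by
    have h1 : t * (ch + 2 * om) = (ch - 2 * om) / 2 := by
      rw [ht_def]; field_simp
    have h2 : ct = (ch - 2 * om) - t * (ch + 2 * om) := by rw [hct]; ring
    rw [h2, h1]
    linarith [hB.ch_gt]
  obtain ⟨C, hC0, hcut⟩ := (exists_cutoff_ball (ι := Fin 3))
  set Mt : ℝ := 5 * (1 / (4 * t) + 1 / 2) + 3 * (2 * om / (4 * t)) with hMt
  have hMt0 : 0 ≤ Mt := by rw [hMt]; positivity
  -- `δ n → 0`
  have hds2 : Integrable (fun x => ‖ds x‖ ^ 2) := h.s_h1.memg.integrable_norm_pow (by norm_num)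
  have hs2i : Integrable (fun x => s x ^ 2) := by
    have := h.s_h1.memf.integrable_norm_pow (by norm_num : (2 : ℕ) ≠ 0)
    simpa using this
  have hpm : ∀ n, AEStronglyMeasurable (p n) volume := fun n => (hpH n).memf.1
  have hsm0 : AEStronglyMeasurable s volume := h.s_cont.aestronglyMeasurable
  have hratio : ∀ n, Integrable (fun x => (p n x / s x) ^ 2 * ‖ds x‖ ^ 2) := by
    intro n
    refine hds2.bdd_mul (c := 1) (((hpm n).div₀ hsm0).pow 2) (Eventually.of_forall fun x => ?_)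
    have h1 : 0 ≤ p n x / s x := div_nonneg (hp0 n x) (h.s_pos x).le
    have h2 : p n x / s x ≤ 1 := (div_le_one (h.s_pos x)).2 (hps n x)
    rw [Real.norm_eq_abs, abs_of_nonneg (sq_nonneg _)]
    nlinarith
  have hpn2 : ∀ n, Integrable (fun x => p n x ^ 2) := fun n => by
    have := (hpH n).memf.integrable_norm_pow (by norm_num : (2 : ℕ) ≠ 0)
    simpa using this
  have hdqn2 : ∀ n, Integrable (fun x => ‖dq n x‖ ^ 2) := fun n =>
    (hpH n).memg.integrable_norm_pow (by norm_num)
  set δ : ℕ → ℝ := fun n => (∫ x, ‖dq n x‖ ^ 2) + (∫ x, (p n x / s x) ^ 2 * ‖ds x‖ ^ 2) +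
    ∫ x, p n x ^ 2 with hδ
  have hδ0 : Tendsto δ atTop (𝓝 0) := by
    have h1 : Tendsto (fun n => ∫ x, (p n x / s x) ^ 2 * ‖ds x‖ ^ 2) atTop
        (𝓝 (∫ _x : Pos3, (0 : ℝ))) := by
      refine tendsto_integral_of_dominated_convergence (fun x => ‖ds x‖ ^ 2)
        (fun n => (hratio n).1) hds2 (fun n => Eventually.of_forall fun x => ?_) ?_
      · have h1 : 0 ≤ p n x / s x := div_nonneg (hp0 n x) (h.s_pos x).le
        have h2 : p n x / s x ≤ 1 := (div_le_one (h.s_pos x)).2 (hps n x)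
        rw [Real.norm_eq_abs, abs_of_nonneg (by positivity)]
        have h3 : (p n x / s x) ^ 2 ≤ 1 := by nlinarith
        nlinarith [sq_nonneg ‖ds x‖]
      · filter_upwards [hpae] with x hx
        have h2 : Tendsto (fun n => (p n x / s x) ^ 2 * ‖ds x‖ ^ 2) atTop
            (𝓝 ((0 / s x) ^ 2 * ‖ds x‖ ^ 2)) := ((hx.div_const _).pow 2).mul_const _
        simpa using h2
    rw [integral_zero] at h1
    have h2 := (hdq.add h1).add hpq
    simpa using h2
  -- main estimate
  set S2 : ℝ := ∫ x, s x ^ 2 with hS2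
  have hS20 : 0 ≤ S2 := integral_nonneg fun x => sq_nonneg _
  have main : ∀ R0 : ℝ, ∀ R : ℝ, 1 ≤ R → R0 ≤ R → ∀ n,
      ∫ x in Dom R1 Z1 ∩ Metric.closedBall 0 R0, s x ^ 2 * max (E x) 0 ^ 2 ≤
        2 * (1 / ct * (6 * (C / R) ^ 2 * S2 + Mt * δ n)) + 6 * δ n := by
    intro R0 R hR1 hR n
    obtain ⟨χ, hχT, hχ01, hχ1, hχ2, hχg⟩ := hcut R hR1
    -- `k`
    set k : Pos3 → ℝ := fun x => Real.pi / 2 * (p n x / s x) with hk
    set dk : Pos3 → Pos3 := fun x => (Real.pi / 2) • ((1 / s x) • dq n x -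
      (p n x / s x ^ 2) • ds x) with hdk
    have Lp : LH (Dom R1 Z1) (p n) (dq n) := by
      refine LH.of_H1 (hpH n) (LocB.of_le h.s_lb (Eventually.of_forall fun x _ => ?_))
      rw [abs_of_nonneg (hp0 n x), abs_of_pos (h.s_pos x)]
      exact hps n x
    have Lk : LH (Dom R1 Z1) k dk := LH.const_mul hU (LH.div hU Lp h.Ls h.s_lp) (Real.pi / 2)
    have hk0 : ∀ x, 0 ≤ k x := fun x =>
      mul_nonneg (by positivity) (div_nonneg (hp0 n x) (h.s_pos x).le)
    set K : Set Pos3 := (Metric.closedBall (0 : Pos3) (2 * R) ∩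
      ({x : Pos3 | R1 + 1 ≤ ‖x‖} ∩ {x : Pos3 | x 2 ≤ Z1 / 2})) ∩ T n with hK
    have hzc : Continuous fun x : Pos3 => x 2 := by fun_prop
    have hKc : IsCompact K := by
      refine ((isCompact_closedBall (0 : Pos3) (2 * R)).inter_right ?_).inter (hTc n)
      exact (isClosed_le continuous_const continuous_norm).inter
        (isClosed_le hzc continuous_const)
    have hKU : K ⊆ Dom R1 Z1 := by
      rintro x ⟨⟨_, hx1, hx2⟩, hx3⟩
      simp only [mem_setOf_eq] at hx1 hx2
      refine ⟨by linarith, hTU n hx3, ?_⟩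
      have := h.Z1_pos
      linarith
    have hKE : ∀ᵐ x, x ∈ Dom R1 Z1 → x ∉ K → χ x = 0 ∨ E x ≤ k x := by
      filter_upwards [A1, A2, A3] with x h1 h2 h3 hx hxK
      by_cases c1 : ‖x‖ ≤ 2 * R
      · right
        by_cases c2 : ‖x‖ ≤ R1 + 1
        · exact (h1 hx c2).trans (hk0 x)
        by_cases c3 : Z1 / 2 ≤ x 2
        · exact (h2 hx c3).trans (hk0 x)
        have c4 : x ∉ T n := by
          intro hxT
          refine hxK ⟨⟨?_, ?_, ?_⟩, hxT⟩
          · rw [mem_closedBall_zero_iff]; exact c1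
          · exact (not_le.1 c2).le
          · exact (not_le.1 c3).le
        have c5 := hpT n x hx.2.1 c4
        have := h3 hx
        rw [hk]
        simp only
        rw [c5]
        exact this
      · left
        exact hχ2 x (not_le.1 c1).le
    have st := h.step hG hRQ hdp0 hdp hB.hardy Lk (Eventually.of_forall fun x _ => hk0 x)
      hχT.smooth (fun x => (hχ01 x).1) (fun x => (hχ01 x).2) hKc hKU hKE ht ht1
    -- bound the right side
    have hpi2 : Real.pi ^ 2 / 4 ≤ 5 / 2 := by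
      have h1 := Real.pi_lt_d2
      have h2 := Real.pi_pos
      nlinarith
    have rhs : (∫ x, K.indicator (fun x => s x ^ 2 * (3 / 2 *
          max (E x - k x) 0 ^ 2 * ‖gr χ x‖ ^ 2 +
          (1 / (4 * t) + 1 / 2) * (χ x ^ 2 * ‖dk x‖ ^ 2) +
          2 * om / (4 * t) * (χ x ^ 2 * k x ^ 2))) x) ≤
        6 * (C / R) ^ 2 * S2 + Mt * δ n := by
      have hi : Integrable (fun x => 6 * (C / R) ^ 2 * s x ^ 2 + Mt * (‖dq n x‖ ^ 2 +
          (p n x / s x) ^ 2 * ‖ds x‖ ^ 2 + p n x ^ 2)) :=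
        (hs2i.const_mul _).add ((((hdqn2 n).add (hratio n)).add (hpn2 n)).const_mul _)
      have hval : ∫ x, (6 * (C / R) ^ 2 * s x ^ 2 + Mt * (‖dq n x‖ ^ 2 +
          (p n x / s x) ^ 2 * ‖ds x‖ ^ 2 + p n x ^ 2)) = 6 * (C / R) ^ 2 * S2 + Mt * δ n := by
        have j1 : Integrable (fun x => ‖dq n x‖ ^ 2 + (p n x / s x) ^ 2 * ‖ds x‖ ^ 2) :=
          (hdqn2 n).add (hratio n)
        have j2 : Integrable (fun x => ‖dq n x‖ ^ 2 + (p n x / s x) ^ 2 * ‖ds x‖ ^ 2 +
          p n x ^ 2) := j1.add (hpn2 n)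
        rw [integral_add (hs2i.const_mul _) (j2.const_mul _), integral_const_mul,
          integral_const_mul, integral_add j1 (hpn2 n), integral_add (hdqn2 n) (hratio n)]
      rw [← hval]
      refine integral_mono_of_nonneg (Eventually.of_forall fun x => ?_) hi ?_
      · refine indicator_nonneg (fun y _ => ?_) x
        positivity
      · filter_upwards [A4] with x hx4
        by_cases hx : x ∈ K
        · rw [indicator_of_mem hx]
          have hs := h.s_pos x
          have hE2 := hx4 (hKU hx)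
          have hv2 : max (E x - k x) 0 ≤ 2 := max_le (by linarith [hk0 x]) (by norm_num)
          have hv0 : 0 ≤ max (E x - k x) 0 := le_max_right _ _
          have hg := hχg x
          have hg2 : ‖gr χ x‖ ^ 2 ≤ (C / R) ^ 2 := pow_le_pow_left₀ (norm_nonneg _) hg 2
          have q1 : 3 / 2 * max (E x - k x) 0 ^ 2 * ‖gr χ x‖ ^ 2 ≤ 6 * (C / R) ^ 2 := by
            have : 3 / 2 * max (E x - k x) 0 ^ 2 ≤ 6 := by nlinarith
            exact mul_le_mul this hg2 (sq_nonneg _) (by norm_num)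
          have hχsq : χ x ^ 2 ≤ 1 := by nlinarith [(hχ01 x).1, (hχ01 x).2]
          have hχsq0 : 0 ≤ χ x ^ 2 := sq_nonneg _
          have q2 : s x ^ 2 * ‖dk x‖ ^ 2 ≤ 5 * (‖dq n x‖ ^ 2 + (p n x / s x) ^ 2 * ‖ds x‖ ^ 2) := by
            have e1 : s x • dk x = (Real.pi / 2) • (dq n x - (p n x / s x) • ds x) := by
              have f1 : s x * (1 / s x) = 1 := by field_simp
              have f2 : s x * (p n x / s x ^ 2) = p n x / s x := by field_simp
              simp only [hdk]
              rw [smul_comm (s x), smul_sub (s x), smul_smul, smul_smul, f1, f2, one_smul]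
            have e2 : s x ^ 2 * ‖dk x‖ ^ 2 = ‖s x • dk x‖ ^ 2 := by
              have f3 : ‖s x • dk x‖ = s x * ‖dk x‖ := by
                rw [norm_smul (s x) (dk x), Real.norm_eq_abs, abs_of_pos hs]
              rw [f3]; ring
            rw [e2, e1, norm_smul, mul_pow, Real.norm_eq_abs, abs_of_pos (by positivity)]
            have e3 : ‖dq n x - (p n x / s x) • ds x‖ ^ 2 ≤
                2 * (‖dq n x‖ ^ 2 + (p n x / s x) ^ 2 * ‖ds x‖ ^ 2) := by
              have f1 := norm_sub_le (dq n x) ((p n x / s x) • ds x)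
              rw [norm_smul, Real.norm_eq_abs, abs_of_nonneg (div_nonneg (hp0 n x) hs.le)] at f1
              have f2 := pow_le_pow_left₀ (norm_nonneg _) f1 2
              nlinarith [sq_nonneg (‖dq n x‖ - p n x / s x * ‖ds x‖)]
            have e4 : (Real.pi / 2) ^ 2 ≤ 5 / 2 := by
              have : (Real.pi / 2) ^ 2 = Real.pi ^ 2 / 4 := by ring
              rw [this]; exact hpi2
            have e5 : 0 ≤ ‖dq n x‖ ^ 2 + (p n x / s x) ^ 2 * ‖ds x‖ ^ 2 := by positivity
            calc (Real.pi / 2) ^ 2 * ‖dq n x - (p n x / s x) • ds x‖ ^ 2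
                ≤ 5 / 2 * (2 * (‖dq n x‖ ^ 2 + (p n x / s x) ^ 2 * ‖ds x‖ ^ 2)) :=
                  mul_le_mul e4 e3 (sq_nonneg _) (by norm_num)
              _ = _ := by ring
          have q3 : s x ^ 2 * k x ^ 2 ≤ 3 * p n x ^ 2 := by
            have e1 : s x ^ 2 * k x ^ 2 = Real.pi ^ 2 / 4 * p n x ^ 2 := by
              simp only [hk]; field_simp; ring
            rw [e1]
            nlinarith [sq_nonneg (p n x)]
          have q4 : s x ^ 2 * ((1 / (4 * t) + 1 / 2) * (χ x ^ 2 * ‖dk x‖ ^ 2)) ≤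
              (1 / (4 * t) + 1 / 2) *
                (5 * (‖dq n x‖ ^ 2 + (p n x / s x) ^ 2 * ‖ds x‖ ^ 2)) := by
            have e1 : s x ^ 2 * (χ x ^ 2 * ‖dk x‖ ^ 2) ≤ s x ^ 2 * ‖dk x‖ ^ 2 := by
              have : χ x ^ 2 * ‖dk x‖ ^ 2 ≤ 1 * ‖dk x‖ ^ 2 :=
                mul_le_mul_of_nonneg_right hχsq (sq_nonneg _)
              rw [one_mul] at this
              exact mul_le_mul_of_nonneg_left this (sq_nonneg _)
            have e2 : 0 ≤ 1 / (4 * t) + 1 / 2 := by positivity
            have e3 := mul_le_mul_of_nonneg_left (e1.trans q2) e2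
            linarith
          have q5 : s x ^ 2 * (2 * om / (4 * t) * (χ x ^ 2 * k x ^ 2)) ≤
              2 * om / (4 * t) * (3 * p n x ^ 2) := by
            have e1 : s x ^ 2 * (χ x ^ 2 * k x ^ 2) ≤ s x ^ 2 * k x ^ 2 := by
              have : χ x ^ 2 * k x ^ 2 ≤ 1 * k x ^ 2 :=
                mul_le_mul_of_nonneg_right hχsq (sq_nonneg _)
              rw [one_mul] at this
              exact mul_le_mul_of_nonneg_left this (sq_nonneg _)
            have e2 : 0 ≤ 2 * om / (4 * t) := by positivity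
            have e3 := mul_le_mul_of_nonneg_left (e1.trans q3) e2
            linarith
          have q6 := mul_le_mul_of_nonneg_left q1 (sq_nonneg (s x))
          have q7 : 0 ≤ (p n x) ^ 2 := sq_nonneg _
          have q8 : 0 ≤ ‖dq n x‖ ^ 2 + (p n x / s x) ^ 2 * ‖ds x‖ ^ 2 := by positivity
          have q9 : 0 ≤ 1 / (4 * t) + 1 / 2 := by positivity
          have q10 : 0 ≤ 2 * om / (4 * t) := by positivity
          have q11 := mul_nonneg q9 q7
          have q12 := mul_nonneg q10 q8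
          simp only [hMt]
          nlinarith
        · rw [indicator_of_notMem hx]
          positivity
    -- bound the left side
    set V := ∫ x, K.indicator (fun x => s x ^ 2 * (χ x * max (E x - k x) 0) ^ 2) x with hV
    have hVle : V ≤ 1 / ct * (6 * (C / R) ^ 2 * S2 + Mt * δ n) := by
      have h1 : ct * V ≤ 6 * (C / R) ^ 2 * S2 + Mt * δ n := st.trans rhs
      rw [div_mul_eq_mul_div, one_mul, le_div_iff₀ hctpos]
      linarith
    have Lv := LH.pos hU (LH.sub hU LE Lk)
    have Lχ : LH (Dom R1 Z1) χ (gr χ) := LH.of_smooth hU hχT.smooth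
    have L1 := LH.mul hU Lχ Lv
    have hss : LocB (Dom R1 Z1) (fun x => s x ^ 2) := by
      refine LocB.of_le (LocB.mul h.s_lb h.s_lb) (Eventually.of_forall fun x _ => ?_)
      rw [pow_two]
    have hsm : AEStronglyMeasurable (fun x => s x ^ 2) (volume.restrict (Dom R1 Z1)) :=
      (h.s_cont.pow 2).aestronglyMeasurable
    have i4 : Integrable (K.indicator fun x => s x ^ 2 * (χ x * max (E x - k x) 0) ^ 2) := by
      refine int_ind_bdd hKc hKU (hsm.mul (L1.aesm.pow 2)) (LocB.mul hss ?_)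
      refine LocB.of_le (LocB.mul L1.b L1.b) (Eventually.of_forall fun x _ => ?_)
      rw [pow_two]
    have hlhs : ∫ x in Dom R1 Z1 ∩ Metric.closedBall 0 R0, s x ^ 2 * max (E x) 0 ^ 2 ≤
        ∫ x, (2 * K.indicator (fun x => s x ^ 2 * (χ x * max (E x - k x) 0) ^ 2) x +
          6 * p n x ^ 2) := by
      have hmeas : MeasurableSet (Dom R1 Z1 ∩ Metric.closedBall (0 : Pos3) R0) :=
        hU.measurableSet.inter measurableSet_closedBall
      rw [← integral_indicator hmeas]
      refine integral_mono_of_nonneg (Eventually.of_forall fun x => ?_)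
        ((i4.const_mul 2).add ((hpn2 n).const_mul 6)) ?_
      · refine indicator_nonneg (fun y _ => by positivity) x
      · filter_upwards [hKE] with x hx
        by_cases hxD : x ∈ Dom R1 Z1 ∩ Metric.closedBall (0 : Pos3) R0
        · rw [indicator_of_mem hxD]
          have hnx : ‖x‖ ≤ R := (mem_closedBall_zero_iff.1 hxD.2).trans hR
          have hχx : χ x = 1 := hχ1 x hnx
          have hs := h.s_pos x
          have q3 : s x ^ 2 * k x ^ 2 ≤ 3 * p n x ^ 2 := by
            have e1 : s x ^ 2 * k x ^ 2 = Real.pi ^ 2 / 4 * p n x ^ 2 := by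
              simp only [hk]; field_simp; ring
            rw [e1]
            nlinarith [sq_nonneg (p n x)]
          by_cases hxK : x ∈ K
          · rw [indicator_of_mem hxK, hχx, one_mul]
            have e1 : max (E x) 0 ≤ max (E x - k x) 0 + k x := by
              refine max_le ?_ (add_nonneg (le_max_right _ _) (hk0 x))
              have := le_max_left (E x - k x) 0
              linarith
            have e2 : max (E x) 0 ^ 2 ≤ 2 * max (E x - k x) 0 ^ 2 + 2 * k x ^ 2 := by
              have f1 := pow_le_pow_left₀ (le_max_right (E x) 0) e1 2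
              nlinarith [sq_nonneg (max (E x - k x) 0 - k x)]
            have e3 := mul_le_mul_of_nonneg_left e2 (sq_nonneg (s x))
            nlinarith
          · rw [indicator_of_notMem hxK, mul_zero, zero_add]
            have e1 : E x ≤ k x := by
              rcases hx hxD.1 hxK with h1 | h1
              · rw [hχx] at h1; norm_num at h1
              · exact h1
            have e2 : max (E x) 0 ≤ k x := max_le e1 (hk0 x)
            have e3 : max (E x) 0 ^ 2 ≤ k x ^ 2 := pow_le_pow_left₀ (le_max_right _ _) e2 2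
            have e4 := mul_le_mul_of_nonneg_left e3 (sq_nonneg (s x))
            nlinarith [sq_nonneg (p n x)]
        · rw [indicator_of_notMem hxD]
          refine add_nonneg (mul_nonneg (by norm_num) (indicator_nonneg (fun y _ => ?_) x))
            (by positivity)
          positivity
    rw [integral_add (i4.const_mul 2) ((hpn2 n).const_mul 6), integral_const_mul,
      integral_const_mul] at hlhs
    have hpδ : ∫ x, p n x ^ 2 ≤ δ n := by
      have f1 : 0 ≤ ∫ x, ‖dq n x‖ ^ 2 := integral_nonneg fun x => sq_nonneg _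
      have f2 : 0 ≤ ∫ x, (p n x / s x) ^ 2 * ‖ds x‖ ^ 2 := integral_nonneg fun x => by positivity
      rw [hδ]
      simp only
      linarith
    have : 2 * V ≤ 2 * (1 / ct * (6 * (C / R) ^ 2 * S2 + Mt * δ n)) := by linarith
    linarith
  -- limits
  have zero : ∀ R0 : ℝ, ∫ x in Dom R1 Z1 ∩ Metric.closedBall 0 R0, s x ^ 2 * max (E x) 0 ^ 2 ≤ 0 := by
    intro R0
    have l1 : ∀ R : ℝ, 1 ≤ R → R0 ≤ R →
        ∫ x in Dom R1 Z1 ∩ Metric.closedBall 0 R0, s x ^ 2 * max (E x) 0 ^ 2 ≤
        2 * (1 / ct * (6 * (C / R) ^ 2 * S2)) := by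
      intro R hR1 hR
      have l2 : Tendsto (fun n => 2 * (1 / ct * (6 * (C / R) ^ 2 * S2 + Mt * δ n)) + 6 * δ n) atTop
          (𝓝 (2 * (1 / ct * (6 * (C / R) ^ 2 * S2 + Mt * 0)) + 6 * 0)) :=
        ((((hδ0.const_mul Mt).const_add _).const_mul _).const_mul _).add (hδ0.const_mul 6)
      have l3 := ge_of_tendsto' l2 fun n => main R0 R hR1 hR n
      simpa using l3
    have l4 : Tendsto (fun R : ℝ => 2 * (1 / ct * (6 * (C / R) ^ 2 * S2))) atTop
        (𝓝 (2 * (1 / ct * (6 * 0 ^ 2 * S2)))) := by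
      have l5 : Tendsto (fun R : ℝ => C / R) atTop (𝓝 0) := tendsto_const_nhds.div_atTop tendsto_id
      exact ((((l5.pow 2).const_mul 6).mul_const S2).const_mul _).const_mul _
    have l6 : 2 * (1 / ct * (6 * 0 ^ 2 * S2)) = 0 := by ring
    rw [l6] at l4
    refine ge_of_tendsto l4 ?_
    filter_upwards [eventually_ge_atTop (1 : ℝ), eventually_ge_atTop R0] with R hR1 hR
    exact l1 R hR1 hR
  have hEm : AEStronglyMeasurable (fun x => s x ^ 2 * max (E x) 0 ^ 2)
      (volume.restrict (Dom R1 Z1)) :=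
    ((h.s_cont.pow 2).aestronglyMeasurable).mul ((LE.aesm.sup aestronglyMeasurable_const).pow 2)
  have fin : ∀ m : ℕ, ∀ᵐ x, x ∈ Dom R1 Z1 ∩ Metric.closedBall (0 : Pos3) m → E x ≤ 0 := by
    intro m
    have hmeas : MeasurableSet (Dom R1 Z1 ∩ Metric.closedBall (0 : Pos3) (m : ℝ)) :=
      hU.measurableSet.inter measurableSet_closedBall
    have hint : IntegrableOn (fun x => s x ^ 2 * max (E x) 0 ^ 2)
        (Dom R1 Z1 ∩ Metric.closedBall (0 : Pos3) (m : ℝ)) volume := by
      refine Integrable.mono' ((hs2i.const_mul 4).restrict)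
        (hEm.mono_measure (Measure.restrict_mono inter_subset_left le_rfl)) ?_
      rw [ae_restrict_iff' hmeas]
      filter_upwards [A4] with x hx4 hx
      have h1 := hx4 hx.1
      have h2 : max (E x) 0 ≤ 2 := max_le h1 (by norm_num)
      have h3 : 0 ≤ max (E x) 0 := le_max_right _ _
      rw [Real.norm_eq_abs, abs_of_nonneg (by positivity)]
      have h4 : max (E x) 0 ^ 2 ≤ 4 := by nlinarith
      nlinarith [sq_nonneg (s x)]
    have h0 : ∫ x in Dom R1 Z1 ∩ Metric.closedBall 0 (m : ℝ), s x ^ 2 * max (E x) 0 ^ 2 = 0 :=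
      le_antisymm (zero m) (integral_nonneg fun x => by positivity)
    rw [integral_eq_zero_iff_of_nonneg (fun x => by positivity) hint] at h0
    have h1 := (ae_restrict_iff' hmeas).1 h0
    filter_upwards [h1] with x hx hxD
    have h2 := hx hxD
    simp only [Pi.zero_apply] at h2
    have hs := h.s_pos x
    have h3 : max (E x) 0 ^ 2 = 0 := by
      rcases mul_eq_zero.1 h2 with h4 | h4
      · exact absurd h4 (by positivity)
      · exact h4
    have h5 : max (E x) 0 = 0 := pow_eq_zero_iff (two_ne_zero) |>.1 h3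
    exact max_eq_right_iff.1 h5
  have fin2 := ae_all_iff.2 fin
  filter_upwards [fin2] with x hx hxD
  obtain ⟨m, hm⟩ := exists_nat_ge ‖x‖
  exact hx m ⟨hxD, mem_closedBall_zero_iff.2 hm⟩

end facts

end Crest.Agent.R335.PL
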