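import Crest.Agent.R335.PLSh
import Crest.Agent.R335.CXcalc
import Crest.Agent.R335.PLTest

/-!
Row 335 (S0521), C.6 (lower bound), explicit half: from `COut` to the hypotheses of `PL.Core`.
-/

set_option autoImplicit false
set_option linter.unusedSectionVars false

open MeasureTheory Filter Set Crest.MathPhysics.ThreeBody
open scoped ENNReal Topology ContDiff

noncomputable section
namespace Crest.Agent.R335.PLS
open Crest.Agent.R335

/-- the slab estimates, with their constant -/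
def SlabC (C : ℝ) : Prop := ∀ (κ Q D : ℝ) (x : Pos3), KQ κ Q → 4 ≤ D → 200 ≤ ‖x‖ →
    2 * D * |x 2| + D ^ 2 ≤ ‖x‖ →
    CX.SS D κ Q (-1) x ≤ C * CX.EE κ Q 1 ‖x‖ ∧ CX.EE κ Q 1 ‖x‖ ≤ C * CX.SS D κ Q 1 x ∧
      CX.SS D κ Q 1 x ≤ C * CX.EE κ Q (-1) ‖x‖ ∧
      |CX.OO D κ Q (-1) x| ≤ C * (D * |x 2| / ‖x‖) * CX.EE κ Q 1 ‖x‖ ∧
      |CX.OO D κ Q 1 x| ≤ C * (D * |x 2| / ‖x‖) * CX.EE κ Q 1 ‖x‖

theorem kq {κ lam : ℝ} (h : 9 / 10 ≤ κ ∧ κ ≤ 11 / 10) (hl0 : 0 ≤ lam) (hl : lam ≤ 1 / 100) :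
    KQ κ (2 * (1 - lam)) where
  k1 := h.1
  k2 := h.2
  q1 := by linarith
  q2 := by linarith

theorem kq2 {κ : ℝ} (h : 9 / 10 ≤ κ ∧ κ ≤ 11 / 10) : KQ κ 2 where
  k1 := h.1
  k2 := h.2
  q1 := by norm_num
  q2 := le_rfl

/-- `EE` with the two signs -/
theorem EE_sign {κ lam : ℝ} (h : 9 / 10 ≤ κ ∧ κ ≤ 11 / 10) (hl0 : 0 ≤ lam) (hl : lam ≤ 1 / 100)
    {t : ℝ} (ht : 100 ≤ t) :
    CX.EE κ (2 * (1 - lam)) 1 t ≤ 1.3 * Em κ (px κ lam) 1 t ∧
      Em κ (px κ lam) 1 t ≤ CX.EE κ (2 * (1 - lam)) 1 t := by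
  have h0 : 0 < t := by linarith
  obtain ⟨u0, u1⟩ := XM.u_bounds ht
  have e1 : CX.EE κ (2 * (1 - lam)) 1 t = Em κ (px κ lam) (-1) t := EE_eq_Em h0
  rw [e1, Em_eq h0, Em_eq h0]
  have hA := ee_pos κ (px κ lam) h0
  generalize (√t)⁻¹ = u at u0 u1
  generalize ee κ (px κ lam) t = A at hA
  constructor
  · have : A * (1 - -1 * u) ≤ A * (1.3 * (1 - 1 * u)) :=
      mul_le_mul_of_nonneg_left (by linarith) hA.le
    linarith
  · exact mul_le_mul_of_nonneg_left (by linarith) hA.le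

/-- numbers -/
structure Num (C P D om a K1 K2 R1 lam Z1 dp : ℝ) : Prop where
  C1 : 1 ≤ C
  P1 : 1 ≤ P
  D4 : 4 ≤ D
  om0 : 0 < om
  om1 : om ≤ 1 / 10
  a0 : 0 < a
  K10 : 0 ≤ K1
  K20 : 0 ≤ K2
  l0 : 0 < lam
  l1 : lam ≤ 1 / 1000
  Z0 : 0 < Z1
  Zom : 1000 * (C * D * P) * (om * Z1 ^ 2) ≤ 1
  dp0 : 0 < dp
  dp1 : dp ≤ 1
  dpom : 2 * D * om ^ 2 ≤ dp
  R200 : 200 ≤ R1
  RD : D + 200 ≤ R1
  Rslab : 2 * D * Z1 + D ^ 2 ≤ R1
  Rom : 3 / om ≤ R1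
  Rexp1 : ∀ t, R1 ≤ t → K1 * (6 * (P * C * D)) * om * (t ^ 4 * Real.exp (-(a / 2) * t)) ≤ 1
  Rexp2 : ∀ t, R1 ≤ t → K1 * 3 * om * (t ^ 4 * Real.exp (-(a / 4) * t)) ≤ 1
  lK : (2 * K2 + 4) * lam ≤ om
  nat : ∀ κ κS κn : ℝ, KQ κ 2 → KQ κS 2 → KQ κn 2 → κ ^ 2 + om ≤ κn ^ 2 → κn ^ 2 ≤ κS ^ 2 →
    κS ^ 2 ≤ κn ^ 2 + 2 * K2 * √lam → ∀ ρ : ℝ, 100 ≤ ρ →
      CX.EE κn 2 1 ρ ≤ 8 * CX.eLow κS κ (2 * (1 - lam)) lam om ρ
  lK2 : K2 * lam * (3 * (P * C * D)) ≤ 1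
  lK3 : K2 * lam ≤ 1 / 2

theorem Num.lo {C P D om a K1 K2 R1 lam Z1 dp : ℝ} (N : Num C P D om a K1 K2 R1 lam Z1 dp) :
    0 < lam / om ^ 2 := by
  have := N.l0
  have := N.om0
  positivity

theorem Num.pn {C P D om a K1 K2 R1 lam Z1 dp : ℝ} (N : Num C P D om a K1 K2 R1 lam Z1 dp)
    {κ κS κT : ℝ} (hk : 9 / 10 ≤ κ ∧ κ ≤ 11 / 10) (hS : 9 / 10 ≤ κS ∧ κS ≤ 11 / 10)
    (hT : 9 / 10 ≤ κT ∧ κT ≤ 11 / 10) : PNum κS κT κ lam om where
  kS := hS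
  kT := hT
  k := hk
  l0 := N.l0
  l1 := by linarith [N.l1]
  o0 := N.om0

/-- `ŝ` -/
def shf (C P κS κT κ lam om : ℝ) (x : Pos3) : ℝ := 3 * C * P * prf κS κT κ lam om ‖x‖

/-- gradient of `ŝ` -/
def dshf (C P κS κT κ lam om : ℝ) (x : Pos3) : Pos3 :=
  (-(3 * C * P * dprf κS κT κ lam om ‖x‖ / ‖x‖)) • x

section

variable {cg C0 D : ℝ} {B : OBD cg C0 D} {C P K1 K2 R1 lam κ κS κT Z1 dp : ℝ}
  {s s1 s2 F w0 X sig : Pos3 → ℝ} {gs gs1 gs2 gF : Pos3 → Pos3}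

theorem dom_upExt : PL.Dom R1 Z1 ⊆ UpExt R1 := fun _ hx => ⟨hx.1, hx.2.1⟩

theorem dom_slab (N : Num C P D B.om B.a K1 K2 R1 lam Z1 dp) {x : Pos3} (hx : x ∈ PL.Dom R1 Z1) :
    200 ≤ ‖x‖ ∧ 2 * D * |x 2| + D ^ 2 ≤ ‖x‖ ∧ 0 < x 2 ∧ |x 2| = x 2 ∧ x 2 ≤ Z1 := by
  have h1 : R1 < ‖x‖ := hx.1
  have h2 : 0 < x 2 := hx.2.1
  have h3 : x 2 < Z1 := hx.2.2
  have h4 : |x 2| = x 2 := abs_of_pos h2
  have hD := N.D4
  refine ⟨by linarith [N.R200], ?_, h2, h4, h3.le⟩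
  rw [h4]
  have h5 : 2 * D * x 2 ≤ 2 * D * Z1 := mul_le_mul_of_nonneg_left h3.le (by linarith)
  linarith [N.Rslab]

/-- the third part of the profile, with its factor -/
theorem third_eq (N : Num C P D B.om B.a K1 K2 R1 lam Z1 dp) {t : ℝ} (ht : 100 ≤ t) :
    lam / B.om ^ 2 * Em κ (px κ lam - 4) 1 t =
      lam / B.om ^ 2 / t ^ 4 * Em κ (px κ lam) 1 t := by
  rw [Em_sub_four κ (px κ lam) 1 (by linarith)]
  ring

/-- the difference in the slab -/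
theorem OO_le (hsl : SlabC C) (N : Num C P D B.om B.a K1 K2 R1 lam Z1 dp)
    (hk : 9 / 10 ≤ κ ∧ κ ≤ 11 / 10) {x : Pos3} (hx : x ∈ PL.Dom R1 Z1) :
    CX.OO D κ (2 * (1 - lam)) (-1) x ≤
      C * (D * x 2 / ‖x‖) * (1.3 * Em κ (px κ lam) 1 ‖x‖) := by
  obtain ⟨h1, h2, h3, h4, h5⟩ := dom_slab N hx
  have hl1 : lam ≤ 1 / 100 := by linarith [N.l1]
  have h6 := (hsl κ (2 * (1 - lam)) D x (kq hk N.l0.le hl1) N.D4 h1 h2).2.2.2.1
  rw [h4] at h6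
  refine (le_abs_self _).trans (h6.trans ?_)
  have hC := N.C1
  have hD := N.D4
  have : 0 < ‖x‖ := by linarith
  exact mul_le_mul_of_nonneg_left (EE_sign hk N.l0.le hl1 (by linarith)).1 (by positivity)

/-- `F ≤ 1.3 P C D (z/r) e(r)` -/
theorem F_le (hsl : SlabC C) (N : Num C P D B.om B.a K1 K2 R1 lam Z1 dp)
    (h : COut B P K1 K2 R1 lam κ κS κT s s1 s2 F w0 X sig gs gs1 gs2 gF) :
    ∀ᵐ x, x ∈ PL.Dom R1 Z1 → F x ≤ 1.3 * (P * C * D) * (x 2 / ‖x‖) * Em κ (px κ lam) 1 ‖x‖ := by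
  filter_upwards [h.Fup] with x hF hx
  have h1 := OO_le hsl N h.κ_rng hx
  have hP := N.P1
  refine (hF (dom_upExt hx)).trans ((mul_le_mul_of_nonneg_left h1 (by linarith)).trans_eq ?_)
  ring

theorem F_pos (hsl : SlabC C) (N : Num C P D B.om B.a K1 K2 R1 lam Z1 dp)
    (h : COut B P K1 K2 R1 lam κ κS κT s s1 s2 F w0 X sig gs gs1 gs2 gF) :
    PL.LocPos (PL.Dom R1 Z1) F := by
  obtain ⟨c, hc, hcc⟩ := half_calc
  have hl1 : lam ≤ 1 / 100 := by linarith [N.l1]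
  have hP := N.P1
  have hD := N.D4
  have hcont : ContinuousOn (fun x : Pos3 => c * min 1 (D * x 2 / ‖x‖) *
      Em κ (px κ lam) (-1) ‖x - nuc D‖ / P) (PL.Dom R1 Z1) := by
    have hz : Continuous fun x : Pos3 => x 2 := by fun_prop
    have hn : ContinuousOn (fun x : Pos3 => ‖x‖) (PL.Dom R1 Z1) := continuous_norm.continuousOn
    have hne : ∀ x ∈ PL.Dom R1 Z1, ‖x‖ ≠ 0 := fun x hx => by
      have := (dom_slab N hx).1
      linarith
    have hm : ContinuousOn (fun x : Pos3 => min 1 (D * x 2 / ‖x‖)) (PL.Dom R1 Z1) :=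
      ContinuousOn.inf continuousOn_const (((continuous_const.mul hz).continuousOn).div hn hne)
    have hE : ContinuousOn (fun x : Pos3 => Em κ (px κ lam) (-1) ‖x - nuc D‖) (PL.Dom R1 Z1) := by
      intro x hx
      have h1 : 0 < ‖x - nuc D‖ := by
        have h2 := (dist_slab N.D4 (dom_slab N hx).2.1).1
        rw [abs_le] at h2
        linarith [(dom_slab N hx).1, h2.1]
      have h3 : ContinuousAt (Em κ (px κ lam) (-1)) ‖x - nuc D‖ :=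
        (Em_hasDerivAt κ (px κ lam) (-1) h1).continuousAt
      exact (ContinuousAt.comp (f := fun x : Pos3 => ‖x - nuc D‖) h3
        (by fun_prop)).continuousWithinAt
    exact (((continuousOn_const.mul hm)).mul hE).div_const P
  have hpos : ∀ x ∈ PL.Dom R1 Z1, 0 < c * min 1 (D * x 2 / ‖x‖) *
      Em κ (px κ lam) (-1) ‖x - nuc D‖ / P := by
    intro x hx
    obtain ⟨h1, h2, h3, h4, h5⟩ := dom_slab N hx
    have h6 := (dist_slab N.D4 h2).1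
    rw [abs_le] at h6
    have h7 := Em_pos (mpar h.κ_rng N.l0.le hl1 (Or.inr rfl)) (t := ‖x - nuc D‖)
      (by linarith [h6.1])
    have h8 : 0 < min 1 (D * x 2 / ‖x‖) := lt_min one_pos (by positivity)
    have h7' : 0 < Em κ (px κ lam) (-1) ‖x - nuc D‖ := h7
    positivity
  have hlp := PLC.LPos_of_continuousOn hcont hpos
  intro K hK hKU
  obtain ⟨c', hc', h1⟩ := hlp K hK hKU
  refine ⟨c', hc', ?_⟩
  rw [ae_restrict_iff' hK.measurableSet] at h1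
  filter_upwards [h1, h.Flow] with x h2 h3 hx
  have hxD := hKU hx
  obtain ⟨q1, q2, q3, q4, q5⟩ := dom_slab N hxD
  have hDn : D + 200 ≤ ‖x‖ := N.RD.trans hxD.1.le
  have h4 := (hcc κ (2 * (1 - lam)) D x (kq h.κ_rng N.l0.le hl1) N.D4 hDn q3.le).1
  have h5 := h3 (dom_upExt hxD)
  have h6 : 0 < ‖x - nuc D‖ := by
    have h2 := (dist_slab N.D4 q2).1
    rw [abs_le] at h2
    linarith [h2.1]
  rw [EE_eq_Em h6] at h4
  refine (h2 hx).trans ?_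
  rw [div_le_iff₀ (by linarith)]
  have e : 2 * (1 - lam) / κ - 1 = px κ lam := rfl
  rw [e] at h4
  linarith [h4.trans h5]

/-- `s1 ≤ 2 F` -/
theorem s1_le (N : Num C P D B.om B.a K1 K2 R1 lam Z1 dp)
    (h : COut B P K1 K2 R1 lam κ κS κT s s1 s2 F w0 X sig gs gs1 gs2 gF) :
    ∀ᵐ x, x ∈ PL.Dom R1 Z1 → 0 ≤ F x → s1 x ≤ 2 * F x := by
  filter_upwards [h.s1F] with x h1 hx hF
  have h2 := h1 (dom_upExt hx)
  obtain ⟨q1, q2, q3, q4, q5⟩ := dom_slab N hx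
  have h3 : K2 * lam ^ 2 / ‖x‖ ^ 4 ≤ 1 := by
    have h4 : (1 : ℝ) ≤ ‖x‖ ^ 4 := one_le_pow₀ (by linarith)
    rw [div_le_one (by positivity)]
    have h5 : K2 * lam ^ 2 = (K2 * lam) * lam := by ring
    have h6 := N.lK3
    have h7 := N.l1
    have h8 := N.l0
    have h9 : (K2 * lam) * lam ≤ 1 / 2 * 1 := mul_le_mul h6 (by linarith) h8.le (by norm_num)
    linarith
  have h5 : K2 * lam ^ 2 / ‖x‖ ^ 4 * F x ^ 2 ≤ 1 * F x ^ 2 :=
    mul_le_mul_of_nonneg_right h3 (sq_nonneg _)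
  have h6 : s1 x ^ 2 ≤ (2 * F x) ^ 2 := by nlinarith
  exact (abs_le_of_sq_le_sq' h6 (by positivity)).2

/-- `s2 ≤ ŝ` -/
theorem s2_le (hsl : SlabC C) (N : Num C P D B.om B.a K1 K2 R1 lam Z1 dp)
    (h : COut B P K1 K2 R1 lam κ κS κT s s1 s2 F w0 X sig gs gs1 gs2 gF) :
    ∀ᵐ x, x ∈ PL.Dom R1 Z1 → s2 x ≤ shf C P κS κT κ lam B.om x := by
  filter_upwards [h.s2up] with x h1 hx
  have h2 := h1 (dom_upExt hx)
  obtain ⟨q1, q2, q3, q4, q5⟩ := dom_slab N hx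
  have hl1 : lam ≤ 1 / 100 := by linarith [N.l1]
  have hC := N.C1
  have hP := N.P1
  have hD := N.D4
  have ht : (100 : ℝ) ≤ ‖x‖ := by linarith
  have hr : 0 < ‖x‖ := by linarith
  have a1 := (hsl κS (2 * (1 - lam)) D x (kq h.κS_rng N.l0.le hl1) N.D4 q1 q2).1
  have a2 := (hsl κT (2 * (1 - lam)) D x (kq h.κT_rng N.l0.le hl1) N.D4 q1 q2).1
  have a3 := (hsl κ (2 * (1 - lam)) D x (kq h.κ_rng N.l0.le hl1) N.D4 q1 q2).1
  have a4 := OO_le hsl N h.κ_rng hx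
  have b1 := (EE_sign h.κS_rng N.l0.le hl1 ht).1
  have b2 := (EE_sign h.κT_rng N.l0.le hl1 ht).1
  have b3 := (EE_sign h.κ_rng N.l0.le hl1 ht).1
  have pS := Em_pos (mpar h.κS_rng N.l0.le hl1 (Or.inl rfl)) ht
  have pT := Em_pos (mpar h.κT_rng N.l0.le hl1 (Or.inl rfl)) ht
  have pk := Em_pos (mpar h.κ_rng N.l0.le hl1 (Or.inl rfl)) ht
  obtain ⟨eS, heS⟩ : ∃ e, e = Em κS (px κS lam) 1 ‖x‖ := ⟨_, rfl⟩
  obtain ⟨eT, heT⟩ : ∃ e, e = Em κT (px κT lam) 1 ‖x‖ := ⟨_, rfl⟩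
  obtain ⟨e0, he0⟩ : ∃ e, e = Em κ (px κ lam) 1 ‖x‖ := ⟨_, rfl⟩
  rw [← heS] at b1
  rw [← heT] at b2
  rw [← he0] at b3 a4
  have pS' : 0 < eS := heS ▸ pS
  have pT' : 0 < eT := heT ▸ pT
  have pk' : 0 < e0 := he0 ▸ pk
  have c1 : CX.SS D κS (2 * (1 - lam)) (-1) x ≤ C * (1.3 * eS) :=
    a1.trans (mul_le_mul_of_nonneg_left b1 (by linarith))
  have c2 : CX.SS D κT (2 * (1 - lam)) (-1) x ≤ C * (1.3 * eT) :=
    a2.trans (mul_le_mul_of_nonneg_left b2 (by linarith))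
  have c3 : lam / B.om ^ 2 / ‖x‖ ^ 4 * CX.SS D κ (2 * (1 - lam)) (-1) x ≤
      lam / B.om ^ 2 / ‖x‖ ^ 4 * (C * (1.3 * e0)) := by
    have := N.lo
    exact mul_le_mul_of_nonneg_left (a3.trans (mul_le_mul_of_nonneg_left b3 (by linarith)))
      (by positivity)
  have c4 : lam / B.om * (x 2 / ‖x‖ ^ 3) * CX.OO D κ (2 * (1 - lam)) (-1) x ≤
      lam / B.om ^ 2 / ‖x‖ ^ 4 * (C * (0.1 * e0)) := by
    have hl := N.l0
    have ho := N.om0
    have e1 : lam / B.om * (x 2 / ‖x‖ ^ 3) * (C * (D * x 2 / ‖x‖) * (1.3 * e0)) =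
        (lam / B.om ^ 2 / ‖x‖ ^ 4 * (C * e0)) * (1.3 * (D * (B.om * (x 2) ^ 2))) := by
      field_simp
    have e2 : lam / B.om * (x 2 / ‖x‖ ^ 3) * CX.OO D κ (2 * (1 - lam)) (-1) x ≤
        lam / B.om * (x 2 / ‖x‖ ^ 3) * (C * (D * x 2 / ‖x‖) * (1.3 * e0)) :=
      mul_le_mul_of_nonneg_left a4 (by positivity)
    refine e2.trans ?_
    rw [e1]
    have e3 : 1.3 * (D * (B.om * (x 2) ^ 2)) ≤ 0.1 := by
      have e4 : (x 2) ^ 2 ≤ Z1 ^ 2 := pow_le_pow_left₀ q3.le q5 2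
      have e5 := N.Zom
      have e6 : D * (B.om * (x 2) ^ 2) ≤ C * D * P * (B.om * Z1 ^ 2) := by
        have e7 : D * (B.om * (x 2) ^ 2) ≤ D * (B.om * Z1 ^ 2) := by gcongr
        have e8 : D * (B.om * Z1 ^ 2) ≤ C * D * P * (B.om * Z1 ^ 2) := by
          refine mul_le_mul_of_nonneg_right ?_ (by positivity)
          have : 1 * D * 1 ≤ C * D * P := by gcongr
          linarith
        linarith
      nlinarith
    have e9 : 0 ≤ lam / B.om ^ 2 / ‖x‖ ^ 4 * (C * e0) := by positivity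
    calc _ ≤ lam / B.om ^ 2 / ‖x‖ ^ 4 * (C * e0) * 0.1 := mul_le_mul_of_nonneg_left e3 e9
      _ = _ := by ring
  have hthird := third_eq (κ := κ) N ht
  unfold shf prf
  rw [hthird, ← heS, ← heT, ← he0]
  have hlo : 0 < lam / B.om ^ 2 / ‖x‖ ^ 4 := by
    have := N.lo
    positivity
  generalize lam / B.om ^ 2 / ‖x‖ ^ 4 = L at *
  have d1 : P * (CX.SS D κS (2 * (1 - lam)) (-1) x + CX.SS D κT (2 * (1 - lam)) (-1) x +
      lam / B.om * (x 2 / ‖x‖ ^ 3) * CX.OO D κ (2 * (1 - lam)) (-1) x +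
      L * CX.SS D κ (2 * (1 - lam)) (-1) x) ≤
      P * (C * (1.3 * eS) + C * (1.3 * eT) + L * (C * (0.1 * e0)) + L * (C * (1.3 * e0))) :=
    mul_le_mul_of_nonneg_left (by linarith) (by linarith)
  refine h2.trans (d1.trans ?_)
  have d2 : P * (C * (1.3 * eS) + C * (1.3 * eT) + L * (C * (0.1 * e0)) + L * (C * (1.3 * e0))) =
      C * P * (1.3 * eS + 1.3 * eT + 1.4 * (L * e0)) := by ring
  have d3 : 3 * C * P * (eS + eT + L * e0) = C * P * (3 * eS + 3 * eT + 3 * (L * e0)) := by ring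
  rw [d2, d3]
  refine mul_le_mul_of_nonneg_left ?_ (by positivity)
  have : 0 < L * e0 := by positivity
  linarith

/-- lower bound of the model function -/
theorem exp_le_Em (hk : 9 / 10 ≤ κ ∧ κ ≤ 11 / 10) (hl0 : 0 ≤ lam) (hl : lam ≤ 1 / 100)
    {t : ℝ} (ht : 100 ≤ t) : 0.9 * Real.exp (-(κ * t)) ≤ Em κ (px κ lam) 1 t := by
  have h0 : 0 < t := by linarith
  obtain ⟨u0, u1⟩ := XM.u_bounds ht
  rw [Em_eq h0]
  have hp : 0 ≤ px κ lam := by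
    have := (mpar hk hl0 hl (Or.inl rfl)).p1
    have e : px κ lam = 2 * (1 - lam) / κ - 1 := rfl
    rw [e]; linarith
  have h1 : (1 : ℝ) ≤ t ^ (px κ lam) := Real.one_le_rpow (by linarith) hp
  have h2 := Real.exp_pos (-(κ * t))
  unfold ee
  have h3 : Real.exp (-(κ * t)) * 1 ≤ Real.exp (-(κ * t)) * t ^ (px κ lam) :=
    mul_le_mul_of_nonneg_left h1 h2.le
  have h4 : Real.exp (-(κ * t)) * 1 * 0.9 ≤
      Real.exp (-(κ * t)) * t ^ (px κ lam) * (1 - 1 * (√t)⁻¹) :=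
    mul_le_mul h3 (by linarith) (by norm_num) (by positivity)
  linarith

set_option maxHeartbeats 1600000 in
/-- the pointwise bounds of all error terms -/
theorem err_bounds (hsl : SlabC C) (N : Num C P D B.om B.a K1 K2 R1 lam Z1 dp)
    (h : COut B P K1 K2 R1 lam κ κS κT s s1 s2 F w0 X sig gs gs1 gs2 gF) :
    ∀ᵐ x, x ∈ PL.Dom R1 Z1 →
      2 * cC P K1 lam κ B.a s1 x ≤ B.om * shf C P κS κT κ lam B.om x ∧
      2 * eC K1 K2 lam κ B.a s1 s2 x ≤ 4.4 * B.om * shf C P κS κT κ lam B.om x ∧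
      4 * (lam / ‖x‖ ^ 4) * F x ≤ dp * shf C P κS κT κ lam B.om x := by
  filter_upwards [F_le hsl N h, s1_le N h, s2_le hsl N h, h.Flow] with x hF hs1 hs2 hFlow hx
  obtain ⟨q1, q2, q3, q4, q5⟩ := dom_slab N hx
  have hl1 : lam ≤ 1 / 100 := by linarith [N.l1]
  have hC := N.C1
  have hP := N.P1
  have hD := N.D4
  have ho := N.om0
  have ho1 := N.om1
  have hl := N.l0
  have hK1 := N.K10
  have hK2 := N.K20
  have ht : (100 : ℝ) ≤ ‖x‖ := by linarith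
  have hr : 0 < ‖x‖ := by linarith
  have hrR : R1 ≤ ‖x‖ := hx.1.le
  have pS := Em_pos (mpar h.κS_rng N.l0.le hl1 (Or.inl rfl)) ht
  have pT := Em_pos (mpar h.κT_rng N.l0.le hl1 (Or.inl rfl)) ht
  have pk := Em_pos (mpar h.κ_rng N.l0.le hl1 (Or.inl rfl)) ht
  have hexp := exp_le_Em h.κ_rng N.l0.le hl1 ht
  have hthird := third_eq (κ := κ) N ht
  have hsh : shf C P κS κT κ lam B.om x = 3 * C * P * (Em κS (px κS lam) 1 ‖x‖ +
      Em κT (px κT lam) 1 ‖x‖ + lam / B.om ^ 2 / ‖x‖ ^ 4 * Em κ (px κ lam) 1 ‖x‖) := by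
    unfold shf prf
    rw [hthird]
  have pS' : 0 < Em κS (px κS lam) 1 ‖x‖ := pS
  have pT' : 0 < Em κT (px κT lam) 1 ‖x‖ := pT
  have pk' : 0 < Em κ (px κ lam) 1 ‖x‖ := pk
  have hFx := hF hx
  have hs2x := hs2 hx
  -- `F ≥ 0`
  have hF0 : 0 ≤ F x := by
    obtain ⟨c, hc, hcc⟩ := half_calc
    have h4 := (hcc κ (2 * (1 - lam)) D x (kq h.κ_rng N.l0.le hl1) N.D4 (N.RD.trans hrR) q3.le).1
    have h5 := hFlow (dom_upExt hx)
    have h6 : 0 < ‖x - nuc D‖ := by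
      have h2 := (dist_slab N.D4 q2).1
      rw [abs_le] at h2
      linarith [h2.1]
    rw [EE_eq_Em h6] at h4
    have h7 := Em_pos (mpar h.κ_rng N.l0.le hl1 (Or.inr rfl)) (t := ‖x - nuc D‖) (by
      have h2 := (dist_slab N.D4 q2).1
      rw [abs_le] at h2
      linarith [h2.1])
    have h8 : 0 < min 1 (D * x 2 / ‖x‖) := lt_min one_pos (by positivity)
    have h9 : 0 < P * F x := lt_of_lt_of_le (by positivity) (h4.trans h5)
    by_contra hn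
    push Not at hn
    have : P * F x ≤ 0 := mul_nonpos_of_nonneg_of_nonpos (by linarith) hn.le
    linarith
  have hs1x := hs1 hx hF0
  obtain ⟨e0, he0⟩ : ∃ e, e = Em κ (px κ lam) 1 ‖x‖ := ⟨_, rfl⟩
  obtain ⟨T, hT⟩ : ∃ T, T = lam / B.om ^ 2 / ‖x‖ ^ 4 * e0 := ⟨_, rfl⟩
  rw [← he0] at pk' hexp hsh hFx
  have hTpos : 0 < T := by
    rw [hT]
    have := N.lo
    positivity
  have hlT : lam / ‖x‖ ^ 4 * e0 = B.om ^ 2 * T := by
    rw [hT]
    field_simp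
  have hshT : 3 * C * P * T ≤ shf C P κS κT κ lam B.om x := by
    rw [hsh, ← hT]
    refine mul_le_mul_of_nonneg_left ?_ (by positivity)
    linarith
  have hshT1 : 3 * (P * T) ≤ shf C P κS κT κ lam B.om x := by
    refine le_trans ?_ hshT
    have : 1 * (3 * (P * T)) ≤ C * (3 * (P * T)) := mul_le_mul_of_nonneg_right hC (by positivity)
    linarith
  have hshT2 : 3 * T ≤ shf C P κS κT κ lam B.om x := by
    refine le_trans ?_ hshT1
    have : 1 * (3 * T) ≤ P * (3 * T) := mul_le_mul_of_nonneg_right hP (by positivity)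
    linarith
  obtain ⟨sh, hshd⟩ : ∃ sh, sh = shf C P κS κT κ lam B.om x := ⟨_, rfl⟩
  rw [← hshd] at hshT hshT1 hshT2 hs2x
  rw [← hshd]
  have hsh0 : 0 < sh := by linarith
  have hzr : x 2 / ‖x‖ ≤ 1 := by
    rw [div_le_one hr]
    have : |x 2| ≤ ‖x‖ := by simpa using PiLp.norm_apply_le x 2
    linarith
  have hzr0 : 0 ≤ x 2 / ‖x‖ := by positivity
  have hs1' : s1 x ≤ 2.6 * (P * C * D) * (x 2 / ‖x‖) * e0 := by linarith
  have hs1'' : s1 x ≤ 2.6 * (P * C * D) * e0 := by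
    refine hs1'.trans ?_
    have : 2.6 * (P * C * D) * (x 2 / ‖x‖) * e0 ≤ 2.6 * (P * C * D) * 1 * e0 := by gcongr
    linarith
  -- (2)
  have t2 : lam * (P * |x 2| / ‖x‖ ^ 3) * s1 x ≤ 0.001 * (B.om * sh) := by
    rw [q4]
    have a1 : lam * (P * x 2 / ‖x‖ ^ 3) * s1 x ≤
        lam * (P * x 2 / ‖x‖ ^ 3) * (2.6 * (P * C * D) * (x 2 / ‖x‖) * e0) :=
      mul_le_mul_of_nonneg_left hs1' (by positivity)
    have a2 : lam * (P * x 2 / ‖x‖ ^ 3) * (2.6 * (P * C * D) * (x 2 / ‖x‖) * e0) =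
        2.6 * P * (C * D * P * (x 2) ^ 2) * (lam / ‖x‖ ^ 4 * e0) := by
      field_simp
    have a3 : 1000 * (C * D * P * (B.om * (x 2) ^ 2)) ≤ 1 := by
      have a4 : (x 2) ^ 2 ≤ Z1 ^ 2 := pow_le_pow_left₀ q3.le q5 2
      have a5 : C * D * P * (B.om * (x 2) ^ 2) ≤ C * D * P * (B.om * Z1 ^ 2) := by gcongr
      linarith [N.Zom]
    have a6 : 2.6 * P * (C * D * P * (x 2) ^ 2) * (lam / ‖x‖ ^ 4 * e0) =
        2.6 * (C * D * P * (B.om * (x 2) ^ 2)) * (B.om * (P * T)) := by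
      rw [hlT]; ring
    have a7 : 2.6 * (C * D * P * (B.om * (x 2) ^ 2)) * (B.om * (P * T)) ≤
        0.0026 * (B.om * (P * T)) := mul_le_mul_of_nonneg_right (by linarith) (by positivity)
    have a8 : B.om * (3 * (P * T)) ≤ B.om * sh := mul_le_mul_of_nonneg_left hshT1 ho.le
    have a9 : 0 < B.om * sh := by positivity
    linarith [a1.trans (a2.le.trans (a6.le.trans a7))]
  -- (3)
  have t3 : lam * (K1 * Real.exp (-(B.a / 2) * ‖x‖)) * s1 x ≤ B.om * T := by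
    have hE := (Real.exp_pos (-(B.a / 2) * ‖x‖)).le
    have a1 : lam * (K1 * Real.exp (-(B.a / 2) * ‖x‖)) * s1 x ≤
        lam * (K1 * Real.exp (-(B.a / 2) * ‖x‖)) * (2.6 * (P * C * D) * e0) :=
      mul_le_mul_of_nonneg_left hs1'' (by positivity)
    have a2 : lam * (K1 * Real.exp (-(B.a / 2) * ‖x‖)) * (2.6 * (P * C * D) * e0) =
        2.6 * (K1 * (P * C * D)) * (‖x‖ ^ 4 * Real.exp (-(B.a / 2) * ‖x‖)) *
          (lam / ‖x‖ ^ 4 * e0) := by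
      field_simp
    have a3 := N.Rexp1 ‖x‖ hrR
    have a4 : 2.6 * (K1 * (P * C * D)) * (‖x‖ ^ 4 * Real.exp (-(B.a / 2) * ‖x‖)) *
          (lam / ‖x‖ ^ 4 * e0) = (2.6 / 6) * (K1 * (6 * (P * C * D)) * B.om *
            (‖x‖ ^ 4 * Real.exp (-(B.a / 2) * ‖x‖))) * (B.om * T) := by
      rw [hlT]; ring
    have a5 : (2.6 / 6) * (K1 * (6 * (P * C * D)) * B.om *
            (‖x‖ ^ 4 * Real.exp (-(B.a / 2) * ‖x‖))) * (B.om * T) ≤ 1 * (B.om * T) := by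
      refine mul_le_mul_of_nonneg_right ?_ (by positivity)
      linarith
    linarith [a1.trans (a2.le.trans (a4.le.trans a5))]
  -- (4)
  have t4 : K1 * lam * Real.exp (-(κ + B.a / 4) * ‖x‖) ≤ 0.4 * (B.om * T) := by
    have hE := (Real.exp_pos (-(B.a / 4) * ‖x‖)).le
    have a0 : Real.exp (-(κ + B.a / 4) * ‖x‖) =
        Real.exp (-(κ * ‖x‖)) * Real.exp (-(B.a / 4) * ‖x‖) := by
      rw [← Real.exp_add]; ring_nf
    have a1 : K1 * lam * Real.exp (-(κ + B.a / 4) * ‖x‖) ≤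
        K1 * lam * ((e0 / 0.9) * Real.exp (-(B.a / 4) * ‖x‖)) := by
      rw [a0]
      refine mul_le_mul_of_nonneg_left (mul_le_mul_of_nonneg_right ?_ hE) (by positivity)
      rw [le_div_iff₀ (by norm_num)]
      linarith
    have a2 : K1 * lam * ((e0 / 0.9) * Real.exp (-(B.a / 4) * ‖x‖)) =
        (1 / 0.9) * (K1 * (‖x‖ ^ 4 * Real.exp (-(B.a / 4) * ‖x‖))) * (lam / ‖x‖ ^ 4 * e0) := by
      field_simp
    have a3 := N.Rexp2 ‖x‖ hrR
    have a4 : (1 / 0.9) * (K1 * (‖x‖ ^ 4 * Real.exp (-(B.a / 4) * ‖x‖))) *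
        (lam / ‖x‖ ^ 4 * e0) = (1 / 2.7) * (K1 * 3 * B.om *
          (‖x‖ ^ 4 * Real.exp (-(B.a / 4) * ‖x‖))) * (B.om * T) := by
      rw [hlT]; norm_num; ring
    have a5 : (1 / 2.7) * (K1 * 3 * B.om *
          (‖x‖ ^ 4 * Real.exp (-(B.a / 4) * ‖x‖))) * (B.om * T) ≤ (1 / 2.7) * 1 * (B.om * T) := by
      gcongr
    have a6 : (1 / 2.7 : ℝ) * 1 * (B.om * T) ≤ 0.4 * (B.om * T) := by
      have : 0 < B.om * T := by positivity
      norm_num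
      linarith
    linarith [a1.trans (a2.le.trans (a4.le.trans (a5.trans a6)))]
  -- (5)
  have t5 : K2 * lam ^ 2 / ‖x‖ ^ 4 * s1 x ≤ 0.1 * (B.om * T) := by
    have a1 : K2 * lam ^ 2 / ‖x‖ ^ 4 * s1 x ≤
        K2 * lam ^ 2 / ‖x‖ ^ 4 * (2.6 * (P * C * D) * e0) :=
      mul_le_mul_of_nonneg_left hs1'' (by positivity)
    have a2 : K2 * lam ^ 2 / ‖x‖ ^ 4 * (2.6 * (P * C * D) * e0) =
        (2.6 / 3) * (K2 * lam * (3 * (P * C * D))) * (lam / ‖x‖ ^ 4 * e0) := by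
      ring
    have a3 := N.lK2
    have a4 : (2.6 / 3) * (K2 * lam * (3 * (P * C * D))) * (lam / ‖x‖ ^ 4 * e0) ≤
        1 * (lam / ‖x‖ ^ 4 * e0) := by
      refine mul_le_mul_of_nonneg_right ?_ (by positivity)
      linarith
    have a5 : B.om * (B.om * T) ≤ 0.1 * (B.om * T) :=
      mul_le_mul_of_nonneg_right (by linarith) (by positivity)
    have a6 : (1 : ℝ) * (lam / ‖x‖ ^ 4 * e0) = B.om * (B.om * T) := by
      rw [hlT]; ring
    linarith [a1.trans (a2.le.trans (a4.trans (a6.le.trans a5)))]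
  -- (6)
  have t6 : K2 * lam * (|x 2| / ‖x‖ ^ 2 + Real.exp (-(B.a / 2) * ‖x‖)) * s2 x ≤
      2 * (B.om * sh) := by
    have hs20 := h.nn2 x
    have a1 : |x 2| / ‖x‖ ^ 2 ≤ 1 := by
      rw [q4, div_le_one (by positivity)]
      have h1 : x 2 ≤ ‖x‖ := by
        rw [div_le_one hr] at hzr; exact hzr
      have h1' : ‖x‖ * 1 ≤ ‖x‖ * ‖x‖ := mul_le_mul_of_nonneg_left (by linarith) hr.le
      rw [pow_two]
      linarith
    have a2 : Real.exp (-(B.a / 2) * ‖x‖) ≤ 1 := by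
      rw [Real.exp_le_one_iff]
      have := N.a0
      have : 0 ≤ B.a / 2 * ‖x‖ := by positivity
      linarith
    have a3 : K2 * lam * (|x 2| / ‖x‖ ^ 2 + Real.exp (-(B.a / 2) * ‖x‖)) ≤ K2 * lam * (1 + 1) :=
      mul_le_mul_of_nonneg_left (by linarith) (by positivity)
    have a4 : K2 * lam * (|x 2| / ‖x‖ ^ 2 + Real.exp (-(B.a / 2) * ‖x‖)) * s2 x ≤
        K2 * lam * (1 + 1) * sh :=
      mul_le_mul a3 hs2x hs20 (by positivity)
    have a5 : K2 * lam ≤ B.om := by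
      have a55 := N.lK
      have a56 : (2 * K2 + 4) * lam = 2 * (K2 * lam) + 4 * lam := by ring
      have a57 : 0 ≤ K2 * lam := by positivity
      linarith
    have a6 : K2 * lam * sh ≤ B.om * sh := mul_le_mul_of_nonneg_right a5 hsh0.le
    linarith
  have hoT : B.om * (3 * T) ≤ B.om * sh := mul_le_mul_of_nonneg_left hshT2 ho.le
  refine ⟨?_, ?_, ?_⟩
  · unfold cC
    have e1 : 2 * (lam * (P * |x 2| / ‖x‖ ^ 3 + K1 * Real.exp (-(B.a / 2) * ‖x‖)) * s1 x +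
        K1 * lam * Real.exp (-(κ + B.a / 4) * ‖x‖)) =
        2 * (lam * (P * |x 2| / ‖x‖ ^ 3) * s1 x) +
        2 * (lam * (K1 * Real.exp (-(B.a / 2) * ‖x‖)) * s1 x) +
        2 * (K1 * lam * Real.exp (-(κ + B.a / 4) * ‖x‖)) := by ring
    rw [e1]
    have : 0 < B.om * T := by positivity
    linarith
  · unfold eC
    have : 0 < B.om * T := by positivity
    have e2 : 4.4 * B.om * sh = 4.4 * (B.om * sh) := by ring
    rw [e2]
    linarith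
  · have a1 : 4 * (lam / ‖x‖ ^ 4) * F x ≤
        4 * (lam / ‖x‖ ^ 4) * (1.3 * (P * C * D) * 1 * e0) := by
      refine mul_le_mul_of_nonneg_left (hFx.trans ?_) (by positivity)
      gcongr
    have a2 : 4 * (lam / ‖x‖ ^ 4) * (1.3 * (P * C * D) * 1 * e0) =
        5.2 * (C * D) * (P * (lam / ‖x‖ ^ 4 * e0)) := by ring
    have a3 : 5.2 * (C * D) * (P * (lam / ‖x‖ ^ 4 * e0)) =
        (2.6 / 3) * (2 * D * B.om ^ 2) * (3 * C * P * T) := by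
      rw [hlT]; ring
    have a4 : (2.6 / 3) * (2 * D * B.om ^ 2) * (3 * C * P * T) ≤ dp * sh := by
      have b1 := N.dpom
      have b2 : 0 ≤ 3 * C * P * T := by positivity
      have b3 := N.dp0
      have b4 : (2.6 / 3) * (2 * D * B.om ^ 2) ≤ dp := by
        have : 0 ≤ 2 * D * B.om ^ 2 := by positivity
        linarith
      exact mul_le_mul b4 hshT b2 b3.le
    linarith [a1.trans (a2.le.trans (a3.le.trans a4))]

/-- `RQ` with the sources of `COut` -/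
theorem rq (hsl : SlabC C) (N : Num C P D B.om B.a K1 K2 R1 lam Z1 dp)
    (h : COut B P K1 K2 R1 lam κ κS κT s s1 s2 F w0 X sig gs gs1 gs2 gF) {om : ℝ}
    (ho0 : 0 < om) (ho : om ≤ 2 * B.om) :
    PL.RQ om R1 Z1 dp (fun x => 2 * eC K1 K2 lam κ B.a s1 s2 x)
      (fun x => 2 * cC P K1 lam κ B.a s1 x) s2 (shf C P κS κT κ lam B.om) := by
  filter_upwards [err_bounds hsl N h, s2_le hsl N h] with x h1 h2 hx
  obtain ⟨a1, a2, a3⟩ := h1 hx
  have a4 := h2 hx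
  have hs2 := h.nn2 x
  have hsh : 0 ≤ shf C P κS κT κ lam B.om x := hs2.trans a4
  generalize shf C P κS κT κ lam B.om x = sh at *
  have hB := N.om0
  have e1 : 2 * om * s2 x ≤ 4 * (B.om * sh) := by
    have : om * s2 x ≤ (2 * B.om) * sh := mul_le_mul ho a4 hs2 (by linarith)
    linarith
  have e2 : 8 * om * (4 + dp) * sh ≤ 80 * (B.om * sh) := by
    have h3 : om * (4 + dp) ≤ (2 * B.om) * 5 :=
      mul_le_mul ho (by linarith [N.dp1]) (by linarith [N.dp0]) (by linarith)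
    have h4 := mul_le_mul_of_nonneg_right h3 hsh
    linarith
  have e3 : 8 * (1000 * (B.om * sh)) ≤ 8 * sh / Z1 ^ 2 := by
    have hZ := N.Z0
    rw [le_div_iff₀ (by positivity)]
    have h5 : 1000 * (B.om * Z1 ^ 2) ≤ 1 := by
      refine le_trans ?_ N.Zom
      have h6 : 1 * 1 * 1 ≤ C * D * P := by
        have := N.C1
        have := N.D4
        have := N.P1
        gcongr
        linarith
      have h7 : 0 ≤ B.om * Z1 ^ 2 := by positivity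
      have := mul_le_mul_of_nonneg_right h6 h7
      linarith
    have := mul_le_mul_of_nonneg_right h5 hsh
    linarith
  have hb : 0 ≤ B.om * sh := by positivity
  linarith

/-- `eLow ≤ C P s2` -/
theorem eLow_le (hsl : SlabC C) (N : Num C P D B.om B.a K1 K2 R1 lam Z1 dp)
    (h : COut B P K1 K2 R1 lam κ κS κT s s1 s2 F w0 X sig gs gs1 gs2 gF) :
    ∀ᵐ x, x ∈ PL.Dom R1 Z1 →
      CX.eLow κS κ (2 * (1 - lam)) lam B.om ‖x‖ ≤ C * P * s2 x := by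
  filter_upwards [h.s2low] with x h1 hx
  have h2 := h1 (dom_upExt hx)
  obtain ⟨q1, q2, q3, q4, q5⟩ := dom_slab N hx
  have hl1 : lam ≤ 1 / 100 := by linarith [N.l1]
  have hC := N.C1
  have a1 := (hsl κS (2 * (1 - lam)) D x (kq h.κS_rng N.l0.le hl1) N.D4 q1 q2).2.1
  have a3 := (hsl κ (2 * (1 - lam)) D x (kq h.κ_rng N.l0.le hl1) N.D4 q1 q2).2.1
  have hL : 0 ≤ lam / B.om ^ 2 / ‖x‖ ^ 4 := by
    have := N.lo
    positivity
  unfold CX.eLow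
  generalize lam / B.om ^ 2 / ‖x‖ ^ 4 = L at *
  have a4 := mul_le_mul_of_nonneg_left a3 hL
  have a5 := mul_le_mul_of_nonneg_left h2 (by linarith : (0 : ℝ) ≤ C)
  linarith

/-- `ŝ ≤ 51 C P eLow` -/
theorem shf_le_eLow (N : Num C P D B.om B.a K1 K2 R1 lam Z1 dp)
    (h : COut B P K1 K2 R1 lam κ κS κT s s1 s2 F w0 X sig gs gs1 gs2 gF) {x : Pos3}
    (hx : 100 ≤ ‖x‖) :
    shf C P κS κT κ lam B.om x ≤
      51 * (C * P) * CX.eLow κS κ (2 * (1 - lam)) lam B.om ‖x‖ := by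
  have hl1 : lam ≤ 1 / 100 := by linarith [N.l1]
  have hC := N.C1
  have hP := N.P1
  have hl0 := N.l0
  have hom := N.om0
  have bS := (EE_sign h.κS_rng N.l0.le hl1 hx).2
  have bT := (EE_sign h.κT_rng N.l0.le hl1 hx).2
  have bk := (EE_sign h.κ_rng N.l0.le hl1 hx).2
  have hL : 0 ≤ lam / B.om ^ 2 / ‖x‖ ^ 4 := by
    have := N.lo
    positivity
  have pS : 0 ≤ CX.EE κS (2 * (1 - lam)) 1 ‖x‖ :=
    (Em_pos (mpar h.κS_rng N.l0.le hl1 (Or.inl rfl)) hx).le.trans bS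
  have pk : 0 ≤ CX.EE κ (2 * (1 - lam)) 1 ‖x‖ :=
    (Em_pos (mpar h.κ_rng N.l0.le hl1 (Or.inl rfl)) hx).le.trans bk
  have hthird := third_eq (κ := κ) N hx
  -- the third term
  have cT : CX.EE κT (2 * (1 - lam)) 1 ‖x‖ ≤
      16 * CX.eLow κS κ (2 * (1 - lam)) lam B.om ‖x‖ := by
    have hlow : CX.EE κS (2 * (1 - lam)) 1 ‖x‖ ≤
        CX.eLow κS κ (2 * (1 - lam)) lam B.om ‖x‖ := by
      unfold CX.eLow
      have := mul_nonneg hL pk
      linarith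
    rcases le_total κS κT with hc | hc
    · have h1 := rate_le (kq h.κS_rng N.l0.le hl1) (kq h.κT_rng N.l0.le hl1) hc le_rfl
        (by norm_num : |(1 : ℝ)| ≤ 1) (by linarith : 1 ≤ ‖x‖)
      have h2 : Real.exp (-(κT - κS) * ‖x‖) ≤ 1 := by
        rw [Real.exp_le_one_iff]
        have : 0 ≤ (κT - κS) * ‖x‖ := mul_nonneg (by linarith) (norm_nonneg _)
        linarith
      have h3 : 2 * Real.exp (-(κT - κS) * ‖x‖) * CX.EE κS (2 * (1 - lam)) 1 ‖x‖ ≤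
          2 * 1 * CX.EE κS (2 * (1 - lam)) 1 ‖x‖ :=
        mul_le_mul_of_nonneg_right (by linarith) pS
      linarith
    · have h1 := rate_le (kq2 h.κT_rng) (kq h.κT_rng N.l0.le hl1) le_rfl
        (by linarith : 2 * (1 - lam) ≤ 2)
        (by norm_num : |(1 : ℝ)| ≤ 1) (by linarith : 1 ≤ ‖x‖)
      have e1 : Real.exp (-(κT - κT) * ‖x‖) = 1 := by simp
      rw [e1] at h1
      have k1 := h.κ_near
      have k2 := h.κS_near
      have k3 := h.κT_near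
      rw [abs_le] at k1 k2 k3
      have hlK := N.lK
      have hB : B.om = B.eu - B.eg := rfl
      have hK2 := N.K20
      have e2 : (2 * K2 + 4) * lam = 2 * (K2 * lam) + 4 * lam := by ring
      have hsq : lam ≤ √lam := by
        rw [Real.le_sqrt' hl0]
        nlinarith
      have h2 := N.nat κ κS κT (kq2 h.κ_rng) (kq2 h.κS_rng) (kq2 h.κT_rng)
        (by linarith [k1.2, k3.1]) (pow_le_pow_left₀ (by linarith [h.κT_rng.1]) hc 2)
        (by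
          have : 2 * K2 * lam ≤ 2 * K2 * √lam := mul_le_mul_of_nonneg_left hsq (by positivity)
          linarith [k2.2, k3.1]) ‖x‖ hx
      linarith
  unfold shf prf
  rw [hthird]
  have d1 : Em κS (px κS lam) 1 ‖x‖ + Em κT (px κT lam) 1 ‖x‖ +
      lam / B.om ^ 2 / ‖x‖ ^ 4 * Em κ (px κ lam) 1 ‖x‖ ≤
      17 * CX.eLow κS κ (2 * (1 - lam)) lam B.om ‖x‖ := by
    have d2 := mul_le_mul_of_nonneg_left bk hL
    have d3 : CX.eLow κS κ (2 * (1 - lam)) lam B.om ‖x‖ = CX.EE κS (2 * (1 - lam)) 1 ‖x‖ +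
        lam / B.om ^ 2 / ‖x‖ ^ 4 * CX.EE κ (2 * (1 - lam)) 1 ‖x‖ := rfl
    linarith
  have := mul_le_mul_of_nonneg_left d1 (by positivity : (0 : ℝ) ≤ 3 * C * P)
  linarith

/-- `ŝ ≤ 51 C² P² s2` -/
theorem shf_le_s2 (hsl : SlabC C) (N : Num C P D B.om B.a K1 K2 R1 lam Z1 dp)
    (h : COut B P K1 K2 R1 lam κ κS κT s s1 s2 F w0 X sig gs gs1 gs2 gF) :
    ∀ᵐ x, x ∈ PL.Dom R1 Z1 →
      shf C P κS κT κ lam B.om x ≤ 51 * (C * P) ^ 2 * s2 x := by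
  filter_upwards [eLow_le hsl N h] with x h1 hx
  have h2 := h1 hx
  have h3 := shf_le_eLow N h (x := x) (by linarith [(dom_slab N hx).1])
  have hC := N.C1
  have hP := N.P1
  have h4 := mul_le_mul_of_nonneg_left h2 (by positivity : (0 : ℝ) ≤ 51 * (C * P))
  linarith

/-- lower bound of `ŝ` on the shell -/
theorem shf_ge (N : Num C P D B.om B.a K1 K2 R1 lam Z1 dp)
    (h : COut B P K1 K2 R1 lam κ κS κT s s1 s2 F w0 X sig gs gs1 gs2 gF) {x : Pos3}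
    (hx : 100 ≤ ‖x‖) : Real.exp (-(1.1 * ‖x‖)) ≤ shf C P κS κT κ lam B.om x := by
  have hl1 : lam ≤ 1 / 100 := by linarith [N.l1]
  have hC := N.C1
  have hP := N.P1
  have hl0 := N.l0
  have h1 := exp_le_Em h.κS_rng N.l0.le hl1 hx
  have h2 : Real.exp (-(1.1 * ‖x‖)) ≤ Real.exp (-(κS * ‖x‖)) := by
    refine Real.exp_le_exp.2 ?_
    have := mul_le_mul_of_nonneg_right h.κS_rng.2 (norm_nonneg x)
    norm_num at this ⊢
    linarith
  have pT : 0 < Em κT (px κT lam) 1 ‖x‖ := Em_pos (mpar h.κT_rng N.l0.le hl1 (Or.inl rfl)) hx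
  have pk := mul_pos N.lo (Em4_pos (mpar h.κ_rng N.l0.le hl1 (Or.inl rfl)) hx)
  have pk' : 0 < lam / B.om ^ 2 * Em κ (px κ lam - 4) 1 ‖x‖ := pk
  unfold shf prf
  have h3 : 3 * 1 * 1 * (0.9 * Real.exp (-(κS * ‖x‖))) ≤ 3 * C * P * (Em κS (px κS lam) 1 ‖x‖ +
      Em κT (px κT lam) 1 ‖x‖ + lam / B.om ^ 2 * Em κ (px κ lam - 4) 1 ‖x‖) := by
    have := Real.exp_pos (-(κS * ‖x‖))
    gcongr
    linarith
  have := Real.exp_pos (-(κS * ‖x‖))
  linarith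

end

end Crest.Agent.R335.PLS
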