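import Crest.Agent.R335.CIfaceX
import Crest.Agent.R335.PLCalc

/-!
Row 335 (S0521), C.6 (lower bound), explicit half: the radial supersolution `ŝ`.
-/

set_option autoImplicit false
set_option linter.unusedSectionVars false

open MeasureTheory Filter Set Crest.MathPhysics.ThreeBody
open scoped ENNReal Topology ContDiff

noncomputable section
namespace Crest.Agent.R335.PLS
open Crest.Agent.R335

/-! ### one-dimensional facts -/

theorem mpar {κ lam : ℝ} (h : 9 / 10 ≤ κ ∧ κ ≤ 11 / 10) (hl0 : 0 ≤ lam) (hl : lam ≤ 1 / 100)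
    {σ : ℝ} (hσ : σ = 1 ∨ σ = -1) :
    MPar κ (2 * (1 - lam)) (2 * (1 - lam) / κ - 1) σ where
  k1 := by norm_num; linarith [h.1]
  k2 := by norm_num; linarith [h.2]
  q1 := by norm_num; linarith
  q2 := by linarith
  hp := by
    have : κ ≠ 0 := by linarith [h.1]
    field_simp
    ring
  hσ := hσ

theorem exp_le31 : Real.exp 1.12 ≤ 3.1 := by
  have h1 := Real.exp_one_lt_d9
  have h2 : Real.exp 0.12 ≤ 1 / (1 - 0.12) := by
    have h3 : (1 : ℝ) - 0.12 ≤ Real.exp (-0.12) := by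
      have := Real.add_one_le_exp (-0.12 : ℝ)
      linarith
    rw [Real.exp_neg] at h3
    have h4 : 0 < Real.exp 0.12 := Real.exp_pos _
    rw [le_div_iff₀ (by norm_num)]
    calc Real.exp 0.12 * (1 - 0.12) ≤ Real.exp 0.12 * (Real.exp 0.12)⁻¹ :=
          mul_le_mul_of_nonneg_left h3 h4.le
      _ = 1 := mul_inv_cancel₀ h4.ne'
  have h5 : Real.exp 1.12 = Real.exp 1 * Real.exp 0.12 := by
    rw [← Real.exp_add]; norm_num
  rw [h5]
  calc Real.exp 1 * Real.exp 0.12 ≤ 2.7182818286 * (1 / (1 - 0.12)) :=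
        mul_le_mul h1.le h2 (Real.exp_pos _).le (by norm_num)
    _ ≤ 3.1 := by norm_num

/-- comparison at distance at most one -/
theorem Em_shift {κ Q p σ : ℝ} (h : MPar κ Q p σ) {a b : ℝ} (ha : 100 ≤ a) (hb : 100 ≤ b)
    (hab : b - a ≤ 1) : Em κ p σ a ≤ 3.1 * Em κ p σ b := by
  have hpb := Em_pos h hb
  rcases le_total b a with h1 | h1
  · have := Em_anti h hb h1
    linarith
  · have h2 := Em_decay_ge h ha h1
    have h3 : Real.exp (1.01 * κ * (b - a)) ≤ 3.1 := by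
      refine le_trans (Real.exp_le_exp.2 ?_) exp_le31
      have hk := h.k2
      have hk1 := h.k1
      have : κ * (b - a) ≤ 1.1 * 1 := mul_le_mul hk hab (by linarith) (by norm_num)
      linarith
    have h4 : Em κ p σ a = Em κ p σ a * Real.exp (-(1.01 * κ * (b - a))) *
        Real.exp (1.01 * κ * (b - a)) := by
      rw [mul_assoc, ← Real.exp_add]; simp
    rw [h4]
    calc Em κ p σ a * Real.exp (-(1.01 * κ * (b - a))) * Real.exp (1.01 * κ * (b - a)) ≤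
        Em κ p σ b * 3.1 := mul_le_mul h2 h3 (Real.exp_pos _).le hpb.le
      _ = 3.1 * Em κ p σ b := by ring

/-- the shifted exponent -/
theorem Em_sub_four (κ p σ : ℝ) {t : ℝ} (ht : 0 < t) :
    Em κ (p - 4) σ t = Em κ p σ t / t ^ 4 := by
  have h4 : ∀ s : ℝ, ee κ (s - 4) t = ee κ s t / t ^ 4 := by
    intro s
    unfold ee
    rw [Real.rpow_sub ht]
    norm_num
    rw [mul_div_assoc]
  unfold Em
  have e : p - 4 - 1 / 2 = p - 1 / 2 - 4 := by ring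
  rw [e, h4, h4]
  ring

theorem Em4_pos {κ Q p σ : ℝ} (h : MPar κ Q p σ) {t : ℝ} (ht : 100 ≤ t) :
    0 < Em κ (p - 4) σ t := by
  rw [Em_sub_four κ p σ (by linarith)]
  have := Em_pos h ht
  have : 0 < t := by linarith
  positivity

theorem Dm4_pos {κ Q p : ℝ} (h : MPar κ Q p 1) {t : ℝ} (ht : 100 ≤ t) :
    0 < Dm κ (p - 4) 1 t := by
  have h0 : 0 < t := by linarith
  obtain ⟨u0, u1⟩ := XM.u_bounds ht
  have hA := ee_pos κ (p - 4) h0
  have p1 := h.p1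
  have p2 := h.p2
  have k1 := h.k1
  rw [Dm_eq h0]
  generalize (√t)⁻¹ = u at u0 u1
  refine mul_pos hA ?_
  have e2 : 0 ≤ u ^ 2 := by positivity
  have e3 : u ^ 3 ≤ 0.001 := by
    have : u ^ 2 ≤ 0.01 := by nlinarith
    calc u ^ 3 = u ^ 2 * u := by ring
      _ ≤ 0.01 * 0.1 := mul_le_mul this u1 u0.le (by norm_num)
      _ = 0.001 := by norm_num
  have e30 : 0 ≤ u ^ 3 := by positivity
  have e4 : κ * (1 - 1 * u) ≥ 0.9 * 0.9 := mul_le_mul k1 (by linarith) (by norm_num) (by linarith)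
  have e5 : -(p - 4) * u ^ 2 ≥ 0 := mul_nonneg (by linarith) e2
  have e6 : (4 - p + 1 / 2) * u ^ 3 ≤ 4 * 0.001 := mul_le_mul (by linarith) e3 e30 (by norm_num)
  nlinarith

theorem Wm4_nonneg {κ Q p : ℝ} (h : MPar κ Q p 1) {t : ℝ} (ht : 100 ≤ t) :
    0 ≤ XWm κ (p - 4) 1 t := by
  have h0 : 0 < t := by linarith
  obtain ⟨u0, u1⟩ := XM.u_bounds ht
  have hA := ee_pos κ (p - 4) h0
  have p1 := h.p1
  have p2 := h.p2
  have k1 := h.k1
  rw [XWm_eq h0]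
  generalize (√t)⁻¹ = u at u0 u1
  refine mul_nonneg (mul_nonneg hA.le (by positivity)) ?_
  have a1 : (p - 4) * (p - 4 + 1) ≤ 7.6 := by nlinarith
  have a2 : 0 ≤ (p - 4) * (p - 4 + 1) := by nlinarith
  have a3 : (p - 4) * (p - 4 + 1) / 2 * u ≤ 3.8 * 0.1 :=
    mul_le_mul (by linarith) u1 u0.le (by norm_num)
  have a4 : 0 ≤ (p - 4 - 1 / 2) * (p - 4 + 1 / 2) := by nlinarith
  have a5 : 0 ≤ 1 * ((p - 4 - 1 / 2) * (p - 4 + 1 / 2)) / 2 * u ^ 2 := by positivity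
  linarith

theorem Wm_nonneg1 {κ Q p : ℝ} (h : MPar κ Q p 1) {t : ℝ} (ht : 100 ≤ t) :
    0 ≤ XWm κ p 1 t := by
  rw [XWm_eq_eps h ht]
  have := epsm_nonneg h ht
  have := Em_pos h ht
  positivity

/-! ### the radial profile -/

/-- exponent of the model function with charge `2 (1 - lam)` -/
def px (κ lam : ℝ) : ℝ := 2 * (1 - lam) / κ - 1

/-- the radial profile of `ŝ` -/
def prf (κS κT κ lam om t : ℝ) : ℝ :=
  Em κS (px κS lam) 1 t + Em κT (px κT lam) 1 t + lam / om ^ 2 * Em κ (px κ lam - 4) 1 t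

/-- minus its derivative -/
def dprf (κS κT κ lam om t : ℝ) : ℝ :=
  Dm κS (px κS lam) 1 t + Dm κT (px κT lam) 1 t + lam / om ^ 2 * Dm κ (px κ lam - 4) 1 t

/-- its three dimensional Laplacian -/
def lprf (κS κT κ lam om t : ℝ) : ℝ :=
  ((κS ^ 2 - 2 * (κS * (px κS lam + 1)) / t) * Em κS (px κS lam) 1 t -
      2 * XWm κS (px κS lam) 1 t) +
    ((κT ^ 2 - 2 * (κT * (px κT lam + 1)) / t) * Em κT (px κT lam) 1 t -
      2 * XWm κT (px κT lam) 1 t) +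
    lam / om ^ 2 * ((κ ^ 2 - 2 * (κ * (px κ lam - 4 + 1)) / t) * Em κ (px κ lam - 4) 1 t -
      2 * XWm κ (px κ lam - 4) 1 t)

/-- jet of the radial function `M prf(‖x‖)` -/
theorem prf_jet (M κS κT κ lam om : ℝ) {U : Set Pos3} (hU : IsOpen U) (h0 : ∀ x ∈ U, x ≠ 0) :
    Jet U (fun x => M * prf κS κT κ lam om ‖x‖)
      (fun x => (-(M * dprf κS κT κ lam om ‖x‖ / ‖x‖)) • x)
      (fun x => M * lprf κS κT κ lam om ‖x‖) := by
  have j1 := Em_jet κS (px κS lam) 1 0 hU h0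
  have j2 := Em_jet κT (px κT lam) 1 0 hU h0
  have j3 := (Em_jet κ (px κ lam - 4) 1 0 hU h0).const_mul hU (lam / om ^ 2)
  have j4 := ((j1.add hU j2).add hU j3).const_mul hU M
  have e1 : (fun x : Pos3 => M * prf κS κT κ lam om ‖x‖) = fun x : Pos3 =>
      M * (Em κS (px κS lam) 1 ‖x - 0‖ + Em κT (px κT lam) 1 ‖x - 0‖ +
        lam / om ^ 2 * Em κ (px κ lam - 4) 1 ‖x - 0‖) := by
    funext x
    rw [sub_zero]; rfl
  rw [e1]
  refine j4.of_eq (fun x hx => ?_) (fun x hx => ?_)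
  · simp only [sub_zero]
    rw [smul_smul, ← add_smul, ← add_smul, smul_smul]
    congr 1
    unfold dprf
    ring
  · simp only [sub_zero]
    rfl

section

variable {κS κT κ lam om : ℝ}

/-- numeric conditions for the profile -/
structure PNum (κS κT κ lam om : ℝ) : Prop where
  kS : 9 / 10 ≤ κS ∧ κS ≤ 11 / 10
  kT : 9 / 10 ≤ κT ∧ κT ≤ 11 / 10
  k : 9 / 10 ≤ κ ∧ κ ≤ 11 / 10
  l0 : 0 < lam
  l1 : lam ≤ 1 / 100
  o0 : 0 < om

theorem PNum.mS (h : PNum κS κT κ lam om) : MPar κS (2 * (1 - lam)) (px κS lam) 1 :=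
  mpar h.kS h.l0.le h.l1 (Or.inl rfl)

theorem PNum.mT (h : PNum κS κT κ lam om) : MPar κT (2 * (1 - lam)) (px κT lam) 1 :=
  mpar h.kT h.l0.le h.l1 (Or.inl rfl)

theorem PNum.m (h : PNum κS κT κ lam om) : MPar κ (2 * (1 - lam)) (px κ lam) 1 :=
  mpar h.k h.l0.le h.l1 (Or.inl rfl)

theorem PNum.lo (h : PNum κS κT κ lam om) : 0 < lam / om ^ 2 := by
  have := h.l0
  have := h.o0
  positivity

theorem prf_pos (h : PNum κS κT κ lam om) {t : ℝ} (ht : 100 ≤ t) :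
    0 < prf κS κT κ lam om t := by
  have h1 := Em_pos h.mS ht
  have h2 := Em_pos h.mT ht
  have h3 := mul_pos h.lo (Em4_pos h.m ht)
  unfold prf
  linarith

theorem dprf_pos (h : PNum κS κT κ lam om) {t : ℝ} (ht : 100 ≤ t) :
    0 < dprf κS κT κ lam om t := by
  have h1 := Dm_pos h.mS ht
  have h2 := Dm_pos h.mT ht
  have h3 := mul_pos h.lo (Dm4_pos h.m ht)
  unfold dprf
  linarith

/-- the Laplacian of the profile against `κ² - 4/t` -/
theorem lprf_le (h : PNum κS κT κ lam om) {t e : ℝ} (ht : 100 ≤ t)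
    (hS : κS ^ 2 + 4 * lam / t ≤ κ ^ 2 + e) (hT : κT ^ 2 + 4 * lam / t ≤ κ ^ 2 + e)
    (hk : (9 + 4 * lam) / t ≤ e) :
    lprf κS κT κ lam om t ≤ (κ ^ 2 - 4 / t + e) * prf κS κT κ lam om t := by
  have h0 : 0 < t := by linarith
  have p1 := Em_pos h.mS ht
  have p2 := Em_pos h.mT ht
  have p3 := Em4_pos h.m ht
  have w1 := Wm_nonneg1 h.mS ht
  have w2 := Wm_nonneg1 h.mT ht
  have w3 := Wm4_nonneg h.m ht
  have q1 := h.mS.hp
  have q2 := h.mT.hp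
  have q3 := h.m.hp
  have c1 : κS ^ 2 - 2 * (κS * (px κS lam + 1)) / t ≤ κ ^ 2 - 4 / t + e := by
    rw [q1]
    have : 2 * (2 * (1 - lam)) / t = 4 / t - 4 * lam / t := by ring
    linarith
  have c2 : κT ^ 2 - 2 * (κT * (px κT lam + 1)) / t ≤ κ ^ 2 - 4 / t + e := by
    rw [q2]
    have : 2 * (2 * (1 - lam)) / t = 4 / t - 4 * lam / t := by ring
    linarith
  have c3 : κ ^ 2 - 2 * (κ * (px κ lam - 4 + 1)) / t ≤ κ ^ 2 - 4 / t + e := by
    have e1 : κ * (px κ lam - 4 + 1) = 2 * (1 - lam) - 4 * κ := by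
      rw [← q3]; ring
    rw [e1]
    have e2 : 2 * (2 * (1 - lam) - 4 * κ) / t = 4 / t - (4 * lam + 8 * κ) / t := by ring
    have e3 : (4 * lam + 8 * κ) / t ≤ (9 + 4 * lam) / t := by
      refine div_le_div_of_nonneg_right ?_ h0.le
      linarith [h.k.2]
    linarith
  unfold lprf prf
  have m1 := mul_le_mul_of_nonneg_right c1 p1.le
  have m2 := mul_le_mul_of_nonneg_right c2 p2.le
  have m3 := mul_le_mul_of_nonneg_right c3 p3.le
  have m4 : lam / om ^ 2 * ((κ ^ 2 - 2 * (κ * (px κ lam - 4 + 1)) / t) *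
      Em κ (px κ lam - 4) 1 t - 2 * XWm κ (px κ lam - 4) 1 t) ≤
      lam / om ^ 2 * ((κ ^ 2 - 4 / t + e) * Em κ (px κ lam - 4) 1 t) :=
    mul_le_mul_of_nonneg_left (by linarith) h.lo.le
  calc _ ≤ (κ ^ 2 - 4 / t + e) * Em κS (px κS lam) 1 t + (κ ^ 2 - 4 / t + e) * Em κT (px κT lam) 1 t
        + lam / om ^ 2 * ((κ ^ 2 - 4 / t + e) * Em κ (px κ lam - 4) 1 t) := by linarith
    _ = _ := by ring

end

/-! ### the potential in the slab -/

theorem nuc_sq (D : ℝ) (x : Pos3) : ‖x - nuc D‖ ^ 2 = ‖x‖ ^ 2 + D ^ 2 - 2 * D * x 2 := by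
  rw [norm_sub_sq_real]
  have h1 : inner ℝ x (nuc D) = D * x 2 := by
    unfold nuc
    rw [EuclideanSpace.inner_single_right]
    simp
  have h2 : ‖nuc D‖ ^ 2 = D ^ 2 := by
    unfold nuc
    rw [PiLp.norm_single, Real.norm_eq_abs, sq_abs]
  rw [h1, h2]
  ring

theorem V2_ge {D : ℝ} {x : Pos3} (hx : 0 < ‖x‖) (hz : 2 * |x 2| ≤ ‖x‖) :
    -(4 / ‖x‖) ≤ 2 * V2 D x := by
  obtain ⟨a, ha⟩ : ∃ a, a = ‖x - nuc D‖ := ⟨_, rfl⟩
  obtain ⟨b, hb⟩ : ∃ b, b = ‖x - nuc (-D)‖ := ⟨_, rfl⟩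
  have ha2 : a ^ 2 = ‖x‖ ^ 2 + D ^ 2 - 2 * D * x 2 := by rw [ha, nuc_sq]
  have hb2 : b ^ 2 = ‖x‖ ^ 2 + D ^ 2 + 2 * D * x 2 := by rw [hb, nuc_sq]; ring
  obtain ⟨r, hr⟩ : ∃ r, r = ‖x‖ := ⟨_, rfl⟩
  rw [← hr] at hx hz ha2 hb2 ⊢
  have hz2 : 4 * (x 2) ^ 2 ≤ r ^ 2 := by
    have := pow_le_pow_left₀ (by positivity) hz 2
    have e : (2 * |x 2|) ^ 2 = 4 * (x 2) ^ 2 := by rw [mul_pow, sq_abs]; norm_num
    linarith
  have ha0 : 0 ≤ a := by rw [ha]; positivity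
  have hb0 : 0 ≤ b := by rw [hb]; positivity
  have hprod : a ^ 2 * b ^ 2 = (r ^ 2 + D ^ 2) ^ 2 - 4 * D ^ 2 * (x 2) ^ 2 := by
    rw [ha2, hb2]; ring
  have hprod2 : r ^ 2 * (r ^ 2 + D ^ 2) ≤ a ^ 2 * b ^ 2 := by
    rw [hprod]
    have : 4 * D ^ 2 * (x 2) ^ 2 ≤ D ^ 2 * r ^ 2 := by
      calc 4 * D ^ 2 * (x 2) ^ 2 = D ^ 2 * (4 * (x 2) ^ 2) := by ring
        _ ≤ D ^ 2 * r ^ 2 := mul_le_mul_of_nonneg_left hz2 (sq_nonneg _)
    nlinarith [sq_nonneg D, mul_nonneg (sq_nonneg D) (sq_nonneg D)]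
  have hr2 : 0 < r ^ 2 := by positivity
  have hpos : 0 < a ^ 2 * b ^ 2 := lt_of_lt_of_le (by positivity) hprod2
  have ha1 : 0 < a := by
    rcases ha0.lt_or_eq with h | h
    · exact h
    · rw [← h] at hpos; simp at hpos
  have hb1 : 0 < b := by
    rcases hb0.lt_or_eq with h | h
    · exact h
    · rw [← h] at hpos; simp at hpos
  have key : 1 / a + 1 / b ≤ 2 / r := by
    have h1 : (1 / a + 1 / b) ^ 2 ≤ (2 / r) ^ 2 := by
      have h2 : (1 / a + 1 / b) ^ 2 ≤ 2 * (1 / a ^ 2 + 1 / b ^ 2) := by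
        have := sq_nonneg (1 / a - 1 / b)
        have e : 1 / a ^ 2 = (1 / a) ^ 2 := by rw [div_pow, one_pow]
        have e' : 1 / b ^ 2 = (1 / b) ^ 2 := by rw [div_pow, one_pow]
        rw [e, e']
        nlinarith
      refine h2.trans ?_
      have e : 2 * (1 / a ^ 2 + 1 / b ^ 2) = 4 * (r ^ 2 + D ^ 2) / (a ^ 2 * b ^ 2) := by
        rw [div_add_div _ _ (by positivity) (by positivity), ha2, hb2]
        ring
      rw [e, div_pow, div_le_div_iff₀ hpos hr2]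
      nlinarith
    exact (abs_le_of_sq_le_sq' h1 (by positivity)).2
  have e : V2 D x = -(1 / a) - 1 / b := by
    rw [ha, hb]; rfl
  rw [e]
  have : 4 / r = 2 * (2 / r) := by ring
  linarith

end Crest.Agent.R335.PLS
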