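import Crest.Agent.R335.PClose

/-!
Row 335 (S0521), Part C, C.2 (helper801): the Euler-Lagrange equation of the one-body states and the
convergence of the multiplier.
-/

set_option autoImplicit false
set_option linter.unusedVariables false

open MeasureTheory Filter Set Crest.MathPhysics.ThreeBody
open scoped ENNReal Topology ContDiff

noncomputable section
namespace Crest.Agent.R335
namespace PJ

section Mult
variable {D : ℝ} {g u : Pos3 → ℝ} {dg du : Pos3 → Pos3} {eg eu e3 : ℝ}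

theorem bdd_of_zero {f : Pos3 → ℝ} (hc : Continuous f) (h0 : Tendsto f (cocompact Pos3) (𝓝 0)) :
    ∃ C : ℝ, 0 ≤ C ∧ ∀ x, |f x| ≤ C := by
  have h1 : ∀ᶠ x in cocompact Pos3, |f x| ≤ 1 := by
    have := h0.abs
    rw [abs_zero] at this
    exact (this.eventually (gt_mem_nhds zero_lt_one)).mono fun x hx => hx.le
  rw [Filter.eventually_iff, mem_cocompact] at h1
  obtain ⟨K, hK, hKs⟩ := h1
  obtain ⟨C, hC⟩ := hK.exists_bound_of_continuousOn hc.continuousOn
  refine ⟨max C 1, le_max_of_le_right zero_le_one, fun x => ?_⟩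
  by_cases hx : x ∈ K
  · exact (hC x hx).trans (le_max_left _ _)
  · exact le_trans (hKs hx) (le_max_right _ _)

theorem g_bdd (hO : OneBody D g u dg du eg eu e3) : ∃ C : ℝ, 0 ≤ C ∧ ∀ x, |g x| ≤ C :=
  bdd_of_zero hO.cg hO.g_zero

theorem u_bdd (hO : OneBody D g u dg du eg eu e3) : ∃ C : ℝ, 0 ≤ C ∧ ∀ x, |u x| ≤ C :=
  bdd_of_zero hO.cu hO.u_zero

/-- Euler-Lagrange equation of the one-body pair `(g, u)` -/
theorem ob_el (hO : OneBody D g u dg du eg eu e3) {ψ : Pos3 → ℝ} {gψ : Pos3 → Pos3}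
    (hψ : BT ψ gψ) :
    ∫ x, inner ℝ (J g dg u du x) (gψ x) = - (2 * (eu - eg)) * ∫ x, g x * u x * ψ x := by
  obtain ⟨Cg, _, hCg⟩ := g_bdd hO
  obtain ⟨Cu, _, hCu⟩ := u_bdd hO
  have b1 := (hψ.mul hO.hu ⟨Cu, Eventually.of_forall hCu⟩).h1
  have b2 := (hψ.mul hO.hg ⟨Cg, Eventually.of_forall hCg⟩).h1
  have e1 := hO.g_eq _ _ b1
  have e2 := hO.u_eq _ _ b2
  unfold B2 at e1 e2
  have j1 := inner_int hO.hg.memg b1.memg
  have j2 := inner_int hO.hu.memg b2.memg
  have e3 : ∫ x, V2 D x * (g x * (ψ x * u x)) = ∫ x, V2 D x * (u x * (ψ x * g x)) :=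
    integral_congr_ae (Eventually.of_forall fun x => by show _ = _; ring)
  have e4 : ∫ x, g x * (ψ x * u x) = ∫ x, g x * u x * ψ x :=
    integral_congr_ae (Eventually.of_forall fun x => by show _ = _; ring)
  have e5 : ∫ x, u x * (ψ x * g x) = ∫ x, g x * u x * ψ x :=
    integral_congr_ae (Eventually.of_forall fun x => by show _ = _; ring)
  rw [e3, e4] at e1
  rw [e5] at e2
  have e6 : ∫ x, inner ℝ (J g dg u du x) (gψ x) =
      (∫ x, inner ℝ (dg x) (ψ x • du x + u x • gψ x)) -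
        ∫ x, inner ℝ (du x) (ψ x • dg x + g x • gψ x) := by
    rw [← integral_sub j1 j2]
    refine integral_congr_ae (Eventually.of_forall fun x => ?_)
    show inner ℝ (u x • dg x - g x • du x) (gψ x) = _
    simp only [inner_add_right, inner_sub_left, inner_smul_left, inner_smul_right, conj_trivial]
    rw [real_inner_comm (dg x) (du x)]
    ring
  rw [e6]
  linarith

theorem int_le {a : Pos3 → ℝ} {b : Pos3 → Pos3} (ha : MemLp a 2 volume) (hb : MemLp b 2 volume)
    {A B : ℝ} (hA : 0 ≤ A) (hB : 0 ≤ B) (h1 : ∫ x, a x ^ 2 ≤ A ^ 2)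
    (h2 : ∫ x, ‖b x‖ ^ 2 ≤ B ^ 2) :
    Integrable (fun x => |a x| * ‖b x‖) ∧ ∫ x, |a x| * ‖b x‖ ≤ A * B := by
  obtain ⟨i, h⟩ := int_norm_le ha hb
  refine ⟨i, h.trans (mul_le_mul ?_ ?_ (Real.sqrt_nonneg _) hA)⟩
  · exact Real.sqrt_le_iff.2 ⟨hA, h1⟩
  · exact Real.sqrt_le_iff.2 ⟨hB, h2⟩

theorem int_le' {a b : Pos3 → ℝ} (ha : MemLp a 2 volume) (hb : MemLp b 2 volume)
    {A B : ℝ} (hA : 0 ≤ A) (hB : 0 ≤ B) (h1 : ∫ x, a x ^ 2 ≤ A ^ 2)
    (h2 : ∫ x, b x ^ 2 ≤ B ^ 2) :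
    Integrable (fun x => |a x| * |b x|) ∧ ∫ x, |a x| * |b x| ≤ A * B := by
  obtain ⟨i, h⟩ := int_norm_le ha hb
  refine ⟨i, h.trans (mul_le_mul ?_ ?_ (Real.sqrt_nonneg _) hA)⟩
  · exact Real.sqrt_le_iff.2 ⟨hA, h1⟩
  · refine Real.sqrt_le_iff.2 ⟨hB, ?_⟩
    simpa using h2

/-- `U w - √2 g u` in `L¹` -/
theorem prod_close (hO : OneBody D g u dg du eg eu e3) {s U w : Pos3 → ℝ} {gU gw : Pos3 → Pos3}
    (hp : PairAdm s U gU w gw) {d : ℝ} (hd : 0 ≤ d) (h1 : ∫ x, (U x - √2 * g x) ^ 2 ≤ d ^ 2)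
    (h3 : ∫ x, (w x - u x) ^ 2 ≤ d ^ 2) :
    Integrable (fun x => |U x * w x - √2 * (g x * u x)|) ∧
    ∫ x, |U x * w x - √2 * (g x * u x)| ≤ 3 * d := by
  have m1 : MemLp (fun x => U x - √2 * g x) 2 volume := hp.hU.memf.sub (hO.hg.memf.const_mul _)
  have m2 : MemLp (fun x => w x - u x) 2 volume := hp.hw.memf.sub hO.hu.memf
  have i1 := int_le' m1 hp.hw.memf hd zero_le_one h1 (by rw [hp.nw]; norm_num)
  have i2 := int_le' hO.hg.memf m2 zero_le_one hd (by rw [hO.ng]; norm_num) h3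
  have hs2 : √2 ≤ 2 := by
    rw [Real.sqrt_le_left (by norm_num)]; norm_num
  have hs0 : 0 ≤ √2 := Real.sqrt_nonneg _
  have pw : ∀ x, |U x * w x - √2 * (g x * u x)| ≤
      |U x - √2 * g x| * |w x| + √2 * (|g x| * |w x - u x|) := by
    intro x
    have : U x * w x - √2 * (g x * u x) =
        (U x - √2 * g x) * w x + √2 * (g x * (w x - u x)) := by ring
    rw [this]
    refine (abs_add_le _ _).trans ?_
    rw [abs_mul, abs_mul, abs_mul, abs_of_nonneg hs0]
  have i3 : Integrable (fun x => |U x - √2 * g x| * |w x| + √2 * (|g x| * |w x - u x|)) :=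
    i1.1.add (i2.1.const_mul _)
  have i4 : Integrable (fun x => |U x * w x - √2 * (g x * u x)|) := by
    refine i3.mono' ?_ (Eventually.of_forall fun x => ?_)
    · exact ((hp.hU.memf.aestronglyMeasurable.mul hp.hw.memf.aestronglyMeasurable).sub
        ((hO.hg.memf.aestronglyMeasurable.mul hO.hu.memf.aestronglyMeasurable).const_mul _)).norm
    · rw [Real.norm_eq_abs, abs_abs]; exact pw x
  refine ⟨i4, (integral_mono i4 i3 pw).trans ?_⟩
  rw [integral_add i1.1 (i2.1.const_mul _), integral_const_mul]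
  have := mul_le_mul_of_nonneg_left i2.2 hs0
  nlinarith [i1.2, i2.2]

set_option maxHeartbeats 1000000 in
/-- `J - √2 J₀` in `L¹` -/
theorem J_close (hO : OneBody D g u dg du eg eu e3) {s U w : Pos3 → ℝ} {gU gw : Pos3 → Pos3}
    (hp : PairAdm s U gU w gw) {d : ℝ} (hd : 0 ≤ d) (h1 : ∫ x, (U x - √2 * g x) ^ 2 ≤ d ^ 2)
    (h2 : ∫ x, ‖gU x - √2 • dg x‖ ^ 2 ≤ d ^ 2)
    (h3 : ∫ x, (w x - u x) ^ 2 ≤ d ^ 2) (h4 : ∫ x, ‖gw x - du x‖ ^ 2 ≤ d ^ 2) :
    Integrable (fun x => ‖J U gU w gw x - √2 • J g dg u du x‖) ∧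
    ∫ x, ‖J U gU w gw x - √2 • J g dg u du x‖ ≤
      d * (2 * d + 2 * √(∫ x, ‖dg x‖ ^ 2) + √(∫ x, ‖du x‖ ^ 2) + 3) := by
  have m1 : MemLp (fun x => U x - √2 * g x) 2 volume := hp.hU.memf.sub (hO.hg.memf.const_mul _)
  have m2 : MemLp (fun x => w x - u x) 2 volume := hp.hw.memf.sub hO.hu.memf
  have m3 : MemLp (fun x => gU x - √2 • dg x) 2 volume := hp.hU.memg.sub (H1.const_mul hO.hg √2).memg
  have m4 : MemLp (fun x => gw x - du x) 2 volume := hp.hw.memg.sub hO.hu.memg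
  have hG : ∫ x, ‖dg x‖ ^ 2 ≤ √(∫ x, ‖dg x‖ ^ 2) ^ 2 := by
    rw [Real.sq_sqrt (integral_nonneg fun _ => sq_nonneg _)]
  have hH : ∫ x, ‖du x‖ ^ 2 ≤ √(∫ x, ‖du x‖ ^ 2) ^ 2 := by
    rw [Real.sq_sqrt (integral_nonneg fun _ => sq_nonneg _)]
  set G := √(∫ x, ‖dg x‖ ^ 2) with hGd
  set H := √(∫ x, ‖du x‖ ^ 2) with hHd
  have hG0 : 0 ≤ G := Real.sqrt_nonneg _
  have hH0 : 0 ≤ H := Real.sqrt_nonneg _
  have hs2 : √2 ≤ 2 := by
    rw [Real.sqrt_le_left (by norm_num)]; norm_num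
  have hs0 : 0 ≤ √2 := Real.sqrt_nonneg _
  have k1 := int_le m2 m3 hd hd h3 h2
  have k2 := int_le m2 hO.hg.memg hd hG0 h3 hG
  have k3 := int_le hO.hu.memf m3 zero_le_one hd (by rw [hO.nu]; norm_num) h2
  have k4 := int_le m1 m4 hd hd h1 h4
  have k5 := int_le m1 hO.hu.memg hd hH0 h1 hH
  have k6 := int_le hO.hg.memf m4 zero_le_one hd (by rw [hO.ng]; norm_num) h4
  have pw : ∀ x, ‖J U gU w gw x - √2 • J g dg u du x‖ ≤
      |w x - u x| * ‖gU x - √2 • dg x‖ + 2 * (|w x - u x| * ‖dg x‖) +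
        |u x| * ‖gU x - √2 • dg x‖ + |U x - √2 * g x| * ‖gw x - du x‖ +
        |U x - √2 * g x| * ‖du x‖ + 2 * (|g x| * ‖gw x - du x‖) := by
    intro x
    have e : J U gU w gw x - √2 • J g dg u du x =
        (w x - u x) • (gU x - √2 • dg x) + √2 • ((w x - u x) • dg x) +
        u x • (gU x - √2 • dg x) - (U x - √2 * g x) • (gw x - du x) -
        (U x - √2 * g x) • du x - √2 • (g x • (gw x - du x)) := by
      unfold J
      module
    rw [e]
    refine (norm_sub_le _ _).trans ?_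
    refine le_trans (add_le_add (norm_sub_le _ _) le_rfl) ?_
    refine le_trans (add_le_add (add_le_add (norm_sub_le _ _) le_rfl) le_rfl) ?_
    refine le_trans (add_le_add (add_le_add (add_le_add (norm_add_le _ _) le_rfl) le_rfl) le_rfl) ?_
    refine le_trans (add_le_add (add_le_add (add_le_add (add_le_add (norm_add_le _ _) le_rfl)
      le_rfl) le_rfl) le_rfl) ?_
    simp only [norm_smul, Real.norm_eq_abs, abs_of_nonneg hs0]
    have n1 : 0 ≤ |w x - u x| * ‖dg x‖ := by positivity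
    have n2 : 0 ≤ |g x| * ‖gw x - du x‖ := by positivity
    nlinarith
  have hint : Integrable (fun x => |w x - u x| * ‖gU x - √2 • dg x‖ + 2 * (|w x - u x| * ‖dg x‖) +
        |u x| * ‖gU x - √2 • dg x‖ + |U x - √2 * g x| * ‖gw x - du x‖ +
        |U x - √2 * g x| * ‖du x‖ + 2 * (|g x| * ‖gw x - du x‖)) :=
    ((((k1.1.add (k2.1.const_mul 2)).add k3.1).add k4.1).add k5.1).add (k6.1.const_mul 2)
  have i4 : Integrable (fun x => ‖J U gU w gw x - √2 • J g dg u du x‖) := by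
    refine hint.mono' ?_ (Eventually.of_forall fun x => ?_)
    · have a1 : AEStronglyMeasurable (J U gU w gw) volume :=
        (hp.hw.memf.aestronglyMeasurable.smul hp.hU.memg.aestronglyMeasurable).sub
          (hp.hU.memf.aestronglyMeasurable.smul hp.hw.memg.aestronglyMeasurable)
      have a2 : AEStronglyMeasurable (J g dg u du) volume :=
        (hO.hu.memf.aestronglyMeasurable.smul hO.hg.memg.aestronglyMeasurable).sub
          (hO.hg.memf.aestronglyMeasurable.smul hO.hu.memg.aestronglyMeasurable)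
      have a3 : AEStronglyMeasurable (fun x => √2 • J g dg u du x) volume := a2.const_smul √2
      exact (a1.sub a3).norm
    · rw [norm_norm]; exact pw x
  refine ⟨i4, (integral_mono i4 hint pw).trans ?_⟩
  have c1 : Integrable (fun x => |w x - u x| * ‖gU x - √2 • dg x‖ +
      2 * (|w x - u x| * ‖dg x‖)) := k1.1.add (k2.1.const_mul 2)
  have c2 : Integrable (fun x => |w x - u x| * ‖gU x - √2 • dg x‖ +
      2 * (|w x - u x| * ‖dg x‖) + |u x| * ‖gU x - √2 • dg x‖) := c1.add k3.1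
  have c3 : Integrable (fun x => |w x - u x| * ‖gU x - √2 • dg x‖ +
      2 * (|w x - u x| * ‖dg x‖) + |u x| * ‖gU x - √2 • dg x‖ +
      |U x - √2 * g x| * ‖gw x - du x‖) := c2.add k4.1
  have c4 : Integrable (fun x => |w x - u x| * ‖gU x - √2 • dg x‖ +
      2 * (|w x - u x| * ‖dg x‖) + |u x| * ‖gU x - √2 • dg x‖ +
      |U x - √2 * g x| * ‖gw x - du x‖ + |U x - √2 * g x| * ‖du x‖) := c3.add k5.1
  rw [integral_add c4 (k6.1.const_mul 2), integral_add c3 k5.1, integral_add c2 k4.1,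
    integral_add c1 k3.1, integral_add k1.1 (k2.1.const_mul 2), integral_const_mul,
    integral_const_mul]
  nlinarith [k1.2, k2.2, k3.2, k4.2, k5.2, k6.2]

set_option maxHeartbeats 1000000 in
/-- convergence of the multiplier -/
theorem om_close (hO : OneBody D g u dg du eg eu e3) :
    ∃ C d0 : ℝ, 0 < C ∧ 0 < d0 ∧ ∀ (d : ℝ) (s U w : Pos3 → ℝ) (gU gw : Pos3 → Pos3) (om : ℝ),
      0 ≤ d → d ≤ d0 → Pair s U gU w gw om →
      (∫ x, (U x - √2 * g x) ^ 2) ≤ d ^ 2 → (∫ x, ‖gU x - √2 • dg x‖ ^ 2) ≤ d ^ 2 →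
      (∫ x, (w x - u x) ^ 2) ≤ d ^ 2 → (∫ x, ‖gw x - du x‖ ^ 2) ≤ d ^ 2 →
      |om - (eu - eg)| ≤ C * d := by
  obtain ⟨η, M, c, hη, hodd, hle, hM, hsupp, hc0, hc⟩ := exists_eta hO
  have hM0 : 0 ≤ M := (norm_nonneg _).trans (hM 0)
  have hbt : BT η (gr η) := by
    refine ⟨H1.of_test hη, ⟨1, Eventually.of_forall hle⟩, ⟨2, Eventually.of_forall fun x hx => ?_⟩⟩
    by_contra h
    have := hsupp x h
    linarith
  have hom0 : 0 < eu - eg := sub_pos.2 hO.eg_lt
  set G := √(∫ x, ‖dg x‖ ^ 2) with hGd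
  set H := √(∫ x, ‖du x‖ ^ 2) with hHd
  have hG0 : 0 ≤ G := Real.sqrt_nonneg _
  have hH0 : 0 ≤ H := Real.sqrt_nonneg _
  set C1 := M * (2 + 2 * G + H + 3) / 2 + 3 * (eu - eg) with hC1
  have hC10 : 0 < C1 := by positivity
  refine ⟨2 * C1 / c, min 1 (c / 6), by positivity, by positivity, ?_⟩
  intro d s U w gU gw om hd hd0 hp h1 h2 h3 h4
  have hd1 : d ≤ 1 := hd0.trans (min_le_left _ _)
  have hd2 : 3 * d ≤ c / 2 := by
    have := hd0.trans (min_le_right _ _)
    linarith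
  have p1 := prod_close hO hp.adm hd h1 h3
  have p2 := J_close hO hp.adm hd h1 h2 h3 h4
  have hs1 : (1 : ℝ) ≤ √2 := Real.one_le_sqrt.2 (by norm_num)
  -- the two equations
  have e1 := hp.el η (gr η) hbt
  have e0 := ob_el hO hbt
  -- difference of the right-hand sides
  have iη : ∀ f : Pos3 → ℝ, Integrable f → Integrable (fun x => f x * η x) := fun f hf =>
    hf.mul_bdd (c := 1) hη.continuous.aestronglyMeasurable (Eventually.of_forall hle)
  have iUw : Integrable (fun x => U x * w x) := hp.adm.hU.memf.integrable_mul hp.adm.hw.memf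
  have igu : Integrable (fun x => g x * u x) := hO.hg.memf.integrable_mul hO.hu.memf
  have d1 : |(∫ x, U x * w x * η x) - √2 * ∫ x, g x * u x * η x| ≤ 3 * d := by
    rw [← integral_const_mul, ← integral_sub (iη _ iUw) ((iη _ igu).const_mul _)]
    refine (abs_integral_le_integral_abs).trans ?_
    refine le_trans (integral_mono_of_nonneg (Eventually.of_forall fun x => abs_nonneg _) p1.1
      (Eventually.of_forall fun x => ?_)) p1.2
    show |U x * w x * η x - √2 * (g x * u x * η x)| ≤ |U x * w x - √2 * (g x * u x)|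
    have : U x * w x * η x - √2 * (g x * u x * η x) =
        (U x * w x - √2 * (g x * u x)) * η x := by ring
    rw [this, abs_mul]
    exact mul_le_of_le_one_right (abs_nonneg _) (hle x)
  have hgr : Continuous (gr η) := continuous_gr (hη.smooth.of_le (by norm_num))
  have iJ : ∀ (U w : Pos3 → ℝ) (gU gw : Pos3 → Pos3), H1 U gU → H1 w gw →
      Integrable (fun x => inner ℝ (J U gU w gw x) (gr η x)) := by
    intro U w gU gw hU hw
    have k1 := (int_norm_le hw.memf hU.memg).1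
    have k2 := (int_norm_le hU.memf hw.memg).1
    refine ((k1.add k2).mul_const M).mono' ?_ (Eventually.of_forall fun x => ?_)
    · exact (((hw.memf.aestronglyMeasurable.smul hU.memg.aestronglyMeasurable).sub
          (hU.memf.aestronglyMeasurable.smul hw.memg.aestronglyMeasurable))).inner
          hgr.aestronglyMeasurable
    · show ‖inner ℝ (w x • gU x - U x • gw x) (gr η x)‖ ≤ (|w x| * ‖gU x‖ + |U x| * ‖gw x‖) * M
      refine (norm_inner_le_norm _ _).trans ?_
      refine mul_le_mul ?_ (hM x) (norm_nonneg _) (by positivity)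
      refine (norm_sub_le _ _).trans ?_
      rw [norm_smul, norm_smul, Real.norm_eq_abs, Real.norm_eq_abs]
  have d2 : |(∫ x, inner ℝ (J U gU w gw x) (gr η x)) -
      √2 * ∫ x, inner ℝ (J g dg u du x) (gr η x)| ≤ M * (d * (2 * d + 2 * G + H + 3)) := by
    rw [← integral_const_mul, ← integral_sub (iJ _ _ _ _ hp.adm.hU hp.adm.hw)
      ((iJ _ _ _ _ hO.hg hO.hu).const_mul _)]
    refine (abs_integral_le_integral_abs).trans ?_
    refine le_trans ?_ (mul_le_mul_of_nonneg_left p2.2 hM0)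
    rw [← integral_const_mul]
    refine integral_mono_of_nonneg (Eventually.of_forall fun x => abs_nonneg _)
      (p2.1.const_mul _) (Eventually.of_forall fun x => ?_)
    show |inner ℝ (J U gU w gw x) (gr η x) - √2 * inner ℝ (J g dg u du x) (gr η x)| ≤
      M * ‖J U gU w gw x - √2 • J g dg u du x‖
    have : inner ℝ (J U gU w gw x) (gr η x) - √2 * inner ℝ (J g dg u du x) (gr η x) =
        inner ℝ (J U gU w gw x - √2 • J g dg u du x) (gr η x) := by
      rw [inner_sub_left, inner_smul_left, conj_trivial]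
    rw [this, mul_comm M]
    exact (abs_real_inner_le_norm _ _).trans (mul_le_mul_of_nonneg_left (hM x) (norm_nonneg _))
  rw [e1, e0] at d2
  set P1 := ∫ x, U x * w x * η x with hP1
  set P0 := ∫ x, g x * u x * η x with hP0
  have hP1c : c / 2 ≤ P1 := by
    rw [abs_le] at d1
    nlinarith [d1.1]
  have key : |(om - (eu - eg)) * P1| ≤ C1 * d := by
    have e : (om - (eu - eg)) * P1 = -(1 / 2) * (-(2 * om) * P1 - √2 * (-(2 * (eu - eg)) * P0)) -
        (eu - eg) * (P1 - √2 * P0) := by ring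
    rw [e]
    refine (abs_sub _ _).trans ?_
    rw [abs_mul, abs_mul, abs_of_pos hom0]
    have a1 : |(-(1 / 2) : ℝ)| = 1 / 2 := by rw [abs_neg, abs_of_pos]; norm_num
    rw [a1]
    have a2 : M * (d * (2 * d + 2 * G + H + 3)) ≤ M * (2 + 2 * G + H + 3) * d := by
      have : d * (2 * d + 2 * G + H + 3) ≤ d * (2 + 2 * G + H + 3) := by
        refine mul_le_mul_of_nonneg_left ?_ hd
        linarith
      nlinarith [mul_le_mul_of_nonneg_left this hM0]
    have a3 := mul_le_mul_of_nonneg_left d1 hom0.le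
    rw [hC1]
    nlinarith
  rw [abs_mul, abs_of_pos (lt_of_lt_of_le (by positivity) hP1c)] at key
  have h5 : |om - (eu - eg)| * (c / 2) ≤ C1 * d :=
    le_trans (mul_le_mul_of_nonneg_left hP1c (abs_nonneg _)) key
  have h6 : |om - (eu - eg)| ≤ C1 * d / (c / 2) := by
    rw [le_div_iff₀ (by positivity)]; exact h5
  calc |om - (eu - eg)| ≤ C1 * d / (c / 2) := h6
    _ = 2 * C1 / c * d := by field_simp

end Mult

end PJ
end Crest.Agent.R335
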