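import Crest.Agent.R335.HTest
import Crest.Agent.R335.XLap
import Crest.Agent.R335.HProd

/-!
Row 335 (S0521), Part C, section C.4: the function `β = (π/2) (1 - b/s)_+` of a barrier `b` is a
weak subsolution of `-div (s² ∇β) = (Q/2) s² sin 2β` as soon as `Δ b ≤ (k + Q sinc (π b/s)) b` where
`b < s` and `Δ s ≥ k s` weakly.
-/

set_option autoImplicit false
set_option linter.unusedSectionVars false

open MeasureTheory Filter Set
open scoped ENNReal Topology ContDiff

noncomputable section
namespace Crest.Agent.R335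

variable {ι : Type*} [Fintype ι] [DecidableEq ι]

local notation "E" => EuclideanSpace ℝ ι

/-- `β = (π/2) (1 - b/s)_+` -/
def bet (s b : EuclideanSpace ℝ ι → ℝ) (x : EuclideanSpace ℝ ι) : ℝ :=
  (Real.pi / 2) * max (1 - b x / s x) 0

/-- gradient of `1 - b/s` -/
def gv (s b : EuclideanSpace ℝ ι → ℝ) (gs G : EuclideanSpace ℝ ι → EuclideanSpace ℝ ι)
    (x : EuclideanSpace ℝ ι) : EuclideanSpace ℝ ι :=
  (b x / s x ^ 2) • gs x - (1 / s x) • G x

/-- gradient of `bet` -/
def gbet (s b : EuclideanSpace ℝ ι → ℝ) (gs G : EuclideanSpace ℝ ι → EuclideanSpace ℝ ι)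
    (x : EuclideanSpace ℝ ι) : EuclideanSpace ℝ ι :=
  if b x < s x then (Real.pi / 2) • gv s b gs G x else 0

section
variable {Om : Set (EuclideanSpace ℝ ι)} {s b : EuclideanSpace ℝ ι → ℝ}
  {gs G : EuclideanSpace ℝ ι → EuclideanSpace ℝ ι} {L : EuclideanSpace ℝ ι → ℝ}

/-- local bounds of a positive continuous function -/
theorem pu_bounds {s : E → ℝ} (hc : Continuous s) (h0 : ∀ x, 0 < s x) {K : Set E}
    (hK : IsCompact K) : ∃ c C : ℝ, 0 < c ∧ 0 < C ∧ ∀ x ∈ K, c ≤ s x ∧ s x ≤ C := by
  rcases K.eq_empty_or_nonempty with rfl | hne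
  · exact ⟨1, 1, one_pos, one_pos, fun x hx => absurd hx (notMem_empty x)⟩
  · obtain ⟨a, ha, ha'⟩ := hK.exists_isMinOn hne hc.continuousOn
    obtain ⟨d, hd, hd'⟩ := hK.exists_isMaxOn hne hc.continuousOn
    exact ⟨s a, s d, h0 a, h0 d, fun x hx => ⟨ha' hx, hd' hx⟩⟩

/-- the reciprocal of a positive continuous function -/
theorem WG.inv_pos (hO : IsOpen Om) (hs : WG Om s gs) (hc : Continuous s) (h0 : ∀ x, 0 < s x) :
    WG Om (fun x => 1 / s x) (fun x => (-(1 / s x ^ 2)) • gs x) := by
  refine WG.of_local hO fun x hx => ?_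
  obtain ⟨ρ, hρ, hρO⟩ := Metric.isOpen_iff.1 hO x hx
  refine ⟨Metric.ball x ρ, Metric.isOpen_ball, Metric.mem_ball_self hρ, ?_⟩
  obtain ⟨c, C, hc0, hC0, hcC⟩ := pu_bounds hc h0 (isCompact_closedBall x ρ)
  have h1 := WG.mono hs hρO
  have h2 := WG.comp_on (F := fun t => 1 / t) (F' := fun t => -(1 / t ^ 2)) (a := (c : EReal))
    (b := (⊤ : EReal)) (C := 1 / c ^ 2) Metric.isOpen_ball h1 ?_ ?_ ?_ ?_
  · exact h2
  · filter_upwards [self_mem_ae_restrict Metric.isOpen_ball.measurableSet] with y hy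
    exact ⟨EReal.coe_le_coe_iff.2 (hcC y (Metric.ball_subset_closedBall hy)).1, le_top⟩
  · intro t ht _
    have ht' : c ≤ t := EReal.coe_le_coe_iff.1 ht
    have ht0 : t ≠ 0 := (hc0.trans_le ht').ne'
    have := hasDerivAt_inv ht0
    simpa [one_div] using this
  · refine ContinuousOn.neg (ContinuousOn.div continuousOn_const (continuousOn_id.pow 2) ?_)
    rintro t ⟨ht, _⟩
    have ht' : c ≤ t := EReal.coe_le_coe_iff.1 ht
    exact pow_ne_zero 2 (hc0.trans_le ht').ne'
  · intro t ht _
    have ht' : c ≤ t := EReal.coe_le_coe_iff.1 ht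
    rw [abs_neg, abs_of_nonneg (by positivity)]
    exact one_div_le_one_div_of_le (by positivity) (pow_le_pow_left₀ hc0.le ht' 2)

theorem pu_locIntOn_continuousOn_smul {F : Type*} [NormedAddCommGroup F] [NormedSpace ℝ F]
    {U : Set E} (hU : IsOpen U) {k : E → ℝ} (hk : ContinuousOn k U) {g : E → F}
    (hg : LocallyIntegrableOn g U volume) : LocallyIntegrableOn (fun x => k x • g x) U volume :=
  hg.continuousOn_smul hU.isLocallyClosed hk

/-- the quotient `b/s` -/
theorem WG.quot (hO : IsOpen Om) (hs : WG Om s gs) (hc : Continuous s) (h0 : ∀ x, 0 < s x)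
    (hb : Jet Om b G L) : WG Om (fun x => 1 - b x / s x) (gv s b gs G) := by
  have h1 := WG.inv_pos hO hs hc h0
  have hbc : ContinuousOn b Om := hb.smooth.continuousOn
  have hic : ContinuousOn (fun x => 1 / s x) Om :=
    (continuous_const.div hc fun x => (h0 x).ne').continuousOn
  have h2 := WG.mul hO (hb.wg hO) h1 ?_ ?_ ?_
  · have h3 := WG.sub ((Jet.const (U := Om) (1 : ℝ)).wg hO) h2 hO
    refine WG.congr hO h3 (Eventually.of_forall fun x => ?_) (Eventually.of_forall fun x => ?_)
    · simp only [div_eq_mul_one_div (b x)]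
    · unfold gv
      have : b x / s x ^ 2 = - (b x * -(1 / s x ^ 2)) := by ring
      rw [this]
      module
  · exact (hbc.mul hic).locallyIntegrableOn hO.measurableSet
  · exact pu_locIntOn_continuousOn_smul hO hbc h1.intg
  · exact pu_locIntOn_continuousOn_smul hO hic (hb.wg hO).intg

theorem pu_one_sub {s b : ℝ} (hs : 0 < s) : 0 < 1 - b / s ↔ b < s := by
  rw [sub_pos, div_lt_one hs]

theorem WG.bet (hO : IsOpen Om) (hs : WG Om s gs) (hc : Continuous s) (h0 : ∀ x, 0 < s x)
    (hb : Jet Om b G L) : WG Om (bet s b) (gbet s b gs G) := by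
  have h1 := WG.const_mul (WG.pos hO (WG.quot hO hs hc h0 hb)) (Real.pi / 2) hO
  refine WG.congr hO h1 (Eventually.of_forall fun x => rfl) (Eventually.of_forall fun x => ?_)
  simp only [gbet, pu_one_sub (h0 x)]
  split_ifs <;> simp

/-- smooth step -/
def ustp (δ t : ℝ) : ℝ := (max t 0) ^ 2 / ((max t 0) ^ 2 + δ ^ 2)

def ustp' (δ t : ℝ) : ℝ := 2 * max t 0 * δ ^ 2 / ((max t 0) ^ 2 + δ ^ 2) ^ 2

theorem pu_hasDerivAt_max_sq (y : ℝ) :
    HasDerivAt (fun y : ℝ => (max y 0) ^ 2) (2 * max y 0) y := by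
  rcases lt_trichotomy y 0 with h | h | h
  · rw [max_eq_right h.le, mul_zero]
    refine (hasDerivAt_const y (0 : ℝ)).congr_of_eventuallyEq ?_
    filter_upwards [Iio_mem_nhds h] with z hz
    rw [max_eq_right (le_of_lt hz)]; simp
  · subst h
    rw [max_self, mul_zero]
    have h1 : HasDerivAt (fun y : ℝ => y ^ 2) 0 0 := by simpa using hasDerivAt_pow 2 (0 : ℝ)
    rw [hasDerivAt_iff_isLittleO] at h1 ⊢
    refine (Asymptotics.IsBigO.of_bound 1 (Eventually.of_forall fun z => ?_)).trans_isLittleO h1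
    simp only [max_self, smul_zero, sub_zero, one_mul, ne_eq, OfNat.ofNat_ne_zero,
      not_false_eq_true, zero_pow, Real.norm_eq_abs, abs_pow]
    refine pow_le_pow_left₀ (abs_nonneg _) ?_ 2
    rw [abs_of_nonneg (le_max_right z 0)]
    exact max_le (le_abs_self z) (abs_nonneg z)
  · rw [max_eq_left h.le]
    have h1 : HasDerivAt (fun y : ℝ => y ^ 2) (2 * y) y := by simpa using hasDerivAt_pow 2 y
    refine h1.congr_of_eventuallyEq ?_
    filter_upwards [Ioi_mem_nhds h] with z hz
    rw [max_eq_left (le_of_lt hz)]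

theorem hasDerivAt_ustp {δ : ℝ} (hδ : 0 < δ) (t : ℝ) : HasDerivAt (ustp δ) (ustp' δ t) t := by
  have h1 := pu_hasDerivAt_max_sq t
  have h2 := h1.add_const (δ ^ 2)
  have h3 := h1.div h2 (by positivity)
  refine h3.congr_deriv ?_
  unfold ustp'
  congr 1
  ring

theorem ustp_nonneg (δ t : ℝ) : 0 ≤ ustp δ t := by unfold ustp; positivity

theorem ustp_le_one (δ t : ℝ) : ustp δ t ≤ 1 := by
  unfold ustp
  exact div_le_one_of_le₀ (by nlinarith [sq_nonneg δ]) (by positivity)

theorem ustp'_nonneg (δ t : ℝ) : 0 ≤ ustp' δ t := by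
  unfold ustp'
  have : 0 ≤ max t 0 := le_max_right _ _
  positivity

theorem ustp'_le {δ : ℝ} (hδ : 0 < δ) (t : ℝ) : ustp' δ t ≤ 1 / δ := by
  unfold ustp'
  set y := max t 0
  have hy : 0 ≤ y := le_max_right _ _
  rw [div_le_div_iff₀ (by positivity) hδ]
  nlinarith [sq_nonneg (y - δ), sq_nonneg (y ^ 2 - δ ^ 2), mul_nonneg hy hδ.le, sq_nonneg y,
    sq_nonneg δ, mul_nonneg (sq_nonneg y) (sq_nonneg δ), mul_nonneg (sq_nonneg δ) (sq_nonneg (y - δ))]

theorem ustp_zero {δ t : ℝ} (ht : t ≤ 0) : ustp δ t = 0 := by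
  unfold ustp
  rw [max_eq_right ht]; simp

theorem ustp'_zero {δ t : ℝ} (ht : t ≤ 0) : ustp' δ t = 0 := by
  unfold ustp'
  rw [max_eq_right ht]; simp

theorem continuous_ustp' {δ : ℝ} (hδ : 0 < δ) : Continuous (ustp' δ) := by
  unfold ustp'
  refine Continuous.div (by fun_prop) (by fun_prop) fun t => ?_
  positivity

theorem tendsto_ustp {t : ℝ} (ht : 0 < t) :
    Tendsto (fun n : ℕ => ustp (1 / ((n : ℝ) + 1)) t) atTop (𝓝 1) := by
  unfold ustp
  rw [max_eq_left ht.le]
  have h1 : Tendsto (fun n : ℕ => (1 / ((n : ℝ) + 1))) atTop (𝓝 0) :=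
    tendsto_one_div_add_atTop_nhds_zero_nat
  have h2 : Tendsto (fun n : ℕ => t ^ 2 / (t ^ 2 + (1 / ((n : ℝ) + 1)) ^ 2)) atTop
      (𝓝 (t ^ 2 / (t ^ 2 + 0 ^ 2))) :=
    (tendsto_const_nhds).div (tendsto_const_nhds.add (h1.pow 2)) (by positivity)
  simpa [div_self (pow_ne_zero 2 ht.ne')] using h2

theorem WG.ustp (hO : IsOpen Om) {v : E → ℝ} {g : E → E} (hv : WG Om v g) {δ : ℝ} (hδ : 0 < δ) :
    WG Om (fun x => ustp δ (v x)) (fun x => ustp' δ (v x) • g x) := by
  have hd : deriv (Crest.Agent.R335.ustp δ) = ustp' δ := funext fun t => (hasDerivAt_ustp hδ t).deriv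
  have h1 : ContDiff ℝ 1 (Crest.Agent.R335.ustp δ) := by
    refine contDiff_one_iff_deriv.2 ⟨fun t => (hasDerivAt_ustp hδ t).differentiableAt, ?_⟩
    rw [hd]; exact continuous_ustp' hδ
  have h2 := WG.comp hO hv h1 (C := 1 / δ) fun t => by
    rw [hd, abs_of_nonneg (ustp'_nonneg δ t)]; exact ustp'_le hδ t
  simpa only [hd] using h2

/-! ### locally bounded `W^{1,2}_loc` functions -/

/-- locally bounded functions of `W^{1,2}_loc(U)` -/
structure LB (U : Set (EuclideanSpace ℝ ι)) (f : EuclideanSpace ℝ ι → ℝ)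
    (g : EuclideanSpace ℝ ι → EuclideanSpace ℝ ι) : Prop where
  wg : WG U f g
  bd : ∀ K, IsCompact K → K ⊆ U → ∃ C : ℝ, ∀ x ∈ K, |f x| ≤ C
  l2 : L2locV U g

theorem pu_aesm {F : Type*} [NormedAddCommGroup F] {U K : Set E} (hK : IsCompact K) (hKU : K ⊆ U)
    {f : E → F} (hf : LocallyIntegrableOn f U volume) :
    AEStronglyMeasurable f (volume.restrict K) :=
  (hf.integrableOn_compact_subset hKU hK).aestronglyMeasurable

theorem pu_bdd_smul_memLp {K : Set E} (hK : IsCompact K) {f : E → ℝ} {g : E → E}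
    (hf : AEStronglyMeasurable f (volume.restrict K)) {C : ℝ} (hC : ∀ x ∈ K, |f x| ≤ C)
    (hg : MemLp g 2 (volume.restrict K)) :
    MemLp (fun x => f x • g x) 2 (volume.restrict K) := by
  refine hg.of_le_mul (c := C) (hf.smul hg.aestronglyMeasurable) ?_
  filter_upwards [self_mem_ae_restrict hK.measurableSet] with x hx
  rw [norm_smul, Real.norm_eq_abs]
  exact mul_le_mul_of_nonneg_right (hC x hx) (norm_nonneg _)

theorem pu_locInt_of_l2 {F : Type*} [NormedAddCommGroup F] {U : Set E} (hU : IsOpen U) {g : E → F}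
    (hg : ∀ K, IsCompact K → K ⊆ U → MemLp g 2 (volume.restrict K)) :
    LocallyIntegrableOn g U volume := by
  refine (locallyIntegrableOn_iff hU.isLocallyClosed).2 fun K hKU hK => ?_
  have : IsFiniteMeasure (volume.restrict K) :=
    ⟨by rw [Measure.restrict_apply_univ]; exact hK.measure_lt_top⟩
  exact (hg K hK hKU).integrable (by norm_num)

theorem LB.mul {U : Set E} (hU : IsOpen U) {f k : E → ℝ} {g l : E → E} (h : LB U f g)
    (h' : LB U k l) : LB U (fun x => f x * k x) (fun x => f x • l x + k x • g x) := by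
  have e1 : ∀ K, IsCompact K → K ⊆ U → MemLp (fun x => f x • l x) 2 (volume.restrict K) := by
    intro K hK hKU
    obtain ⟨C, hC⟩ := h.bd K hK hKU
    exact pu_bdd_smul_memLp hK (pu_aesm hK hKU h.wg.intf) hC (h'.l2 K hK hKU)
  have e2 : ∀ K, IsCompact K → K ⊆ U → MemLp (fun x => k x • g x) 2 (volume.restrict K) := by
    intro K hK hKU
    obtain ⟨C, hC⟩ := h'.bd K hK hKU
    exact pu_bdd_smul_memLp hK (pu_aesm hK hKU h'.wg.intf) hC (h.l2 K hK hKU)
  refine ⟨?_, ?_, ?_⟩
  · refine WG.mul hU h.wg h'.wg ?_ (pu_locInt_of_l2 hU e1) (pu_locInt_of_l2 hU e2)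
    refine (locallyIntegrableOn_iff hU.isLocallyClosed).2 fun K hKU hK => ?_
    obtain ⟨C, hC⟩ := h.bd K hK hKU
    have hi := h'.wg.intf.integrableOn_compact_subset hKU hK
    refine Integrable.mono' (hi.norm.const_mul C) ((pu_aesm hK hKU h.wg.intf).mul
      hi.aestronglyMeasurable) ?_
    filter_upwards [self_mem_ae_restrict hK.measurableSet] with x hx
    rw [norm_mul, Real.norm_eq_abs]
    exact mul_le_mul_of_nonneg_right (hC x hx) (norm_nonneg _)
  · intro K hK hKU
    obtain ⟨C, hC⟩ := h.bd K hK hKU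
    obtain ⟨C', hC'⟩ := h'.bd K hK hKU
    refine ⟨C * C', fun x hx => ?_⟩
    rw [abs_mul]
    exact mul_le_mul (hC x hx) (hC' x hx) (abs_nonneg _) ((abs_nonneg _).trans (hC x hx))
  · intro K hK hKU
    exact (e1 K hK hKU).add (e2 K hK hKU)

theorem LB.of_jet {U : Set E} (hU : IsOpen U) {f : E → ℝ} {g : E → E} {L : E → ℝ}
    (h : Jet U f g L) : LB U f g := by
  have hgc : ContinuousOn g U := by
    have h1 : ContinuousOn (gr f) U := by
      rw [continuousOn_iff_continuous_domRestrict]
      have h2 : ∀ i, ContinuousOn (pd i f) U := fun i => (XL.contDiffOn_pd hU h.smooth i).continuousOn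
      refine (PiLp.continuous_toLp 2 _).comp (continuous_pi fun i => ?_)
      exact continuousOn_iff_continuous_domRestrict.1 (h2 i)
    exact h1.congr fun x hx => (h.grad x hx).symm
  refine ⟨h.wg hU, fun K hK hKU => ?_, fun K hK hKU => ?_⟩
  · obtain ⟨C, hC⟩ := hK.exists_bound_of_continuousOn (h.smooth.continuousOn.mono hKU)
    exact ⟨C, fun x hx => by simpa using hC x hx⟩
  · obtain ⟨C, hC⟩ := hK.exists_bound_of_continuousOn (hgc.mono hKU)
    have : IsFiniteMeasure (volume.restrict K) :=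
      ⟨by rw [Measure.restrict_apply_univ]; exact hK.measure_lt_top⟩
    refine MemLp.of_bound ((hgc.mono hKU).aestronglyMeasurable hK.measurableSet) C ?_
    filter_upwards [self_mem_ae_restrict hK.measurableSet] with x hx using hC x hx

theorem LB.of_test {U : Set E} {φ : E → ℝ} (h : Test U φ) : LB U φ (gr φ) := by
  have h1 := H1.of_test h
  refine ⟨WG.mono h1.wg (subset_univ U), fun K hK _ => ?_, fun K _ _ => h1.memg.restrict K⟩
  obtain ⟨C, hC⟩ := hK.exists_bound_of_continuousOn h.smooth.continuous.continuousOn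
  exact ⟨C, fun x hx => by simpa using hC x hx⟩

theorem LB.of_cont {U : Set E} {s : E → ℝ} {gs : E → E} (h : WG U s gs) (hc : Continuous s)
    (h2 : L2locV U gs) : LB U s gs :=
  ⟨h, fun K hK _ => by
    obtain ⟨C, hC⟩ := hK.exists_bound_of_continuousOn hc.continuousOn
    exact ⟨C, fun x hx => by simpa using hC x hx⟩, h2⟩

theorem LB.gv (hO : IsOpen Om) (hs : LB Om s gs) (hc : Continuous s) (h0 : ∀ x, 0 < s x)
    (hb : Jet Om b G L) : LB Om (fun x => 1 - b x / s x) (gv s b gs G) := by
  have hbL := LB.of_jet hO hb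
  refine ⟨WG.quot hO hs.wg hc h0 hb, fun K hK hKU => ?_, fun K hK hKU => ?_⟩
  · obtain ⟨C, hC⟩ := hbL.bd K hK hKU
    obtain ⟨c, C', hc0, _, hcC⟩ := pu_bounds hc h0 hK
    refine ⟨1 + C / c, fun x hx => ?_⟩
    have h1 : |b x / s x| ≤ C / c := by
      rw [abs_div, abs_of_pos (h0 x)]
      exact div_le_div₀ ((abs_nonneg _).trans (hC x hx)) (hC x hx) hc0 (hcC x hx).1
    calc |1 - b x / s x| ≤ |1| + |b x / s x| := abs_sub _ _
      _ ≤ 1 + C / c := by rw [abs_one]; linarith
  · have hbc : ContinuousOn b Om := hb.smooth.continuousOn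
    have hic : ContinuousOn (fun x => 1 / s x) K :=
      (continuous_const.div hc fun x => (h0 x).ne').continuousOn
    have hic2 : ContinuousOn (fun x => b x / s x ^ 2) K :=
      (hbc.mono hKU).div (hc.pow 2).continuousOn fun x _ => pow_ne_zero 2 (h0 x).ne'
    obtain ⟨C1, hC1⟩ := hK.exists_bound_of_continuousOn hic
    obtain ⟨C2, hC2⟩ := hK.exists_bound_of_continuousOn hic2
    exact (pu_bdd_smul_memLp hK (hic2.aestronglyMeasurable hK.measurableSet)
      (fun x hx => by rw [← Real.norm_eq_abs]; exact hC2 x hx) (hs.l2 K hK hKU)).sub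
      (pu_bdd_smul_memLp hK (hic.aestronglyMeasurable hK.measurableSet)
      (fun x hx => by rw [← Real.norm_eq_abs]; exact hC1 x hx) (hbL.l2 K hK hKU))

theorem LB.ustp {U : Set E} (hU : IsOpen U) {v : E → ℝ} {g : E → E} (h : LB U v g) {δ : ℝ}
    (hδ : 0 < δ) : LB U (fun x => ustp δ (v x)) (fun x => ustp' δ (v x) • g x) := by
  refine ⟨WG.ustp hU h.wg hδ, fun K _ _ => ⟨1, fun x _ => ?_⟩, fun K hK hKU => ?_⟩
  · rw [abs_of_nonneg (ustp_nonneg _ _)]; exact ustp_le_one _ _
  · refine pu_bdd_smul_memLp hK ?_ (C := 1 / δ) (fun x _ => ?_) (h.l2 K hK hKU)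
    · exact (continuous_ustp' hδ).comp_aestronglyMeasurable (pu_aesm hK hKU h.wg.intf)
    · rw [abs_of_nonneg (ustp'_nonneg _ _)]; exact ustp'_le hδ _

/-- compactly supported -/
theorem LB.h1 {U : Set E} (hU : IsOpen U) {f : E → ℝ} {g : E → E} (h : LB U f g) {K : Set E}
    (hK : IsCompact K) (hKU : K ⊆ U) (h0 : ∀ x, x ∉ K → f x = 0) (h0' : ∀ x, x ∉ K → g x = 0) :
    H1 f g ∧ ∃ C : ℝ, ∀ x, |f x| ≤ C := by
  obtain ⟨C, hC⟩ := h.bd K hK hKU
  refine ⟨H1.of_WG_supp hU h.wg hK hKU h0 h0' ?_ (h.l2 K hK hKU), |C|, fun x => ?_⟩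
  · haveI : IsFiniteMeasure (volume.restrict K) :=
      ⟨by rw [Measure.restrict_apply_univ]; exact hK.measure_lt_top⟩
    refine MemLp.of_bound (pu_aesm hK hKU h.wg.intf) C ?_
    filter_upwards [self_mem_ae_restrict hK.measurableSet] with x hx
    simpa using hC x hx
  · by_cases hx : x ∈ K
    · exact (hC x hx).trans (le_abs_self C)
    · rw [h0 x hx, abs_zero]; exact abs_nonneg _

theorem pu_gr_eq_zero {φ : E → ℝ} {x : E} (hx : x ∉ tsupport φ) : gr φ x = 0 := by
  have h1 : φ =ᶠ[𝓝 x] fun _ => (0 : ℝ) := by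
    filter_upwards [(isClosed_tsupport φ).isOpen_compl.mem_nhds hx] with y hy
    exact image_eq_zero_of_notMem_tsupport hy
  ext i
  have h2 : fderiv ℝ φ x = 0 := by
    rw [h1.fderiv_eq, fderiv_fun_const]; rfl
  simp [pd, h2]

theorem pu_int_inner {K : Set E} (hK : IsCompact K) {f g : E → E}
    (hf : MemLp f 2 (volume.restrict K)) (hg : MemLp g 2 (volume.restrict K))
    (h0 : ∀ x, x ∉ K → g x = 0) : Integrable (fun x => inner ℝ (f x) (g x)) volume := by
  have h1 : IntegrableOn (fun x => inner ℝ (f x) (g x)) K volume := by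
    refine (L2.integrable_inner (𝕜 := ℝ) (hf.toLp _) (hg.toLp _)).congr ?_
    filter_upwards [hf.coeFn_toLp, hg.coeFn_toLp] with x h1 h2
    rw [h1, h2]
  refine (integrableOn_iff_integrable_of_support_subset fun x hx => ?_).1 h1
  by_contra hxK
  apply hx
  simp [h0 x hxK]

theorem pu_int_mul {K : Set E} (hK : IsCompact K) {f g : E → ℝ}
    (hf : IntegrableOn f K volume) (hg : AEStronglyMeasurable g (volume.restrict K)) {C : ℝ}
    (hC : ∀ x ∈ K, |g x| ≤ C) (h0 : ∀ x, x ∉ K → g x = 0) :
    Integrable (fun x => f x * g x) volume := by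
  have h1 : IntegrableOn (fun x => f x * g x) K volume := by
    refine Integrable.mono' (hf.norm.mul_const C) (hf.aestronglyMeasurable.mul hg) ?_
    filter_upwards [self_mem_ae_restrict hK.measurableSet] with x hx
    rw [norm_mul, Real.norm_eq_abs (g x)]
    exact mul_le_mul_of_nonneg_left (hC x hx) (norm_nonneg _)
  refine (integrableOn_iff_integrable_of_support_subset fun x hx => ?_).1 h1
  by_contra hxK
  apply hx
  simp [h0 x hxK]

/-- **the weak inequality of `β`** -/
theorem bet_sub (hO : IsOpen Om) (hs : WG Om s gs) (hs2 : L2locV Om gs) (hc : Continuous s)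
    (h0 : ∀ x, 0 < s x) (hb : Jet Om b G L) (hb0 : ∀ x ∈ Om, 0 < b x) {k : E → ℝ}
    (hk : LocallyIntegrableOn k Om volume) {Q : ℝ}
    (hK : ∀ φ : E → ℝ, Test Om φ → (∀ x, 0 ≤ φ x) →
      (∫ x, inner ℝ (gs x) (gr φ x)) + ∫ x, k x * s x * φ x ≤ 0)
    (hstar : ∀ x ∈ Om, b x < s x →
      L x ≤ k x * b x + Q / Real.pi * s x * Real.sin (Real.pi * (b x / s x)))
    {φ : E → ℝ} (hφ : Test Om φ) (hφ0 : ∀ x, 0 ≤ φ x) :
    ∫ x in Om, s x ^ 2 * inner ℝ (gbet s b gs G x) (gr φ x) ≤
      (Q / 2) * ∫ x in Om, s x ^ 2 * Real.sin (2 * bet s b x) * φ x := by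
  set K : Set E := tsupport φ with hKdef
  have hKc : IsCompact K := hφ.cpt
  have hKU : K ⊆ Om := hφ.sub
  have hsL : LB Om s gs := LB.of_cont hs hc hs2
  have hbL : LB Om b G := LB.of_jet hO hb
  have hvL : LB Om (fun x => 1 - b x / s x) (gv s b gs G) := LB.gv hO hsL hc h0 hb
  have hφL : LB Om φ (gr φ) := LB.of_test hφ
  have hφz : ∀ x, x ∉ K → φ x = 0 := fun x hx => image_eq_zero_of_notMem_tsupport hx
  have hgz : ∀ x, x ∉ K → gr φ x = 0 := fun x hx => pu_gr_eq_zero hx
  have hq : LocallyIntegrableOn (fun x => k x * s x) Om volume := by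
    have := hk.continuousOn_smul hO.isLocallyClosed hc.continuousOn
    refine this.congr ?_ 
    exact Eventually.of_forall fun x => mul_comm _ _
  -- the integrand
  set P : E → ℝ := fun x => s x ^ 2 * inner ℝ (gv s b gs G x) (gr φ x) -
    (Q / Real.pi) * s x ^ 2 * Real.sin (Real.pi * (b x / s x)) * φ x with hP
  -- integrability of `P`
  have hP1 : Integrable (fun x => s x ^ 2 * inner ℝ (gv s b gs G x) (gr φ x)) volume := by
    obtain ⟨C, hC⟩ := hKc.exists_bound_of_continuousOn ((hc.pow 2).continuousOn (s := K))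
    have h1 : MemLp (fun x => s x ^ 2 • gr φ x) 2 (volume.restrict K) :=
      pu_bdd_smul_memLp hKc (hc.pow 2).aestronglyMeasurable (fun x hx => by
        rw [← Real.norm_eq_abs]; exact hC x hx) (hφL.l2 K hKc hKU)
    have h2 := pu_int_inner hKc (hvL.l2 K hKc hKU) h1 fun x hx => by rw [hgz x hx, smul_zero]
    refine h2.congr (Eventually.of_forall fun x => ?_)
    simp only [inner_smul_right]
  have hP2 : Integrable (fun x => (Q / Real.pi) * s x ^ 2 * Real.sin (Real.pi * (b x / s x)) *
      φ x) volume := by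
    obtain ⟨C, hC⟩ := hKc.exists_bound_of_continuousOn (hφ.smooth.continuous.continuousOn (s := K))
    have hbc : ContinuousOn b K := hb.smooth.continuousOn.mono hKU
    have h1 : ContinuousOn (fun x => (Q / Real.pi) * s x ^ 2 * Real.sin (Real.pi * (b x / s x)))
        K := by
      refine (continuousOn_const.mul (hc.pow 2).continuousOn).mul ?_
      exact Real.continuous_sin.comp_continuousOn
        (continuousOn_const.mul (hbc.div hc.continuousOn fun x _ => (h0 x).ne'))
    exact pu_int_mul hKc (h1.integrableOn_compact hKc) hφ.smooth.continuous.aestronglyMeasurable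
      (fun x hx => by rw [← Real.norm_eq_abs]; exact hC x hx) hφz
  have hPi : Integrable P volume := hP1.sub hP2
  have hvm : AEStronglyMeasurable (fun x => 1 - b x / s x) (volume.restrict K) :=
    pu_aesm hKc hKU hvL.wg.intf
  have hPz : ∀ x, x ∉ K → P x = 0 := fun x hx => by
    simp only [hP, hφz x hx, hgz x hx, inner_zero_right, mul_zero, sub_zero]
  have hstpI : ∀ δ : ℝ, 0 < δ → Integrable (fun x => ustp δ (1 - b x / s x) * P x) volume := by
    intro δ hδ
    have hsc : Continuous (ustp δ) := by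
      unfold ustp
      refine Continuous.div (by fun_prop) (by fun_prop) fun t => ?_
      positivity
    have h1 : IntegrableOn (fun x => ustp δ (1 - b x / s x) * P x) K volume := by
      refine Integrable.mono' hPi.norm.integrableOn
        ((hsc.comp_aestronglyMeasurable hvm).mul hPi.aestronglyMeasurable.restrict) ?_
      refine Eventually.of_forall fun x => ?_
      rw [norm_mul, Real.norm_eq_abs, abs_of_nonneg (ustp_nonneg _ _)]
      exact mul_le_of_le_one_left (norm_nonneg _) (ustp_le_one _ _)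
    refine (integrableOn_iff_integrable_of_support_subset fun x hx => ?_).1 h1
    by_contra hxK
    apply hx
    simp [hPz x hxK]
  have key : ∀ δ : ℝ, 0 < δ → ∫ x, ustp δ (1 - b x / s x) * P x ≤ 0 := by
    intro δ hδ
    set v : E → ℝ := fun x => 1 - b x / s x with hv
    set ζ : E → ℝ := fun x => φ x * ustp δ (v x) with hζ
    set gζ : E → E := fun x => φ x • (ustp' δ (v x) • gv s b gs G x) + ustp δ (v x) • gr φ x with hgζ
    have hζL : LB Om ζ gζ := hφL.mul hO (hvL.ustp hO hδ)
    have hζz : ∀ x, x ∉ K → ζ x = 0 := fun x hx => by simp only [hζ, hφz x hx, zero_mul]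
    have hgζz : ∀ x, x ∉ K → gζ x = 0 := fun x hx => by
      simp only [hgζ, hφz x hx, hgz x hx, zero_smul, smul_zero, add_zero]
    have hζ0 : ∀ x, 0 ≤ ζ x := fun x => mul_nonneg (hφ0 x) (ustp_nonneg _ _)
    have hbζ := hbL.mul hO hζL
    have hsζ := hsL.mul hO hζL
    obtain ⟨H1b, Cb, hCb⟩ := hbζ.h1 hO hKc hKU (fun x hx => by rw [hζz x hx, mul_zero])
      (fun x hx => by rw [hζz x hx, hgζz x hx, smul_zero, zero_smul, add_zero])
    obtain ⟨H1s, Cs, hCs⟩ := hsζ.h1 hO hKc hKU (fun x hx => by rw [hζz x hx, mul_zero])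
      (fun x hx => by rw [hζz x hx, hgζz x hx, smul_zero, zero_smul, add_zero])
    have hbζ0 : ∀ x, 0 ≤ b x * ζ x := fun x => by
      by_cases hx : x ∈ K
      · exact mul_nonneg (hb0 x (hKU hx)).le (hζ0 x)
      · rw [hζz x hx, mul_zero]
    have e1 := test_ineq_bdd hO hs2 hq (c := 1) (fun φ hφ hφ0 => by
      rw [one_mul]; exact hK φ hφ hφ0) H1b hKc hKU (fun x hx => by rw [hζz x hx, mul_zero])
      (b := Cb) (fun x => ⟨hbζ0 x, (le_abs_self _).trans (hCb x)⟩)
    have e2 := test_eq_bdd hO hbL.l2 (hb.locInt_lap hO) (c := 1) (fun φ hφ => by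
      rw [one_mul, hb.ibp hO hφ]; ring) H1s hKc hKU (fun x hx => by rw [hζz x hx, mul_zero])
      (b := Cs) hCs
    rw [one_mul] at e1 e2
    have i1 : Integrable (fun x => inner ℝ (gs x) (b x • gζ x + ζ x • G x)) volume :=
      pu_int_inner hKc (hs2 K hKc hKU) (hbζ.l2 K hKc hKU)
        (fun x hx => by rw [hζz x hx, hgζz x hx, smul_zero, zero_smul, add_zero])
    have i3 : Integrable (fun x => inner ℝ (G x) (s x • gζ x + ζ x • gs x)) volume :=
      pu_int_inner hKc (hbL.l2 K hKc hKU) (hsζ.l2 K hKc hKU)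
        (fun x hx => by rw [hζz x hx, hgζz x hx, smul_zero, zero_smul, add_zero])
    have i2 : Integrable (fun x => k x * s x * (b x * ζ x)) volume :=
      pu_int_mul hKc (hq.integrableOn_compact_subset hKU hKc) (pu_aesm hKc hKU hbζ.wg.intf)
        (fun x _ => hCb x) (fun x hx => by rw [hζz x hx, mul_zero])
    have i4 : Integrable (fun x => L x * (s x * ζ x)) volume :=
      pu_int_mul hKc ((hb.locInt_lap hO).integrableOn_compact_subset hKU hKc)
        (pu_aesm hKc hKU hsζ.wg.intf) (fun x _ => hCs x) (fun x hx => by rw [hζz x hx, mul_zero])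
    have e3 : ∫ x, ((inner ℝ (gs x) (b x • gζ x + ζ x • G x) + k x * s x * (b x * ζ x)) -
        (inner ℝ (G x) (s x • gζ x + ζ x • gs x) + L x * (s x * ζ x))) ≤ 0 := by
      have a1 := integral_sub (i1.add i2) (i3.add i4)
      have a2 := integral_add i1 i2
      have a3 := integral_add i3 i4
      simp only [Pi.add_apply] at a1 a2 a3
      rw [a1, a2, a3, e2, sub_zero]
      exact e1
    refine le_trans (integral_mono (hstpI δ hδ) ((i1.add i2).sub (i3.add i4)) fun x => ?_) e3
    change ustp δ (v x) * P x ≤ (inner ℝ (gs x) (b x • gζ x + ζ x • G x) + k x * s x * (b x * ζ x)) -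
        (inner ℝ (G x) (s x • gζ x + ζ x • gs x) + L x * (s x * ζ x))
    by_cases hx : x ∈ K
    swap
    · rw [hPz x hx, hζz x hx, hgζz x hx]; simp
    have hxO := hKU hx
    have hsx := h0 x
    rcases le_or_gt (v x) 0 with hvx | hvx
    · have z1 : ζ x = 0 := by simp only [hζ, ustp_zero hvx, mul_zero]
      have z2 : gζ x = 0 := by
        simp only [hgζ, ustp_zero hvx, ustp'_zero hvx, zero_smul, smul_zero, add_zero]
      rw [z1, z2, ustp_zero hvx]; simp
    · have hbs : b x < s x := (pu_one_sub hsx).1 hvx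
      have hst := hstar x hxO hbs
      have hζx := hζ0 x
      have c1 : inner ℝ (gs x) (b x • gζ x + ζ x • G x) - inner ℝ (G x) (s x • gζ x + ζ x • gs x) =
          s x ^ 2 * inner ℝ (gv s b gs G x) (gζ x) := by
        unfold gv
        rw [inner_add_right, inner_add_right, inner_smul_right, inner_smul_right, inner_smul_right,
          inner_smul_right, inner_sub_left, inner_smul_left, inner_smul_left,
          real_inner_comm (gs x) (G x)]
        simp only [conj_trivial]
        field_simp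
        ring
      have c2 : inner ℝ (gv s b gs G x) (gζ x) =
          φ x * ustp' δ (v x) * ‖gv s b gs G x‖ ^ 2 +
            ustp δ (v x) * inner ℝ (gv s b gs G x) (gr φ x) := by
        simp only [hgζ]
        rw [inner_add_right, inner_smul_right, inner_smul_right, inner_smul_right,
          real_inner_self_eq_norm_sq]
        ring
      have c3 : 0 ≤ s x ^ 2 * (φ x * ustp' δ (v x) * ‖gv s b gs G x‖ ^ 2) := by
        have := hφ0 x
        have := ustp'_nonneg δ (v x)
        positivity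
      have c4 : (L x - k x * b x) * (s x * ζ x) ≤
          Q / Real.pi * s x * Real.sin (Real.pi * (b x / s x)) * (s x * ζ x) := by
        refine mul_le_mul_of_nonneg_right (by linarith) (by positivity)
      have c5 : ustp δ (v x) * P x = s x ^ 2 * (ustp δ (v x) * inner ℝ (gv s b gs G x) (gr φ x)) -
          Q / Real.pi * s x * Real.sin (Real.pi * (b x / s x)) * (s x * ζ x) := by
        simp only [hP, hζ]; ring
      rw [c5]
      have c6 : (inner ℝ (gs x) (b x • gζ x + ζ x • G x) + k x * s x * (b x * ζ x)) -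
        (inner ℝ (G x) (s x • gζ x + ζ x • gs x) + L x * (s x * ζ x)) =
        s x ^ 2 * inner ℝ (gv s b gs G x) (gζ x) - (L x - k x * b x) * (s x * ζ x) := by
        rw [← c1]; ring
      rw [c6, c2, mul_add]
      linarith
  -- the limit
  have hlim : ∫ x, (if b x < s x then (1 : ℝ) else 0) * P x ≤ 0 := by
    have h1 : Tendsto (fun n : ℕ => ∫ x, ustp (1 / ((n : ℝ) + 1)) (1 - b x / s x) * P x) atTop
        (𝓝 (∫ x, (if b x < s x then (1 : ℝ) else 0) * P x)) := by
      refine tendsto_integral_of_dominated_convergence (fun x => ‖P x‖)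
        (fun n => (hstpI _ (by positivity)).aestronglyMeasurable) hPi.norm (fun n => ?_) ?_
      · refine Eventually.of_forall fun x => ?_
        rw [norm_mul, Real.norm_eq_abs, abs_of_nonneg (ustp_nonneg _ _)]
        exact mul_le_of_le_one_left (norm_nonneg _) (ustp_le_one _ _)
      · refine Eventually.of_forall fun x => ?_
        refine Tendsto.mul_const _ ?_
        split_ifs with hx
        · exact tendsto_ustp ((pu_one_sub (h0 x)).2 hx)
        · have hx' : 1 - b x / s x ≤ 0 := by
            by_contra h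
            exact hx ((pu_one_sub (h0 x)).1 (not_le.1 h))
          refine tendsto_const_nhds.congr fun n => (ustp_zero hx').symm
    exact le_of_tendsto' h1 fun n => key _ (by positivity)
  -- conclusion
  have hI : Integrable (fun x => (if b x < s x then (1 : ℝ) else 0) * P x) volume := by
    have hm : AEStronglyMeasurable (fun x => (if b x < s x then (1 : ℝ) else 0) * P x)
        (volume : Measure E) := by
      refine aestronglyMeasurable_of_tendsto_ae atTop
        (f := fun (n : ℕ) x => ustp (1 / ((n : ℝ) + 1)) (1 - b x / s x) * P x)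
        (fun n => (hstpI _ (by positivity)).aestronglyMeasurable)
        (Eventually.of_forall fun x => ?_)
      refine Tendsto.mul_const _ ?_
      split_ifs with hx
      · exact tendsto_ustp ((pu_one_sub (h0 x)).2 hx)
      · have hx' : 1 - b x / s x ≤ 0 := by
          by_contra h
          exact hx ((pu_one_sub (h0 x)).1 (not_le.1 h))
        refine tendsto_const_nhds.congr fun n => (ustp_zero hx').symm
    refine Integrable.mono' hPi.norm hm (Eventually.of_forall fun x => ?_)
    split_ifs <;> simp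
  have hcos : ∀ x, s x ^ 2 * inner ℝ (gbet s b gs G x) (gr φ x) -
      (Q / 2) * (s x ^ 2 * Real.sin (2 * bet s b x) * φ x) =
      (Real.pi / 2) * ((if b x < s x then (1 : ℝ) else 0) * P x) := by
    intro x
    have hsx := h0 x
    have hpi := Real.pi_ne_zero
    unfold gbet bet
    by_cases hx : b x < s x
    · rw [if_pos hx, if_pos hx, max_eq_left ((pu_one_sub hsx).2 hx).le, inner_smul_left,
        show 2 * (Real.pi / 2 * (1 - b x / s x)) = Real.pi - Real.pi * (b x / s x) by ring,
        Real.sin_pi_sub]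
      simp only [hP, conj_trivial]
      field_simp
    · have hx' : 1 - b x / s x ≤ 0 := by
        by_contra h
        exact hx ((pu_one_sub hsx).1 (not_le.1 h))
      rw [if_neg hx, if_neg hx, max_eq_right hx']
      simp
  have hBi : Integrable (fun x => (Q / 2) * (s x ^ 2 * Real.sin (2 * bet s b x) * φ x)) volume := by
    obtain ⟨C, hC⟩ := hKc.exists_bound_of_continuousOn (hφ.smooth.continuous.continuousOn (s := K))
    have hbc : ContinuousOn b K := hb.smooth.continuousOn.mono hKU
    have h1 : ContinuousOn (fun x => s x ^ 2 * Real.sin (2 * bet s b x)) K := by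
      refine (hc.pow 2).continuousOn.mul ?_
      refine Real.continuous_sin.comp_continuousOn (continuousOn_const.mul ?_)
      unfold bet
      refine continuousOn_const.mul (ContinuousOn.sup ?_ continuousOn_const)
      exact continuousOn_const.sub (hbc.div hc.continuousOn fun x _ => (h0 x).ne')
    exact (pu_int_mul hKc (h1.integrableOn_compact hKc)
      hφ.smooth.continuous.aestronglyMeasurable
      (fun x hx => by rw [← Real.norm_eq_abs]; exact hC x hx) hφz).const_mul _
  have hAi : Integrable (fun x => s x ^ 2 * inner ℝ (gbet s b gs G x) (gr φ x)) volume := by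
    refine ((hI.const_mul (Real.pi / 2)).add hBi).congr (Eventually.of_forall fun x => ?_)
    simp only [Pi.add_apply]
    rw [← hcos x]; ring
  have e1 : ∫ x in Om, s x ^ 2 * inner ℝ (gbet s b gs G x) (gr φ x) =
      ∫ x, s x ^ 2 * inner ℝ (gbet s b gs G x) (gr φ x) :=
    setIntegral_eq_integral_of_forall_compl_eq_zero fun x hx => by
      rw [hgz x fun h => hx (hKU h), inner_zero_right, mul_zero]
  have e2 : ∫ x in Om, s x ^ 2 * Real.sin (2 * bet s b x) * φ x =
      ∫ x, s x ^ 2 * Real.sin (2 * bet s b x) * φ x :=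
    setIntegral_eq_integral_of_forall_compl_eq_zero fun x hx => by
      rw [hφz x fun h => hx (hKU h), mul_zero]
  rw [e1, e2, ← integral_const_mul, ← sub_nonpos, ← integral_sub hAi hBi]
  simp only [hcos]
  rw [integral_const_mul]
  exact mul_nonpos_of_nonneg_of_nonpos (by positivity) hlim

end

end Crest.Agent.R335
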