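import Crest.Agent.R335.PU1
import Crest.Agent.R335.PCSMain
import Crest.Agent.R335.PCZero
import Crest.Agent.R335.HZero

/-!
Row 335 (S0521), Part C, section C.4: the comparison `β ≤ α` for the function `β = (π/2) (1 - b/s)_+`
of a barrier `b` (from Lemma CS).
-/

set_option autoImplicit false
set_option linter.unusedSectionVars false

open MeasureTheory Filter Set
open scoped ENNReal Topology ContDiff

noncomputable section
namespace Crest.Agent.R335

variable {ι : Type*} [Fintype ι] [DecidableEq ι]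

local notation "E" => EuclideanSpace ℝ ι

section
variable {Om : Set (EuclideanSpace ℝ ι)} {s α b : EuclideanSpace ℝ ι → ℝ}
  {gs gα G : EuclideanSpace ℝ ι → EuclideanSpace ℝ ι} {L k : EuclideanSpace ℝ ι → ℝ}

theorem bet_nonneg (s b : E → ℝ) (x : E) : 0 ≤ bet s b x := by
  unfold bet
  have := Real.pi_pos
  have : 0 ≤ max (1 - b x / s x) 0 := le_max_right _ _
  positivity

theorem bet_le {x : E} (hs : 0 < s x) (hb : 0 ≤ b x) : bet s b x ≤ Real.pi / 2 := by
  unfold bet
  have h1 : max (1 - b x / s x) 0 ≤ 1 := max_le (by linarith [div_nonneg hb hs.le]) zero_le_one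
  have := Real.pi_pos
  nlinarith

/-- pointwise bound of the gradient of `bet` -/
theorem norm_gbet_le {x : E} (hs : 0 < s x) (hb : 0 ≤ b x) {C : ℝ} (hC : 0 ≤ C)
    (hG : ‖G x‖ ≤ C * b x) : s x * ‖gbet s b gs G x‖ ≤ 2 * (‖gs x‖ + C * s x) := by
  unfold gbet
  split_ifs with h
  · rw [norm_smul, Real.norm_eq_abs, abs_of_pos (by positivity)]
    have h1 : s x * ‖gv s b gs G x‖ ≤ ‖gs x‖ + C * s x := by
      unfold gv
      have e1 : ‖(b x / s x ^ 2) • gs x‖ = (b x / s x ^ 2) * ‖gs x‖ := by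
        rw [norm_smul, Real.norm_eq_abs, abs_of_nonneg (by positivity)]
      have e2 : ‖(1 / s x) • G x‖ = (1 / s x) * ‖G x‖ := by
        rw [norm_smul, Real.norm_eq_abs, abs_of_nonneg (by positivity)]
      have e3 : s x * ‖(b x / s x ^ 2) • gs x - (1 / s x) • G x‖ ≤
          s x * ((b x / s x ^ 2) * ‖gs x‖ + (1 / s x) * ‖G x‖) := by
        refine mul_le_mul_of_nonneg_left ?_ hs.le
        rw [← e1, ← e2]
        exact norm_sub_le _ _
      refine e3.trans ?_
      have e4 : s x * ((b x / s x ^ 2) * ‖gs x‖ + (1 / s x) * ‖G x‖) =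
          (b x / s x) * ‖gs x‖ + ‖G x‖ := by
        field_simp
      rw [e4]
      have e5 : b x / s x ≤ 1 := (div_le_one hs).2 h.le
      have e6 : ‖G x‖ ≤ C * s x := hG.trans (mul_le_mul_of_nonneg_left h.le hC)
      nlinarith [norm_nonneg (gs x)]
    have h2 : Real.pi / 2 ≤ 2 := by linarith [Real.pi_lt_four]
    have h3 : 0 ≤ s x * ‖gv s b gs G x‖ := by positivity
    calc s x * (Real.pi / 2 * ‖gv s b gs G x‖) = (Real.pi / 2) * (s x * ‖gv s b gs G x‖) := by ring
      _ ≤ 2 * (s x * ‖gv s b gs G x‖) := mul_le_mul_of_nonneg_right h2 h3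
      _ ≤ 2 * (‖gs x‖ + C * s x) := by linarith
  · rw [norm_zero, mul_zero]
    positivity

theorem bet_energy (hO : IsOpen Om) (hs : H1 s gs) (hc : Continuous s) (h0 : ∀ x, 0 < s x)
    (hb : Jet Om b G L) (hb0 : ∀ x ∈ Om, 0 < b x) {C : ℝ} (hC : 0 ≤ C)
    (hG : ∀ x ∈ Om, ‖G x‖ ≤ C * b x) :
    IntegrableOn (fun x => s x ^ 2 * ‖gbet s b gs G x‖ ^ 2) Om volume := by
  have hwg : WG Om (bet s b) (gbet s b gs G) := WG.bet hO (hs.wg.mono (subset_univ _)) hc h0 hb
  have hm : AEStronglyMeasurable (gbet s b gs G) (volume.restrict Om) := HC.aesmg hwg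
  have h1 : Integrable (fun x => 8 * (‖gs x‖ ^ 2 + C ^ 2 * s x ^ 2)) (volume.restrict Om) :=
    ((hs.memg.integrable_norm_pow two_ne_zero |>.restrict).add
      ((hs.memf.integrable_sq.const_mul (C ^ 2)).restrict)).const_mul 8
  refine Integrable.mono' h1 ((hc.pow 2).aestronglyMeasurable.mul (hm.norm.pow 2)) ?_
  filter_upwards [self_mem_ae_restrict hO.measurableSet] with x hx
  rw [Real.norm_eq_abs, abs_of_nonneg (by positivity)]
  have h2 := norm_gbet_le (gs := gs) (h0 x) (hb0 x hx).le hC (hG x hx)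
  have h3 : 0 ≤ s x * ‖gbet s b gs G x‖ := mul_nonneg (h0 x).le (norm_nonneg _)
  have h4 : (s x * ‖gbet s b gs G x‖) ^ 2 ≤ (2 * (‖gs x‖ + C * s x)) ^ 2 := pow_le_pow_left₀ h3 h2 2
  nlinarith [sq_nonneg (‖gs x‖ - C * s x)]

/-- locally integrable times locally bounded -/
theorem pu_locInt_mul {F : Type*} [NormedAddCommGroup F] [NormedSpace ℝ F] (hO : IsOpen Om)
    {f : E → ℝ} {g : E → F} (hf : LocallyIntegrableOn f Om volume)
    (hg : LocallyIntegrableOn g Om volume) {C : ℝ}
    (hC : ∀ᵐ x ∂(volume.restrict Om), |f x| ≤ C) :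
    LocallyIntegrableOn (fun x => f x • g x) Om volume := by
  refine (locallyIntegrableOn_iff hO.isLocallyClosed).2 fun K hKU hK => ?_
  have h1 := hf.integrableOn_compact_subset hKU hK
  have h2 := hg.integrableOn_compact_subset hKU hK
  refine Integrable.mono' (h2.norm.const_mul C) (h1.aestronglyMeasurable.smul
    h2.aestronglyMeasurable) ?_
  filter_upwards [ae_restrict_of_ae_restrict_of_subset hKU hC] with x hx
  rw [norm_smul, Real.norm_eq_abs]
  exact mul_le_mul_of_nonneg_right hx (norm_nonneg _)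

theorem pu_locInt_mul' {F : Type*} [NormedAddCommGroup F] [NormedSpace ℝ F] (hO : IsOpen Om)
    {f : E → ℝ} {g : E → F} (hf : LocallyIntegrableOn f Om volume)
    (hg : LocallyIntegrableOn g Om volume) {C : ℝ}
    (hC : ∀ᵐ x ∂(volume.restrict Om), ‖g x‖ ≤ C) :
    LocallyIntegrableOn (fun x => f x • g x) Om volume := by
  refine (locallyIntegrableOn_iff hO.isLocallyClosed).2 fun K hKU hK => ?_
  have h1 := hf.integrableOn_compact_subset hKU hK
  have h2 := hg.integrableOn_compact_subset hKU hK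
  refine Integrable.mono' (h1.norm.mul_const C) (h1.aestronglyMeasurable.smul
    h2.aestronglyMeasurable) ?_
  filter_upwards [ae_restrict_of_ae_restrict_of_subset hKU hC] with x hx
  rw [norm_smul]
  exact mul_le_mul_of_nonneg_left hx (norm_nonneg _)

/-- zero trace of `(β - α)_+` -/
theorem PU.trace (hO : IsOpen Om) (hc : Continuous s) (h0 : ∀ x, 0 < s x)
    {v : E → ℝ} {gw : E → E} (hv : WG Om v gw) (hv0 : ∀ᵐ x ∂(volume.restrict Om), 0 ≤ v x)
    {M : ℝ} (hvM : ∀ᵐ x ∂(volume.restrict Om), v x ≤ M)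
    (hvE : MemLp (fun x => s x • gw x) 2 (volume.restrict Om))
    {S : E → ℝ} {gS : E → E} (hS : H10 Om S gS)
    (htr : ∀ R : ℝ, ∃ C : ℝ, ∀ᵐ x ∂(volume.restrict Om), ‖x‖ ≤ R → v x ≤ C * S x)
    {κ : E → ℝ} {l : E → E} (hκ : H1 κ l) (hκ0 : ∀ x, 0 ≤ κ x) {C : ℝ} (hκC : ∀ x, κ x ≤ C)
    (hlC : ∀ x, ‖l x‖ ≤ C) {R : ℝ} (hR : ∀ x, R < ‖x‖ → κ x = 0) :
    H10 Om (Om.indicator fun x => κ x * v x) (Om.indicator fun x => κ x • gw x + v x • l x) := by
  have hκab : ∀ x, |κ x| ≤ C := fun x => by rw [abs_of_nonneg (hκ0 x)]; exact hκC x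
  have hvab : ∀ᵐ x ∂(volume.restrict Om), |v x| ≤ M := by
    filter_upwards [hv0, hvM] with x h1 h2
    rw [abs_of_nonneg h1]; exact h2
  have hvm : AEStronglyMeasurable v (volume.restrict Om) := HC.aesm hv
  have hgm : AEStronglyMeasurable gw (volume.restrict Om) := HC.aesmg hv
  obtain ⟨C1, hC1⟩ := htr R
  have hκO : WG Om κ l := hκ.wg.mono (subset_univ _)
  have hw : WG Om (fun x => κ x * v x) (fun x => κ x • gw x + v x • l x) := by
    refine WG.mul hO hκO hv ?_ ?_ ?_
    · exact pu_locInt_mul hO hκO.intf hv.intf (Eventually.of_forall hκab)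
    · exact pu_locInt_mul hO hκO.intf hv.intg (Eventually.of_forall hκab)
    · exact pu_locInt_mul hO hv.intf hκO.intg hvab
  have hP := (hS.const_mul C1).mul_bdd hO hκ.wg hκab hlC
  refine H10.of_WG_le hO hP hw ?_ ?_ ?_ ?_
  · refine (hκ.memf.restrict Om).of_le_mul (c := M)
      ((hκ.memf.aestronglyMeasurable.restrict).mul hvm) ?_
    filter_upwards [hvab] with x hx
    rw [norm_mul, mul_comm]
    exact mul_le_mul_of_nonneg_right hx (norm_nonneg _)
  · refine MemLp.add ?_ ?_
    · obtain ⟨c, C', hc0, _, hcC⟩ := pu_bounds hc h0 (isCompact_closedBall (0 : E) R)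
      refine hvE.of_le_mul (c := C / c) (hκO.intf.aestronglyMeasurable.smul hgm) ?_
      refine Eventually.of_forall fun x => ?_
      rw [norm_smul, norm_smul, Real.norm_eq_abs, Real.norm_eq_abs, abs_of_pos (h0 x)]
      have hC0 : 0 ≤ C := (abs_nonneg _).trans (hκab x)
      by_cases hx : ‖x‖ ≤ R
      · have h1 := (hcC x (by simpa using hx)).1
        have h2 : |κ x| ≤ C / c * s x := by
          calc |κ x| ≤ C := hκab x
            _ = C / c * c := by field_simp
            _ ≤ C / c * s x := mul_le_mul_of_nonneg_left h1 (by positivity)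
        calc |κ x| * ‖gw x‖ ≤ (C / c * s x) * ‖gw x‖ :=
              mul_le_mul_of_nonneg_right h2 (norm_nonneg _)
          _ = C / c * (s x * ‖gw x‖) := by ring
      · rw [hR x (not_le.1 hx), abs_zero, zero_mul]
        have := h0 x
        positivity
    · refine (hκ.memg.restrict Om).of_le_mul (c := M)
        (hvm.smul (hκ.memg.aestronglyMeasurable.restrict)) ?_
      filter_upwards [hvab] with x hx
      rw [norm_smul]
      exact mul_le_mul_of_nonneg_right hx (norm_nonneg _)
  · filter_upwards [hv0] with x hx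
    exact mul_nonneg (hκ0 x) hx
  · filter_upwards [hC1] with x hx
    by_cases hxR : ‖x‖ ≤ R
    · exact mul_le_mul_of_nonneg_left (hx hxR) (hκ0 x)
    · rw [hR x (not_le.1 hxR), zero_mul, zero_mul]

theorem PU.memLp_of_energy (hs : AEStronglyMeasurable s (volume.restrict Om))
    {g : E → E} (hg : AEStronglyMeasurable g (volume.restrict Om))
    (h : IntegrableOn (fun x => s x ^ 2 * ‖g x‖ ^ 2) Om volume) :
    MemLp (fun x => s x • g x) 2 (volume.restrict Om) := by
  refine (memLp_two_iff_integrable_sq_norm (hs.smul hg)).2 ?_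
  refine h.congr (Eventually.of_forall fun x => ?_)
  change s x ^ 2 * ‖g x‖ ^ 2 = ‖s x • g x‖ ^ 2
  simp only [norm_smul, mul_pow, Real.norm_eq_abs, sq_abs]

/-- **the comparison for the barrier** -/
theorem PU.core (hO : IsOpen Om) {Q : ℝ} (hQ : 0 < Q) (hs : H1 s gs) (hc : Continuous s)
    (h0 : ∀ x, 0 < s x) {M : ℝ} (hM : ∀ x, s x ≤ M) (hα : WG Om α gα)
    (hα0 : ∀ᵐ x ∂(volume.restrict Om), 0 < α x ∧ α x ≤ Real.pi / 2)
    (hαE : IntegrableOn (fun x => s x ^ 2 * ‖gα x‖ ^ 2) Om)
    (hEL : ∀ p gp, TC Om p gp → (Q / 2) * ∫ x in Om, s x ^ 2 * Real.sin (2 * α x) * p x ≤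
      ∫ x in Om, s x ^ 2 * inner ℝ (gα x) (gp x))
    (hb : Jet Om b G L) (hb0 : ∀ x ∈ Om, 0 < b x) (hk : LocallyIntegrableOn k Om volume)
    (hK : ∀ φ : E → ℝ, Test Om φ → (∀ x, 0 ≤ φ x) →
      (∫ x, inner ℝ (gs x) (gr φ x)) + ∫ x, k x * s x * φ x ≤ 0)
    (hstar : ∀ x ∈ Om, b x < s x →
      L x ≤ k x * b x + Q / Real.pi * s x * Real.sin (Real.pi * (b x / s x)))
    {C : ℝ} (hC : 0 ≤ C) (hG : ∀ x ∈ Om, ‖G x‖ ≤ C * b x)
    {S : E → ℝ} {gS : E → E} (hS : H10 Om S gS)
    (htr : ∀ R : ℝ, ∃ C : ℝ, ∀ᵐ x ∂(volume.restrict Om), ‖x‖ ≤ R →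
      max (bet s b x - α x) 0 ≤ C * S x) :
    ∀ᵐ x ∂(volume.restrict Om), bet s b x ≤ α x := by
  have hM0 : 0 ≤ M := (h0 0).le.trans (hM 0)
  have hsO : WG Om s gs := hs.wg.mono (subset_univ _)
  have hβ : WG Om (bet s b) (gbet s b gs G) := WG.bet hO hsO hc h0 hb
  have hβE := bet_energy hO hs hc h0 hb hb0 hC hG
  have hβm : AEStronglyMeasurable (gbet s b gs G) (volume.restrict Om) := HC.aesmg hβ
  have hβ0 : ∀ᵐ x ∂(volume.restrict Om), 0 ≤ bet s b x ∧ bet s b x ≤ Real.pi / 2 := by
    filter_upwards [self_mem_ae_restrict hO.measurableSet] with x hx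
    exact ⟨bet_nonneg s b x, bet_le (h0 x) (hb0 x hx).le⟩
  have hαm : AEStronglyMeasurable gα (volume.restrict Om) := HC.aesmg hα
  have hsm : AEStronglyMeasurable s (volume.restrict Om) := hc.aestronglyMeasurable
  have hL2 : L2locV Om gs := fun K _ _ => hs.memg.restrict K
  have mβ := PU.memLp_of_energy hsm hβm hβE
  have mα := PU.memLp_of_energy hsm hαm hαE
  refine CS hO hQ hs.memf hc h0 hα hβ hα0 hβ0 hαE hβE hEL ?_ ?_
  · -- the subsolution inequality for all admissible tests
    intro p gp hp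
    have hG2 : MemLp (fun x => s x ^ 2 • gbet s b gs G x) 2 (volume.restrict Om) := by
      refine mβ.of_le_mul (c := M) ((hsm.pow 2).smul hβm) (Eventually.of_forall fun x => ?_)
      rw [norm_smul, norm_smul, norm_pow, Real.norm_eq_abs, abs_of_pos (h0 x), sq]
      have := mul_le_mul_of_nonneg_right (hM x) (mul_nonneg (h0 x).le (norm_nonneg
        (gbet s b gs G x)))
      nlinarith
    have hq2 : MemLp (fun x => -((Q / 2) * (s x ^ 2 * Real.sin (2 * bet s b x)))) 2
        (volume.restrict Om) := by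
      refine (hs.memf.restrict Om).of_le_mul (c := (Q / 2) * M) ?_ ?_
      · have h1 : AEStronglyMeasurable (bet s b) (volume.restrict Om) := HC.aesm hβ
        exact (((hsm.pow 2).mul (Real.continuous_sin.comp_aestronglyMeasurable
          (h1.const_mul 2))).const_mul (Q / 2)).neg
      · refine Eventually.of_forall fun x => ?_
        rw [norm_neg, norm_mul, norm_mul, norm_pow, Real.norm_eq_abs (s x), abs_of_pos (h0 x),
          Real.norm_eq_abs, abs_of_pos (by positivity)]
        have h1 : ‖Real.sin (2 * bet s b x)‖ ≤ 1 := Real.abs_sin_le_one _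
        have h2 : s x ^ 2 * ‖Real.sin (2 * bet s b x)‖ ≤ M * s x := by
          calc s x ^ 2 * ‖Real.sin (2 * bet s b x)‖ ≤ s x ^ 2 * 1 :=
                mul_le_mul_of_nonneg_left h1 (sq_nonneg _)
            _ = s x * s x := by ring
            _ ≤ M * s x := mul_le_mul_of_nonneg_right (hM x) (h0 x).le
        calc Q / 2 * (s x ^ 2 * ‖Real.sin (2 * bet s b x)‖) ≤ Q / 2 * (M * s x) :=
              mul_le_mul_of_nonneg_left h2 (by positivity)
          _ = Q / 2 * M * s x := by ring
    have h1 := test_extend hO hq2 hG2 (fun φ hφ hφ0 => by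
      have h := bet_sub hO hsO hL2 hc h0 hb hb0 hk hK hstar hφ hφ0
      have e1 : ∫ x in Om, inner ℝ (s x ^ 2 • gbet s b gs G x) (gr φ x) =
          ∫ x in Om, s x ^ 2 * inner ℝ (gbet s b gs G x) (gr φ x) :=
        integral_congr_ae (Eventually.of_forall fun x => by
          simp only [inner_smul_left, conj_trivial])
      have e2 : ∫ x in Om, -((Q / 2) * (s x ^ 2 * Real.sin (2 * bet s b x))) * φ x =
          -((Q / 2) * ∫ x in Om, s x ^ 2 * Real.sin (2 * bet s b x) * φ x) := by
        rw [← integral_const_mul, ← integral_neg]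
        exact integral_congr_ae (Eventually.of_forall fun x => by simp only; ring)
      rw [e1, e2]
      linarith) hp.h10 hp.nonneg
    have e1 : ∫ x in Om, inner ℝ (s x ^ 2 • gbet s b gs G x) (gp x) =
        ∫ x in Om, s x ^ 2 * inner ℝ (gbet s b gs G x) (gp x) :=
      integral_congr_ae (Eventually.of_forall fun x => by
        simp only [inner_smul_left, conj_trivial])
    have e2 : ∫ x in Om, -((Q / 2) * (s x ^ 2 * Real.sin (2 * bet s b x))) * p x =
        -((Q / 2) * ∫ x in Om, s x ^ 2 * Real.sin (2 * bet s b x) * p x) := by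
      rw [← integral_const_mul, ← integral_neg]
      exact integral_congr_ae (Eventually.of_forall fun x => by simp only; ring)
    rw [e1, e2] at h1
    linarith
  · -- zero trace
    intro κ hκ
    set v : E → ℝ := fun x => max (bet s b x - α x) 0 with hv
    set gw : E → E := fun x => if 0 < bet s b x - α x then gbet s b gs G x - gα x else 0 with hgw
    have hvw : WG Om v gw := (hβ.sub hα hO).pos hO
    have hv0 : ∀ᵐ x ∂(volume.restrict Om), 0 ≤ v x := Eventually.of_forall fun x => le_max_right _ _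
    have hvM : ∀ᵐ x ∂(volume.restrict Om), v x ≤ Real.pi / 2 := by
      filter_upwards [hα0, hβ0] with x h1 h2
      exact max_le (by linarith [h1.1, h2.2]) (by positivity)
    have hvE : MemLp (fun x => s x • gw x) 2 (volume.restrict Om) := by
      refine (mβ.sub mα).of_le (hsm.smul (HC.aesmg hvw)) (Eventually.of_forall fun x => ?_)
      simp only [hgw]
      split_ifs with h
      · simp only [Pi.sub_apply, smul_sub, le_refl]
      · rw [smul_zero, norm_zero]; exact norm_nonneg _
    obtain ⟨C1, hC1⟩ := hκ.smooth.continuous.bounded_above_of_compact_support hκ.cpt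
    have hgc : Continuous (gr κ) := HC.continuous_gr hκ.smooth
    have hgcpt : HasCompactSupport (gr κ) := hasCompactSupport_gr hκ.cpt
    obtain ⟨C2, hC2⟩ := hgc.bounded_above_of_compact_support hgcpt
    obtain ⟨R, hR⟩ := hκ.cpt.isCompact.isBounded.subset_closedBall (0 : E)
    have hRz : ∀ x, R < ‖x‖ → κ x = 0 := fun x hx =>
      image_eq_zero_of_notMem_tsupport fun h => by
        have := hR h
        rw [mem_closedBall_zero_iff] at this
        linarith
    have hκ1 := H1.of_test hκ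
    have hCC : 0 ≤ max C1 C2 := ((norm_nonneg _).trans (hC1 0)).trans (le_max_left _ _)
    have hpos : ∀ (κ : E → ℝ) (l : E → E), H1 κ l → (∀ x, ‖κ x‖ ≤ C1) → (∀ x, ‖l x‖ ≤ C2) →
        (∀ x, R < ‖x‖ → κ x = 0) → ∃ l', H10 Om (Om.indicator fun x => max (κ x) 0 * v x) l' := by
      intro κ l h1 h2 h3 h4
      refine ⟨_, PU.trace hO hc h0 hvw hv0 hvM hvE hS htr h1.pos (fun x => le_max_right _ _)
        (C := max C1 C2) (fun x => ?_) (fun x => ?_) (R := R) (fun x hx => ?_)⟩
      · refine max_le ?_ hCC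
        exact ((le_abs_self _).trans (h2 x)).trans (le_max_left _ _)
      · split_ifs
        · exact (h3 x).trans (le_max_right _ _)
        · rw [norm_zero]; exact hCC
      · simp only [h4 x hx, max_self]
    obtain ⟨l1, hl1⟩ := hpos κ (gr κ) hκ1 hC1 hC2 hRz
    obtain ⟨l2, hl2⟩ := hpos (fun x => (-1) * κ x) (fun x => (-1 : ℝ) • gr κ x)
      (hκ1.const_mul (-1)) (fun x => by simpa using hC1 x) (fun x => by simpa using hC2 x)
      (fun x hx => by rw [hRz x hx, mul_zero])
    refine ⟨_, (hl1.add (hl2.const_mul (-1))).congr (Eventually.of_forall fun x => ?_)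
      (EventuallyEq.refl _ _)⟩
    simp only
    by_cases hx : x ∈ Om
    · rw [indicator_of_mem hx, indicator_of_mem hx, indicator_of_mem hx]
      have e : κ x = max (κ x) 0 - max ((-1) * κ x) 0 := by
        rcases le_total (κ x) 0 with h | h
        · rw [max_eq_right h, max_eq_left (by linarith)]; ring
        · rw [max_eq_left h, max_eq_right (by linarith)]; ring
      simp only [hv]
      conv_rhs => rw [e]
      ring
    · rw [indicator_of_notMem hx, indicator_of_notMem hx, indicator_of_notMem hx]; ring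

end

end Crest.Agent.R335
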