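import Crest.Agent.R335.PUDefs

/-!
Row 335 (S0521), Part C, C.4: the inequality (*) for the explicit barrier `bU`.
-/

set_option autoImplicit false
set_option linter.unusedSectionVars false

open MeasureTheory Filter Set Crest.MathPhysics.ThreeBody
open scoped ENNReal Topology ContDiff

noncomputable section
namespace Crest.Agent.R335

section
variable {ι : Type*} [Fintype ι] [DecidableEq ι]
local notation "E" => EuclideanSpace ℝ ι

/-- chain rule for jets -/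
theorem Jet.comp_real {U : Set E} (hU : IsOpen U) {f : E → ℝ} {g : E → E} {L : E → ℝ}
    (h : Jet U f g L) {F F' F'' : ℝ → ℝ} (hF : ∀ t, HasDerivAt F (F' t) t)
    (hF' : ∀ t, HasDerivAt F' (F'' t) t) (hc : Continuous F'') :
    Jet U (fun x => F (f x)) (fun x => F' (f x) • g x)
      (fun x => F'' (f x) * ‖g x‖ ^ 2 + F' (f x) * L x) := by
  have e1 : deriv F = F' := funext fun t => (hF t).deriv
  have e2 : deriv F' = F'' := funext fun t => (hF' t).deriv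
  have c1 : ContDiff ℝ 1 F' := contDiff_one_iff_deriv.2
    ⟨fun t => (hF' t).differentiableAt, by rw [e2]; exact hc⟩
  have c2 : ContDiff ℝ 2 F := by
    have := (contDiff_succ_iff_deriv (n := 1) (f := F)).2
      ⟨fun t => (hF t).differentiableAt, by simp, by rw [e1]; exact c1⟩
    have h2 : (1 : WithTop ℕ∞) + 1 = 2 := by norm_num
    rwa [h2] at this
  have hg : ∀ x ∈ U, HasFDerivAt (fun y => F (f y)) (innerSL ℝ (F' (f x) • g x)) x := by
    intro x hx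
    have h1 := (hF (f x)).comp_hasFDerivAt x (h.hasFDerivAt hU hx)
    refine h1.congr_fderiv ?_
    rw [map_smul]
  have hg' : ∀ x ∈ U, HasFDerivAt (fun y => F' (f y)) (innerSL ℝ (F'' (f x) • g x)) x := by
    intro x hx
    have h1 := (hF' (f x)).comp_hasFDerivAt x (h.hasFDerivAt hU hx)
    refine h1.congr_fderiv ?_
    rw [map_smul]
  refine ⟨c2.comp_contDiffOn h.smooth, fun x hx => XL.gr_eq_of_hasFDerivAt (hg x hx),
    fun x hx => ?_⟩
  have key : ∀ i, pd i (pd i fun y => F (f y)) x =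
      F' (f x) * pd i (pd i f) x + F'' (f x) * (g x i) ^ 2 := by
    intro i
    have e3 : pd i (pd i fun y => F (f y)) x = pd i (fun y => F' (f y) * pd i f y) x := by
      apply XL.pd_congr
      filter_upwards [hU.mem_nhds hx] with y hy
      rw [XL.pd_eq_of_hasFDerivAt (hg y hy)]
      have e4 : g y i = pd i f y := by rw [← h.grad y hy]; rfl
      simp [EuclideanSpace.inner_single_right, e4]
    rw [e3, XL.pd_mul (hg' x hx).differentiableAt (h.pd_diffAt hU hx i),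
      XL.pd_eq_of_hasFDerivAt (hg' x hx)]
    have e4 : g x i = pd i f x := by rw [← h.grad x hx]; rfl
    rw [← e4]
    simp only [innerSL_apply_apply, inner_smul_left, EuclideanSpace.inner_single_right,
      conj_trivial, one_mul]
    ring
  unfold lap
  rw [Finset.sum_congr rfl fun i _ => key i, Finset.sum_add_distrib, ← Finset.mul_sum,
    ← Finset.mul_sum, EuclideanSpace.norm_sq_eq]
  have e5 : ∑ i, pd i (pd i f) x = L x := h.lapl x hx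
  rw [e5]
  simp only [Real.norm_eq_abs, sq_abs]
  ring

end

/-- the function `e^{-z}` -/
theorem expz_jet {U : Set Pos3} (hU : IsOpen U) :
    Jet U (fun x : Pos3 => Real.exp (-x 2)) (fun x => (-Real.exp (-x 2)) • e3v)
      (fun x => Real.exp (-x 2)) := by
  have h := Jet.comp_real hU (Jet.coord (U := U) (2 : Fin 3)) (F := fun t => Real.exp (-t))
    (F' := fun t => -Real.exp (-t)) (F'' := fun t => Real.exp (-t))
    (fun t => by simpa using ((hasDerivAt_id t).fun_neg).exp)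
    (fun t => by simpa using (((hasDerivAt_id t).fun_neg).exp).fun_neg) (by fun_prop)
  refine h.of_eq (fun x _ => rfl) (fun x _ => ?_)
  simp

/-! ### the jet of the barrier -/

/-- gradient of `fU` -/
def gfU (D κn κ lam om0 A1 A2 : ℝ) (x : Pos3) : Pos3 :=
  A1 • gSx D κn (2 / κn - 1) 1 x +
    (A2 * (lam / om0 ^ 2)) • (ri 4 x • gSx D κ (2 * (1 - lam) / κ - 1) 1 x +
      Sx D κ (2 * (1 - lam) / κ - 1) 1 x • ((-(4 * ri 6 x)) • x))

/-- gradient of `bU` -/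
def gbU (Q D κn κ lam om0 A1 A2 : ℝ) (x : Pos3) : Pos3 :=
  (1 + 4 * Q * (2 - Real.exp (-x 2))) • gfU D κn κ lam om0 A1 A2 x +
    fU D κn κ lam om0 A1 A2 x • ((4 * Q * Real.exp (-x 2)) • e3v)

theorem fU_jet (D κn κ lam om0 A1 A2 : ℝ) :
    Jet (XT.Ud D) (fU D κn κ lam om0 A1 A2) (gfU D κn κ lam om0 A1 A2)
      (lap (fU D κn κ lam om0 A1 A2)) := by
  have hU := XT.isOpen_Ud D
  have h1 := ((Sx_jet D κn (2 / κn - 1) 1).mono (V := XT.Ud D) inter_subset_left).const_mul hU A1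
  have h2 := (riS_jet 4 D κ (2 * (1 - lam) / κ - 1) 1).const_mul hU (A2 * (lam / om0 ^ 2))
  have h3 := h1.add hU h2
  refine ⟨h3.smooth, fun x hx => ?_, fun x _ => rfl⟩
  have h4 := h3.grad x hx
  simp only [Nat.cast_ofNat] at h4
  exact h4

theorem gz_jet (Q : ℝ) {U : Set Pos3} (hU : IsOpen U) :
    Jet U (fun x : Pos3 => 1 + 4 * Q * (2 - Real.exp (-x 2)))
      (fun x => (4 * Q * Real.exp (-x 2)) • e3v) (fun x => -(4 * Q * Real.exp (-x 2))) := by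
  have h := (Jet.const (U := U) (1 : ℝ)).add hU
    (((Jet.const (U := U) (2 : ℝ)).sub hU (expz_jet hU)).const_mul hU (4 * Q))
  refine h.of_eq (fun x _ => ?_) (fun x _ => ?_)
  · simp only [zero_add, zero_sub, neg_smul, neg_neg, smul_smul]
  · ring

theorem bU_jet (Q D κn κ lam om0 A1 A2 : ℝ) :
    Jet (XT.Ud D) (bU Q D κn κ lam om0 A1 A2) (gbU Q D κn κ lam om0 A1 A2)
      (lap (bU Q D κn κ lam om0 A1 A2)) := by
  have hU := XT.isOpen_Ud D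
  have h3 := (gz_jet Q hU).mul hU (fU_jet D κn κ lam om0 A1 A2)
  exact ⟨h3.smooth, fun x hx => h3.grad x hx, fun x _ => rfl⟩

section star
variable {Q D κ κn lam om0 A1 A2 : ℝ} {x : Pos3}

theorem inner_e3v (v : Pos3) : inner ℝ e3v v = v 2 := by
  unfold e3v
  rw [real_inner_comm, EuclideanSpace.inner_single_right]
  simp

theorem gSx_two_le {Q' p : ℝ} (h : MPar κ Q' p 1) (hx : XFar D x) :
    gSx D κ p 1 x 2 ≤ 1.43 * (D / ‖x‖) * Sx D κ p 1 x := by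
  have h1 := Del_le h hx
  have h2 := Sig_nonneg h hx.reg
  have h3 := Ox_le_Sx h hx.reg
  have hD := hx.Dpos
  have hS := (Sx_pos h hx.reg).le
  rw [gSx_eq]
  simp only [PiLp.add_apply, PiLp.smul_apply, smul_eq_mul, XT.nuc_two]
  have h4 : 0 ≤ Sig D κ p 1 x * x 2 := mul_nonneg h2 hx.z0
  have h5 : Del D κ p 1 x * D ≤ 1.43 * (D / ‖x‖) * Sx D κ p 1 x := by
    calc Del D κ p 1 x * D ≤ 1.3 * κ / ‖x‖ * Ox D κ p 1 x * D :=
          mul_le_mul_of_nonneg_right h1 hD.le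
      _ ≤ 1.3 * κ / ‖x‖ * Sx D κ p 1 x * D := by
          have : 0 ≤ 1.3 * κ / ‖x‖ := by have := h.kpos; positivity
          gcongr
      _ = 1.3 * κ * ((D / ‖x‖) * Sx D κ p 1 x) := by ring
      _ ≤ 1.43 * ((D / ‖x‖) * Sx D κ p 1 x) := by
          refine mul_le_mul_of_nonneg_right ?_ (by positivity)
          linarith [h.k2]
      _ = 1.43 * (D / ‖x‖) * Sx D κ p 1 x := by ring
  linarith

theorem norm_gSx_le {Q' p : ℝ} (h : MPar κ Q' p 1) (hx : XReg D x) :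
    ‖gSx D κ p 1 x‖ ≤ 1.2 * Sx D κ p 1 x := by
  have key : ∀ (a : Pos3), 100 ≤ ‖x - a‖ →
      ‖(-(Dm κ p 1 ‖x - a‖ / ‖x - a‖)) • (x - a)‖ ≤ 1.2 * Em κ p 1 ‖x - a‖ := by
    intro a ha
    have h0 : 0 < ‖x - a‖ := by linarith
    have hD0 := Dm_pos h ha
    have hE := Em_pos h ha
    rw [norm_smul, norm_neg, Real.norm_eq_abs, abs_of_pos (div_pos hD0 h0),
      div_mul_cancel₀ _ h0.ne']
    have h1 := Dm_le h ha
    have h2 : 1.01 * κ * Em κ p 1 ‖x - a‖ ≤ 1.2 * Em κ p 1 ‖x - a‖ :=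
      mul_le_mul_of_nonneg_right (by linarith [h.k2]) hE.le
    linarith
  unfold gSx Sx
  refine (norm_add_le _ _).trans ?_
  linarith [key _ hx.rp, key _ hx.rm]

theorem fU_pos (hn : MPar κn 2 (2 / κn - 1) 1)
    (hf : MPar κ (2 * (1 - lam)) (2 * (1 - lam) / κ - 1) 1) (hA1 : 0 < A1) (hA2 : 0 ≤ A2)
    (hl : 0 ≤ lam) (hx : XFar D x) : 0 < fU D κn κ lam om0 A1 A2 x := by
  have h1 := Sx_pos hn hx.reg
  have h2 := Sx_pos hf hx.reg
  have h3 := ri_pos 4 hx.rpos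
  unfold fU
  positivity

theorem gz_bounds (hQ0 : 0 ≤ Q) (hQ1 : Q ≤ 1 / 20) (hz : 0 ≤ x 2) :
    1 ≤ 1 + 4 * Q * (2 - Real.exp (-x 2)) ∧ 1 + 4 * Q * (2 - Real.exp (-x 2)) ≤ 1.4 := by
  have h1 : Real.exp (-x 2) ≤ 1 := by rw [Real.exp_le_one_iff]; linarith
  have h2 := Real.exp_pos (-x 2)
  constructor
  · nlinarith
  · nlinarith

theorem bU_pos (hn : MPar κn 2 (2 / κn - 1) 1)
    (hf : MPar κ (2 * (1 - lam)) (2 * (1 - lam) / κ - 1) 1) (hA1 : 0 < A1) (hA2 : 0 ≤ A2)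
    (hl : 0 ≤ lam) (hQ0 : 0 ≤ Q) (hQ1 : Q ≤ 1 / 20) (hx : XFar D x) :
    0 < bU Q D κn κ lam om0 A1 A2 x := by
  have h1 := fU_pos (om0 := om0) hn hf hA1 hA2 hl hx
  have h2 := (gz_bounds hQ0 hQ1 hx.z0).1
  unfold bU
  exact mul_pos (by linarith) h1

theorem norm_gbU_le (hn : MPar κn 2 (2 / κn - 1) 1)
    (hf : MPar κ (2 * (1 - lam)) (2 * (1 - lam) / κ - 1) 1) (hA1 : 0 < A1) (hA2 : 0 ≤ A2)
    (hl : 0 ≤ lam) (hQ0 : 0 ≤ Q) (hQ1 : Q ≤ 1 / 20) (hx : XFar D x) :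
    ‖gbU Q D κn κ lam om0 A1 A2 x‖ ≤ 2 * bU Q D κn κ lam om0 A1 A2 x := by
  have hr := hx.rpos
  have hr0 := hx.r0
  have h1 := norm_gSx_le hn hx.reg
  have h2 := norm_gSx_le hf hx.reg
  have s1 := Sx_pos hn hx.reg
  have s2 := Sx_pos hf hx.reg
  have r4 := ri_pos 4 hr
  have hc : 0 ≤ A2 * (lam / om0 ^ 2) := by positivity
  have e1 : ‖gfU D κn κ lam om0 A1 A2 x‖ ≤ 1.3 * fU D κn κ lam om0 A1 A2 x := by
    unfold gfU fU
    have e2 : ‖Sx D κ (2 * (1 - lam) / κ - 1) 1 x • ((-(4 * ri 6 x)) • x)‖ ≤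
        0.1 * (ri 4 x * Sx D κ (2 * (1 - lam) / κ - 1) 1 x) := by
      rw [norm_smul, norm_smul, norm_neg, Real.norm_eq_abs, Real.norm_eq_abs, abs_of_pos s2,
        abs_of_nonneg (by have := ri_pos 6 hr; positivity), ri_succ, ri_succ]
      have : 4 * (ri 4 x / ‖x‖ / ‖x‖) * ‖x‖ = 4 / ‖x‖ * ri 4 x := by field_simp
      rw [this]
      have h4 : 4 / ‖x‖ ≤ 0.1 := by rw [div_le_iff₀ hr]; linarith
      calc Sx D κ (2 * (1 - lam) / κ - 1) 1 x * (4 / ‖x‖ * ri 4 x) =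
            4 / ‖x‖ * (ri 4 x * Sx D κ (2 * (1 - lam) / κ - 1) 1 x) := by ring
        _ ≤ _ := mul_le_mul_of_nonneg_right h4 (by positivity)
    have e3 : ‖A1 • gSx D κn (2 / κn - 1) 1 x‖ ≤ 1.3 * (A1 * Sx D κn (2 / κn - 1) 1 x) := by
      rw [norm_smul, Real.norm_eq_abs, abs_of_pos hA1]
      have := mul_le_mul_of_nonneg_left h1 hA1.le
      have : 0 ≤ A1 * Sx D κn (2 / κn - 1) 1 x := by positivity
      linarith
    have e4 : ‖(A2 * (lam / om0 ^ 2)) • (ri 4 x • gSx D κ (2 * (1 - lam) / κ - 1) 1 x +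
      Sx D κ (2 * (1 - lam) / κ - 1) 1 x • ((-(4 * ri 6 x)) • x))‖ ≤
        1.3 * (A2 * (lam / om0 ^ 2) * (ri 4 x * Sx D κ (2 * (1 - lam) / κ - 1) 1 x)) := by
      rw [norm_smul, Real.norm_eq_abs, abs_of_nonneg hc]
      have e5 : ‖ri 4 x • gSx D κ (2 * (1 - lam) / κ - 1) 1 x‖ ≤
          1.2 * (ri 4 x * Sx D κ (2 * (1 - lam) / κ - 1) 1 x) := by
        rw [norm_smul, Real.norm_eq_abs, abs_of_pos r4]
        have := mul_le_mul_of_nonneg_left h2 r4.le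
        linarith
      have e6 := (norm_add_le (ri 4 x • gSx D κ (2 * (1 - lam) / κ - 1) 1 x)
        (Sx D κ (2 * (1 - lam) / κ - 1) 1 x • ((-(4 * ri 6 x)) • x)))
      have e7 := mul_le_mul_of_nonneg_left (e6.trans (add_le_add e5 e2)) hc
      refine e7.trans (le_of_eq (by ring))
    refine (norm_add_le _ _).trans ((add_le_add e3 e4).trans (le_of_eq (by ring)))
  have hf0 := fU_pos (om0 := om0) hn hf hA1 hA2 hl hx
  obtain ⟨g1, g2⟩ := gz_bounds hQ0 hQ1 hx.z0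
  have hexp : Real.exp (-x 2) ≤ 1 := by rw [Real.exp_le_one_iff]; linarith [hx.z0]
  have hexp0 := Real.exp_pos (-x 2)
  have he3 : ‖e3v‖ = 1 := by simp [e3v]
  unfold gbU bU
  generalize 1 + 4 * Q * (2 - Real.exp (-x 2)) = gg at g1 g2
  generalize fU D κn κ lam om0 A1 A2 x = ff at e1 hf0
  refine (norm_add_le _ _).trans ?_
  rw [norm_smul, norm_smul, norm_smul, he3, Real.norm_eq_abs, Real.norm_eq_abs, Real.norm_eq_abs,
    abs_of_pos (by linarith : 0 < gg), abs_of_pos hf0, abs_of_nonneg (by positivity), mul_one]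
  have e8 : gg * ‖gfU D κn κ lam om0 A1 A2 x‖ ≤ gg * (1.3 * ff) :=
    mul_le_mul_of_nonneg_left e1 (by linarith)
  have e9 : ff * (4 * Q * Real.exp (-x 2)) ≤ ff * 0.2 := by
    refine mul_le_mul_of_nonneg_left ?_ hf0.le
    nlinarith
  nlinarith

/-- lower bound of `L fU` -/
theorem Lx_fU_ge (hn : MPar κn 2 (2 / κn - 1) 1)
    (hf : MPar κ (2 * (1 - lam)) (2 * (1 - lam) / κ - 1) 1) (hA1 : 0 < A1) (hA2 : 0 ≤ A2)
    (hl : 0 ≤ lam) (hl1 : lam ≤ 1 / 20) (hκ : κn ^ 2 ≤ κ ^ 2 + Q)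
    (hx : XFar D x) (hrQ : 80 ≤ ‖x‖ * Q) :
    A1 * ((κn / 8 * (√‖x‖)⁻¹ ^ 3 - Q / 2) * Sx D κn (2 / κn - 1) 1 x) -
      Q / 16 * (A2 * (lam / om0 ^ 2) * (ri 4 x * Sx D κ (2 * (1 - lam) / κ - 1) 1 x)) ≤
    Lx D 2 κ (fU D κn κ lam om0 A1 A2) x := by
  have hU := XT.isOpen_Ud D
  have hxU := mem_Ud hx
  have hr := hx.rpos
  have j1 := (Sx_jet D κn (2 / κn - 1) 1).mono (V := XT.Ud D) inter_subset_left
  have j2 := riS_jet 4 D κ (2 * (1 - lam) / κ - 1) 1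
  have s1 := (Sx_pos hn hx.reg).le
  have s2 := (Sx_pos hf hx.reg).le
  have r4 := (ri_pos 4 hr).le
  have hc : 0 ≤ A2 * (lam / om0 ^ 2) := by positivity
  have e0 : Lx D 2 κ (fU D κn κ lam om0 A1 A2) x =
      A1 * Lx D 2 κ (Sx D κn (2 / κn - 1) 1) x +
        A2 * (lam / om0 ^ 2) * Lx D 2 κ (fun x => ri 4 x * Sx D κ (2 * (1 - lam) / κ - 1) 1 x) x := by
    have := Lx_add hU (j1.const_mul hU A1) (j2.const_mul hU (A2 * (lam / om0 ^ 2))) (D := D)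
      (Q := 2) (κ := κ) hxU
    rw [Lx_const_mul hU j1 A1 hxU, Lx_const_mul hU j2 _ hxU] at this
    exact this
  rw [e0]
  have e1 : (κn / 8 * (√‖x‖)⁻¹ ^ 3 - Q / 2) * Sx D κn (2 / κn - 1) 1 x ≤
      Lx D 2 κ (Sx D κn (2 / κn - 1) 1) x := by
    rw [Lx_rate D 2 κn κ]
    have h1 := Lx_Sm_ge hn hx
    have h2 : -(Q / 2) * Sx D κn (2 / κn - 1) 1 x ≤
        (κ ^ 2 - κn ^ 2) / 2 * Sx D κn (2 / κn - 1) 1 x :=
      mul_le_mul_of_nonneg_right (by linarith) s1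
    linarith
  have e2 : -(Q / 16) * (ri 4 x * Sx D κ (2 * (1 - lam) / κ - 1) 1 x) ≤
      Lx D 2 κ (fun x => ri 4 x * Sx D κ (2 * (1 - lam) / κ - 1) 1 x) x := by
    have h1 := Lx_riSm_ge 4 (by norm_num) hf hx
    have h2 : Lx D 2 κ (fun x => ri 4 x * Sx D κ (2 * (1 - lam) / κ - 1) 1 x) x =
        Lx D (2 * (1 - lam)) κ (fun x => ri 4 x * Sx D κ (2 * (1 - lam) / κ - 1) 1 x) x +
          lam * V2 D x * (ri 4 x * Sx D κ (2 * (1 - lam) / κ - 1) 1 x) := by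
      unfold Lx; ring
    have h3 : -(2.1 / ‖x‖) ≤ V2 D x := by
      unfold V2
      have a1 : 1 / ‖x - nuc D‖ ≤ 1.05 / ‖x‖ := by
        rw [div_le_div_iff₀ (by linarith [hx.reg.rp]) hr]
        linarith [hx.rp_ge]
      have a2 : 1 / ‖x - nuc (-D)‖ ≤ 1.05 / ‖x‖ := by
        rw [div_le_div_iff₀ (by linarith [hx.reg.rm]) hr]
        linarith [hx.rm_ge]
      have a3 : 2.1 / ‖x‖ = 1.05 / ‖x‖ + 1.05 / ‖x‖ := by ring
      rw [a3]
      linarith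
    have hP : 0 ≤ ri 4 x * Sx D κ (2 * (1 - lam) / κ - 1) 1 x := by positivity
    rw [h2]
    have h4 : lam * -(2.1 / ‖x‖) ≤ lam * V2 D x := mul_le_mul_of_nonneg_left h3 hl
    have h5 : -(Q / 16) ≤ -((1.04 * (4 : ℕ)) * κ / ‖x‖) + lam * -(2.1 / ‖x‖) := by
      have a1 : (1.04 * (4 : ℕ)) * κ / ‖x‖ ≤ 4.6 / ‖x‖ := by
        refine div_le_div_of_nonneg_right ?_ hr.le
        push_cast
        linarith [hf.k2]
      have a2 : lam * (2.1 / ‖x‖) ≤ 0.2 / ‖x‖ := by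
        rw [mul_div_assoc']
        refine div_le_div_of_nonneg_right (by linarith) hr.le
      have a3 : 4.6 / ‖x‖ + 0.2 / ‖x‖ ≤ Q / 16 := by
        rw [← add_div, div_le_iff₀ hr]
        linarith
      linarith
    have h6 := mul_le_mul_of_nonneg_right (h5.trans (add_le_add_right h4 _)) hP
    have h7 : (-((1.04 * (4 : ℕ)) * κ / ‖x‖) + lam * V2 D x) *
        (ri 4 x * Sx D κ (2 * (1 - lam) / κ - 1) 1 x) =
        -((1.04 * (4 : ℕ)) * κ / ‖x‖) * (ri 4 x * Sx D κ (2 * (1 - lam) / κ - 1) 1 x) +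
          lam * V2 D x * (ri 4 x * Sx D κ (2 * (1 - lam) / κ - 1) 1 x) := by ring
    rw [h7] at h6
    linarith
  have e3 := mul_le_mul_of_nonneg_left e1 hA1.le
  have e4 := mul_le_mul_of_nonneg_left e2 hc
  linarith

theorem gfU_two_le (hn : MPar κn 2 (2 / κn - 1) 1)
    (hf : MPar κ (2 * (1 - lam)) (2 * (1 - lam) / κ - 1) 1) (hA1 : 0 < A1) (hA2 : 0 ≤ A2)
    (hl : 0 ≤ lam) (hx : XFar D x) :
    gfU D κn κ lam om0 A1 A2 x 2 ≤ 0.0003 * fU D κn κ lam om0 A1 A2 x := by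
  have hr := hx.rpos
  have h1 := gSx_two_le hn hx
  have h2 := gSx_two_le hf hx
  have s1 := Sx_pos hn hx.reg
  have s2 := Sx_pos hf hx.reg
  have r4 := ri_pos 4 hr
  have r6 := ri_pos 6 hr
  have hc : 0 ≤ A2 * (lam / om0 ^ 2) := by positivity
  have hDr : 1.43 * (D / ‖x‖) ≤ 0.0003 := by
    rw [mul_div_assoc', div_le_iff₀ hr]
    have := hx.r1
    linarith
  have e1 : gSx D κn (2 / κn - 1) 1 x 2 ≤ 0.0003 * Sx D κn (2 / κn - 1) 1 x :=
    h1.trans (mul_le_mul_of_nonneg_right hDr s1.le)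
  have e2 : gSx D κ (2 * (1 - lam) / κ - 1) 1 x 2 ≤
      0.0003 * Sx D κ (2 * (1 - lam) / κ - 1) 1 x :=
    h2.trans (mul_le_mul_of_nonneg_right hDr s2.le)
  unfold gfU fU
  simp only [PiLp.add_apply, PiLp.smul_apply, smul_eq_mul]
  have e3 := mul_le_mul_of_nonneg_left e1 hA1.le
  have e4 : ri 4 x * gSx D κ (2 * (1 - lam) / κ - 1) 1 x 2 +
      Sx D κ (2 * (1 - lam) / κ - 1) 1 x * (-(4 * ri 6 x) * x 2) ≤
      ri 4 x * (0.0003 * Sx D κ (2 * (1 - lam) / κ - 1) 1 x) := by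
    have a1 := mul_le_mul_of_nonneg_left e2 r4.le
    have a2 : 0 ≤ Sx D κ (2 * (1 - lam) / κ - 1) 1 x * ((4 * ri 6 x) * x 2) := by
      have := hx.z0
      positivity
    linarith
  have e5 := mul_le_mul_of_nonneg_left e4 hc
  linarith

theorem exp_neg_one_ge : (0.36 : ℝ) ≤ Real.exp (-1) := by
  have h : Real.exp 1 < 2.7182818286 := Real.exp_one_lt_d9
  rw [Real.exp_neg, ← one_div, le_div_iff₀ (Real.exp_pos 1)]
  linarith

theorem PU.algA {gg m Q f1 f2 e : ℝ} (g1 : 1 ≤ gg) (g2 : gg ≤ 1.4) (hm0 : 0 ≤ m) (hQ0 : 0 < Q)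
    (hf1p : 0 < f1) (hf2p : 0 ≤ f2) (h2 : (0.36 : ℝ) ≤ e) :
    0 ≤ gg * ((m - Q / 2) * f1 - Q / 16 * f2) + 1.99 * Q * e * (f1 + f2) := by
  have a0 : 0 ≤ Q * (f1 + f2) := by positivity
  have a1 : 1.99 * (Q * (f1 + f2)) * 0.36 ≤ 1.99 * (Q * (f1 + f2)) * e :=
    mul_le_mul_of_nonneg_left h2 (by positivity)
  have b0 : 0 ≤ m * f1 := by positivity
  have b00 : 0 ≤ Q * f2 := by positivity
  have b1 : -(Q / 2 * (f1 + f2)) ≤ (m - Q / 2) * f1 - Q / 16 * f2 := by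
    have : (m - Q / 2) * f1 - Q / 16 * f2 + Q / 2 * (f1 + f2) = m * f1 + 7 / 16 * (Q * f2) := by
      ring
    linarith
  have b2 := mul_le_mul_of_nonneg_left b1 (by linarith : 0 ≤ gg)
  have b3 : gg * (Q / 2 * (f1 + f2)) ≤ 1.4 * (Q / 2 * (f1 + f2)) :=
    mul_le_mul_of_nonneg_right g2 (by positivity)
  have b4 : gg * -(Q / 2 * (f1 + f2)) = -(gg * (Q / 2 * (f1 + f2))) := by ring
  have b5 : 1.99 * (Q * (f1 + f2)) * e = 1.99 * Q * e * (f1 + f2) := by ring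
  have b6 : 1.4 * (Q / 2 * (f1 + f2)) = 0.7 * (Q * (f1 + f2)) := by ring
  rw [b4] at b2
  rw [b5] at a1
  rw [b6] at b3
  linarith

theorem PU.algB {gg m Q f1 f2 e t2 : ℝ} (g1 : 1 ≤ gg) (hQ0 : 0 < Q)
    (hf1p : 0 < f1) (hf2p : 0 ≤ f2) (he : 0 ≤ e) (h2 : Q * t2 ≤ 8 * m) (h3 : t2 ≤ 1) :
    -(Q / 2 * (gg * (f1 + f2)) * (1 - t2 / 4)) ≤
      gg * ((m - Q / 2) * f1 - Q / 16 * f2) + 1.99 * Q * e * (f1 + f2) := by
  have b1 : 0 ≤ Q * e * (f1 + f2) := by positivity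
  have c1 : Q * t2 * f1 ≤ 8 * m * f1 := mul_le_mul_of_nonneg_right h2 hf1p.le
  have c2 : 0 ≤ Q * f2 * (1 - t2) := mul_nonneg (by positivity) (by linarith)
  have c3 : 0 ≤ Q * f2 := by positivity
  have b2 : 0 ≤ ((m - Q / 2) * f1 - Q / 16 * f2) + (Q / 2 * (f1 + f2) * (1 - t2 / 4)) := by
    have : ((m - Q / 2) * f1 - Q / 16 * f2) + (Q / 2 * (f1 + f2) * (1 - t2 / 4)) =
        (8 * m * f1 - Q * t2 * f1) / 8 + Q * f2 * (1 - t2) / 8 + 5 / 16 * (Q * f2) := by ring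
    rw [this]
    linarith
  have b3 := mul_nonneg (by linarith : 0 ≤ gg) b2
  have b4 : gg * (((m - Q / 2) * f1 - Q / 16 * f2) + (Q / 2 * (f1 + f2) * (1 - t2 / 4))) =
      gg * ((m - Q / 2) * f1 - Q / 16 * f2) + (Q / 2 * (gg * (f1 + f2)) * (1 - t2 / 4)) := by ring
  rw [b4] at b3
  linarith

theorem PU.algC {gg m Q f1 f2 e gf LF Lb : ℝ} (g1 : 1 ≤ gg) (hQ0 : 0 < Q)
    (hf1p : 0 < f1) (hf2p : 0 ≤ f2) (he : 0 ≤ e)
    (hF' : (m - Q / 2) * f1 - Q / 16 * f2 ≤ LF) (hg2 : gf ≤ 0.0003 * (f1 + f2))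
    (eL : Lb = gg * LF - 4 * Q * e * gf + 2 * Q * e * (f1 + f2)) :
    gg * ((m - Q / 2) * f1 - Q / 16 * f2) + 1.99 * Q * e * (f1 + f2) ≤ Lb := by
  have a1 := mul_le_mul_of_nonneg_left hF' (by linarith : 0 ≤ gg)
  have a2 : 4 * Q * e * gf ≤ 4 * Q * e * (0.0003 * (f1 + f2)) :=
    mul_le_mul_of_nonneg_left hg2 (by positivity)
  have a3 : 0 ≤ Q * e * (f1 + f2) := by positivity
  have a4 : 4 * Q * e * (0.0003 * (f1 + f2)) = 0.0012 * (Q * e * (f1 + f2)) := by ring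
  have a5 : 2 * Q * e * (f1 + f2) = 2 * (Q * e * (f1 + f2)) := by ring
  have a6 : 1.99 * Q * e * (f1 + f2) = 1.99 * (Q * e * (f1 + f2)) := by ring
  rw [eL, a5, a6]
  rw [a4] at a2
  linarith

/-- **the inequality (*)** -/
theorem PU.star (hn : MPar κn 2 (2 / κn - 1) 1)
    (hf : MPar κ (2 * (1 - lam)) (2 * (1 - lam) / κ - 1) 1) (hA1 : 0 < A1) (hA2 : 0 ≤ A2)
    (hl : 0 ≤ lam) (hl1 : lam ≤ 1 / 20) (hQ0 : 0 < Q) (hQ1 : Q ≤ 1 / 20)
    (hκ : κn ^ 2 ≤ κ ^ 2 + Q) (hx : XFar D x) (hrQ : 80 ≤ ‖x‖ * Q) {sx : ℝ} (hs : 0 < sx)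
    (hbs : bU Q D κn κ lam om0 A1 A2 x < sx)
    (hbulk : 1 ≤ x 2 → bU Q D κn κ lam om0 A1 A2 x ≤ 1 / (4 * ‖x‖) * sx) :
    lap (bU Q D κn κ lam om0 A1 A2) x ≤ (κ ^ 2 + 2 * V2 D x) * bU Q D κn κ lam om0 A1 A2 x +
      Q / Real.pi * sx * Real.sin (Real.pi * (bU Q D κn κ lam om0 A1 A2 x / sx)) := by
  have hU := XT.isOpen_Ud D
  have hxU := mem_Ud hx
  have hr := hx.rpos
  have hr0 := hx.r0
  have hpi := Real.pi_pos
  obtain ⟨g1, g2⟩ := gz_bounds hQ0.le hQ1 hx.z0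
  have hb0 := bU_pos (om0 := om0) hn hf hA1 hA2 hl hQ0.le hQ1 hx
  have hf0 := fU_pos (om0 := om0) hn hf hA1 hA2 hl hx
  have hexp0 := Real.exp_pos (-x 2)
  have s1 := Sx_pos hn hx.reg
  have s2 := Sx_pos hf hx.reg
  have r4 := ri_pos 4 hr
  have hc : 0 ≤ A2 * (lam / om0 ^ 2) := by positivity
  -- `L b`
  have eL : Lx D 2 κ (bU Q D κn κ lam om0 A1 A2) x =
      (1 + 4 * Q * (2 - Real.exp (-x 2))) * Lx D 2 κ (fU D κn κ lam om0 A1 A2) x -
        4 * Q * Real.exp (-x 2) * gfU D κn κ lam om0 A1 A2 x 2 +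
        2 * Q * Real.exp (-x 2) * fU D κn κ lam om0 A1 A2 x := by
    have h := Lx_mul hU (gz_jet Q hU) (fU_jet D κn κ lam om0 A1 A2) (D := D) (Q := 2) (κ := κ) hxU
    rw [inner_smul_left, inner_e3v] at h
    simp only [conj_trivial] at h
    have h' : Lx D 2 κ (bU Q D κn κ lam om0 A1 A2) x = Lx D 2 κ (fun y =>
      (1 + 4 * Q * (2 - Real.exp (-y 2))) * fU D κn κ lam om0 A1 A2 y) x := rfl
    rw [h', h]
    ring
  have hlapL : lap (bU Q D κn κ lam om0 A1 A2) x =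
      (κ ^ 2 + 2 * V2 D x) * bU Q D κn κ lam om0 A1 A2 x -
        2 * Lx D 2 κ (bU Q D κn κ lam om0 A1 A2) x := by
    unfold Lx; ring
  rw [hlapL]
  have hF := Lx_fU_ge (om0 := om0) hn hf hA1 hA2 hl hl1 hκ hx hrQ
  have hg2 := gfU_two_le (om0 := om0) hn hf hA1 hA2 hl hx
  -- decomposition of `fU`
  set f1 : ℝ := A1 * Sx D κn (2 / κn - 1) 1 x with hf1
  set f2 : ℝ := A2 * (lam / om0 ^ 2) * (ri 4 x * Sx D κ (2 * (1 - lam) / κ - 1) 1 x) with hf2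
  have hfe : fU D κn κ lam om0 A1 A2 x = f1 + f2 := rfl
  have hf1p : 0 < f1 := by positivity
  have hf2p : 0 ≤ f2 := by positivity
  have hbe : bU Q D κn κ lam om0 A1 A2 x =
      (1 + 4 * Q * (2 - Real.exp (-x 2))) * (f1 + f2) := by rw [← hfe]; rfl
  set m : ℝ := κn / 8 * (√‖x‖)⁻¹ ^ 3 with hm
  have hm0 : 0 ≤ m := by have := hn.kpos; positivity
  have hF' : (m - Q / 2) * f1 - Q / 16 * f2 ≤ Lx D 2 κ (fU D κn κ lam om0 A1 A2) x := by
    have e : A1 * ((m - Q / 2) * Sx D κn (2 / κn - 1) 1 x) = (m - Q / 2) * f1 := by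
      rw [hf1]; ring
    rw [e] at hF
    exact hF
  set e := Real.exp (-x 2) with he
  set gg := 1 + 4 * Q * (2 - e) with hgg
  have hLb : gg * ((m - Q / 2) * f1 - Q / 16 * f2) + 1.99 * Q * e * (f1 + f2) ≤
      Lx D 2 κ (bU Q D κn κ lam om0 A1 A2) x := by
    rw [hfe] at hg2 eL
    exact PU.algC g1 hQ0 hf1p hf2p hexp0.le hF' hg2 eL
  have ht0 : 0 < bU Q D κn κ lam om0 A1 A2 x / sx := div_pos hb0 hs
  have ht1 : bU Q D κn κ lam om0 A1 A2 x / sx < 1 := (div_lt_one hs).2 hbs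
  rcases le_or_gt (x 2) 1 with hz | hz
  · -- near the plane
    have hsin : 0 ≤ Real.sin (Real.pi * (bU Q D κn κ lam om0 A1 A2 x / sx)) := by
      refine Real.sin_nonneg_of_nonneg_of_le_pi (by positivity) ?_
      have := mul_le_mul_of_nonneg_left ht1.le hpi.le
      linarith
    have h1 : 0 ≤ Q / Real.pi * sx * Real.sin (Real.pi * (bU Q D κn κ lam om0 A1 A2 x / sx)) := by
      positivity
    have h2 : (0.36 : ℝ) ≤ e := exp_neg_one_ge.trans (Real.exp_le_exp.2 (by linarith))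
    have h3 := PU.algA g1 g2 hm0 hQ0 hf1p hf2p h2
    linarith
  · -- away from the plane
    have hbk := hbulk hz.le
    set t := Real.pi * (bU Q D κn κ lam om0 A1 A2 x / sx) with ht
    have htp : 0 < t := by positivity
    have htb : t ≤ 0.8 / ‖x‖ := by
      have a1 : bU Q D κn κ lam om0 A1 A2 x / sx ≤ 1 / (4 * ‖x‖) := (div_le_iff₀ hs).2 hbk
      have a2 : t ≤ Real.pi * (1 / (4 * ‖x‖)) := mul_le_mul_of_nonneg_left a1 hpi.le
      have a3 : Real.pi * (1 / (4 * ‖x‖)) ≤ 0.8 / ‖x‖ := by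
        rw [mul_one_div, div_le_div_iff₀ (by positivity) hr]
        have := Real.pi_lt_d2
        nlinarith
      exact a2.trans a3
    have ht1' : t ≤ 1 := by
      refine htb.trans ?_
      rw [div_le_one hr]; linarith
    have hsin : t - t ^ 3 / 4 ≤ Real.sin t := by
      have a1 := Real.sin_gt_sub_cube htp
      have a2 := pow_pos htp 3
      linarith
    have hsb : Q / Real.pi * sx * (t - t ^ 3 / 4) =
        Q * bU Q D κn κ lam om0 A1 A2 x * (1 - t ^ 2 / 4) := by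
      have : Q / Real.pi * sx * t = Q * bU Q D κn κ lam om0 A1 A2 x := by
        rw [ht]; field_simp
      rw [← this]; ring
    have h1 : Q * bU Q D κn κ lam om0 A1 A2 x * (1 - t ^ 2 / 4) ≤
        Q / Real.pi * sx * Real.sin t := by
      rw [← hsb]
      exact mul_le_mul_of_nonneg_left hsin (by positivity)
    have ht2 : t ^ 2 ≤ 0.64 / ‖x‖ ^ 2 := by
      have := pow_le_pow_left₀ htp.le htb 2
      rw [div_pow] at this
      norm_num at this ⊢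
      exact this
    -- `Q t² ≤ 8 m`
    have h2 : Q * t ^ 2 ≤ 8 * m := by
      have hsq : 0 < √‖x‖ := Real.sqrt_pos.2 hr
      have hss : √‖x‖ ^ 2 = ‖x‖ := Real.sq_sqrt hr.le
      have a1 : (1 : ℝ) ≤ √‖x‖ := by rw [Real.one_le_sqrt]; linarith
      have a2 : 0.64 / ‖x‖ ^ 2 ≤ 0.64 * (√‖x‖)⁻¹ ^ 3 := by
        have e4 : ‖x‖ ^ 2 = √‖x‖ ^ 4 := by
          calc ‖x‖ ^ 2 = (√‖x‖ ^ 2) ^ 2 := by rw [hss]
            _ = √‖x‖ ^ 4 := by ring
        rw [e4, inv_pow, ← div_eq_mul_inv]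
        refine div_le_div_of_nonneg_left (by norm_num) (by positivity) ?_
        exact pow_le_pow_right₀ a1 (by norm_num)
      have a3 : 8 * m = κn * (√‖x‖)⁻¹ ^ 3 := by rw [hm]; ring
      have a4 : 0 ≤ (√‖x‖)⁻¹ ^ 3 := by positivity
      have a5 : 0.9 * (√‖x‖)⁻¹ ^ 3 ≤ κn * (√‖x‖)⁻¹ ^ 3 := mul_le_mul_of_nonneg_right hn.k1 a4
      have a6 : Q * t ^ 2 ≤ 1 * t ^ 2 := mul_le_mul_of_nonneg_right (by linarith) (sq_nonneg _)
      linarith
    have h3 : t ^ 2 ≤ 1 := pow_le_one₀ htp.le ht1'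
    have h4 : -(Q / 2 * (gg * (f1 + f2)) * (1 - t ^ 2 / 4)) ≤
        Lx D 2 κ (bU Q D κn κ lam om0 A1 A2) x := by
      exact le_trans (PU.algB g1 hQ0 hf1p hf2p hexp0.le h2 h3) hLb
    rw [hbe] at h1
    linarith

end star


end Crest.Agent.R335
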