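import Crest.Agent.R335.PU2
import Crest.Agent.R335.PU3
import Crest.Agent.R335.HHalf
import Crest.Agent.R335.KPairA
import Crest.Agent.R335.CXcalc

/-!
Row 335 (S0521), Part C, C.4: the comparison for the explicit barrier at fixed parameters.
-/

set_option autoImplicit false
set_option linter.unusedSectionVars false

open MeasureTheory Filter Set Crest.MathPhysics.ThreeBody
open scoped ENNReal Topology ContDiff

noncomputable section
namespace Crest.Agent.R335

namespace PU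

theorem isOpen_UpExt (R : ℝ) : IsOpen (UpExt R) := by
  have h1 : IsOpen {x : Pos3 | R < ‖x‖} := isOpen_lt continuous_const continuous_norm
  have h2 : IsOpen {x : Pos3 | 0 < x 2} := isOpen_half (2 : Fin 3)
  exact h1.inter h2

theorem le_of_ae_cont {Om : Set Pos3} (hO : IsOpen Om) {f g : Pos3 → ℝ} (hf : ContinuousOn f Om)
    (hg : ContinuousOn g Om) (h : ∀ᵐ x ∂(volume.restrict Om), f x ≤ g x) :
    ∀ x ∈ Om, f x ≤ g x := by
  have h1 : (fun x => max (f x - g x) 0) =ᵐ[volume.restrict Om] fun _ => (0 : ℝ) := by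
    filter_upwards [h] with x hx
    exact max_eq_right (by linarith)
  have h2 := Measure.eqOn_open_of_ae_eq h1 hO ((hf.sub hg).sup continuousOn_const)
    continuousOn_const
  intro x hx
  have h3 := h2 hx
  simp only at h3
  have := le_max_left (f x - g x) 0
  linarith

theorem far {D R1 : ℝ} (hD : 4 ≤ D) (hR : 6000 * D ^ 2 ≤ R1) {x : Pos3} (hx : x ∈ UpExt R1) :
    XFar D x := ⟨by linarith, hx.2.le, by linarith [hx.1]⟩

theorem mpar_n {κn : ℝ} (h1 : 9 / 10 ≤ κn) (h2 : κn ≤ 11 / 10) (σ : ℝ) (hσ : σ = 1 ∨ σ = -1) :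
    MPar κn 2 (2 / κn - 1) σ :=
  ⟨by linarith, by linarith, by norm_num, le_rfl, by field_simp; ring, hσ⟩

theorem mpar_f {κ lam : ℝ} (h1 : 9 / 10 ≤ κ) (h2 : κ ≤ 11 / 10) (hl : 0 ≤ lam)
    (hl1 : lam ≤ 1 / 100) (σ : ℝ) (hσ : σ = 1 ∨ σ = -1) :
    MPar κ (2 * (1 - lam)) (2 * (1 - lam) / κ - 1) σ :=
  ⟨by linarith, by linarith, by linarith, by linarith, by field_simp; ring, hσ⟩

theorem EE_eq {κ Q σ ρ : ℝ} (hρ : 0 < ρ) : CX.EE κ Q σ ρ = Em κ (Q / κ - 1) (-σ) ρ := by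
  rw [Em_eq hρ]
  unfold CX.EE ee
  rw [Real.rpow_neg hρ.le, ← Real.sqrt_eq_rpow]
  ring_nf

theorem OOp_eq {D κ Q : ℝ} {x : Pos3} (hx : XFar D x) :
    CX.OO D κ Q 1 x = Ox D κ (Q / κ - 1) (-1) x := by
  unfold CX.OO Ox
  rw [EE_eq (by linarith [hx.reg.rp]), EE_eq (by linarith [hx.reg.rm])]

theorem OOm_eq {D κ Q : ℝ} {x : Pos3} (hx : XFar D x) :
    CX.OO D κ Q (-1) x = Ox D κ (Q / κ - 1) 1 x := by
  unfold CX.OO Ox
  rw [EE_eq (by linarith [hx.reg.rp]), EE_eq (by linarith [hx.reg.rm]), neg_neg]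

/-- size of the model functions -/
theorem Em_le_one {κ Q p : ℝ} (h : MPar κ Q p 1) {t : ℝ} (ht : 100 ≤ t) : Em κ p 1 t ≤ 1 := by
  have h0 : 0 < t := by linarith
  rw [Em_eq h0]
  have h1 : ee κ p t ≤ 1 := by
    unfold ee
    have e1 : t ^ p ≤ t ^ (2 : ℝ) := Real.rpow_le_rpow_of_exponent_le (by linarith)
      (by linarith [h.p2])
    have e2 : t ^ (2 : ℝ) = t ^ 2 := by norm_cast
    have e3 : Real.exp (-(κ * t)) ≤ Real.exp (-(0.9 * t)) := Real.exp_le_exp.2 (by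
      have := mul_le_mul_of_nonneg_right h.k1 h0.le
      linarith)
    have e4 : Real.exp (-(0.9 * t)) * t ^ 2 ≤ 1 := by
      have e5 : t ^ 2 ≤ Real.exp (0.9 * t) := by
        have e6 : (0.3 * t) ≤ Real.exp (0.3 * t) := by linarith [Real.add_one_le_exp (0.3 * t)]
        have e7 : Real.exp (0.9 * t) = Real.exp (0.3 * t) ^ 3 := by
          rw [← Real.exp_nat_mul]; congr 1; push_cast; ring
        rw [e7]
        have e8 : (0.3 * t) ^ 3 ≤ Real.exp (0.3 * t) ^ 3 := pow_le_pow_left₀ (by positivity) e6 3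
        refine le_trans ?_ e8
        have : t ^ 2 * 1 ≤ t ^ 2 * (0.027 * t) := mul_le_mul_of_nonneg_left (by linarith)
          (sq_nonneg _)
        nlinarith
      rw [Real.exp_neg, ← div_eq_inv_mul, div_le_one (Real.exp_pos _)]
      exact e5
    calc Real.exp (-(κ * t)) * t ^ p ≤ Real.exp (-(0.9 * t)) * t ^ 2 := by
          refine mul_le_mul e3 (by rw [← e2]; exact e1) (Real.rpow_nonneg h0.le _) (Real.exp_pos _).le
      _ ≤ 1 := e4
  have h2 : 1 - 1 * (√t)⁻¹ ≤ 1 := by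
    have : 0 ≤ (√t)⁻¹ := by positivity
    linarith
  have h3 : 0 ≤ 1 - 1 * (√t)⁻¹ := by
    have : (√t)⁻¹ ≤ 1 := inv_le_one_of_one_le₀ (by rw [Real.one_le_sqrt]; linarith)
    linarith
  calc ee κ p t * (1 - 1 * (√t)⁻¹) ≤ 1 * 1 :=
        mul_le_mul h1 h2 h3 (by norm_num)
    _ = 1 := by norm_num

theorem OOm_bounds {D κ Q : ℝ} (h : MPar κ Q (Q / κ - 1) 1) {x : Pos3} (hx : XFar D x) :
    0 ≤ CX.OO D κ Q (-1) x ∧ CX.OO D κ Q (-1) x ≤ 1 := by
  rw [OOm_eq hx]
  refine ⟨Ox_nonneg h hx.reg, ?_⟩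
  unfold Ox
  linarith [Em_le_one h hx.reg.rp, Em_pos h hx.reg.rm]

/-- lower bound of the difference -/
theorem OOp_ge {D κ Q : ℝ} (h : MPar κ Q (Q / κ - 1) (-1)) {x : Pos3} (hx : XFar D x) :
    Em κ (Q / κ - 1) (-1) ‖x - nuc D‖ * (x 2 / (2.02 * ‖x‖)) ≤ CX.OO D κ Q 1 x := by
  rw [OOp_eq hx]
  refine le_trans ?_ (Ox_ge h hx.reg)
  refine mul_le_mul_of_nonneg_left ?_ (Em_pos h hx.reg.rp).le
  have hD := hx.Dpos
  have h1 := XT.del_mul x D
  have h2 : ‖x - nuc (-D)‖ + ‖x - nuc D‖ ≤ 2.02 * ‖x‖ := by linarith [hx.rp_le, hx.rm_le]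
  have d0 : 0 ≤ ‖x - nuc (-D)‖ - ‖x - nuc D‖ := by linarith [hx.reg.rp_le_rm]
  have h3 : 4 * D * x 2 ≤ (‖x - nuc (-D)‖ - ‖x - nuc D‖) * (2.02 * ‖x‖) := by
    rw [← h1]; exact mul_le_mul_of_nonneg_left h2 d0
  have hr := hx.rpos
  rw [div_le_div_iff₀ (by positivity) (by positivity)]
  linarith

/-- the dominating function of zero trace -/
theorem traceFn {s1 : Pos3 → ℝ} {gs1 : Pos3 → Pos3}
    (h1 : H1 (fun x => if 0 < x 2 then s1 x else 0) (fun x => if 0 < x 2 then gs1 x else 0))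
    (h0 : ∀ x, 0 ≤ s1 x) {R1 : ℝ} (hR : 0 < R1) :
    ∃ (S : Pos3 → ℝ) (gS : Pos3 → Pos3), H10 (UpExt R1) S gS ∧ (∀ x, 0 ≤ S x) ∧
      ∀ x ∈ UpExt R1, R1 + 1 ≤ ‖x‖ → S x = s1 x := by
  set f : Pos3 → ℝ := fun x => if 0 < x 2 then s1 x else 0 with hf
  -- odd extension
  have hodd := h1.sub (h1.comp_rfl' 2)
  have hH := H10.half_of_odd 2 hodd (Eventually.of_forall fun x => by
    simp only [rfl'_rfl']; ring)
  have e1 : ∀ x : Pos3, (if 0 < x 2 then f x - f (rfl' 2 x) else 0) = f x := by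
    intro x
    simp only [hf]
    by_cases hx : 0 < x 2
    · have : ¬ 0 < rfl' 2 x 2 := by rw [rfl'_apply, if_pos rfl]; linarith
      rw [if_pos hx, if_pos hx, if_neg this, sub_zero]
    · rw [if_neg hx, if_neg hx]
  have hH' : H10 {x : Pos3 | 0 < x 2} f _ :=
    hH.congr (Eventually.of_forall e1) (EventuallyEq.refl _ _)
  -- cutoff
  obtain ⟨χ, hχ, hχ01, V, -, hKV, -, hV1⟩ := exists_cutoff (isCompact_closedBall (0 : Pos3)
    (R1 + 1 / 4)) (Metric.isOpen_ball (x := (0 : Pos3)) (ε := R1 + 3 / 4))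
    (Metric.closedBall_subset_ball (show R1 + 1 / 4 < R1 + 3 / 4 by linarith))
  have hχ1 : ∀ x : Pos3, ‖x‖ ≤ R1 + 1 / 4 → χ x = 1 := fun x hx =>
    hV1 x (hKV (by simpa using hx))
  have hχ0 : ∀ x : Pos3, R1 + 3 / 4 ≤ ‖x‖ → χ x = 0 := fun x hx => by
    refine image_eq_zero_of_notMem_tsupport fun h => ?_
    have := hχ.sub h
    rw [mem_ball_zero_iff] at this
    linarith
  have hψ : WG univ (fun x => 1 - χ x) (fun x => (0 : Pos3) - gr χ x) := by
    have e := (PC.WG_const (U := (univ : Set Pos3)) isOpen_univ 1).sub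
      (H1.of_test hχ).wg isOpen_univ
    exact e
  have hgc : Continuous (gr χ) := HC.continuous_gr hχ.smooth
  obtain ⟨C, hC⟩ := hgc.bounded_above_of_compact_support (hasCompactSupport_gr hχ.cpt)
  have hC0 : 0 ≤ C := (norm_nonneg _).trans (hC 0)
  have hm := hH'.mul_bdd (isOpen_half (2 : Fin 3)) hψ (C := max 1 C) (fun x => by
    have := hχ01 x
    rw [abs_of_nonneg (by linarith [this.2])]
    exact le_trans (by linarith [this.1]) (le_max_left _ _)) (fun x => by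
    rw [zero_sub, norm_neg]
    exact (hC x).trans (le_max_right _ _))
  have hv := H10.of_vanish (isOpen_half (2 : Fin 3)) (isOpen_UpExt R1)
    (fun x hx => hx.2) hm (δ := 1 / 4) (by norm_num) (Eventually.of_forall fun x hxU hor => by
      have hne : ({x : Pos3 | 0 < x 2} \ UpExt R1).Nonempty := by
        refine ⟨EuclideanSpace.single 2 R1, ?_, fun h => ?_⟩
        · simpa using hR
        · have := h.1
          simp [abs_of_pos hR] at this
      have hx : ‖x‖ ≤ R1 + 1 / 4 := by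
        rcases hor with h | h
        · by_contra hc
          exact h ⟨by linarith, hxU⟩
        · obtain ⟨y, hy, hxy⟩ := (Metric.infDist_lt_iff hne).1 h
          have h1 : ‖y‖ ≤ R1 := by
            by_contra hc
            exact hy.2 ⟨not_le.1 hc, hy.1⟩
          have h2 : ‖x‖ ≤ ‖y‖ + dist x y := by
            rw [dist_eq_norm]
            have := norm_add_le y (x - y)
            rwa [add_sub_cancel] at this
          linarith
      rw [hχ1 x hx, sub_self, zero_mul])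
  refine ⟨_, _, hv, fun x => ?_, fun x hx hxR => ?_⟩
  · refine mul_nonneg (by linarith [(hχ01 x).2]) ?_
    simp only [hf]
    split_ifs
    · exact h0 x
    · exact le_rfl
  · rw [hχ0 x (by linarith), sub_zero, one_mul]
    simp only [hf]
    rw [if_pos hx.2]

end PU

end Crest.Agent.R335
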