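import Crest.Agent.R335.PUIface
import Crest.Agent.R335.KDefs

/-!
Row 335 (S0521), Part C, C.4: parameters and last steps of `CI.upper` (statements with `sorry`,
namespace `...R335.PUI`; `PUI.xxx` is to be proved as `Crest.Agent.R335.PU.xxx`).
-/

set_option autoImplicit false
set_option linter.unusedVariables false

open MeasureTheory Filter Set Crest.MathPhysics.ThreeBody
open scoped ENNReal Topology ContDiff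

noncomputable section
namespace Crest.Agent.R335

/-- parameters of section C.4 at one value of `λ` -/
structure PUPar {cg C0 D : ℝ} (B : OBD cg C0 D) (P R1 lam κ κS κT κn Q : ℝ) : Prop where
  D4 : 4 ≤ D
  P1 : 1 ≤ P
  R1a : 6000 * D ^ 2 ≤ R1
  R1b : 80 / B.om ≤ R1
  om0 : 0 < B.om
  om1 : B.om ≤ 1 / 100
  l0 : 0 < lam
  l1 : lam ≤ 1 / 100
  k1 : 9 / 10 ≤ κ
  k2 : κ ≤ 11 / 10
  n1 : 9 / 10 ≤ κn
  n2 : κn ≤ 11 / 10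
  nS : κn ≤ κS
  nT : κn ≤ κT
  gap : κ + B.om / 5 ≤ κn
  gapQ : κn ^ 2 ≤ κ ^ 2 + Q
  q0 : B.om ≤ Q
  q1 : Q ≤ 1 / 20

namespace PUI

section
variable {cg C0 D : ℝ} {B : OBD cg C0 D} {P K1 K2 R1 lam κ κS κT κn Q : ℝ}
  {s s1 s2 F w0 X sig : Pos3 → ℝ} {gs gs1 gs2 gF : Pos3 → Pos3} {U w : Pos3 → ℝ}
  {gU gw : Pos3 → Pos3} {om : ℝ}

/-- (module PUFin) away from the plane: `U ≤ s/5`, hence `s ≤ 2 |w|` -/
theorem fin_two (h : COut B P K1 K2 R1 lam κ κS κT s s1 s2 F w0 X sig gs gs1 gs2 gF)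
    (hq : PUPar B P R1 lam κ κS κT κn Q) (hp : Pair s U gU w gw om)
    (hb : ∀ x ∈ UpExt R1, 1 / 2 ≤ x 2 →
      bU Q D κn κ lam B.om (4 * P) (2 * P) x ≤ 1 / (10 * ‖x‖) * s x)
    (hU : ∀ᵐ x, x ∈ UpExt R1 → U x ≤ Real.pi / 2 * bU Q D κn κ lam B.om (4 * P) (2 * P) x) :
    ∀ᵐ x : Pos3, R1 + 1 ≤ ‖x‖ → 1 / 2 ≤ |x 2| → s x ≤ 2 * |w x| := sorry

/-- (module PUFin) -/
theorem fin_small (h : COut B P K1 K2 R1 lam κ κS κT s s1 s2 F w0 X sig gs gs1 gs2 gF)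
    (hq : PUPar B P R1 lam κ κS κT κn Q) (hp : Pair s U gU w gw om)
    (hU : ∀ᵐ x, x ∈ UpExt R1 → U x ≤ Real.pi / 2 * bU Q D κn κ lam B.om (4 * P) (2 * P) x) :
    SmallU s U := sorry

end

/-- (module PUFin) in the slab -/
theorem fin_slab : ∃ C : ℝ, 1 ≤ C ∧ ∀ {cg C0 D : ℝ} {B : OBD cg C0 D}
    {P K1 K2 R1 lam κ κS κT κn Q : ℝ} {s s1 s2 F w0 X sig : Pos3 → ℝ}
    {gs gs1 gs2 gF : Pos3 → Pos3} {U w : Pos3 → ℝ} {gU gw : Pos3 → Pos3} {om : ℝ},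
    COut B P K1 K2 R1 lam κ κS κT s s1 s2 F w0 X sig gs gs1 gs2 gF →
    PUPar B P R1 lam κ κS κT κn Q → Pair s U gU w gw om →
    (∀ ρ : ℝ, 100 ≤ ρ → CX.EE κn 2 1 ρ ≤ 8 * CX.eLow κS κ (2 * (1 - lam)) lam B.om ρ) →
    (∀ᵐ x, x ∈ UpExt R1 → U x ≤ Real.pi / 2 * bU Q D κn κ lam B.om (4 * P) (2 * P) x) →
    ∀ᵐ x : Pos3, R1 + 1 ≤ ‖x‖ → |x 2| ≤ 1 →
      U x ≤ C * P * CX.eLow κS κ (2 * (1 - lam)) lam B.om ‖x‖ := sorry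

end PUI
end Crest.Agent.R335
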