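import Crest.Agent.R335.PUDefs
import Crest.Agent.R335.CIfaceX
import Crest.Agent.R335.CHardy
import Crest.Agent.R335.CXcalc

/-!
Row 335 (S0521), Part C, C.4: calculus of the barrier: `PU.slab`, `PU.s2_le`.
-/

set_option autoImplicit false

open MeasureTheory Filter Set Crest.MathPhysics.ThreeBody
open scoped ENNReal Topology ContDiff

noncomputable section
namespace Crest.Agent.R335.PU
open Crest.Agent.R335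

/-- `Sx` in terms of `CX.SS` -/
theorem Sx_eq_SS {D κ Q : ℝ} {x : Pos3} (h1 : 0 < ‖x - nuc D‖) (h2 : 0 < ‖x - nuc (-D)‖) :
    Sx D κ (Q / κ - 1) 1 x = CX.SS D κ Q (-1) x := by
  unfold Sx CX.SS
  rw [EE_eq_Em h1, EE_eq_Em h2]
  norm_num

/-- monotonicity of `EE` in the rate and the charge -/
theorem EE_mono {κ κ' Q Q' σ ρ : ℝ} (hκ0 : 0 < κ) (hκ : κ ≤ κ') (hQ0 : 0 ≤ Q') (hQ : Q' ≤ Q)
    (hσ : 0 ≤ 1 + σ * ρ ^ (-(1 / 2) : ℝ)) (hρ : 1 ≤ ρ) :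
    CX.EE κ' Q' σ ρ ≤ CX.EE κ Q σ ρ := by
  have h0 : (0 : ℝ) < ρ := by linarith
  unfold CX.EE
  refine mul_le_mul_of_nonneg_right ?_ hσ
  have h1 : Q' / κ' ≤ Q / κ := div_le_div₀ (hQ0.trans hQ) hQ hκ0 hκ
  refine mul_le_mul ?_ ?_ (Real.rpow_nonneg h0.le _) (Real.exp_pos _).le
  · exact Real.exp_le_exp.2 (by nlinarith)
  · exact Real.rpow_le_rpow_of_exponent_le hρ (by linarith)

theorem one_sub_nonneg {ρ : ℝ} (hρ : 1 ≤ ρ) : 0 ≤ 1 + (-1 : ℝ) * ρ ^ (-(1 / 2) : ℝ) := by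
  have := Real.rpow_le_one_of_one_le_of_nonpos hρ (by norm_num : (-(1 / 2) : ℝ) ≤ 0)
  linarith

/-- (module PUSlab) the barrier in the slab -/
theorem slab : ∃ C : ℝ, 1 ≤ C ∧ ∀ D A1 A2 om0 κ κn lam : ℝ, 4 ≤ D → 0 ≤ A1 → 0 ≤ A2 → 0 < om0 →
    0 ≤ lam → lam ≤ 1 / 100 → 9 / 10 ≤ κ → κ ≤ 11 / 10 → 9 / 10 ≤ κn → κn ≤ 11 / 10 →
    ∀ x : Pos3, 2 * D + D ^ 2 + 200 ≤ ‖x‖ → |x 2| ≤ 1 →
      fU D κn κ lam om0 A1 A2 x ≤ C * (A1 * CX.EE κn 2 1 ‖x‖ +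
        A2 * (lam / om0 ^ 2 / ‖x‖ ^ 4) * CX.EE κ (2 * (1 - lam)) 1 ‖x‖) := by
  obtain ⟨C, hC, hs⟩ := slab_calc
  refine ⟨C, hC, fun D A1 A2 om0 κ κn lam hD hA1 hA2 ho hl hl' hκ hκ' hn hn' x hx hz => ?_⟩
  have hDn : (0 : ℝ) ≤ D := by linarith
  have hx0 : 0 < ‖x‖ := by nlinarith [sq_nonneg D]
  have h1 : 0 < ‖x - nuc D‖ := by
    have := norm_sub_norm_le x (nuc D)
    rw [PG.norm_nuc, abs_of_nonneg hDn] at this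
    nlinarith [sq_nonneg D]
  have h2 : 0 < ‖x - nuc (-D)‖ := by
    have := norm_sub_norm_le x (nuc (-D))
    rw [PG.norm_nuc, abs_neg, abs_of_nonneg hDn] at this
    nlinarith [sq_nonneg D]
  have hsl : 2 * D * |x 2| + D ^ 2 ≤ ‖x‖ := by nlinarith [abs_nonneg (x 2)]
  have h200 : 200 ≤ ‖x‖ := by nlinarith [sq_nonneg D]
  obtain ⟨a1, -⟩ := hs κn 2 D x ⟨hn, hn', by norm_num, le_rfl⟩ hD h200 hsl
  obtain ⟨a2, -⟩ := hs κ (2 * (1 - lam)) D x ⟨hκ, hκ', by linarith, by linarith⟩ hD h200 hsl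
  unfold fU ri
  rw [Sx_eq_SS h1 h2, Sx_eq_SS h1 h2]
  have b1 := mul_le_mul_of_nonneg_left a1 hA1
  have h3 : 0 ≤ A2 * (lam / om0 ^ 2) * (‖x‖ ^ 4)⁻¹ := by positivity
  have b2 := mul_le_mul_of_nonneg_left a2 h3
  have e1 : C * (A1 * CX.EE κn 2 1 ‖x‖ +
      A2 * (lam / om0 ^ 2 / ‖x‖ ^ 4) * CX.EE κ (2 * (1 - lam)) 1 ‖x‖) =
      A1 * (C * CX.EE κn 2 1 ‖x‖) + A2 * (lam / om0 ^ 2) * (‖x‖ ^ 4)⁻¹ *
        (C * CX.EE κ (2 * (1 - lam)) 1 ‖x‖) := by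
    rw [div_eq_mul_inv (lam / om0 ^ 2) (‖x‖ ^ 4)]
    ring
  rw [e1]
  have e2 : A2 * (lam / om0 ^ 2) * ((‖x‖ ^ 4)⁻¹ * CX.SS D κ (2 * (1 - lam)) (-1) x) =
      A2 * (lam / om0 ^ 2) * (‖x‖ ^ 4)⁻¹ * CX.SS D κ (2 * (1 - lam)) (-1) x := by ring
  rw [e2]
  exact add_le_add b1 b2

/-- (module PUSlab) the barrier dominates `s2` up to the `z`-term -/
theorem s2_le {cg C0 D : ℝ} {B : OBD cg C0 D} {P K1 K2 R1 lam κ κS κT : ℝ}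
    {s s1 s2 F w0 X sig : Pos3 → ℝ} {gs gs1 gs2 gF : Pos3 → Pos3}
    (h : COut B P K1 K2 R1 lam κ κS κT s s1 s2 F w0 X sig gs gs1 gs2 gF) (hD : 4 ≤ D)
    (hP : 0 ≤ P) (hl : lam ≤ 1 / 100) (hR : D + 200 ≤ R1) {κn : ℝ} (h1 : 9 / 10 ≤ κn)
    (h2 : κn ≤ κS) (h3 : κn ≤ κT) :
    ∀ᵐ x, x ∈ UpExt R1 → s2 x ≤ fU D κn κ lam B.om (2 * P) P x +
      P * (lam / B.om) * (x 2 / ‖x‖ ^ 3) * CX.OO D κ (2 * (1 - lam)) (-1) x := by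
  filter_upwards [h.s2up] with x hx hxU
  have h4 := hx hxU
  have hDn : (0 : ℝ) ≤ D := by linarith
  have hxR : R1 < ‖x‖ := hxU.1
  have n1 : 1 ≤ ‖x - nuc D‖ := by
    have := norm_sub_norm_le x (nuc D)
    rw [PG.norm_nuc, abs_of_nonneg hDn] at this
    linarith
  have n2 : 1 ≤ ‖x - nuc (-D)‖ := by
    have := norm_sub_norm_le x (nuc (-D))
    rw [PG.norm_nuc, abs_neg, abs_of_nonneg hDn] at this
    linarith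
  have hκn : 0 < κn := by linarith
  have hQ0 : 0 ≤ 2 * (1 - lam) := by linarith
  have hQ2 : 2 * (1 - lam) ≤ 2 := by linarith [h.lam_pos]
  have m1 : ∀ κ' : ℝ, κn ≤ κ' → CX.SS D κ' (2 * (1 - lam)) (-1) x ≤ CX.SS D κn 2 (-1) x := by
    intro κ' hκ'
    unfold CX.SS
    exact add_le_add (EE_mono hκn hκ' hQ0 hQ2 (one_sub_nonneg n1) n1)
      (EE_mono hκn hκ' hQ0 hQ2 (one_sub_nonneg n2) n2)
  have m2 := m1 κS h2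
  have m3 := m1 κT h3
  unfold fU ri
  rw [Sx_eq_SS (by linarith) (by linarith), Sx_eq_SS (by linarith) (by linarith)]
  refine h4.trans ?_
  have e1 : 2 * P * CX.SS D κn 2 (-1) x +
      P * (lam / B.om ^ 2) * ((‖x‖ ^ 4)⁻¹ * CX.SS D κ (2 * (1 - lam)) (-1) x) +
      P * (lam / B.om) * (x 2 / ‖x‖ ^ 3) * CX.OO D κ (2 * (1 - lam)) (-1) x =
      P * (CX.SS D κn 2 (-1) x + CX.SS D κn 2 (-1) x +
        lam / B.om * (x 2 / ‖x‖ ^ 3) * CX.OO D κ (2 * (1 - lam)) (-1) x +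
        lam / B.om ^ 2 / ‖x‖ ^ 4 * CX.SS D κ (2 * (1 - lam)) (-1) x) := by
    rw [div_eq_mul_inv (lam / B.om ^ 2) (‖x‖ ^ 4)]
    ring
  rw [e1]
  refine mul_le_mul_of_nonneg_left ?_ hP
  linarith

end Crest.Agent.R335.PU
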