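import Crest.Agent.R335.PU4
import Crest.Agent.R335.PUIface2
import Crest.Agent.R335.PUSlab

/-!
Row 335 (S0521), Part C, C.4: inequalities between `s`, `s1`, `U` and the barrier.
-/

set_option autoImplicit false
set_option linter.unusedSectionVars false
set_option linter.unusedVariables false

open MeasureTheory Filter Set Crest.MathPhysics.ThreeBody
open scoped ENNReal Topology ContDiff

noncomputable section
namespace Crest.Agent.R335
namespace PU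

section
variable {cg C0 D : ℝ} {B : OBD cg C0 D} {P K1 K2 R1 lam κ κS κT κn Q : ℝ}
  {s s1 s2 F w0 X sig : Pos3 → ℝ} {gs gs1 gs2 gF : Pos3 → Pos3} {U w : Pos3 → ℝ}
  {gU gw : Pos3 → Pos3} {om : ℝ}

theorem Rbig (hq : PUPar B P R1 lam κ κS κT κn Q) : 96000 ≤ R1 ∧ D + 200 ≤ R1 ∧
    2 * D + D ^ 2 + 200 ≤ R1 := by
  have h1 := hq.R1a
  have h2 := hq.D4
  have h3 : 16 ≤ D ^ 2 := by nlinarith
  refine ⟨by linarith, by nlinarith, by nlinarith⟩

theorem xfar (hq : PUPar B P R1 lam κ κS κT κn Q) {x : Pos3} (hx : x ∈ UpExt R1) : XFar D x :=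
  far hq.D4 hq.R1a hx

theorem parN (hq : PUPar B P R1 lam κ κS κT κn Q) : MPar κn 2 (2 / κn - 1) 1 :=
  mpar_n hq.n1 hq.n2 1 (Or.inl rfl)

theorem parF (hq : PUPar B P R1 lam κ κS κT κn Q) :
    MPar κ (2 * (1 - lam)) (2 * (1 - lam) / κ - 1) 1 :=
  mpar_f hq.k1 hq.k2 hq.l0.le hq.l1 1 (Or.inl rfl)

theorem kq (hq : PUPar B P R1 lam κ κS κT κn Q) : KQ κ (2 * (1 - lam)) :=
  ⟨hq.k1, hq.k2, by linarith [hq.l1], by linarith [hq.l0]⟩

theorem s1_le (h : COut B P K1 K2 R1 lam κ κS κT s s1 s2 F w0 X sig gs gs1 gs2 gF) (x : Pos3) :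
    s1 x ≤ s x := by
  have h1 := h.sq x
  exact le_of_sq_le_sq' h1 (h.nn1 x) (h.amp.pos x).le (sq_nonneg (s2 x))
where
  le_of_sq_le_sq' {a b c : ℝ} (h : a ^ 2 + c = b ^ 2) (ha : 0 ≤ a) (hb : 0 ≤ b) (hc : 0 ≤ c) :
      a ≤ b := by
    by_contra hcon
    push Not at hcon
    nlinarith

theorem s_le_add (h : COut B P K1 K2 R1 lam κ κS κT s s1 s2 F w0 X sig gs gs1 gs2 gF)
    (x : Pos3) : s x ≤ s1 x + s2 x := by
  have h1 := h.sq x
  have h2 := h.nn1 x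
  have h3 := h.nn2 x
  by_contra hcon
  push Not at hcon
  nlinarith [mul_nonneg h2 h3]

theorem cont_OO {D κ Q : ℝ} {R1 : ℝ} (hD : 4 ≤ D) (hR : 6000 * D ^ 2 ≤ R1) :
    ContinuousOn (CX.OO D κ Q 1) (UpExt R1) := by
  have h1 := (Ox_jet D κ (Q / κ - 1) (-1)).smooth.continuousOn
  have h2 : UpExt R1 ⊆ XT.Uc D := fun x hx => (mem_Ud (far hD hR hx)).1
  exact (h1.mono h2).congr fun x hx => OOp_eq (far hD hR hx)

theorem OO_le_s1 (h : COut B P K1 K2 R1 lam κ κS κT s s1 s2 F w0 X sig gs gs1 gs2 gF)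
    (hP : 0 ≤ P) : ∀ᵐ x, x ∈ UpExt R1 → CX.OO D κ (2 * (1 - lam)) 1 x ≤ P ^ 1 * (s1 x) := by
  filter_upwards [h.Flow, h.Fs1] with x h1 h2 hx
  have := mul_le_mul_of_nonneg_left (h2 hx) hP
  linarith [h1 hx]

/-- pointwise : `O^+ ≤ P s` -/
theorem OO_le_s (h : COut B P K1 K2 R1 lam κ κS κT s s1 s2 F w0 X sig gs gs1 gs2 gF)
    (hq : PUPar B P R1 lam κ κS κT κn Q) {x : Pos3} (hx : x ∈ UpExt R1) :
    CX.OO D κ (2 * (1 - lam)) 1 x ≤ P * s x := by
  refine le_of_ae_cont (isOpen_UpExt R1) (cont_OO hq.D4 hq.R1a)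
    (h.amp.cont.const_mul P).continuousOn ?_ x hx
  rw [ae_restrict_iff' (isOpen_UpExt R1).measurableSet]
  have hP : 0 ≤ P := by linarith [hq.P1]
  filter_upwards [OO_le_s1 h hP] with y hy hyU
  have h1 := hy hyU
  have h2 := mul_le_mul_of_nonneg_left (s1_le h y) hP
  linarith

/-- away from the plane the barrier is small compared with `s` -/
theorem bulk_s (h : COut B P K1 K2 R1 lam κ κS κT s s1 s2 F w0 X sig gs gs1 gs2 gF)
    (hq : PUPar B P R1 lam κ κS κT κn Q) {hh ε : ℝ} (hε : 0 ≤ ε)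
    (hb : ∀ x : Pos3, R1 ≤ ‖x‖ → hh ≤ x 2 → fU D κn κ lam B.om (4 * P) (2 * P) x ≤
      ε / (1.4 * P) / ‖x‖ * CX.OO D κ (2 * (1 - lam)) 1 x) :
    ∀ x ∈ UpExt R1, hh ≤ x 2 →
      bU Q D κn κ lam B.om (4 * P) (2 * P) x ≤ ε / ‖x‖ * s x := by
  intro x hx hz
  have hP : 0 < P := by linarith [hq.P1]
  have hf := xfar hq hx
  have h1 := hb x hx.1.le hz
  obtain ⟨g1, g2⟩ := gz_bounds (Q := Q) (x := x) (by linarith [hq.om0, hq.q0]) hq.q1 hx.2.le
  have h2 := OO_le_s h hq hx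
  have hr := hf.rpos
  have hf0 := fU_pos (om0 := B.om) (parN hq) (parF hq) (by positivity : 0 < 4 * P)
    (by positivity : 0 ≤ 2 * P) hq.l0.le hf
  unfold bU
  calc (1 + 4 * Q * (2 - Real.exp (-x 2))) * fU D κn κ lam B.om (4 * P) (2 * P) x ≤
        1.4 * fU D κn κ lam B.om (4 * P) (2 * P) x := mul_le_mul_of_nonneg_right g2 hf0.le
    _ ≤ 1.4 * (ε / (1.4 * P) / ‖x‖ * (P * s x)) := by
        refine mul_le_mul_of_nonneg_left (h1.trans ?_) (by norm_num)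
        exact mul_le_mul_of_nonneg_left h2 (by positivity)
    _ = ε / ‖x‖ * s x := by field_simp

/-- the `z`-term is dominated by `s1` -/
theorem zterm_le (h : COut B P K1 K2 R1 lam κ κS κT s s1 s2 F w0 X sig gs gs1 gs2 gF)
    (hq : PUPar B P R1 lam κ κS κT κn Q) : ∃ C : ℝ, 0 ≤ C ∧ ∀ᵐ x, x ∈ UpExt R1 →
      P * (lam / B.om) * (x 2 / ‖x‖ ^ 3) * CX.OO D κ (2 * (1 - lam)) (-1) x ≤ C * s1 x := by
  obtain ⟨c, hc, hcalc⟩ := half_calc
  have hP : 0 < P := by linarith [hq.P1]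
  have hl := hq.l0
  have ho := hq.om0
  refine ⟨P * (lam / B.om) * (P / c), by positivity, ?_⟩
  filter_upwards [OO_le_s1 h hP.le] with x hx1 hx
  have hf := xfar hq hx
  obtain ⟨r1, r2, r3⟩ := Rbig hq
  have hr : R1 < ‖x‖ := hx.1
  have hr1 : 1 ≤ ‖x‖ := by linarith
  have hr0 : 0 < ‖x‖ := by linarith
  have hz : 0 < x 2 := hx.2
  obtain ⟨e1, -, e3⟩ := hcalc κ (2 * (1 - lam)) D x (kq hq) hq.D4 (by linarith) hz.le
  have e4 := hx1 hx
  have hEE : 0 < CX.EE κ (2 * (1 - lam)) 1 ‖x - nuc D‖ :=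
    CXc.EE_pos (kq hq) (Or.inl rfl) hf.reg.rp
  have hzr : x 2 ≤ ‖x‖ := by
    have h1 := PiLp.norm_apply_le x 2
    rw [Real.norm_eq_abs, abs_of_pos hz] at h1
    exact h1
  have hm : x 2 / ‖x‖ ≤ min 1 (D * x 2 / ‖x‖) := by
    refine le_min ((div_le_one hr0).2 hzr) ?_
    refine div_le_div_of_nonneg_right ?_ hr0.le
    nlinarith [hq.D4]
  have e5 : c * (x 2 / ‖x‖) * CX.EE κ (2 * (1 - lam)) 1 ‖x - nuc D‖ ≤ P * s1 x := by
    refine le_trans ?_ (by simpa using e1.trans e4)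
    exact mul_le_mul_of_nonneg_right (mul_le_mul_of_nonneg_left hm hc.le) hEE.le
  have e6 : x 2 / ‖x‖ ^ 3 * CX.OO D κ (2 * (1 - lam)) (-1) x ≤ P / c * s1 x := by
    have h1 : x 2 / ‖x‖ ^ 3 ≤ x 2 / ‖x‖ := by
      refine div_le_div_of_nonneg_left hz.le hr0 ?_
      calc ‖x‖ = ‖x‖ ^ 1 := (pow_one _).symm
        _ ≤ ‖x‖ ^ 3 := pow_le_pow_right₀ hr1 (by norm_num)
    calc x 2 / ‖x‖ ^ 3 * CX.OO D κ (2 * (1 - lam)) (-1) x ≤
          x 2 / ‖x‖ * CX.EE κ (2 * (1 - lam)) 1 ‖x - nuc D‖ := by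
            refine mul_le_mul h1 e3 ?_ (by positivity)
            exact (OOm_bounds (parF hq) hf).1
      _ = (c * (x 2 / ‖x‖) * CX.EE κ (2 * (1 - lam)) 1 ‖x - nuc D‖) / c := by field_simp
      _ ≤ (P * s1 x) / c := div_le_div_of_nonneg_right e5 hc.le
      _ = P / c * s1 x := by ring
  calc P * (lam / B.om) * (x 2 / ‖x‖ ^ 3) * CX.OO D κ (2 * (1 - lam)) (-1) x =
        P * (lam / B.om) * (x 2 / ‖x‖ ^ 3 * CX.OO D κ (2 * (1 - lam)) (-1) x) := by ring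
    _ ≤ P * (lam / B.om) * (P / c * s1 x) := mul_le_mul_of_nonneg_left e6 (by positivity)
    _ = _ := by ring

/-- `fU (2P) P ≤ fU (4P) (2P) / 2` -/
theorem fU_two (D κn κ lam om0 P : ℝ) (x : Pos3) :
    fU D κn κ lam om0 (4 * P) (2 * P) x = 2 * fU D κn κ lam om0 (2 * P) P x := by
  unfold fU; ring

/-- `s - b ≤ C s1` -/
theorem s_sub_b (h : COut B P K1 K2 R1 lam κ κS κT s s1 s2 F w0 X sig gs gs1 gs2 gF)
    (hq : PUPar B P R1 lam κ κS κT κn Q) : ∃ C : ℝ, 0 ≤ C ∧ ∀ᵐ x, x ∈ UpExt R1 →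
      s x - bU Q D κn κ lam B.om (4 * P) (2 * P) x ≤ C * s1 x := by
  obtain ⟨C, hC, h1⟩ := zterm_le h hq
  have hP : 0 < P := by linarith [hq.P1]
  obtain ⟨r1, r2, r3⟩ := Rbig hq
  refine ⟨1 + C, by linarith, ?_⟩
  filter_upwards [h1, PU.s2_le h hq.D4 hP.le hq.l1 r2 hq.n1 hq.nS hq.nT] with x e1 e2 hx
  have e3 := s_le_add h x
  have hf := xfar hq hx
  have hf0 := fU_pos (om0 := B.om) (parN hq) (parF hq) (by positivity : 0 < 2 * P)
    hP.le hq.l0.le hf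
  obtain ⟨g1, g2⟩ := gz_bounds (Q := Q) (x := x) (by linarith [hq.om0, hq.q0]) hq.q1 hx.2.le
  have e4 : fU D κn κ lam B.om (2 * P) P x ≤ bU Q D κn κ lam B.om (4 * P) (2 * P) x := by
    unfold bU
    rw [fU_two]
    nlinarith
  linarith [e1 hx, e2 hx]

/-- `U ≤ (π/2) b` from `bet ≤ α` -/
theorem U_le_of_bet {a b t : ℝ} (ht : 0 < t) (hb : 0 ≤ b) (ha : a ≤ Real.pi / 2)
    (h : Real.pi / 2 * max (1 - b / t) 0 ≤ a) : t * Real.cos a ≤ Real.pi / 2 * b := by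
  have hpi := Real.pi_pos
  rcases le_total b t with hbt | hbt
  · have hq1 : b / t ≤ 1 := (div_le_one ht).2 hbt
    have hq0 : 0 ≤ b / t := by positivity
    rw [max_eq_left (by linarith)] at h
    have h1 : Real.cos a ≤ Real.cos (Real.pi / 2 * (1 - b / t)) :=
      Real.cos_le_cos_of_nonneg_of_le_pi (by nlinarith) (by linarith) h
    have h2 : Real.cos (Real.pi / 2 * (1 - b / t)) = Real.sin (Real.pi / 2 * (b / t)) := by
      rw [← Real.cos_pi_div_two_sub]; congr 1; ring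
    have h3 : Real.sin (Real.pi / 2 * (b / t)) ≤ Real.pi / 2 * (b / t) :=
      Real.sin_le (by positivity)
    calc t * Real.cos a ≤ t * (Real.pi / 2 * (b / t)) :=
          mul_le_mul_of_nonneg_left (by linarith) ht.le
      _ = Real.pi / 2 * b := by field_simp
  · have h1 := Real.cos_le_one a
    have h2 : t * Real.cos a ≤ t := by nlinarith
    nlinarith [Real.pi_gt_three]

/-- `bet ≤ arcsin (w/t)` from `U ≤ b` (Jordan) -/
theorem bet_le_of_U {U' w' b t : ℝ} (ht : 0 < t) (hU0 : 0 ≤ U') (hw : 0 ≤ w')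
    (hsq : U' ^ 2 + w' ^ 2 = t ^ 2) (h : U' ≤ b) :
    Real.pi / 2 * max (1 - b / t) 0 ≤ Real.arcsin (w' / t) := by
  have hpi := Real.pi_pos
  have hw0 : 0 ≤ w' / t := by positivity
  have ha0 : 0 ≤ Real.arcsin (w' / t) := Real.arcsin_nonneg.2 hw0
  rcases le_total t b with hbt | hbt
  · have : 1 ≤ b / t := (one_le_div ht).2 hbt
    rw [max_eq_right (by linarith), mul_zero]
    exact ha0
  · have hq1 : b / t ≤ 1 := (div_le_one ht).2 hbt
    rw [max_eq_left (by linarith)]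
    have hut : U' / t ≤ b / t := div_le_div_of_nonneg_right h ht.le
    have hu0 : 0 ≤ U' / t := by positivity
    -- `y = π/2 (1 - b/t)`, `sin y ≤ w'/t`
    rw [Real.le_arcsin_iff_sin_le' ⟨by nlinarith, by nlinarith⟩]
    have h1 : Real.sin (Real.pi / 2 * (1 - b / t)) = Real.cos (Real.pi / 2 * (b / t)) := by
      rw [← Real.cos_pi_div_two_sub]; congr 1; ring
    rw [h1]
    have h2 : Real.cos (Real.pi / 2 * (b / t)) ≤ Real.cos (Real.pi / 2 * (U' / t)) :=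
      Real.cos_le_cos_of_nonneg_of_le_pi (by positivity) (by nlinarith) (by nlinarith)
    refine h2.trans ?_
    -- `cos² + sin² = 1`, `sin (π/2 u) ≥ u`
    have h3 : U' / t ≤ Real.sin (Real.pi / 2 * (U' / t)) := by
      have h4 := Real.mul_le_sin (x := Real.pi / 2 * (U' / t)) (by positivity) (by nlinarith)
      have h5 : 2 / Real.pi * (Real.pi / 2 * (U' / t)) = U' / t := by field_simp
      linarith
    have h6 := Real.sin_sq_add_cos_sq (Real.pi / 2 * (U' / t))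
    have h7 : (U' / t) ^ 2 + (w' / t) ^ 2 = 1 := by
      rw [div_pow, div_pow, ← add_div, hsq, div_self (by positivity)]
    have h8 : Real.cos (Real.pi / 2 * (U' / t)) ^ 2 ≤ (w' / t) ^ 2 := by nlinarith
    exact le_trans (le_abs_self _) (abs_le_of_sq_le_sq h8 hw0)
end

end PU
end Crest.Agent.R335
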