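import Crest.Agent.R335.PU5
import Crest.Agent.R335.PAng
import Crest.Agent.R335.KPos

/-!
Row 335 (S0521), Part C, C.4: the comparison `bet ≤ al` at fixed parameters.
-/

set_option autoImplicit false
set_option linter.unusedSectionVars false
set_option linter.unusedVariables false

open MeasureTheory Filter Set Crest.MathPhysics.ThreeBody
open scoped ENNReal Topology ContDiff

noncomputable section
namespace Crest.Agent.R335
namespace PU

theorem V2_cont {D R1 : ℝ} (hD : 4 ≤ D) (hR : 6000 * D ^ 2 ≤ R1) :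
    ContinuousOn (V2 D) (UpExt R1) := by
  unfold V2
  have h : ∀ x ∈ UpExt R1, ‖x - nuc D‖ ≠ 0 ∧ ‖x - nuc (-D)‖ ≠ 0 := by
    intro x hx
    have hf := far hD hR hx
    have h1 := hf.reg.rp
    have h2 := hf.reg.rm
    exact ⟨by linarith, by linarith⟩
  refine ContinuousOn.sub (ContinuousOn.neg (ContinuousOn.div continuousOn_const
    (by fun_prop) fun x hx => (h x hx).1)) (ContinuousOn.div continuousOn_const
    (by fun_prop) fun x hx => (h x hx).2)

section
variable {cg C0 D : ℝ} {B : OBD cg C0 D} {P K1 K2 R1 lam κ κS κT κn Q : ℝ}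
  {s s1 s2 F w0 X sig : Pos3 → ℝ} {gs gs1 gs2 gF : Pos3 → Pos3} {U w : Pos3 → ℝ}
  {gU gw : Pos3 → Pos3} {om : ℝ}

/-- lower bound of the barrier on the shell -/
theorem fU_shell (hq : PUPar B P R1 lam κ κS κT κn Q) {x : Pos3} (hx : x ∈ UpExt R1)
    (hxR : ‖x‖ ≤ R1 + 1) :
    P * (0.9 * Real.exp (-(1.1 * (R1 + 1 + D)))) ≤ fU D κn κ lam B.om (2 * P) P x := by
  have hP : 0 < P := by linarith [hq.P1]
  have hf := xfar hq hx
  have hD := hf.Dpos
  have hr := hf.rpos
  have r4 := ri_pos 4 hr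
  have hSf := Sx_pos (parF hq) hf.reg
  have hl := hq.l0
  have hn := parN hq
  have hρ := hf.reg.rp
  have hρ0 : 0 < ‖x - nuc D‖ := by linarith
  have e1 : ‖x - nuc D‖ ≤ R1 + 1 + D := by
    obtain ⟨r1, r2, r3, r4⟩ := CXc.rho_le hD.le x
    linarith
  have e2 : 0.9 * Real.exp (-(1.1 * (R1 + 1 + D))) ≤ Em κn (2 / κn - 1) 1 ‖x - nuc D‖ := by
    rw [Em_eq hρ0]
    unfold ee
    have a1 : Real.exp (-(1.1 * (R1 + 1 + D))) ≤ Real.exp (-(κn * ‖x - nuc D‖)) := by
      refine Real.exp_le_exp.2 (neg_le_neg ?_)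
      have : κn * ‖x - nuc D‖ ≤ 1.1 * (R1 + 1 + D) := by
        refine mul_le_mul ?_ e1 hρ0.le (by norm_num)
        have := hq.n2; norm_num at this ⊢; linarith
      exact this
    have a2 : 1 ≤ ‖x - nuc D‖ ^ (2 / κn - 1) := by
      refine Real.one_le_rpow (by linarith) ?_
      have h1 := hq.n1
      have h2 := hq.n2
      rw [sub_nonneg, le_div_iff₀ (by linarith)]
      linarith
    have a3 : 0.9 ≤ 1 - 1 * (√‖x - nuc D‖)⁻¹ := by
      have b1 : 10 ≤ √‖x - nuc D‖ := Real.le_sqrt_of_sq_le (by norm_num; linarith)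
      have b2 : (√‖x - nuc D‖)⁻¹ ≤ 10⁻¹ := inv_anti₀ (by norm_num) b1
      norm_num at b2 ⊢
      linarith
    have a4 := Real.exp_pos (-(κn * ‖x - nuc D‖))
    calc 0.9 * Real.exp (-(1.1 * (R1 + 1 + D))) ≤ 0.9 * Real.exp (-(κn * ‖x - nuc D‖)) := by
          linarith
      _ = Real.exp (-(κn * ‖x - nuc D‖)) * 1 * 0.9 := by ring
      _ ≤ Real.exp (-(κn * ‖x - nuc D‖)) * ‖x - nuc D‖ ^ (2 / κn - 1) *
          (1 - 1 * (√‖x - nuc D‖)⁻¹) := by gcongr
  have e3 : Em κn (2 / κn - 1) 1 ‖x - nuc D‖ ≤ Sx D κn (2 / κn - 1) 1 x := by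
    unfold Sx
    linarith [Em_pos hn hf.reg.rm]
  have e4 : 0 ≤ P * (lam / B.om ^ 2) *
      (ri 4 x * Sx D κ (2 * (1 - lam) / κ - 1) 1 x) := by positivity
  unfold fU
  have e5 : 0 < 0.9 * Real.exp (-(1.1 * (R1 + 1 + D))) := by positivity
  have e6 := mul_le_mul_of_nonneg_left (e2.trans e3) (by positivity : 0 ≤ 2 * P)
  nlinarith [mul_pos hP e5]

/-- the shell -/
theorem shell (h : COut B P K1 K2 R1 lam κ κS κT s s1 s2 F w0 X sig gs gs1 gs2 gF)
    (hq : PUPar B P R1 lam κ κS κT κn Q) (hp : Pair s U gU w gw om) {δ : ℝ}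
    (hδ : δ + |K2| * lam + P * (lam / B.om) ≤ P * (0.9 * Real.exp (-(1.1 * (R1 + 1 + D)))))
    (hcl : ∀ᵐ x : Pos3, ‖x‖ ≤ R1 + 1 → |U x - √2 * B.g x| ≤ δ ∧ |w x - B.u x| ≤ δ) :
    ∀ᵐ x, x ∈ UpExt R1 → ‖x‖ ≤ R1 + 1 →
      bet s (bU Q D κn κ lam B.om (4 * P) (2 * P)) x ≤ al s w x := by
  have hP : 0 < P := by linarith [hq.P1]
  obtain ⟨r1, r2, r3⟩ := Rbig hq
  filter_upwards [hcl, h.cl2, PU.s2_le h hq.D4 hP.le hq.l1 r2 hq.n1 hq.nS hq.nT] with
    x e1 e2 e3 hx hxR
  have hf := xfar hq hx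
  have hf0 := fU_pos (om0 := B.om) (parN hq) (parF hq) (by positivity : 0 < 2 * P)
    hP.le hq.l0.le hf
  obtain ⟨g1, g2⟩ := gz_bounds (Q := Q) (x := x) (by linarith [hq.om0, hq.q0]) hq.q1 hx.2.le
  have f1 := (e1 hxR).1
  have f2 := e3 hx
  have f3 := fU_shell hq hx hxR
  have hl := hq.l0
  have ho := hq.om0
  have hr0 : 0 < ‖x‖ := hf.rpos
  have hr1 : 1 ≤ ‖x‖ := by linarith [hx.1]
  have hz : 0 < x 2 := hx.2
  have hzr : x 2 ≤ ‖x‖ := by
    have h1 := PiLp.norm_apply_le x 2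
    rw [Real.norm_eq_abs, abs_of_pos hz] at h1
    exact h1
  obtain ⟨o0, o1⟩ := OOm_bounds (parF hq) hf
  have f4 : P * (lam / B.om) * (x 2 / ‖x‖ ^ 3) * CX.OO D κ (2 * (1 - lam)) (-1) x ≤
      P * (lam / B.om) := by
    have h1 : x 2 / ‖x‖ ^ 3 ≤ 1 := by
      rw [div_le_one (by positivity)]
      calc x 2 ≤ ‖x‖ := hzr
        _ = ‖x‖ ^ 1 := (pow_one _).symm
        _ ≤ ‖x‖ ^ 3 := pow_le_pow_right₀ hr1 (by norm_num)
    have h2 : x 2 / ‖x‖ ^ 3 * CX.OO D κ (2 * (1 - lam)) (-1) x ≤ 1 * 1 :=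
      mul_le_mul h1 o1 o0 (by norm_num)
    have h3 : 0 ≤ P * (lam / B.om) := by positivity
    calc P * (lam / B.om) * (x 2 / ‖x‖ ^ 3) * CX.OO D κ (2 * (1 - lam)) (-1) x =
          P * (lam / B.om) * (x 2 / ‖x‖ ^ 3 * CX.OO D κ (2 * (1 - lam)) (-1) x) := by ring
      _ ≤ P * (lam / B.om) * (1 * 1) := mul_le_mul_of_nonneg_left h2 h3
      _ = _ := by ring
  have f5 : K2 * lam ≤ |K2| * lam := mul_le_mul_of_nonneg_right (le_abs_self _) hl.le
  have f6 := abs_le.1 f1
  have f7 := abs_le.1 e2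
  have hUb : U x ≤ bU Q D κn κ lam B.om (4 * P) (2 * P) x := by
    unfold bU
    rw [fU_two]
    nlinarith
  exact bet_le_of_U (h.amp.pos x) (hp.U0 x) (hp.w0 x hx.2) (hp.adm.sq x) hUb


set_option maxHeartbeats 1000000 in
/-- the comparison -/
theorem comparison (h : COut B P K1 K2 R1 lam κ κS κT s s1 s2 F w0 X sig gs gs1 gs2 gF)
    (hq : PUPar B P R1 lam κ κS κT κn (2 * om)) (hp : Pair s U gU w gw om)
    (hbk : ∀ x ∈ UpExt R1, 1 / 2 ≤ x 2 →
      bU (2 * om) D κn κ lam B.om (4 * P) (2 * P) x ≤ 1 / 10 / ‖x‖ * s x)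
    (hsh : ∀ᵐ x, x ∈ UpExt R1 → ‖x‖ ≤ R1 + 1 →
      bet s (bU (2 * om) D κn κ lam B.om (4 * P) (2 * P)) x ≤ al s w x) :
    ∀ᵐ x ∂(volume.restrict (UpExt R1)),
      bet s (bU (2 * om) D κn κ lam B.om (4 * P) (2 * P)) x ≤ al s w x := by
  have hP : 0 < P := by linarith [hq.P1]
  have hom := hp.om_pos
  obtain ⟨r1, r2, r3⟩ := Rbig hq
  have hO := isOpen_UpExt R1
  have hA := hp.angP h.amp
  have hUd : UpExt R1 ⊆ XT.Ud D := fun x hx => mem_Ud (xfar hq hx)
  obtain ⟨M, hM⟩ := h.amp.bdd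
  have hq0 : (0 : ℝ) ≤ 2 * om := by positivity
  have hQ1 : 2 * om ≤ 1 / 20 := hq.q1
  have hl := hq.l0
  have ho := hq.om0
  set b := bU (2 * om) D κn κ lam B.om (4 * P) (2 * P) with hbdef
  have hb : Jet (UpExt R1) b (gbU (2 * om) D κn κ lam B.om (4 * P) (2 * P)) (lap b) :=
    (bU_jet (2 * om) D κn κ lam B.om (4 * P) (2 * P)).mono hUd
  have hb0 : ∀ x ∈ UpExt R1, 0 < b x := fun x hx =>
    bU_pos (parN hq) (parF hq) (by positivity) (by positivity) hl.le hq0 hQ1 (xfar hq hx)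
  obtain ⟨S, gS, hS, hS0, hSs⟩ := traceFn h.half1 h.nn1 (R1 := R1) (by linarith)
  have hkc : ContinuousOn (fun x => κ ^ 2 + 2 * V2 D x) (UpExt R1) :=
    continuousOn_const.add (continuousOn_const.mul (V2_cont hq.D4 hq.R1a))
  refine PU.core hO (Q := 2 * om) (by positivity) h.amp.h1 h.amp.cont h.amp.pos hM
    (hA.wg.mono (subset_univ _)) ?_ ?_ ?_ hb hb0
    (k := fun x => κ ^ 2 + 2 * V2 D x) (hkc.locallyIntegrableOn hO.measurableSet) ?_ ?_
    (C := 2) (by norm_num) ?_ hS ?_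
  · -- range of `α`
    rw [ae_restrict_iff' hO.measurableSet]
    filter_upwards [w_pos h.amp hp] with x hx hxU
    exact ⟨Real.arcsin_pos.2 (div_pos (hx hxU.2) (h.amp.pos x)), Real.arcsin_le_pi_div_two _⟩
  · -- energy
    have h1 := hA.memLp_s_gal
    have h2 := h1.norm.integrable_sq
    refine (h2.congr (Eventually.of_forall fun x => ?_)).integrableOn
    simp only
    rw [norm_smul, Real.norm_eq_abs, mul_pow, sq_abs]
  · -- the equation of `α`
    intro p gp hpt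
    have hBT : BT p gp := ⟨hpt.h10.h1, hpt.bdd, hpt.cpt⟩
    have e := hp.el_al h.amp hBT
    have z1 := hpt.h10.ae_eq_zero
    have z2 : ∀ᵐ x, x ∉ UpExt R1 → gp x = 0 := by
      have hz := hpt.h10.h1.wg.zero_of_level isOpen_univ 0
      rw [Measure.restrict_univ] at hz
      filter_upwards [z1, hz] with x hx1 hx2 hxU
      exact hx2 (hx1 hxU)
    have e1 : ∫ x in UpExt R1, s x ^ 2 * Real.sin (2 * al s w x) * p x =
        ∫ x, s x ^ 2 * Real.sin (2 * al s w x) * p x := by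
      refine setIntegral_eq_integral_of_ae_compl_eq_zero ?_
      filter_upwards [z1] with x hx hxU
      rw [hx hxU, mul_zero]
    have e2 : ∫ x in UpExt R1, s x ^ 2 * inner ℝ (gal s U gU w gw x) (gp x) =
        ∫ x, s x ^ 2 * inner ℝ (gal s U gU w gw x) (gp x) := by
      refine setIntegral_eq_integral_of_ae_compl_eq_zero ?_
      filter_upwards [z2] with x hx hxU
      rw [hx hxU, inner_zero_right, mul_zero]
    rw [e1, e2, e]
    refine le_of_eq ?_
    ring
  · -- Kato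
    intro φ hφ hφ0
    have h1 := h.kato.le φ (hφ.mono (subset_univ _)) hφ0
    simp only [zero_mul, integral_zero] at h1
    have h2 : ∫ x, (κ ^ 2 + 2 * V2 D x) * s x * φ x =
        2 * ∫ x, (κ ^ 2 / 2 + V2 D x) * s x * φ x := by
      rw [← integral_const_mul]
      refine integral_congr_ae (Eventually.of_forall fun x => ?_)
      simp only
      ring
    rw [h2]
    linarith
  · -- the pointwise inequality
    intro x hx hbs
    have hf := xfar hq hx
    refine PU.star (parN hq) (parF hq) (by positivity) (by positivity) hl.le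
      (by linarith [hq.l1]) (by positivity) hQ1 hq.gapQ hf ?_ (h.amp.pos x) hbs ?_
    · have h1 : 80 / B.om ≤ ‖x‖ := hq.R1b.trans hx.1.le
      rw [div_le_iff₀ ho] at h1
      have h2 := mul_le_mul_of_nonneg_left hq.q0 hf.rpos.le
      linarith
    · intro hz
      refine (hbk x hx (by linarith)).trans ?_
      refine mul_le_mul_of_nonneg_right ?_ (h.amp.pos x).le
      have hr := hf.rpos
      rw [div_div]
      exact one_div_le_one_div_of_le (by positivity) (by linarith)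
  · intro x hx
    exact norm_gbU_le (parN hq) (parF hq) (by positivity) (by positivity) hl.le hq0 hQ1
      (xfar hq hx)
  · -- trace
    intro Rb
    obtain ⟨C, hC, hCs⟩ := s_sub_b h hq
    obtain ⟨c, hc, hcs⟩ := hA.low Rb
    refine ⟨Real.pi / 2 * (C / c), ?_⟩
    rw [ae_restrict_iff' hO.measurableSet]
    filter_upwards [hsh, hCs] with x e1 e2 hx hxR
    have hpi := Real.pi_pos
    have hal := hp.al_nonneg h.amp hx.2
    rcases le_total ‖x‖ (R1 + 1) with hr | hr
    · have := e1 hx hr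
      rw [max_eq_right (by linarith)]
      have := hS0 x
      positivity
    · have hs0 := h.amp.pos x
      rw [hSs x hx hr]
      refine max_le ?_ (by have := h.nn1 x; positivity)
      have f1 := e2 hx
      have f2 := hcs x hxR
      have f3 : max (1 - b x / s x) 0 ≤ C / c * s1 x := by
        refine max_le ?_ (by have := h.nn1 x; positivity)
        have f4 : 1 - b x / s x = (s x - b x) / s x := by field_simp
        rw [f4, div_le_iff₀ hs0]
        have f5 : C * s1 x ≤ C / c * s1 x * s x := by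
          have f6 : C * s1 x = C / c * s1 x * c := by field_simp
          rw [f6]
          exact mul_le_mul_of_nonneg_left f2 (by have := h.nn1 x; positivity)
        linarith
      unfold bet
      have f7 := mul_le_mul_of_nonneg_left f3 (by positivity : 0 ≤ Real.pi / 2)
      linarith

/-- `U ≤ (π/2) b` -/
theorem U_le (h : COut B P K1 K2 R1 lam κ κS κT s s1 s2 F w0 X sig gs gs1 gs2 gF)
    (hq : PUPar B P R1 lam κ κS κT κn (2 * om)) (hp : Pair s U gU w gw om)
    (hc : ∀ᵐ x ∂(volume.restrict (UpExt R1)),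
      bet s (bU (2 * om) D κn κ lam B.om (4 * P) (2 * P)) x ≤ al s w x) :
    ∀ᵐ x, x ∈ UpExt R1 →
      U x ≤ Real.pi / 2 * bU (2 * om) D κn κ lam B.om (4 * P) (2 * P) x := by
  have hP : 0 < P := by linarith [hq.P1]
  have hom := hp.om_pos
  rw [ae_restrict_iff' (isOpen_UpExt R1).measurableSet] at hc
  filter_upwards [hc] with x hx hxU
  have hb0 := bU_pos (om0 := B.om) (parN hq) (parF hq) (by positivity : 0 < 4 * P)
    (by positivity : 0 ≤ 2 * P) hq.l0.le (by positivity : 0 ≤ 2 * om) hq.q1 (xfar hq hxU)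
  have h1 := U_le_of_bet (h.amp.pos x) hb0.le (Real.arcsin_le_pi_div_two (w x / s x)) (hx hxU)
  have h2 := (hp.angP h.amp).cos_al x
  unfold al at h2
  rw [h2] at h1
  exact h1

end

end PU
end Crest.Agent.R335
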