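import Crest.Agent.R335.XTwo

/-!
Row 335 (S0521): forced barriers `r⁻³ z O^∓`, `r⁻⁴ S^∓` (section (1.4) of part B).
-/

set_option autoImplicit false
set_option linter.unusedSectionVars false

open MeasureTheory Filter Set Crest.MathPhysics.ThreeBody
open scoped ENNReal Topology ContDiff

noncomputable section
namespace Crest.Agent.R335

/-! ### inverse powers -/

/-- `r^{-n}` -/
def ri (n : ℕ) (x : Pos3) : ℝ := (‖x‖ ^ n)⁻¹

/-- the unit vector `e₃` -/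
def e3v : Pos3 := EuclideanSpace.single 2 (1 : ℝ)

theorem ri_jet (n : ℕ) : Jet {x : Pos3 | x ≠ 0} (ri n) (fun x => (-(n * ri (n + 2) x)) • x)
    (fun x => (n * (n - 1)) * ri (n + 2) x) := by
  have hU : IsOpen {x : Pos3 | x ≠ 0} := isOpen_ne
  have hF : ∀ t : ℝ, 0 < t → HasDerivAt (fun t : ℝ => (t ^ n)⁻¹) (-(n * (t ^ (n + 1))⁻¹)) t := by
    intro t ht
    have h1 : HasDerivAt (fun t : ℝ => t ^ n) (n * t ^ (n - 1)) t := hasDerivAt_pow n t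
    have h2 := h1.fun_inv (pow_ne_zero n ht.ne')
    refine h2.congr_deriv ?_
    rcases Nat.eq_zero_or_pos n with rfl | hn
    · simp
    · obtain ⟨m, rfl⟩ : ∃ m, n = m + 1 := ⟨n - 1, by omega⟩
      simp only [Nat.add_sub_cancel]
      field_simp
      ring
  have hF' : ∀ t : ℝ, 0 < t → HasDerivAt (fun t : ℝ => -(n * (t ^ (n + 1))⁻¹))
      (n * (n + 1) * (t ^ (n + 2))⁻¹) t := by
    intro t ht
    have h1 : HasDerivAt (fun t : ℝ => t ^ (n + 1)) ((n + 1 : ℕ) * t ^ n) t := by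
      simpa using hasDerivAt_pow (n + 1) t
    have h2 := ((h1.fun_inv (pow_ne_zero _ ht.ne')).const_mul (n : ℝ)).fun_neg
    refine h2.congr_deriv ?_
    push_cast
    field_simp
    ring
  have hF'' : ContinuousOn (fun t : ℝ => n * (n + 1) * (t ^ (n + 2))⁻¹) (Ioi 0) := by
    refine ContinuousOn.mul continuousOn_const (ContinuousOn.inv₀ (by fun_prop) ?_)
    intro t ht
    exact pow_ne_zero _ (ne_of_gt ht)
  have h := Jet.radial (U := {x : Pos3 | x ≠ 0}) hF hF' hF'' 0 (fun x hx => hx) hU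
  refine (h.congr hU (fun x _ => by simp [ri])).of_eq (fun x hx => ?_) (fun x hx => ?_)
  · have hp : 0 < ‖x‖ := norm_pos_iff.2 hx
    rw [sub_zero]
    congr 1
    unfold ri
    field_simp
    ring
  · have hp : 0 < ‖x‖ := norm_pos_iff.2 hx
    rw [sub_zero]
    simp only [Fintype.card_fin]
    unfold ri
    field_simp
    push_cast
    ring

theorem ri_pos (n : ℕ) {x : Pos3} (hx : 0 < ‖x‖) : 0 < ri n x := by
  unfold ri; positivity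

/-- `r⁻³ z` -/
def hz (x : Pos3) : ℝ := x 2 * ri 3 x

/-- gradient of `r⁻³ z` -/
def ghz (x : Pos3) : Pos3 := ri 3 x • e3v - (3 * x 2 * ri 5 x) • x

theorem hz_jet : Jet {x : Pos3 | x ≠ 0} hz ghz (fun _ => 0) := by
  have hU : IsOpen {x : Pos3 | x ≠ 0} := isOpen_ne
  have h := (Jet.coord (U := {x : Pos3 | x ≠ 0}) (2 : Fin 3)).mul hU (ri_jet 3)
  refine h.of_eq (fun x hx => ?_) (fun x hx => ?_)
  · unfold ghz e3v
    rw [smul_smul, sub_eq_add_neg, ← neg_smul, add_comm]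
    congr 1
    congr 1
    push_cast
    ring
  · have hp : 0 < ‖x‖ := norm_pos_iff.2 hx
    rw [inner_smul_right, real_inner_comm, EuclideanSpace.inner_single_right]
    simp only [conj_trivial, one_mul]
    push_cast
    ring

/-! ### the product formula -/

theorem Lx_mul {U : Set Pos3} (hU : IsOpen U) {D Q κ : ℝ} {k f : Pos3 → ℝ} {gk gf : Pos3 → Pos3}
    {lk lf : Pos3 → ℝ} (hk : Jet U k gk lk) (hf : Jet U f gf lf) {x : Pos3} (hx : x ∈ U) :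
    Lx D Q κ (fun y => k y * f y) x =
      k x * Lx D Q κ f x - inner ℝ (gk x) (gf x) - 1 / 2 * lk x * f x := by
  unfold Lx
  rw [(hk.mul hU hf).lapl x hx, hf.lapl x hx]
  ring

theorem Lx_add {U : Set Pos3} (hU : IsOpen U) {D Q κ : ℝ} {k f : Pos3 → ℝ} {gk gf : Pos3 → Pos3}
    {lk lf : Pos3 → ℝ} (hk : Jet U k gk lk) (hf : Jet U f gf lf) {x : Pos3} (hx : x ∈ U) :
    Lx D Q κ (fun y => k y + f y) x = Lx D Q κ k x + Lx D Q κ f x := by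
  unfold Lx
  rw [(hk.add hU hf).lapl x hx, hf.lapl x hx, hk.lapl x hx]
  ring

theorem Lx_const_mul {U : Set Pos3} (hU : IsOpen U) {D Q κ : ℝ} {f : Pos3 → ℝ}
    {gf : Pos3 → Pos3} {lf : Pos3 → ℝ} (hf : Jet U f gf lf) (c : ℝ) {x : Pos3} (hx : x ∈ U) :
    Lx D Q κ (fun y => c * f y) x = c * Lx D Q κ f x := by
  unfold Lx
  rw [(hf.const_mul hU c).lapl x hx, hf.lapl x hx]
  ring

/-- change of the rate -/
theorem Lx_rate (D Q κ κ' : ℝ) (f : Pos3 → ℝ) (x : Pos3) :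
    Lx D Q κ' f x = Lx D Q κ f x + (κ' ^ 2 - κ ^ 2) / 2 * f x := by
  unfold Lx
  ring

namespace XT

/-- away from the nuclei and the origin -/
def Ud (D : ℝ) : Set Pos3 := Uc D ∩ {x | x ≠ 0}

theorem isOpen_Ud (D : ℝ) : IsOpen (Ud D) := (isOpen_Uc D).inter isOpen_ne

end XT

/-- `D₊/ρ₊ - D₋/ρ₋` -/
def Del (D κ p σ : ℝ) (x : Pos3) : ℝ :=
  Dm κ p σ ‖x - nuc D‖ / ‖x - nuc D‖ - Dm κ p σ ‖x - nuc (-D)‖ / ‖x - nuc (-D)‖

/-- `D₊/ρ₊ + D₋/ρ₋` -/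
def Sig (D κ p σ : ℝ) (x : Pos3) : ℝ :=
  Dm κ p σ ‖x - nuc D‖ / ‖x - nuc D‖ + Dm κ p σ ‖x - nuc (-D)‖ / ‖x - nuc (-D)‖

theorem gOx_eq (D κ p σ : ℝ) (x : Pos3) :
    gOx D κ p σ x = (-(Del D κ p σ x)) • x + (Sig D κ p σ x) • nuc D := by
  have hn : nuc (-D) = -nuc D := by
    ext i
    by_cases hi : i = 2
    · subst hi; simp [XT.nuc_two]
    · simp [XT.nuc_ne hi]
  unfold gOx Del Sig
  rw [hn]
  module

theorem gSx_eq (D κ p σ : ℝ) (x : Pos3) :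
    gSx D κ p σ x = (-(Sig D κ p σ x)) • x + (Del D κ p σ x) • nuc D := by
  have hn : nuc (-D) = -nuc D := by
    ext i
    by_cases hi : i = 2
    · subst hi; simp [XT.nuc_two]
    · simp [XT.nuc_ne hi]
  unfold gSx Del Sig
  rw [hn]
  module

theorem inner_x_gOx (D κ p σ : ℝ) (x : Pos3) :
    inner ℝ x (gOx D κ p σ x) = -(Del D κ p σ x * ‖x‖ ^ 2) + Sig D κ p σ x * (D * x 2) := by
  rw [gOx_eq, inner_add_right, inner_smul_right, inner_smul_right, real_inner_self_eq_norm_sq,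
    XT.inner_nuc]
  ring

theorem inner_x_gSx (D κ p σ : ℝ) (x : Pos3) :
    inner ℝ x (gSx D κ p σ x) = -(Sig D κ p σ x * ‖x‖ ^ 2) + Del D κ p σ x * (D * x 2) := by
  rw [gSx_eq, inner_add_right, inner_smul_right, inner_smul_right, real_inner_self_eq_norm_sq,
    XT.inner_nuc]
  ring

theorem inner_ghz_x {x : Pos3} (hx : 0 < ‖x‖) : inner ℝ (ghz x) x = -2 * hz x := by
  unfold ghz hz ri e3v
  rw [inner_sub_left, inner_smul_left, inner_smul_left, real_inner_self_eq_norm_sq,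
    real_inner_comm, EuclideanSpace.inner_single_right]
  simp only [conj_trivial, one_mul]
  field_simp
  ring

theorem inner_ghz_nuc (D : ℝ) (x : Pos3) :
    inner ℝ (ghz x) (nuc D) = D * (ri 3 x - 3 * x 2 ^ 2 * ri 5 x) := by
  rw [XT.inner_nuc]
  have he : e3v 2 = 1 := by simp [e3v]
  unfold ghz
  simp only [PiLp.sub_apply, PiLp.smul_apply, smul_eq_mul, he]
  ring

/-- the cross term of `r⁻³ z O` -/
theorem inner_ghz_gOx (D κ p σ : ℝ) {x : Pos3} (hx : 0 < ‖x‖) :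
    inner ℝ (ghz x) (gOx D κ p σ x) =
      2 * hz x * Del D κ p σ x + Sig D κ p σ x * (D * (ri 3 x - 3 * x 2 ^ 2 * ri 5 x)) := by
  rw [gOx_eq, inner_add_right, inner_smul_right, inner_smul_right, inner_ghz_x hx, inner_ghz_nuc]
  ring

section bounds

variable {D κ Q p σ : ℝ} {x : Pos3}

theorem Del_nonneg (h : MPar κ Q p σ) (hx : XReg D x) : 0 ≤ Del D κ p σ x := by
  unfold Del
  linarith [(Dm_div_diff h hx.rp hx.rp_le_rm).1]

theorem Del_le (h : MPar κ Q p σ) (hx : XFar D x) :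
    Del D κ p σ x ≤ 1.3 * κ / ‖x‖ * Ox D κ p σ x := by
  have h1 := (Dm_div_diff h hx.reg.rp hx.reg.rp_le_rm).2
  have hO := Ox_nonneg h hx.reg
  have h2 : 1.2 * κ / ‖x - nuc D‖ ≤ 1.3 * κ / ‖x‖ := by
    rw [div_le_div_iff₀ (by linarith [hx.reg.rp]) hx.rpos]
    have := mul_le_mul_of_nonneg_left hx.rp_ge (by linarith [h.kpos] : 0 ≤ 1.3 * κ)
    have h3 : 0 ≤ κ * ‖x‖ := mul_nonneg h.kpos.le (norm_nonneg _)
    linarith
  exact h1.trans (mul_le_mul_of_nonneg_right h2 hO)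

theorem Sig_le (h : MPar κ Q p σ) (hx : XFar D x) :
    Sig D κ p σ x ≤ 1.03 * κ / ‖x‖ * Sx D κ p σ x := by
  have hr := hx.reg
  have key : ∀ t, 100 ≤ t → 0.99 * ‖x‖ ≤ t → Dm κ p σ t / t ≤ 1.03 * κ / ‖x‖ * Em κ p σ t := by
    intro t ht htx
    have ht0 : 0 < t := by linarith
    have h1 := Dm_le h ht
    have hE := Em_pos h ht
    rw [div_le_iff₀ ht0]
    have h2 : 1.01 * κ ≤ 1.03 * κ / ‖x‖ * t := by
      rw [div_mul_eq_mul_div, le_div_iff₀ hx.rpos]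
      have := mul_le_mul_of_nonneg_left htx (by linarith [h.kpos] : 0 ≤ 1.03 * κ)
      have h3 : 0 ≤ κ * ‖x‖ := mul_nonneg h.kpos.le (norm_nonneg _)
      linarith
    have h3 := mul_le_mul_of_nonneg_right h2 hE.le
    calc Dm κ p σ t ≤ 1.01 * κ * Em κ p σ t := h1
      _ ≤ 1.03 * κ / ‖x‖ * t * Em κ p σ t := h3
      _ = 1.03 * κ / ‖x‖ * Em κ p σ t * t := by ring
  unfold Sig Sx
  linarith [key _ hr.rp hx.rp_ge, key _ hr.rm hx.rm_ge]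

theorem Sig_ge (h : MPar κ Q p σ) (hx : XFar D x) :
    0.97 * κ / ‖x‖ * Sx D κ p σ x ≤ Sig D κ p σ x := by
  have hr := hx.reg
  have key : ∀ t, 100 ≤ t → t ≤ 1.01 * ‖x‖ → 0.97 * κ / ‖x‖ * Em κ p σ t ≤ Dm κ p σ t / t := by
    intro t ht htx
    have ht0 : 0 < t := by linarith
    have h1 := Dm_ge h ht
    have hE := Em_pos h ht
    rw [le_div_iff₀ ht0]
    have h2 : 0.97 * κ / ‖x‖ * t ≤ 0.98 * κ := by
      rw [div_mul_eq_mul_div, div_le_iff₀ hx.rpos]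
      have := mul_le_mul_of_nonneg_left htx (by linarith [h.kpos] : 0 ≤ 0.97 * κ)
      have h3 : 0 ≤ κ * ‖x‖ := mul_nonneg h.kpos.le (norm_nonneg _)
      linarith
    have h3 := mul_le_mul_of_nonneg_right h2 hE.le
    calc 0.97 * κ / ‖x‖ * Em κ p σ t * t = 0.97 * κ / ‖x‖ * t * Em κ p σ t := by ring
      _ ≤ 0.98 * κ * Em κ p σ t := h3
      _ ≤ Dm κ p σ t := h1
  unfold Sig Sx
  linarith [key _ hr.rp hx.rp_le, key _ hr.rm hx.rm_le]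

theorem Sig_nonneg (h : MPar κ Q p σ) (hx : XReg D x) : 0 ≤ Sig D κ p σ x := by
  unfold Sig
  have h1 := Dm_pos h hx.rp
  have h2 := Dm_pos h hx.rm
  have h3 := hx.rp
  have h4 := hx.rm
  positivity

theorem ri_succ (n : ℕ) (x : Pos3) : ri (n + 1) x = ri n x / ‖x‖ := by
  unfold ri
  rw [pow_succ, mul_inv, div_eq_mul_inv]

theorem mem_Ud (hx : XFar D x) : x ∈ XT.Ud D :=
  ⟨hx.reg.mem, by
    intro h0
    have := hx.rpos
    rw [h0, norm_zero] at this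
    exact lt_irrefl _ this⟩

theorem hz_nonneg (hx : XFar D x) : 0 ≤ hz x :=
  mul_nonneg hx.z0 (ri_pos 3 hx.rpos).le

/-- jets of the products -/
theorem hzO_jet (D κ p σ : ℝ) : Jet (XT.Ud D) (fun x => hz x * Ox D κ p σ x)
    (fun x => hz x • gOx D κ p σ x + Ox D κ p σ x • ghz x)
    (fun x => hz x * lOx D κ p σ x + 2 * inner ℝ (ghz x) (gOx D κ p σ x) +
      Ox D κ p σ x * 0) :=
  (hz_jet.mono inter_subset_right).mul (XT.isOpen_Ud D) ((Ox_jet D κ p σ).mono inter_subset_left)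

theorem riO_jet (n : ℕ) (D κ p σ : ℝ) : Jet (XT.Ud D) (fun x => ri n x * Ox D κ p σ x)
    (fun x => ri n x • gOx D κ p σ x + Ox D κ p σ x • ((-(n * ri (n + 2) x)) • x))
    (fun x => ri n x * lOx D κ p σ x + 2 * inner ℝ ((-(n * ri (n + 2) x)) • x) (gOx D κ p σ x) +
      Ox D κ p σ x * ((n * (n - 1)) * ri (n + 2) x)) :=
  ((ri_jet n).mono inter_subset_right).mul (XT.isOpen_Ud D)
    ((Ox_jet D κ p σ).mono inter_subset_left)

theorem riS_jet (n : ℕ) (D κ p σ : ℝ) : Jet (XT.Ud D) (fun x => ri n x * Sx D κ p σ x)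
    (fun x => ri n x • gSx D κ p σ x + Sx D κ p σ x • ((-(n * ri (n + 2) x)) • x))
    (fun x => ri n x * lSx D κ p σ x + 2 * inner ℝ ((-(n * ri (n + 2) x)) • x) (gSx D κ p σ x) +
      Sx D κ p σ x * ((n * (n - 1)) * ri (n + 2) x)) :=
  ((ri_jet n).mono inter_subset_right).mul (XT.isOpen_Ud D)
    ((Sx_jet D κ p σ).mono inter_subset_left)

/-- exact formula for `L(r⁻³ z O)` -/
theorem Lx_hzO (hx : x ∈ XT.Ud D) : Lx D Q κ (fun y => hz y * Ox D κ p σ y) x =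
    hz x * Lx D Q κ (Ox D κ p σ) x - 2 * hz x * Del D κ p σ x -
      Sig D κ p σ x * (D * (ri 3 x - 3 * x 2 ^ 2 * ri 5 x)) := by
  have hp : 0 < ‖x‖ := norm_pos_iff.2 hx.2
  rw [Lx_mul (XT.isOpen_Ud D) (hz_jet.mono inter_subset_right)
    ((Ox_jet D κ p σ).mono inter_subset_left) hx, inner_ghz_gOx _ _ _ _ hp]
  ring

/-- exact formula for `L(r⁻ⁿ O)` -/
theorem Lx_riO (n : ℕ) (hx : x ∈ XT.Ud D) : Lx D Q κ (fun y => ri n y * Ox D κ p σ y) x =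
    ri n x * Lx D Q κ (Ox D κ p σ) x + n * ri (n + 2) x *
      (-(Del D κ p σ x * ‖x‖ ^ 2) + Sig D κ p σ x * (D * x 2)) -
      (n * (n - 1)) / 2 * ri (n + 2) x * Ox D κ p σ x := by
  rw [Lx_mul (XT.isOpen_Ud D) ((ri_jet n).mono inter_subset_right)
    ((Ox_jet D κ p σ).mono inter_subset_left) hx, inner_smul_left, inner_x_gOx]
  simp only [conj_trivial]
  ring

/-- exact formula for `L(r⁻ⁿ S)` -/
theorem Lx_riS (n : ℕ) (hx : x ∈ XT.Ud D) : Lx D Q κ (fun y => ri n y * Sx D κ p σ y) x =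
    ri n x * Lx D Q κ (Sx D κ p σ) x + n * ri (n + 2) x *
      (-(Sig D κ p σ x * ‖x‖ ^ 2) + Del D κ p σ x * (D * x 2)) -
      (n * (n - 1)) / 2 * ri (n + 2) x * Sx D κ p σ x := by
  rw [Lx_mul (XT.isOpen_Ud D) ((ri_jet n).mono inter_subset_right)
    ((Sx_jet D κ p σ).mono inter_subset_left) hx, inner_smul_left, inner_x_gSx]
  simp only [conj_trivial]
  ring

/-- `S z ≤ 4.2 r O` -/
theorem Sz_le (h : MPar κ Q p σ) (hx : XFar D x) :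
    Sx D κ p σ x * x 2 ≤ 4.1 * ‖x‖ * Ox D κ p σ x := by
  have hD := hx.Dpos
  have hr := hx.reg
  have h1 := del_Sx_le h hr
  have h2 := XT.del_mul x D
  have hS := (Sx_pos h hr).le
  have h3 : ‖x - nuc (-D)‖ + ‖x - nuc D‖ ≤ 2.02 * ‖x‖ := by linarith [hx.rp_le, hx.rm_le]
  have d0 : 0 ≤ ‖x - nuc (-D)‖ - ‖x - nuc D‖ := by linarith [hr.rp_le_rm]
  have h4 : 4 * D * x 2 ≤ (‖x - nuc (-D)‖ - ‖x - nuc D‖) * (2.02 * ‖x‖) := by
    rw [← h2]; exact mul_le_mul_of_nonneg_left h3 d0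
  have h5 : 4 * D * x 2 * Sx D κ p σ x ≤
      (‖x - nuc (-D)‖ - ‖x - nuc D‖) * (2.02 * ‖x‖) * Sx D κ p σ x :=
    mul_le_mul_of_nonneg_right h4 hS
  have h6 : (‖x - nuc (-D)‖ - ‖x - nuc D‖) * Sx D κ p σ x * (2.02 * ‖x‖) ≤
      8 * D * Ox D κ p σ x * (2.02 * ‖x‖) :=
    mul_le_mul_of_nonneg_right h1 (by positivity)
  have hO := Ox_nonneg h hr
  have h7 : D * (Sx D κ p σ x * x 2) ≤ D * (4.1 * ‖x‖ * Ox D κ p σ x) := by
    have : 0 ≤ D * ‖x‖ * Ox D κ p σ x := by positivity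
    nlinarith
  exact le_of_mul_le_mul_left h7 hD

/-- in the cone `6 z² > r²` : `S ≤ 10.3 O` -/
theorem Sx_le_Ox (h : MPar κ Q p σ) (hx : XFar D x) (hc : ‖x‖ ^ 2 < 6 * x 2 ^ 2) :
    0.4 * ‖x‖ ≤ x 2 ∧ Sx D κ p σ x ≤ 10.3 * Ox D κ p σ x := by
  have hr := hx.reg
  have hr0 := hx.rpos
  have hz1 : 0.4 * ‖x‖ ≤ x 2 := by
    refine le_of_sq_le_sq ?_ hx.z0
    nlinarith [sq_nonneg ‖x‖]
  refine ⟨hz1, ?_⟩
  have h1 := Sz_le h hx
  have hS := (Sx_pos h hr).le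
  have h2 : Sx D κ p σ x * (0.4 * ‖x‖) ≤ Sx D κ p σ x * x 2 := mul_le_mul_of_nonneg_left hz1 hS
  have h3 : ‖x‖ * Sx D κ p σ x ≤ ‖x‖ * (10.3 * Ox D κ p σ x) := by
    have hO := Ox_nonneg h hr
    have : 0 ≤ ‖x‖ * Ox D κ p σ x := by positivity
    nlinarith
  exact le_of_mul_le_mul_left h3 hr0

/-- first line of (1.4) -/
theorem Lx_hzOm_ge (h : MPar κ Q p 1) (hx : XFar D x) :
    -(2.6 * κ / ‖x‖) * (hz x * Ox D κ p 1 x) - 1.1 * κ * D * (ri 4 x * Sx D κ p 1 x) ≤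
      Lx D Q κ (fun y => hz y * Ox D κ p 1 y) x := by
  have hr := hx.reg
  have hr0 := hx.rpos
  have hD := hx.Dpos
  have hκ := h.kpos
  rw [Lx_hzO (mem_Ud hx)]
  have hz0 := hz_nonneg hx
  have hL : 0 ≤ Lx D Q κ (Ox D κ p 1) x :=
    le_trans (mul_nonneg (epsm_nonneg h hr.rm) (Ox_nonneg h hr)) (Lx_Ox_ge h hr)
  have e1 : 0 ≤ hz x * Lx D Q κ (Ox D κ p 1) x := mul_nonneg hz0 hL
  have e2 : 2 * hz x * Del D κ p 1 x ≤ 2 * hz x * (1.3 * κ / ‖x‖ * Ox D κ p 1 x) :=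
    mul_le_mul_of_nonneg_left (Del_le h hx) (by positivity)
  have e3 : Sig D κ p 1 x * (D * (ri 3 x - 3 * x 2 ^ 2 * ri 5 x)) ≤
      1.03 * κ / ‖x‖ * Sx D κ p 1 x * (D * ri 3 x) := by
    have s0 := Sig_nonneg h hr
    have r5 := (ri_pos 5 hr0).le
    have r3 := (ri_pos 3 hr0).le
    have a1 : D * (ri 3 x - 3 * x 2 ^ 2 * ri 5 x) ≤ D * ri 3 x := by
      have : 0 ≤ D * (3 * x 2 ^ 2 * ri 5 x) := by positivity
      linarith
    calc Sig D κ p 1 x * (D * (ri 3 x - 3 * x 2 ^ 2 * ri 5 x)) ≤ Sig D κ p 1 x * (D * ri 3 x) :=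
          mul_le_mul_of_nonneg_left a1 s0
      _ ≤ 1.03 * κ / ‖x‖ * Sx D κ p 1 x * (D * ri 3 x) :=
          mul_le_mul_of_nonneg_right (Sig_le h hx) (by positivity)
  have e4 : 1.03 * κ / ‖x‖ * Sx D κ p 1 x * (D * ri 3 x) =
      1.03 * κ * D * (ri 4 x * Sx D κ p 1 x) := by
    rw [ri_succ 3 x]; ring
  have e5 : 0 ≤ κ * D * (ri 4 x * Sx D κ p 1 x) := by
    have := ri_pos 4 hr0
    have := Sx_pos h hr
    positivity
  rw [e4] at e3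
  have e6 : 2 * hz x * (1.3 * κ / ‖x‖ * Ox D κ p 1 x) =
      2.6 * κ / ‖x‖ * (hz x * Ox D κ p 1 x) := by ring
  rw [e6] at e2
  linarith

/-- second line of (1.4), for any power -/
theorem Lx_riSm_ge (n : ℕ) (hn : n ≤ 12) (h : MPar κ Q p 1) (hx : XFar D x) :
    -((1.04 * n) * κ / ‖x‖) * (ri n x * Sx D κ p 1 x) ≤
      Lx D Q κ (fun y => ri n y * Sx D κ p 1 y) x := by
  have hr := hx.reg
  have hr0 := hx.rpos
  have hD := hx.Dpos
  have hκ := h.kpos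
  rw [Lx_riS n (mem_Ud hx)]
  have rn := (ri_pos n hr0).le
  have hS := (Sx_pos h hr).le
  have hL : 0 ≤ Lx D Q κ (Sx D κ p 1) x :=
    le_trans (mul_nonneg (epsm_nonneg h hr.rm) hS) (Lx_Sx_ge h hr)
  have e1 : 0 ≤ ri n x * Lx D Q κ (Sx D κ p 1) x := mul_nonneg rn hL
  have hri : ri (n + 2) x = ri n x / ‖x‖ ^ 2 := by
    rw [show n + 2 = (n + 1) + 1 from rfl, ri_succ, ri_succ, div_div, sq]
  have hn' : (n : ℝ) ≤ 12 := by exact_mod_cast hn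
  have hn0 : (0 : ℝ) ≤ n := Nat.cast_nonneg n
  have e2 : Sig D κ p 1 x * ‖x‖ ^ 2 ≤ 1.03 * κ / ‖x‖ * Sx D κ p 1 x * ‖x‖ ^ 2 :=
    mul_le_mul_of_nonneg_right (Sig_le h hx) (by positivity)
  have e3 : 0 ≤ Del D κ p 1 x * (D * x 2) :=
    mul_nonneg (Del_nonneg h hr) (mul_nonneg hD.le hx.z0)
  have e4 : n * ri (n + 2) x * (-(1.03 * κ / ‖x‖ * Sx D κ p 1 x * ‖x‖ ^ 2)) ≤
      n * ri (n + 2) x * (-(Sig D κ p 1 x * ‖x‖ ^ 2) + Del D κ p 1 x * (D * x 2)) := by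
    refine mul_le_mul_of_nonneg_left (by linarith) ?_
    exact mul_nonneg hn0 (ri_pos _ hr0).le
  have e5 : n * ri (n + 2) x * (-(1.03 * κ / ‖x‖ * Sx D κ p 1 x * ‖x‖ ^ 2)) =
      -(1.03 * n * κ / ‖x‖) * (ri n x * Sx D κ p 1 x) := by
    rw [hri]; field_simp
  have e6 : (n * (n - 1)) / 2 * ri (n + 2) x * Sx D κ p 1 x ≤
      (0.01 * n) * κ / ‖x‖ * (ri n x * Sx D κ p 1 x) := by
    rw [hri]
    have a1 : (n * (n - 1)) / 2 * (ri n x / ‖x‖ ^ 2) * Sx D κ p 1 x =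
        ((n * ((n - 1) / 2)) / ‖x‖) / ‖x‖ * (ri n x * Sx D κ p 1 x) := by
      field_simp
    rw [a1]
    refine mul_le_mul_of_nonneg_right ?_ (mul_nonneg rn hS)
    refine div_le_div_of_nonneg_right ?_ hr0.le
    rw [div_le_iff₀ hr0]
    have a2 : (n : ℝ) * ((n - 1) / 2) ≤ n * 5.5 := mul_le_mul_of_nonneg_left (by linarith) hn0
    have a3 : (0.009 : ℝ) * 6000 ≤ 0.01 * κ * ‖x‖ := by
      have := mul_le_mul h.k1 hx.r0 (by norm_num) hκ.le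
      nlinarith
    have a4 : (n : ℝ) * (0.009 * 6000) ≤ n * (0.01 * κ * ‖x‖) := mul_le_mul_of_nonneg_left a3 hn0
    nlinarith
  rw [e5] at e4
  have e7 : 0 ≤ κ / ‖x‖ * (ri n x * Sx D κ p 1 x) := by positivity
  have e8 : -((1.04 * n) * κ / ‖x‖) * (ri n x * Sx D κ p 1 x) =
      -(1.03 * n * κ / ‖x‖) * (ri n x * Sx D κ p 1 x) -
        (0.01 * n) * κ / ‖x‖ * (ri n x * Sx D κ p 1 x) := by ring
  rw [e8]
  linarith

/-- the same for `O^-` -/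
theorem Lx_riOm_ge (n : ℕ) (hn : n ≤ 12) (h : MPar κ Q p 1) (hx : XFar D x) :
    -((1.31 * n) * κ / ‖x‖) * (ri n x * Ox D κ p 1 x) ≤
      Lx D Q κ (fun y => ri n y * Ox D κ p 1 y) x := by
  have hr := hx.reg
  have hr0 := hx.rpos
  have hD := hx.Dpos
  have hκ := h.kpos
  rw [Lx_riO n (mem_Ud hx)]
  have rn := (ri_pos n hr0).le
  have hO := Ox_nonneg h hr
  have hL : 0 ≤ Lx D Q κ (Ox D κ p 1) x :=
    le_trans (mul_nonneg (epsm_nonneg h hr.rm) hO) (Lx_Ox_ge h hr)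
  have e1 : 0 ≤ ri n x * Lx D Q κ (Ox D κ p 1) x := mul_nonneg rn hL
  have hri : ri (n + 2) x = ri n x / ‖x‖ ^ 2 := by
    rw [show n + 2 = (n + 1) + 1 from rfl, ri_succ, ri_succ, div_div, sq]
  have hn' : (n : ℝ) ≤ 12 := by exact_mod_cast hn
  have hn0 : (0 : ℝ) ≤ n := Nat.cast_nonneg n
  have e2 : Del D κ p 1 x * ‖x‖ ^ 2 ≤ 1.3 * κ / ‖x‖ * Ox D κ p 1 x * ‖x‖ ^ 2 :=
    mul_le_mul_of_nonneg_right (Del_le h hx) (by positivity)
  have e3 : 0 ≤ Sig D κ p 1 x * (D * x 2) :=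
    mul_nonneg (Sig_nonneg h hr) (mul_nonneg hD.le hx.z0)
  have e4 : n * ri (n + 2) x * (-(1.3 * κ / ‖x‖ * Ox D κ p 1 x * ‖x‖ ^ 2)) ≤
      n * ri (n + 2) x * (-(Del D κ p 1 x * ‖x‖ ^ 2) + Sig D κ p 1 x * (D * x 2)) := by
    refine mul_le_mul_of_nonneg_left (by linarith) ?_
    exact mul_nonneg hn0 (ri_pos _ hr0).le
  have e5 : n * ri (n + 2) x * (-(1.3 * κ / ‖x‖ * Ox D κ p 1 x * ‖x‖ ^ 2)) =
      -(1.3 * n * κ / ‖x‖) * (ri n x * Ox D κ p 1 x) := by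
    rw [hri]; field_simp
  have e6 : (n * (n - 1)) / 2 * ri (n + 2) x * Ox D κ p 1 x ≤
      (0.01 * n) * κ / ‖x‖ * (ri n x * Ox D κ p 1 x) := by
    rw [hri]
    have a1 : (n * (n - 1)) / 2 * (ri n x / ‖x‖ ^ 2) * Ox D κ p 1 x =
        ((n * ((n - 1) / 2)) / ‖x‖) / ‖x‖ * (ri n x * Ox D κ p 1 x) := by
      field_simp
    rw [a1]
    refine mul_le_mul_of_nonneg_right ?_ (mul_nonneg rn hO)
    refine div_le_div_of_nonneg_right ?_ hr0.le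
    rw [div_le_iff₀ hr0]
    have a2 : (n : ℝ) * ((n - 1) / 2) ≤ n * 5.5 := mul_le_mul_of_nonneg_left (by linarith) hn0
    have a3 : (0.009 : ℝ) * 6000 ≤ 0.01 * κ * ‖x‖ := by
      have := mul_le_mul h.k1 hx.r0 (by norm_num) hκ.le
      nlinarith
    have a4 : (n : ℝ) * (0.009 * 6000) ≤ n * (0.01 * κ * ‖x‖) := mul_le_mul_of_nonneg_left a3 hn0
    nlinarith
  rw [e5] at e4
  have e8 : -((1.31 * n) * κ / ‖x‖) * (ri n x * Ox D κ p 1 x) =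
      -(1.3 * n * κ / ‖x‖) * (ri n x * Ox D κ p 1 x) -
        (0.01 * n) * κ / ‖x‖ * (ri n x * Ox D κ p 1 x) := by ring
  rw [e8]
  linarith

/-- lower barriers: `L(r⁻ⁿ S^+) ≤ 0` -/
theorem Lx_riSp_le (n : ℕ) (h : MPar κ Q p (-1)) (hx : XFar D x) :
    Lx D Q κ (fun y => ri n y * Sx D κ p (-1) y) x ≤
      -(κ / 16 * (√‖x‖)⁻¹ ^ 3) * (ri n x * Sx D κ p (-1) x) := by
  have hr := hx.reg
  have hr0 := hx.rpos
  have hD := hx.Dpos
  have hκ := h.kpos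
  rw [Lx_riS n (mem_Ud hx)]
  have rn := (ri_pos n hr0).le
  have hS := (Sx_pos h hr).le
  have e1 : ri n x * Lx D Q κ (Sx D κ p (-1)) x ≤
      ri n x * (-(κ / 16 * (√‖x‖)⁻¹ ^ 3) * Sx D κ p (-1) x) :=
    mul_le_mul_of_nonneg_left (Lx_Sp_le h hx) rn
  have hn0 : (0 : ℝ) ≤ n := Nat.cast_nonneg n
  -- `x·∇S ≤ 0`
  have hDz : D * x 2 ≤ ‖x‖ ^ 2 := by
    have h1 : x 2 ≤ ‖x‖ := (le_abs_self _).trans (by simpa using PiLp.norm_apply_le x 2)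
    have h2 : D ≤ ‖x‖ := by linarith [hx.r1, hx.D1]
    calc D * x 2 ≤ ‖x‖ * ‖x‖ := mul_le_mul h2 h1 hx.z0 (norm_nonneg _)
      _ = ‖x‖ ^ 2 := by ring
  have hDS : Del D κ p (-1) x ≤ Sig D κ p (-1) x := by
    unfold Del Sig
    have := Dm_pos h hr.rm
    have h4 := hr.rm
    have : 0 ≤ Dm κ p (-1) ‖x - nuc (-D)‖ / ‖x - nuc (-D)‖ := by positivity
    linarith
  have e2 : -(Sig D κ p (-1) x * ‖x‖ ^ 2) + Del D κ p (-1) x * (D * x 2) ≤ 0 := by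
    have a1 : Del D κ p (-1) x * (D * x 2) ≤ Sig D κ p (-1) x * ‖x‖ ^ 2 :=
      mul_le_mul hDS hDz (mul_nonneg hD.le hx.z0) (Sig_nonneg h hr)
    linarith
  have e3 : n * ri (n + 2) x * (-(Sig D κ p (-1) x * ‖x‖ ^ 2) + Del D κ p (-1) x * (D * x 2)) ≤ 0 :=
    mul_nonpos_of_nonneg_of_nonpos (mul_nonneg hn0 (ri_pos _ hr0).le) e2
  have e4 : 0 ≤ (n * (n - 1)) / 2 * ri (n + 2) x * Sx D κ p (-1) x := by
    have a1 : (0 : ℝ) ≤ n * (n - 1) := by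
      rcases Nat.eq_zero_or_pos n with h0 | h0
      · simp [h0]
      · have : (1 : ℝ) ≤ n := by exact_mod_cast h0
        exact mul_nonneg hn0 (by linarith)
    exact mul_nonneg (mul_nonneg (by linarith) (ri_pos _ hr0).le) hS
  have e5 : ri n x * (-(κ / 16 * (√‖x‖)⁻¹ ^ 3) * Sx D κ p (-1) x) =
      -(κ / 16 * (√‖x‖)⁻¹ ^ 3) * (ri n x * Sx D κ p (-1) x) := by ring
  linarith

end bounds

end Crest.Agent.R335
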