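import Crest.Agent.R335.CDefs
import Crest.Agent.R335.XForced

/-!
Row 335 (S0521), Part C, C.4: the explicit barrier.
-/

set_option autoImplicit false

open MeasureTheory Filter Set Crest.MathPhysics.ThreeBody
open scoped ENNReal Topology ContDiff

noncomputable section
namespace Crest.Agent.R335

/-- `A1 S^-_{κn,2} + A2 (λ/om²) r⁻⁴ S^-_{κ,2(1-λ)}` -/
def fU (D κn κ lam om0 A1 A2 : ℝ) (x : Pos3) : ℝ :=
  A1 * Sx D κn (2 / κn - 1) 1 x +
    A2 * (lam / om0 ^ 2) * (ri 4 x * Sx D κ (2 * (1 - lam) / κ - 1) 1 x)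

/-- the barrier `b = (1 + 4 Q (2 - e^{-z})) fU` -/
def bU (Q D κn κ lam om0 A1 A2 : ℝ) (x : Pos3) : ℝ :=
  (1 + 4 * Q * (2 - Real.exp (-x 2))) * fU D κn κ lam om0 A1 A2 x

end Crest.Agent.R335
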