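import Crest.Agent.R335.PUDefs
import Crest.Agent.R335.CIfaceX

/-!
Row 335 (S0521), Part C, C.4: calculus of the barrier (statements with `sorry`, namespace
`...R335.PUI`; `PUI.xxx` is to be proved as `Crest.Agent.R335.PU.xxx`).
-/

set_option autoImplicit false
set_option linter.unusedVariables false

open MeasureTheory Filter Set Crest.MathPhysics.ThreeBody
open scoped ENNReal Topology ContDiff

noncomputable section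
namespace Crest.Agent.R335.PUI
open Crest.Agent.R335

/-- (module PUBulk) the barrier is small with respect to `O^+` away from the plane -/
theorem bulk {D A1 A2 om0 h ε : ℝ} (hD : 4 ≤ D) (hA1 : 0 ≤ A1) (hA2 : 0 ≤ A2) (ho : 0 < om0)
    (hh : 0 < h) (hε : 0 < ε) :
    ∃ R : ℝ, ∀ κ κn lam : ℝ, 0 ≤ lam → lam ≤ 1 / 100 → 9 / 10 ≤ κ → κ + om0 / 5 ≤ κn →
      κn ≤ 11 / 10 → ∀ x : Pos3, R ≤ ‖x‖ → h ≤ x 2 →
        fU D κn κ lam om0 A1 A2 x ≤ ε / ‖x‖ * CX.OO D κ (2 * (1 - lam)) 1 x := sorry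

/-- (module PUSlab) the barrier in the slab -/
theorem slab : ∃ C : ℝ, 1 ≤ C ∧ ∀ D A1 A2 om0 κ κn lam : ℝ, 4 ≤ D → 0 ≤ A1 → 0 ≤ A2 → 0 < om0 →
    0 ≤ lam → lam ≤ 1 / 100 → 9 / 10 ≤ κ → κ ≤ 11 / 10 → 9 / 10 ≤ κn → κn ≤ 11 / 10 →
    ∀ x : Pos3, 2 * D + D ^ 2 + 200 ≤ ‖x‖ → |x 2| ≤ 1 →
      fU D κn κ lam om0 A1 A2 x ≤ C * (A1 * CX.EE κn 2 1 ‖x‖ +
        A2 * (lam / om0 ^ 2 / ‖x‖ ^ 4) * CX.EE κ (2 * (1 - lam)) 1 ‖x‖) := sorry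

/-- (module PUSlab) the barrier dominates `s2` up to the `z`-term -/
theorem s2_le {cg C0 D : ℝ} {B : OBD cg C0 D} {P K1 K2 R1 lam κ κS κT : ℝ}
    {s s1 s2 F w0 X sig : Pos3 → ℝ} {gs gs1 gs2 gF : Pos3 → Pos3}
    (h : COut B P K1 K2 R1 lam κ κS κT s s1 s2 F w0 X sig gs gs1 gs2 gF) (hD : 4 ≤ D)
    (hP : 0 ≤ P) (hl : lam ≤ 1 / 100) (hR : D + 200 ≤ R1) {κn : ℝ} (h1 : 9 / 10 ≤ κn)
    (h2 : κn ≤ κS) (h3 : κn ≤ κT) :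
    ∀ᵐ x, x ∈ UpExt R1 → s2 x ≤ fU D κn κ lam B.om (2 * P) P x +
      P * (lam / B.om) * (x 2 / ‖x‖ ^ 3) * CX.OO D κ (2 * (1 - lam)) (-1) x := sorry

end Crest.Agent.R335.PUI
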