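import Crest.Agent.R335.SyId

/-!
Row 335 (S0521), interacting side, section 3.6 (helper759): weak inequality of the weighted norm
`N = |e^{a w} Γ|` of the remainder of a channel function (kato_core).
-/

set_option autoImplicit false
set_option linter.unusedSectionVars false

open MeasureTheory Filter Set Crest.MathPhysics.ThreeBody
open scoped ENNReal Topology ContDiff

noncomputable section
namespace Crest.Agent.R335
namespace Sy

/-! ### exchange of the ion electrons -/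

theorem perm12_jn (X : Pos3) (ξ : Y2) :
    permConfig (Equiv.swap 1 2) (jn p9 X ξ) = jn p9 X (sxi ξ) := by
  ext ⟨i, c⟩
  simp only [permConfig]
  fin_cases i
  · rfl
  · simp only [jn_apply]
    change (Sum.elim (fun k => X k) (fun k => ξ k)) (p9 (Equiv.swap (1 : Fin 3) 2 1, c)) =
      (Sum.elim (fun k => X k) fun k => sxi ξ k) (p9 (1, c))
    rw [Equiv.swap_apply_left]
    change ξ (1, c) = sxi ξ (0, c)
    rw [sxi_apply]
    rfl
  · simp only [jn_apply]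
    change (Sum.elim (fun k => X k) (fun k => ξ k)) (p9 (Equiv.swap (1 : Fin 3) 2 2, c)) =
      (Sum.elim (fun k => X k) fun k => sxi ξ k) (p9 (2, c))
    rw [Equiv.swap_apply_right]
    change ξ (0, c) = sxi ξ (1, c)
    rw [sxi_apply]
    rfl

theorem el_sxi0 (ξ : Y2) : el 0 (sxi ξ) = el 1 ξ := by
  ext c; simp only [el, sxi_apply]; rfl

theorem el_sxi1 (ξ : Y2) : el 1 (sxi ξ) = el 0 ξ := by
  ext c; simp only [el, sxi_apply]; rfl

theorem wi_sxi (ξ : Y2) : wi (sxi ξ) = wi ξ := by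
  unfold wi; rw [el_sxi0, el_sxi1]; ring

theorem sxi_rxi (ξ : Y2) : sxi (rxi ξ) = rxi (sxi ξ) := by
  ext jc
  simp only [sxi_apply, rxi_apply]

theorem cR_sxi {σ π : ℝ} {Φ : Y2 → ℝ} (hs : ∀ ξ, Φ (sxi ξ) = σ * Φ ξ) {Y : Config3 → ℝ}
    (hex : ∀ x, Y (permConfig (Equiv.swap 1 2) x) = σ * Y x) (X : Pos3) (ξ : Y2) :
    cR π Φ Y (jn p9 X (sxi ξ)) = σ * cR π Φ Y (jn p9 X ξ) := by
  unfold cR Yp
  rw [r12_jn, r12_jn, ← sxi_rxi, ← perm12_jn, ← perm12_jn, hex, hex]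
  simp only [perm12_jn, pr1_jn, pr2_jn, hs]
  ring

/-! ### the fibre quantities -/

/-- integrand on `ℝ⁹` -/
def Gt (D lam En a : ℝ) (Y U : Config3 → ℝ) (dU : Config3 → Config3) (x : Config3) : ℝ :=
  (1 / 2) * ‖pr2 p9 (dU x)‖ ^ 2 + (V0 D lam x - En - a ^ 2 / 2 * ‖gr w9 x‖ ^ 2) * U x ^ 2 +
    lam * (W9 x * (ew a x * Y x * U x))

/-- `⟨Φ, W_X Y(X)⟩` -/
def WY (Φ : Y2 → ℝ) (Y : Config3 → ℝ) (X : Pos3) : ℝ := ∫ ξ, WX X ξ * (Φ ξ * Y (jn p9 X ξ))

/-- coupling of the fibre -/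
def Tf (a : ℝ) (Φ : Y2 → ℝ) (Y U : Config3 → ℝ) (X : Pos3) : ℝ :=
  (∫ ξ, WX X ξ * (Real.exp (a * wi ξ) * Y (jn p9 X ξ) * U (jn p9 X ξ))) -
    cF (wΦ a Φ) U X * WY Φ Y X

theorem W9_jn (X : Pos3) (ξ : Y2) : W9 (jn p9 X ξ) = WX X ξ := by
  unfold W9; rw [pr1_jn, pr2_jn]

theorem V0_jn (D lam : ℝ) (X : Pos3) (ξ : Y2) :
    V0 D lam (jn p9 X ξ) = V2 D X + Vion D lam ξ := by
  unfold V0; rw [pr1_jn, pr2_jn]

theorem int_grw {a : ℝ} {U : Config3 → ℝ} (hU : MemLp U 2 volume) :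
    Integrable (fun x => a ^ 2 / 2 * ‖gr w9 x‖ ^ 2 * U x ^ 2) := by
  have iE := hU.integrable_sq
  refine (iE.const_mul (a ^ 2 / 2)).bdd_mul (c := 4)
    (f := fun x => ‖gr w9 x‖ ^ 2) ((HL.measurable_gr w9).norm.pow_const 2).aestronglyMeasurable
    (Eventually.of_forall fun x => ?_) |>.congr (Eventually.of_forall fun x => ?_)
  · rw [Real.norm_of_nonneg (sq_nonneg _)]
    nlinarith [gr_w9_le x, norm_nonneg (gr w9 x)]
  · simp only; ring

theorem int_Gt {D lam En a : ℝ} {Y U : Config3 → ℝ} {dU : Config3 → Config3}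
    (hwY : ∃ d, H1 (fun x => ew a x * Y x) d) (hU : H1 U dU) :
    Integrable (Gt D lam En a Y U dU) := by
  obtain ⟨C, hC⟩ := fb_V0 D lam
  obtain ⟨C', hC'⟩ := fb_W9
  obtain ⟨d, hwY⟩ := hwY
  have h1 : Integrable (fun x => (1 / 2) * ‖pr2 p9 (dU x)‖ ^ 2) :=
    ((memLp_pr2 p9 hU.memg).norm.integrable_sq).const_mul _
  have h2 := hC.int U dU hU
  have h3 := (hU.memf.integrable_sq).const_mul En
  have h4 := int_grw (a := a) hU.memf
  have h5 := (hC'.int2 hwY hU).const_mul lam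
  refine (((h1.add ((h2.sub h3).sub h4)).add h5)).congr (Eventually.of_forall fun x => ?_)
  simp only [Pi.add_apply, Pi.sub_apply, Gt]
  ring

theorem int_T2 {a : ℝ} {Φ : Y2 → ℝ} {dΦ : Y2 → Y2} (hΦ : H1 Φ dΦ)
    (hwΦ : ∃ d, H1 (wΦ a Φ) d) {Y U : Config3 → ℝ} {dY dU : Config3 → Config3}
    (hY : H1 Y dY) (hU : H1 U dU) :
    Integrable (fun x => W9 x * (Y x * tn p9 (cF (wΦ a Φ) U) Φ x)) := by
  obtain ⟨C', hC'⟩ := fb_W9
  obtain ⟨d, hwΦ⟩ := hwΦ
  exact hC'.int2 hY (tn_H1 p9 (cF_H1 hU hwΦ.memf) hΦ)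

theorem T2_fibre (a : ℝ) (Φ : Y2 → ℝ) (Y U : Config3 → ℝ) (X : Pos3) :
    ∫ ξ, (fun x => W9 x * (Y x * tn p9 (cF (wΦ a Φ) U) Φ x)) (jn p9 X ξ) =
      cF (wΦ a Φ) U X * WY Φ Y X := by
  unfold WY
  rw [← integral_const_mul]
  refine integral_congr_ae (Eventually.of_forall fun ξ => ?_)
  simp only [W9_jn, tn, pr1_jn, pr2_jn]
  ring

/-- the fibre function `q` -/
def qf (D lam En a : ℝ) (Φ : Y2 → ℝ) (Y U : Config3 → ℝ) (dU : Config3 → Config3) (X : Pos3) :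
    ℝ :=
  (∫ ξ, Gt D lam En a Y U dU (jn p9 X ξ)) - lam * (cF (wΦ a Φ) U X * WY Φ Y X)

theorem int_qf {D lam En a : ℝ} {Φ : Y2 → ℝ} {dΦ : Y2 → Y2} (hΦ : H1 Φ dΦ)
    (hwΦ : ∃ d, H1 (wΦ a Φ) d) {Y U : Config3 → ℝ} {dY dU : Config3 → Config3}
    (hY : H1 Y dY) (hwY : ∃ d, H1 (fun x => ew a x * Y x) d) (hU : H1 U dU) :
    Integrable (qf D lam En a Φ Y U dU) := by
  have h1 := int_jn_left p9 (int_Gt (D := D) (lam := lam) (En := En) hwY hU)
  have h2 := int_jn_left p9 (int_T2 hΦ hwΦ hY hU)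
  have h3 := h1.sub (h2.const_mul lam)
  refine h3.congr (Eventually.of_forall fun X => ?_)
  simp only [Pi.sub_apply, qf]
  congr 2
  exact T2_fibre a Φ Y U X

/-- the identity in the form needed by `kato_gen` -/
theorem core_EL {D lam En σ e π a : ℝ} (ha : 0 ≤ a) (hπ : π = 1 ∨ π = -1)
    {Y : Config3 → ℝ} {dY : Config3 → Config3} (hY : Chan D lam En σ Y dY) {Φ : Y2 → ℝ}
    {dΦ : Y2 → Y2} (hΦ : H1 Φ dΦ) (hp : ∀ ξ, Φ (rxi ξ) = π * Φ ξ)
    (heq : ∀ k dk, H1 k dk → k2 D lam Φ dΦ k dk = e * ∫ ξ, Φ ξ * k ξ)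
    (hwY : ∃ d, H1 (fun x => ew a x * Y x) d) (hwΦ : ∃ d, H1 (wΦ a Φ) d)
    {U : Config3 → ℝ} {dU : Config3 → Config3} (hUd : ∀ x, U x = ew a x * cR π Φ Y x)
    (hU : H1 U dU) {k : Pos3 → ℝ} {l : Pos3 → Pos3} {C : ℝ} (hkm : AEStronglyMeasurable k volume)
    (hkC : ∀ x, |k x| ≤ C)
    (hK : H1 (fun x => k (pr1 p9 x) * U x)
      (fun x => k (pr1 p9 x) • dU x + U x • jn p9 (l (pr1 p9 x)) 0)) :
    (1 / 2) * (∫ x, inner ℝ (pr1 p9 (dU x))
        (k (pr1 p9 x) • pr1 p9 (dU x) + U x • l (pr1 p9 x))) +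
      ∫ X, k X * qf D lam En a Φ Y U dU X = 0 := by
  have hmain := gamma_identity ha hπ hY hΦ hp heq hwY hwΦ hUd hU hK
  obtain ⟨C0, hC0⟩ := fb_V0 D lam
  obtain ⟨C', hC'⟩ := fb_W9
  have hkm9 : AEStronglyMeasurable (fun x : Config3 => k (pr1 p9 x)) volume :=
    hkm.comp_quasiMeasurePreserving (qmp_pr1 p9)
  have hb : ∀ x : Config3, ‖k (pr1 p9 x)‖ ≤ C := fun x => by
    rw [Real.norm_eq_abs]; exact hkC _
  -- the `T2` term
  have hT2 := int_T2 hΦ hwΦ hY.h1 hU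
  have hT2k : Integrable (fun x => k (pr1 p9 x) * (W9 x * (Y x * tn p9 (cF (wΦ a Φ) U) Φ x))) :=
    hT2.bdd_mul hkm9 (Eventually.of_forall hb)
  have eT : ∫ x, W9 x * (Y x * tn p9 (cF (wΦ a Φ) (fun x => k (pr1 p9 x) * U x)) Φ x) =
      ∫ x, k (pr1 p9 x) * (W9 x * (Y x * tn p9 (cF (wΦ a Φ) U) Φ x)) := by
    refine integral_congr_ae (Eventually.of_forall fun x => ?_)
    have : cF (wΦ a Φ) (fun x => k (pr1 p9 x) * U x) (pr1 p9 x) =
        k (pr1 p9 x) * cF (wΦ a Φ) U (pr1 p9 x) := by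
      unfold cF
      rw [← integral_const_mul]
      refine integral_congr_ae (Eventually.of_forall fun ξ => ?_)
      simp only [pr1_jn]; ring
    simp only [tn]
    rw [this]; ring
  have eT' : ∫ x, k (pr1 p9 x) * (W9 x * (Y x * tn p9 (cF (wΦ a Φ) U) Φ x)) =
      ∫ X, k X * (cF (wΦ a Φ) U X * WY Φ Y X) := by
    rw [I.integral_jn p9 hT2k]
    refine integral_congr_ae (Eventually.of_forall fun X => ?_)
    simp only
    rw [← T2_fibre a Φ Y U X, ← integral_const_mul]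
    refine integral_congr_ae (Eventually.of_forall fun ξ => ?_)
    simp only [pr1_jn]
  -- the `G` term
  have hG := int_Gt (D := D) (lam := lam) (En := En) hwY hU
  have hGk : Integrable (fun x => k (pr1 p9 x) * Gt D lam En a Y U dU x) :=
    hG.bdd_mul hkm9 (Eventually.of_forall hb)
  have eG : ∫ x, k (pr1 p9 x) * Gt D lam En a Y U dU x =
      ∫ X, k X * ∫ ξ, Gt D lam En a Y U dU (jn p9 X ξ) := by
    rw [I.integral_jn p9 hGk]
    refine integral_congr_ae (Eventually.of_forall fun X => ?_)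
    simp only
    rw [← integral_const_mul]
    refine integral_congr_ae (Eventually.of_forall fun ξ => ?_)
    simp only [pr1_jn]
  -- splitting of `∫ k G`
  have i1 : Integrable (fun x => k (pr1 p9 x) * ((1 / 2) * ‖pr2 p9 (dU x)‖ ^ 2)) :=
    (((memLp_pr2 p9 hU.memg).norm.integrable_sq).const_mul _).bdd_mul hkm9
      (Eventually.of_forall hb)
  have i2 : Integrable (fun x => (V0 D lam x - En - a ^ 2 / 2 * ‖gr w9 x‖ ^ 2) *
      (k (pr1 p9 x) * U x ^ 2)) := by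
    have h2 := hC0.int U dU hU
    have h3 := (hU.memf.integrable_sq).const_mul En
    have h4 := int_grw (a := a) hU.memf
    refine (((h2.sub h3).sub h4).bdd_mul hkm9 (Eventually.of_forall hb)).congr
      (Eventually.of_forall fun x => ?_)
    simp only [Pi.sub_apply]; ring
  obtain ⟨d, hwY'⟩ := hwY
  have i3 : Integrable (fun x => W9 x * (ew a x * Y x * (k (pr1 p9 x) * U x))) :=
    hC'.int2 hwY' hK
  have eS : ∫ x, k (pr1 p9 x) * Gt D lam En a Y U dU x =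
      (∫ x, k (pr1 p9 x) * ((1 / 2) * ‖pr2 p9 (dU x)‖ ^ 2)) +
      (∫ x, (V0 D lam x - En - a ^ 2 / 2 * ‖gr w9 x‖ ^ 2) * (k (pr1 p9 x) * U x ^ 2)) +
      lam * ∫ x, W9 x * (ew a x * Y x * (k (pr1 p9 x) * U x)) := by
    have i12 : Integrable (fun x => k (pr1 p9 x) * ((1 / 2) * ‖pr2 p9 (dU x)‖ ^ 2) +
      (V0 D lam x - En - a ^ 2 / 2 * ‖gr w9 x‖ ^ 2) * (k (pr1 p9 x) * U x ^ 2)) := i1.add i2
    rw [← integral_add i1 i2, ← integral_const_mul, ← integral_add i12 (i3.const_mul lam)]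
    refine integral_congr_ae (Eventually.of_forall fun x => ?_)
    simp only [Gt]; ring
  -- the gradient term
  have j1 : Integrable (fun x => inner ℝ (pr1 p9 (dU x))
      (k (pr1 p9 x) • pr1 p9 (dU x) + U x • l (pr1 p9 x))) := by
    have h1 := int_inner (memLp_pr1 p9 hU.memg) (memLp_pr1 p9 hK.memg)
    refine h1.congr (Eventually.of_forall fun x => ?_)
    simp only
    rw [pr1_add, pr1_smul, pr1_smul, pr1_jn]
  have eI : ∫ x, inner ℝ (dU x) (k (pr1 p9 x) • dU x + U x • jn p9 (l (pr1 p9 x)) 0) =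
      (∫ x, inner ℝ (pr1 p9 (dU x)) (k (pr1 p9 x) • pr1 p9 (dU x) + U x • l (pr1 p9 x))) +
      2 * ∫ x, k (pr1 p9 x) * ((1 / 2) * ‖pr2 p9 (dU x)‖ ^ 2) := by
    rw [← integral_const_mul, ← integral_add j1 (i1.const_mul 2)]
    refine integral_congr_ae (Eventually.of_forall fun x => ?_)
    simp only
    rw [inner_jn p9, pr1_add, pr1_smul, pr1_smul, pr1_jn, pr2_add, pr2_smul, pr2_smul, pr2_jn,
      smul_zero, add_zero, inner_smul_right (pr2 p9 (dU x)), real_inner_self_eq_norm_sq]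
    ring
  have eq : ∫ X, k X * qf D lam En a Φ Y U dU X =
      (∫ X, k X * ∫ ξ, Gt D lam En a Y U dU (jn p9 X ξ)) -
        lam * ∫ X, k X * (cF (wΦ a Φ) U X * WY Φ Y X) := by
    have k1 : Integrable (fun X => k X * ∫ ξ, Gt D lam En a Y U dU (jn p9 X ξ)) := by
      refine (int_jn_left p9 hG).bdd_mul hkm (c := C) (Eventually.of_forall fun x => ?_)
      rw [Real.norm_eq_abs]; exact hkC _
    have k2 : Integrable (fun X => k X * (cF (wΦ a Φ) U X * WY Φ Y X)) := by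
      have h0 : Integrable (fun X => cF (wΦ a Φ) U X * WY Φ Y X) := by
        refine (int_jn_left p9 hT2).congr (Eventually.of_forall fun X => ?_)
        exact T2_fibre a Φ Y U X
      refine h0.bdd_mul hkm (c := C) (Eventually.of_forall fun x => ?_)
      rw [Real.norm_eq_abs]; exact hkC _
    rw [← integral_const_mul, ← integral_sub k1 (k2.const_mul lam)]
    refine integral_congr_ae (Eventually.of_forall fun X => ?_)
    simp only [qf]; ring
  rw [eT, eT', eI] at hmain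
  rw [eq, ← eG, eS]
  linarith

end Sy
end Crest.Agent.R335
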