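import Crest.Agent.R335.SyTh

/-!
Row 335 (S0521), interacting side, section 3.6 (helper759): the coupling terms on the fibre.
-/

set_option autoImplicit false
set_option linter.unusedSectionVars false

open MeasureTheory Filter Set Crest.MathPhysics.ThreeBody
open scoped ENNReal Topology ContDiff

noncomputable section
namespace Crest.Agent.R335
namespace Sy

/-- `L²` norm on the fibre -/
def nY (f : Y2 → ℝ) : ℝ := √(∫ ξ, f ξ ^ 2)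

theorem nY_nonneg (f : Y2 → ℝ) : 0 ≤ nY f := Real.sqrt_nonneg _

theorem cs_nY {f g : Y2 → ℝ} (hf : MemLp f 2 volume) (hg : MemLp g 2 volume) :
    |∫ ξ, f ξ * g ξ| ≤ nY f * nY g := cs_abs hf hg

theorem continuous_exp_wi (a : ℝ) : Continuous fun ξ : Y2 => Real.exp (a * wi ξ) :=
  Real.continuous_exp.comp (continuous_const.mul Mult.continuous_wi)

theorem one_le_exp_wi {a : ℝ} (ha : 0 ≤ a) (ξ : Y2) : 1 ≤ Real.exp (a * wi ξ) :=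
  Real.one_le_exp (mul_nonneg ha (by linarith [two_le_wi ξ]))

/-- the negative weight -/
def em (a : ℝ) (f : Y2 → ℝ) (ξ : Y2) : ℝ := Real.exp (-(a * wi ξ)) * f ξ
/-- the positive weight -/
def ep (a : ℝ) (f : Y2 → ℝ) (ξ : Y2) : ℝ := Real.exp (a * wi ξ) * f ξ

theorem aesm_of_ep {a : ℝ} {f : Y2 → ℝ} (h : AEStronglyMeasurable (ep a f) volume) :
    AEStronglyMeasurable f volume := by
  have h1 : Continuous fun ξ : Y2 => Real.exp (-(a * wi ξ)) :=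
    Real.continuous_exp.comp (continuous_const.mul Mult.continuous_wi).neg
  refine (h1.aestronglyMeasurable.mul h).congr (Eventually.of_forall fun ξ => ?_)
  simp only [Pi.mul_apply, ep]
  rw [← mul_assoc, ← Real.exp_add, neg_add_cancel, Real.exp_zero, one_mul]

theorem em_le {a : ℝ} (ha : 0 ≤ a) (ξ : Y2) : Real.exp (-(a * wi ξ)) ≤ 1 :=
  Real.exp_le_one_iff.2 (by
    have : 0 ≤ a * wi ξ := mul_nonneg ha (by linarith [two_le_wi ξ])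
    linarith)

theorem abs_em_le {a : ℝ} (ha : 0 ≤ a) (f : Y2 → ℝ) (ξ : Y2) : |em a f ξ| ≤ |f ξ| := by
  unfold em
  rw [abs_mul, abs_of_pos (Real.exp_pos _)]
  exact mul_le_of_le_one_left (abs_nonneg _) (em_le ha ξ)

theorem abs_le_ep {a : ℝ} (ha : 0 ≤ a) (f : Y2 → ℝ) (ξ : Y2) : |f ξ| ≤ |ep a f ξ| := by
  unfold ep
  rw [abs_mul, abs_of_pos (Real.exp_pos _)]
  exact le_mul_of_one_le_left (abs_nonneg _) (one_le_exp_wi ha ξ)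

theorem memLp_of_ep {a : ℝ} (ha : 0 ≤ a) {f : Y2 → ℝ} (h : MemLp (ep a f) 2 volume) :
    MemLp f 2 volume :=
  h.of_le (aesm_of_ep h.1) (Eventually.of_forall fun ξ => by
    simpa only [Real.norm_eq_abs] using abs_le_ep ha f ξ)

theorem memLp_em {a : ℝ} (ha : 0 ≤ a) {f : Y2 → ℝ} (h : MemLp f 2 volume) :
    MemLp (em a f) 2 volume := by
  have h1 : Continuous fun ξ : Y2 => Real.exp (-(a * wi ξ)) :=
    Real.continuous_exp.comp (continuous_const.mul Mult.continuous_wi).neg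
  exact h.of_le (h1.aestronglyMeasurable.mul h.1) (Eventually.of_forall fun ξ => by
    simpa only [Real.norm_eq_abs] using abs_em_le ha f ξ)

theorem nY_mono {f g : Y2 → ℝ} (hg : MemLp g 2 volume) (h : ∀ ξ, |f ξ| ≤ |g ξ|) :
    nY f ≤ nY g := by
  refine Real.sqrt_le_sqrt ?_
  refine integral_mono_of_nonneg (Eventually.of_forall fun _ => sq_nonneg _) hg.integrable_sq
    (Eventually.of_forall fun ξ => ?_)
  exact sq_le_sq.2 (h ξ)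

theorem nY_le_ep {a : ℝ} (ha : 0 ≤ a) {f : Y2 → ℝ} (h : MemLp (ep a f) 2 volume) :
    nY f ≤ nY (ep a f) := nY_mono h (abs_le_ep ha f)

theorem nY_em_le {a : ℝ} (ha : 0 ≤ a) {f : Y2 → ℝ} (h : MemLp f 2 volume) :
    nY (em a f) ≤ nY f := nY_mono h (abs_em_le ha f)

/-- the parity splitting of the coupling -/
theorem split {π F F' : ℝ} (hπ : π = 1 ∨ π = -1) (X : Pos3) {A B A' B' k : Y2 → ℝ}
    (hA : ∃ d, H1 A d) (hB : ∃ d, H1 B d) (hA' : ∃ d, H1 A' d) (hB' : ∃ d, H1 B' d)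
    (hk : MemLp k 2 volume) (pA' : ∀ ξ, A' (rxi ξ) = -π * A' ξ)
    (pB' : ∀ ξ, B' (rxi ξ) = -π * B' ξ) (pk : ∀ ξ, k (rxi ξ) = π * k ξ) :
    ∫ ξ, WX X ξ * ((F * A ξ + B ξ + (F' * A' ξ + B' ξ)) * k ξ) =
      F * (∫ ξ, (WX X ξ * A ξ) * k ξ) + (∫ ξ, (WX X ξ * B ξ) * k ξ) +
        (F' * (∫ ξ, (Wm X ξ * A' ξ) * k ξ) + ∫ ξ, (Wm X ξ * B' ξ) * k ξ) := by
  obtain ⟨_, hA⟩ := hA
  obtain ⟨_, hB⟩ := hB
  obtain ⟨_, hA'⟩ := hA'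
  obtain ⟨_, hB'⟩ := hB'
  have hpp : π * π = 1 := by rcases hπ with h | h <;> rw [h] <;> norm_num
  have j1 := (int_mul2 (VS.memLp_WX hA X) hk).const_mul F
  have j2 := int_mul2 (VS.memLp_WX hB X) hk
  have j3 := (int_mul2 (VS.memLp_Wm hA' X) hk).const_mul F'
  have j4 := int_mul2 (VS.memLp_Wm hB' X) hk
  have j5 := (int_mul2 (VS.memLp_Wp hA' X) hk).const_mul F'
  have j6 := int_mul2 (VS.memLp_Wp hB' X) hk
  have ho : ∫ ξ, (F' * ((Wp X ξ * A' ξ) * k ξ) + (Wp X ξ * B' ξ) * k ξ) = 0 := by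
    refine VS.int_odd fun ξ => ?_
    rw [VS.Wp_rxi, pA', pB', pk]
    linear_combination (-(F' * ((Wp X ξ * A' ξ) * k ξ) + (Wp X ξ * B' ξ) * k ξ)) * hpp
  have i12 : Integrable (fun ξ => F * ((WX X ξ * A ξ) * k ξ) + (WX X ξ * B ξ) * k ξ) := j1.add j2
  have i34 : Integrable (fun ξ => F' * ((Wm X ξ * A' ξ) * k ξ) + (Wm X ξ * B' ξ) * k ξ) :=
    j3.add j4
  have i56 : Integrable (fun ξ => F' * ((Wp X ξ * A' ξ) * k ξ) + (Wp X ξ * B' ξ) * k ξ) :=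
    j5.add j6
  have i1234 : Integrable (fun ξ => (F * ((WX X ξ * A ξ) * k ξ) + (WX X ξ * B ξ) * k ξ) +
      (F' * ((Wm X ξ * A' ξ) * k ξ) + (Wm X ξ * B' ξ) * k ξ)) := i12.add i34
  have e : ∀ ξ, WX X ξ * ((F * A ξ + B ξ + (F' * A' ξ + B' ξ)) * k ξ) =
      ((F * ((WX X ξ * A ξ) * k ξ) + (WX X ξ * B ξ) * k ξ) +
      (F' * ((Wm X ξ * A' ξ) * k ξ) + (Wm X ξ * B' ξ) * k ξ)) +
      (F' * ((Wp X ξ * A' ξ) * k ξ) + (Wp X ξ * B' ξ) * k ξ) := by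
    intro ξ
    rw [← VS.Wp_add_Wm]; ring
  simp only [e]
  rw [integral_add i1234 i56, ho, add_zero, integral_add i12 i34, integral_add j1 j2,
    integral_add j3 j4, integral_const_mul, integral_const_mul]

/-- data of the fibre at `X` -/
structure Fib (a π : ℝ) (Φ Γ Φ' Γ' : Y2 → ℝ) : Prop where
  a0 : 0 ≤ a
  hπ : π = 1 ∨ π = -1
  hp : ∃ d, H1 (ep a Φ) d
  hg : ∃ d, H1 (ep a Γ) d
  hp' : ∃ d, H1 (ep a Φ') d
  hg' : ∃ d, H1 (ep a Γ') d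
  pp : ∀ ξ, Φ (rxi ξ) = π * Φ ξ
  pg : ∀ ξ, Γ (rxi ξ) = π * Γ ξ
  pp' : ∀ ξ, Φ' (rxi ξ) = -π * Φ' ξ
  pg' : ∀ ξ, Γ' (rxi ξ) = -π * Γ' ξ
  nrm : (∫ ξ, Φ ξ ^ 2 = 1) ∨ (∀ ξ, Φ ξ = 0)
  orth : ∫ ξ, Φ ξ * Γ ξ = 0
  p2 : nY (ep a Φ) ≤ 2

namespace Fib
variable {a π F F' : ℝ} {Φ Γ Φ' Γ' : Y2 → ℝ} (h : Fib a π Φ Γ Φ' Γ')
include h

theorem mp : MemLp (ep a Φ) 2 volume := by obtain ⟨_, h⟩ := h.hp; exact h.memf
theorem mg : MemLp (ep a Γ) 2 volume := by obtain ⟨_, h⟩ := h.hg; exact h.memf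
theorem mp' : MemLp (ep a Φ') 2 volume := by obtain ⟨_, h⟩ := h.hp'; exact h.memf
theorem mg' : MemLp (ep a Γ') 2 volume := by obtain ⟨_, h⟩ := h.hg'; exact h.memf

theorem Wmp (X : Pos3) : MemLp (fun ξ => WX X ξ * ep a Φ ξ) 2 volume := by
  obtain ⟨_, h⟩ := h.hp; exact VS.memLp_WX h X
theorem Wmg (X : Pos3) : MemLp (fun ξ => WX X ξ * ep a Γ ξ) 2 volume := by
  obtain ⟨_, h⟩ := h.hg; exact VS.memLp_WX h X
theorem Mmp (X : Pos3) : MemLp (fun ξ => Wm X ξ * ep a Φ ξ) 2 volume := by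
  obtain ⟨_, h⟩ := h.hp; exact VS.memLp_Wm h X
theorem Mmp' (X : Pos3) : MemLp (fun ξ => Wm X ξ * ep a Φ' ξ) 2 volume := by
  obtain ⟨_, h⟩ := h.hp'; exact VS.memLp_Wm h X
theorem Mmg' (X : Pos3) : MemLp (fun ξ => Wm X ξ * ep a Γ' ξ) 2 volume := by
  obtain ⟨_, h⟩ := h.hg'; exact VS.memLp_Wm h X

theorem Qmp (X : Pos3) (c : ℝ) : MemLp (fun ξ => (WX X ξ - c) * ep a Φ ξ) 2 volume := by
  refine ((h.Wmp X).sub (h.mp.const_mul c)).ae_eq (Eventually.of_forall fun ξ => ?_)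
  simp only [Pi.sub_apply]; ring

theorem nPhi : nY Φ ≤ 1 := by
  unfold nY
  rcases h.nrm with hn | hn
  · rw [hn, Real.sqrt_one]
  · simp [hn]

theorem nem : nY (em a Φ) ≤ 1 := (nY_em_le h.a0 (memLp_of_ep h.a0 h.mp)).trans h.nPhi

theorem nemG : nY (em a Γ) ≤ nY (ep a Γ) :=
  (nY_em_le h.a0 (memLp_of_ep h.a0 h.mg)).trans (nY_le_ep h.a0 h.mg)

theorem nemG' : nY (em a Γ') ≤ nY (ep a Γ') :=
  (nY_em_le h.a0 (memLp_of_ep h.a0 h.mg')).trans (nY_le_ep h.a0 h.mg')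

/-- the projected coupling -/
theorem WY_eq (X : Pos3) : ∫ ξ, WX X ξ * (Φ ξ * (F * Φ ξ + Γ ξ + (F' * Φ' ξ + Γ' ξ))) =
    F * (∫ ξ, WX X ξ * Φ ξ ^ 2) +
      (∫ ξ, ((WX X ξ - 2 / ‖X‖) * ep a Φ ξ) * em a Γ ξ) +
      (F' * (∫ ξ, Φ' ξ * Wm X ξ * Φ ξ) + ∫ ξ, (Wm X ξ * ep a Φ ξ) * em a Γ' ξ) := by
  have ee : ∀ ξ : Y2, Real.exp (a * wi ξ) * Real.exp (-(a * wi ξ)) = 1 := fun ξ => by
    rw [← Real.exp_add, add_neg_cancel, Real.exp_zero]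
  have hs := split (F := F) (F' := F') h.hπ X h.hp h.hg h.hp' h.hg'
    (memLp_em h.a0 (memLp_of_ep h.a0 h.mp)) (fun ξ => by unfold ep; rw [wi_rxi, h.pp']; ring)
    (fun ξ => by unfold ep; rw [wi_rxi, h.pg']; ring)
    (fun ξ => by unfold em; rw [wi_rxi, h.pp]; ring)
  have e0 : ∫ ξ, WX X ξ * (Φ ξ * (F * Φ ξ + Γ ξ + (F' * Φ' ξ + Γ' ξ))) =
      ∫ ξ, WX X ξ * ((F * ep a Φ ξ + ep a Γ ξ + (F' * ep a Φ' ξ + ep a Γ' ξ)) * em a Φ ξ) := by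
    refine integral_congr_ae (Eventually.of_forall fun ξ => ?_)
    simp only [ep, em]
    linear_combination (-(WX X ξ * (Φ ξ * (F * Φ ξ + Γ ξ + (F' * Φ' ξ + Γ' ξ))))) * ee ξ
  have e1 : ∫ ξ, (WX X ξ * ep a Φ ξ) * em a Φ ξ = ∫ ξ, WX X ξ * Φ ξ ^ 2 := by
    refine integral_congr_ae (Eventually.of_forall fun ξ => ?_)
    simp only [ep, em]
    linear_combination (WX X ξ * Φ ξ ^ 2) * ee ξ
  have e2 : ∫ ξ, (WX X ξ * ep a Γ ξ) * em a Φ ξ =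
      ∫ ξ, ((WX X ξ - 2 / ‖X‖) * ep a Φ ξ) * em a Γ ξ := by
    have e3 : ∫ ξ, ((WX X ξ - 2 / ‖X‖) * ep a Φ ξ) * em a Γ ξ =
        (∫ ξ, (WX X ξ * ep a Φ ξ) * em a Γ ξ) - 2 / ‖X‖ * ∫ ξ, Φ ξ * Γ ξ := by
      rw [← integral_const_mul, ← integral_sub]
      · refine integral_congr_ae (Eventually.of_forall fun ξ => ?_)
        simp only [ep, em]
        linear_combination (-(2 / ‖X‖) * (Φ ξ * Γ ξ)) * ee ξ
      · exact int_mul2 (h.Wmp X) (memLp_em h.a0 (memLp_of_ep h.a0 h.mg))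
      · exact (int_mul2 (memLp_of_ep h.a0 h.mp) (memLp_of_ep h.a0 h.mg)).const_mul _
    rw [e3, h.orth, mul_zero, sub_zero]
    refine integral_congr_ae (Eventually.of_forall fun ξ => ?_)
    simp only [ep, em]; ring
  have e4 : ∫ ξ, (Wm X ξ * ep a Φ' ξ) * em a Φ ξ = ∫ ξ, Φ' ξ * Wm X ξ * Φ ξ := by
    refine integral_congr_ae (Eventually.of_forall fun ξ => ?_)
    simp only [ep, em]
    linear_combination (Φ' ξ * Wm X ξ * Φ ξ) * ee ξ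
  have e5 : ∫ ξ, (Wm X ξ * ep a Γ' ξ) * em a Φ ξ = ∫ ξ, (Wm X ξ * ep a Φ ξ) * em a Γ' ξ := by
    refine integral_congr_ae (Eventually.of_forall fun ξ => ?_)
    simp only [ep, em]; ring
  rw [e0, hs, e1, e2, e4, e5]

/-- bound of the projected coupling -/
theorem WY_bound (X : Pos3) {m d : ℝ}
    (hm : nY (fun ξ => (WX X ξ - 2 / ‖X‖) * ep a Φ ξ) ≤ m)
    (hd : nY (fun ξ => Wm X ξ * ep a Φ ξ) ≤ d) :
    |(∫ ξ, WX X ξ * (Φ ξ * (F * Φ ξ + Γ ξ + (F' * Φ' ξ + Γ' ξ)))) -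
      F * (∫ ξ, WX X ξ * Φ ξ ^ 2) - F' * (∫ ξ, Φ' ξ * Wm X ξ * Φ ξ)| ≤
      m * nY (ep a Γ) + d * nY (ep a Γ') := by
  rw [h.WY_eq X]
  have b1 := cs_nY (h.Qmp X (2 / ‖X‖)) (memLp_em h.a0 (memLp_of_ep h.a0 h.mg))
  have b2 := cs_nY (h.Mmp X) (memLp_em h.a0 (memLp_of_ep h.a0 h.mg'))
  have c1 : |∫ ξ, ((WX X ξ - 2 / ‖X‖) * ep a Φ ξ) * em a Γ ξ| ≤ m * nY (ep a Γ) :=
    b1.trans (mul_le_mul hm h.nemG (nY_nonneg _) ((nY_nonneg _).trans hm))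
  have c2 : |∫ ξ, (Wm X ξ * ep a Φ ξ) * em a Γ' ξ| ≤ d * nY (ep a Γ') :=
    b2.trans (mul_le_mul hd h.nemG' (nY_nonneg _) ((nY_nonneg _).trans hd))
  have e : F * (∫ ξ, WX X ξ * Φ ξ ^ 2) +
      (∫ ξ, ((WX X ξ - 2 / ‖X‖) * ep a Φ ξ) * em a Γ ξ) +
      (F' * (∫ ξ, Φ' ξ * Wm X ξ * Φ ξ) + ∫ ξ, (Wm X ξ * ep a Φ ξ) * em a Γ' ξ) -
      F * (∫ ξ, WX X ξ * Φ ξ ^ 2) - F' * (∫ ξ, Φ' ξ * Wm X ξ * Φ ξ) =
      (∫ ξ, ((WX X ξ - 2 / ‖X‖) * ep a Φ ξ) * em a Γ ξ) +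
        ∫ ξ, (Wm X ξ * ep a Φ ξ) * em a Γ' ξ := by ring
  rw [e]
  exact (abs_add_le _ _).trans (add_le_add c1 c2)

/-- the transition element -/
theorem trans_bound (X : Pos3) {d : ℝ} (hd : nY (fun ξ => Wm X ξ * ep a Φ ξ) ≤ d)
    (hn' : nY Φ' ≤ 1) : |∫ ξ, Φ' ξ * Wm X ξ * Φ ξ| ≤ d := by
  have ee : ∀ ξ : Y2, Real.exp (a * wi ξ) * Real.exp (-(a * wi ξ)) = 1 := fun ξ => by
    rw [← Real.exp_add, add_neg_cancel, Real.exp_zero]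
  have hΦ' := memLp_of_ep h.a0 h.mp'
  have b := cs_nY (h.Mmp X) (memLp_em h.a0 hΦ')
  have e : ∫ ξ, (Wm X ξ * ep a Φ ξ) * em a Φ' ξ = ∫ ξ, Φ' ξ * Wm X ξ * Φ ξ := by
    refine integral_congr_ae (Eventually.of_forall fun ξ => ?_)
    simp only [ep, em]
    linear_combination (Φ' ξ * Wm X ξ * Φ ξ) * ee ξ
  rw [e] at b
  have h1 := (nY_em_le h.a0 hΦ').trans hn'
  calc |∫ ξ, Φ' ξ * Wm X ξ * Φ ξ| ≤ _ := b
    _ ≤ d * 1 := mul_le_mul hd h1 (nY_nonneg _) ((nY_nonneg _).trans hd)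
    _ = d := mul_one d

/-- the coupling term of the inequality of `N` -/
theorem Tf_bound (X : Pos3) {m d' g' : ℝ}
    (hm : nY (fun ξ => (WX X ξ - 2 / ‖X‖) * ep a Φ ξ) ≤ m)
    (hd : nY (fun ξ => Wm X ξ * ep a Φ' ξ) ≤ d')
    (hg : nY (fun ξ => Wm X ξ * ep a Γ' ξ) ≤ g') :
    -(2 * m * nY (ep a Γ) + 3 * m * |F| + 3 * d' * |F'| + 3 * g') * nY (ep a Γ) ≤
    (∫ ξ, WX X ξ * (Real.exp (a * wi ξ) * (F * Φ ξ + Γ ξ + (F' * Φ' ξ + Γ' ξ)) * ep a Γ ξ)) -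
      (∫ ξ, ep a Φ ξ * ep a Γ ξ) *
        ∫ ξ, WX X ξ * (Φ ξ * (F * Φ ξ + Γ ξ + (F' * Φ' ξ + Γ' ξ))) := by
  have ee : ∀ ξ : Y2, Real.exp (a * wi ξ) * Real.exp (-(a * wi ξ)) = 1 := fun ξ => by
    rw [← Real.exp_add, add_neg_cancel, Real.exp_zero]
  have a0 := h.a0
  obtain ⟨β, hβ⟩ : ∃ β, β = ∫ ξ, ep a Φ ξ * ep a Γ ξ := ⟨_, rfl⟩
  obtain ⟨P, hP⟩ : ∃ P, P = nY (ep a Γ) := ⟨_, rfl⟩
  have hP0 : 0 ≤ P := hP ▸ nY_nonneg _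
  have hβP : |β| ≤ 2 * P := by
    rw [hβ, hP]
    exact (cs_nY h.mp h.mg).trans (mul_le_mul_of_nonneg_right h.p2 (nY_nonneg _))
  have hem := memLp_em a0 (memLp_of_ep a0 h.mp)
  -- splitting of the first integral
  have hs := split (F := F) (F' := F') h.hπ X h.hp h.hg h.hp' h.hg' h.mg
    (fun ξ => by unfold ep; rw [wi_rxi, h.pp']; ring)
    (fun ξ => by unfold ep; rw [wi_rxi, h.pg']; ring)
    (fun ξ => by unfold ep; rw [wi_rxi, h.pg]; ring)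
  have e0 : ∫ ξ, WX X ξ *
      (Real.exp (a * wi ξ) * (F * Φ ξ + Γ ξ + (F' * Φ' ξ + Γ' ξ)) * ep a Γ ξ) =
      ∫ ξ, WX X ξ * ((F * ep a Φ ξ + ep a Γ ξ + (F' * ep a Φ' ξ + ep a Γ' ξ)) * ep a Γ ξ) := by
    refine integral_congr_ae (Eventually.of_forall fun ξ => ?_)
    simp only [ep]; ring
  -- the even terms
  have q1 : ∫ ξ, (WX X ξ * ep a Φ ξ) * ep a Γ ξ =
      (∫ ξ, ((WX X ξ - 2 / ‖X‖) * ep a Φ ξ) * ep a Γ ξ) + 2 / ‖X‖ * β := by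
    rw [hβ, ← integral_const_mul, ← integral_add (int_mul2 (h.Qmp X _) h.mg)
      ((int_mul2 h.mp h.mg).const_mul _)]
    refine integral_congr_ae (Eventually.of_forall fun ξ => ?_)
    simp only; ring
  have q2 : ∫ ξ, WX X ξ * Φ ξ ^ 2 =
      (∫ ξ, ((WX X ξ - 2 / ‖X‖) * ep a Φ ξ) * em a Φ ξ) + 2 / ‖X‖ * ∫ ξ, Φ ξ ^ 2 := by
    rw [← integral_const_mul, ← integral_add (int_mul2 (h.Qmp X _) hem)
      ((memLp_of_ep a0 h.mp).integrable_sq.const_mul _)]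
    refine integral_congr_ae (Eventually.of_forall fun ξ => ?_)
    simp only [ep, em]
    linear_combination (-((WX X ξ - 2 / ‖X‖) * Φ ξ ^ 2)) * ee ξ
  have q3 : β * (∫ ξ, Φ ξ ^ 2) = β := by
    rcases h.nrm with hn | hn
    · rw [hn, mul_one]
    · have : β = 0 := by rw [hβ]; simp [ep, hn]
      rw [this, zero_mul]
  have q4 : ∫ ξ, Φ' ξ * Wm X ξ * Φ ξ = ∫ ξ, (Wm X ξ * ep a Φ' ξ) * em a Φ ξ := by
    refine integral_congr_ae (Eventually.of_forall fun ξ => ?_)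
    simp only [ep, em]
    linear_combination (-(Φ' ξ * Wm X ξ * Φ ξ)) * ee ξ
  have q5 : ∫ ξ, (Wm X ξ * ep a Φ ξ) * em a Γ' ξ = ∫ ξ, (Wm X ξ * ep a Γ' ξ) * em a Φ ξ := by
    refine integral_congr_ae (Eventually.of_forall fun ξ => ?_)
    simp only [ep, em]; ring
  have q6 : 0 ≤ ∫ ξ, (WX X ξ * ep a Γ ξ) * ep a Γ ξ := by
    refine integral_nonneg fun ξ => ?_
    have := Mult.WX_nonneg X ξ
    have e : (WX X ξ * ep a Γ ξ) * ep a Γ ξ = WX X ξ * (ep a Γ ξ) ^ 2 := by ring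
    simp only [Pi.zero_apply]
    rw [e]; positivity
  rw [e0, hs, h.WY_eq X, ← hβ, q1, q2, q4, q5]
  -- bounds
  have m0 : 0 ≤ m := (nY_nonneg _).trans hm
  have d0 : 0 ≤ d' := (nY_nonneg _).trans hd
  have g0 : 0 ≤ g' := (nY_nonneg _).trans hg
  have b1 : |∫ ξ, ((WX X ξ - 2 / ‖X‖) * ep a Φ ξ) * ep a Γ ξ| ≤ m * P := by
    rw [hP]
    exact (cs_nY (h.Qmp X _) h.mg).trans (mul_le_mul_of_nonneg_right hm (nY_nonneg _))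
  have b2 : |∫ ξ, ((WX X ξ - 2 / ‖X‖) * ep a Φ ξ) * em a Φ ξ| ≤ m * 1 :=
    (cs_nY (h.Qmp X _) hem).trans (mul_le_mul hm h.nem (nY_nonneg _) m0)
  have b3 : |∫ ξ, ((WX X ξ - 2 / ‖X‖) * ep a Φ ξ) * em a Γ ξ| ≤ m * P := by
    rw [hP]
    exact (cs_nY (h.Qmp X _) (memLp_em a0 (memLp_of_ep a0 h.mg))).trans
      (mul_le_mul hm h.nemG (nY_nonneg _) m0)
  have b4 : |∫ ξ, (Wm X ξ * ep a Φ' ξ) * ep a Γ ξ| ≤ d' * P := by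
    rw [hP]
    exact (cs_nY (h.Mmp' X) h.mg).trans (mul_le_mul_of_nonneg_right hd (nY_nonneg _))
  have b5 : |∫ ξ, (Wm X ξ * ep a Φ' ξ) * em a Φ ξ| ≤ d' * 1 :=
    (cs_nY (h.Mmp' X) hem).trans (mul_le_mul hd h.nem (nY_nonneg _) d0)
  have b6 : |∫ ξ, (Wm X ξ * ep a Γ' ξ) * ep a Γ ξ| ≤ g' * P := by
    rw [hP]
    exact (cs_nY (h.Mmg' X) h.mg).trans (mul_le_mul_of_nonneg_right hg (nY_nonneg _))
  have b7 : |∫ ξ, (Wm X ξ * ep a Γ' ξ) * em a Φ ξ| ≤ g' * 1 :=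
    (cs_nY (h.Mmg' X) hem).trans (mul_le_mul hg h.nem (nY_nonneg _) g0)
  obtain ⟨x1, hx1⟩ : ∃ x, x = ∫ ξ, ((WX X ξ - 2 / ‖X‖) * ep a Φ ξ) * ep a Γ ξ := ⟨_, rfl⟩
  obtain ⟨x2, hx2⟩ : ∃ x, x = ∫ ξ, ((WX X ξ - 2 / ‖X‖) * ep a Φ ξ) * em a Φ ξ := ⟨_, rfl⟩
  obtain ⟨x3, hx3⟩ : ∃ x, x = ∫ ξ, ((WX X ξ - 2 / ‖X‖) * ep a Φ ξ) * em a Γ ξ := ⟨_, rfl⟩
  obtain ⟨x4, hx4⟩ : ∃ x, x = ∫ ξ, (Wm X ξ * ep a Φ' ξ) * ep a Γ ξ := ⟨_, rfl⟩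
  obtain ⟨x5, hx5⟩ : ∃ x, x = ∫ ξ, (Wm X ξ * ep a Φ' ξ) * em a Φ ξ := ⟨_, rfl⟩
  obtain ⟨x6, hx6⟩ : ∃ x, x = ∫ ξ, (Wm X ξ * ep a Γ' ξ) * ep a Γ ξ := ⟨_, rfl⟩
  obtain ⟨x7, hx7⟩ : ∃ x, x = ∫ ξ, (Wm X ξ * ep a Γ' ξ) * em a Φ ξ := ⟨_, rfl⟩
  obtain ⟨x8, hx8⟩ : ∃ x, x = ∫ ξ, (WX X ξ * ep a Γ ξ) * ep a Γ ξ := ⟨_, rfl⟩
  obtain ⟨x9, hx9⟩ : ∃ x, x = ∫ ξ, Φ ξ ^ 2 := ⟨_, rfl⟩
  rw [← hx1] at b1 ⊢
  rw [← hx2] at b2 ⊢
  rw [← hx3] at b3 ⊢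
  rw [← hx4] at b4 ⊢
  rw [← hx5] at b5 ⊢
  rw [← hx6] at b6 ⊢
  rw [← hx7] at b7 ⊢
  rw [← hx8] at q6 ⊢
  rw [← hx9] at q3 ⊢
  rw [← hP]
  have t1 : |F * x1| ≤ |F| * (m * P) := by
    rw [abs_mul]; exact mul_le_mul_of_nonneg_left b1 (abs_nonneg _)
  have t2 : |β * (F * x2)| ≤ 2 * P * (|F| * (m * 1)) := by
    rw [abs_mul, abs_mul]
    exact mul_le_mul hβP (mul_le_mul_of_nonneg_left b2 (abs_nonneg _)) (by positivity)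
      (by positivity)
  have t3 : |β * x3| ≤ 2 * P * (m * P) := by
    rw [abs_mul]; exact mul_le_mul hβP b3 (abs_nonneg _) (by positivity)
  have t4 : |F' * x4| ≤ |F'| * (d' * P) := by
    rw [abs_mul]; exact mul_le_mul_of_nonneg_left b4 (abs_nonneg _)
  have t5 : |β * (F' * x5)| ≤ 2 * P * (|F'| * (d' * 1)) := by
    rw [abs_mul, abs_mul]
    exact mul_le_mul hβP (mul_le_mul_of_nonneg_left b5 (abs_nonneg _)) (by positivity)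
      (by positivity)
  have t7 : |β * x7| ≤ 2 * P * (g' * 1) := by
    rw [abs_mul]; exact mul_le_mul hβP b7 (abs_nonneg _) (by positivity)
  have u1 := abs_le.1 t1
  have u2 := abs_le.1 t2
  have u3 := abs_le.1 t3
  have u4 := abs_le.1 t4
  have u5 := abs_le.1 t5
  have u6 := abs_le.1 b6
  have u7 := abs_le.1 t7
  have e9 : β * (F * (x2 + 2 / ‖X‖ * x9)) = β * (F * x2) + F * (2 / ‖X‖) * β := by
    linear_combination (F * (2 / ‖X‖)) * q3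
  linarith [u1.1, u2.2, u3.2, u4.1, u5.2, u6.1, u7.2, q6, e9]

end Fib

end Sy
end Crest.Agent.R335
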