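import Crest.Agent.R335.SyPot
import Crest.Agent.R335.HGlob2
import Crest.Agent.R335.HLip

/-!
Row 335 (S0521), interacting side, section 3.6 (helper759): equations of the projections and of the
remainder of a channel function.
-/

set_option autoImplicit false
set_option linter.unusedSectionVars false

open MeasureTheory Filter Set Crest.MathPhysics.ThreeBody
open scoped ENNReal Topology ContDiff

noncomputable section
namespace Crest.Agent.R335
namespace Sy

section slices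
variable {ι κ κ' : Type*} [Fintype ι] [DecidableEq ι] [Fintype κ] [DecidableEq κ]
  [Fintype κ'] [DecidableEq κ']

local notation "E" => EuclideanSpace ℝ ι

/-- slices of an `L²` function -/
theorem slice_memLp (p : ι ≃ κ ⊕ κ') {F : Type*} [NormedAddCommGroup F] {f : E → F}
    (hf : MemLp f 2 volume) :
    ∀ᵐ x : EuclideanSpace ℝ κ, MemLp (fun y : EuclideanSpace ℝ κ' => f (jn p x y)) 2 volume := by
  have h1 : MemLp (fun q : EuclideanSpace ℝ κ × EuclideanSpace ℝ κ' => f (jn p q.1 q.2)) 2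
      (volume.prod volume) := hf.comp_measurePreserving (I.measurePreserving_jn p)
  have h2 : Integrable (fun q : EuclideanSpace ℝ κ × EuclideanSpace ℝ κ' =>
      ‖f (jn p q.1 q.2)‖ ^ 2) (volume.prod volume) := h1.norm.integrable_sq
  filter_upwards [h2.prod_right_ae, h1.aestronglyMeasurable.prodMk_left] with x hx hm
  exact (memLp_two_iff_integrable_sq_norm hm).2 hx

theorem memLp_pr1 (p : ι ≃ κ ⊕ κ') {g : E → E} (hg : MemLp g 2 volume) :
    MemLp (fun X => pr1 p (g X)) 2 volume :=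
  MemLp.of_le hg ((continuous_pr1 p).comp_aestronglyMeasurable hg.aestronglyMeasurable)
    (Eventually.of_forall fun _ => norm_pr1_le p _)

theorem memLp_pr2 (p : ι ≃ κ ⊕ κ') {g : E → E} (hg : MemLp g 2 volume) :
    MemLp (fun X => pr2 p (g X)) 2 volume :=
  MemLp.of_le hg ((continuous_pr2 p).comp_aestronglyMeasurable hg.aestronglyMeasurable)
    (Eventually.of_forall fun _ => norm_pr2_le p _)

theorem int_mul2 {α : Type*} [MeasurableSpace α] {μ : Measure α} {f g : α → ℝ}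
    (hf : MemLp f 2 μ) (hg : MemLp g 2 μ) : Integrable (fun x => f x * g x) μ :=
  hf.integrable_mul hg

theorem int_smul2 {α : Type*} [MeasurableSpace α] {μ : Measure α} {F : Type*}
    [NormedAddCommGroup F] [NormedSpace ℝ F] {f : α → ℝ} {g : α → F}
    (hf : MemLp f 2 μ) (hg : MemLp g 2 μ) : Integrable (fun x => f x • g x) μ := by
  refine (hf.norm.integrable_mul hg.norm).mono'
    (hf.aestronglyMeasurable.smul hg.aestronglyMeasurable) (Eventually.of_forall fun x => ?_)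
  rw [norm_smul]
  rfl

/-- tensor product -/
def tn (p : ι ≃ κ ⊕ κ') (F : EuclideanSpace ℝ κ → ℝ) (Φ : EuclideanSpace ℝ κ' → ℝ) (x : E) : ℝ :=
  F (pr1 p x) * Φ (pr2 p x)

/-- gradient of the tensor product -/
def dtn (p : ι ≃ κ ⊕ κ') (F : EuclideanSpace ℝ κ → ℝ)
    (dF : EuclideanSpace ℝ κ → EuclideanSpace ℝ κ) (Φ : EuclideanSpace ℝ κ' → ℝ)
    (dΦ : EuclideanSpace ℝ κ' → EuclideanSpace ℝ κ') (x : E) : E :=
  jn p (Φ (pr2 p x) • dF (pr1 p x)) (F (pr1 p x) • dΦ (pr2 p x))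

theorem tn_H1 (p : ι ≃ κ ⊕ κ') {F : EuclideanSpace ℝ κ → ℝ}
    {dF : EuclideanSpace ℝ κ → EuclideanSpace ℝ κ} (hF : H1 F dF) {Φ : EuclideanSpace ℝ κ' → ℝ}
    {dΦ : EuclideanSpace ℝ κ' → EuclideanSpace ℝ κ'} (hΦ : H1 Φ dΦ) :
    H1 (tn p F Φ) (dtn p F dF Φ dΦ) :=
  I.H1.tensor p hF hΦ

end slices

/-! ### the form without the coupling -/

/-- bilinear form with the potential `V0 = V2(X) + Vion(ξ)` -/
def B0 (D lam : ℝ) (f : Config3 → ℝ) (df : Config3 → Config3) (k : Config3 → ℝ)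
    (dk : Config3 → Config3) : ℝ :=
  (1 / 2) * (∫ x, inner ℝ (df x) (dk x)) + ∫ x, V0 D lam x * (f x * k x)

/-- the coupling potential on `ℝ⁹` -/
def W9 (x : Config3) : ℝ := WX (pr1 p9 x) (pr2 p9 x)

theorem fb_W9 : ∃ C, H1S.FB W9 C := fb_W

theorem q3_eq {D lam : ℝ} {f k : Config3 → ℝ} {df dk : Config3 → Config3} (h : H1 f df)
    (h' : H1 k dk) :
    q3 D lam f df k dk = B0 D lam f df k dk + lam * ∫ x, W9 x * (f x * k x) := by
  obtain ⟨C, hC⟩ := fb_V0 D lam
  obtain ⟨C', hC'⟩ := fb_W9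
  unfold q3 B0
  have e : ∫ x, V9 D lam x * f x * k x =
      (∫ x, V0 D lam x * (f x * k x)) + lam * ∫ x, W9 x * (f x * k x) := by
    rw [← integral_const_mul, ← integral_add (hC.int2 h h') ((hC'.int2 h h').const_mul lam)]
    refine integral_congr_ae (Eventually.of_forall fun x => ?_)
    simp only
    rw [V9_split]
    unfold V0 W9
    ring
  rw [e]; ring

/-- gradient of the projection -/
def dcF (Φ : Y2 → ℝ) (dY : Config3 → Config3) (X : Pos3) : Pos3 :=
  ∫ ξ, Φ ξ • pr1 p9 (dY (jn p9 X ξ))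

theorem cF_H1 {Y : Config3 → ℝ} {dY : Config3 → Config3} (h : H1 Y dY) {Φ : Y2 → ℝ}
    (hΦ : MemLp Φ 2 volume) : H1 (cF Φ Y) (dcF Φ dY) :=
  (I.H1.proj p9 h hΦ).1

/-- `B₀(F ⊗ Φ, φ)` for an eigenfunction `Φ` of the ion -/
theorem B0_tensor {D lam e : ℝ} {Φ : Y2 → ℝ} {dΦ : Y2 → Y2} (hΦ : H1 Φ dΦ)
    (heq : ∀ k dk, H1 k dk → k2 D lam Φ dΦ k dk = e * ∫ ξ, Φ ξ * k ξ) {F : Pos3 → ℝ}
    {dF : Pos3 → Pos3} (hF : H1 F dF) {φ : Config3 → ℝ} {dφ : Config3 → Config3}
    (hφ : H1 φ dφ) :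
    B0 D lam (tn p9 F Φ) (dtn p9 F dF Φ dΦ) φ dφ =
      (1 / 2) * (∫ X, inner ℝ (dF X) (dcF Φ dφ X)) + ∫ X, (V2 D X + e) * (F X * cF Φ φ X) := by
  have hT := tn_H1 p9 hF hΦ
  have hP := cF_H1 hφ hΦ.memf
  obtain ⟨C, hC⟩ := fb_V0 D lam
  obtain ⟨C2, hC2⟩ := fb_V2 D
  obtain ⟨Ci, hCi⟩ := fb_Vion D lam
  have i1 : Integrable (fun x => inner ℝ (dtn p9 F dF Φ dΦ x) (dφ x)) :=
    int_inner hT.memg hφ.memg
  have i2 : Integrable (fun x => V0 D lam x * (tn p9 F Φ x * φ x)) := hC.int2 hT hφ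
  have j1 := int_jn_left p9 i1
  have j2 := int_jn_left p9 i2
  unfold B0
  rw [I.integral_jn p9 i1, I.integral_jn p9 i2, ← integral_const_mul, ← integral_add
    (j1.const_mul (1 / 2)) j2, ← integral_const_mul, ← integral_add]
  rotate_left
  · exact (int_inner hF.memg hP.memg).const_mul _
  · have h1 := hC2.int2 hF hP
    have h2 := (int_mul2 hF.memf hP.memf).const_mul e
    refine (h1.add h2).congr (Eventually.of_forall fun x => ?_)
    simp only [Pi.add_apply]; ring
  refine integral_congr_ae ?_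
  filter_upwards [I.H1.slice_right p9 hφ, slice_memLp p9 (memLp_pr1 p9 hφ.memg)] with X hX h1
  have hk := heq _ _ hX
  have a1 : Integrable (fun ξ : Y2 => Φ ξ • pr1 p9 (dφ (jn p9 X ξ))) := int_smul2 hΦ.memf h1
  have a2 : Integrable (fun ξ : Y2 => inner ℝ (dΦ ξ) (pr2 p9 (dφ (jn p9 X ξ)))) :=
    int_inner hΦ.memg hX.memg
  have a3 : Integrable (fun ξ : Y2 => Φ ξ * φ (jn p9 X ξ)) := int_mul2 hΦ.memf hX.memf
  have a4 : Integrable (fun ξ : Y2 => Vion D lam ξ * (Φ ξ * φ (jn p9 X ξ))) := hCi.int2 hΦ hX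
  have e1 : ∫ ξ, inner ℝ (dtn p9 F dF Φ dΦ (jn p9 X ξ)) (dφ (jn p9 X ξ)) =
      inner ℝ (dF X) (dcF Φ dφ X) + F X * ∫ ξ, inner ℝ (dΦ ξ) (pr2 p9 (dφ (jn p9 X ξ))) := by
    unfold dcF
    rw [← integral_inner a1 (dF X), ← integral_const_mul, ← integral_add (a1.const_inner _)
      (a2.const_mul _)]
    refine integral_congr_ae (Eventually.of_forall fun ξ => ?_)
    simp only
    rw [inner_jn p9]
    unfold dtn
    simp only [pr1_jn, pr2_jn]
    rw [inner_smul_left, inner_smul_left, inner_smul_right]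
    simp
  have e2 : ∫ ξ, V0 D lam (jn p9 X ξ) * (tn p9 F Φ (jn p9 X ξ) * φ (jn p9 X ξ)) =
      V2 D X * (F X * cF Φ φ X) + F X * ∫ ξ, Vion D lam ξ * (Φ ξ * φ (jn p9 X ξ)) := by
    unfold cF
    rw [← mul_assoc, ← integral_const_mul, ← integral_const_mul, ← integral_add (a3.const_mul _)
      (a4.const_mul _)]
    refine integral_congr_ae (Eventually.of_forall fun ξ => ?_)
    simp only
    unfold V0 tn
    simp only [pr1_jn, pr2_jn]
    ring
  have e3 : k2 D lam Φ dΦ (fun y => φ (jn p9 X y)) (fun y => pr2 p9 (dφ (jn p9 X y))) =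
      (1 / 2) * (∫ ξ, inner ℝ (dΦ ξ) (pr2 p9 (dφ (jn p9 X ξ)))) +
        ∫ ξ, Vion D lam ξ * (Φ ξ * φ (jn p9 X ξ)) := by
    unfold k2
    congr 1
    refine integral_congr_ae (Eventually.of_forall fun ξ => ?_)
    simp only; ring
  rw [e3] at hk
  have e4 : (∫ ξ, Φ ξ * φ (jn p9 X ξ)) = cF Φ φ X := rfl
  rw [e4] at hk
  rw [e1, e2]
  have : (1 / 2) * (F X * ∫ ξ, inner ℝ (dΦ ξ) (pr2 p9 (dφ (jn p9 X ξ)))) +
      F X * ∫ ξ, Vion D lam ξ * (Φ ξ * φ (jn p9 X ξ)) = F X * (e * cF Φ φ X) := by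
    rw [← hk]; ring
  linear_combination this

/-- equation of the projection `F = ⟨Φ, Y⟩` -/
theorem proj_eq {D lam En σ e : ℝ} {Y : Config3 → ℝ} {dY : Config3 → Config3}
    (hY : Chan D lam En σ Y dY) {Φ : Y2 → ℝ} {dΦ : Y2 → Y2} (hΦ : H1 Φ dΦ)
    (heq : ∀ k dk, H1 k dk → k2 D lam Φ dΦ k dk = e * ∫ ξ, Φ ξ * k ξ) {χ : Pos3 → ℝ}
    {dχ : Pos3 → Pos3} (hχ : H1 χ dχ) :
    (1 / 2) * (∫ X, inner ℝ (dcF Φ dY X) (dχ X)) + (∫ X, (V2 D X + e - En) * (cF Φ Y X * χ X)) +
      lam * ∫ x, W9 x * (Y x * tn p9 χ Φ x) = 0 := by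
  have hT := tn_H1 p9 hχ hΦ
  have h1 := hY.eq _ _ hT
  rw [q3_eq hY.h1 hT] at h1
  have h2 := B0_tensor hΦ heq hχ hY.h1
  have e1 : B0 D lam Y dY (tn p9 χ Φ) (dtn p9 χ dχ Φ dΦ) =
      B0 D lam (tn p9 χ Φ) (dtn p9 χ dχ Φ dΦ) Y dY := by
    unfold B0
    congr 1
    · congr 1
      exact integral_congr_ae (Eventually.of_forall fun x => real_inner_comm _ _)
    · exact integral_congr_ae (Eventually.of_forall fun x => by simp only; ring)
  have e2 : ∫ x, Y x * tn p9 χ Φ x = ∫ X, χ X * cF Φ Y X := by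
    rw [I.integral_jn p9 (int_mul2 hY.h1.memf hT.memf)]
    refine integral_congr_ae (Eventually.of_forall fun X => ?_)
    simp only
    unfold cF
    rw [← integral_const_mul]
    refine integral_congr_ae (Eventually.of_forall fun ξ => ?_)
    simp only
    unfold tn
    simp only [pr1_jn, pr2_jn]
    ring
  rw [e1, h2, e2] at h1
  obtain ⟨C2, hC2⟩ := fb_V2 D
  have hP := cF_H1 hY.h1 hΦ.memf
  have e3 : ∫ X, (V2 D X + e - En) * (cF Φ Y X * χ X) =
      (∫ X, (V2 D X + e) * (χ X * cF Φ Y X)) - En * ∫ X, χ X * cF Φ Y X := by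
    rw [← integral_const_mul, ← integral_sub]
    · exact integral_congr_ae (Eventually.of_forall fun x => by simp only; ring)
    · have h1 := hC2.int2 hχ hP
      have h2 := (int_mul2 hχ.memf hP.memf).const_mul e
      refine (h1.add h2).congr (Eventually.of_forall fun x => ?_)
      simp only [Pi.add_apply]; ring
    · exact (int_mul2 hχ.memf hP.memf).const_mul _
  have e4 : ∫ X, inner ℝ (dcF Φ dY X) (dχ X) = ∫ X, inner ℝ (dχ X) (dcF Φ dY X) :=
    integral_congr_ae (Eventually.of_forall fun x => real_inner_comm _ _)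
  rw [e3, e4]
  linarith

/-! ### parity parts -/

theorem r12_jn (X : Pos3) (ξ : Y2) : r12 (jn p9 X ξ) = jn p9 X (rxi ξ) := by
  ext ⟨i, c⟩
  rw [r12_apply]
  refine Fin.cases ?_ (fun j => ?_) i
  · simp [p9]
  · simp [p9, rxi_apply]

theorem r12_r12 (x : Config3) : r12 (r12 x) = x := by
  ext jc
  rw [r12_apply, r12_apply]
  split_ifs <;> simp

theorem rxi_rxi (x : Y2) : rxi (rxi x) = x := by
  ext jc
  rw [rxi_apply, rxi_apply]
  split_ifs <;> simp

theorem r12_symm (x : Config3) : r12.symm x = r12 x := by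
  rw [LinearIsometryEquiv.symm_apply_eq, r12_r12]

theorem pr1_r12 (x : Config3) : pr1 p9 (r12 x) = pr1 p9 x := by
  have := r12_jn (pr1 p9 x) (pr2 p9 x)
  rw [jn_pr] at this
  rw [this, pr1_jn]

theorem pr2_r12 (x : Config3) : pr2 p9 (r12 x) = rxi (pr2 p9 x) := by
  have := r12_jn (pr1 p9 x) (pr2 p9 x)
  rw [jn_pr] at this
  rw [this, pr2_jn]

theorem el_rxi (j : Fin 2) (ξ : Y2) : el j (rxi ξ) = rz (el j ξ) := by
  ext c
  simp only [el, rxi_apply, rz_apply]

theorem rz_rz (x : Pos3) : rz (rz x) = x := by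
  ext c
  rw [rz_apply, rz_apply]
  split_ifs <;> simp

theorem norm_rz (x : Pos3) : ‖rz x‖ = ‖x‖ := LinearIsometryEquiv.norm_map _ _

theorem rz_nuc (D : ℝ) : rz (nuc D) = nuc (-D) := by
  ext c
  rw [rz_apply]
  unfold nuc
  fin_cases c <;> simp

theorem V2_rz (D : ℝ) (x : Pos3) : V2 D (rz x) = V2 D x := by
  unfold V2
  have h1 : ‖rz x - nuc D‖ = ‖x - nuc (-D)‖ := by
    rw [← norm_rz (x - nuc (-D)), map_sub, rz_nuc, neg_neg]
  have h2 : ‖rz x - nuc (-D)‖ = ‖x - nuc D‖ := by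
    rw [← norm_rz (x - nuc D), map_sub, rz_nuc]
  rw [h1, h2]; ring

theorem Vion_rxi (D lam : ℝ) (ξ : Y2) : Vion D lam (rxi ξ) = Vion D lam ξ := by
  unfold Vion
  rw [el_rxi, el_rxi, V2_rz, V2_rz, ← map_sub, norm_rz]

theorem V0_r12 (D lam : ℝ) (x : Config3) : V0 D lam (r12 x) = V0 D lam x := by
  unfold V0
  rw [pr1_r12, pr2_r12, Vion_rxi]

theorem jb_rz (x : Pos3) : jb (rz x) = jb x := by
  unfold jb; rw [norm_rz]

theorem wi_rxi (ξ : Y2) : wi (rxi ξ) = wi ξ := by
  unfold wi; rw [el_rxi, el_rxi, jb_rz, jb_rz]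

/-- gradient of the parity part -/
def dYp (π : ℝ) (dY : Config3 → Config3) (x : Config3) : Config3 :=
  (1 / 2 : ℝ) • (dY x + π • r12 (dY (r12 x)))

theorem H1.comp_r12 {f : Config3 → ℝ} {g : Config3 → Config3} (h : H1 f g) :
    H1 (fun x => f (r12 x)) (fun x => r12 (g (r12 x))) := by
  have := Crest.Agent.R335.H1.comp_isometry h r12 0
  simp only [add_zero, r12_symm] at this
  exact this

theorem Yp_H1 (π : ℝ) {Y : Config3 → ℝ} {dY : Config3 → Config3} (h : H1 Y dY) :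
    H1 (Yp π Y) (dYp π dY) := by
  have h1 := (Crest.Agent.R335.H1.add h ((H1.comp_r12 h).const_mul π)).const_mul (1 / 2)
  refine h1.congr (Eventually.of_forall fun x => ?_) (Eventually.of_forall fun x => ?_)
  · simp only [Yp]; ring
  · rfl

theorem integral_r12 {F : Type*} [NormedAddCommGroup F] [NormedSpace ℝ F] (f : Config3 → F) :
    ∫ x, f (r12 x) = ∫ x, f x :=
  (LinearIsometryEquiv.measurePreserving r12).integral_comp
    r12.toHomeomorph.measurableEmbedding f

theorem B0_part {D lam π : ℝ} {f k : Config3 → ℝ} {df dk : Config3 → Config3} (h : H1 f df)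
    (h' : H1 k dk) :
    B0 D lam (Yp π f) (dYp π df) k dk = B0 D lam f df (Yp π k) (dYp π dk) := by
  obtain ⟨C, hC⟩ := fb_V0 D lam
  have hr := H1.comp_r12 h
  have hr' := H1.comp_r12 h'
  unfold B0
  congr 1
  · congr 1
    have e1 : ∫ x, inner ℝ (dYp π df x) (dk x) = (1 / 2) * (∫ x, inner ℝ (df x) (dk x)) +
        (π / 2) * ∫ x, inner ℝ (r12 (df (r12 x))) (dk x) := by
      rw [← integral_const_mul, ← integral_const_mul, ← integral_add
        ((int_inner h.memg h'.memg).const_mul _) ((int_inner hr.memg h'.memg).const_mul _)]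
      refine integral_congr_ae (Eventually.of_forall fun x => ?_)
      simp only [dYp]
      rw [inner_smul_left, inner_add_left, inner_smul_left]
      simp only [conj_trivial]; ring
    have e2 : ∫ x, inner ℝ (df x) (dYp π dk x) = (1 / 2) * (∫ x, inner ℝ (df x) (dk x)) +
        (π / 2) * ∫ x, inner ℝ (df x) (r12 (dk (r12 x))) := by
      rw [← integral_const_mul, ← integral_const_mul, ← integral_add
        ((int_inner h.memg h'.memg).const_mul _) ((int_inner h.memg hr'.memg).const_mul _)]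
      refine integral_congr_ae (Eventually.of_forall fun x => ?_)
      simp only [dYp]
      rw [inner_smul_right, inner_add_right, inner_smul_right]
      ring
    have e3 : ∫ x, inner ℝ (r12 (df (r12 x))) (dk x) = ∫ x, inner ℝ (df x) (r12 (dk (r12 x))) := by
      rw [← integral_r12 (fun x => inner ℝ (df x) (r12 (dk (r12 x))))]
      refine integral_congr_ae (Eventually.of_forall fun x => ?_)
      simp only
      rw [r12_r12, ← LinearIsometryEquiv.inner_map_map r12 (df (r12 x)), r12_r12]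
    rw [e1, e2, e3]
  · have e1 : ∫ x, V0 D lam x * (Yp π f x * k x) = (1 / 2) * (∫ x, V0 D lam x * (f x * k x)) +
        (π / 2) * ∫ x, V0 D lam x * (f (r12 x) * k x) := by
      rw [← integral_const_mul, ← integral_const_mul, ← integral_add
        ((hC.int2 h h').const_mul _) ((hC.int2 hr h').const_mul _)]
      refine integral_congr_ae (Eventually.of_forall fun x => ?_)
      simp only [Yp]; ring
    have e2 : ∫ x, V0 D lam x * (f x * Yp π k x) = (1 / 2) * (∫ x, V0 D lam x * (f x * k x)) +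
        (π / 2) * ∫ x, V0 D lam x * (f x * k (r12 x)) := by
      rw [← integral_const_mul, ← integral_const_mul, ← integral_add
        ((hC.int2 h h').const_mul _) ((hC.int2 h hr').const_mul _)]
      refine integral_congr_ae (Eventually.of_forall fun x => ?_)
      simp only [Yp]; ring
    have e3 : ∫ x, V0 D lam x * (f (r12 x) * k x) = ∫ x, V0 D lam x * (f x * k (r12 x)) := by
      rw [← integral_r12 (fun x => V0 D lam x * (f x * k (r12 x)))]
      refine integral_congr_ae (Eventually.of_forall fun x => ?_)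
      simp only
      rw [r12_r12, V0_r12]
    rw [e1, e2, e3]

theorem int_part {π : ℝ} {f k : Config3 → ℝ} (h : MemLp f 2 volume) (h' : MemLp k 2 volume) :
    ∫ x, Yp π f x * k x = ∫ x, f x * Yp π k x := by
  have hmp : MeasurePreserving r12 volume volume := LinearIsometryEquiv.measurePreserving r12
  have hr : MemLp (fun x => f (r12 x)) 2 volume := h.comp_measurePreserving hmp
  have hr' : MemLp (fun x => k (r12 x)) 2 volume := h'.comp_measurePreserving hmp
  have e1 : ∫ x, Yp π f x * k x = (1 / 2) * (∫ x, f x * k x) +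
      (π / 2) * ∫ x, f (r12 x) * k x := by
    rw [← integral_const_mul, ← integral_const_mul, ← integral_add
      ((int_mul2 h h').const_mul _) ((int_mul2 hr h').const_mul _)]
    refine integral_congr_ae (Eventually.of_forall fun x => ?_)
    simp only [Yp]; ring
  have e2 : ∫ x, f x * Yp π k x = (1 / 2) * (∫ x, f x * k x) +
      (π / 2) * ∫ x, f x * k (r12 x) := by
    rw [← integral_const_mul, ← integral_const_mul, ← integral_add
      ((int_mul2 h h').const_mul _) ((int_mul2 h hr').const_mul _)]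
    refine integral_congr_ae (Eventually.of_forall fun x => ?_)
    simp only [Yp]; ring
  have e3 : ∫ x, f (r12 x) * k x = ∫ x, f x * k (r12 x) := by
    rw [← integral_r12 (fun x => f x * k (r12 x))]
    refine integral_congr_ae (Eventually.of_forall fun x => ?_)
    simp only
    rw [r12_r12]
  rw [e1, e2, e3]

/-- equation of the parity part -/
theorem part_eq {D lam En σ π : ℝ} {Y : Config3 → ℝ} {dY : Config3 → Config3}
    (hY : Chan D lam En σ Y dY) {φ : Config3 → ℝ} {dφ : Config3 → Config3} (hφ : H1 φ dφ) :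
    B0 D lam (Yp π Y) (dYp π dY) φ dφ + lam * (∫ x, W9 x * (Y x * Yp π φ x)) =
      En * ∫ x, Yp π Y x * φ x := by
  have h1 := hY.eq _ _ (Yp_H1 π hφ)
  rw [q3_eq hY.h1 (Yp_H1 π hφ), ← B0_part hY.h1 hφ, ← int_part hY.h1.memf hφ.memf] at h1
  exact h1

/-- gradient of the remainder -/
def dcR (π : ℝ) (Φ : Y2 → ℝ) (dΦ : Y2 → Y2) (Y : Config3 → ℝ) (dY : Config3 → Config3)
    (x : Config3) : Config3 :=
  dYp π dY x - dtn p9 (cF Φ Y) (dcF Φ dY) Φ dΦ x

theorem cR_H1 (π : ℝ) {Φ : Y2 → ℝ} {dΦ : Y2 → Y2} (hΦ : H1 Φ dΦ) {Y : Config3 → ℝ}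
    {dY : Config3 → Config3} (h : H1 Y dY) : H1 (cR π Φ Y) (dcR π Φ dΦ Y dY) :=
  Crest.Agent.R335.H1.sub (Yp_H1 π h) (tn_H1 p9 (cF_H1 h hΦ.memf) hΦ)

/-- equation of the remainder `Γ = Y_π - F ⊗ Φ` -/
theorem gamma_eq {D lam En σ e : ℝ} (π : ℝ) {Y : Config3 → ℝ} {dY : Config3 → Config3}
    (hY : Chan D lam En σ Y dY) {Φ : Y2 → ℝ} {dΦ : Y2 → Y2} (hΦ : H1 Φ dΦ)
    (heq : ∀ k dk, H1 k dk → k2 D lam Φ dΦ k dk = e * ∫ ξ, Φ ξ * k ξ)
    {φ : Config3 → ℝ} {dφ : Config3 → Config3} (hφ : H1 φ dφ) :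
    B0 D lam (cR π Φ Y) (dcR π Φ dΦ Y dY) φ dφ +
      lam * (∫ x, W9 x * (Y x * (Yp π φ x - tn p9 (cF Φ φ) Φ x))) =
      En * ∫ x, cR π Φ Y x * φ x := by
  obtain ⟨C, hC⟩ := fb_V0 D lam
  obtain ⟨C2, hC2⟩ := fb_V2 D
  obtain ⟨C', hC'⟩ := fb_W9
  have hF := cF_H1 hY.h1 hΦ.memf
  have hFφ := cF_H1 hφ hΦ.memf
  have hT := tn_H1 p9 hF hΦ
  have hTφ := tn_H1 p9 hFφ hΦ
  have hYp := Yp_H1 π hY.h1
  have h1 := part_eq (π := π) hY hφ
  have h2 := B0_tensor hΦ heq hF hφ
  have h3 := proj_eq hY hΦ heq hFφ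
  -- linearity
  have e1 : B0 D lam (cR π Φ Y) (dcR π Φ dΦ Y dY) φ dφ =
      B0 D lam (Yp π Y) (dYp π dY) φ dφ -
        B0 D lam (tn p9 (cF Φ Y) Φ) (dtn p9 (cF Φ Y) (dcF Φ dY) Φ dΦ) φ dφ := by
    unfold B0
    have a1 : ∫ x, inner ℝ (dcR π Φ dΦ Y dY x) (dφ x) = (∫ x, inner ℝ (dYp π dY x) (dφ x)) -
        ∫ x, inner ℝ (dtn p9 (cF Φ Y) (dcF Φ dY) Φ dΦ x) (dφ x) := by
      rw [← integral_sub (int_inner hYp.memg hφ.memg) (int_inner hT.memg hφ.memg)]
      refine integral_congr_ae (Eventually.of_forall fun x => ?_)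
      simp only [dcR, inner_sub_left]
    have a2 : ∫ x, V0 D lam x * (cR π Φ Y x * φ x) = (∫ x, V0 D lam x * (Yp π Y x * φ x)) -
        ∫ x, V0 D lam x * (tn p9 (cF Φ Y) Φ x * φ x) := by
      rw [← integral_sub (hC.int2 hYp hφ) (hC.int2 hT hφ)]
      refine integral_congr_ae (Eventually.of_forall fun x => ?_)
      simp only [cR, tn]; ring
    rw [a1, a2]; ring
  have e2 : ∫ x, W9 x * (Y x * (Yp π φ x - tn p9 (cF Φ φ) Φ x)) =
      (∫ x, W9 x * (Y x * Yp π φ x)) - ∫ x, W9 x * (Y x * tn p9 (cF Φ φ) Φ x) := by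
    rw [← integral_sub (hC'.int2 hY.h1 (Yp_H1 π hφ)) (hC'.int2 hY.h1 hTφ)]
    refine integral_congr_ae (Eventually.of_forall fun x => ?_)
    simp only; ring
  have e3 : ∫ x, cR π Φ Y x * φ x = (∫ x, Yp π Y x * φ x) - ∫ x, tn p9 (cF Φ Y) Φ x * φ x := by
    rw [← integral_sub (int_mul2 hYp.memf hφ.memf) (int_mul2 hT.memf hφ.memf)]
    refine integral_congr_ae (Eventually.of_forall fun x => ?_)
    simp only [cR, tn]; ring
  have e4 : ∫ x, tn p9 (cF Φ Y) Φ x * φ x = ∫ X, cF Φ Y X * cF Φ φ X := by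
    rw [I.integral_jn p9 (int_mul2 hT.memf hφ.memf)]
    refine integral_congr_ae (Eventually.of_forall fun X => ?_)
    have : cF Φ φ X = ∫ ξ, Φ ξ * φ (jn p9 X ξ) := rfl
    simp only
    rw [this, ← integral_const_mul]
    refine integral_congr_ae (Eventually.of_forall fun ξ => ?_)
    simp only [tn, pr1_jn, pr2_jn]
    ring
  have e5 : ∫ X, (V2 D X + e - En) * (cF Φ Y X * cF Φ φ X) =
      (∫ X, (V2 D X + e) * (cF Φ Y X * cF Φ φ X)) - En * ∫ X, cF Φ Y X * cF Φ φ X := by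
    rw [← integral_const_mul, ← integral_sub]
    · exact integral_congr_ae (Eventually.of_forall fun x => by simp only; ring)
    · have h1 := hC2.int2 hF hFφ
      have h2 := (int_mul2 hF.memf hFφ.memf).const_mul e
      refine (h1.add h2).congr (Eventually.of_forall fun x => ?_)
      simp only [Pi.add_apply]; ring
    · exact (int_mul2 hF.memf hFφ.memf).const_mul _
  rw [e5] at h3
  rw [e1, e2, e3, e4, h2]
  linarith

/-! ### weights -/

/-- weight on `ℝ⁹` -/
def w9 (x : Config3) : ℝ := wi (pr2 p9 x)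

/-- exponential weight -/
def ew (a : ℝ) (x : Config3) : ℝ := Real.exp (a * w9 x)

/-- truncated exponential weight -/
def en (a : ℝ) (n : ℕ) (x : Config3) : ℝ := Real.exp (a * min (w9 x) n)

theorem contDiff_jb : ContDiff ℝ ∞ jb := by
  unfold jb
  refine ContDiff.sqrt ?_ fun x => ?_
  · exact contDiff_const.add (contDiff_norm_sq ℝ)
  · positivity

theorem jb_pos (y : Pos3) : 0 < jb y := by unfold jb; positivity

theorem one_le_jb (y : Pos3) : 1 ≤ jb y := by
  unfold jb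
  apply Real.le_sqrt_of_sq_le
  nlinarith [sq_nonneg ‖y‖]

theorem norm_le_jb (y : Pos3) : ‖y‖ ≤ jb y := by
  unfold jb
  apply Real.le_sqrt_of_sq_le
  linarith

theorem jb_le (y : Pos3) : jb y ≤ 1 + ‖y‖ := by
  unfold jb
  rw [Real.sqrt_le_left (by positivity)]
  nlinarith [norm_nonneg y]

theorem jb_lip : LipschitzWith 1 jb := by
  refine LipschitzWith.of_dist_le_mul fun x y => ?_
  rw [NNReal.coe_one, one_mul, Real.dist_eq, dist_eq_norm]
  have key : ∀ x y : Pos3, jb x ≤ jb y + ‖x - y‖ := by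
    intro x y
    have h1 : ‖x‖ ≤ ‖y‖ + ‖x - y‖ := by
      have := norm_add_le y (x - y)
      rwa [add_sub_cancel] at this
    unfold jb
    rw [Real.sqrt_le_left (by positivity)]
    have h2 : ‖y‖ ≤ √(1 + ‖y‖ ^ 2) := norm_le_jb y
    have h3 : √(1 + ‖y‖ ^ 2) ^ 2 = 1 + ‖y‖ ^ 2 := Real.sq_sqrt (by positivity)
    have h4 := norm_nonneg (x - y)
    have h5 := norm_nonneg y
    have h6 := norm_nonneg x
    nlinarith [mul_nonneg h4 (sub_nonneg.2 h2)]
  rw [abs_le]
  constructor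
  · have := key y x
    rw [norm_sub_rev] at this
    linarith
  · have := key x y
    linarith

theorem el_lip (j : Fin 2) : LipschitzWith 1 (el j) := by
  refine LipschitzWith.of_dist_le_mul fun x y => ?_
  rw [NNReal.coe_one, one_mul, dist_eq_norm, dist_eq_norm]
  have h : el j x - el j y = el j (x - y) := by ext c; simp [el]
  rw [h]
  have h2 : ‖el j (x - y)‖ ^ 2 ≤ ‖x - y‖ ^ 2 := by
    rw [EuclideanSpace.norm_sq_eq, EuclideanSpace.norm_sq_eq, Fintype.sum_prod_type]
    exact Finset.single_le_sum (f := fun i : Fin 2 => ∑ c : Fin 3, ‖(x - y) (i, c)‖ ^ 2)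
      (fun i _ => Finset.sum_nonneg fun c _ => by positivity) (Finset.mem_univ j)
  exact le_of_sq_le_sq h2 (norm_nonneg _)

theorem wi_lip : LipschitzWith 2 wi := by
  have h0 := jb_lip.comp (el_lip 0)
  have h1 := jb_lip.comp (el_lip 1)
  have h2 := h0.add h1
  have e : (1 * 1 + 1 * 1 : NNReal) = 2 := by norm_num
  rw [e] at h2
  exact h2

theorem contDiff_wi : ContDiff ℝ ∞ wi := by
  unfold wi
  exact (contDiff_jb.comp (elY 0).contDiff).add (contDiff_jb.comp (elY 1).contDiff)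

theorem two_le_wi (ξ : Y2) : 2 ≤ wi ξ := by
  unfold wi
  linarith [one_le_jb (el 0 ξ), one_le_jb (el 1 ξ)]

/-- `pr2 p9` as a continuous linear map -/
def pr2L : Config3 →L[ℝ] Y2 :=
  LinearMap.toContinuousLinearMap
    { toFun := pr2 p9
      map_add' := pr2_add p9
      map_smul' := fun c x => pr2_smul p9 c x }

theorem w9_lip : LipschitzWith 2 w9 := by
  have h1 : LipschitzWith 1 (pr2 p9) := by
    refine LipschitzWith.of_dist_le_mul fun x y => ?_
    rw [NNReal.coe_one, one_mul, dist_eq_norm, dist_eq_norm]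
    have h : pr2 p9 x - pr2 p9 y = pr2 p9 (x - y) := by ext c; simp
    rw [h]
    exact norm_pr2_le p9 _
  have h2 := wi_lip.comp h1
  rw [mul_one] at h2
  exact h2

theorem contDiff_w9 : ContDiff ℝ ∞ w9 := contDiff_wi.comp pr2L.contDiff

theorem w9_jn (X : Pos3) (ξ : Y2) : w9 (jn p9 X ξ) = wi ξ := by
  unfold w9; rw [pr2_jn]

theorem ew_jn (a : ℝ) (X : Pos3) (ξ : Y2) : ew a (jn p9 X ξ) = Real.exp (a * wi ξ) := by
  unfold ew; rw [w9_jn]

theorem w9_r12 (x : Config3) : w9 (r12 x) = w9 x := by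
  unfold w9; rw [pr2_r12, wi_rxi]

theorem w9_nonneg (x : Config3) : 0 ≤ w9 x := by
  unfold w9; linarith [two_le_wi (pr2 p9 x)]

theorem contDiff_ew (a : ℝ) : ContDiff ℝ ∞ (ew a) :=
  (contDiff_const.mul contDiff_w9).exp

theorem ew_pos (a : ℝ) (x : Config3) : 0 < ew a x := Real.exp_pos _

theorem en_pos (a : ℝ) (n : ℕ) (x : Config3) : 0 < en a n x := Real.exp_pos _

theorem en_le_ew {a : ℝ} (ha : 0 ≤ a) (n : ℕ) (x : Config3) : en a n x ≤ ew a x :=
  Real.exp_le_exp.2 (mul_le_mul_of_nonneg_left (min_le_left _ _) ha)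

theorem en_le {a : ℝ} (ha : 0 ≤ a) (n : ℕ) (x : Config3) : en a n x ≤ Real.exp (a * n) :=
  Real.exp_le_exp.2 (mul_le_mul_of_nonneg_left (min_le_right _ _) ha)

theorem gr_w9_le (x : Config3) : ‖gr w9 x‖ ≤ 2 := by
  refine (HL.norm_gr_le _ _).trans ?_
  have := norm_fderiv_le_of_lipschitz ℝ w9_lip (x₀ := x)
  simpa using this

theorem gr_ew (a : ℝ) (x : Config3) : gr (ew a) x = (a * ew a x) • gr w9 x := by
  have h1 : DifferentiableAt ℝ w9 x := (contDiff_w9.differentiable (by simp)).differentiableAt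
  ext i
  simp only [gr_apply, PiLp.smul_apply, smul_eq_mul]
  unfold pd ew
  have h2 : HasFDerivAt (fun x => Real.exp (a * w9 x))
      (Real.exp (a * w9 x) • (a • fderiv ℝ w9 x)) x :=
    (h1.hasFDerivAt.const_mul a).exp
  rw [h2.fderiv]
  simp only [smul_apply, smul_eq_mul]
  ring

/-- the gradient of the weight has no component in the direction of `X` -/
theorem inner_gr_w9 (x : Config3) (v : Pos3) : inner ℝ (gr w9 x) (jn p9 v (0 : Y2)) = 0 := by
  rw [inner_jn p9, pr1_jn, pr2_jn, inner_zero_right, add_zero]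
  have : pr1 p9 (gr w9 x) = 0 := by
    ext c
    rw [pr1_apply, gr_apply]
    have e : w9 = wi ∘ pr2L := rfl
    unfold pd
    rw [e, fderiv_comp _ ((contDiff_wi.differentiable (by simp)).differentiableAt)
      pr2L.differentiableAt]
    rw [ContinuousLinearMap.comp_apply, ContinuousLinearMap.fderiv]
    have : pr2L (EuclideanSpace.single (p9.symm (Sum.inl c)) (1 : ℝ)) = 0 := by
      ext jc
      change (EuclideanSpace.single (p9.symm (Sum.inl c)) (1 : ℝ) : Config3)
        (p9.symm (Sum.inr jc)) = 0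
      rw [PiLp.single_apply, if_neg]
      intro h
      have := p9.symm.injective h
      exact absurd this (by simp)
    rw [this, map_zero]
    rfl
  rw [this, inner_zero_left]

theorem en_lip {a : ℝ} (ha : 0 ≤ a) (n : ℕ) :
    LipschitzWith ⟨2 * a * Real.exp (a * n), by positivity⟩ (en a n) := by
  refine LipschitzWith.of_dist_le_mul fun x y => ?_
  change dist (en a n x) (en a n y) ≤ 2 * a * Real.exp (a * n) * dist x y
  rw [Real.dist_eq]
  have hm : |min (w9 x) n - min (w9 y) n| ≤ 2 * dist x y := by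
    have h1 := w9_lip.dist_le_mul x y
    rw [Real.dist_eq] at h1
    have h2 : |min (w9 x) (n : ℝ) - min (w9 y) n| ≤ |w9 x - w9 y| := by
      have := abs_min_sub_min_le_max (w9 x) (n : ℝ) (w9 y) n
      simpa using this
    exact h2.trans h1
  have key : ∀ s t : ℝ, s ≤ n → t ≤ n → Real.exp (a * s) - Real.exp (a * t) ≤
      a * Real.exp (a * n) * |s - t| := by
    intro s t hs ht
    rcases le_total s t with h | h
    · have h1 : Real.exp (a * s) ≤ Real.exp (a * t) :=
        Real.exp_le_exp.2 (mul_le_mul_of_nonneg_left h ha)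
      have : 0 ≤ a * Real.exp (a * n) * |s - t| := by positivity
      linarith
    · have h1 : 1 - (a * s - a * t) ≤ Real.exp (-(a * s - a * t)) := by
        have := Real.add_one_le_exp (-(a * s - a * t)); linarith
      have h2 : Real.exp (a * t) = Real.exp (a * s) * Real.exp (-(a * s - a * t)) := by
        rw [← Real.exp_add]; congr 1; ring
      have h3 : Real.exp (a * s) ≤ Real.exp (a * n) :=
        Real.exp_le_exp.2 (mul_le_mul_of_nonneg_left hs ha)
      have h4 := Real.exp_pos (a * s)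
      rw [abs_of_nonneg (sub_nonneg.2 h), h2]
      have h5 : 0 ≤ a * (s - t) := mul_nonneg ha (sub_nonneg.2 h)
      nlinarith [mul_le_mul_of_nonneg_left h1 h4.le, mul_le_mul_of_nonneg_right h3 h5]
  have h0 : 0 ≤ a * Real.exp (a * n) := by positivity
  unfold en
  rw [abs_le]
  constructor
  · have := key _ _ (min_le_right (w9 y) (n : ℝ)) (min_le_right (w9 x) (n : ℝ))
    rw [abs_sub_comm] at this
    nlinarith [mul_le_mul_of_nonneg_left hm h0]
  · have := key _ _ (min_le_right (w9 x) (n : ℝ)) (min_le_right (w9 y) (n : ℝ))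
    nlinarith [mul_le_mul_of_nonneg_left hm h0]

theorem en_eventually (a : ℝ) (x : Config3) :
    ∀ᶠ n : ℕ in atTop, en a n x = ew a x ∧ gr (en a n) x = gr (ew a) x := by
  obtain ⟨N, hN⟩ := exists_nat_gt (w9 x)
  filter_upwards [eventually_ge_atTop N] with n hn
  have h1 : w9 x < n := hN.trans_le (by exact_mod_cast hn)
  have h2 : en a n =ᶠ[𝓝 x] ew a := by
    filter_upwards [w9_lip.continuous.continuousAt.eventually_lt continuousAt_const h1] with y hy
    unfold en ew
    rw [min_eq_left hy.le]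
  refine ⟨h2.eq_of_nhds, ?_⟩
  ext i
  exact pd_congr_of_eventuallyEq h2 i

theorem gr_en_le {a : ℝ} (ha : 0 ≤ a) (n : ℕ) (x : Config3) :
    ‖gr (en a n) x‖ ≤ 2 * a * en a n x := by
  by_cases h : w9 x < n
  · have h2 : en a n =ᶠ[𝓝 x] ew a := by
      filter_upwards [w9_lip.continuous.continuousAt.eventually_lt continuousAt_const h] with y hy
      unfold en ew
      rw [min_eq_left hy.le]
    have h3 : gr (en a n) x = gr (ew a) x := by
      ext i
      exact pd_congr_of_eventuallyEq h2 i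
    rw [h3, h2.eq_of_nhds, gr_ew, norm_smul, Real.norm_eq_abs,
      abs_of_nonneg (mul_nonneg ha (ew_pos a x).le)]
    nlinarith [gr_w9_le x, mul_nonneg ha (ew_pos a x).le]
  · have h1 : en a n x = Real.exp (a * n) := by
      unfold en; rw [min_eq_right (not_lt.1 h)]
    rw [h1]
    refine (HL.norm_gr_le _ _).trans ?_
    exact norm_fderiv_le_of_lipschitz ℝ (en_lip ha n) (x₀ := x)

theorem en_WG {a : ℝ} (ha : 0 ≤ a) (n : ℕ) : WG univ (en a n) (gr (en a n)) :=
  (Crest.Agent.R335.WG.of_lipschitz (en_lip ha n)).1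

end Sy
end Crest.Agent.R335
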