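import Crest.Agent.R335.SyCore

/-!
Row 335 (S0521), interacting side, section 3.6 (helper759): weak inequality of the weighted norm
`N = |e^{a w} Γ|` of the remainder of a channel function (kato_core).
-/

set_option autoImplicit false
set_option linter.unusedSectionVars false

open MeasureTheory Filter Set Crest.MathPhysics.ThreeBody
open scoped ENNReal Topology ContDiff

noncomputable section
namespace Crest.Agent.R335
namespace Sy

/-- fibre lower bound -/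
theorem qf_ge {D lam En σ e gap π a th : ℝ} {Φ : Y2 → ℝ} {dΦ : Y2 → Y2}
    (hch : IonCh D lam σ π e gap Φ dΦ) (hgap : 0 ≤ gap) {Y : Config3 → ℝ}
    {dY : Config3 → Config3} (hπ : π = 1 ∨ π = -1)
    (hY : Chan D lam En σ Y dY) (hwY : ∃ d, H1 (fun x => ew a x * Y x) d)
    {U : Config3 → ℝ} {dU : Config3 → Config3} (hUd : ∀ x, U x = ew a x * cR π Φ Y x)
    (hU : H1 U dU)
    (hth : ∀ᵐ X : Pos3, (∫ ξ, Φ ξ * U (jn p9 X ξ)) ^ 2 ≤ th * ∫ ξ, U (jn p9 X ξ) ^ 2) :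
    ∀ᵐ X : Pos3, (e - En + V2 D X + gap * (1 - th) - 2 * a ^ 2) * (∫ ξ, U (jn p9 X ξ) ^ 2) +
      lam * Tf a Φ Y U X ≤ qf D lam En a Φ Y U dU X := by
  obtain ⟨C0, hC0⟩ := fb_Vion D lam
  obtain ⟨C', hC'⟩ := fb_W9
  obtain ⟨d, hwY'⟩ := hwY
  have i1 : Integrable (fun x => (1 / 2) * ‖pr2 p9 (dU x)‖ ^ 2) :=
    ((memLp_pr2 p9 hU.memg).norm.integrable_sq).const_mul _
  have i4 := int_grw (a := a) hU.memf
  have i5 : Integrable (fun x => W9 x * (ew a x * Y x * U x)) := hC'.int2 hwY' hU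
  filter_upwards [I.H1.slice_right p9 hU, hth, int_jn_slice p9 i1, int_jn_slice p9 i4,
    int_jn_slice p9 i5] with X hX hthX s1 s4 s5
  have s2 : Integrable (fun ξ : Y2 => U (jn p9 X ξ) ^ 2) := hX.memf.integrable_sq
  have s3 : Integrable (fun ξ : Y2 => Vion D lam ξ * U (jn p9 X ξ) ^ 2) := hC0.int _ _ hX
  have hex : ∀ᵐ ξ : Y2, U (jn p9 X (sxi ξ)) = σ * U (jn p9 X ξ) := by
    refine Eventually.of_forall fun ξ => ?_
    rw [hUd, hUd, cR_sxi hch.ex hY.ex, ew_jn, ew_jn, wi_sxi]; ring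
  have hpar : ∀ᵐ ξ : Y2, U (jn p9 X (rxi ξ)) = π * U (jn p9 X ξ) := by
    refine Eventually.of_forall fun ξ => ?_
    rw [← r12_jn, hUd, hUd, cR_r12 hπ hch.par, r12_jn, ew_jn, ew_jn, wi_rxi]; ring
  have hsp := hch.spec _ _ hX hex hpar
  have ek : k2 D lam (fun y => U (jn p9 X y)) (fun y => pr2 p9 (dU (jn p9 X y)))
      (fun y => U (jn p9 X y)) (fun y => pr2 p9 (dU (jn p9 X y))) =
      (∫ ξ, (1 / 2) * ‖pr2 p9 (dU (jn p9 X ξ))‖ ^ 2) +
        ∫ ξ, Vion D lam ξ * U (jn p9 X ξ) ^ 2 := by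
    unfold k2
    rw [integral_const_mul]
    congr 1
    · congr 1
      exact integral_congr_ae (Eventually.of_forall fun ξ => real_inner_self_eq_norm_sq _)
    · exact integral_congr_ae (Eventually.of_forall fun ξ => by simp only; ring)
  rw [ek] at hsp
  have eG : ∫ ξ, Gt D lam En a Y U dU (jn p9 X ξ) =
      ((∫ ξ, (1 / 2) * ‖pr2 p9 (dU (jn p9 X ξ))‖ ^ 2) +
        ∫ ξ, Vion D lam ξ * U (jn p9 X ξ) ^ 2) + (V2 D X - En) * (∫ ξ, U (jn p9 X ξ) ^ 2) -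
      (∫ ξ, a ^ 2 / 2 * ‖gr w9 (jn p9 X ξ)‖ ^ 2 * U (jn p9 X ξ) ^ 2) +
      lam * ∫ ξ, WX X ξ * (Real.exp (a * wi ξ) * Y (jn p9 X ξ) * U (jn p9 X ξ)) := by
    have s5' : Integrable (fun ξ : Y2 => WX X ξ * (Real.exp (a * wi ξ) * Y (jn p9 X ξ) *
        U (jn p9 X ξ))) := by
      refine s5.congr (Eventually.of_forall fun ξ => ?_)
      simp only [W9_jn, ew_jn]
    have t1 := s1.add s3
    have t2 := t1.add (s2.const_mul (V2 D X - En))
    have t3 := t2.sub s4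
    have t4 := t3.add (s5'.const_mul lam)
    rw [← integral_const_mul, ← integral_const_mul, ← integral_add s1 s3]
    have e1 := integral_add t1 (s2.const_mul (V2 D X - En))
    have e2 := integral_sub t2 s4
    have e3 := integral_add t3 (s5'.const_mul lam)
    simp only [Pi.add_apply, Pi.sub_apply] at e1 e2 e3
    rw [← e1, ← e2, ← e3]
    refine integral_congr_ae (Eventually.of_forall fun ξ => ?_)
    simp only [Gt, V0_jn, W9_jn, ew_jn]
    ring
  have hg : ∫ ξ, a ^ 2 / 2 * ‖gr w9 (jn p9 X ξ)‖ ^ 2 * U (jn p9 X ξ) ^ 2 ≤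
      2 * a ^ 2 * ∫ ξ, U (jn p9 X ξ) ^ 2 := by
    rw [← integral_const_mul]
    refine integral_mono s4 (s2.const_mul _) fun ξ => ?_
    simp only
    have h1 := gr_w9_le (jn p9 X ξ)
    have h2 : ‖gr w9 (jn p9 X ξ)‖ ^ 2 ≤ 4 := by nlinarith [norm_nonneg (gr w9 (jn p9 X ξ))]
    have h3 : 0 ≤ a ^ 2 / 2 * U (jn p9 X ξ) ^ 2 := by positivity
    nlinarith
  have hg2 : gap * (∫ ξ, Φ ξ * U (jn p9 X ξ)) ^ 2 ≤ gap * (th * ∫ ξ, U (jn p9 X ξ) ^ 2) :=
    mul_le_mul_of_nonneg_left hthX hgap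
  unfold qf Tf
  rw [eG]
  nlinarith [hsp, hg, hg2]

/-- weak inequality of the weighted norm of the remainder -/
theorem kato_core {D lam En σ e gap π a th : ℝ} (ha : 0 ≤ a) {Φ : Y2 → ℝ} {dΦ : Y2 → Y2}
    (hch : IonCh D lam σ π e gap Φ dΦ) (hgap : 0 ≤ gap) {Y : Config3 → ℝ}
    {dY : Config3 → Config3} (hπ : π = 1 ∨ π = -1)
    (hY : Chan D lam En σ Y dY) (hwY : ∃ d, H1 (fun x => ew a x * Y x) d)
    (hwΦ : ∃ d, H1 (wΦ a Φ) d)
    {U : Config3 → ℝ} {dU : Config3 → Config3} (hUd : ∀ x, U x = ew a x * cR π Φ Y x)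
    (hU : H1 U dU)
    (hth : ∀ᵐ X : Pos3, (∫ ξ, Φ ξ * U (jn p9 X ξ)) ^ 2 ≤ th * ∫ ξ, U (jn p9 X ξ) ^ 2)
    {m : Pos3 → Pos3} (hm : H1 (wN a (cR π Φ Y)) m) {U0 : Set Pos3} (hU0 : IsOpen U0)
    {A b : Pos3 → ℝ} (hA : LocallyIntegrableOn (fun x => A x * wN a (cR π Φ Y) x) U0 volume)
    (hb : LocallyIntegrableOn b U0 volume) (hb0 : ∀ᵐ X, X ∈ U0 → 0 ≤ b X)
    (hAb : ∀ᵐ X, X ∈ U0 → A X * wN a (cR π Φ Y) X ^ 2 - b X * wN a (cR π Φ Y) X ≤
      (e - En + V2 D X + gap * (1 - th) - 2 * a ^ 2) * wN a (cR π Φ Y) X ^ 2 +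
        lam * Tf a Φ Y U X) :
    WLe U0 (wN a (cR π Φ Y)) m A b where
  ims := hA
  if' := hb
  le := by
    intro φ hφ hφ0
    have hNe : ∀ X, wN a (cR π Φ Y) X = √(∑ _s : Unit, ∫ ξ, U (jn p9 X ξ) ^ 2) := by
      intro X
      rw [Finset.univ_unique, Finset.sum_singleton]
      unfold wN
      congr 1
      refine integral_congr_ae (Eventually.of_forall fun ξ => ?_)
      simp only
      rw [hUd, ew_jn]
    have hNsq : ∀ X, wN a (cR π Φ Y) X ^ 2 = ∫ ξ, U (jn p9 X ξ) ^ 2 := by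
      intro X
      rw [hNe X, Real.sq_sqrt, Finset.univ_unique, Finset.sum_singleton]
      exact Finset.sum_nonneg fun _ _ => integral_nonneg fun ξ => sq_nonneg _
    have hq := int_qf (D := D) (lam := lam) (En := En) hch.h1 hwΦ hY.h1 hwY hU
    have h1 := kato_gen p9 (f := fun _ : Unit => U) (g := fun _ => dU) (fun _ => hU)
      (N := wN a (cR π Φ Y)) hNe hm hU0 (q := qf D lam En a Φ Y U dU) (a := A) (b := b)
      (hq.locallyIntegrable.locallyIntegrableOn U0) hA hb hb0 ?_ ?_ hφ hφ0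
    · have e1 : ∫ x, (A x * wN a (cR π Φ Y) x - b x) * φ x =
          (∫ x, A x * wN a (cR π Φ Y) x * φ x) - ∫ x, b x * φ x := by
        rw [← integral_sub]
        · exact integral_congr_ae (Eventually.of_forall fun x => by simp only; ring)
        · exact integrable_mul_of_loc hA hφ.continuous hφ.cpt hφ.sub
        · exact integrable_mul_of_loc hb hφ.continuous hφ.cpt hφ.sub
      rw [e1] at h1
      linarith
    · filter_upwards [hAb, qf_ge hch hgap hπ hY hwY hUd hU hth] with X h2 h3 hX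
      have h4 := h2 hX
      rw [hNsq X] at h4
      rw [hNsq X]
      linarith
    · intro k l C hkl hk0 hkC _ hK
      have hkm := (WG.aesm hkl).1
      have h2 := core_EL ha hπ hY hch.h1 hch.par hch.eq hwY hwΦ hUd hU (k := k) (l := l) (C := C)
        hkm (fun x => by rw [abs_of_nonneg (hk0 x)]; exact hkC x) (hK ())
      rw [Finset.univ_unique, Finset.sum_singleton]
      exact h2.le

end Sy
end Crest.Agent.R335
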