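import Crest.Agent.R335.BSys
import Crest.Agent.R335.SyKato
import Crest.Agent.R335.HSpace

/-!
Row 335 (S0521), interacting side, section 3.6 (helper759): form boundedness of the Coulomb
potentials and the splitting `ℝ⁹ = ℝ³ × ℝ⁶`.
-/

set_option autoImplicit false
set_option linter.unusedSectionVars false

open MeasureTheory Filter Set Crest.MathPhysics.ThreeBody
open scoped ENNReal Topology ContDiff

noncomputable section
namespace Crest.Agent.R335

variable {ι : Type*} [Fintype ι] [DecidableEq ι]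

local notation "E" => EuclideanSpace ℝ ι
local notation "E3" => EuclideanSpace ℝ (Fin 3)

namespace Sy

/-! ### generic form bounds -/

theorem sum_inner_sq_le (g : E) (e : Fin 3 → E) :
    ∑ c, (inner ℝ g (e c)) ^ 2 ≤ (∑ c, ‖e c‖ ^ 2) * ‖g‖ ^ 2 := by
  rw [Finset.sum_mul]
  refine Finset.sum_le_sum fun c _ => ?_
  have h := abs_real_inner_le_norm g (e c)
  calc (inner ℝ g (e c)) ^ 2 = |inner ℝ g (e c)| ^ 2 := (sq_abs _).symm
    _ ≤ (‖g‖ * ‖e c‖) ^ 2 := pow_le_pow_left₀ (abs_nonneg _) h 2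
    _ = ‖e c‖ ^ 2 * ‖g‖ ^ 2 := by ring

theorem int_sum_inner_sq_le {f : E → ℝ} {g : E → E} (h : H1 f g) (e : Fin 3 → E) :
    ∫ x, ∑ c, (inner ℝ (g x) (e c)) ^ 2 ≤ (∑ c, ‖e c‖ ^ 2) * ∫ x, ‖g x‖ ^ 2 := by
  rw [← integral_const_mul]
  refine integral_mono_of_nonneg (Eventually.of_forall fun x => ?_)
    ((h.memg.norm.integrable_sq).const_mul _) (Eventually.of_forall fun x => sum_inner_sq_le _ _)
  exact Finset.sum_nonneg fun c _ => sq_nonneg _

theorem fb_coul (L : E →L[ℝ] E3) (e : Fin 3 → E)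
    (he : ∀ c, L (e c) = EuclideanSpace.single c (1 : ℝ)) (a : E3) :
    H1S.FB (fun x => 1 / ‖L x - a‖) (1 + ∑ c, ‖e c‖ ^ 2) where
  int f g h := by
    refine (I.coulomb_le h L e he a one_pos).1.congr (Eventually.of_forall fun x => ?_)
    simp only; ring
  le f g h := by
    have h1 := (I.coulomb_le h L e he a one_pos).2
    have e1 : ∫ x, 1 / ‖L x - a‖ * f x ^ 2 = ∫ x, f x ^ 2 / ‖L x - a‖ :=
      integral_congr_ae (Eventually.of_forall fun x => by simp only; ring)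
    have h2 : 0 ≤ ∫ x, f x ^ 2 / ‖L x - a‖ := integral_nonneg fun x => by positivity
    rw [e1, abs_of_nonneg h2]
    have h3 := int_sum_inner_sq_le h e
    have h4 : 0 ≤ ∫ x, f x ^ 2 := integral_nonneg fun x => by positivity
    have h5 : 0 ≤ ∫ x, ‖g x‖ ^ 2 := integral_nonneg fun x => by positivity
    have h6 : 0 ≤ ∑ c, ‖e c‖ ^ 2 := Finset.sum_nonneg fun c _ => by positivity
    nlinarith [mul_nonneg h6 h4]

/-- Hardy: `f / ‖L x - a‖ ∈ L²` -/
theorem memLp_hardy {f : E → ℝ} {g : E → E} (h : H1 f g) (L : E →L[ℝ] E3) (e : Fin 3 → E)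
    (he : ∀ c, L (e c) = EuclideanSpace.single c (1 : ℝ)) (a : E3) :
    MemLp (fun x => 1 / ‖L x - a‖ * f x) 2 volume := by
  have hm : AEStronglyMeasurable (fun x => 1 / ‖L x - a‖ * f x) volume := by
    refine AEStronglyMeasurable.mul ?_ h.memf.aestronglyMeasurable
    have : Measurable (fun x : E => 1 / ‖L x - a‖) := by
      have h1 : Measurable (fun x : E => L x) := L.continuous.measurable
      fun_prop
    exact this.aestronglyMeasurable
  rw [memLp_two_iff_integrable_sq_norm hm]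
  refine (I.hardy h L e he a).1.congr (Eventually.of_forall fun x => ?_)
  simp only
  rw [norm_mul, norm_div, norm_one, norm_norm, Real.norm_eq_abs, mul_pow, sq_abs]
  ring

/-! ### concrete coordinates -/

/-- electron `i` of `ℝ⁹` -/
def elL (i : Fin 3) : Config3 →L[ℝ] Pos3 :=
  LinearMap.toContinuousLinearMap
    { toFun := elPos i
      map_add' := fun x y => by ext c; simp [elPos]
      map_smul' := fun r x => by ext c; simp [elPos] }

@[simp] theorem elL_apply (i : Fin 3) (x : Config3) : elL i x = elPos i x := rfl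

/-- electron `j` of the ion -/
def elY (j : Fin 2) : Y2 →L[ℝ] Pos3 :=
  LinearMap.toContinuousLinearMap
    { toFun := el j
      map_add' := fun x y => by ext c; simp [el]
      map_smul' := fun r x => by ext c; simp [el] }

@[simp] theorem elY_apply (j : Fin 2) (x : Y2) : elY j x = el j x := rfl

theorem elL_single (i : Fin 3) (c : Fin 3) :
    elL i (EuclideanSpace.single (i, c) (1 : ℝ)) = EuclideanSpace.single c (1 : ℝ) := by
  ext d
  simp [elPos]

theorem elL_single_ne {i j : Fin 3} (h : i ≠ j) (c : Fin 3) :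
    elL i (EuclideanSpace.single (j, c) (1 : ℝ)) = 0 := by
  ext d
  simp [elPos, h]

theorem elY_single (i : Fin 2) (c : Fin 3) :
    elY i (EuclideanSpace.single (i, c) (1 : ℝ)) = EuclideanSpace.single c (1 : ℝ) := by
  ext d
  simp [el]

theorem elY_single_ne {i j : Fin 2} (h : i ≠ j) (c : Fin 3) :
    elY i (EuclideanSpace.single (j, c) (1 : ℝ)) = 0 := by
  ext d
  simp [el, h]

@[simp] theorem elPos0_jn (X : Pos3) (ξ : Y2) : elPos 0 (jn p9 X ξ) = X := by
  ext c; rfl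

@[simp] theorem elPos1_jn (X : Pos3) (ξ : Y2) : elPos 1 (jn p9 X ξ) = el 0 ξ := by
  ext c; rfl

@[simp] theorem elPos2_jn (X : Pos3) (ξ : Y2) : elPos 2 (jn p9 X ξ) = el 1 ξ := by
  ext c; rfl

theorem pr1_p9 (x : Config3) : pr1 p9 x = elPos 0 x := by
  ext c; rfl

theorem el0_pr2 (x : Config3) : el 0 (pr2 p9 x) = elPos 1 x := by
  ext c; rfl

theorem el1_pr2 (x : Config3) : el 1 (pr2 p9 x) = elPos 2 x := by
  ext c; rfl

/-- splitting of the potential -/
theorem V9_split (D lam : ℝ) (x : Config3) :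
    V9 D lam x = V2 D (pr1 p9 x) + Vion D lam (pr2 p9 x) + lam * WX (pr1 p9 x) (pr2 p9 x) := by
  unfold V9 Vion WX
  rw [pr1_p9, el0_pr2, el1_pr2]
  ring

/-! ### form bounds of the concrete potentials -/

theorem fb_congr {V V' : E → ℝ} {C : ℝ} (h : H1S.FB V C) (e : ∀ x, V x = V' x) :
    H1S.FB V' C := by
  have : V = V' := funext e
  rwa [this] at h

theorem single_inner_half (i j : Fin 3) (hij : i ≠ j) (c : Fin 3) :
    (elL i - elL j) ((1 / 2 : ℝ) • (EuclideanSpace.single (i, c) (1 : ℝ) -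
      EuclideanSpace.single (j, c) (1 : ℝ))) = EuclideanSpace.single c (1 : ℝ) := by
  rw [map_smul, map_sub, ContinuousLinearMap.sub_apply, ContinuousLinearMap.sub_apply,
    elL_single, elL_single, elL_single_ne hij, elL_single_ne hij.symm]
  module

theorem single_inner_halfY (i j : Fin 2) (hij : i ≠ j) (c : Fin 3) :
    (elY i - elY j) ((1 / 2 : ℝ) • (EuclideanSpace.single (i, c) (1 : ℝ) -
      EuclideanSpace.single (j, c) (1 : ℝ))) = EuclideanSpace.single c (1 : ℝ) := by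
  rw [map_smul, map_sub, ContinuousLinearMap.sub_apply, ContinuousLinearMap.sub_apply,
    elY_single, elY_single, elY_single_ne hij, elY_single_ne hij.symm]
  module

/-- `V2 ∘ L` is form bounded -/
theorem fb_V2L (D : ℝ) (L : E →L[ℝ] E3) (e : Fin 3 → E)
    (he : ∀ c, L (e c) = EuclideanSpace.single c (1 : ℝ)) :
    ∃ C, H1S.FB (fun x => V2 D (L x)) C := by
  have h1 := fb_coul L e he (nuc D)
  have h2 := fb_coul L e he (nuc (-D))
  refine ⟨_, fb_congr ((h1.const_mul (-1)).add (h2.const_mul (-1))) fun x => ?_⟩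
  unfold V2
  ring

theorem fb_V2 (D : ℝ) : ∃ C, H1S.FB (V2 D) C :=
  fb_V2L D (ContinuousLinearMap.id ℝ _) (fun c => EuclideanSpace.single c (1 : ℝ)) (fun c => rfl)

theorem fb_Vion (D lam : ℝ) : ∃ C, H1S.FB (Vion D lam) C := by
  obtain ⟨C0, h0⟩ := fb_V2L D (elY 0) _ (elY_single 0)
  obtain ⟨C1, h1⟩ := fb_V2L D (elY 1) _ (elY_single 1)
  have h2 := fb_coul (elY 0 - elY 1) _ (single_inner_halfY 0 1 (by decide)) 0
  refine ⟨_, fb_congr ((h0.add h1).add (h2.const_mul lam)) fun x => ?_⟩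
  unfold Vion
  simp only [elY_apply, ContinuousLinearMap.sub_apply, sub_zero]
  ring

/-- the coupling potential on `ℝ⁹` -/
theorem fb_W : ∃ C, H1S.FB (fun x : Config3 => WX (pr1 p9 x) (pr2 p9 x)) C := by
  have h1 := fb_coul (elL 0 - elL 1) _ (single_inner_half 0 1 (by decide)) 0
  have h2 := fb_coul (elL 0 - elL 2) _ (single_inner_half 0 2 (by decide)) 0
  refine ⟨_, fb_congr (h1.add h2) fun x => ?_⟩
  unfold WX
  rw [pr1_p9, el0_pr2, el1_pr2]
  simp only [elL_apply, ContinuousLinearMap.sub_apply, sub_zero]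

/-- the potential of the electron `0` on `ℝ⁹` -/
theorem fb_V2X (D : ℝ) : ∃ C, H1S.FB (fun x : Config3 => V2 D (pr1 p9 x)) C := by
  obtain ⟨C0, h0⟩ := fb_V2L D (elL 0) _ (elL_single 0)
  exact ⟨C0, fb_congr h0 fun x => by rw [elL_apply, pr1_p9]⟩

/-- the ion potential on `ℝ⁹` -/
theorem fb_VionX (D lam : ℝ) : ∃ C, H1S.FB (fun x : Config3 => Vion D lam (pr2 p9 x)) C := by
  obtain ⟨C0, h0⟩ := fb_V2L D (elL 1) _ (elL_single 1)
  obtain ⟨C1, h1⟩ := fb_V2L D (elL 2) _ (elL_single 2)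
  have h2 := fb_coul (elL 1 - elL 2) _ (single_inner_half 1 2 (by decide)) 0
  refine ⟨_, fb_congr ((h0.add h1).add (h2.const_mul lam)) fun x => ?_⟩
  unfold Vion
  rw [el0_pr2, el1_pr2]
  simp only [elL_apply, ContinuousLinearMap.sub_apply, sub_zero]
  ring

/-- `V₉` without the coupling -/
def V0 (D lam : ℝ) (x : Config3) : ℝ := V2 D (pr1 p9 x) + Vion D lam (pr2 p9 x)

theorem fb_V0 (D lam : ℝ) : ∃ C, H1S.FB (V0 D lam) C := by
  obtain ⟨C0, h0⟩ := fb_V2X D
  obtain ⟨C1, h1⟩ := fb_VionX D lam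
  exact ⟨_, h0.add h1⟩

theorem fb_V9 (D lam : ℝ) : ∃ C, H1S.FB (V9 D lam) C := by
  obtain ⟨C0, h0⟩ := fb_V0 D lam
  obtain ⟨C1, h1⟩ := fb_W
  exact ⟨_, fb_congr (h0.add (h1.const_mul lam)) fun x => (V9_split D lam x).symm⟩

/-- Hardy on `ℝ⁹` for the coupling -/
theorem memLp_W {f : Config3 → ℝ} {g : Config3 → Config3} (h : H1 f g) :
    MemLp (fun x => WX (pr1 p9 x) (pr2 p9 x) * f x) 2 volume := by
  have h1 := memLp_hardy h (elL 0 - elL 1) _ (single_inner_half 0 1 (by decide)) 0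
  have h2 := memLp_hardy h (elL 0 - elL 2) _ (single_inner_half 0 2 (by decide)) 0
  refine (memLp_congr_ae (Eventually.of_forall fun x => ?_)).1 (h1.add h2)
  simp only [Pi.add_apply]
  unfold WX
  rw [pr1_p9, el0_pr2, el1_pr2]
  simp only [elL_apply, ContinuousLinearMap.sub_apply, sub_zero]
  ring

/-- Hardy on `ℝ⁶` for the coupling -/
theorem memLp_WX {f : Y2 → ℝ} {g : Y2 → Y2} (h : H1 f g) (X : Pos3) :
    MemLp (fun ξ => WX X ξ * f ξ) 2 volume := by
  have h1 := memLp_hardy h (elY 0) _ (elY_single 0) X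
  have h2 := memLp_hardy h (elY 1) _ (elY_single 1) X
  refine (memLp_congr_ae (Eventually.of_forall fun x => ?_)).1 (h1.add h2)
  simp only [Pi.add_apply]
  unfold WX
  rw [elY_apply, elY_apply, norm_sub_rev X, norm_sub_rev X]
  ring

/-- uniform bound of `∫ (W_X f)²` -/
theorem int_WX_sq_le {f : Y2 → ℝ} {g : Y2 → Y2} (h : H1 f g) (X : Pos3) :
    ∫ ξ, (WX X ξ * f ξ) ^ 2 ≤ 16 * ∫ ξ, ‖g ξ‖ ^ 2 := by
  have h1 := I.hardy h (elY 0) _ (elY_single 0) X
  have h2 := I.hardy h (elY 1) _ (elY_single 1) X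
  have h3 : (∫ ξ, (∑ c, (inner ℝ (g ξ) (EuclideanSpace.single ((0 : Fin 2), c) (1 : ℝ))) ^ 2)) +
      (∫ ξ, (∑ c, (inner ℝ (g ξ) (EuclideanSpace.single ((1 : Fin 2), c) (1 : ℝ))) ^ 2)) =
      ∫ ξ, ‖g ξ‖ ^ 2 := by
    have hi : ∀ j : Fin 2, Integrable (fun ξ => ∑ c, (inner ℝ (g ξ)
        (EuclideanSpace.single (j, c) (1 : ℝ))) ^ 2) := by
      intro j
      have hg : Integrable (fun ξ => ‖g ξ‖ ^ 2) := h.memg.norm.integrable_sq
      refine (hg.const_mul (∑ c : Fin 3, ‖(EuclideanSpace.single (j, c) (1 : ℝ) : Y2)‖ ^ 2)).mono'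
        ?_ (Eventually.of_forall fun ξ => ?_)
      · have := h.memg.aestronglyMeasurable
        refine Finset.aestronglyMeasurable_fun_sum _ fun c _ => ?_
        exact (this.inner aestronglyMeasurable_const).pow 2
      · rw [Real.norm_eq_abs, abs_of_nonneg (Finset.sum_nonneg fun c _ => sq_nonneg _)]
        exact sum_inner_sq_le _ _
    rw [← integral_add (hi 0) (hi 1)]
    refine integral_congr_ae (Eventually.of_forall fun ξ => ?_)
    simp only
    rw [EuclideanSpace.norm_sq_eq, Fintype.sum_prod_type, Fin.sum_univ_two]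
    simp [EuclideanSpace.inner_single_right]
  have e : ∀ ξ, (WX X ξ * f ξ) ^ 2 ≤ 2 * (f ξ ^ 2 / ‖elY 0 ξ - X‖ ^ 2) +
      2 * (f ξ ^ 2 / ‖elY 1 ξ - X‖ ^ 2) := by
    intro ξ
    unfold WX
    rw [elY_apply, elY_apply, norm_sub_rev X, norm_sub_rev X]
    have : (1 / ‖el 0 ξ - X‖ + 1 / ‖el 1 ξ - X‖) ^ 2 ≤
        2 * (1 / ‖el 0 ξ - X‖) ^ 2 + 2 * (1 / ‖el 1 ξ - X‖) ^ 2 := by
      nlinarith [sq_nonneg (1 / ‖el 0 ξ - X‖ - 1 / ‖el 1 ξ - X‖)]
    calc ((1 / ‖el 0 ξ - X‖ + 1 / ‖el 1 ξ - X‖) * f ξ) ^ 2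
        = (1 / ‖el 0 ξ - X‖ + 1 / ‖el 1 ξ - X‖) ^ 2 * f ξ ^ 2 := by ring
      _ ≤ (2 * (1 / ‖el 0 ξ - X‖) ^ 2 + 2 * (1 / ‖el 1 ξ - X‖) ^ 2) * f ξ ^ 2 :=
          mul_le_mul_of_nonneg_right this (sq_nonneg _)
      _ = _ := by ring
  calc ∫ ξ, (WX X ξ * f ξ) ^ 2
      ≤ ∫ ξ, (2 * (f ξ ^ 2 / ‖elY 0 ξ - X‖ ^ 2) + 2 * (f ξ ^ 2 / ‖elY 1 ξ - X‖ ^ 2)) :=
        integral_mono_of_nonneg (Eventually.of_forall fun ξ => sq_nonneg _)
          ((h1.1.const_mul 2).add (h2.1.const_mul 2)) (Eventually.of_forall e)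
    _ = 2 * (∫ ξ, f ξ ^ 2 / ‖elY 0 ξ - X‖ ^ 2) + 2 * ∫ ξ, f ξ ^ 2 / ‖elY 1 ξ - X‖ ^ 2 := by
        rw [integral_add (h1.1.const_mul 2) (h2.1.const_mul 2), integral_const_mul,
          integral_const_mul]
    _ ≤ 16 * ∫ ξ, ‖g ξ‖ ^ 2 := by
        rw [← h3]
        have n0 : 0 ≤ ∫ ξ, (∑ c, (inner ℝ (g ξ)
          (EuclideanSpace.single ((0 : Fin 2), c) (1 : ℝ))) ^ 2) :=
          integral_nonneg fun ξ => Finset.sum_nonneg fun c _ => sq_nonneg _
        have n1 : 0 ≤ ∫ ξ, (∑ c, (inner ℝ (g ξ)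
          (EuclideanSpace.single ((1 : Fin 2), c) (1 : ℝ))) ^ 2) :=
          integral_nonneg fun ξ => Finset.sum_nonneg fun c _ => sq_nonneg _
        linarith [h1.2, h2.2]

end Sy
end Crest.Agent.R335
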