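import Crest.Agent.R335.SyCore
import Crest.Agent.R335.BSys

/-!
Row 335 (S0521), interacting side, section 3.6 (helper759): weak equation of a projection
`F = ⟨Φ, Y(X)⟩`.
-/

set_option autoImplicit false
set_option linter.unusedSectionVars false

open MeasureTheory Filter Set Crest.MathPhysics.ThreeBody
open scoped ENNReal Topology ContDiff

noncomputable section
namespace Crest.Agent.R335
namespace Sy

theorem memLp_V2 (D : ℝ) {f : Pos3 → ℝ} {g : Pos3 → Pos3} (h : H1 f g) :
    MemLp (fun x => V2 D x * f x) 2 volume := by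
  have h1 := memLp_hardy h (ContinuousLinearMap.id ℝ _) (fun c => EuclideanSpace.single c (1 : ℝ))
    (fun c => rfl) (nuc D)
  have h2 := memLp_hardy h (ContinuousLinearMap.id ℝ _) (fun c => EuclideanSpace.single c (1 : ℝ))
    (fun c => rfl) (nuc (-D))
  refine (h1.add h2).neg.ae_eq (Eventually.of_forall fun x => ?_)
  simp only [Pi.neg_apply, Pi.add_apply, ContinuousLinearMap.id_apply, V2]
  ring

theorem locInt_of_memLp {f : Pos3 → ℝ} (h : MemLp f 2 volume) (U : Set Pos3) :
    LocallyIntegrableOn f U volume :=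
  (h.locallyIntegrable (by norm_num)).locallyIntegrableOn U

/-- integrability of `χ ⟨Φ, W_X Y⟩` -/
theorem int_WY {Y : Config3 → ℝ} {dY : Config3 → Config3} (hY : H1 Y dY) {Φ : Y2 → ℝ}
    (hΦ : MemLp Φ 2 volume) {χ : Pos3 → ℝ} (hχ : MemLp χ 2 volume) :
    Integrable (fun X => χ X * WY Φ Y X) ∧
      ∫ x, W9 x * (Y x * tn p9 χ Φ x) = ∫ X, χ X * WY Φ Y X := by
  have h1 : MemLp (fun x : Config3 => W9 x * Y x) 2 volume := memLp_W hY
  have h2 : MemLp (tn p9 χ Φ) 2 volume := HS.memLp_tensor p9 hχ hΦ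
  have h3 : Integrable (fun x => W9 x * (Y x * tn p9 χ Φ x)) :=
    (int_mul2 h1 h2).congr (Eventually.of_forall fun x => by simp only; ring)
  have e : ∀ X : Pos3, ∫ ξ : Y2, W9 (jn p9 X ξ) * (Y (jn p9 X ξ) * tn p9 χ Φ (jn p9 X ξ)) =
      χ X * WY Φ Y X := by
    intro X
    unfold WY
    rw [← integral_const_mul]
    refine integral_congr_ae (Eventually.of_forall fun ξ => ?_)
    simp only [W9_jn, tn, pr1_jn, pr2_jn]
    ring
  constructor
  · exact (int_jn_left p9 h3).congr (Eventually.of_forall fun X => e X)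
  · rw [I.integral_jn p9 h3]
    exact integral_congr_ae (Eventually.of_forall fun X => e X)

theorem locInt_WY {Y : Config3 → ℝ} {dY : Config3 → Config3} (hY : H1 Y dY) {Φ : Y2 → ℝ}
    (hΦ : MemLp Φ 2 volume) : LocallyIntegrable (WY Φ Y) volume := by
  rw [locallyIntegrable_iff]
  intro K hK
  have h1 : MemLp (K.indicator fun _ : Pos3 => (1 : ℝ)) 2 volume :=
    memLp_indicator_const 2 hK.measurableSet 1 (Or.inr hK.measure_lt_top.ne)
  have h2 := (int_WY hY hΦ h1).1
  have h3 : (fun X => K.indicator (fun _ : Pos3 => (1 : ℝ)) X * WY Φ Y X) =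
      K.indicator (WY Φ Y) := by
    funext X
    by_cases h : X ∈ K <;> simp [h]
  rw [h3] at h2
  exact (integrable_indicator_iff hK.measurableSet).1 h2

/-- weak equation of the projection -/
theorem proj_WEq {D lam En σ e : ℝ} {Y : Config3 → ℝ} {dY : Config3 → Config3}
    (hY : Chan D lam En σ Y dY) {Φ : Y2 → ℝ} {dΦ : Y2 → Y2} (hΦ : H1 Φ dΦ)
    (heq : ∀ k dk, H1 k dk → k2 D lam Φ dΦ k dk = e * ∫ ξ, Φ ξ * k ξ) {κ : ℝ}
    (hκ : κ ^ 2 = 2 * (e - En)) (U : Set Pos3) :
    WEq U (cF Φ Y) (dcF Φ dY) (mL D lam κ)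
      (fun X => -lam * (WY Φ Y X + V2 D X * cF Φ Y X)) := by
  have hF := cF_H1 hY.h1 hΦ.memf
  have hV := memLp_V2 D hF
  have hm : MemLp (fun x => mL D lam κ x * cF Φ Y x) 2 volume := by
    refine ((hF.memf.const_mul (κ ^ 2 / 2)).add (hV.const_mul (1 - lam))).ae_eq
      (Eventually.of_forall fun x => ?_)
    simp only [Pi.add_apply, mL]; ring
  have hW := locInt_WY hY.h1 hΦ.memf
  have hVl := locInt_of_memLp hV U
  have hs : LocallyIntegrableOn (fun X => -lam * (WY Φ Y X + V2 D X * cF Φ Y X)) U volume :=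
    ((hW.locallyIntegrableOn U).add hVl).smul (-lam)
  refine ⟨locInt_of_memLp hm U, hs, fun φ hφ => ?_⟩
  have hφ1 := Crest.Agent.R335.H1.of_test hφ
  have h1 := proj_eq hY hΦ heq hφ1
  obtain ⟨i1, e1⟩ := int_WY hY.h1 hΦ.memf hφ1.memf
  rw [e1] at h1
  have i2 : Integrable (fun x => V2 D x * cF Φ Y x * φ x) := int_mul2 hV hφ1.memf
  have i3 : Integrable (fun x => cF Φ Y x * φ x) := int_mul2 hF.memf hφ1.memf
  have e2 : ∫ X, (V2 D X + e - En) * (cF Φ Y X * φ X) =
      (∫ X, V2 D X * cF Φ Y X * φ X) + (e - En) * ∫ X, cF Φ Y X * φ X := by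
    rw [← integral_const_mul, ← integral_add i2 (i3.const_mul _)]
    exact integral_congr_ae (Eventually.of_forall fun x => by simp only; ring)
  have e3 : ∫ X, mL D lam κ X * cF Φ Y X * φ X =
      (e - En) * (∫ X, cF Φ Y X * φ X) + (1 - lam) * ∫ X, V2 D X * cF Φ Y X * φ X := by
    rw [← integral_const_mul, ← integral_const_mul, ← integral_add (i3.const_mul _)
      (i2.const_mul _)]
    refine integral_congr_ae (Eventually.of_forall fun x => ?_)
    simp only [mL]
    rw [hκ]; ring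
  have e4 : ∫ X, -lam * (WY Φ Y X + V2 D X * cF Φ Y X) * φ X =
      -lam * (∫ X, φ X * WY Φ Y X) - lam * ∫ X, V2 D X * cF Φ Y X * φ X := by
    rw [← integral_const_mul, ← integral_const_mul, ← integral_sub (i1.const_mul _)
      (i2.const_mul _)]
    exact integral_congr_ae (Eventually.of_forall fun x => by simp only; ring)
  rw [e2] at h1
  rw [e3, e4]
  linarith

end Sy
end Crest.Agent.R335
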