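import Crest.Agent.R335.SyTh
import Crest.Agent.R335.SyFib
import Crest.Agent.R335.SyPrj
import Crest.Agent.R335.VecFW

/-!
Row 335 (S0521), interacting side, section 3.6 (helper759): weak inequality of the weighted norm of
the remainder, from a bound of the coupling.
-/

set_option autoImplicit false
set_option linter.unusedSectionVars false

open MeasureTheory Filter Set Crest.MathPhysics.ThreeBody
open scoped ENNReal Topology ContDiff

noncomputable section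
namespace Crest.Agent.R335
namespace Sy

/-- ion states with smaller weights -/
theorem ionW_H1 {C0 D K a : ℝ} {Φ : Y2 → ℝ} (h : IonW C0 D K a Φ) {b : ℝ}
    (hb : b ≤ 4 * a) : ∃ d, H1 (ep b Φ) d := by
  obtain ⟨d, hd, -⟩ := h.w4
  obtain ⟨G, hG⟩ : ∃ G : Y2 → ℝ, G = fun ξ => (4 * a - b) * wi ξ := ⟨_, rfl⟩
  have hab : 0 ≤ 4 * a - b := by linarith
  have hG0 : ∀ x, 0 ≤ G x := fun x => by
    rw [hG]
    have := two_le_wi x
    exact mul_nonneg hab (by linarith)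
  have hGl : LipschitzWith (‖(4 * a - b)‖₊ * 2) G := by
    rw [hG]
    refine LipschitzWith.of_dist_le_mul fun x y => ?_
    have := wi_lip.dist_le_mul x y
    rw [Real.dist_eq] at this ⊢
    rw [← mul_sub, abs_mul, NNReal.coe_mul, coe_nnnorm, Real.norm_eq_abs, mul_assoc]
    exact mul_le_mul_of_nonneg_left this (abs_nonneg _)
  have hm := Crest.Agent.R335.WG.of_lipschitz (VecF.exp_neg_lip hGl hG0)
  have h1 := Crest.Agent.R335.H1.mul_bdd (C := max 1 ((‖(4 * a - b)‖₊ * 2 : NNReal) : ℝ)) hd hm.1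
    (fun x => ?_) (fun x => (hm.2 x).trans (le_max_right _ _))
  · refine ⟨_, h1.congr (Eventually.of_forall fun x => ?_) (Filter.EventuallyEq.refl _ _)⟩
    simp only
    rw [← mul_assoc, ← Real.exp_add]
    unfold ep
    congr 2
    rw [hG]
    ring
  · rw [abs_of_pos (Real.exp_pos _)]
    exact (Real.exp_le_one_iff.2 (by linarith [hG0 x])).trans (le_max_left _ _)

/-- the remainder norm is in `H¹` -/
theorem wN_H1 {a : ℝ} {Γ U : Config3 → ℝ} {dU : Config3 → Config3}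
    (hUd : ∀ x, U x = ew a x * Γ x) (hU : H1 U dU) : ∃ m, H1 (wN a Γ) m := by
  obtain ⟨m, hm, -⟩ := I.H1.pnorm p9 (f := fun _ : Unit => U) (g := fun _ => dU) (fun _ => hU)
  refine ⟨m, ?_⟩
  have e : (fun X : Pos3 => √(∑ _s : Unit, ∫ ξ, U (jn p9 X ξ) ^ 2)) = wN a Γ := by
    funext X
    rw [Finset.univ_unique, Finset.sum_singleton]
    unfold wN
    congr 1
    refine integral_congr_ae (Eventually.of_forall fun ξ => ?_)
    simp only
    rw [hUd, ew_jn]
  rwa [e] at hm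

/-- weak inequality of the remainder -/
theorem rem_WLe {D lam En σ e gap π a C0 Dd K κ : ℝ} (ha : 0 < a) (hlam : 0 ≤ lam) {Φ : Y2 → ℝ}
    {dΦ : Y2 → Y2} (hch : IonCh D lam σ π e gap Φ dΦ) (hgap : 0 ≤ gap)
    (hW : IonW C0 Dd K a Φ) (hπ : π = 1 ∨ π = -1) {Y : Config3 → ℝ} {dY : Config3 → Config3}
    (hY : Chan D lam En σ Y dY) (hwY : ∃ d, H1 (fun x => ew a x * Y x) d)
    (hκ : κ ^ 2 = 2 * (e - En)) {R c1 C1 : ℝ} (hR : ∀ X : Pos3, R < ‖X‖ → |V2 D X| ≤ 1)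
    {b : Pos3 → ℝ} (hb : LocallyIntegrableOn b (Ext R) volume) (hb0 : ∀ X, 0 ≤ b X)
    (hc : c1 + 2 * a ^ 2 + lam * (1 + C1) ≤ gap * (4 / 5))
    (hT : ∀ᵐ X : Pos3, R < ‖X‖ →
      -(C1 * wN a (cR π Φ Y) X + b X) * wN a (cR π Φ Y) X ≤
        Tf a Φ Y (fun x => ew a x * cR π Φ Y x) X) :
    ∃ d, H1 (wN a (cR π Φ Y)) d ∧
      WLe (Ext R) (wN a (cR π Φ Y)) d (fun x => mL D lam κ x + c1) (fun X => lam * b X) := by
  have hwΦ : ∃ d, H1 (wΦ a Φ) d := ionW_H1 hW (by linarith)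
  obtain ⟨dU, hU⟩ := U_H1 (π := π) hY.h1 hch.h1.memf hwY hwΦ
  obtain ⟨m, hm⟩ := wN_H1 (Γ := cR π Φ Y) (U := fun x => ew a x * cR π Φ Y x) (fun x => rfl) hU
  refine ⟨m, hm, ?_⟩
  have hth := th_ae ha hW hch.nrm hπ hch.par hch.h1.memf hY.h1.memf
    (U := fun x => ew a x * cR π Φ Y x) (fun x => rfl) hU.memf
  have hopen : IsOpen (Ext R) := isOpen_lt continuous_const continuous_norm
  have hA : LocallyIntegrableOn (fun x => (mL D lam κ x + c1) * wN a (cR π Φ Y) x) (Ext R)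
      volume := by
    refine locInt_of_memLp (f := fun x => (mL D lam κ x + c1) * wN a (cR π Φ Y) x) ?_ _
    refine ((hm.memf.const_mul (κ ^ 2 / 2 + c1)).add ((memLp_V2 D hm).const_mul
      (1 - lam))).ae_eq (Eventually.of_forall fun x => ?_)
    simp only [Pi.add_apply, mL]; ring
  refine kato_core ha.le hch hgap hπ hY hwY hwΦ (fun x => rfl) hU hth hm hopen hA
    (hb.smul lam) (Eventually.of_forall fun X _ => mul_nonneg hlam (hb0 X)) ?_
  filter_upwards [hT] with X hX hXR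
  have h1 := hX hXR
  have h2 := abs_le.1 (hR X hXR)
  have hN0 : 0 ≤ wN a (cR π Φ Y) X := Real.sqrt_nonneg _
  obtain ⟨N, hN⟩ : ∃ N, N = wN a (cR π Φ Y) X := ⟨_, rfl⟩
  rw [← hN] at h1 hN0 ⊢
  have h3 := mul_le_mul_of_nonneg_left h1 hlam
  have h4 : 0 ≤ N ^ 2 := sq_nonneg N
  have h5 := mul_le_mul_of_nonneg_right hc h4
  have h6 : lam * (-V2 D X) * N ^ 2 ≤ lam * 1 * N ^ 2 :=
    mul_le_mul_of_nonneg_right (mul_le_mul_of_nonneg_left (by linarith) hlam) h4
  have h7 : mL D lam κ X = e - En + (1 - lam) * V2 D X := by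
    unfold mL; rw [hκ]; ring
  rw [h7]
  nlinarith [h3, h5, h6]

end Sy
end Crest.Agent.R335
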