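import Crest.Agent.R335.VSCpl
import Crest.Agent.R335.VecFB
import Crest.Agent.R335.SyKc
import Crest.Agent.R335.MultD
import Crest.Agent.R335.BIface

/-!
Row 335 (S0521), interacting side (helper565): the fibrewise estimates of the couplings in the
scalar system `sys_S`, `sys_T`.
-/

set_option autoImplicit false
set_option linter.unusedSectionVars false
set_option linter.unusedVariables false

open MeasureTheory Filter Set Crest.MathPhysics.ThreeBody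
open scoped ENNReal Topology ContDiff

noncomputable section
namespace Crest.Agent.R335
namespace Src
open VS Mult

/-- part of parity `π` on the fibre -/
def pt (π : ℝ) (y : Y2 → ℝ) (ξ : Y2) : ℝ := (y ξ + π * y (rxi ξ)) / 2

/-- data on one fibre -/
structure Fb (a : ℝ) (X : Pos3) (π : ℝ) (Φ Φ' y : Y2 → ℝ) (d q μ μ' b b' : ℝ) : Prop where
  ha : 0 ≤ a
  hX : 0 < ‖X‖
  hπ : π = 1 ∨ π = -1
  pΦ : ∀ ξ, Φ (rxi ξ) = π * Φ ξ
  pΦ' : ∀ ξ, Φ' (rxi ξ) = -π * Φ' ξ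
  nΦ : (∫ ξ, Φ ξ ^ 2 = 1) ∨ (∀ ξ, Φ ξ = 0)
  mΦ : MemLp (fun ξ => Real.exp (a * wi ξ) * Φ ξ) 2 volume
  mΦ' : MemLp (fun ξ => Real.exp (a * wi ξ) * Φ' ξ) 2 volume
  my : MemLp (fun ξ => Real.exp (a * wi ξ) * y ξ) 2 volume
  mWΦ : ∀ Z : Pos3, MemLp (fun ξ => Real.exp (a * wi ξ) * (WX Z ξ * Φ ξ)) 2 volume
  mWΦ' : ∀ Z : Pos3, MemLp (fun ξ => Real.exp (a * wi ξ) * (WX Z ξ * Φ' ξ)) 2 volume
  mWy : ∀ Z : Pos3, MemLp (fun ξ => Real.exp (a * wi ξ) * (WX Z ξ * y ξ)) 2 volume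
  iΦ : l2 volume (fun ξ => Real.exp (a * wi ξ) * Φ ξ) ≤ 2
  iΦ1 : l2 volume Φ ≤ 1
  hd : |(∫ ξ, WX X ξ * Φ ξ ^ 2) - 2 / ‖X‖ * ∫ ξ, Φ ξ ^ 2| ≤ d
  hq : l2 volume (fun ξ => Real.exp (a * wi ξ) * ((WX X ξ - 2 / ‖X‖) * Φ ξ)) ≤ q
  hμ : l2 volume (fun ξ => Real.exp (a * wi ξ) * (Wm X ξ * Φ ξ)) ≤ μ
  hμ' : l2 volume (fun ξ => Real.exp (a * wi ξ) * (Wm X ξ * Φ' ξ)) ≤ μ'
  hb : l2 (volume.restrict (Far X)) (fun ξ => Real.exp (a * wi ξ) * (WX X ξ * y ξ)) ≤ b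
  hbr : l2 (volume.restrict (Far X)) (fun ξ => Real.exp (a * wi ξ) * (WX (rz X) ξ * y ξ)) ≤ b
  hb' : l2 (volume.restrict (Far X)) (fun ξ => Real.exp (a * wi ξ) * (WX X ξ * Φ' ξ)) ≤ b'
  hbr' : l2 (volume.restrict (Far X)) (fun ξ => Real.exp (a * wi ξ) * (WX (rz X) ξ * Φ' ξ)) ≤ b'

theorem rxi_rxi' (ξ : Y2) : rxi (rxi ξ) = ξ := rxi_rxi ξ

theorem pt_rxi {π : ℝ} (hπ : π = 1 ∨ π = -1) (y : Y2 → ℝ) (ξ : Y2) :
    pt π y (rxi ξ) = π * pt π y ξ := by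
  unfold pt
  rw [rxi_rxi]
  rcases hπ with rfl | rfl <;> ring

theorem pt_add (π : ℝ) (y : Y2 → ℝ) (ξ : Y2) : y ξ = pt π y ξ + pt (-π) y ξ := by
  unfold pt; ring

/-- `L²` of a function of the form `e^{aw} T pt π y` -/
theorem memLp_pt {a : ℝ} {T Tr : Y2 → ℝ} (hT : ∀ ξ, Tr (rxi ξ) = T ξ) (π : ℝ) {y : Y2 → ℝ}
    (h1 : MemLp (fun ξ => Real.exp (a * wi ξ) * (T ξ * y ξ)) 2 volume)
    (h2 : MemLp (fun ξ => Real.exp (a * wi ξ) * (Tr ξ * y ξ)) 2 volume) :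
    MemLp (fun ξ => Real.exp (a * wi ξ) * (T ξ * pt π y ξ)) 2 volume := by
  have h3 := VecF.memLp_rxi h2
  simp only [wi_rxi, hT] at h3
  refine ((h1.add (h3.const_mul π)).const_mul (1 / 2)).ae_eq (ae_of_all _ fun ξ => ?_)
  simp only [Pi.add_apply]
  unfold pt
  ring

theorem l2_far_pt {a : ℝ} {X : Pos3} {T Tr : Y2 → ℝ} (hT : ∀ ξ, Tr (rxi ξ) = T ξ) {π : ℝ}
    (hπ : π = 1 ∨ π = -1) {y : Y2 → ℝ} {b : ℝ}
    (h1 : MemLp (fun ξ => Real.exp (a * wi ξ) * (T ξ * y ξ)) 2 volume)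
    (h2 : MemLp (fun ξ => Real.exp (a * wi ξ) * (Tr ξ * y ξ)) 2 volume)
    (b1 : l2 (volume.restrict (Far X)) (fun ξ => Real.exp (a * wi ξ) * (T ξ * y ξ)) ≤ b)
    (b2 : l2 (volume.restrict (Far X)) (fun ξ => Real.exp (a * wi ξ) * (Tr ξ * y ξ)) ≤ b) :
    l2 (volume.restrict (Far X)) (fun ξ => Real.exp (a * wi ξ) * (T ξ * pt π y ξ)) ≤ b := by
  have h3 := VecF.memLp_rxi h2
  simp only [wi_rxi, hT] at h3
  have b3 := l2_Far_rxi X (fun ξ => Real.exp (a * wi ξ) * (Tr ξ * y ξ))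
  simp only [wi_rxi, hT] at b3
  have e : ∀ ξ, Real.exp (a * wi ξ) * (T ξ * pt π y ξ) =
      (1 / 2) * (Real.exp (a * wi ξ) * (T ξ * y ξ)) +
        (π / 2) * (Real.exp (a * wi ξ) * (T ξ * y (rxi ξ))) := fun ξ => by
    unfold pt; ring
  simp only [e]
  refine (l2_add_le ((h1.restrict _).const_mul _) ((h3.restrict _).const_mul _)).trans ?_
  rw [l2_const_mul, l2_const_mul, b3]
  have e1 : |π / 2| = 1 / 2 := by
    rcases hπ with rfl | rfl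
    · norm_num
    · rw [abs_div, abs_neg]; norm_num
  have e2 : |(1 : ℝ) / 2| = 1 / 2 := abs_of_pos (by norm_num)
  rw [e1, e2]
  linarith

namespace Fb
variable {a : ℝ} {X : Pos3} {π : ℝ} {Φ Φ' y : Y2 → ℝ} {d q μ μ' b b' : ℝ}
  (h : Fb a X π Φ Φ' y d q μ μ' b b')

/-- remainder of parity `π` -/
def G (π : ℝ) (Φ y : Y2 → ℝ) (ξ : Y2) : ℝ := pt π y ξ - (∫ η, Φ η * y η) * Φ ξ

theorem WXr (X : Pos3) (ξ : Y2) : WX (rz X) (rxi ξ) = WX X ξ := by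
  rw [WX_rxi, ob_rz_rz]

theorem WXr' (X : Pos3) (ξ : Y2) : WX X (rxi ξ) = WX (rz X) ξ := WX_rxi X ξ

include h in
theorem hπ' : -π = 1 ∨ -π = -1 := by
  rcases h.hπ with h1 | h1
  · right; rw [h1]
  · left; rw [h1]; ring

include h in
theorem mG : MemLp (fun ξ => Real.exp (a * wi ξ) * G π Φ y ξ) 2 volume := by
  have h1 : MemLp (fun ξ => Real.exp (a * wi ξ) * ((1 : ℝ) * y ξ)) 2 volume := by
    simpa only [one_mul] using h.my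
  have h2 := memLp_pt (a := a) (T := fun _ => 1) (Tr := fun _ => 1) (fun _ => rfl) π h1 h1
  refine (h2.sub (h.mΦ.const_mul (∫ η, Φ η * y η))).ae_eq (ae_of_all _ fun ξ => ?_)
  simp only [Pi.sub_apply]
  unfold G; ring

include h in
theorem mG' : MemLp (fun ξ => Real.exp (a * wi ξ) * G (-π) Φ' y ξ) 2 volume := by
  have h1 : MemLp (fun ξ => Real.exp (a * wi ξ) * ((1 : ℝ) * y ξ)) 2 volume := by
    simpa only [one_mul] using h.my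
  have h2 := memLp_pt (a := a) (T := fun _ => 1) (Tr := fun _ => 1) (fun _ => rfl) (-π) h1 h1
  refine (h2.sub (h.mΦ'.const_mul (∫ η, Φ' η * y η))).ae_eq (ae_of_all _ fun ξ => ?_)
  simp only [Pi.sub_apply]
  unfold G; ring

include h in
theorem mWG (Z : Pos3) : MemLp (fun ξ => Real.exp (a * wi ξ) * (WX Z ξ * G π Φ y ξ)) 2 volume := by
  have h2 := memLp_pt (a := a) (T := WX Z) (Tr := WX (rz Z)) (fun ξ => WXr Z ξ) π (h.mWy Z)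
    (h.mWy (rz Z))
  refine (h2.sub ((h.mWΦ Z).const_mul (∫ η, Φ η * y η))).ae_eq (ae_of_all _ fun ξ => ?_)
  simp only [Pi.sub_apply]
  unfold G; ring

include h in
theorem mWG' (Z : Pos3) :
    MemLp (fun ξ => Real.exp (a * wi ξ) * (WX Z ξ * G (-π) Φ' y ξ)) 2 volume := by
  have h2 := memLp_pt (a := a) (T := WX Z) (Tr := WX (rz Z)) (fun ξ => WXr Z ξ) (-π) (h.mWy Z)
    (h.mWy (rz Z))
  refine (h2.sub ((h.mWΦ' Z).const_mul (∫ η, Φ' η * y η))).ae_eq (ae_of_all _ fun ξ => ?_)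
  simp only [Pi.sub_apply]
  unfold G; ring

theorem mWm {f : Y2 → ℝ} (hf : ∀ Z : Pos3, MemLp (fun ξ => Real.exp (a * wi ξ) * (WX Z ξ * f ξ)) 2
    volume) : MemLp (fun ξ => Real.exp (a * wi ξ) * (Wm X ξ * f ξ)) 2 volume := by
  refine (((hf X).sub (hf (rz X))).const_mul (1 / 2)).ae_eq (ae_of_all _ fun ξ => ?_)
  simp only [Pi.sub_apply]
  unfold Wm; ring

theorem mWp {f : Y2 → ℝ} (hf : ∀ Z : Pos3, MemLp (fun ξ => Real.exp (a * wi ξ) * (WX Z ξ * f ξ)) 2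
    volume) : MemLp (fun ξ => Real.exp (a * wi ξ) * (Wp X ξ * f ξ)) 2 volume := by
  refine (((hf X).add (hf (rz X))).const_mul (1 / 2)).ae_eq (ae_of_all _ fun ξ => ?_)
  simp only [Pi.add_apply]
  unfold Wp; ring

include h in
theorem G_rxi (ξ : Y2) : G π Φ y (rxi ξ) = π * G π Φ y ξ := by
  unfold G
  rw [pt_rxi h.hπ, h.pΦ]; ring

include h in
theorem G'_rxi (ξ : Y2) : G (-π) Φ' y (rxi ξ) = -π * G (-π) Φ' y ξ := by
  unfold G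
  rw [pt_rxi h.hπ', h.pΦ']; ring

/-- parity kills `W^+` -/
theorem int_WX_odd {f : Y2 → ℝ} (hf : ∀ ξ, f (rxi ξ) = - f ξ)
    (i1 : Integrable (fun ξ => Wm X ξ * f ξ)) (i2 : Integrable (fun ξ => Wp X ξ * f ξ)) :
    ∫ ξ, WX X ξ * f ξ = ∫ ξ, Wm X ξ * f ξ := by
  have e : ∀ ξ, WX X ξ * f ξ = Wm X ξ * f ξ + Wp X ξ * f ξ := fun ξ => by
    rw [VecF.WX_eq]; ring
  have o : ∫ ξ, Wp X ξ * f ξ = 0 := VecF.int_odd fun ξ => by
    rw [VecF.Wp_rxi, hf]; ring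
  simp_rw [e]
  rw [integral_add i1 i2, o, add_zero]

include h in
theorem orth : ∫ ξ, Φ ξ * G π Φ y ξ = 0 := by
  have uΦ := VecF.memLp_of_ew h.ha h.mΦ
  have uy := VecF.memLp_of_ew h.ha h.my
  have uG := VecF.memLp_of_ew h.ha h.mG
  rcases h.nΦ with hn | hz
  · have m1 : MemLp (fun ξ => Real.exp (a * wi ξ) * ((1 : ℝ) * y ξ)) 2 volume := by
      simpa only [one_mul] using h.my
    have h2 := memLp_pt (a := a) (T := fun _ => 1) (Tr := fun _ => 1) (fun _ => rfl) (-π) m1 m1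
    simp only [one_mul] at h2
    have u2 := VecF.memLp_of_ew h.ha h2
    have i1 : Integrable (fun ξ => Φ ξ * y ξ) := uΦ.integrable_mul uy
    have i2 : Integrable (fun ξ => Φ ξ * pt (-π) y ξ) := uΦ.integrable_mul u2
    have i3 : Integrable (fun ξ => (∫ η, Φ η * y η) * Φ ξ ^ 2) := uΦ.integrable_sq.const_mul _
    have o : ∫ ξ, Φ ξ * pt (-π) y ξ = 0 := VecF.int_odd fun ξ => by
      rw [pt_rxi h.hπ', h.pΦ]
      rcases h.hπ with h1 | h1 <;> rw [h1] <;> ring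
    have e : ∀ ξ, Φ ξ * G π Φ y ξ = Φ ξ * y ξ - Φ ξ * pt (-π) y ξ -
        (∫ η, Φ η * y η) * Φ ξ ^ 2 := fun ξ => by
      unfold G pt; ring
    simp_rw [e]
    have i12 : Integrable (fun ξ => Φ ξ * y ξ - Φ ξ * pt (-π) y ξ) := i1.sub i2
    rw [integral_sub i12 i3, integral_sub i1 i2, o, integral_const_mul, hn]
    ring
  · simp only [hz, zero_mul, integral_zero]

theorem ydec (ξ : Y2) : y ξ = (∫ η, Φ η * y η) * Φ ξ + G π Φ y ξ +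
    ((∫ η, Φ' η * y η) * Φ' ξ + G (-π) Φ' y ξ) := by
  unfold G pt; ring

theorem int_EE {f g : Y2 → ℝ} {a : ℝ} (ha : 0 ≤ a)
    (hf : MemLp (fun ξ => Real.exp (a * wi ξ) * f ξ) 2 volume)
    (hg : MemLp (fun ξ => Real.exp (a * wi ξ) * g ξ) 2 volume) :
    Integrable (fun ξ => f ξ * g ξ) :=
  (VecF.memLp_of_ew ha hf).integrable_mul (VecF.memLp_of_ew ha hg)

theorem cs1 {f g : Y2 → ℝ} {a : ℝ} (ha : 0 ≤ a)
    (hf : MemLp (fun ξ => Real.exp (a * wi ξ) * f ξ) 2 volume)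
    (hg : MemLp (fun ξ => Real.exp (a * wi ξ) * g ξ) 2 volume) :
    |∫ ξ, f ξ * g ξ| ≤ l2 volume (fun ξ => Real.exp (a * wi ξ) * f ξ) *
      l2 volume (fun ξ => Real.exp (a * wi ξ) * g ξ) := VecF.cs_ew ha hf hg

include h in
theorem mono_term : ∫ ξ, WX X ξ * (Φ ξ * G π Φ y ξ) =
    ∫ ξ, ((WX X ξ - 2 / ‖X‖) * Φ ξ) * G π Φ y ξ := by
  have i1 : Integrable (fun ξ => WX X ξ * (Φ ξ * G π Φ y ξ)) :=
    (int_EE h.ha (h.mWΦ X) h.mG).congr (ae_of_all _ fun ξ => by simp only; ring)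
  have i2 : Integrable (fun ξ => 2 / ‖X‖ * (Φ ξ * G π Φ y ξ)) :=
    (int_EE h.ha h.mΦ h.mG).const_mul _
  have e : ∀ ξ, ((WX X ξ - 2 / ‖X‖) * Φ ξ) * G π Φ y ξ = WX X ξ * (Φ ξ * G π Φ y ξ) -
      2 / ‖X‖ * (Φ ξ * G π Φ y ξ) := fun ξ => by ring
  simp_rw [e]
  rw [integral_sub i1 i2, integral_const_mul, h.orth]
  ring

include h in
theorem mQ : MemLp (fun ξ => Real.exp (a * wi ξ) * ((WX X ξ - 2 / ‖X‖) * Φ ξ)) 2 volume := by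
  refine ((h.mWΦ X).sub (h.mΦ.const_mul (2 / ‖X‖))).ae_eq (ae_of_all _ fun ξ => ?_)
  simp only [Pi.sub_apply]; ring

include h in
theorem sgn : π * π = 1 := by rcases h.hπ with h1 | h1 <;> rw [h1] <;> norm_num

/-- the projected equation -/
theorem proj_bd (h : Fb a X π Φ Φ' y d q μ μ' b b') :
    |(∫ ξ, WX X ξ * (Φ ξ * y ξ)) - 2 / ‖X‖ * (∫ ξ, Φ ξ * y ξ) -
      (∫ ξ, Φ' ξ * y ξ) * ∫ ξ, Wm X ξ * (Φ ξ * Φ' ξ)| ≤
    d * |∫ ξ, Φ ξ * y ξ| + q * l2 volume (fun ξ => Real.exp (a * wi ξ) * G π Φ y ξ) +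
      μ * l2 volume (fun ξ => Real.exp (a * wi ξ) * G (-π) Φ' y ξ) := by
  have hs := h.sgn
  obtain ⟨α, hα⟩ : ∃ α, α = ∫ ξ, Φ ξ * y ξ := ⟨_, rfl⟩
  obtain ⟨β, hβ⟩ : ∃ β, β = ∫ ξ, Φ' ξ * y ξ := ⟨_, rfl⟩
  have i1 : Integrable (fun ξ => WX X ξ * Φ ξ ^ 2) :=
    (int_EE h.ha (h.mWΦ X) h.mΦ).congr (ae_of_all _ fun ξ => by simp only; ring)
  have i2 : Integrable (fun ξ => WX X ξ * (Φ ξ * G π Φ y ξ)) :=
    (int_EE h.ha (h.mWΦ X) h.mG).congr (ae_of_all _ fun ξ => by simp only; ring)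
  have i3 : Integrable (fun ξ => WX X ξ * (Φ ξ * Φ' ξ)) :=
    (int_EE h.ha (h.mWΦ X) h.mΦ').congr (ae_of_all _ fun ξ => by simp only; ring)
  have i4 : Integrable (fun ξ => WX X ξ * (Φ ξ * G (-π) Φ' y ξ)) :=
    (int_EE h.ha (h.mWΦ X) h.mG').congr (ae_of_all _ fun ξ => by simp only; ring)
  have j3 : Integrable (fun ξ => Wm X ξ * (Φ ξ * Φ' ξ)) :=
    (int_EE h.ha (mWm h.mWΦ) h.mΦ').congr (ae_of_all _ fun ξ => by simp only; ring)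
  have j3' : Integrable (fun ξ => Wp X ξ * (Φ ξ * Φ' ξ)) :=
    (int_EE h.ha (mWp h.mWΦ) h.mΦ').congr (ae_of_all _ fun ξ => by simp only; ring)
  have j4 : Integrable (fun ξ => Wm X ξ * (Φ ξ * G (-π) Φ' y ξ)) :=
    (int_EE h.ha (mWm h.mWΦ) h.mG').congr (ae_of_all _ fun ξ => by simp only; ring)
  have j4' : Integrable (fun ξ => Wp X ξ * (Φ ξ * G (-π) Φ' y ξ)) :=
    (int_EE h.ha (mWp h.mWΦ) h.mG').congr (ae_of_all _ fun ξ => by simp only; ring)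
  have s3 : ∫ ξ, WX X ξ * (Φ ξ * Φ' ξ) = ∫ ξ, Wm X ξ * (Φ ξ * Φ' ξ) :=
    int_WX_odd (fun ξ => by rw [h.pΦ, h.pΦ']; linear_combination (-(Φ ξ * Φ' ξ)) * hs) j3 j3'
  have s4 : ∫ ξ, WX X ξ * (Φ ξ * G (-π) Φ' y ξ) = ∫ ξ, Wm X ξ * (Φ ξ * G (-π) Φ' y ξ) :=
    int_WX_odd (fun ξ => by
      rw [h.pΦ, h.G'_rxi]; linear_combination (-(Φ ξ * G (-π) Φ' y ξ)) * hs) j4 j4'
  have hdec : (∫ ξ, WX X ξ * (Φ ξ * y ξ)) = α * (∫ ξ, WX X ξ * Φ ξ ^ 2) +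
      (∫ ξ, ((WX X ξ - 2 / ‖X‖) * Φ ξ) * G π Φ y ξ) + β * (∫ ξ, Wm X ξ * (Φ ξ * Φ' ξ)) +
      ∫ ξ, Wm X ξ * (Φ ξ * G (-π) Φ' y ξ) := by
    have e : ∀ ξ, WX X ξ * (Φ ξ * y ξ) = (α * (WX X ξ * Φ ξ ^ 2) +
        WX X ξ * (Φ ξ * G π Φ y ξ)) + (β * (WX X ξ * (Φ ξ * Φ' ξ)) +
        WX X ξ * (Φ ξ * G (-π) Φ' y ξ)) := fun ξ => by
      have := ydec (π := π) (Φ := Φ) (Φ' := Φ') (y := y) ξ
      rw [← hα, ← hβ] at this
      conv_lhs => rw [this]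
      ring
    simp_rw [e]
    have k1 : Integrable (fun ξ => α * (WX X ξ * Φ ξ ^ 2) + WX X ξ * (Φ ξ * G π Φ y ξ)) :=
      (i1.const_mul α).add i2
    have k2 : Integrable (fun ξ => β * (WX X ξ * (Φ ξ * Φ' ξ)) +
        WX X ξ * (Φ ξ * G (-π) Φ' y ξ)) := (i3.const_mul β).add i4
    rw [integral_add k1 k2, integral_add (i1.const_mul α) i2, integral_add (i3.const_mul β) i4,
      integral_const_mul, integral_const_mul, h.mono_term, s3, s4]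
    ring
  have b1 : |∫ ξ, ((WX X ξ - 2 / ‖X‖) * Φ ξ) * G π Φ y ξ| ≤
      q * l2 volume (fun ξ => Real.exp (a * wi ξ) * G π Φ y ξ) :=
    (cs1 h.ha h.mQ h.mG).trans (mul_le_mul_of_nonneg_right h.hq (l2_nonneg _ _))
  have b2 : |∫ ξ, Wm X ξ * (Φ ξ * G (-π) Φ' y ξ)| ≤
      μ * l2 volume (fun ξ => Real.exp (a * wi ξ) * G (-π) Φ' y ξ) := by
    have e : ∀ ξ, Wm X ξ * (Φ ξ * G (-π) Φ' y ξ) = (Wm X ξ * Φ ξ) * G (-π) Φ' y ξ :=
      fun ξ => by ring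
    simp_rw [e]
    exact (cs1 h.ha (mWm h.mWΦ) h.mG').trans (mul_le_mul_of_nonneg_right h.hμ (l2_nonneg _ _))
  have b3 : |α * (∫ ξ, WX X ξ * Φ ξ ^ 2) - 2 / ‖X‖ * α| ≤ d * |α| := by
    rcases h.nΦ with hn | hz
    · have := h.hd
      rw [hn, mul_one] at this
      have e : α * (∫ ξ, WX X ξ * Φ ξ ^ 2) - 2 / ‖X‖ * α =
          ((∫ ξ, WX X ξ * Φ ξ ^ 2) - 2 / ‖X‖) * α := by ring
      rw [e, abs_mul]
      exact mul_le_mul_of_nonneg_right this (abs_nonneg _)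
    · have : α = 0 := by
        rw [hα]; simp only [hz, zero_mul, integral_zero]
      rw [this]; simp
  rw [← hα, ← hβ, hdec]
  have e : α * (∫ ξ, WX X ξ * Φ ξ ^ 2) + (∫ ξ, ((WX X ξ - 2 / ‖X‖) * Φ ξ) * G π Φ y ξ) +
      β * (∫ ξ, Wm X ξ * (Φ ξ * Φ' ξ)) + (∫ ξ, Wm X ξ * (Φ ξ * G (-π) Φ' y ξ)) -
      2 / ‖X‖ * α - β * (∫ ξ, Wm X ξ * (Φ ξ * Φ' ξ)) =
      (α * (∫ ξ, WX X ξ * Φ ξ ^ 2) - 2 / ‖X‖ * α) +
      (∫ ξ, ((WX X ξ - 2 / ‖X‖) * Φ ξ) * G π Φ y ξ) +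
      (∫ ξ, Wm X ξ * (Φ ξ * G (-π) Φ' y ξ)) := by ring
  rw [e]
  exact (abs_add_three _ _ _).trans (add_le_add (add_le_add b3 b1) b2)

/-- weighted coupling of the other remainder -/
theorem far_G' (h : Fb a X π Φ Φ' y d q μ μ' b b') :
    l2 volume (fun ξ => Real.exp (a * wi ξ) * (Wm X ξ * G (-π) Φ' y ξ)) ≤
      4 * |X 2| / ‖X‖ ^ 2 * l2 volume (fun ξ => Real.exp (a * wi ξ) * G (-π) Φ' y ξ) +
        (b + b' * |∫ ξ, Φ' ξ * y ξ|) := by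
  have hX := h.hX
  have m := mWm (X := X) h.mWG'
  have e1 := l2_split m (measurableSet_Far X)
  have e2 : l2 (volume.restrict (Far X)ᶜ)
      (fun ξ => Real.exp (a * wi ξ) * (Wm X ξ * G (-π) Φ' y ξ)) ≤
      4 * |X 2| / ‖X‖ ^ 2 * l2 volume (fun ξ => Real.exp (a * wi ξ) * G (-π) Φ' y ξ) := by
    have hc0 : 0 ≤ 4 * |X 2| / ‖X‖ ^ 2 := by positivity
    have h4 : l2 (volume.restrict (Far X)ᶜ)
        (fun ξ => Real.exp (a * wi ξ) * (Wm X ξ * G (-π) Φ' y ξ)) ≤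
        l2 (volume.restrict (Far X)ᶜ) (fun ξ => (4 * |X 2| / ‖X‖ ^ 2) *
          (Real.exp (a * wi ξ) * G (-π) Φ' y ξ)) := by
      refine l2_mono ((h.mG'.restrict (Far X)ᶜ).const_mul _) ?_
      filter_upwards [ae_restrict_mem (measurableSet_Far X).compl] with ξ hξ
      have hw : wi ξ ≤ ‖X‖ / 2 := not_lt.1 hξ
      have h5 := Mult.Wm_le rfl hX hw
      have h6 : 8 * |X 2| * wi ξ / ‖X‖ ^ 3 ≤ 4 * |X 2| / ‖X‖ ^ 2 := by
        rw [div_le_div_iff₀ (by positivity) (by positivity)]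
        have : 8 * |X 2| * wi ξ * ‖X‖ ^ 2 ≤ 8 * |X 2| * (‖X‖ / 2) * ‖X‖ ^ 2 := by
          gcongr
        linarith [show 8 * |X 2| * (‖X‖ / 2) * ‖X‖ ^ 2 = 4 * |X 2| * ‖X‖ ^ 3 by ring]
      rw [abs_mul, abs_mul, abs_mul, abs_of_nonneg hc0, abs_mul, abs_of_pos (Real.exp_pos _)]
      calc Real.exp (a * wi ξ) * (|Wm X ξ| * |G (-π) Φ' y ξ|)
          ≤ Real.exp (a * wi ξ) * (4 * |X 2| / ‖X‖ ^ 2 * |G (-π) Φ' y ξ|) := by
            gcongr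
            exact h5.trans h6
        _ = _ := by ring
    rw [l2_const_mul, abs_of_nonneg hc0] at h4
    exact h4.trans (mul_le_mul_of_nonneg_left (l2_restrict_le h.mG' _) hc0)
  have e3 : l2 (volume.restrict (Far X)) (fun ξ => Real.exp (a * wi ξ) * (Wm X ξ * pt (-π) y ξ)) ≤
      b := by
    have p1 := l2_far_pt (T := WX X) (Tr := WX (rz X)) (fun ξ => WXr X ξ) h.hπ' (h.mWy X)
      (h.mWy (rz X)) h.hb h.hbr
    have p2 := l2_far_pt (X := X) (T := WX (rz X)) (Tr := WX X) (fun ξ => WXr' X ξ) h.hπ'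
      (h.mWy (rz X)) (h.mWy X) h.hbr h.hb
    have m1 := memLp_pt (a := a) (T := WX X) (Tr := WX (rz X)) (fun ξ => WXr X ξ) (-π) (h.mWy X)
      (h.mWy (rz X))
    have m2 := memLp_pt (a := a) (T := WX (rz X)) (Tr := WX X) (fun ξ => WXr' X ξ) (-π)
      (h.mWy (rz X)) (h.mWy X)
    have e : ∀ ξ, Real.exp (a * wi ξ) * (Wm X ξ * pt (-π) y ξ) =
        (1 / 2) * (Real.exp (a * wi ξ) * (WX X ξ * pt (-π) y ξ)) +
        (-(1 / 2)) * (Real.exp (a * wi ξ) * (WX (rz X) ξ * pt (-π) y ξ)) := fun ξ => by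
      unfold Wm; ring
    simp only [e]
    refine (l2_add_le ((m1.restrict _).const_mul _) ((m2.restrict _).const_mul _)).trans ?_
    rw [l2_const_mul, l2_const_mul, abs_neg]
    have e2 : |(1 : ℝ) / 2| = 1 / 2 := abs_of_pos (by norm_num)
    rw [e2]
    linarith
  have e4 : l2 (volume.restrict (Far X)) (fun ξ => Real.exp (a * wi ξ) * (Wm X ξ * Φ' ξ)) ≤
      b' := by
    have e : ∀ ξ, Real.exp (a * wi ξ) * (Wm X ξ * Φ' ξ) =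
        (1 / 2) * (Real.exp (a * wi ξ) * (WX X ξ * Φ' ξ)) +
        (-(1 / 2)) * (Real.exp (a * wi ξ) * (WX (rz X) ξ * Φ' ξ)) := fun ξ => by
      unfold Wm; ring
    simp only [e]
    refine (l2_add_le (((h.mWΦ' X).restrict _).const_mul _)
      (((h.mWΦ' (rz X)).restrict _).const_mul _)).trans ?_
    rw [l2_const_mul, l2_const_mul, abs_neg]
    have e2 : |(1 : ℝ) / 2| = 1 / 2 := abs_of_pos (by norm_num)
    rw [e2]
    linarith [h.hb', h.hbr']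
  have e5 : l2 (volume.restrict (Far X))
      (fun ξ => Real.exp (a * wi ξ) * (Wm X ξ * G (-π) Φ' y ξ)) ≤
      b + b' * |∫ ξ, Φ' ξ * y ξ| := by
    have m1 : MemLp (fun ξ => Real.exp (a * wi ξ) * (Wm X ξ * pt (-π) y ξ)) 2 volume := by
      refine (m.add ((mWm (X := X) h.mWΦ').const_mul (∫ η, Φ' η * y η))).ae_eq
        (ae_of_all _ fun ξ => ?_)
      simp only [Pi.add_apply]
      unfold G; ring
    have e : ∀ ξ, Real.exp (a * wi ξ) * (Wm X ξ * G (-π) Φ' y ξ) =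
        Real.exp (a * wi ξ) * (Wm X ξ * pt (-π) y ξ) +
        (-(∫ η, Φ' η * y η)) * (Real.exp (a * wi ξ) * (Wm X ξ * Φ' ξ)) := fun ξ => by
      unfold G; ring
    simp only [e]
    refine (l2_add_le (m1.restrict _) (((mWm (X := X) h.mWΦ').restrict _).const_mul _)).trans ?_
    rw [l2_const_mul, abs_neg]
    have := mul_le_mul_of_nonneg_left e4 (abs_nonneg (∫ η, Φ' η * y η))
    linarith
  linarith

/-- lower bound of the coupling in the equation of the weighted remainder -/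
theorem tf_bd (h : Fb a X π Φ Φ' y d q μ μ' b b') :
    -(((q + 2 * d) * |∫ ξ, Φ ξ * y ξ| + 3 * μ' * |∫ ξ, Φ' ξ * y ξ| +
      (4 * |X 2| / ‖X‖ ^ 2 + 2 * μ) *
        l2 volume (fun ξ => Real.exp (a * wi ξ) * G (-π) Φ' y ξ) +
      (b + b' * |∫ ξ, Φ' ξ * y ξ|) +
      2 * q * l2 volume (fun ξ => Real.exp (a * wi ξ) * G π Φ y ξ)) *
        l2 volume (fun ξ => Real.exp (a * wi ξ) * G π Φ y ξ)) ≤
    (∫ ξ, WX X ξ * (Real.exp (a * wi ξ) * y ξ * (Real.exp (a * wi ξ) * G π Φ y ξ))) -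
      (∫ ξ, (Real.exp (a * wi ξ) * Φ ξ) * (Real.exp (a * wi ξ) * G π Φ y ξ)) *
        ∫ ξ, WX X ξ * (Φ ξ * y ξ) := by
  have hs := h.sgn
  have hfar := h.far_G'
  have hproj := h.proj_bd
  obtain ⟨α, hα⟩ : ∃ α, α = ∫ ξ, Φ ξ * y ξ := ⟨_, rfl⟩
  obtain ⟨β, hβ⟩ : ∃ β, β = ∫ ξ, Φ' ξ * y ξ := ⟨_, rfl⟩
  obtain ⟨M, hM⟩ : ∃ M, M = l2 volume (fun ξ => Real.exp (a * wi ξ) * G π Φ y ξ) := ⟨_, rfl⟩
  obtain ⟨M', hM'⟩ : ∃ M', M' = l2 volume (fun ξ => Real.exp (a * wi ξ) * G (-π) Φ' y ξ) :=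
    ⟨_, rfl⟩
  obtain ⟨I0, hI0⟩ : ∃ I0, I0 = ∫ ξ, (Real.exp (a * wi ξ) * Φ ξ) *
    (Real.exp (a * wi ξ) * G π Φ y ξ) := ⟨_, rfl⟩
  have hM0 : 0 ≤ M := by rw [hM]; exact l2_nonneg _ _
  have hM0' : 0 ≤ M' := by rw [hM']; exact l2_nonneg _ _
  have hd0 : 0 ≤ d := (abs_nonneg _).trans h.hd
  have hq0 : 0 ≤ q := (l2_nonneg _ _).trans h.hq
  have hμ0 : 0 ≤ μ := (l2_nonneg _ _).trans h.hμ
  have hμ0' : 0 ≤ μ' := (l2_nonneg _ _).trans h.hμ'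
  -- integrability
  have mU := h.mG
  have i1 : Integrable (fun ξ => (Real.exp (a * wi ξ) * (WX X ξ * Φ ξ)) *
      (Real.exp (a * wi ξ) * G π Φ y ξ)) := (h.mWΦ X).integrable_mul mU
  have i2 : Integrable (fun ξ => (Real.exp (a * wi ξ) * (WX X ξ * G π Φ y ξ)) *
      (Real.exp (a * wi ξ) * G π Φ y ξ)) := (h.mWG X).integrable_mul mU
  have i3 : Integrable (fun ξ => WX X ξ * ((Real.exp (a * wi ξ) * Φ' ξ) *
      (Real.exp (a * wi ξ) * G π Φ y ξ))) :=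
    ((h.mWΦ' X).integrable_mul mU).congr (ae_of_all _ fun ξ => by simp only [Pi.mul_apply]; ring)
  have i4 : Integrable (fun ξ => WX X ξ * ((Real.exp (a * wi ξ) * G (-π) Φ' y ξ) *
      (Real.exp (a * wi ξ) * G π Φ y ξ))) :=
    ((h.mWG' X).integrable_mul mU).congr (ae_of_all _ fun ξ => by simp only [Pi.mul_apply]; ring)
  have j3 : Integrable (fun ξ => Wm X ξ * ((Real.exp (a * wi ξ) * Φ' ξ) *
      (Real.exp (a * wi ξ) * G π Φ y ξ))) :=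
    ((mWm (X := X) h.mWΦ').integrable_mul mU).congr
      (ae_of_all _ fun ξ => by simp only [Pi.mul_apply]; ring)
  have j3' : Integrable (fun ξ => Wp X ξ * ((Real.exp (a * wi ξ) * Φ' ξ) *
      (Real.exp (a * wi ξ) * G π Φ y ξ))) :=
    ((mWp (X := X) h.mWΦ').integrable_mul mU).congr
      (ae_of_all _ fun ξ => by simp only [Pi.mul_apply]; ring)
  have j4 : Integrable (fun ξ => Wm X ξ * ((Real.exp (a * wi ξ) * G (-π) Φ' y ξ) *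
      (Real.exp (a * wi ξ) * G π Φ y ξ))) :=
    ((mWm (X := X) h.mWG').integrable_mul mU).congr
      (ae_of_all _ fun ξ => by simp only [Pi.mul_apply]; ring)
  have j4' : Integrable (fun ξ => Wp X ξ * ((Real.exp (a * wi ξ) * G (-π) Φ' y ξ) *
      (Real.exp (a * wi ξ) * G π Φ y ξ))) :=
    ((mWp (X := X) h.mWG').integrable_mul mU).congr
      (ae_of_all _ fun ξ => by simp only [Pi.mul_apply]; ring)
  have s3 : ∫ ξ, WX X ξ * ((Real.exp (a * wi ξ) * Φ' ξ) * (Real.exp (a * wi ξ) * G π Φ y ξ)) =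
      ∫ ξ, Wm X ξ * ((Real.exp (a * wi ξ) * Φ' ξ) * (Real.exp (a * wi ξ) * G π Φ y ξ)) :=
    int_WX_odd (fun ξ => by
      rw [wi_rxi, h.pΦ', h.G_rxi]
      linear_combination (-(Real.exp (a * wi ξ) * Φ' ξ * (Real.exp (a * wi ξ) * G π Φ y ξ))) *
        hs) j3 j3'
  have s4 : ∫ ξ, WX X ξ * ((Real.exp (a * wi ξ) * G (-π) Φ' y ξ) *
      (Real.exp (a * wi ξ) * G π Φ y ξ)) =
      ∫ ξ, Wm X ξ * ((Real.exp (a * wi ξ) * G (-π) Φ' y ξ) *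
      (Real.exp (a * wi ξ) * G π Φ y ξ)) :=
    int_WX_odd (fun ξ => by
      rw [wi_rxi, h.G'_rxi, h.G_rxi]
      linear_combination (-(Real.exp (a * wi ξ) * G (-π) Φ' y ξ *
        (Real.exp (a * wi ξ) * G π Φ y ξ))) * hs) j4 j4'
  have s1 : ∫ ξ, (Real.exp (a * wi ξ) * (WX X ξ * Φ ξ)) * (Real.exp (a * wi ξ) * G π Φ y ξ) =
      2 / ‖X‖ * I0 + ∫ ξ, (Real.exp (a * wi ξ) * ((WX X ξ - 2 / ‖X‖) * Φ ξ)) *
        (Real.exp (a * wi ξ) * G π Φ y ξ) := by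
    have k1 : Integrable (fun ξ => 2 / ‖X‖ * ((Real.exp (a * wi ξ) * Φ ξ) *
        (Real.exp (a * wi ξ) * G π Φ y ξ))) := (h.mΦ.integrable_mul mU).const_mul _
    have k2 : Integrable (fun ξ => (Real.exp (a * wi ξ) * ((WX X ξ - 2 / ‖X‖) * Φ ξ)) *
        (Real.exp (a * wi ξ) * G π Φ y ξ)) := h.mQ.integrable_mul mU
    rw [hI0, ← integral_const_mul, ← integral_add k1 k2]
    exact integral_congr_ae (ae_of_all _ fun ξ => by simp only; ring)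
  -- decomposition
  have hdec : (∫ ξ, WX X ξ * (Real.exp (a * wi ξ) * y ξ * (Real.exp (a * wi ξ) * G π Φ y ξ))) =
      α * (2 / ‖X‖ * I0 + ∫ ξ, (Real.exp (a * wi ξ) * ((WX X ξ - 2 / ‖X‖) * Φ ξ)) *
        (Real.exp (a * wi ξ) * G π Φ y ξ)) +
      (∫ ξ, (Real.exp (a * wi ξ) * (WX X ξ * G π Φ y ξ)) * (Real.exp (a * wi ξ) * G π Φ y ξ)) +
      β * (∫ ξ, Wm X ξ * ((Real.exp (a * wi ξ) * Φ' ξ) * (Real.exp (a * wi ξ) * G π Φ y ξ))) +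
      ∫ ξ, Wm X ξ * ((Real.exp (a * wi ξ) * G (-π) Φ' y ξ) *
        (Real.exp (a * wi ξ) * G π Φ y ξ)) := by
    have e : ∀ ξ, WX X ξ * (Real.exp (a * wi ξ) * y ξ * (Real.exp (a * wi ξ) * G π Φ y ξ)) =
        (α * ((Real.exp (a * wi ξ) * (WX X ξ * Φ ξ)) * (Real.exp (a * wi ξ) * G π Φ y ξ)) +
        (Real.exp (a * wi ξ) * (WX X ξ * G π Φ y ξ)) * (Real.exp (a * wi ξ) * G π Φ y ξ)) +
        (β * (WX X ξ * ((Real.exp (a * wi ξ) * Φ' ξ) * (Real.exp (a * wi ξ) * G π Φ y ξ))) +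
        WX X ξ * ((Real.exp (a * wi ξ) * G (-π) Φ' y ξ) *
          (Real.exp (a * wi ξ) * G π Φ y ξ))) := fun ξ => by
      have := ydec (π := π) (Φ := Φ) (Φ' := Φ') (y := y) ξ
      rw [← hα, ← hβ] at this
      conv_lhs => rw [this]
      ring
    simp_rw [e]
    have k1 := (i1.const_mul α).add i2
    have k2 := (i3.const_mul β).add i4
    have f1 := integral_add k1 k2
    have f2 := integral_add (i1.const_mul α) i2
    have f3 := integral_add (i3.const_mul β) i4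
    simp only [Pi.add_apply] at f1 f2 f3
    rw [f1, f2, f3, integral_const_mul, integral_const_mul, s1, s3, s4]
    ring
  -- bounds
  have b1 : |∫ ξ, (Real.exp (a * wi ξ) * ((WX X ξ - 2 / ‖X‖) * Φ ξ)) *
      (Real.exp (a * wi ξ) * G π Φ y ξ)| ≤ q * M := by
    rw [hM]
    exact (l2_cs h.mQ mU).trans (mul_le_mul_of_nonneg_right h.hq (l2_nonneg _ _))
  have b2 : 0 ≤ ∫ ξ, (Real.exp (a * wi ξ) * (WX X ξ * G π Φ y ξ)) *
      (Real.exp (a * wi ξ) * G π Φ y ξ) := by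
    refine integral_nonneg fun ξ => ?_
    have e : (Real.exp (a * wi ξ) * (WX X ξ * G π Φ y ξ)) * (Real.exp (a * wi ξ) * G π Φ y ξ) =
        WX X ξ * (Real.exp (a * wi ξ) * G π Φ y ξ) ^ 2 := by ring
    simp only [Pi.zero_apply]
    rw [e]
    exact mul_nonneg (WX_nonneg X ξ) (sq_nonneg _)
  have b3 : |∫ ξ, Wm X ξ * ((Real.exp (a * wi ξ) * Φ' ξ) *
      (Real.exp (a * wi ξ) * G π Φ y ξ))| ≤ μ' * M := by
    have e : ∀ ξ, Wm X ξ * ((Real.exp (a * wi ξ) * Φ' ξ) * (Real.exp (a * wi ξ) * G π Φ y ξ)) =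
        (Real.exp (a * wi ξ) * (Wm X ξ * Φ' ξ)) * (Real.exp (a * wi ξ) * G π Φ y ξ) :=
      fun ξ => by ring
    simp_rw [e]
    rw [hM]
    exact (l2_cs (mWm (X := X) h.mWΦ') mU).trans
      (mul_le_mul_of_nonneg_right h.hμ' (l2_nonneg _ _))
  have b4 : |∫ ξ, Wm X ξ * ((Real.exp (a * wi ξ) * G (-π) Φ' y ξ) *
      (Real.exp (a * wi ξ) * G π Φ y ξ))| ≤ (4 * |X 2| / ‖X‖ ^ 2 * M' + (b + b' * |β|)) * M := by
    have e : ∀ ξ, Wm X ξ * ((Real.exp (a * wi ξ) * G (-π) Φ' y ξ) *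
        (Real.exp (a * wi ξ) * G π Φ y ξ)) =
        (Real.exp (a * wi ξ) * (Wm X ξ * G (-π) Φ' y ξ)) * (Real.exp (a * wi ξ) * G π Φ y ξ) :=
      fun ξ => by ring
    simp_rw [e]
    rw [hM, hM', hβ]
    exact (l2_cs (mWm (X := X) h.mWG') mU).trans
      (mul_le_mul_of_nonneg_right hfar (l2_nonneg _ _))
  have b5 : |I0| ≤ 2 * M := by
    rw [hI0, hM]
    exact (l2_cs h.mΦ mU).trans (mul_le_mul_of_nonneg_right h.iΦ (l2_nonneg _ _))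
  have b6 : |∫ ξ, Wm X ξ * (Φ ξ * Φ' ξ)| ≤ μ' := by
    have e : ∀ ξ, Wm X ξ * (Φ ξ * Φ' ξ) = (Wm X ξ * Φ' ξ) * Φ ξ := fun ξ => by ring
    simp_rw [e]
    have u1 := VecF.memLp_of_ew h.ha (mWm (X := X) h.mWΦ')
    have u2 := VecF.memLp_of_ew h.ha h.mΦ
    refine (l2_cs u1 u2).trans ?_
    have h1 : l2 volume (fun ξ => Wm X ξ * Φ' ξ) ≤ μ' :=
      (l2_drop h.ha (mWm (X := X) h.mWΦ')).trans h.hμ'
    calc l2 volume (fun ξ => Wm X ξ * Φ' ξ) * l2 volume Φ ≤ μ' * 1 :=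
          mul_le_mul h1 h.iΦ1 (l2_nonneg _ _) hμ0'
      _ = μ' := mul_one _
  -- conclusion
  rw [← hα, ← hβ, ← hM, ← hM', ← hI0, hdec]
  rw [← hα, ← hβ, ← hM, ← hM'] at hproj
  obtain ⟨R, hR⟩ : ∃ R, R = ∫ ξ, WX X ξ * (Φ ξ * y ξ) := ⟨_, rfl⟩
  obtain ⟨κ', hκ'⟩ : ∃ κ', κ' = ∫ ξ, Wm X ξ * (Φ ξ * Φ' ξ) := ⟨_, rfl⟩
  obtain ⟨T1, hT1⟩ : ∃ T1, T1 = ∫ ξ, (Real.exp (a * wi ξ) * ((WX X ξ - 2 / ‖X‖) * Φ ξ)) *
      (Real.exp (a * wi ξ) * G π Φ y ξ) := ⟨_, rfl⟩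
  obtain ⟨T2, hT2⟩ : ∃ T2, T2 = ∫ ξ, (Real.exp (a * wi ξ) * (WX X ξ * G π Φ y ξ)) *
      (Real.exp (a * wi ξ) * G π Φ y ξ) := ⟨_, rfl⟩
  obtain ⟨T3, hT3⟩ : ∃ T3, T3 = ∫ ξ, Wm X ξ * ((Real.exp (a * wi ξ) * Φ' ξ) *
      (Real.exp (a * wi ξ) * G π Φ y ξ)) := ⟨_, rfl⟩
  obtain ⟨T4, hT4⟩ : ∃ T4, T4 = ∫ ξ, Wm X ξ * ((Real.exp (a * wi ξ) * G (-π) Φ' y ξ) *
      (Real.exp (a * wi ξ) * G π Φ y ξ)) := ⟨_, rfl⟩
  rw [← hR, ← hκ'] at hproj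
  rw [← hκ'] at b6
  rw [← hT1] at b1
  rw [← hT2] at b2
  rw [← hT3] at b3
  rw [← hT4] at b4
  rw [← hR, ← hT1, ← hT2, ← hT3, ← hT4]
  have c1 : -(|α| * (q * M)) ≤ α * T1 := by
    have := neg_abs_le (α * T1)
    rw [abs_mul] at this
    have := mul_le_mul_of_nonneg_left b1 (abs_nonneg α)
    linarith
  have c3 : -(|β| * (μ' * M)) ≤ β * T3 := by
    have := neg_abs_le (β * T3)
    rw [abs_mul] at this
    have := mul_le_mul_of_nonneg_left b3 (abs_nonneg β)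
    linarith
  have c4 := (neg_abs_le T4)
  have c5 : I0 * (R - 2 / ‖X‖ * α) ≤ 2 * M * (|β| * μ' + (d * |α| + q * M + μ * M')) := by
    have e1 : |R - 2 / ‖X‖ * α| ≤ |β| * μ' + (d * |α| + q * M + μ * M') := by
      have e2 : R - 2 / ‖X‖ * α = β * κ' + (R - 2 / ‖X‖ * α - β * κ') := by ring
      rw [e2]
      refine (abs_add_le _ _).trans (add_le_add ?_ hproj)
      rw [abs_mul]
      exact mul_le_mul_of_nonneg_left b6 (abs_nonneg _)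
    calc I0 * (R - 2 / ‖X‖ * α) ≤ |I0 * (R - 2 / ‖X‖ * α)| := le_abs_self _
      _ = |I0| * |R - 2 / ‖X‖ * α| := abs_mul _ _
      _ ≤ _ := mul_le_mul b5 e1 (abs_nonneg _) (by positivity)
  have e : α * (2 / ‖X‖ * I0 + T1) + T2 + β * T3 + T4 - I0 * R =
      α * T1 + T2 + β * T3 + T4 - I0 * (R - 2 / ‖X‖ * α) := by ring
  rw [e]
  have c6 : -(((q + 2 * d) * |α| + 3 * μ' * |β| + (4 * |X 2| / ‖X‖ ^ 2 + 2 * μ) * M' +
      (b + b' * |β|) + 2 * q * M) * M) = -(|α| * (q * M)) + -(|β| * (μ' * M)) -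
      (4 * |X 2| / ‖X‖ ^ 2 * M' + (b + b' * |β|)) * M -
      2 * M * (|β| * μ' + (d * |α| + q * M + μ * M')) := by ring
  rw [c6]
  linarith

end Fb

end Src
end Crest.Agent.R335
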