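import Crest.Agent.R335.VSCpl

/-!
Row 335 (S0521), interacting side (helper892): weighted coupling bounds on parity parts
(for the scalar system Sy4).
-/

set_option autoImplicit false
set_option linter.unusedSectionVars false
set_option linter.unusedVariables false

open MeasureTheory Filter Set Crest.MathPhysics.ThreeBody
open scoped ENNReal Topology ContDiff

noncomputable section
namespace Crest.Agent.R335
namespace VS
open Mult

theorem exp_aesm (b : ℝ) : AEStronglyMeasurable (fun ξ : Y2 => Real.exp (b * wi ξ)) volume :=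
  (Real.continuous_exp.comp (continuous_const.mul continuous_wi)).aestronglyMeasurable

/-- weights can be lowered -/
theorem memLp_exp_low {a b : ℝ} (hab : a ≤ b) {T y : Y2 → ℝ} (hT : AEStronglyMeasurable T volume)
    (hy : AEStronglyMeasurable y volume)
    (h : MemLp (fun ξ => T ξ * (Real.exp (b * wi ξ) * y ξ)) 2 volume) :
    MemLp (fun ξ => Real.exp (a * wi ξ) * (T ξ * y ξ)) 2 volume := by
  refine h.of_le ((exp_aesm a).mul (hT.mul hy)) (ae_of_all _ fun ξ => ?_)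
  rw [norm_mul, norm_mul, norm_mul, norm_mul, Real.norm_of_nonneg (Real.exp_pos _).le,
    Real.norm_of_nonneg (Real.exp_pos _).le]
  have : Real.exp (a * wi ξ) ≤ Real.exp (b * wi ξ) := by
    apply Real.exp_le_exp.2
    have := two_le_wi ξ
    nlinarith
  calc Real.exp (a * wi ξ) * (‖T ξ‖ * ‖y ξ‖) ≤ Real.exp (b * wi ξ) * (‖T ξ‖ * ‖y ξ‖) := by
        gcongr
    _ = _ := by ring

theorem abs_sign {π : ℝ} (hπ : π ^ 2 = 1) : |π| = 1 := by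
  have h0 : |π| ^ 2 = 1 := by rw [sq_abs, hπ]
  have h3 := abs_nonneg π
  nlinarith

/-- weighted far coupling of a parity part on one fibre -/
theorem farw_fib {a : ℝ} (ha : 0 < a) {X : Pos3} {y : Y2 → ℝ} {dy : Y2 → Y2} {dG : Y2 → Y2}
    (hy : H1 y dy) (hG : H1 (fun ξ => Real.exp (2 * a * wi ξ) * y ξ) dG) {b : ℝ}
    (h1 : √(∫ ξ in Far X, (Real.exp (a * wi ξ) * WX X ξ * y ξ) ^ 2) ≤ b)
    (h2 : √(∫ ξ in Far X, (Real.exp (a * wi ξ) * WX (rz X) ξ * y ξ) ^ 2) ≤ b)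
    {π : ℝ} (hπ : π ^ 2 = 1) :
    (∀ Z : Pos3, MemLp (fun ξ => Real.exp (a * wi ξ) * (WX Z ξ * ((y ξ + π * y (rxi ξ)) / 2))) 2
      volume) ∧
    l2 (volume.restrict (Far X))
      (fun ξ => Real.exp (a * wi ξ) * (WX X ξ * ((y ξ + π * y (rxi ξ)) / 2))) ≤ b ∧
    l2 (volume.restrict (Far X))
      (fun ξ => Real.exp (a * wi ξ) * (WX (rz X) ξ * ((y ξ + π * y (rxi ξ)) / 2))) ≤ b ∧
    l2 (volume.restrict (Far X))
      (fun ξ => Real.exp (a * wi ξ) * (Wm X ξ * ((y ξ + π * y (rxi ξ)) / 2))) ≤ b := by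
  have hπ1 := abs_sign hπ
  have hGr : H1 (fun ξ => Real.exp (2 * a * wi ξ) * y (rxi ξ)) (fun ξ => rxi (dG (rxi ξ))) := by
    have := H1.comp_isometry hG rxi 0
    simpa only [add_zero, rxi_symm, wi_rxi] using this
  have hyr : MemLp (fun ξ => y (rxi ξ)) 2 volume := hy.memf.comp_measurePreserving mp_rxi
  have hy' : AEStronglyMeasurable y volume := hy.memf.1
  have m1 : ∀ Z : Pos3, MemLp (fun ξ => Real.exp (a * wi ξ) * (WX Z ξ * y ξ)) 2 volume := fun Z =>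
    memLp_exp_low (by linarith) (measurable_WX Z).aestronglyMeasurable hy' (memLp_WX hG Z)
  have m2 : ∀ Z : Pos3, MemLp (fun ξ => Real.exp (a * wi ξ) * (WX Z ξ * y (rxi ξ))) 2 volume :=
    fun Z => memLp_exp_low (by linarith) (measurable_WX Z).aestronglyMeasurable hyr.1
      (memLp_WX hGr Z)
  have e : ∀ (Z : Pos3) (ξ : Y2), Real.exp (a * wi ξ) * (WX Z ξ * ((y ξ + π * y (rxi ξ)) / 2)) =
      (1 / 2) * (Real.exp (a * wi ξ) * (WX Z ξ * y ξ)) +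
        (π / 2) * (Real.exp (a * wi ξ) * (WX Z ξ * y (rxi ξ))) := fun Z ξ => by ring
  have m3 : ∀ Z : Pos3, MemLp (fun ξ => Real.exp (a * wi ξ) *
      (WX Z ξ * ((y ξ + π * y (rxi ξ)) / 2))) 2 volume := fun Z => by
    simp only [e]
    exact ((m1 Z).const_mul _).add ((m2 Z).const_mul _)
  have k1 : l2 (volume.restrict (Far X)) (fun ξ => Real.exp (a * wi ξ) * (WX X ξ * y ξ)) ≤ b := by
    refine le_of_eq_of_le ?_ h1
    unfold l2; congr 2; funext ξ; ring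
  have k2 : l2 (volume.restrict (Far X)) (fun ξ => Real.exp (a * wi ξ) * (WX (rz X) ξ * y ξ)) ≤
      b := by
    refine le_of_eq_of_le ?_ h2
    unfold l2; congr 2; funext ξ; ring
  have s1 : l2 (volume.restrict (Far X))
      (fun ξ => Real.exp (a * wi ξ) * (WX X ξ * y (rxi ξ))) ≤ b := by
    have h := l2_Far_rxi X (fun ξ => Real.exp (a * wi ξ) * (WX (rz X) ξ * y ξ))
    have e1 : ∀ ξ, WX (rz X) (rxi ξ) = WX X ξ := fun ξ => by rw [WX_rxi, ob_rz_rz]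
    simp only [e1, wi_rxi] at h
    rw [h]; exact k2
  have s2 : l2 (volume.restrict (Far X))
      (fun ξ => Real.exp (a * wi ξ) * (WX (rz X) ξ * y (rxi ξ))) ≤ b := by
    have h := l2_Far_rxi X (fun ξ => Real.exp (a * wi ξ) * (WX X ξ * y ξ))
    have e1 : ∀ ξ, WX X (rxi ξ) = WX (rz X) ξ := fun ξ => by rw [WX_rxi]
    simp only [e1, wi_rxi] at h
    rw [h]; exact k1
  have comb : ∀ Z : Pos3, l2 (volume.restrict (Far X))
      (fun ξ => Real.exp (a * wi ξ) * (WX Z ξ * y ξ)) ≤ b →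
      l2 (volume.restrict (Far X)) (fun ξ => Real.exp (a * wi ξ) * (WX Z ξ * y (rxi ξ))) ≤ b →
      l2 (volume.restrict (Far X)) (fun ξ => Real.exp (a * wi ξ) *
        (WX Z ξ * ((y ξ + π * y (rxi ξ)) / 2))) ≤ b := by
    intro Z hZ1 hZ2
    simp only [e]
    refine (l2_add_le (((m1 Z).restrict _).const_mul _)
      (((m2 Z).restrict _).const_mul _)).trans ?_
    rw [l2_const_mul, l2_const_mul]
    have e1 : |π / 2| = 1 / 2 := by rw [abs_div, hπ1, abs_of_pos (by norm_num : (0:ℝ) < 2)]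
    have e2 : |(1 : ℝ) / 2| = 1 / 2 := abs_of_pos (by norm_num)
    rw [e1, e2]
    linarith
  have c1 := comb X k1 s1
  have c2 := comb (rz X) k2 s2
  refine ⟨m3, c1, c2, ?_⟩
  have e3 : ∀ ξ, Real.exp (a * wi ξ) * (Wm X ξ * ((y ξ + π * y (rxi ξ)) / 2)) =
      (1 / 2) * (Real.exp (a * wi ξ) * (WX X ξ * ((y ξ + π * y (rxi ξ)) / 2))) +
      (-(1 / 2)) * (Real.exp (a * wi ξ) * (WX (rz X) ξ * ((y ξ + π * y (rxi ξ)) / 2))) :=
    fun ξ => by unfold Wm; ring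
  simp only [e3]
  refine (l2_add_le (((m3 X).restrict _).const_mul _)
      (((m3 (rz X)).restrict _).const_mul _)).trans ?_
  rw [l2_const_mul, l2_const_mul]
  norm_num
  linarith

/-- weighted bounds of an ion state -/
structure PBw (C0 D a K' : ℝ) (Φ : Y2 → ℝ) : Prop where
  me : MemLp (fun ξ => Real.exp (a * wi ξ) * Φ ξ) 2 volume
  mW : ∀ X : Pos3, MemLp (fun ξ => Real.exp (a * wi ξ) * (WX X ξ * Φ ξ)) 2 volume
  mWm : ∀ X : Pos3, MemLp (fun ξ => Real.exp (a * wi ξ) * (Wm X ξ * Φ ξ)) 2 volume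
  mono : ∀ X : Pos3, 1 ≤ ‖X‖ →
    l2 volume (fun ξ => Real.exp (a * wi ξ) * ((WX X ξ - 2 / ‖X‖) * Φ ξ)) ≤ K' / ‖X‖ ^ 2
  monoP : ∀ X : Pos3, 1 ≤ ‖X‖ →
    l2 volume (fun ξ => Real.exp (a * wi ξ) * ((Wp X ξ - 2 / ‖X‖) * Φ ξ)) ≤ K' / ‖X‖ ^ 2
  odd : ∀ X : Pos3, 1 ≤ ‖X‖ → l2 volume (fun ξ => Real.exp (a * wi ξ) * (Wm X ξ * Φ ξ)) ≤
    16 * C0 * D * |X 2| / ‖X‖ ^ 3 + K' * Real.exp (-(a / 2) * ‖X‖)
  farX : ∀ X : Pos3, 1 ≤ ‖X‖ →
    l2 (volume.restrict (Far X)) (fun ξ => Real.exp (a * wi ξ) * (WX X ξ * Φ ξ)) ≤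
      K' * Real.exp (-(a / 2) * ‖X‖)
  oddF : ∀ X : Pos3, 1 ≤ ‖X‖ →
    l2 (volume.restrict (Far X)) (fun ξ => Real.exp (a * wi ξ) * (Wm X ξ * Φ ξ)) ≤
      K' * Real.exp (-(a / 2) * ‖X‖)

theorem pbw_exists {C0 D K a : ℝ} (hC : 1 ≤ C0) (hD : 1 ≤ D) (ha : 0 < a) (ha1 : a ≤ 1 / 100) :
    ∃ K' : ℝ, 0 < K' ∧ ∀ Φ : Y2 → ℝ, IonW C0 D K a Φ → PBw C0 D a K' Φ := by
  obtain ⟨K', hK', hm⟩ := multipole (K := K) hC hD ha ha1
  refine ⟨K', hK', fun Φ hΦ => ?_⟩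
  obtain ⟨d4, hd4, -⟩ := hΦ.w4
  have hΦm := hΦ.aesm
  have mWX : ∀ X : Pos3, MemLp (fun ξ => Real.exp (a * wi ξ) * (WX X ξ * Φ ξ)) 2 volume :=
    fun X => memLp_exp_low (b := 4 * a) (by linarith) (measurable_WX X).aestronglyMeasurable hΦm
      (memLp_WX hd4 X)
  have mWm : ∀ X : Pos3, MemLp (fun ξ => Real.exp (a * wi ξ) * (Wm X ξ * Φ ξ)) 2 volume :=
    fun X => memLp_exp_low (b := 4 * a) (by linarith) (measurable_Wm X).aestronglyMeasurable hΦm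
      (memLp_Wm hd4 X)
  have m1 : MemLp (fun ξ => Real.exp (a * wi ξ) * Φ ξ) 2 volume := by
    have := memLp_exp_low (a := a) (b := 4 * a) (T := fun _ => 1) (by linarith)
      aestronglyMeasurable_const hΦm (by simpa using hd4.memf)
    simpa using this
  have mC : ∀ X : Pos3, MemLp (fun ξ => Real.exp (a * wi ξ) * ((WX X ξ - 2 / ‖X‖) * Φ ξ)) 2
      volume := fun X => by
    refine ((mWX X).sub (m1.const_mul (2 / ‖X‖))).ae_eq (ae_of_all _ fun ξ => ?_)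
    simp only [Pi.sub_apply]; ring
  have eC : ∀ X : Pos3, 1 ≤ ‖X‖ →
      l2 volume (fun ξ => Real.exp (a * wi ξ) * ((WX X ξ - 2 / ‖X‖) * Φ ξ)) ≤ K' / ‖X‖ ^ 2 := by
    intro X hX
    refine le_of_eq_of_le ?_ (hm Φ Φ hΦ hΦ X hX).1
    unfold l2
    congr 2; funext ξ; ring
  have hhalf : |(1 : ℝ) / 2| = 1 / 2 := abs_of_pos (by norm_num)
  have hfX : ∀ Z : Pos3, 1 ≤ ‖Z‖ →
      l2 (volume.restrict (Far Z)) (fun ξ => Real.exp (a * wi ξ) * (WX Z ξ * Φ ξ)) ≤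
      K' * Real.exp (-(a / 2) * ‖Z‖) := by
    intro Z hZ
    refine le_of_eq_of_le ?_ (hm Φ Φ hΦ hΦ Z hZ).2.2.1
    unfold l2 Far
    congr 2; funext ξ; ring
  refine ⟨m1, mWX, mWm, eC, ?_, ?_, hfX, ?_⟩
  · intro X hX
    have hX' : 1 ≤ ‖rz X‖ := by rw [norm_rz]; exact hX
    have e : ∀ ξ, Real.exp (a * wi ξ) * ((Wp X ξ - 2 / ‖X‖) * Φ ξ) =
        (1 / 2) * (Real.exp (a * wi ξ) * ((WX X ξ - 2 / ‖X‖) * Φ ξ)) +
        (1 / 2) * (Real.exp (a * wi ξ) * ((WX (rz X) ξ - 2 / ‖rz X‖) * Φ ξ)) := fun ξ => by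
      rw [norm_rz]; unfold Wp; ring
    have h1 := eC X hX
    have h2 := eC (rz X) hX'
    rw [norm_rz] at h2
    simp only [e]
    refine (l2_add_le ((mC X).const_mul _) ((mC (rz X)).const_mul _)).trans ?_
    rw [l2_const_mul, l2_const_mul, norm_rz, hhalf]
    linarith
  · intro X hX
    refine le_of_eq_of_le ?_ (hm Φ Φ hΦ hΦ X hX).2.1
    unfold l2
    congr 2; funext ξ; ring
  · intro X hX
    have hX' : 1 ≤ ‖rz X‖ := by rw [norm_rz]; exact hX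
    have h1 := hfX X hX
    have h2 := hfX (rz X) hX'
    rw [norm_rz, Far_rz] at h2
    have e : ∀ ξ, Real.exp (a * wi ξ) * (Wm X ξ * Φ ξ) =
        (1 / 2) * (Real.exp (a * wi ξ) * (WX X ξ * Φ ξ)) +
        (-(1 / 2)) * (Real.exp (a * wi ξ) * (WX (rz X) ξ * Φ ξ)) := fun ξ => by
      unfold Wm; ring
    simp only [e]
    refine (l2_add_le (((mWX X).restrict _).const_mul _)
      (((mWX (rz X)).restrict _).const_mul _)).trans ?_
    rw [l2_const_mul, l2_const_mul, abs_neg, hhalf]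
    linarith

/-- the weighted coupling of the remainder on one fibre -/
theorem cplw_fib {a : ℝ} (ha : 0 < a) {X : Pos3} (hX : 0 < ‖X‖) {h R Φ : Y2 → ℝ} {c : ℝ}
    (hdec : ∀ ξ, h ξ = c * Φ ξ + R ξ)
    (mh : MemLp (fun ξ => Real.exp (a * wi ξ) * (Wm X ξ * h ξ)) 2 volume)
    (mΦ : MemLp (fun ξ => Real.exp (a * wi ξ) * (Wm X ξ * Φ ξ)) 2 volume)
    (mR : MemLp (fun ξ => Real.exp (a * wi ξ) * R ξ) 2 volume) {β2 β3 : ℝ}
    (h2 : l2 (volume.restrict (Far X)) (fun ξ => Real.exp (a * wi ξ) * (Wm X ξ * Φ ξ)) ≤ β2)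
    (h3 : l2 (volume.restrict (Far X)) (fun ξ => Real.exp (a * wi ξ) * (Wm X ξ * h ξ)) ≤ β3) :
    MemLp (fun ξ => Real.exp (a * wi ξ) * (Wm X ξ * R ξ)) 2 volume ∧
    l2 volume (fun ξ => Real.exp (a * wi ξ) * (Wm X ξ * R ξ)) ≤
      4 * |X 2| / ‖X‖ ^ 2 * l2 volume (fun ξ => Real.exp (a * wi ξ) * R ξ) + |c| * β2 + β3 := by
  have hm : ∀ ξ, Real.exp (a * wi ξ) * (Wm X ξ * R ξ) =
      Real.exp (a * wi ξ) * (Wm X ξ * h ξ) + (-c) * (Real.exp (a * wi ξ) * (Wm X ξ * Φ ξ)) :=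
    fun ξ => by rw [hdec]; ring
  have mWR : MemLp (fun ξ => Real.exp (a * wi ξ) * (Wm X ξ * R ξ)) 2 volume := by
    simp only [hm]
    exact mh.add (mΦ.const_mul (-c))
  refine ⟨mWR, ?_⟩
  have e2 := l2_split mWR (measurableSet_Far X)
  have e3 : l2 (volume.restrict (Far X)) (fun ξ => Real.exp (a * wi ξ) * (Wm X ξ * R ξ)) ≤
      β3 + |c| * β2 := by
    simp only [hm]
    refine (l2_add_le (mh.restrict (Far X)) ((mΦ.restrict (Far X)).const_mul (-c))).trans ?_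
    rw [l2_const_mul, abs_neg]
    have := mul_le_mul_of_nonneg_left h2 (abs_nonneg c)
    linarith
  have e4 : l2 (volume.restrict (Far X)ᶜ) (fun ξ => Real.exp (a * wi ξ) * (Wm X ξ * R ξ)) ≤
      4 * |X 2| / ‖X‖ ^ 2 * l2 volume (fun ξ => Real.exp (a * wi ξ) * R ξ) := by
    have hc0 : 0 ≤ 4 * |X 2| / ‖X‖ ^ 2 := by positivity
    have h4 : l2 (volume.restrict (Far X)ᶜ) (fun ξ => Real.exp (a * wi ξ) * (Wm X ξ * R ξ)) ≤
        l2 (volume.restrict (Far X)ᶜ) (fun ξ => (4 * |X 2| / ‖X‖ ^ 2) *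
          (Real.exp (a * wi ξ) * R ξ)) := by
      refine l2_mono ((mR.restrict (Far X)ᶜ).const_mul _) ?_
      filter_upwards [ae_restrict_mem (measurableSet_Far X).compl] with ξ hξ
      have hw : wi ξ ≤ ‖X‖ / 2 := not_lt.1 hξ
      have h5 := Mult.Wm_le rfl hX hw
      have h6 : |Wm X ξ| ≤ 4 * |X 2| / ‖X‖ ^ 2 := by
        refine h5.trans ?_
        calc 8 * |X 2| * wi ξ / ‖X‖ ^ 3 ≤ 8 * |X 2| * (‖X‖ / 2) / ‖X‖ ^ 3 := by gcongr
          _ = _ := by field_simp; ring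
      have h7 : |Real.exp (a * wi ξ) * (Wm X ξ * R ξ)| =
          |Wm X ξ| * |Real.exp (a * wi ξ) * R ξ| := by
        rw [← abs_mul]; congr 1; ring
      rw [h7, abs_mul (4 * |X 2| / ‖X‖ ^ 2), abs_of_nonneg hc0]
      exact mul_le_mul_of_nonneg_right h6 (abs_nonneg _)
    rw [l2_const_mul, abs_of_nonneg hc0] at h4
    exact h4.trans (mul_le_mul_of_nonneg_left (l2_restrict_le mR _) hc0)
  linarith

/-- the weighted coupling of the remainder of a channel function -/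
theorem cplw_chan {D lam E σ a : ℝ} (ha : 0 < a) {Y : Config3 → ℝ} {dY : Config3 → Config3}
    (h : Chan D lam E σ Y dY)
    (hw : ∃ d, H1 (fun x => Real.exp (2 * a * (jb (elPos 1 x) + jb (elPos 2 x))) * Y x) d)
    {b : Pos3 → ℝ} {R0 : ℝ}
    (hfar : ∀ᵐ X : Pos3, R0 ≤ ‖X‖ →
        √(∫ ξ in {ξ | ‖X‖ / 2 < wi ξ}, (Real.exp (a * wi ξ) * WX X ξ * Y (jn p9 X ξ)) ^ 2) ≤
            b X ∧
        √(∫ ξ in {ξ | ‖X‖ / 2 < wi ξ},
            (Real.exp (a * wi ξ) * WX (rz X) ξ * Y (jn p9 X ξ)) ^ 2) ≤ b X)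
    {π : ℝ} (hπ : π ^ 2 = 1) {Φ : Y2 → ℝ}
    (hΦe : MemLp (fun ξ => Real.exp (a * wi ξ) * Φ ξ) 2 volume)
    (hΦW : ∀ X : Pos3, MemLp (fun ξ => Real.exp (a * wi ξ) * (Wm X ξ * Φ ξ)) 2 volume)
    {β2 : Pos3 → ℝ}
    (hβ2 : ∀ X : Pos3, 1 ≤ ‖X‖ →
      l2 (volume.restrict (Far X)) (fun ξ => Real.exp (a * wi ξ) * (Wm X ξ * Φ ξ)) ≤ β2 X) :
    ∀ᵐ X : Pos3, 1 ≤ ‖X‖ → R0 ≤ ‖X‖ →
      MemLp (fun ξ => Real.exp (a * wi ξ) * (Wm X ξ * cR π Φ Y (jn p9 X ξ))) 2 volume ∧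
      MemLp (fun ξ => Real.exp (a * wi ξ) * cR π Φ Y (jn p9 X ξ)) 2 volume ∧
      √(∫ ξ, (Real.exp (a * wi ξ) * (Wm X ξ * cR π Φ Y (jn p9 X ξ))) ^ 2) ≤
        4 * |X 2| / ‖X‖ ^ 2 * wN a (cR π Φ Y) X + |cF Φ Y X| * β2 X + b X := by
  obtain ⟨d, hd⟩ := hw
  filter_upwards [H1.slice_right p9 h.h1, slice_weight hd, hfar] with X h1 h2 h3
  intro hX1 hX2
  obtain ⟨f1, f2⟩ := h3 hX2
  obtain ⟨m3, -, -, g3⟩ := farw_fib ha h1 h2 f1 f2 hπ
  have mR : MemLp (fun ξ => Real.exp (a * wi ξ) * cR π Φ Y (jn p9 X ξ)) 2 volume := by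
    refine ((memLp_exp_Yp (π := π) (G := fun _ => 0) ha.le h1.memf h2.memf).sub
      (hΦe.const_mul (cF Φ Y X))).ae_eq (ae_of_all _ fun ξ => ?_)
    simp only [Pi.sub_apply]
    rw [cR_jn, Yp_jn]; ring
  have mh : MemLp (fun ξ => Real.exp (a * wi ξ) * (Wm X ξ * Yp π Y (jn p9 X ξ))) 2 volume := by
    refine (((m3 X).const_mul (1 / 2)).add ((m3 (rz X)).const_mul (-(1 / 2)))).ae_eq
      (ae_of_all _ fun ξ => ?_)
    simp only [Pi.add_apply, Yp_jn, Wm]; ring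
  obtain ⟨q1, q2⟩ := cplw_fib ha (by linarith : 0 < ‖X‖) (h := fun ξ => Yp π Y (jn p9 X ξ))
    (R := fun ξ => cR π Φ Y (jn p9 X ξ)) (Φ := Φ) (c := cF Φ Y X)
    (fun ξ => by rw [cR_jn]; ring) mh (hΦW X) mR (hβ2 X hX1)
    (by simp only [Yp_jn]; exact g3)
  exact ⟨q1, mR, q2⟩

end VS
end Crest.Agent.R335
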