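import Crest.Agent.R335.SyRem
import Crest.Agent.R335.SyStmt
import Crest.Agent.R335.VSCplW

/-!
Row 335 (S0521), interacting side, section 3.6 (helper759): coupling bounds of a channel function
for almost every `X` (generic form).
-/

set_option autoImplicit false
set_option linter.unusedSectionVars false
set_option linter.unusedVariables false

open MeasureTheory Filter Set Crest.MathPhysics.ThreeBody
open scoped ENNReal Topology ContDiff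

noncomputable section
namespace Crest.Agent.R335
namespace Sy

theorem nY_eq_l2 (f : Y2 → ℝ) : nY f = VS.l2 volume f := rfl

theorem cR_rxi {π : ℝ} (hπ : π = 1 ∨ π = -1) {Φ : Y2 → ℝ} (hp : ∀ ξ, Φ (rxi ξ) = π * Φ ξ)
    (Y : Config3 → ℝ) (X : Pos3) (ξ : Y2) :
    cR π Φ Y (jn p9 X (rxi ξ)) = π * cR π Φ Y (jn p9 X ξ) := by
  rw [← r12_jn, cR_r12 hπ hp]

theorem Y_dec (π : ℝ) (Φ Φ' : Y2 → ℝ) (Y : Config3 → ℝ) (X : Pos3) (ξ : Y2) :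
    Y (jn p9 X ξ) = cF Φ Y X * Φ ξ + cR π Φ Y (jn p9 X ξ) +
      (cF Φ' Y X * Φ' ξ + cR (-π) Φ' Y (jn p9 X ξ)) := by
  rw [cR_jn, cR_jn, Yp_jn, Yp_jn]; ring

theorem nY_ep_le_two {C0 D K a : ℝ} (ha : 0 < a) {Φ : Y2 → ℝ} (h : IonW C0 D K a Φ) :
    nY (ep a Φ) ≤ 2 := by
  have h1 : nY (ep a Φ) ≤ √(∫ ξ, (Real.exp (2 * a * wi ξ) * Φ ξ) ^ 2) := by
    unfold nY
    refine Real.sqrt_le_sqrt ?_
    refine integral_mono_of_nonneg (Eventually.of_forall fun _ => sq_nonneg _) h.m0.1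
      (Eventually.of_forall fun ξ => ?_)
    simp only [ep, mul_pow]
    refine mul_le_mul_of_nonneg_right ?_ (sq_nonneg _)
    have : Real.exp (a * wi ξ) ≤ Real.exp (2 * a * wi ξ) := by
      apply Real.exp_le_exp.2
      nlinarith [two_le_wi ξ]
    exact pow_le_pow_left₀ (Real.exp_pos _).le this 2
  refine h1.trans ?_
  rw [Real.sqrt_le_left (by norm_num)]
  linarith [h.m0.2]

/-- fibre data -/
theorem fib_ae {D lam E σ a π C0 Dd K : ℝ} (ha : 0 < a) (hπ : π = 1 ∨ π = -1) {Y : Config3 → ℝ}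
    {dY : Config3 → Config3} (hY : Chan D lam E σ Y dY)
    (hwY : ∃ d, H1 (fun x => ew a x * Y x) d) {Φ Φ' : Y2 → ℝ} (hΦm : MemLp Φ 2 volume)
    (hΦm' : MemLp Φ' 2 volume) (hΦ : IonW C0 Dd K a Φ) (hΦ' : IonW C0 Dd K a Φ')
    (hp : ∀ ξ, Φ (rxi ξ) = π * Φ ξ) (hp' : ∀ ξ, Φ' (rxi ξ) = -π * Φ' ξ)
    (hn : (∫ ξ, Φ ξ ^ 2 = 1) ∨ (∀ ξ, Φ ξ = 0)) :
    ∀ᵐ X : Pos3, Fib a π Φ (fun ξ => cR π Φ Y (jn p9 X ξ)) Φ'
      (fun ξ => cR (-π) Φ' Y (jn p9 X ξ)) := by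
  have hπ' : -π = 1 ∨ -π = -1 := by
    rcases hπ with h | h
    · right; rw [h]
    · left; rw [h]; norm_num
  have w1 := ionW_H1 hΦ (b := a) (by linarith)
  have w2 := ionW_H1 hΦ' (b := a) (by linarith)
  obtain ⟨dU, hU⟩ := U_H1 (π := π) hY.h1 hΦm hwY w1
  obtain ⟨dU', hU'⟩ := U_H1 (π := -π) hY.h1 hΦm' hwY w2
  filter_upwards [slice_memLp p9 hY.h1.memf, I.H1.slice_right p9 hU,
    I.H1.slice_right p9 hU'] with X h1 h2 h3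
  refine ⟨ha.le, hπ, w1, ⟨fun ξ => pr2 p9 (dU (jn p9 X ξ)), ?_⟩, w2,
    ⟨fun ξ => pr2 p9 (dU' (jn p9 X ξ)), ?_⟩, hp, cR_rxi hπ hp Y X, hp', cR_rxi hπ' hp' Y X, hn,
    cF_cR hπ hp hn hΦm h1, nY_ep_le_two ha hΦ⟩
  · refine h2.congr (Eventually.of_forall fun ξ => ?_) (Filter.EventuallyEq.refl _ _)
    simp only [ep, ew_jn]
  · refine h3.congr (Eventually.of_forall fun ξ => ?_) (Filter.EventuallyEq.refl _ _)
    simp only [ep, ew_jn]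

/-- the coupling bounds of a channel -/
theorem src_gen {D lam E σ a π C0 Dd K K1 R0 : ℝ} (ha : 0 < a) (hπ : π = 1 ∨ π = -1)
    {Y : Config3 → ℝ} {dY : Config3 → Config3} (hY : Chan D lam E σ Y dY)
    (hwY : ∃ d, H1 (fun x => ew a x * Y x) d)
    (hw2 : ∃ d, H1 (fun x => Real.exp (2 * a * (jb (elPos 1 x) + jb (elPos 2 x))) * Y x) d)
    {Φ Φ' : Y2 → ℝ} (hΦm : MemLp Φ 2 volume)
    (hΦm' : MemLp Φ' 2 volume) (hΦ : IonW C0 Dd K a Φ) (hΦ' : IonW C0 Dd K a Φ')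
    (hb : VS.PBw C0 Dd a K1 Φ) (hb' : VS.PBw C0 Dd a K1 Φ')
    (hp : ∀ ξ, Φ (rxi ξ) = π * Φ ξ) (hp' : ∀ ξ, Φ' (rxi ξ) = -π * Φ' ξ)
    (hn : (∫ ξ, Φ ξ ^ 2 = 1) ∨ (∀ ξ, Φ ξ = 0)) {b : Pos3 → ℝ}
    (hfar : ∀ᵐ X : Pos3, R0 ≤ ‖X‖ →
        √(∫ ξ in {ξ | ‖X‖ / 2 < wi ξ}, (Real.exp (a * wi ξ) * WX X ξ * Y (jn p9 X ξ)) ^ 2) ≤
            b X ∧
        √(∫ ξ in {ξ | ‖X‖ / 2 < wi ξ},
            (Real.exp (a * wi ξ) * WX (rz X) ξ * Y (jn p9 X ξ)) ^ 2) ≤ b X) :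
    ∀ᵐ X : Pos3, 1 ≤ ‖X‖ → R0 ≤ ‖X‖ →
      |WY Φ Y X - cF Φ Y X * (∫ ξ, WX X ξ * Φ ξ ^ 2) -
        cF Φ' Y X * (∫ ξ, Φ' ξ * Wm X ξ * Φ ξ)| ≤
        K1 / ‖X‖ ^ 2 * wN a (cR π Φ Y) X +
        (16 * C0 * Dd * |X 2| / ‖X‖ ^ 3 + K1 * Real.exp (-(a / 2) * ‖X‖)) *
          wN a (cR (-π) Φ' Y) X ∧
      -(2 * (K1 / ‖X‖ ^ 2) * wN a (cR π Φ Y) X + 3 * (K1 / ‖X‖ ^ 2) * |cF Φ Y X| +
        3 * (16 * C0 * Dd * |X 2| / ‖X‖ ^ 3 + K1 * Real.exp (-(a / 2) * ‖X‖)) * |cF Φ' Y X| +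
        3 * (4 * |X 2| / ‖X‖ ^ 2 * wN a (cR (-π) Φ' Y) X +
          |cF Φ' Y X| * (K1 * Real.exp (-(a / 2) * ‖X‖)) + b X)) * wN a (cR π Φ Y) X ≤
        Tf a Φ Y (fun x => ew a x * cR π Φ Y x) X := by
  have hπ2 : (-π) ^ 2 = 1 := by
    rcases hπ with h | h <;> rw [h] <;> norm_num
  have hc := VS.cplw_chan ha hY hw2 (b := b) (R0 := R0) hfar hπ2 (Φ := Φ') hb'.me hb'.mWm
    (β2 := fun X => K1 * Real.exp (-(a / 2) * ‖X‖)) hb'.oddF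
  filter_upwards [fib_ae ha hπ hY hwY hΦm hΦm' hΦ hΦ' hp hp' hn, hc] with X hX hcX h1 hR0
  obtain ⟨-, -, hg⟩ := hcX h1 hR0
  have e1 : nY (ep a (fun ξ => cR π Φ Y (jn p9 X ξ))) = wN a (cR π Φ Y) X := rfl
  have e2 : nY (ep a (fun ξ => cR (-π) Φ' Y (jn p9 X ξ))) = wN a (cR (-π) Φ' Y) X := rfl
  have m1 : nY (fun ξ => (WX X ξ - 2 / ‖X‖) * ep a Φ ξ) ≤ K1 / ‖X‖ ^ 2 := by
    refine le_of_eq_of_le ?_ (hb.mono X h1)
    unfold nY VS.l2 ep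
    congr 2; funext ξ; ring
  have m2 : nY (fun ξ => Wm X ξ * ep a Φ ξ) ≤
      16 * C0 * Dd * |X 2| / ‖X‖ ^ 3 + K1 * Real.exp (-(a / 2) * ‖X‖) := by
    refine le_of_eq_of_le ?_ (hb.odd X h1)
    unfold nY VS.l2 ep
    congr 2; funext ξ; ring
  have m3 : nY (fun ξ => Wm X ξ * ep a Φ' ξ) ≤
      16 * C0 * Dd * |X 2| / ‖X‖ ^ 3 + K1 * Real.exp (-(a / 2) * ‖X‖) := by
    refine le_of_eq_of_le ?_ (hb'.odd X h1)
    unfold nY VS.l2 ep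
    congr 2; funext ξ; ring
  have m4 : nY (fun ξ => Wm X ξ * ep a (fun ξ => cR (-π) Φ' Y (jn p9 X ξ)) ξ) ≤
      4 * |X 2| / ‖X‖ ^ 2 * wN a (cR (-π) Φ' Y) X +
          |cF Φ' Y X| * (K1 * Real.exp (-(a / 2) * ‖X‖)) + b X := by
    refine le_of_eq_of_le ?_ hg
    unfold nY ep
    congr 2; funext ξ; ring
  have eW : WY Φ Y X = ∫ ξ, WX X ξ * (Φ ξ * (cF Φ Y X * Φ ξ + cR π Φ Y (jn p9 X ξ) +
      (cF Φ' Y X * Φ' ξ + cR (-π) Φ' Y (jn p9 X ξ)))) := by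
    unfold WY
    refine integral_congr_ae (Eventually.of_forall fun ξ => ?_)
    simp only
    rw [← Y_dec π Φ Φ' Y X ξ]
  constructor
  · have h2 := hX.WY_bound (F := cF Φ Y X) (F' := cF Φ' Y X) X m1 m2
    rw [← eW, e1, e2] at h2
    exact h2
  · have h3 := hX.Tf_bound (F := cF Φ Y X) (F' := cF Φ' Y X) X m1 m3 m4
    rw [e1, ← eW] at h3
    refine h3.trans (le_of_eq ?_)
    unfold Tf
    have e3 : ∫ ξ, WX X ξ * (Real.exp (a * wi ξ) * (cF Φ Y X * Φ ξ + cR π Φ Y (jn p9 X ξ) +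
        (cF Φ' Y X * Φ' ξ + cR (-π) Φ' Y (jn p9 X ξ))) *
          ep a (fun ξ => cR π Φ Y (jn p9 X ξ)) ξ) =
        ∫ ξ, WX X ξ * (Real.exp (a * wi ξ) * Y (jn p9 X ξ) *
          (ew a (jn p9 X ξ) * cR π Φ Y (jn p9 X ξ))) := by
      refine integral_congr_ae (Eventually.of_forall fun ξ => ?_)
      simp only
      rw [← Y_dec π Φ Φ' Y X ξ, ew_jn]
      rfl
    have e4 : ∫ ξ, ep a Φ ξ * ep a (fun ξ => cR π Φ Y (jn p9 X ξ)) ξ =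
        cF (wΦ a Φ) (fun x => ew a x * cR π Φ Y x) X := by
      unfold cF
      refine integral_congr_ae (Eventually.of_forall fun ξ => ?_)
      simp only [ew_jn]
      rfl
    rw [e3, e4]

end Sy
end Crest.Agent.R335
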