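import Crest.Agent.R335.SySrc
import Crest.Agent.R335.SyStmt

/-!
Row 335 (S0521), interacting side (helper565): the couplings of the scalar system for the data
`S : Sys B K lam` (inputs of `sys_S`, `sys_T`).
-/

set_option autoImplicit false
set_option linter.unusedSectionVars false
set_option linter.unusedVariables false

open MeasureTheory Filter Set Crest.MathPhysics.ThreeBody
open scoped ENNReal Topology ContDiff

noncomputable section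
namespace Crest.Agent.R335
namespace Src
open VS Mult

/-! ### the nuclear potential far away -/

theorem nuc_neg' (D : ℝ) : nuc (-D) = - nuc D := by
  ext i
  fin_cases i <;> simp [nuc]

theorem norm_nuc' (D : ℝ) : ‖nuc D‖ = |D| := by
  unfold nuc
  rw [EuclideanSpace.norm_single, Real.norm_eq_abs]

theorem V2_quad {D r : ℝ} (hD : 0 ≤ D) {X : Pos3} (hr : ‖X‖ = r) (h0 : 0 < r) (hDr : D ≤ r / 2) :
    |V2 D X + 2 / r| ≤ 12 * D ^ 2 / r ^ 3 := by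
  have n1 : ‖nuc D‖ = D := by rw [norm_nuc', abs_of_nonneg hD]
  have n2 : ‖nuc (-D)‖ = D := by rw [nuc_neg', norm_neg, n1]
  have h1 := Mult.inv4 hr h0 (y := nuc D) (by rw [n1]; exact hDr)
  have h2 := Mult.inv4 hr h0 (y := nuc (-D)) (by rw [n2]; exact hDr)
  rw [n1] at h1
  rw [n2, nuc_neg', inner_neg_right] at h2
  have e : V2 D X + 2 / r = -(1 / ‖X - nuc D‖ - 1 / r - inner ℝ X (nuc D) / r ^ 3) -
      (1 / ‖X - -nuc D‖ - 1 / r - -inner ℝ X (nuc D) / r ^ 3) := by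
    unfold V2
    rw [nuc_neg']
    ring
  rw [e]
  have h3 := abs_le.1 h1
  have h4 := abs_le.1 h2
  have e5 : 12 * D ^ 2 / r ^ 3 = 6 * D ^ 2 / r ^ 3 + 6 * D ^ 2 / r ^ 3 := by ring
  rw [e5, abs_le]
  constructor <;> linarith

/-! ### a vanishing ion state -/

theorem h1_zero : H1 (fun _ : Y2 => (0 : ℝ)) (fun _ => 0) where
  memf := MemLp.zero'
  memg := MemLp.zero'
  wg := ⟨locallyIntegrable_zero.locallyIntegrableOn _, locallyIntegrable_zero.locallyIntegrableOn _,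
    fun φ _ i => by simp⟩

theorem ionW_zero {C0 D K a : ℝ} (hK : 0 ≤ K) : IonW C0 D K a (fun _ => 0) where
  w4 := by
    refine ⟨fun _ => 0, ?_, ?_⟩
    · simpa using h1_zero
    · simpa using hK
  m0 := by
    simp only [mul_zero]
    constructor
    · simp
    · simp
  m1 := by
    simp only [mul_zero]
    constructor
    · simp
    · simp; positivity
  m2 := by
    simp only [mul_zero]
    constructor
    · simp
    · simp; positivity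

/-! ### the fibre data of a channel function -/

theorem G_eq (π : ℝ) (Φ : Y2 → ℝ) (Y : Config3 → ℝ) (X : Pos3) (ξ : Y2) :
    Fb.G π Φ (fun ξ => Y (jn p9 X ξ)) ξ = cR π Φ Y (jn p9 X ξ) := by
  rw [VS.cR_jn, VS.Yp_jn]
  rfl

theorem l2_G (a π : ℝ) (Φ : Y2 → ℝ) (Y : Config3 → ℝ) (X : Pos3) :
    l2 volume (fun ξ => Real.exp (a * wi ξ) * Fb.G π Φ (fun ξ => Y (jn p9 X ξ)) ξ) =
      wN a (cR π Φ Y) X := by
  simp only [G_eq]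
  rfl

theorem tf_eq (a π : ℝ) (Φ : Y2 → ℝ) (Y : Config3 → ℝ) (X : Pos3) :
    Sy.Tf a Φ Y (fun x => Sy.ew a x * cR π Φ Y x) X =
    (∫ ξ, WX X ξ * (Real.exp (a * wi ξ) * Y (jn p9 X ξ) *
      (Real.exp (a * wi ξ) * Fb.G π Φ (fun ξ => Y (jn p9 X ξ)) ξ))) -
      (∫ ξ, (Real.exp (a * wi ξ) * Φ ξ) *
        (Real.exp (a * wi ξ) * Fb.G π Φ (fun ξ => Y (jn p9 X ξ)) ξ)) *
        ∫ ξ, WX X ξ * (Φ ξ * Y (jn p9 X ξ)) := by
  unfold Sy.Tf Sy.WY cF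
  simp only [Sy.ew_jn, G_eq]
  rfl

/-- all constants of an ion state on the fibres -/
structure IB (C0 D a K' : ℝ) (Φ : Y2 → ℝ) : Prop where
  m : MemLp (fun ξ => Real.exp (a * wi ξ) * Φ ξ) 2 volume
  mW : ∀ Z : Pos3, MemLp (fun ξ => Real.exp (a * wi ξ) * (WX Z ξ * Φ ξ)) 2 volume
  i2 : l2 volume (fun ξ => Real.exp (a * wi ξ) * Φ ξ) ≤ 2
  q : ∀ X : Pos3, 1 ≤ ‖X‖ →
    l2 volume (fun ξ => Real.exp (a * wi ξ) * ((WX X ξ - 2 / ‖X‖) * Φ ξ)) ≤ K' / ‖X‖ ^ 2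
  μ : ∀ X : Pos3, 1 ≤ ‖X‖ → l2 volume (fun ξ => Real.exp (a * wi ξ) * (Wm X ξ * Φ ξ)) ≤
    16 * C0 * D * |X 2| / ‖X‖ ^ 3 + K' * Real.exp (-(a / 2) * ‖X‖)
  b : ∀ X : Pos3, 1 ≤ ‖X‖ → l2 (volume.restrict (Far X))
    (fun ξ => Real.exp (a * wi ξ) * (WX X ξ * Φ ξ)) ≤ K' * Real.exp (-(a / 2) * ‖X‖)
  br : ∀ X : Pos3, 1 ≤ ‖X‖ → l2 (volume.restrict (Far X))
    (fun ξ => Real.exp (a * wi ξ) * (WX (rz X) ξ * Φ ξ)) ≤ K' * Real.exp (-(a / 2) * ‖X‖)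

theorem ib_exists {C0 D K a : ℝ} (hC : 1 ≤ C0) (hD : 1 ≤ D) (ha : 0 < a) (ha1 : a ≤ 1 / 100) :
    ∃ K' : ℝ, 0 < K' ∧ (∀ Φ : Y2 → ℝ, IonW C0 D K a Φ → IB C0 D a K' Φ) ∧
      (∀ Φ Φ' : Y2 → ℝ, IonW C0 D K a Φ → IonW C0 D K a Φ' → ∀ X : Pos3, 1 ≤ ‖X‖ →
        |(∫ ξ, Φ' ξ * Wm X ξ * Φ ξ) - X 2 / ‖X‖ ^ 3 * ∫ ξ, Φ' ξ * (el 0 ξ 2 + el 1 ξ 2) * Φ ξ| ≤
          K' * |X 2| / ‖X‖ ^ 4 + K' * Real.exp (-(a / 2) * ‖X‖)) ∧
      (∀ Φ : Y2 → ℝ, IonW C0 D K a Φ → (∀ i : Fin 3, ∀ᵐ ξ, Φ (cxi i ξ) ^ 2 = Φ ξ ^ 2) →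
        ∀ X : Pos3, 1 ≤ ‖X‖ →
        |(∫ ξ, WX X ξ * Φ ξ ^ 2) - 2 / ‖X‖ * ∫ ξ, Φ ξ ^ 2| ≤ K' / ‖X‖ ^ 3) := by
  obtain ⟨K1, hK1, hm⟩ := multipole (K := K) hC hD ha ha1
  obtain ⟨K2, hK2, hd⟩ := multipole_diag (K := K) hC hD ha ha1
  refine ⟨K1 + K2, by positivity, ?_, ?_, ?_⟩
  · intro Φ hΦ
    have hex : ∀ X : Pos3, K1 * Real.exp (-(a / 2) * ‖X‖) ≤
        (K1 + K2) * Real.exp (-(a / 2) * ‖X‖) := fun X =>
      mul_le_mul_of_nonneg_right (by linarith) (Real.exp_pos _).le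
    refine ⟨VecF.ion_mem hΦ (by linarith), fun Z => VecF.ion_memWX hΦ Z (by linarith), ?_, ?_, ?_,
      ?_, ?_⟩
    · have h1 := hΦ.m0
      have m2 := VecF.ion_mem hΦ (b := 2 * a) (by linarith)
      have h2 : l2 volume (fun ξ => Real.exp (a * wi ξ) * Φ ξ) ≤
          l2 volume (fun ξ => Real.exp (2 * a * wi ξ) * Φ ξ) := by
        refine l2_mono m2 (ae_of_all _ fun ξ => ?_)
        rw [abs_mul, abs_mul, abs_of_pos (Real.exp_pos _), abs_of_pos (Real.exp_pos _)]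
        refine mul_le_mul_of_nonneg_right (Real.exp_le_exp.2 ?_) (abs_nonneg _)
        have := two_le_wi ξ
        nlinarith
      refine h2.trans ?_
      unfold l2
      rw [Real.sqrt_le_left (by norm_num)]
      linarith [h1.2]
    · intro X hX
      have h1 := (hm Φ Φ hΦ hΦ X hX).1
      refine (le_of_eq_of_le ?_ h1).trans (div_le_div_of_nonneg_right (by linarith) (by positivity))
      unfold l2
      congr 2; funext ξ; ring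
    · intro X hX
      have h1 := (hm Φ Φ hΦ hΦ X hX).2.1
      have h2 := hex X
      refine (le_of_eq_of_le ?_ h1).trans (by linarith)
      unfold l2
      congr 2; funext ξ; ring
    · intro X hX
      have h1 := (hm Φ Φ hΦ hΦ X hX).2.2.1
      refine (le_of_eq_of_le ?_ h1).trans (hex X)
      unfold l2 Far
      congr 2; funext ξ; ring
    · intro X hX
      have hX' : 1 ≤ ‖rz X‖ := by rw [norm_rz]; exact hX
      have h1 := (hm Φ Φ hΦ hΦ (rz X) hX').2.2.1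
      have h2 := hex X
      rw [norm_rz] at h1
      refine (le_of_eq_of_le ?_ h1).trans h2
      unfold l2 Far
      congr 2; funext ξ; ring
  · intro Φ Φ' hΦ hΦ' X hX
    refine (hm Φ Φ' hΦ hΦ' X hX).2.2.2.trans (add_le_add ?_ ?_)
    · exact div_le_div_of_nonneg_right (mul_le_mul_of_nonneg_right (by linarith) (abs_nonneg _))
        (by positivity)
    · exact mul_le_mul_of_nonneg_right (by linarith) (Real.exp_pos _).le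
  · intro Φ hΦ hs X hX
    exact (hd Φ hΦ hs X hX).trans (div_le_div_of_nonneg_right (by linarith) (by positivity))

/-- slices of a channel function -/
theorem slice_mW {a : ℝ} (ha : 0 ≤ a) {Y : Config3 → ℝ}
    (hw : ∃ d, H1 (fun x => Real.exp (2 * a * (jb (elPos 1 x) + jb (elPos 2 x))) * Y x) d) :
    ∀ᵐ X : Pos3, MemLp (fun ξ => Real.exp (a * wi ξ) * Y (jn p9 X ξ)) 2 volume ∧
      ∀ Z : Pos3, MemLp (fun ξ => Real.exp (a * wi ξ) * (WX Z ξ * Y (jn p9 X ξ))) 2 volume := by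
  obtain ⟨d, hd⟩ := hw
  filter_upwards [slice_weight hd] with X hX
  refine ⟨VecF.memLp_ew_le (c := 2 * a) (by linarith) hX.memf, fun Z => ?_⟩
  refine VecF.memLp_ew_le (c := 2 * a) (by linarith) ((Sy.memLp_WX hX Z).ae_eq
    (ae_of_all _ fun ξ => ?_))
  simp only
  ring

theorem l2_le_one {Φ : Y2 → ℝ} (h : (∫ ξ, Φ ξ ^ 2 = 1) ∨ (∀ ξ, Φ ξ = 0)) : l2 volume Φ ≤ 1 := by
  unfold l2
  rcases h with h | h
  · rw [h, Real.sqrt_one]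
  · simp [h]

theorem fb_ae {C0 D a K' : ℝ} (ha : 0 < a) {Y : Config3 → ℝ}
    (hw : ∃ d, H1 (fun x => Real.exp (2 * a * (jb (elPos 1 x) + jb (elPos 2 x))) * Y x) d)
    {b : Pos3 → ℝ} {R0 : ℝ}
    (hfar : ∀ᵐ X : Pos3, R0 ≤ ‖X‖ →
        √(∫ ξ in {ξ | ‖X‖ / 2 < wi ξ}, (Real.exp (a * wi ξ) * WX X ξ * Y (jn p9 X ξ)) ^ 2) ≤
            b X ∧
        √(∫ ξ in {ξ | ‖X‖ / 2 < wi ξ},
            (Real.exp (a * wi ξ) * WX (rz X) ξ * Y (jn p9 X ξ)) ^ 2) ≤ b X)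
    {π : ℝ} (hπ : π = 1 ∨ π = -1) {Φ Φ' : Y2 → ℝ} (hΦ : IB C0 D a K' Φ) (hΦ' : IB C0 D a K' Φ')
    (pΦ : ∀ ξ, Φ (rxi ξ) = π * Φ ξ) (pΦ' : ∀ ξ, Φ' (rxi ξ) = -π * Φ' ξ)
    (nΦ : (∫ ξ, Φ ξ ^ 2 = 1) ∨ (∀ ξ, Φ ξ = 0))
    (hdiag : ∀ X : Pos3, 1 ≤ ‖X‖ →
        |(∫ ξ, WX X ξ * Φ ξ ^ 2) - 2 / ‖X‖ * ∫ ξ, Φ ξ ^ 2| ≤ K' / ‖X‖ ^ 3) :
    ∀ᵐ X : Pos3, 1 ≤ ‖X‖ → R0 ≤ ‖X‖ →
      Fb a X π Φ Φ' (fun ξ => Y (jn p9 X ξ)) (K' / ‖X‖ ^ 3) (K' / ‖X‖ ^ 2)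
        (16 * C0 * D * |X 2| / ‖X‖ ^ 3 + K' * Real.exp (-(a / 2) * ‖X‖))
        (16 * C0 * D * |X 2| / ‖X‖ ^ 3 + K' * Real.exp (-(a / 2) * ‖X‖)) (b X)
        (K' * Real.exp (-(a / 2) * ‖X‖)) := by
  filter_upwards [slice_mW ha.le hw, hfar] with X hX hf
  intro h1 h2
  obtain ⟨f1, f2⟩ := hf h2
  refine ⟨ha.le, by linarith, hπ, pΦ, pΦ', nΦ, hΦ.m, hΦ'.m, hX.1, hΦ.mW, hΦ'.mW, hX.2, hΦ.i2,
    l2_le_one nΦ, hdiag X h1, hΦ.q X h1, hΦ.μ X h1, hΦ'.μ X h1, ?_, ?_, hΦ'.b X h1, hΦ'.br X h1⟩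
  · refine le_of_eq_of_le ?_ f1
    unfold l2 Far
    congr 2; funext ξ; ring
  · refine le_of_eq_of_le ?_ f2
    unfold l2 Far
    congr 2; funext ξ; ring

theorem Fb.J_bd {a : ℝ} {X : Pos3} {π : ℝ} {Φ Φ' y : Y2 → ℝ} {d q μ μ' b b' : ℝ}
    (h : Fb a X π Φ Φ' y d q μ μ' b b') : |∫ ξ, Wm X ξ * (Φ ξ * Φ' ξ)| ≤ μ' := by
  have e : ∀ ξ, Wm X ξ * (Φ ξ * Φ' ξ) = (Wm X ξ * Φ' ξ) * Φ ξ := fun ξ => by ring
  simp_rw [e]
  have hμ0' : 0 ≤ μ' := (l2_nonneg _ _).trans h.hμ'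
  have u1 := VecF.memLp_of_ew h.ha (Fb.mWm (X := X) h.mWΦ')
  have u2 := VecF.memLp_of_ew h.ha h.mΦ
  refine (l2_cs u1 u2).trans ?_
  have h1 : l2 volume (fun ξ => Wm X ξ * Φ' ξ) ≤ μ' :=
    (l2_drop h.ha (Fb.mWm (X := X) h.mWΦ')).trans h.hμ'
  calc l2 volume (fun ξ => Wm X ξ * Φ' ξ) * l2 volume Φ ≤ μ' * 1 :=
        mul_le_mul h1 h.iΦ1 (l2_nonneg _ _) hμ0'
    _ = μ' := mul_one _

/-- weights of a channel function -/
theorem hw_of {a : ℝ} (ha : 0 ≤ a) {Y : Config3 → ℝ} (h : VecF.IsW a Y) :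
    ∃ d, H1 (fun x => Real.exp (2 * a * (jb (elPos 1 x) + jb (elPos 2 x))) * Y x) d := by
  obtain ⟨d, hd⟩ := h.ew ha (b := 2 * a) (by linarith)
  refine ⟨d, ?_⟩
  simp only [Sy.ew, VecF.w9_eq] at hd
  exact hd

/-! ### arithmetic -/

/-- `|WY + V α|` -/
theorem arith1 {A K0 D0 K' s3 s2 t3 e α β N N' J V W α' β' : ℝ} (hA : 0 ≤ A) (hK0 : 0 ≤ K0)
    (hD0 : 0 ≤ D0) (hK' : A + K0 + D0 ≤ K') (hs3 : 0 ≤ s3) (hs2 : 0 ≤ s2) (ht3 : 0 ≤ t3)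
    (he : 0 ≤ e) (hα : α = |α'|) (hβ : β = |β'|) (hN : 0 ≤ N) (hN' : 0 ≤ N')
    (h1 : |W - V * α' - β' * J| ≤ K0 * s3 * α + K0 * s2 * N + (A * t3 + K0 * e) * N')
    (h2 : |J| ≤ A * t3 + K0 * e) {V2 : ℝ} (h3 : |V2 + V| ≤ D0 * s3) :
    |W + V2 * α'| ≤ K' * (α * s3 + N * s2 + (t3 + e) * (β + N')) := by
  have hα0 : 0 ≤ α := by rw [hα]; exact abs_nonneg _
  have hβ0 : 0 ≤ β := by rw [hβ]; exact abs_nonneg _
  have e0 : W + V2 * α' = (W - V * α' - β' * J) + β' * J + (V2 + V) * α' := by ring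
  have b1 : |β' * J| ≤ β * (A * t3 + K0 * e) := by
    rw [abs_mul, hβ]; exact mul_le_mul_of_nonneg_left h2 (abs_nonneg _)
  have b2 : |(V2 + V) * α'| ≤ D0 * s3 * α := by
    rw [abs_mul, hα]; exact mul_le_mul_of_nonneg_right h3 (abs_nonneg _)
  rw [e0]
  refine (abs_add_three _ _ _).trans ?_
  have c1 : 0 ≤ (K' - A - K0 - D0) * (α * s3) := mul_nonneg (by linarith) (by positivity)
  have c2 : 0 ≤ (K' - A - K0 - D0) * (N * s2) := mul_nonneg (by linarith) (by positivity)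
  have c3 : 0 ≤ (K' - A - K0 - D0) * ((t3 + e) * (β + N')) :=
    mul_nonneg (by linarith) (by positivity)
  have c4 : 0 ≤ (A + D0) * (N * s2) := by positivity
  have c5 : 0 ≤ A * (α * s3) := by positivity
  have c6 : 0 ≤ (K0 + D0) * (t3 * (β + N')) := by positivity
  have c7 : 0 ≤ (A + D0) * (e * (β + N')) := by positivity
  nlinarith

/-- `|WY + V c + dip z r⁻³ F|` -/
theorem arith2 {A K0 D0 K' s3 s2 t3 t4 e β α N N' J V W α' β' w : ℝ} (hA : 0 ≤ A) (hK0 : 0 ≤ K0)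
    (hD0 : 0 ≤ D0) (hK' : A + K0 + D0 ≤ K') (hs3 : 0 ≤ s3) (hs2 : 0 ≤ s2) (ht3 : 0 ≤ t3)
    (ht4 : 0 ≤ t4) (he : 0 ≤ e) (hα : α = |α'|) (hβ : β = |β'|) (hN : 0 ≤ N) (hN' : 0 ≤ N')
    (h1 : |W - V * α' - β' * J| ≤ K0 * s3 * α + K0 * s2 * N + (A * t3 + K0 * e) * N')
    (h2 : |J + w| ≤ K0 * t4 + K0 * e) {V2 : ℝ} (h3 : |V2 + V| ≤ D0 * s3) :
    |W + V2 * α' + w * β'| ≤ K' * (α * s3 + N * s2 + (t4 + e) * β) + (A * t3 + K' * e) * N' := by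
  have hα0 : 0 ≤ α := by rw [hα]; exact abs_nonneg _
  have hβ0 : 0 ≤ β := by rw [hβ]; exact abs_nonneg _
  have e0 : W + V2 * α' + w * β' = (W - V * α' - β' * J) + β' * (J + w) + (V2 + V) * α' := by ring
  have b1 : |β' * (J + w)| ≤ β * (K0 * t4 + K0 * e) := by
    rw [abs_mul, hβ]; exact mul_le_mul_of_nonneg_left h2 (abs_nonneg _)
  have b2 : |(V2 + V) * α'| ≤ D0 * s3 * α := by
    rw [abs_mul, hα]; exact mul_le_mul_of_nonneg_right h3 (abs_nonneg _)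
  rw [e0]
  refine (abs_add_three _ _ _).trans ?_
  have c1 : 0 ≤ (K' - K0 - D0) * (α * s3) := mul_nonneg (by linarith) (by positivity)
  have c2 : 0 ≤ (K' - K0) * (N * s2) := mul_nonneg (by linarith) (by positivity)
  have c3 : 0 ≤ (K' - K0) * ((t4 + e) * β) := mul_nonneg (by linarith) (by positivity)
  have c4 : 0 ≤ (K' - K0) * (e * N') := mul_nonneg (by linarith) (by positivity)
  nlinarith

/-- bracket of the remainder -/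
theorem arith3 {A K0 K2 K' s3 s2 t3 t2 e f b α β N N' T : ℝ} (hA : 0 ≤ A) (hK0 : 0 ≤ K0)
    (hK2 : 0 ≤ K2) (hs3 : 0 ≤ s3) (hs32 : s3 ≤ s2) (hs21 : s2 ≤ 1) (ht3 : 0 ≤ t3) (ht32 : t3 ≤ t2)
    (he : 0 ≤ e) (hα : 0 ≤ α) (hβ : 0 ≤ β) (hN : 0 ≤ N) (hN' : 0 ≤ N') (hb : b ≤ K2 * f)
    (hf : 0 ≤ f) (hK' : 4 + 4 * K0 + 3 * A + K2 ≤ K')
    (h : -(((K0 * s2 + 2 * (K0 * s3)) * α + 3 * (A * t3 + K0 * e) * β +
      (4 * t2 + 2 * (A * t3 + K0 * e)) * N' + (b + K0 * e * β) + 2 * (K0 * s2) * N) * N) ≤ T) :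
    -(K' * N + K' * (α * s2 + (t3 + e) * β + (t2 + e) * N' + f)) * N ≤ T ∧
    -(K' * N + ((3 * A * t3 + K' * e) * β + K' * (α * s2 + (t2 + e) * N' + f))) * N ≤ T := by
  have hs2 : 0 ≤ s2 := hs3.trans hs32
  have ht2 : 0 ≤ t2 := ht3.trans ht32
  have d1 : 0 ≤ (K' - 3 * K0) * (α * s2) := mul_nonneg (by linarith) (by positivity)
  have d1' : 0 ≤ K0 * ((s2 - s3) * α) :=
    mul_nonneg hK0 (mul_nonneg (by linarith) hα)
  have d2 : 0 ≤ (K' - 4 * K0) * (e * β) := mul_nonneg (by linarith) (by positivity)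
  have d3 : 0 ≤ (K' - 3 * A) * (t3 * β) := mul_nonneg (by linarith) (by positivity)
  have d4 : 0 ≤ (K' - 4 - 2 * A) * (t2 * N') := mul_nonneg (by linarith) (by positivity)
  have d4' : 0 ≤ A * ((t2 - t3) * N') := mul_nonneg hA (mul_nonneg (by linarith) hN')
  have d5 : 0 ≤ (K' - 2 * K0) * (e * N') := mul_nonneg (by linarith) (by positivity)
  have d6 : 0 ≤ (K' - K2) * f := mul_nonneg (by linarith) hf
  have d7 : 0 ≤ (K' - 2 * K0) * N := mul_nonneg (by linarith) hN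
  have d7' : 0 ≤ K0 * ((1 - s2) * N) := mul_nonneg hK0 (mul_nonneg (by linarith) hN)
  constructor
  · refine le_trans ?_ h
    have key : (K0 * s2 + 2 * (K0 * s3)) * α + 3 * (A * t3 + K0 * e) * β +
      (4 * t2 + 2 * (A * t3 + K0 * e)) * N' + (b + K0 * e * β) + 2 * (K0 * s2) * N ≤
      K' * N + K' * (α * s2 + (t3 + e) * β + (t2 + e) * N' + f) := by nlinarith
    have := mul_le_mul_of_nonneg_right key hN
    linarith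
  · refine le_trans ?_ h
    have key : (K0 * s2 + 2 * (K0 * s3)) * α + 3 * (A * t3 + K0 * e) * β +
      (4 * t2 + 2 * (A * t3 + K0 * e)) * N' + (b + K0 * e * β) + 2 * (K0 * s2) * N ≤
      K' * N + ((3 * A * t3 + K' * e) * β + K' * (α * s2 + (t2 + e) * N' + f)) := by nlinarith
    have := mul_le_mul_of_nonneg_right key hN
    linarith

/-! ### the singlet channel -/

theorem a_pos {cg C0 D : ℝ} (B : OBD cg C0 D) : 0 < B.a := by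
  have := B.ob.eg_lt
  unfold OBD.a OBD.om
  linarith

theorem a_le {cg C0 D : ℝ} (B : OBD cg C0 D) : B.a ≤ 1 / 100 := by
  have h1 := B.omle
  have h2 := B.cg1
  unfold OBD.a OBD.om
  linarith

theorem src_S {cg C0 D : ℝ} (hC : 1 ≤ C0) (hD : 4 ≤ D) (B : OBD cg C0 D) (K : ℝ) :
    Sy.SrcS B K := by
  have hD1 : 1 ≤ D := by linarith
  have ha := a_pos B
  have ha1 := a_le B
  obtain ⟨l1, hl1, hl11, hprm⟩ := prm_exists (by linarith : 0 < D) B K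
  obtain ⟨Kd, ld, hKd, hld, hdec⟩ := BI.decay_S hD1 B K
  obtain ⟨K0, hK0, hib, hdip, hdiag⟩ := ib_exists (K := K) hC hD1 ha ha1
  obtain ⟨K2, hK2, hfc⟩ := BI.far_coupling (K := Kd) hD1 ha ha1
  have hA : 0 ≤ 16 * C0 * D := by positivity
  have hD0 : 0 ≤ 12 * D ^ 2 := by positivity
  obtain ⟨K', hK'⟩ : ∃ K', K' = 4 + 4 * K0 + 3 * (16 * C0 * D) + 12 * D ^ 2 + K2 + 2 * D :=
    ⟨_, rfl⟩
  have k1 : 1 ≤ K' := by linarith
  have k2 : K2 ≤ K' := by linarith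
  have k3 : 2 * D ≤ K' := by linarith
  have k4 : 4 + 4 * K0 + 3 * (16 * C0 * D) + K2 ≤ K' := by linarith
  have k5 : 16 * C0 * D + K0 + 12 * D ^ 2 ≤ K' := by linarith
  clear hK'
  refine ⟨K', min l1 ld, k1, lt_min hl1 hld, ?_⟩
  intro lam hl0 hl S
  have P := hprm lam hl0 (hl.trans (min_le_left _ _)) S
  obtain ⟨dY, hY⟩ := BI.chan_S S.tb
  have hY' : Chan D lam S.E 1 S.YS dY := hY
  have hw := hw_of ha.le S.isW_YS
  have hfar := hfc lam S.E 1 S.κ S.YS dY hl0.le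
    ((hl.trans (min_le_left _ _)).trans hl11) P.E2 (by linarith [P.E0]) (by linarith [P.klow])
    (by linarith [P.kup]) hY' hw (hdec lam hl0 (hl.trans (min_le_right _ _)) S)
  have fb1 := fb_ae (π := 1) ha hw hfar (Or.inl rfl) (hib _ S.w0) (hib _ S.w1) S.ch0.par
    (fun ξ => by rw [S.ch1.par]) (Or.inl S.n0) (hdiag _ S.w0 S.sq0)
  have fb2 := fb_ae (π := -1) ha hw hfar (Or.inr rfl) (hib _ S.w1) (hib _ S.w0) S.ch1.par
    (fun ξ => by rw [S.ch0.par, neg_neg]) (Or.inl S.n1) (hdiag _ S.w1 S.sq1)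
  filter_upwards [fb1, fb2] with X h1 h2
  intro hX
  have hr1 : 1 ≤ ‖X‖ := by linarith
  have hr2 : K2 ≤ ‖X‖ := by linarith
  have hr0 : 0 < ‖X‖ := by linarith
  have hrD : D ≤ ‖X‖ / 2 := by linarith
  have g1 := h1 hr1 hr2
  have g2 := h2 hr1 hr2
  have p1 := g1.proj_bd
  have t1 := g1.tf_bd
  have p2 := g2.proj_bd
  have t2 := g2.tf_bd
  have J1 := g1.J_bd
  have J2 := hdip _ _ S.w0 S.w1 X hr1
  have v2 := V2_quad (by linarith) rfl hr0 hrD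
  simp only [l2_G, neg_neg] at p1 t1 p2 t2
  rw [← tf_eq] at t1 t2
  have eF : (∫ ξ, S.Φ0 ξ * S.YS (jn p9 X ξ)) = S.F X := rfl
  have ec : (∫ ξ, S.Φ1 ξ * S.YS (jn p9 X ξ)) = S.c X := rfl
  have eP : wN B.a (cR 1 S.Φ0 S.YS) X = S.P X := rfl
  have eN : wN B.a (cR (-1) S.Φ1 S.YS) X = S.N X := rfl
  have eW0 : (∫ ξ, WX X ξ * (S.Φ0 ξ * S.YS (jn p9 X ξ))) = Sy.WY S.Φ0 S.YS X := rfl
  have eW1 : (∫ ξ, WX X ξ * (S.Φ1 ξ * S.YS (jn p9 X ξ))) = Sy.WY S.Φ1 S.YS X := rfl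
  rw [eF, ec, eP, eN] at p1 t1 p2 t2
  rw [eW0] at p1
  rw [eW1] at p2
  have hP0 : 0 ≤ S.P X := Real.sqrt_nonneg _
  have hN0 : 0 ≤ S.N X := Real.sqrt_nonneg _
  obtain ⟨e, he⟩ : ∃ e, e = Real.exp (-(B.a / 2) * ‖X‖) := ⟨_, rfl⟩
  have he0 : 0 ≤ e := by rw [he]; exact (Real.exp_pos _).le
  obtain ⟨f, hf⟩ : ∃ f, f = Real.exp (-(S.κ + B.a / 4) * ‖X‖) := ⟨_, rfl⟩
  have hf0 : 0 ≤ f := by rw [hf]; exact (Real.exp_pos _).le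
  have hff : K2 * Real.exp (-(S.κ + 5 * B.a / 16) * ‖X‖) ≤ K2 * f := by
    rw [hf]
    refine mul_le_mul_of_nonneg_left (Real.exp_le_exp.2 ?_) hK2.le
    have := mul_pos ha hr0
    linarith
  have s3 : 0 ≤ 1 / ‖X‖ ^ 3 := by positivity
  have s2 : 0 ≤ 1 / ‖X‖ ^ 2 := by positivity
  have s32 : 1 / ‖X‖ ^ 3 ≤ 1 / ‖X‖ ^ 2 :=
    one_div_le_one_div_of_le (by positivity) (pow_le_pow_right₀ hr1 (by norm_num))
  have s21 : 1 / ‖X‖ ^ 2 ≤ 1 := by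
    rw [div_le_one (by positivity)]; exact one_le_pow₀ hr1
  have t3 : 0 ≤ |X 2| / ‖X‖ ^ 3 := by positivity
  have t4 : 0 ≤ |X 2| / ‖X‖ ^ 4 := by positivity
  have t32 : |X 2| / ‖X‖ ^ 3 ≤ |X 2| / ‖X‖ ^ 2 :=
    div_le_div_of_nonneg_left (abs_nonneg _) (by positivity)
      (pow_le_pow_right₀ hr1 (by norm_num))
  have w0 : K0 / ‖X‖ ^ 3 = K0 * (1 / ‖X‖ ^ 3) := by ring
  have w1 : K0 / ‖X‖ ^ 2 = K0 * (1 / ‖X‖ ^ 2) := by ring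
  have w2 : 16 * C0 * D * |X 2| / ‖X‖ ^ 3 = 16 * C0 * D * (|X 2| / ‖X‖ ^ 3) := by ring
  have w3 : 12 * D ^ 2 / ‖X‖ ^ 3 = 12 * D ^ 2 * (1 / ‖X‖ ^ 3) := by ring
  have w4 : K0 * |X 2| / ‖X‖ ^ 4 = K0 * (|X 2| / ‖X‖ ^ 4) := by ring
  have w5 : 4 * |X 2| / ‖X‖ ^ 2 = 4 * (|X 2| / ‖X‖ ^ 2) := by ring
  rw [← he] at p1 p2 t1 t2 J1 J2
  rw [w0, w1, w2] at p1 p2 t1 t2
  rw [w5] at t1 t2
  rw [w2] at J1
  rw [w4] at J2
  rw [w3] at v2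
  have A1 := arith1 (A := 16 * C0 * D) (K' := K') hA hK0.le hD0 k5 s3 s2 t3 he0 rfl rfl hP0 hN0 p1 J1 v2
  have J2' : |(∫ ξ, Wm X ξ * (S.Φ1 ξ * S.Φ0 ξ)) + S.dip * (X 2 / ‖X‖ ^ 3)| ≤
      K0 * (|X 2| / ‖X‖ ^ 4) + K0 * e := by
    have e1 : (∫ ξ, Wm X ξ * (S.Φ1 ξ * S.Φ0 ξ)) + S.dip * (X 2 / ‖X‖ ^ 3) =
        (∫ ξ, S.Φ1 ξ * Wm X ξ * S.Φ0 ξ) -
          X 2 / ‖X‖ ^ 3 * ∫ ξ, S.Φ1 ξ * (el 0 ξ 2 + el 1 ξ 2) * S.Φ0 ξ := by
      unfold Sys.dip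
      have : ∀ ξ, Wm X ξ * (S.Φ1 ξ * S.Φ0 ξ) = S.Φ1 ξ * Wm X ξ * S.Φ0 ξ := fun ξ => by ring
      simp_rw [this]
      ring
    rw [e1]
    exact J2
  have A2 := arith2 (A := 16 * C0 * D) (K' := K') hA hK0.le hD0 k5 s3 s2 t3 t4 he0 rfl rfl hN0 hP0 p2 J2' v2
  have A3 := (arith3 (A := 16 * C0 * D) (K' := K') hA hK0.le hK2.le s3 s32 s21 t3 t32 he0 (abs_nonneg (S.F X)) (abs_nonneg (S.c X)) hP0 hN0
    hff hf0 k4 t1).1
  have A4 := (arith3 (A := 16 * C0 * D) (K' := K') hA hK0.le hK2.le s3 s32 s21 t3 t32 he0 (abs_nonneg (S.c X)) (abs_nonneg (S.F X)) hN0 hP0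
    hff hf0 k4 t2).2
  have f1 : ∀ y : ℝ, y / ‖X‖ ^ 2 = y * (1 / ‖X‖ ^ 2) := fun y => by ring
  have f2 : ∀ y : ℝ, y / ‖X‖ ^ 3 = y * (1 / ‖X‖ ^ 3) := fun y => by ring
  rw [← he, ← hf]
  refine ⟨?_, ?_, ?_, ?_⟩
  · refine A1.trans (le_of_eq ?_)
    ring
  · refine A2.trans (le_of_eq ?_)
    ring
  · refine le_trans (le_of_eq ?_) A3
    ring
  · refine le_trans ?_ A4
    have hn : 0 ≤ C0 * D * (|X 2| / ‖X‖ ^ 3) * |S.F X| * S.N X := by positivity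
    have e5 : -(K' * S.N X + ((64 * C0 * D * |X 2| / ‖X‖ ^ 3 + K' * e) * |S.F X| +
        K' * (|S.c X| / ‖X‖ ^ 2 + (|X 2| / ‖X‖ ^ 2 + e) * S.P X + f))) * S.N X =
        -(K' * S.N X + ((3 * (16 * C0 * D) * (|X 2| / ‖X‖ ^ 3) + K' * e) * |S.F X| +
        K' * (|S.c X| * (1 / ‖X‖ ^ 2) + (|X 2| / ‖X‖ ^ 2 + e) * S.P X + f))) * S.N X -
        16 * (C0 * D * (|X 2| / ‖X‖ ^ 3) * |S.F X| * S.N X) := by ring
    rw [e5]
    linarith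

/-! ### the triplet channels -/

theorem cR_zero (π : ℝ) (Y : Config3 → ℝ) : cR π (fun _ => 0) Y = Yp π Y := by
  funext x
  unfold cR
  simp

theorem src_T {cg C0 D : ℝ} (hC : 1 ≤ C0) (hD : 4 ≤ D) (B : OBD cg C0 D) (K : ℝ) :
    Sy.SrcT B K := by
  have hD1 : 1 ≤ D := by linarith
  have ha := a_pos B
  have ha1 := a_le B
  obtain ⟨l1, hl1, hl11, hprm⟩ := prm_exists (by linarith : 0 < D) B K
  obtain ⟨Kd, ld, hKd, hld, hdec⟩ := BI.decay_T hD1 B K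
  obtain ⟨K0, hK0, hib, hdip, hdiag⟩ := ib_exists (K := K) hC hD1 ha ha1
  obtain ⟨K2, hK2, hfc⟩ := BI.far_coupling (K := Kd) hD1 ha ha1
  have hA : 0 ≤ 16 * C0 * D := by positivity
  have hD0 : 0 ≤ 12 * D ^ 2 := by positivity
  obtain ⟨K', hK'⟩ : ∃ K', K' = 4 + 4 * K0 + 3 * (16 * C0 * D) + 12 * D ^ 2 + K2 + 2 * D :=
    ⟨_, rfl⟩
  have k1 : 1 ≤ K' := by linarith
  have k2 : K2 ≤ K' := by linarith
  have k3 : 2 * D ≤ K' := by linarith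
  have k4 : 4 + 4 * K0 + 3 * (16 * C0 * D) + K2 ≤ K' := by linarith
  have k5 : 16 * C0 * D + K0 + 12 * D ^ 2 ≤ K' := by linarith
  clear hK'
  refine ⟨K', min l1 ld, k1, lt_min hl1 hld, ?_⟩
  intro lam hl0 hl S Y hYY
  have P := hprm lam hl0 (hl.trans (min_le_left _ _)) S
  have hK : 0 ≤ K := by linarith [S.Kpos]
  obtain ⟨dY, hY'⟩ : ∃ dY, Chan D lam S.E (-1) Y dY := by
    rcases hYY with h | h
    · obtain ⟨d, hd⟩ := BI.chan_T S.tb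
      rw [h]; exact ⟨d, hd⟩
    · obtain ⟨d, hd⟩ := BI.chan_B S.tb
      rw [h]; exact ⟨d, hd⟩
  have hW : VecF.IsW B.a Y := by
    rcases hYY with h | h
    · rw [h]; exact S.isW_YT
    · rw [h]; exact S.isW_YB
  have hw := hw_of ha.le hW
  have hfar := hfc lam S.E (-1) S.κT Y dY hl0.le
    ((hl.trans (min_le_left _ _)).trans hl11) P.E2 (by linarith [P.E0]) (by linarith [P.kTlow])
    (by linarith [P.kTup]) hY' hw (hdec lam hl0 (hl.trans (min_le_right _ _)) S Y hYY)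
  have hz : IonW C0 D K B.a (fun _ => 0) := ionW_zero hK
  have fb1 := fb_ae (π := -1) ha hw hfar (Or.inr rfl) (hib _ S.wT) (hib _ hz) S.chT.par
    (fun ξ => by simp) (Or.inl S.nT) (hdiag _ S.wT S.sqT)
  have fb2 := fb_ae (π := 1) ha hw hfar (Or.inl rfl) (hib _ hz) (hib _ S.wT) (fun ξ => by simp)
    (fun ξ => by rw [S.chT.par]) (Or.inr fun _ => rfl)
    (hdiag _ hz (fun i => ae_of_all _ fun _ => rfl))
  filter_upwards [fb1, fb2] with X h1 h2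
  intro hX
  have hr1 : 1 ≤ ‖X‖ := by linarith
  have hr2 : K2 ≤ ‖X‖ := by linarith
  have hr0 : 0 < ‖X‖ := by linarith
  have hrD : D ≤ ‖X‖ / 2 := by linarith
  have g1 := h1 hr1 hr2
  have g2 := h2 hr1 hr2
  have p1 := g1.proj_bd
  have t1 := g1.tf_bd
  have t2 := g2.tf_bd
  have J1 := g1.J_bd
  have v2 := V2_quad (by linarith) rfl hr0 hrD
  simp only [l2_G, neg_neg] at p1 t1 t2
  rw [← tf_eq] at t1 t2
  have et : (∫ ξ, S.ΦT ξ * Y (jn p9 X ξ)) = S.t Y X := rfl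
  have eN : wN B.a (cR (-1) S.ΦT Y) X = S.NT Y X := rfl
  have eP : wN B.a (cR 1 (fun _ => 0) Y) X = S.PT Y X := by
    rw [cR_zero]; rfl
  have eW : (∫ ξ, WX X ξ * (S.ΦT ξ * Y (jn p9 X ξ))) = Sy.WY S.ΦT Y X := rfl
  have ez : (∫ ξ : Y2, (0 : ℝ) * Y (jn p9 X ξ)) = 0 := by simp
  rw [et, eN, eP, ez] at p1 t1 t2
  rw [eW] at p1
  have hP0 : 0 ≤ S.PT Y X := Real.sqrt_nonneg _
  have hN0 : 0 ≤ S.NT Y X := Real.sqrt_nonneg _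
  obtain ⟨e, he⟩ : ∃ e, e = Real.exp (-(B.a / 2) * ‖X‖) := ⟨_, rfl⟩
  have he0 : 0 ≤ e := by rw [he]; exact (Real.exp_pos _).le
  obtain ⟨f, hf⟩ : ∃ f, f = Real.exp (-(S.κT + B.a / 4) * ‖X‖) := ⟨_, rfl⟩
  have hf0 : 0 ≤ f := by rw [hf]; exact (Real.exp_pos _).le
  have hff : K2 * Real.exp (-(S.κT + 5 * B.a / 16) * ‖X‖) ≤ K2 * f := by
    rw [hf]
    refine mul_le_mul_of_nonneg_left (Real.exp_le_exp.2 ?_) hK2.le
    have := mul_pos ha hr0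
    linarith
  have s3 : 0 ≤ 1 / ‖X‖ ^ 3 := by positivity
  have s2 : 0 ≤ 1 / ‖X‖ ^ 2 := by positivity
  have s32 : 1 / ‖X‖ ^ 3 ≤ 1 / ‖X‖ ^ 2 :=
    one_div_le_one_div_of_le (by positivity) (pow_le_pow_right₀ hr1 (by norm_num))
  have s21 : 1 / ‖X‖ ^ 2 ≤ 1 := by
    rw [div_le_one (by positivity)]; exact one_le_pow₀ hr1
  have t3 : 0 ≤ |X 2| / ‖X‖ ^ 3 := by positivity
  have t32 : |X 2| / ‖X‖ ^ 3 ≤ |X 2| / ‖X‖ ^ 2 :=
    div_le_div_of_nonneg_left (abs_nonneg _) (by positivity)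
      (pow_le_pow_right₀ hr1 (by norm_num))
  have w0 : K0 / ‖X‖ ^ 3 = K0 * (1 / ‖X‖ ^ 3) := by ring
  have w1 : K0 / ‖X‖ ^ 2 = K0 * (1 / ‖X‖ ^ 2) := by ring
  have w2 : 16 * C0 * D * |X 2| / ‖X‖ ^ 3 = 16 * C0 * D * (|X 2| / ‖X‖ ^ 3) := by ring
  have w3 : 12 * D ^ 2 / ‖X‖ ^ 3 = 12 * D ^ 2 * (1 / ‖X‖ ^ 3) := by ring
  have w5 : 4 * |X 2| / ‖X‖ ^ 2 = 4 * (|X 2| / ‖X‖ ^ 2) := by ring
  rw [← he] at p1 t1 t2 J1
  rw [w0, w1, w2] at p1 t1 t2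
  rw [w5] at t1 t2
  rw [w2] at J1
  rw [w3] at v2
  have A1 := arith1 (A := 16 * C0 * D) (K' := K') hA hK0.le hD0 k5 s3 s2 t3 he0 rfl rfl hN0 hP0 p1 J1 v2
  have A3 := (arith3 (A := 16 * C0 * D) (K' := K') hA hK0.le hK2.le s3 s32 s21 t3 t32 he0 (abs_nonneg (S.t Y X)) (abs_nonneg (0 : ℝ)) hN0
    hP0 hff hf0 k4 t1).1
  have A4 := (arith3 (A := 16 * C0 * D) (K' := K') hA hK0.le hK2.le s3 s32 s21 t3 t32 he0 (abs_nonneg (0 : ℝ)) (abs_nonneg (S.t Y X)) hP0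
    hN0 hff hf0 k4 t2).1
  rw [← he, ← hf]
  rw [abs_zero] at A1 A3 A4
  refine ⟨?_, ?_, ?_⟩
  · refine A1.trans (le_of_eq ?_)
    ring
  · refine le_trans (le_of_eq ?_) A3
    ring
  · refine le_trans (le_of_eq ?_) A4
    ring

end Src
end Crest.Agent.R335
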