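import Crest.Agent.R335.KGlue
import Crest.Agent.R335.KFinal
import Crest.Agent.R335.KPair
import Crest.Agent.R335.BIface
import Crest.Agent.R335.CIface

/-!
Row 335 (S0521): TOP ASSEMBLY.  `result` follows from
`BI.sys_exists` (existence and data), `CI.out_of_sys` (part B), `CI.partC` (part C),
`pair_exists`, `not_rep'` (Kohn-Sham side) and `KGlue`.
-/

set_option autoImplicit false

open MeasureTheory Filter Set Crest.MathPhysics.ThreeBody
open scoped ENNReal Topology ContDiff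

noncomputable section
namespace Crest.Agent.R335

theorem ta_scaled : ∃ D₀ : ℝ, ∀ D : ℝ, D₀ ≤ D → ∃ l' : ℝ, 0 < l' ∧ ∀ lam : ℝ, 0 < lam →
    lam ≤ l' → ∃ Ψ : Wave3, IsGroundState (V9 D lam) Ψ ∧ ¬ HasEnsembleRep Ψ := by
  obtain ⟨cg, C0, D1, hcg, hC, hD1, hsys⟩ := BI.sys_exists
  obtain ⟨P0, D2, hP0, hD2, hout⟩ := CI.out_of_sys hcg hC
  obtain ⟨D3, hD3, hC3⟩ := CI.partC (P0 := P0) hcg hC hP0
  refine ⟨max D1 (max D2 D3), fun D hD => ?_⟩
  have e1 : D1 ≤ D := (le_max_left _ _).trans hD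
  have e2 : D2 ≤ D := ((le_max_left _ _).trans (le_max_right _ _)).trans hD
  have e3 : D3 ≤ D := ((le_max_right _ _).trans (le_max_right _ _)).trans hD
  obtain ⟨B, K, l1, hK, hl1, hS⟩ := hsys D e1
  obtain ⟨K1, Ra, hK1, hR⟩ := hout D e2 B K
  obtain ⟨R0, hR0⟩ := hC3 D e3 B K1
  obtain ⟨K2, l2, hK2, hl2, hO⟩ := hR (max Ra R0) (le_max_left _ _)
  obtain ⟨l3, hl3, hF⟩ := hR0 (max Ra R0) (le_max_right _ _) K2
  refine ⟨min l1 (min l2 l3), by positivity, fun lam hlam hl => ?_⟩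
  have f1 : lam ≤ l1 := hl.trans (min_le_left _ _)
  have f2 : lam ≤ l2 := hl.trans ((min_le_right _ _).trans (min_le_left _ _))
  have f3 : lam ≤ l3 := hl.trans ((min_le_right _ _).trans (min_le_right _ _))
  obtain ⟨S, hmin⟩ := hS lam hlam f1
  obtain ⟨s, s1, s2, F, w0, X, sig, gs, gs1, gs2, gF, hρ, hc⟩ := hO lam hlam f2 S
  obtain ⟨U, gU, w, gw, om, hp⟩ := pair_exists hc.amp hc.norm3
  obtain ⟨hG, hsm, hκ, hka, hpl⟩ := hF lam hlam f3 _ _ _ _ _ _ _ _ _ _ _ _ _ _ hc U w gU gw om hp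
  refine ⟨waveOf S.ψ, ground_of_three S.tb hmin, ?_⟩
  exact not_rep' hc.amp hp hG hκ hka hpl hsm fun A hA => S.density hρ hA

theorem ta_result : ∃ D₀ : ℝ, ∀ D : ℝ, D₀ ≤ D → ∃ Z₀ : ℕ, ∀ Z : ℕ, Z₀ ≤ Z →
      ∃ Ψ : Wave3, IsGroundState (coulombPotential Z (EuclideanSpace.single 2 (D / Z))
          (EuclideanSpace.single 2 (-(D / Z)))) Ψ ∧ ¬ HasEnsembleRep Ψ :=
  result_of_scaled ta_scaled

end Crest.Agent.R335
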