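import Crest.Agent.R335.TB
import Crest.Agent.R335.TX

/-!
Row 335 (S0521), TOP: pointwise part of the glue `Part B ⇒ COut` (helper783).
-/

set_option autoImplicit false

open MeasureTheory Filter Set Crest.MathPhysics.ThreeBody
open scoped ENNReal Topology ContDiff

noncomputable section
namespace Crest.Agent.R335

namespace TG

theorem Scal.mono {cg C0 D : ℝ} {B : OBD cg C0 D} {K lam : ℝ} {S : Sys B K lam} {P P' K2 : ℝ}
    {x : Pos3} (h : BO.Scal S P K2 x) (hP : 0 < P) (hPP : P ≤ P') (hK2 : 0 < K2) (hl : 0 < lam)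
    (hx : 0 < ‖x‖) : BO.Scal S P' K2 x := by
  have hN0 : 0 ≤ S.N x := Real.sqrt_nonneg _
  have hP0 : 0 ≤ S.P x := Real.sqrt_nonneg _
  have F0 : 0 ≤ S.F x := by
    have h1 : 0 < K2 * lam / ‖x‖ ^ 2 := by positivity
    have h2 := hP0.trans h.P
    by_contra hc
    push Not at hc
    have := mul_neg_of_pos_of_neg h1 hc
    linarith
  have c0 : 0 ≤ S.c x := by
    have h2 := hN0.trans h.N
    by_contra hc
    push Not at hc
    have := mul_neg_of_pos_of_neg hK2 hc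
    linarith
  have nn : ∀ {a b : ℝ}, 0 ≤ a → a ≤ P * b → 0 ≤ b := fun {a b} ha hab => by
    by_contra hc
    push Not at hc
    have := mul_neg_of_pos_of_neg hP hc
    linarith
  have m : ∀ {b : ℝ}, 0 ≤ b → P * b ≤ P' * b := fun {b} hb => mul_le_mul_of_nonneg_right hPP hb
  have u1 := nn F0 h.Fup
  have u2 := nn c0 h.cup
  have u3 := nn h.tT0 h.tTup
  exact
    { Flow := h.Flow.trans (m F0)
      Fup := h.Fup.trans (m u1)
      clow := h.clow.trans (m c0)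
      cup := h.cup.trans (m u2)
      tT0 := h.tT0
      tB0 := h.tB0
      tTup := h.tTup.trans (m u3)
      tBup := h.tBup.trans (m u3)
      N := h.N
      NT := h.NT
      NB := h.NB
      Nup := h.Nup.trans (m u2)
      NTup := h.NTup.trans (m u3)
      NBup := h.NBup.trans (m u3)
      P := h.P
      PT := h.PT
      PB := h.PB }

/-- pointwise consequences of `Scal`, `s1sq_bd`, `s2sq_bd` -/
structure Pt {cg C0 D : ℝ} {B : OBD cg C0 D} {K lam : ℝ} (S : Sys B K lam) (P K2 : ℝ)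
    (x : Pos3) : Prop where
  F0 : 0 < S.F x
  Fn : S.Fn x = √2 * S.F x
  FFn : S.F x ≤ S.Fn x
  Flow : CX.OO D S.κ (2 * (1 - lam)) 1 x ≤ P * S.Fn x
  Fup : S.Fn x ≤ P * CX.OO D S.κ (2 * (1 - lam)) (-1) x
  Fs1 : S.Fn x ≤ S.s1 x
  s1F : S.s1 x ^ 2 - S.Fn x ^ 2 ≤ 2 * K2 ^ 2 * lam ^ 2 / ‖x‖ ^ 4 * S.Fn x ^ 2
  s2low : CX.SS D S.κS (2 * (1 - lam)) 1 x +
    lam / B.om ^ 2 / ‖x‖ ^ 4 * CX.SS D S.κ (2 * (1 - lam)) 1 x ≤ P * S.s2 x
  s2up : S.s2 x ≤ P * (CX.SS D S.κS (2 * (1 - lam)) (-1) x +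
    CX.SS D S.κT (2 * (1 - lam)) (-1) x +
    lam / B.om * (x 2 / ‖x‖ ^ 3) * CX.OO D S.κ (2 * (1 - lam)) (-1) x +
    lam / B.om ^ 2 / ‖x‖ ^ 4 * CX.SS D S.κ (2 * (1 - lam)) (-1) x)
  c0 : 0 ≤ S.c x
  cs2 : S.c x ≤ S.s2 x
  N : S.N x ≤ K2 * S.s2 x
  N0 : 0 ≤ S.N x
  Nall : S.Nall x ≤ 3 * K2 * S.s2 x
  Pall : S.Pall x ≤ 3 * K2 * lam / ‖x‖ ^ 2 * S.F x
  P : S.P x ≤ K2 * lam / ‖x‖ ^ 2 * S.F x

theorem wN_nonneg (b : ℝ) (Y : Config3 → ℝ) (X : Pos3) : 0 ≤ wN b Y X := Real.sqrt_nonneg _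

theorem sq_le_of {a b : ℝ} (h : a ^ 2 ≤ b ^ 2) (hb : 0 ≤ b) : a ≤ b := by
  by_contra hc
  push Not at hc
  nlinarith

theorem sqrt2_facts : 1 ≤ √2 ∧ √2 ≤ 2 ∧ √2 ^ 2 = 2 := by
  have h : √2 ^ 2 = 2 := Real.sq_sqrt (by norm_num)
  have h0 := Real.sqrt_nonneg 2
  refine ⟨?_, ?_, h⟩ <;> nlinarith

theorem pt_of {cg C0 D : ℝ} {B : OBD cg C0 D} {K lam : ℝ} {S : Sys B K lam} {P K2 R : ℝ}
    {x : Pos3} (hP : 1 ≤ P) (hK2 : 1 ≤ K2) (hD : 1 ≤ D) (hR : D + 100 ≤ R) (hl : 0 < lam)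
    (hl' : lam ≤ 1 / 20) (h1 : 9 / 10 ≤ S.κ) (h2 : S.κ ≤ 11 / 10)
    (hx : x ∈ UpExt R) (h : BO.Scal S P K2 x)
    (e1 : 2 * S.F x ^ 2 ≤ S.s1sq x ∧
      S.s1sq x ≤ 2 * S.F x ^ 2 + 2 * S.P x ^ 2 + S.PT S.YT x ^ 2 + S.PT S.YB x ^ 2)
    (e2 : 2 * S.c x ^ 2 + S.t S.YT x ^ 2 + S.t S.YB x ^ 2 ≤ S.s2sq x ∧
      S.s2sq x ≤ 2 * S.c x ^ 2 + S.t S.YT x ^ 2 + S.t S.YB x ^ 2 +
        2 * S.N x ^ 2 + S.NT S.YT x ^ 2 + S.NT S.YB x ^ 2) :
    Pt S (4 * P) K2 x := by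
  have hr : 1 ≤ ‖x‖ := by linarith [hx.1]
  have hOO := TX.OO_pos (σ := 1) hD hR h1 h2 hl.le hl' (Or.inl rfl) hx
  have hOOm := TX.OO_pos (σ := -1) hD hR h1 h2 hl.le hl' (Or.inr rfl) hx
  have hP0 : (0 : ℝ) < P := by linarith
  have F0 : 0 < S.F x := by
    have h3 := h.Flow
    by_contra hc
    push Not at hc
    have : P * S.F x ≤ 0 := mul_nonpos_of_nonneg_of_nonpos hP0.le hc
    linarith
  obtain ⟨q1, q2, q3⟩ := sqrt2_facts
  have hFn : S.Fn x = √2 * S.F x := rfl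
  have FFn : S.F x ≤ S.Fn x := by rw [hFn]; exact le_mul_of_one_le_left F0.le q1
  have FFn2 : S.Fn x ≤ 2 * S.F x := by rw [hFn]; exact mul_le_mul_of_nonneg_right q2 F0.le
  have hN0 : 0 ≤ S.N x := wN_nonneg _ _ _
  have hP00 : 0 ≤ S.P x := wN_nonneg _ _ _
  have hPT0 : 0 ≤ S.PT S.YT x := wN_nonneg _ _ _
  have hPB0 : 0 ≤ S.PT S.YB x := wN_nonneg _ _ _
  have hNT0 : 0 ≤ S.NT S.YT x := wN_nonneg _ _ _
  have hNB0 : 0 ≤ S.NT S.YB x := wN_nonneg _ _ _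
  have c0 : 0 ≤ S.c x := by
    have h3 := h.N
    by_contra hc
    push Not at hc
    have := mul_neg_of_pos_of_neg (by linarith : (0 : ℝ) < K2) hc
    linarith
  have hs1 : S.s1 x ^ 2 = S.s1sq x := by
    unfold Sys.s1
    exact Real.sq_sqrt (by linarith [e1.1, sq_nonneg (S.F x)])
  have hs2 : S.s2 x ^ 2 = S.s2sq x := by
    unfold Sys.s2
    refine Real.sq_sqrt ?_
    linarith [e2.1, sq_nonneg (S.c x), sq_nonneg (S.t S.YT x), sq_nonneg (S.t S.YB x)]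
  have s10 : 0 ≤ S.s1 x := Real.sqrt_nonneg _
  have s20 : 0 ≤ S.s2 x := Real.sqrt_nonneg _
  have Fn2 : S.Fn x ^ 2 = 2 * S.F x ^ 2 := by rw [hFn, mul_pow, q3]
  have cs2 : S.c x ≤ S.s2 x := by
    refine sq_le_of ?_ s20
    rw [hs2]
    linarith [e2.1, sq_nonneg (S.c x), sq_nonneg (S.t S.YT x), sq_nonneg (S.t S.YB x)]
  have tT : S.t S.YT x ≤ S.s2 x := by
    refine sq_le_of ?_ s20
    rw [hs2]
    linarith [e2.1, sq_nonneg (S.c x), sq_nonneg (S.t S.YT x), sq_nonneg (S.t S.YB x)]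
  have tB : S.t S.YB x ≤ S.s2 x := by
    refine sq_le_of ?_ s20
    rw [hs2]
    linarith [e2.1, sq_nonneg (S.c x), sq_nonneg (S.t S.YT x), sq_nonneg (S.t S.YB x)]
  -- `s1 - F`
  have hk : 0 ≤ K2 * lam / ‖x‖ ^ 2 * S.F x := by positivity
  have a1 : S.P x ^ 2 ≤ (K2 * lam / ‖x‖ ^ 2 * S.F x) ^ 2 := pow_le_pow_left₀ hP00 h.P 2
  have a2 : S.PT S.YT x ^ 2 ≤ (K2 * lam / ‖x‖ ^ 2 * S.F x) ^ 2 := pow_le_pow_left₀ hPT0 h.PT 2
  have a3 : S.PT S.YB x ^ 2 ≤ (K2 * lam / ‖x‖ ^ 2 * S.F x) ^ 2 := pow_le_pow_left₀ hPB0 h.PB 2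
  -- upper profile
  have hu1 : 0 ≤ BO.UP D S.κ S.κS lam B.om x := by
    by_contra hc
    push Not at hc
    have := mul_neg_of_pos_of_neg hP0 hc
    linarith [h.cup]
  have hu2 : 0 ≤ CX.SS D S.κT (2 * (1 - lam)) (-1) x := by
    by_contra hc
    push Not at hc
    have := mul_neg_of_pos_of_neg hP0 hc
    linarith [h.tTup, h.tT0]
  set u1 := BO.UP D S.κ S.κS lam B.om x with hu1d
  set u2 := CX.SS D S.κT (2 * (1 - lam)) (-1) x with hu2d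
  refine ⟨F0, hFn, FFn, ?_, ?_, ?_, ?_, ?_, ?_, c0, cs2, ?_, hN0, ?_, ?_, h.P⟩
  · have h3 := h.Flow
    have h4 : P * S.F x ≤ P * S.Fn x := mul_le_mul_of_nonneg_left FFn hP0.le
    have h5 : 0 ≤ P * S.Fn x := mul_nonneg hP0.le (F0.le.trans FFn)
    have h6 : 4 * P * S.Fn x = 4 * (P * S.Fn x) := by ring
    linarith
  · have h3 := h.Fup
    have h4 : 0 ≤ P * CX.OO D S.κ (2 * (1 - lam)) (-1) x := mul_nonneg hP0.le hOOm.le
    have h6 : 4 * P * CX.OO D S.κ (2 * (1 - lam)) (-1) x =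
      4 * (P * CX.OO D S.κ (2 * (1 - lam)) (-1) x) := by ring
    linarith
  · exact sq_le_of (by rw [hs1, Fn2]; exact e1.1) s10
  · rw [hs1, Fn2]
    have e : 2 * K2 ^ 2 * lam ^ 2 / ‖x‖ ^ 4 * (2 * S.F x ^ 2) =
        4 * (K2 * lam / ‖x‖ ^ 2 * S.F x) ^ 2 := by
      have : ‖x‖ ≠ 0 := by positivity
      field_simp; ring
    rw [e]
    linarith [e1.2]
  · have h3 := h.clow
    have h4 : P * S.c x ≤ P * S.s2 x := mul_le_mul_of_nonneg_left cs2 hP0.le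
    have h5 : 0 ≤ P * S.s2 x := mul_nonneg hP0.le s20
    have h6 : 4 * P * S.s2 x = 4 * (P * S.s2 x) := by ring
    linarith
  · have b1 : S.s2 x ^ 2 ≤ (2 * P * u1 + 2 * P * u2) ^ 2 := by
      rw [hs2]
      have g1 : S.c x ^ 2 ≤ (P * u1) ^ 2 := pow_le_pow_left₀ c0 h.cup 2
      have g2 : S.N x ^ 2 ≤ (P * u1) ^ 2 := pow_le_pow_left₀ hN0 h.Nup 2
      have g3 : S.t S.YT x ^ 2 ≤ (P * u2) ^ 2 := pow_le_pow_left₀ h.tT0 h.tTup 2
      have g4 : S.t S.YB x ^ 2 ≤ (P * u2) ^ 2 := pow_le_pow_left₀ h.tB0 h.tBup 2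
      have g5 : S.NT S.YT x ^ 2 ≤ (P * u2) ^ 2 := pow_le_pow_left₀ hNT0 h.NTup 2
      have g6 : S.NT S.YB x ^ 2 ≤ (P * u2) ^ 2 := pow_le_pow_left₀ hNB0 h.NBup 2
      have g7 : 0 ≤ (P * u1) * (P * u2) := by positivity
      have g8 : (2 * P * u1 + 2 * P * u2) ^ 2 =
        4 * (P * u1) ^ 2 + 8 * ((P * u1) * (P * u2)) + 4 * (P * u2) ^ 2 := by ring
      rw [g8]
      linarith [e2.2]
    have b2 : S.s2 x ≤ 2 * P * u1 + 2 * P * u2 := sq_le_of b1 (by positivity)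
    have b3 : 0 ≤ P * u1 := by positivity
    have b4 : 0 ≤ P * u2 := by positivity
    have b5 : S.s2 x ≤ 4 * P * (u1 + u2) := by
      have b6 : 4 * P * (u1 + u2) = 4 * (P * u1) + 4 * (P * u2) := by ring
      have b7 : 2 * P * u1 + 2 * P * u2 = 2 * (P * u1) + 2 * (P * u2) := by ring
      rw [b7] at b2
      rw [b6]
      linarith
    refine b5.trans (le_of_eq ?_)
    rw [hu1d]
    unfold BO.UP
    ring
  · exact h.N.trans (mul_le_mul_of_nonneg_left cs2 (by linarith))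
  · have n1 := h.N
    have n2 := h.NT
    have n3 := h.NB
    have m1 : K2 * S.c x ≤ K2 * S.s2 x := mul_le_mul_of_nonneg_left cs2 (by linarith)
    have m2 : K2 * S.t S.YT x ≤ K2 * S.s2 x := mul_le_mul_of_nonneg_left tT (by linarith)
    have m3 : K2 * S.t S.YB x ≤ K2 * S.s2 x := mul_le_mul_of_nonneg_left tB (by linarith)
    unfold Sys.Nall
    linarith
  · have n1 := h.P
    have n2 := h.PT
    have n3 := h.PB
    have e : 3 * K2 * lam / ‖x‖ ^ 2 * S.F x = 3 * (K2 * lam / ‖x‖ ^ 2 * S.F x) := by ring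
    rw [e]
    unfold Sys.Pall
    linarith

end TG
end Crest.Agent.R335
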