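import Crest.Agent.R335.TBA

/-!
Row 335 (S0521), TOP: error functions of `vec_s1, vec_F, vec_s2` against `eC, cC` (helper783).
-/

set_option autoImplicit false

open MeasureTheory Filter Set Crest.MathPhysics.ThreeBody
open scoped ENNReal Topology ContDiff

noncomputable section
namespace Crest.Agent.R335

namespace TG

section
variable {cg C0 D : ℝ} {B : OBD cg C0 D} {K lam : ℝ} {S : Sys B K lam} {P K1 K2 K2' K' : ℝ}
  {x : Pos3}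

theorem zr_le (hr : 1 ≤ ‖x‖) : 0 ≤ |x 2| / ‖x‖ ^ 3 ∧ |x 2| / ‖x‖ ^ 3 ≤ |x 2| / ‖x‖ ^ 2 := by
  refine ⟨by positivity, ?_⟩
  have : ‖x‖ ^ 2 ≤ ‖x‖ ^ 3 := pow_le_pow_right₀ hr (by norm_num)
  exact div_le_div_of_nonneg_left (abs_nonneg _) (by positivity) this

theorem erX_le (h : Pt S P K2 x) (hr : 1 ≤ ‖x‖) (hl : 0 < lam) (hK' : 1 ≤ K') (hK2 : 1 ≤ K2)
    (h1 : K' ≤ K1) (h2 : K' * (1 + 3 * K2) ≤ K2') :
    S.erX K' x ≤ eC K1 K2' lam S.κ B.a S.s1 S.s2 x := by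
  obtain ⟨z0, z1⟩ := zr_le hr
  have s10 : 0 ≤ S.s1 x := Real.sqrt_nonneg _
  have s20 : 0 ≤ S.s2 x := Real.sqrt_nonneg _
  unfold Sys.erX eC
  set z3 := |x 2| / ‖x‖ ^ 3 with hz3
  set z2 := |x 2| / ‖x‖ ^ 2 with hz2
  set e := Real.exp (-(B.a / 2) * ‖x‖) with he
  set e4 := Real.exp (-(S.κ + B.a / 4) * ‖x‖) with he4
  have e0 : 0 < e := Real.exp_pos _
  have e40 : 0 < e4 := Real.exp_pos _
  have hN := h.Nall
  have hKK : K' ≤ K2' := le_trans (by nlinarith) h2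
  have t1 : K' * lam ^ 2 / ‖x‖ ^ 4 * S.s1 x ≤ K2' * lam ^ 2 / ‖x‖ ^ 4 * S.s1 x := by
    have : 0 ≤ lam ^ 2 / ‖x‖ ^ 4 * S.s1 x := by positivity
    calc K' * lam ^ 2 / ‖x‖ ^ 4 * S.s1 x = K' * (lam ^ 2 / ‖x‖ ^ 4 * S.s1 x) := by ring
      _ ≤ K2' * (lam ^ 2 / ‖x‖ ^ 4 * S.s1 x) := mul_le_mul_of_nonneg_right hKK this
      _ = _ := by ring
  have t2 : z3 * S.Nall x ≤ z2 * (3 * K2 * S.s2 x) := by
    calc z3 * S.Nall x ≤ z3 * (3 * K2 * S.s2 x) := mul_le_mul_of_nonneg_left hN z0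
      _ ≤ z2 * (3 * K2 * S.s2 x) := mul_le_mul_of_nonneg_right z1 (by positivity)
  have t3 : (z3 + e) * S.s2 x + z3 * S.Nall x ≤ (1 + 3 * K2) * ((z2 + e) * S.s2 x) := by
    have u1 : z3 * S.s2 x ≤ z2 * S.s2 x := mul_le_mul_of_nonneg_right z1 s20
    have u2 : 0 ≤ K2 * (e * S.s2 x) := by positivity
    nlinarith
  have t4 : K' * lam * ((z3 + e) * S.s2 x + z3 * S.Nall x + e4) ≤
      K2' * lam * (z2 + e) * S.s2 x + K1 * lam * e4 := by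
    have u1 : K' * lam * ((z3 + e) * S.s2 x + z3 * S.Nall x) ≤
        K' * lam * ((1 + 3 * K2) * ((z2 + e) * S.s2 x)) :=
      mul_le_mul_of_nonneg_left t3 (by positivity)
    have u2 : (K' * (1 + 3 * K2)) * (lam * ((z2 + e) * S.s2 x)) ≤
        K2' * (lam * ((z2 + e) * S.s2 x)) := by
      refine mul_le_mul_of_nonneg_right h2 ?_
      have : 0 ≤ z2 := z0.trans z1
      positivity
    have u3 : K' * (lam * e4) ≤ K1 * (lam * e4) := mul_le_mul_of_nonneg_right h1 (by positivity)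
    nlinarith
  linarith

theorem erX_nonneg (h : Pt S P K2 x) (hl : 0 < lam) (hK' : 1 ≤ K') : 0 ≤ S.erX K' x := by
  have s10 : 0 ≤ S.s1 x := Real.sqrt_nonneg _
  have s20 : 0 ≤ S.s2 x := Real.sqrt_nonneg _
  have hn : 0 ≤ S.Nall x := by
    unfold Sys.Nall
    have h1 : 0 ≤ S.NT S.YT x := wN_nonneg _ _ _
    have h2 : 0 ≤ S.NT S.YB x := wN_nonneg _ _ _
    linarith [h.N0]
  unfold Sys.erX
  positivity

theorem erF_le (h : Pt S P K2 x) (hr : 1 ≤ ‖x‖) (hl : 0 < lam) (hK' : 1 ≤ K') (hK2 : 1 ≤ K2)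
    (h1 : K' ≤ K1) (h2 : K' * (1 + 3 * K2) ≤ K2') :
    S.erF K' x ≤ eC K1 K2' lam S.κ B.a S.s1 S.s2 x := by
  obtain ⟨z0, z1⟩ := zr_le hr
  have s10 : 0 ≤ S.s1 x := Real.sqrt_nonneg _
  have s20 : 0 ≤ S.s2 x := Real.sqrt_nonneg _
  unfold Sys.erF eC
  set z3 := |x 2| / ‖x‖ ^ 3 with hz3
  set z2 := |x 2| / ‖x‖ ^ 2 with hz2
  set e := Real.exp (-(B.a / 2) * ‖x‖) with he
  set e4 := Real.exp (-(S.κ + B.a / 4) * ‖x‖) with he4
  have e0 : 0 < e := Real.exp_pos _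
  have e40 : 0 < e4 := Real.exp_pos _
  have hK20 : 0 ≤ K2' := le_trans (by positivity) h2
  have t1 : S.P x / ‖x‖ ^ 2 ≤ K2 * lam / ‖x‖ ^ 4 * S.s1 x := by
    have u1 : S.P x / ‖x‖ ^ 2 ≤ (K2 * lam / ‖x‖ ^ 2 * S.F x) / ‖x‖ ^ 2 :=
      div_le_div_of_nonneg_right h.P (by positivity)
    have u2 : (K2 * lam / ‖x‖ ^ 2 * S.F x) / ‖x‖ ^ 2 = K2 * lam / ‖x‖ ^ 4 * S.F x := by
      have : ‖x‖ ≠ 0 := by positivity
      field_simp
    rw [u2] at u1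
    refine u1.trans (mul_le_mul_of_nonneg_left (h.FFn.trans h.Fs1) (by positivity))
  have t2 : |S.c x| + S.N x ≤ (1 + K2) * S.s2 x := by
    rw [abs_of_nonneg h.c0]
    nlinarith [h.N, h.cs2]
  have t3 : (z3 + e) * (|S.c x| + S.N x) ≤ (z2 + e) * ((1 + K2) * S.s2 x) := by
    calc (z3 + e) * (|S.c x| + S.N x) ≤ (z3 + e) * ((1 + K2) * S.s2 x) :=
          mul_le_mul_of_nonneg_left t2 (by positivity)
      _ ≤ (z2 + e) * ((1 + K2) * S.s2 x) :=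
          mul_le_mul_of_nonneg_right (by linarith) (by positivity)
  have t4 : K' * lam * (S.P x / ‖x‖ ^ 2 + (z3 + e) * (|S.c x| + S.N x)) ≤
      K' * lam * (K2 * lam / ‖x‖ ^ 4 * S.s1 x + (z2 + e) * ((1 + K2) * S.s2 x)) :=
    mul_le_mul_of_nonneg_left (by linarith) (by positivity)
  have t5 : K' * lam * (K2 * lam / ‖x‖ ^ 4 * S.s1 x) ≤ K2' * lam ^ 2 / ‖x‖ ^ 4 * S.s1 x := by
    have u : K' * K2 ≤ K2' := le_trans (by nlinarith) h2
    calc K' * lam * (K2 * lam / ‖x‖ ^ 4 * S.s1 x) = (K' * K2) * (lam ^ 2 / ‖x‖ ^ 4 * S.s1 x) := by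
          ring
      _ ≤ K2' * (lam ^ 2 / ‖x‖ ^ 4 * S.s1 x) := mul_le_mul_of_nonneg_right u (by positivity)
      _ = _ := by ring
  have t6 : K' * lam * ((z2 + e) * ((1 + K2) * S.s2 x)) ≤ K2' * lam * (z2 + e) * S.s2 x := by
    have u : K' * (1 + K2) ≤ K2' := le_trans (by nlinarith) h2
    have z20 : 0 ≤ z2 := z0.trans z1
    calc K' * lam * ((z2 + e) * ((1 + K2) * S.s2 x)) =
          (K' * (1 + K2)) * (lam * ((z2 + e) * S.s2 x)) := by ring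
      _ ≤ K2' * (lam * ((z2 + e) * S.s2 x)) := mul_le_mul_of_nonneg_right u (by positivity)
      _ = _ := by ring
  have t7 : 0 ≤ K1 * lam * e4 := by
    have : 0 < K1 := by linarith
    positivity
  linarith

theorem cplf_le (h : Pt S P K2 x) (hr : 1 ≤ ‖x‖) (hl : 0 < lam) (hK' : 1 ≤ K') (hK2 : 1 ≤ K2)
    (h1 : K' ≤ K1) (hs : K' * (3 * K2 * lam) ≤ 1) (hCD : 0 ≤ C0 * D)
    (h3 : 64 * C0 * D + 1 ≤ P) :
    S.cplf K' x / 2 ≤ cC P K1 lam S.κ B.a S.s1 x := by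
  obtain ⟨z0, z1⟩ := zr_le hr
  have s10 : 0 ≤ S.s1 x := Real.sqrt_nonneg _
  have hFs : S.F x ≤ S.s1 x := h.FFn.trans h.Fs1
  unfold Sys.cplf cC
  have ez : 64 * C0 * D * |x 2| / ‖x‖ ^ 3 = 64 * C0 * D * (|x 2| / ‖x‖ ^ 3) := by ring
  have ez2 : K' * |x 2| / ‖x‖ ^ 3 * S.Pall x = K' * (|x 2| / ‖x‖ ^ 3) * S.Pall x := by ring
  have ez3 : P * |x 2| / ‖x‖ ^ 3 = P * (|x 2| / ‖x‖ ^ 3) := by ring
  rw [ez, ez2, ez3]
  set z3 := |x 2| / ‖x‖ ^ 3 with hz3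
  set e := Real.exp (-(B.a / 2) * ‖x‖) with he
  set e4 := Real.exp (-(S.κ + B.a / 4) * ‖x‖) with he4
  have e0 : 0 < e := Real.exp_pos _
  have e40 : 0 < e4 := Real.exp_pos _
  have t1 : S.Pall x ≤ 3 * K2 * lam * S.s1 x := by
    refine h.Pall.trans ?_
    have u1 : 3 * K2 * lam / ‖x‖ ^ 2 ≤ 3 * K2 * lam :=
      div_le_self (by positivity) (one_le_pow₀ hr)
    calc 3 * K2 * lam / ‖x‖ ^ 2 * S.F x ≤ 3 * K2 * lam * S.F x :=
          mul_le_mul_of_nonneg_right u1 h.F0.le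
      _ ≤ 3 * K2 * lam * S.s1 x := mul_le_mul_of_nonneg_left hFs (by positivity)
  have t2 : K' * z3 * S.Pall x ≤ z3 * S.s1 x := by
    calc K' * z3 * S.Pall x ≤ K' * z3 * (3 * K2 * lam * S.s1 x) :=
          mul_le_mul_of_nonneg_left t1 (by positivity)
      _ = (K' * (3 * K2 * lam)) * (z3 * S.s1 x) := by ring
      _ ≤ 1 * (z3 * S.s1 x) := mul_le_mul_of_nonneg_right hs (by positivity)
      _ = _ := one_mul _
  have t3 : (64 * C0 * D * z3 + K' * e) * |S.F x| ≤ (64 * C0 * D * z3 + K1 * e) * S.s1 x := by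
    rw [abs_of_pos h.F0]
    have u0 : 0 ≤ 64 * C0 * D := by nlinarith
    calc (64 * C0 * D * z3 + K' * e) * S.F x ≤ (64 * C0 * D * z3 + K' * e) * S.s1 x :=
          mul_le_mul_of_nonneg_left hFs (by positivity)
      _ ≤ (64 * C0 * D * z3 + K1 * e) * S.s1 x := by
          refine mul_le_mul_of_nonneg_right ?_ s10
          nlinarith
  have t4 : (64 * C0 * D * z3 + K1 * e) * S.s1 x + z3 * S.s1 x ≤
      (P * z3 + K1 * e) * S.s1 x := by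
    have u : (64 * C0 * D + 1) * (z3 * S.s1 x) ≤ P * (z3 * S.s1 x) :=
      mul_le_mul_of_nonneg_right h3 (by positivity)
    nlinarith
  have t5 : K' * e4 ≤ K1 * e4 := mul_le_mul_of_nonneg_right h1 e40.le
  have t6 : (64 * C0 * D * z3 + K' * e) * |S.F x| + K' * z3 * S.Pall x + K' * e4 ≤
      (P * z3 + K1 * e) * S.s1 x + K1 * e4 := by linarith
  have t7 := mul_le_mul_of_nonneg_left t6 hl.le
  calc 2 * lam * ((64 * C0 * D * z3 + K' * e) * |S.F x| + K' * z3 * S.Pall x + K' * e4) / 2 =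
        lam * ((64 * C0 * D * z3 + K' * e) * |S.F x| + K' * z3 * S.Pall x + K' * e4) := by ring
    _ ≤ lam * ((P * z3 + K1 * e) * S.s1 x + K1 * e4) := t7
    _ = _ := by ring

end

end TG
end Crest.Agent.R335
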