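import Crest.Agent.R335.OBPot
import Crest.Agent.R335.TBB
import Crest.Agent.R335.HIface2

/-!
Row 335 (S0521), TOP: weak equations, from `BIface2` to the form of `COut` (helper783).
-/

set_option autoImplicit false

open MeasureTheory Filter Set Crest.MathPhysics.ThreeBody
open scoped ENNReal Topology ContDiff

noncomputable section
namespace Crest.Agent.R335

namespace TG

theorem isOpen_UpExt (R : ℝ) : IsOpen (UpExt R) := by
  have h1 : IsOpen {x : Pos3 | R < ‖x‖} := isOpen_lt continuous_const continuous_norm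
  have h2 : IsOpen {x : Pos3 | 0 < x 2} :=
    isOpen_lt continuous_const (by fun_prop)
  exact h1.inter h2

theorem lio_congr {U : Set Pos3} {f f' : Pos3 → ℝ} (h : LocallyIntegrableOn f U volume)
    (hf : ∀ᵐ x, x ∈ U → f x = f' x) (hU : MeasurableSet U) :
    LocallyIntegrableOn f' U volume := by
  intro x hx
  obtain ⟨u, hu, hi⟩ := h x hx
  refine ⟨u ∩ U, inter_mem hu self_mem_nhdsWithin, ?_⟩
  have h1 : IntegrableOn f (u ∩ U) volume := hi.mono_set inter_subset_left
  refine h1.congr_fun_ae ?_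
  have h2 : ∀ᵐ x ∂(volume.restrict (u ∩ U)), x ∈ U := by
    have : ∀ᵐ x ∂((volume.restrict u).restrict U), x ∈ U := ae_restrict_mem hU
    rwa [Measure.restrict_restrict hU, inter_comm] at this
  filter_upwards [h2, ae_restrict_of_ae hf] with y hy h3
  exact h3 hy

theorem lio_of_memLp {f : Pos3 → ℝ} (h : MemLp f 2 volume) (U : Set Pos3) :
    LocallyIntegrableOn f U volume :=
  (h.locallyIntegrable (by norm_num)).locallyIntegrableOn U

theorem memLp_pot (D c : ℝ) {f : Pos3 → ℝ} {g : Pos3 → Pos3} (h : H1 f g) :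
    MemLp (fun x => (c + V2 D x) * f x) 2 volume := by
  have h1 := (V2_memLp D h).1
  have := (h.memf.const_mul c).add h1
  convert this using 1
  funext x
  simp only [Pi.add_apply]; ring

/-- a test function is in `L²` -/
theorem memLp_test {U : Set Pos3} {φ : Pos3 → ℝ} (h : Test U φ) : MemLp φ 2 volume :=
  h.smooth.continuous.memLp_of_hasCompactSupport h.cpt

theorem test_zero {U : Set Pos3} {φ : Pos3 → ℝ} (h : Test U φ) {x : Pos3} (hx : x ∉ U) :
    φ x = 0 := by
  by_contra hc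
  exact hx (h.sub (subset_tsupport _ hc))

theorem test_mono {U V : Set Pos3} {φ : Pos3 → ℝ} (h : Test U φ) (hUV : U ⊆ V) : Test V φ :=
  ⟨h.smooth, h.cpt, h.sub.trans hUV⟩

theorem lio_cC {P K1 lam κ a R : ℝ} {s1 : Pos3 → ℝ} (hs : LocallyIntegrable s1 volume)
    (hR : 0 ≤ R) : LocallyIntegrableOn (cC P K1 lam κ a s1) (UpExt R) volume := by
  have hne : ∀ x ∈ UpExt R, ‖x‖ ^ 3 ≠ 0 := fun x hx => by
    have : 0 < ‖x‖ := lt_of_le_of_lt hR hx.1
    positivity
  have hc : ContinuousOn (fun x : Pos3 => lam * (P * |x 2| / ‖x‖ ^ 3 +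
      K1 * Real.exp (-(a / 2) * ‖x‖))) (UpExt R) := by
    refine continuousOn_const.mul (ContinuousOn.add (ContinuousOn.div ?_ ?_ hne) ?_)
    · fun_prop
    · fun_prop
    · fun_prop
  have h1 := (hs.locallyIntegrableOn (UpExt R)).continuousOn_mul hc
    (isOpen_UpExt R).isLocallyClosed
  have h2 : LocallyIntegrableOn (fun x : Pos3 => K1 * lam * Real.exp (-(κ + a / 4) * ‖x‖))
      (UpExt R) volume :=
    ((by fun_prop : Continuous fun x : Pos3 =>
      K1 * lam * Real.exp (-(κ + a / 4) * ‖x‖)).locallyIntegrable).locallyIntegrableOn _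
  exact h1.add h2

section
variable {cg C0 D : ℝ} {B : OBD cg C0 D} {K lam : ℝ} {S : Sys B K lam} {P K1 K2 K' R1 : ℝ}

theorem cC_congr {κ a : ℝ} {s1 s1' : Pos3 → ℝ} (h : s1' =ᵐ[volume] s1) :
    cC P K1 lam κ a s1' =ᵐ[volume] cC P K1 lam κ a s1 := by
  filter_upwards [h] with x hx
  unfold cC
  rw [hx]

theorem kato2_of {s1' s2' : Pos3 → ℝ} {ds1 ds2 : Pos3 → Pos3} (hs1 : s1' =ᵐ[volume] S.s1)
    (hs2 : s2' =ᵐ[volume] S.s2) (h1 : H1 S.s1 ds1) (h2 : H1 S.s2 ds2) (hR : 0 ≤ R1)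
    (hKR : K' ≤ R1)
    (hv : ∀ φ, Test (Ext K') φ → (∀ x, 0 ≤ φ x) →
        (∫ x, inner ℝ (ds2 x) (gr φ x)) + ∫ x, (S.Pot x + S.q1sq) * S.s2 x * φ x ≤
          ∫ x, S.cplf K' x * φ x)
    (hq : B.om ≤ S.q1sq) (hP : 0 ≤ P) (hK1 : 0 ≤ K1) (hl : 0 ≤ lam)
    (hc : ∀ᵐ x, x ∈ UpExt R1 → S.cplf K' x / 2 ≤ cC P K1 lam S.κ B.a S.s1 x) :
    WLe (UpExt R1) s2' ds2 (fun x => S.κ ^ 2 / 2 + V2 D x + B.om / 2)
      (cC P K1 lam S.κ B.a s1') := by
  have hU := (isOpen_UpExt R1)
  have hm : MemLp (fun x => (S.κ ^ 2 / 2 + V2 D x + B.om / 2) * S.s2 x) 2 volume := by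
    convert memLp_pot D (S.κ ^ 2 / 2 + B.om / 2) h2 using 1
    funext x; ring
  have hf : LocallyIntegrableOn (cC P K1 lam S.κ B.a s1') (UpExt R1) volume := by
    refine lio_congr (lio_cC (h1.memf.locallyIntegrable (by norm_num)) hR)
      ((cC_congr (P := P) (K1 := K1) (lam := lam) (κ := S.κ) (a := B.a) hs1).symm.mono
        fun x hx _ => hx) hU.measurableSet
  refine ⟨?_, hf, fun φ hφ hφ0 => ?_⟩
  · refine lio_congr (lio_of_memLp hm _) ?_ hU.measurableSet
    filter_upwards [hs2] with x hx _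
    rw [hx]
  have hsub : UpExt R1 ⊆ Ext K' := fun x hx => lt_of_le_of_lt hKR hx.1
  have h3 := hv φ (test_mono hφ hsub) hφ0
  have hφ2 := memLp_test hφ
  have s20 : ∀ x, 0 ≤ S.s2 x := fun x => Real.sqrt_nonneg _
  have s10 : ∀ x, 0 ≤ S.s1 x := fun x => Real.sqrt_nonneg _
  -- left side
  have i1 : Integrable (fun x => (S.κ ^ 2 / 2 + V2 D x + B.om / 2) * S.s2 x * φ x) :=
    hm.integrable_mul hφ2
  have hm2 : MemLp (fun x => (S.Pot x + S.q1sq) * S.s2 x) 2 volume := by
    convert (memLp_pot D (S.κ ^ 2 / 2 + S.q1sq / 2) h2).const_mul 2 using 1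
    funext x
    unfold Sys.Pot
    ring
  have i2 : Integrable (fun x => (S.Pot x + S.q1sq) * S.s2 x * φ x) := hm2.integrable_mul hφ2
  have e1 : ∫ x, (S.κ ^ 2 / 2 + V2 D x + B.om / 2) * s2' x * φ x =
      ∫ x, (S.κ ^ 2 / 2 + V2 D x + B.om / 2) * S.s2 x * φ x :=
    integral_congr_ae (by filter_upwards [hs2] with x hx; rw [hx])
  have e2 : ∫ x, cC P K1 lam S.κ B.a s1' x * φ x = ∫ x, cC P K1 lam S.κ B.a S.s1 x * φ x :=
    integral_congr_ae (by
      filter_upwards [cC_congr (P := P) (K1 := K1) (lam := lam) (κ := S.κ) (a := B.a) hs1]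
        with x hx
      rw [hx])
  rw [e1, e2]
  have l1 : 2 * ∫ x, (S.κ ^ 2 / 2 + V2 D x + B.om / 2) * S.s2 x * φ x ≤
      ∫ x, (S.Pot x + S.q1sq) * S.s2 x * φ x := by
    rw [← integral_const_mul]
    refine integral_mono (i1.const_mul 2) i2 fun x => ?_
    show 2 * ((S.κ ^ 2 / 2 + V2 D x + B.om / 2) * S.s2 x * φ x) ≤
      (S.Pot x + S.q1sq) * S.s2 x * φ x
    unfold Sys.Pot
    nlinarith [mul_nonneg (s20 x) (hφ0 x)]
  -- right side
  have hcC0 : ∀ x, 0 ≤ cC P K1 lam S.κ B.a S.s1 x := fun x => by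
    unfold cC
    have := s10 x
    positivity
  have l2 : ∫ x, S.cplf K' x * φ x ≤ 2 * ∫ x, cC P K1 lam S.κ B.a S.s1 x * φ x := by
    by_cases hi : Integrable (fun x => S.cplf K' x * φ x)
    · have hi2 : Integrable (fun x => cC P K1 lam S.κ B.a S.s1 x * φ x) := by
        have := lio_cC (P := P) (K1 := K1) (lam := lam) (κ := S.κ) (a := B.a)
          (h1.memf.locallyIntegrable (by norm_num : (1 : ℝ≥0∞) ≤ 2)) hR
        have h4 : IntegrableOn (cC P K1 lam S.κ B.a S.s1) (tsupport φ) volume :=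
          this.integrableOn_compact_subset hφ.sub hφ.cpt
        have h5 : IntegrableOn (fun x => cC P K1 lam S.κ B.a S.s1 x * φ x) (tsupport φ) volume :=
          h4.mul_continuousOn hφ.smooth.continuous.continuousOn hφ.cpt
        refine (integrableOn_iff_integrable_of_support_subset ?_).1 h5
        intro x hx
        refine subset_tsupport φ ?_
        simp only [Function.mem_support, ne_eq, mul_eq_zero, not_or] at hx ⊢
        exact hx.2
      rw [← integral_const_mul]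
      refine integral_mono_ae hi (hi2.const_mul 2) ?_
      filter_upwards [hc] with x hx
      show S.cplf K' x * φ x ≤ 2 * (cC P K1 lam S.κ B.a S.s1 x * φ x)
      by_cases hxU : x ∈ UpExt R1
      · have := mul_le_mul_of_nonneg_right (hx hxU) (hφ0 x)
        linarith
      · rw [test_zero hφ hxU]; simp
    · rw [integral_undef hi]
      have : 0 ≤ ∫ x, cC P K1 lam S.κ B.a S.s1 x * φ x :=
        integral_nonneg fun x => mul_nonneg (hcC0 x) (hφ0 x)
      linarith
  linarith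

/-- the equations of `s₁` and `F` -/
theorem weq_of {s s' : Pos3 → ℝ} {ds : Pos3 → Pos3} {Xf w0 : Pos3 → ℝ} (hs : s' =ᵐ[volume] s)
    (h : H1 s ds) (hX : LocallyIntegrableOn Xf (UpExt R1) volume) (hwm : Measurable S.wc)
    {M : ℝ} (hwb : ∀ x, 0 ≤ S.wc x ∧ S.wc x ≤ M) (hw0 : ∀ x, w0 x = S.wc x / 2)
    (hv : ∀ φ, Test (UpExt R1) φ →
      (∫ x, inner ℝ (ds x) (gr φ x)) + ∫ x, ((S.Pot x + S.wc x) * s x + Xf x) * φ x = 0) :
    WEq (UpExt R1) s' ds (fun x => S.κ ^ 2 / 2 + V2 D x + w0 x) (fun x => - (Xf x / 2)) := by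
  have hU := (isOpen_UpExt R1)
  have hws : MemLp (fun x => S.wc x * s x) 2 volume := by
    refine h.memf.of_le_mul (c := M) ((hwm.aestronglyMeasurable).mul h.memf.aestronglyMeasurable)
      (Eventually.of_forall fun x => ?_)
    rw [norm_mul, Real.norm_of_nonneg (hwb x).1]
    exact mul_le_mul_of_nonneg_right (hwb x).2 (norm_nonneg _)
  have hm : MemLp (fun x => (S.κ ^ 2 / 2 + V2 D x + w0 x) * s x) 2 volume := by
    have := (memLp_pot D (S.κ ^ 2 / 2) h).add (hws.const_mul (1 / 2))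
    convert this using 1
    funext x
    simp only [Pi.add_apply]
    rw [hw0]; ring
  refine ⟨?_, ?_, fun φ hφ => ?_⟩
  · refine lio_congr (lio_of_memLp hm _) ?_ hU.measurableSet
    filter_upwards [hs] with x hx _
    rw [hx]
  · have : LocallyIntegrableOn (fun x => (-(1 / 2) : ℝ) • Xf x) (UpExt R1) volume :=
      hX.smul (-(1 / 2) : ℝ)
    refine lio_congr this (Eventually.of_forall fun x _ => ?_) hU.measurableSet
    show (-(1 / 2) : ℝ) • Xf x = - (Xf x / 2)
    rw [smul_eq_mul]; ring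
  have h3 := hv φ hφ
  have hφ2 := memLp_test hφ
  have i1 : Integrable (fun x => (S.κ ^ 2 / 2 + V2 D x + w0 x) * s x * φ x) :=
    hm.integrable_mul hφ2
  have i2 : Integrable (fun x => Xf x * φ x) := by
    have h4 : IntegrableOn Xf (tsupport φ) volume :=
      hX.integrableOn_compact_subset hφ.sub hφ.cpt
    have h5 : IntegrableOn (fun x => Xf x * φ x) (tsupport φ) volume :=
      h4.mul_continuousOn hφ.smooth.continuous.continuousOn hφ.cpt
    refine (integrableOn_iff_integrable_of_support_subset ?_).1 h5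
    intro x hx
    refine subset_tsupport φ ?_
    simp only [Function.mem_support, ne_eq, mul_eq_zero, not_or] at hx ⊢
    exact hx.2
  have e1 : ∫ x, (S.κ ^ 2 / 2 + V2 D x + w0 x) * s' x * φ x =
      ∫ x, (S.κ ^ 2 / 2 + V2 D x + w0 x) * s x * φ x :=
    integral_congr_ae (by filter_upwards [hs] with x hx; rw [hx])
  have e2 : ∫ x, ((S.Pot x + S.wc x) * s x + Xf x) * φ x =
      2 * (∫ x, (S.κ ^ 2 / 2 + V2 D x + w0 x) * s x * φ x) + ∫ x, Xf x * φ x := by
    rw [← integral_const_mul, ← integral_add (i1.const_mul 2) i2]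
    refine integral_congr_ae (Eventually.of_forall fun x => ?_)
    show ((S.Pot x + S.wc x) * s x + Xf x) * φ x =
      2 * ((S.κ ^ 2 / 2 + V2 D x + w0 x) * s x * φ x) + Xf x * φ x
    rw [hw0]; unfold Sys.Pot; ring
  have e3 : ∫ x, - (Xf x / 2) * φ x = -(1 / 2) * ∫ x, Xf x * φ x := by
    rw [← integral_const_mul]
    refine integral_congr_ae (Eventually.of_forall fun x => ?_)
    show - (Xf x / 2) * φ x = -(1 / 2) * (Xf x * φ x)
    ring
  rw [e1, e3]
  rw [e2] at h3
  linarith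

end

theorem wle_congr {U : Set Pos3} (hU : MeasurableSet U) {s s' : Pos3 → ℝ} {ds : Pos3 → Pos3}
    {m f : Pos3 → ℝ} (h : WLe U s ds m f) (hs : s' =ᵐ[volume] s) : WLe U s' ds m f := by
  refine ⟨?_, h.if', fun φ hφ hφ0 => ?_⟩
  · refine lio_congr h.ims ?_ hU
    filter_upwards [hs] with x hx _
    rw [hx]
  · have e1 : ∫ x, m x * s' x * φ x = ∫ x, m x * s x * φ x :=
      integral_congr_ae (by filter_upwards [hs] with x hx; rw [hx])
    rw [e1]
    exact h.le φ hφ hφ0

end TG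
end Crest.Agent.R335
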