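import Crest.Agent.R335.TBC
import Crest.Agent.R335.CmpW

/-!
Row 335 (S0521), TOP: positivity of the amplitude (helper783).
-/

set_option autoImplicit false

open MeasureTheory Filter Set Crest.MathPhysics.ThreeBody
open scoped ENNReal Topology ContDiff

noncomputable section
namespace Crest.Agent.R335

namespace TG

/-- an a.e. inequality between continuous functions on an open set holds everywhere -/
theorem le_of_ae_open {V : Set Pos3} (hV : IsOpen V) {f g : Pos3 → ℝ} (hf : ContinuousOn f V)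
    (hg : ContinuousOn g V) (h : ∀ᵐ x, x ∈ V → f x ≤ g x) : ∀ x ∈ V, f x ≤ g x := by
  intro x hx
  by_contra hc
  push Not at hc
  have hO : IsOpen {y | y ∈ V ∧ g y < f y} := by
    have := (hf.sub hg).isOpen_inter_preimage hV (isOpen_Ioi (a := (0 : ℝ)))
    convert this using 1
    ext y
    simp [sub_pos]
  have hne : {y | y ∈ V ∧ g y < f y}.Nonempty := ⟨x, hx, hc⟩
  have hpos := hO.measure_pos volume hne
  have h0 : volume {y | y ∈ V ∧ g y < f y} = 0 := by
    refine measure_mono_null ?_ (ae_iff.1 h)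
    intro y hy
    simp only [mem_setOf_eq, not_forall, not_le]
    exact ⟨hy.1, hy.2⟩
  exact hpos.ne' h0

theorem isOpen_Ext (R : ℝ) : IsOpen {x : Pos3 | R < ‖x‖} :=
  isOpen_lt continuous_const continuous_norm

/-- the plane has measure zero -/
theorem ae_z_ne : ∀ᵐ x : Pos3, x 2 ≠ 0 := by
  have h := volume_coord_eq_zero (ι := Fin 3) 2
  rw [ae_iff]
  simpa using h

theorem amp_pos {s g u : Pos3 → ℝ} (hc : Continuous s) (hev : ∀ x, s (rz x) = s x)
    (hg : Continuous g) (hu : Continuous u) {δ R P D κS Q : ℝ} (hP : 0 < P) (hD : 0 ≤ D)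
    (hR : D < R)
    (h1 : ∀ᵐ x, |s x - √(2 * g x ^ 2 + u x ^ 2)| ≤ δ)
    (hgp : ∀ x : Pos3, ‖x‖ ≤ R + 1 → 2 * δ < g x)
    (hδ : 0 ≤ δ)
    (h2 : ∀ᵐ x, x ∈ UpExt R → CX.SS D κS Q 1 x ≤ P * s x) : ∀ x, 0 < s x := by
  intro x
  by_cases hx : R < ‖x‖
  · -- outside
    have hsub : {x : Pos3 | R < ‖x‖} ⊆ XT.Uc D := fun y hy => TX.mem_Uc hD hR (le_of_lt hy)
    have h3 : ∀ᵐ y : Pos3, y ∈ {x : Pos3 | R < ‖x‖} → CX.SS D κS Q 1 y ≤ P * s y := by
      have h2' : ∀ᵐ y : Pos3, rz y ∈ UpExt R → CX.SS D κS Q 1 (rz y) ≤ P * s (rz y) :=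
        (rz.measurePreserving).quasiMeasurePreserving.ae h2
      filter_upwards [h2, h2', ae_z_ne] with y hy hy' hz hyR
      rcases lt_or_gt_of_ne hz with hz | hz
      · have := hy' ⟨by rw [LinearIsometryEquiv.norm_map]; exact hyR, by
          rw [rz_apply]; simpa using hz⟩
        rwa [TX.SS_rz, hev] at this
      · exact hy ⟨hyR, hz⟩
    have h4 := le_of_ae_open (isOpen_Ext R) ((TX.SS_cont D κS Q 1).mono hsub)
      (hc.const_mul P).continuousOn h3 x hx
    have h5 : 0 < CX.SS D κS Q 1 x := TX.SS_pos zero_le_one (hsub hx)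
    by_contra hn
    push Not at hn
    have := mul_nonpos_of_nonneg_of_nonpos hP.le hn
    linarith
  · push Not at hx
    have hcu : Continuous fun x => √(2 * g x ^ 2 + u x ^ 2) :=
      Real.continuous_sqrt.comp (by fun_prop)
    have h3 : ∀ y ∈ (univ : Set Pos3), √(2 * g y ^ 2 + u y ^ 2) - δ ≤ s y :=
      le_of_ae_open isOpen_univ (hcu.sub continuous_const).continuousOn hc.continuousOn (by
        filter_upwards [h1] with y hy _
        have := (abs_le.1 hy).1
        linarith)
    have h4 := h3 x trivial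
    have h5 := hgp x (by linarith)
    have h6 : g x ≤ √(2 * g x ^ 2 + u x ^ 2) := by
      apply Real.le_sqrt_of_sq_le
      nlinarith [sq_nonneg (g x), sq_nonneg (u x)]
    linarith

end TG
end Crest.Agent.R335
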