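import Crest.Agent.R335.KGlue

/-!
Row 335 (S0521), TOP: the density has mass three (helper783).
-/

set_option autoImplicit false

open MeasureTheory Filter Set Crest.MathPhysics.ThreeBody
open scoped ENNReal Topology ContDiff

noncomputable section
namespace Crest.Agent.R335

/-- the density has mass three -/
theorem T_mass {D lam E : ℝ} {ψ : Config3 → ℝ} {dψ : Config3 → Config3}
    (tb : ThreeBody D lam E ψ dψ) {s : Pos3 → ℝ} {gs : Pos3 → Pos3} (hs : Amp s gs)
    (h : ∀ A : Set Pos3, MeasurableSet A →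
      densityOn (waveOf ψ) A = ∫⁻ x in A, ENNReal.ofReal (s x ^ 2)) : ∫ x, s x ^ 2 = 3 := by
  have h1 := h univ MeasurableSet.univ
  rw [densityOn_waveOf, Measure.restrict_univ] at h1
  have h2 : ∀ x : Config3, (∑ i : Fin 3, (univ : Set Pos3).indicator
      (fun _ => (1 : ℝ≥0∞)) (elPos i x)) = 3 := by
    intro x; simp
  simp only [h2] at h1
  have hψi : Integrable (fun x => ψ x ^ 2) := tb.h1.memf.integrable_sq
  have hsi : Integrable (fun x => s x ^ 2) := hs.h1.memf.integrable_sq
  rw [lintegral_const_mul' _ _ (by simp), ← ofReal_integral_eq_lintegral_ofReal hψi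
    (Eventually.of_forall fun x => sq_nonneg _), tb.nrm,
    ← ofReal_integral_eq_lintegral_ofReal hsi (Eventually.of_forall fun x => sq_nonneg _)] at h1
  have h3 : ENNReal.ofReal (∫ x, s x ^ 2) = ENNReal.ofReal 3 := by
    rw [← h1]; simp
  have h4 : 0 ≤ ∫ x, s x ^ 2 := integral_nonneg fun x => sq_nonneg _
  rwa [ENNReal.ofReal_eq_ofReal_iff h4 (by norm_num)] at h3

end Crest.Agent.R335
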