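import Crest.Agent.R335.TB
import Crest.Agent.R335.BChan

/-!
Row 335 (S0521), TOP: parity of `s₁, s₂, F` (helper783).
-/

set_option autoImplicit false

open MeasureTheory Filter Set Crest.MathPhysics.ThreeBody
open scoped ENNReal Topology ContDiff

noncomputable section
namespace Crest.Agent.R335

namespace TPar

theorem r9_jn (X : Pos3) (ξ : Y2) : r9 (jn p9 X ξ) = jn p9 (rz X) (rxi ξ) := by
  ext ⟨i, c⟩
  rw [r9_apply, jn_apply, jn_apply]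
  refine Fin.cases ?_ (fun j => ?_) i
  · simp [p9, rz_apply]
  · simp [p9, rxi_apply]

theorem rxi_rxi (ξ : Y2) : rxi (rxi ξ) = ξ := by
  ext jc
  rw [rxi_apply, rxi_apply]
  split_ifs <;> simp

theorem rz_rz' (X : Pos3) : rz (rz X) = X := by
  ext i
  rw [rz_apply, rz_apply]
  split_ifs <;> simp

/-- a function odd under the total reflection -/
theorem cF_rz {Y : Config3 → ℝ} (hodd : ∀ x, Y (r9 x) = - Y x) {Φ : Y2 → ℝ} {π : ℝ}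
    (hΦ : ∀ ξ, Φ (rxi ξ) = π * Φ ξ) (X : Pos3) : cF Φ Y (rz X) = -π * cF Φ Y X := by
  unfold cF
  have h1 : ∀ ξ, Y (jn p9 (rz X) (rxi ξ)) = - Y (jn p9 X ξ) := fun ξ => by
    rw [← r9_jn]; exact hodd _
  have h2 : ∫ ξ, Φ ξ * Y (jn p9 (rz X) ξ) = ∫ ξ, Φ (rxi ξ) * Y (jn p9 (rz X) (rxi ξ)) :=
    ((rxi.measurePreserving).integral_comp rxi.toHomeomorph.measurableEmbedding
      (fun ξ => Φ ξ * Y (jn p9 (rz X) ξ))).symm
  rw [h2, ← integral_const_mul]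
  refine integral_congr_ae (Eventually.of_forall fun ξ => ?_)
  show Φ (rxi ξ) * Y (jn p9 (rz X) (rxi ξ)) = -π * (Φ ξ * Y (jn p9 X ξ))
  rw [h1, hΦ]; ring

theorem sq_rz {D lam E σ : ℝ} {Y : Config3 → ℝ} {dY : Config3 → Config3}
    (h : Chan D lam E σ Y dY) {π : ℝ} (hπ : π = 1 ∨ π = -1) (X : Pos3) :
    ∫ ξ, Yp π Y (jn p9 (rz X) ξ) ^ 2 = ∫ ξ, Yp π Y (jn p9 X ξ) ^ 2 := by
  have := (Chan.part h hπ).2.2.2
  refine integral_congr_ae (Eventually.of_forall fun ξ => ?_)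
  show Yp π Y (jn p9 (rz X) ξ) ^ 2 = Yp π Y (jn p9 X ξ) ^ 2
  rw [this X ξ]
  rcases hπ with h | h <;> rw [h] <;> ring

end TPar

theorem s1_even {cg C0 D : ℝ} {B : OBD cg C0 D} {K lam : ℝ} (S : Sys B K lam) (x : Pos3) :
    S.s1 (rz x) = S.s1 x := by
  obtain ⟨_, h1⟩ := chan_S S.tb
  obtain ⟨_, h2⟩ := chan_T S.tb
  obtain ⟨_, h3⟩ := chan_B S.tb
  unfold Sys.s1 Sys.s1sq
  rw [TPar.sq_rz (Y := S.YS) h1 (Or.inl rfl), TPar.sq_rz (Y := S.YT) h2 (Or.inl rfl),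
    TPar.sq_rz (Y := S.YB) h3 (Or.inl rfl)]

theorem s2_even {cg C0 D : ℝ} {B : OBD cg C0 D} {K lam : ℝ} (S : Sys B K lam) (x : Pos3) :
    S.s2 (rz x) = S.s2 x := by
  obtain ⟨_, h1⟩ := chan_S S.tb
  obtain ⟨_, h2⟩ := chan_T S.tb
  obtain ⟨_, h3⟩ := chan_B S.tb
  unfold Sys.s2 Sys.s2sq
  rw [TPar.sq_rz (Y := S.YS) h1 (Or.inr rfl), TPar.sq_rz (Y := S.YT) h2 (Or.inr rfl),
    TPar.sq_rz (Y := S.YB) h3 (Or.inr rfl)]

theorem F_odd {cg C0 D : ℝ} {B : OBD cg C0 D} {K lam : ℝ} (S : Sys B K lam) (x : Pos3) :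
    S.F (rz x) = - S.F x := by
  obtain ⟨_, h1⟩ := chan_S S.tb
  have := TPar.cF_rz (Y := S.YS) h1.odd (Φ := S.Φ0) (π := 1) S.ch0.par x
  unfold Sys.F
  rw [this]; ring

end Crest.Agent.R335
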