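import Crest.Agent.R335.BExist
import Crest.Agent.R335.OBFin
import Crest.Agent.R335.BIon
import Crest.Agent.R335.ThMain
import Crest.Agent.R335.BThreeW
import Crest.Agent.R335.BClose

/-!
Row 335 (S0521), TOP: `sys_exists` (= `BI.sys_exists`) with the real existence theorems (helper783).
-/

set_option autoImplicit false

open MeasureTheory Filter Set Crest.MathPhysics.ThreeBody
open scoped ENNReal Topology ContDiff

noncomputable section
namespace Crest.Agent.R335

theorem sys_exists : ∃ cg C0 D₀ : ℝ, 0 < cg ∧ 1 ≤ C0 ∧ 4 ≤ D₀ ∧ ∀ D : ℝ, D₀ ≤ D →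
    ∃ (B : OBD cg C0 D) (K l' : ℝ), 1 ≤ K ∧ 0 < l' ∧ ∀ lam, 0 < lam → lam ≤ l' →
      ∃ S : Sys B K lam,
        ∀ k dk, H1 k dk → (∀ᵐ x, k (permConfig (Equiv.swap 0 1) x) = - k x) →
          S.E * (∫ x, k x ^ 2) ≤ q3 D lam k dk k dk :=
  sys_exists_of obd_exists ions_exist three_exists three_weight three_close

end Crest.Agent.R335
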