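import Crest.Agent.R335.BSys
import Crest.Agent.R335.HIface2
import Crest.Agent.R335.OBPot

/-!
Row 335 (S0521), TOP: `KatoInf` from the weak Kato inequality, `PlaneLow` from an explicit lower
bound on the plane (helper783).
-/

set_option autoImplicit false

open MeasureTheory Filter Set Crest.MathPhysics.ThreeBody
open scoped ENNReal Topology ContDiff

noncomputable section
namespace Crest.Agent.R335
namespace TK

theorem V2_low {D : ℝ} (hD : 0 ≤ D) {δ : ℝ} (hδ : 0 < δ) {x : Pos3}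
    (hx : D + 2 / δ + 1 ≤ ‖x‖) : -δ ≤ V2 D x := by
  have hn : ∀ a : Pos3, ‖a‖ = D → 1 / ‖x - a‖ ≤ δ / 2 := by
    intro a ha
    have h1 : ‖x‖ - ‖a‖ ≤ ‖x - a‖ := norm_sub_norm_le x a
    have h2 : 2 / δ ≤ ‖x - a‖ := by rw [ha] at h1; linarith
    have h3 : 0 < 2 / δ := by positivity
    calc 1 / ‖x - a‖ ≤ 1 / (2 / δ) := one_div_le_one_div_of_le h3 h2
      _ = δ / 2 := by rw [one_div_div]
  have h1 := hn (nuc D) (by simp [nuc, abs_of_nonneg hD])
  have h2 := hn (nuc (-D)) (by simp [nuc, abs_of_nonneg hD])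
  unfold V2
  linarith

/-- `KatoInf` from the weak Kato inequality on the whole space -/
theorem katoInf_of {D κ : ℝ} (hD : 0 ≤ D) {s : Pos3 → ℝ} {gs : Pos3 → Pos3} (hs : H1 s gs)
    (hs0 : ∀ x, 0 ≤ s x)
    (h : ∀ φ : Pos3 → ℝ, Test univ φ → (∀ x, 0 ≤ φ x) →
      (1 / 2) * (∫ x, inner ℝ (gs x) (gr φ x)) + ∫ x, (κ ^ 2 / 2 + V2 D x) * s x * φ x ≤ 0) :
    KatoInf s gs κ := by
  intro δ hδ
  refine ⟨D + 2 / (δ / 2) + 1, fun φ gφ hφ hφ0 hφR => ?_⟩
  have hV := (V2_memLp D hs).1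
  have hq : MemLp (fun x => (κ ^ 2 / 2 + V2 D x) * s x) 2 volume := by
    have := (hs.memf.const_mul (κ ^ 2 / 2)).add hV
    convert this using 1
    funext x
    simp only [Pi.add_apply]; ring
  have hG : MemLp (fun x => (1 / 2 : ℝ) • gs x) 2 volume := hs.memg.const_smul (1 / 2 : ℝ)
  have key := I.test_extend (U := univ) isOpen_univ (q := fun x => (κ ^ 2 / 2 + V2 D x) * s x)
    (G := fun x => (1 / 2 : ℝ) • gs x) (by rwa [Measure.restrict_univ])
    (by rwa [Measure.restrict_univ]) (fun ψ hψ hψ0 => by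
      have := h ψ hψ hψ0
      simp only [Measure.restrict_univ, inner_smul_left, RCLike.conj_to_real]
      rwa [integral_const_mul]) (I.H10.of_univ hφ.h1) hφ0
  simp only [Measure.restrict_univ, inner_smul_left, RCLike.conj_to_real] at key
  rw [integral_const_mul] at key
  have hi1 : Integrable (fun x => (κ ^ 2 / 2 + V2 D x) * s x * φ x) := hq.integrable_mul hφ.h1.memf
  have hi2 : Integrable (fun x => s x * φ x) := hs.memf.integrable_mul hφ.h1.memf
  have hle : (κ ^ 2 / 2 - δ / 2) * ∫ x, s x * φ x ≤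
      ∫ x, (κ ^ 2 / 2 + V2 D x) * s x * φ x := by
    rw [← integral_const_mul]
    refine integral_mono_ae (hi2.const_mul _) hi1 ?_
    filter_upwards [hφ0, hφR] with x h0 hR
    by_cases hx : ‖x‖ ≤ D + 2 / (δ / 2) + 1
    · simp [hR hx]
    · have h1 := V2_low hD (half_pos hδ) (not_le.1 hx).le
      have h2 : 0 ≤ s x * φ x := mul_nonneg (hs0 x) h0
      show (κ ^ 2 / 2 - δ / 2) * (s x * φ x) ≤ (κ ^ 2 / 2 + V2 D x) * s x * φ x
      nlinarith
  have : (∫ x, inner ℝ (gs x) (gφ x)) + 2 * ((κ ^ 2 / 2 - δ / 2) * ∫ x, s x * φ x) ≤ 0 := by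
    linarith
  linarith

/-- `PlaneLow` from an explicit lower bound -/
theorem planeLow_of {s : Pos3 → ℝ} {κ c R : ℝ} {M : ℕ} (hc : 0 < c)
    (h : ∀ x : Pos3, x 2 = 0 → R ≤ ‖x‖ → c * Real.exp (-κ * ‖x‖) / ‖x‖ ^ M ≤ s x) :
    PlaneLow s κ := by
  intro ε hε
  -- `r ^ M e^{-ε r} → 0`
  have ht : Tendsto (fun r : ℝ => r ^ M * Real.exp (-(ε * r))) atTop (𝓝 0) := by
    have := (Real.tendsto_pow_mul_exp_neg_atTop_nhds_zero M).comp
      (tendsto_id.const_mul_atTop hε)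
    have h2 := this.const_mul (1 / ε ^ M)
    rw [mul_zero] at h2
    refine h2.congr fun r => ?_
    simp only [Function.comp, id]
    rw [mul_pow]
    have : ε ^ M ≠ 0 := by positivity
    field_simp
  obtain ⟨R', hR'⟩ := (eventually_atTop.1 ((ht.eventually (ge_mem_nhds hc)).and
    (eventually_ge_atTop (max R 1))))
  refine ⟨R', fun x hx hr => ?_⟩
  obtain ⟨h1, h2⟩ := hR' ‖x‖ hr
  have hx1 : 1 ≤ ‖x‖ := (le_max_right _ _).trans h2
  refine le_trans ?_ (h x hx ((le_max_left _ _).trans h2))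
  rw [le_div_iff₀ (by positivity)]
  have e : Real.exp (-(κ + ε) * ‖x‖) = Real.exp (-κ * ‖x‖) * Real.exp (-(ε * ‖x‖)) := by
    rw [← Real.exp_add]; ring_nf
  rw [e]
  nlinarith [Real.exp_pos (-κ * ‖x‖)]

end TK
end Crest.Agent.R335
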