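import Crest.Agent.R335.KFinal
import Crest.Agent.R335.BSys

/-!
Row 335 (S0521), TOP: the joint output of parts B and C at one `(D, λ)` (helper783).
-/

set_option autoImplicit false

open MeasureTheory Filter Set Crest.MathPhysics.ThreeBody
open scoped ENNReal Topology ContDiff

noncomputable section
namespace Crest.Agent.R335

/-- everything the Kohn-Sham side needs -/
structure Out {cg C0 D K lam : ℝ} {B : OBD cg C0 D} (S : Sys B K lam) (s : Pos3 → ℝ)
    (gs : Pos3 → Pos3) (κ : ℝ) : Prop where
  amp : Amp s gs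
  rho : ∀ᵐ X : Pos3, s X ^ 2 = S.rho X
  κ_pos : 0 < κ
  kato : KatoInf s gs κ
  low : PlaneLow s κ
  small : ∀ U gU w gw om, Pair s U gU w gw om → SmallU s U
  poin : ∀ U gU w gw om, Pair s U gU w gw om → PoinG U om

end Crest.Agent.R335
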