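import Crest.Agent.R335.CPoinF
import Crest.Agent.R335.PU7
import Crest.Agent.R335.CLowK
import Crest.Agent.R335.CLowP

/-!
Row 335 (S0521): output of part C, `CI.partC` with the real theorems (statement and proof of
helper720's `CI.partC`).
-/

set_option autoImplicit false

open MeasureTheory Filter Set Crest.MathPhysics.ThreeBody
open scoped ENNReal Topology ContDiff

noncomputable section
namespace Crest.Agent.R335

theorem partC {cg C0 P0 : ℝ} (hcg : 0 < cg) (hC : 1 ≤ C0) (hP : 1 ≤ P0) :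
    ∃ D0 : ℝ, 4 ≤ D0 ∧ ∀ D : ℝ, D0 ≤ D → ∀ (B : OBD cg C0 D) (K1 : ℝ),
      ∃ R0 : ℝ, ∀ R1 : ℝ, R0 ≤ R1 → ∀ K2 : ℝ, ∃ l' : ℝ, 0 < l' ∧ ∀ lam, 0 < lam → lam ≤ l' →
      ∀ (κ κS κT : ℝ) (s s1 s2 F w0 X sig : Pos3 → ℝ) (gs gs1 gs2 gF : Pos3 → Pos3),
        COut B (P0 * D ^ 20) K1 K2 R1 lam κ κS κT s s1 s2 F w0 X sig gs gs1 gs2 gF →
        ∀ (U w : Pos3 → ℝ) (gU gw : Pos3 → Pos3) (om : ℝ), Pair s U gU w gw om →
          PoinG U om ∧ SmallU s U ∧ 0 < κ ∧ KatoInf s gs κ ∧ PlaneLow s κ := by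
  obtain ⟨D0, hD0, h1⟩ := poin (P0 := P0) hcg hC hP
  obtain ⟨P1, D1, hP1, hD1, h2⟩ := upper (P0 := P0) hcg hC hP
  refine ⟨max D0 D1, le_max_of_le_left hD0, fun D hD B K1 => ?_⟩
  obtain ⟨R0, h3⟩ := h1 D (le_trans (le_max_left _ _) hD) B K1
  obtain ⟨R0', h4⟩ := h2 D (le_trans (le_max_right _ _) hD) B K1
  refine ⟨max R0 R0', fun R1 hR K2 => ?_⟩
  obtain ⟨l1, hl1, h5⟩ := h3 R1 (le_trans (le_max_left _ _) hR) K2
  obtain ⟨l2, hl2, h6⟩ := h4 R1 (le_trans (le_max_right _ _) hR) K2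
  refine ⟨min (min l1 l2) (1 / 100), by positivity, fun lam hlam hl κ κS κT s s1 s2 F w0 X sig gs
    gs1 gs2 gF h U w gU gw om hp => ?_⟩
  have e1 : lam ≤ l1 := le_trans hl (le_trans (min_le_left _ _) (min_le_left _ _))
  have e2 : lam ≤ l2 := le_trans hl (le_trans (min_le_left _ _) (min_le_right _ _))
  have e3 : lam ≤ 1 / 100 := le_trans hl (min_le_right _ _)
  have hD' : (1 : ℝ) ≤ D := by
    have := le_trans (le_max_left _ _) hD
    linarith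
  have hPP : (1 : ℝ) ≤ P0 * D ^ 20 := by
    have : (1 : ℝ) ≤ D ^ 20 := one_le_pow₀ hD'
    nlinarith
  exact ⟨h5 lam hlam e1 κ κS κT s s1 s2 F w0 X sig gs gs1 gs2 gF h U w gU gw om hp,
    (h6 lam hlam e2 κ κS κT s s1 s2 F w0 X sig gs gs1 gs2 gF h U w gU gw om hp).2.2,
    by linarith [h.κ_rng.1], katoInf h, planeLow hD' hPP e3 h⟩

end Crest.Agent.R335
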