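import Crest.Agent.R335.VecFB
import Crest.Agent.R335.BChan
import Crest.Agent.R335.BIface2

/-!
Row 335 (S0521), interacting side: the equation of `F` in the form needed in part C (`vec_F`)
(helper732).
-/

set_option autoImplicit false
set_option linter.unusedVariables false

open MeasureTheory Filter Set Crest.MathPhysics.ThreeBody
open scoped ENNReal Topology ContDiff

noncomputable section
namespace Crest.Agent.R335
namespace VecF

/-! ### parameters -/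

section
variable {cg C0 D : ℝ} {B : OBD cg C0 D} {K lam : ℝ}

theorem CD_le (hC : 1 ≤ C0) (B : OBD cg C0 D) : C0 / D ≤ 1 / 100 := by
  have h := B.big
  have hD : 0 < D := by linarith
  rw [div_le_div_iff₀ hD (by norm_num)]
  linarith

theorem e0_sub_E (S : Sys B K lam) (hC : 1 ≤ C0) (hl : K * lam ≤ 1 / 8) :
    1 / 8 ≤ S.e0 - S.E := by
  have h1 := abs_le.1 S.e0n
  have h2 := abs_le.1 S.En
  have h3 := abs_le.1 B.eu_near
  have h4 := CD_le hC B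
  linarith

theorem kap_sq (S : Sys B K lam) (hC : 1 ≤ C0) (hl : K * lam ≤ 1 / 8) :
    S.κ ^ 2 = 2 * (S.e0 - S.E) := by
  have h := e0_sub_E S hC hl
  unfold Sys.κ
  rw [Real.sq_sqrt (by linarith)]

theorem om_pos (B : OBD cg C0 D) : 0 < B.om := by
  have := B.ob.eg_lt
  unfold OBD.om
  linarith

theorem a_pos (B : OBD cg C0 D) : 0 < B.a := by
  have := om_pos B
  unfold OBD.a
  positivity

theorem a_le (B : OBD cg C0 D) : B.a ≤ 1 / 100 := by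
  have h1 := B.omle
  have h2 := B.cg1
  unfold OBD.a OBD.om
  linarith

end

/-! ### the coupling term -/

/-- `⟨Φ, W_X Y(X)⟩` -/
def cplΦ (Φ : Y2 → ℝ) (Y : Config3 → ℝ) (X : Pos3) : ℝ :=
  ∫ ξ, WX X ξ * (Φ ξ * Y (jn p9 X ξ))

theorem W9_jn (X : Pos3) (ξ : Y2) : Sy.W9 (jn p9 X ξ) = WX X ξ := by
  unfold Sy.W9
  rw [pr1_jn, pr2_jn]

theorem slice_cpl {Φ : Y2 → ℝ} {Y : Config3 → ℝ} {χ : Pos3 → ℝ} (X : Pos3) :
    ∫ ξ, Sy.W9 (jn p9 X ξ) * (Y (jn p9 X ξ) * (χ (pr1 p9 (jn p9 X ξ)) * Φ (pr2 p9 (jn p9 X ξ)))) =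
      χ X * cplΦ Φ Y X := by
  unfold cplΦ
  rw [← integral_const_mul]
  refine integral_congr_ae (ae_of_all _ fun ξ => ?_)
  simp only [pr1_jn, pr2_jn, W9_jn]
  ring

/-- Fubini for the coupling -/
theorem int_cpl {Φ : Y2 → ℝ} (hΦ : MemLp Φ 2 volume) {Y : Config3 → ℝ} {dY : Config3 → Config3}
    (hY : H1 Y dY) {χ : Pos3 → ℝ} (hχ : MemLp χ 2 volume) :
    Integrable (fun X => χ X * cplΦ Φ Y X) ∧
      ∫ x, Sy.W9 x * (Y x * Sy.tn p9 χ Φ x) = ∫ X, χ X * cplΦ Φ Y X := by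
  have hT : MemLp (fun x : Config3 => χ (pr1 p9 x) * Φ (pr2 p9 x)) 2 volume :=
    HS.memLp_tensor p9 hχ hΦ
  have hi : Integrable (fun x => Sy.W9 x * (Y x * (χ (pr1 p9 x) * Φ (pr2 p9 x)))) := by
    refine ((Sy.memLp_W hY).integrable_mul hT).congr (ae_of_all _ fun x => ?_)
    simp only [Pi.mul_apply]
    unfold Sy.W9
    ring
  refine ⟨?_, ?_⟩
  · refine (HS.integrable_slice p9 hi).congr (ae_of_all _ fun X => ?_)
    exact slice_cpl X
  · have := integral_jn p9 hi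
    simp_rw [slice_cpl] at this
    exact this

theorem locInt_cpl {Φ : Y2 → ℝ} (hΦ : MemLp Φ 2 volume) {Y : Config3 → ℝ}
    {dY : Config3 → Config3} (hY : H1 Y dY) : LocallyIntegrable (cplΦ Φ Y) volume := by
  intro x0
  refine ⟨Metric.ball x0 1, Metric.ball_mem_nhds x0 one_pos, ?_⟩
  have hχ : MemLp (Set.indicator (Metric.ball x0 1) fun _ => (1 : ℝ)) 2
      (volume : Measure Pos3) :=
    memLp_indicator_const 2 measurableSet_ball 1 (Or.inr measure_ball_lt_top.ne)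
  have h := (int_cpl hΦ hY hχ).1
  have e : (fun X => (Set.indicator (Metric.ball x0 1) (fun _ => (1 : ℝ)) X) * cplΦ Φ Y X) =
      Set.indicator (Metric.ball x0 1) (cplΦ Φ Y) := by
    funext X
    by_cases hX : X ∈ Metric.ball x0 1
    · simp [hX]
    · simp [hX]
  rw [e] at h
  exact (integrable_indicator_iff measurableSet_ball).1 h

/-- `⟨Φ, W_X Φ⟩` -/
def wΦΦ (Φ : Y2 → ℝ) (X : Pos3) : ℝ := ∫ ξ, WX X ξ * Φ ξ ^ 2

theorem measurable_W9 : Measurable Sy.W9 := by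
  have h : ∀ i j : Fin 3, Measurable fun x : Config3 => 1 / ‖elPos i x - elPos j x‖ := fun i j => by
    have h1 : Continuous fun x : Config3 => ‖Sy.elL i x - Sy.elL j x‖ :=
      ((Sy.elL i).continuous.sub (Sy.elL j).continuous).norm
    exact measurable_const.div h1.measurable
  have e : Sy.W9 = fun x : Config3 => 1 / ‖elPos 0 x - elPos 1 x‖ + 1 / ‖elPos 0 x - elPos 2 x‖ := by
    funext x
    unfold Sy.W9 WX
    rw [Sy.pr1_p9, Sy.el0_pr2, Sy.el1_pr2]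
  rw [e]
  exact (h 0 1).add (h 0 2)

theorem aesm_wΦΦ {Φ : Y2 → ℝ} (hΦ : AEStronglyMeasurable Φ volume) :
    AEStronglyMeasurable (wΦΦ Φ) volume := by
  have h1 : AEStronglyMeasurable (fun z : Pos3 × Y2 => WX z.1 z.2 * Φ z.2 ^ 2)
      (volume.prod volume) := by
    refine AEStronglyMeasurable.mul ?_ (hΦ.comp_snd.pow 2)
    have h2 : Measurable fun z : Pos3 × Y2 => Sy.W9 (jn p9 z.1 z.2) :=
      measurable_W9.comp (continuous_jn p9).measurable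
    simp only [W9_jn] at h2
    exact h2.aestronglyMeasurable
  exact h1.integral_prod_right'

theorem wΦΦ_bdd {Φ : Y2 → ℝ} {dΦ : Y2 → Y2} (h : H1 Φ dΦ) : ∃ C, ∀ X, |wΦΦ Φ X| ≤ C := by
  refine ⟨√(16 * ∫ ξ, ‖dΦ ξ‖ ^ 2) * √(∫ ξ, Φ ξ ^ 2), fun X => ?_⟩
  have h1 := cs_abs (Sy.memLp_WX h X) h.memf
  have e : wΦΦ Φ X = ∫ ξ, WX X ξ * Φ ξ * Φ ξ := by
    unfold wΦΦ
    refine integral_congr_ae (ae_of_all _ fun ξ => ?_)
    simp only
    ring
  rw [e]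
  exact h1.trans (mul_le_mul_of_nonneg_right (Real.sqrt_le_sqrt (Sy.int_WX_sq_le h X))
    (Real.sqrt_nonneg _))

theorem locInt_mul_wΦΦ {Φ : Y2 → ℝ} {dΦ : Y2 → Y2} (h : H1 Φ dΦ) {f : Pos3 → ℝ}
    (hf : MemLp f 2 volume) : MemLp (fun X => f X * wΦΦ Φ X) 2 volume := by
  obtain ⟨C, hC⟩ := wΦΦ_bdd h
  refine MemLp.of_le_mul (c := C) hf (hf.1.mul (aesm_wΦΦ h.memf.1)) (ae_of_all _ fun X => ?_)
  rw [norm_mul, mul_comm]
  exact mul_le_mul_of_nonneg_right (hC X) (norm_nonneg _)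

/-! ### slices -/

theorem slice_ew {a b : ℝ} (ha : 0 ≤ a) (hb : b ≤ 4 * a) {Y : Config3 → ℝ} (h : IsW a Y) :
    ∀ᵐ X : Pos3, MemLp (fun ξ => Real.exp (b * wi ξ) * Y (jn p9 X ξ)) 2 volume := by
  obtain ⟨d, hd⟩ := h.ew ha hb
  filter_upwards [MemLp.slice_right p9 hd.memf] with X hX
  simpa only [Sy.ew_jn] using hX

theorem vecF_arith {M CD lam s z r ex P T A : ℝ} (hM : 0 < M) (hCD : 0 ≤ CD) (hl : 0 < lam)
    (hs0 : 0 ≤ s) (hs : s ≤ 3 / 2) (hz : 0 ≤ z) (hr : 0 < r) (hex : 0 < ex) (hP : 0 ≤ P)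
    (hT : 0 ≤ T) (h : A ≤ M / r ^ 2 * P + (CD * z / r ^ 3 + M * ex) * T) :
    2 * s * lam * A ≤ (3 * (M + CD) + 1) * lam * (P / r ^ 2 + (z / r ^ 3 + ex) * T) := by
  have t1 : 0 ≤ CD * (P / r ^ 2) := by positivity
  have t2 : 0 ≤ M * (z / r ^ 3) * T := by positivity
  have t3 : 0 ≤ CD * ex * T := by positivity
  have T0 : 0 ≤ P / r ^ 2 + (z / r ^ 3 + ex) * T := by positivity
  have h2 : M / r ^ 2 * P + (CD * z / r ^ 3 + M * ex) * T ≤
      (M + CD) * (P / r ^ 2 + (z / r ^ 3 + ex) * T) := by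
    have e : (M + CD) * (P / r ^ 2 + (z / r ^ 3 + ex) * T) =
        M / r ^ 2 * P + (CD * z / r ^ 3 + M * ex) * T +
          (CD * (P / r ^ 2) + M * (z / r ^ 3) * T + CD * ex * T) := by ring
    rw [e]
    linarith
  obtain ⟨Q, hQ⟩ : ∃ Q, Q = P / r ^ 2 + (z / r ^ 3 + ex) * T := ⟨_, rfl⟩
  rw [← hQ] at h2 T0 ⊢
  have h3 : 2 * s * lam * A ≤ 2 * s * lam * ((M + CD) * Q) :=
    mul_le_mul_of_nonneg_left (h.trans h2) (by positivity)
  have h4 : 0 ≤ lam * ((M + CD) * Q) := by positivity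
  have h5 : 0 ≤ lam * Q := by positivity
  have h6 : (3 / 2 - s) * (lam * ((M + CD) * Q)) ≥ 0 := mul_nonneg (by linarith) h4
  nlinarith

end VecF

open VecF in
/-- `F`: `Δ F = (P + wc) F + sig` on `r > K'` -/
theorem vec_F {cg C0 D : ℝ} (hC : 1 ≤ C0) (hD : 4 ≤ D) (B : OBD cg C0 D) (K : ℝ) :
    ∃ K' l' : ℝ, 1 ≤ K' ∧ 0 < l' ∧ ∀ lam, 0 < lam → lam ≤ l' → ∀ S : Sys B K lam,
      ∃ (dF : Pos3 → Pos3) (sig : Pos3 → ℝ), H1 S.Fn dF ∧
        LocallyIntegrableOn sig (Ext K') volume ∧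
        (∀ φ, Test (Ext K') φ →
          (∫ x, inner ℝ (dF x) (gr φ x)) + ∫ x, ((S.Pot x + S.wc x) * S.Fn x + sig x) * φ x = 0) ∧
        ∀ᵐ x : Pos3, K' < ‖x‖ → |sig x| ≤ S.erF K' x := by
  have hD1 : 1 ≤ D := by linarith
  have ha := a_pos B
  obtain ⟨M, hM0, hM⟩ := multipole (K := K) hC hD1 ha (a_le B)
  have hCD : 0 ≤ C0 * D := by positivity
  refine ⟨3 * (M + 16 * C0 * D) + 1, 1 / (8 * (|K| + 1)), by nlinarith, by positivity, ?_⟩
  intro lam hl0 hl S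
  have hK := S.Kpos
  have hKl : K * lam ≤ 1 / 8 := by
    rw [le_div_iff₀ (by positivity)] at hl
    have : |K| = K := abs_of_pos (by linarith)
    rw [this] at hl
    nlinarith
  obtain ⟨dY, hY⟩ := chan_S S.tb
  have hY' : Chan D lam S.E 1 S.YS dY := hY
  have hΦ := S.ch0.h1
  have hΦ2 := hΦ.memf
  have hF := Sy.cF_H1 hY'.h1 hΦ2
  set dF := Sy.dcF S.Φ0 dY with hdF
  set sig : Pos3 → ℝ := fun X => 2 * √2 * lam * (cplΦ S.Φ0 S.YS X - S.F X * wΦΦ S.Φ0 X) with hsig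
  have hsl : LocallyIntegrable sig volume := by
    have h1 := locInt_cpl hΦ2 hY'.h1
    have h2 : LocallyIntegrable (fun X => S.F X * wΦΦ S.Φ0 X) volume :=
      (locInt_mul_wΦΦ hΦ hF.memf).locallyIntegrable (by norm_num)
    exact (h1.sub h2).smul (2 * √2 * lam)
  refine ⟨fun x => √2 • dF x, sig, hF.const_mul √2, hsl.locallyIntegrableOn _, ?_, ?_⟩
  · intro φ hφ
    have hφ1 := H1.of_test hφ
    have eq := Sy.proj_eq hY' hΦ S.ch0.eq hφ1
    obtain ⟨hi, he⟩ := int_cpl hΦ2 hY'.h1 hφ1.memf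
    rw [he] at eq
    obtain ⟨C2, hC2⟩ := Sy.fb_V2 D
    have hi2 : Integrable (fun X => (V2 D X + S.e0 - S.E) * (S.F X * φ X)) := by
      have h1 := hC2.int2 hF hφ1
      have h2 : Integrable (fun X => (S.e0 - S.E) * (S.F X * φ X)) :=
        (hF.memf.integrable_mul hφ1.memf).const_mul _
      refine (h1.add h2).congr (ae_of_all _ fun X => ?_)
      simp only [Pi.add_apply]
      have : cF S.Φ0 S.YS X = S.F X := rfl
      rw [this]
      ring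
    have e1 : ∫ x, ((S.Pot x + S.wc x) * S.Fn x + sig x) * φ x =
        2 * √2 * ((∫ X, (V2 D X + S.e0 - S.E) * (S.F X * φ X)) +
          lam * ∫ X, φ X * cplΦ S.Φ0 S.YS X) := by
      rw [← integral_const_mul lam, ← integral_add hi2 (hi.const_mul lam), ← integral_const_mul]
      refine integral_congr_ae (ae_of_all _ fun X => ?_)
      simp only [hsig]
      unfold Sys.Pot Sys.wc Sys.Fn wΦΦ
      rw [kap_sq S hC hKl]
      ring
    have e2 : ∫ x, inner ℝ (√2 • dF x) (gr φ x) = √2 * ∫ x, inner ℝ (dF x) (gr φ x) := by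
      rw [← integral_const_mul]
      refine integral_congr_ae (ae_of_all _ fun X => ?_)
      simp only [inner_smul_left]
      simp
    have e3 : (∫ X, (V2 D X + S.e0 - S.E) * (cF S.Φ0 S.YS X * φ X)) =
        ∫ X, (V2 D X + S.e0 - S.E) * (S.F X * φ X) := rfl
    rw [e3] at eq
    rw [e1, e2]
    linear_combination 2 * √2 * eq
  · have h4 : (1 : ℝ) * B.a ≤ 4 * B.a := by linarith
    filter_upwards [slice_ew ha.le (b := B.a) (by linarith) S.isW_YS] with X hX hXr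
    have hX1 : 1 ≤ ‖X‖ := by nlinarith
    obtain ⟨m1, m2, -, -⟩ := hM S.Φ0 S.Φ0 S.w0 S.w0 X hX1
    have key := fib_F ha.le S.w0 S.w1 S.n0 S.n1 (fun ξ => by rw [S.ch0.par, one_mul])
      (fun ξ => by rw [S.ch1.par]; ring) hX (2 / ‖X‖) (X := X)
    have eP : √(∫ ξ, (Real.exp (B.a * wi ξ) * (yp 1 (fun ξ => S.YS (jn p9 X ξ)) ξ -
        (∫ ξ, S.Φ0 ξ * S.YS (jn p9 X ξ)) * S.Φ0 ξ)) ^ 2) = S.P X := by
      unfold Sys.P wN cR cF
      simp only [Yp_jn, pr1_jn, pr2_jn]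
    have eN : √(∫ ξ, (Real.exp (B.a * wi ξ) * (yp (-1) (fun ξ => S.YS (jn p9 X ξ)) ξ -
        (∫ ξ, S.Φ1 ξ * S.YS (jn p9 X ξ)) * S.Φ1 ξ)) ^ 2) = S.N X := by
      unfold Sys.N wN cR cF
      simp only [Yp_jn, pr1_jn, pr2_jn]
    rw [eP, eN] at key
    have eS : sig X = 2 * √2 * lam * ((∫ ξ, WX X ξ * (S.Φ0 ξ * S.YS (jn p9 X ξ))) -
        (∫ ξ, S.Φ0 ξ * S.YS (jn p9 X ξ)) * ∫ ξ, WX X ξ * S.Φ0 ξ ^ 2) := rfl
    have ec : (∫ ξ, S.Φ1 ξ * S.YS (jn p9 X ξ)) = S.c X := rfl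
    rw [ec] at key
    have hP0 : 0 ≤ S.P X := Real.sqrt_nonneg _
    have hN0 : 0 ≤ S.N X := Real.sqrt_nonneg _
    have hc0 := abs_nonneg (S.c X)
    have s2 : √2 ≤ 3 / 2 := by
      rw [Real.sqrt_le_left (by norm_num)]
      norm_num
    have s0 := Real.sqrt_nonneg (2 : ℝ)
    rw [eS, abs_mul, abs_of_nonneg (by positivity)]
    unfold Sys.erF
    refine vecF_arith hM0 (by positivity) hl0 s0 s2 (abs_nonneg (X 2)) (by linarith)
      (Real.exp_pos _) hP0 (add_nonneg hc0 hN0) (key.trans (add_le_add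
        (mul_le_mul_of_nonneg_right m1 hP0) (mul_le_mul_of_nonneg_right m2 (add_nonneg hc0 hN0))))

end Crest.Agent.R335
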