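import Crest.Agent.R335.VSPar
import Crest.Agent.R335.VSPrm

/-!
Row 335 (S0521), interacting side, module VecS1 part 4 (helper892): bounds of the coupling
`W^-` on parity parts.
-/

set_option autoImplicit false
set_option linter.unusedSectionVars false
set_option linter.unusedVariables false

open MeasureTheory Filter Set Crest.MathPhysics.ThreeBody
open scoped ENNReal Topology ContDiff

noncomputable section
namespace Crest.Agent.R335
namespace VS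
open Mult

/-! ### `L²` norms as square roots of integrals -/

section L2
variable {α : Type*} [MeasurableSpace α] {μ : Measure α} {f g h : α → ℝ}

/-- the `L²` norm -/
def l2 (μ : Measure α) (f : α → ℝ) : ℝ := √(∫ x, f x ^ 2 ∂μ)

theorem l2_nonneg (μ : Measure α) (f : α → ℝ) : 0 ≤ l2 μ f := Real.sqrt_nonneg _

theorem l2_sq (μ : Measure α) (f : α → ℝ) : l2 μ f ^ 2 = ∫ x, f x ^ 2 ∂μ :=
  Real.sq_sqrt (integral_nonneg fun _ => sq_nonneg _)

theorem l2_cs (hf : MemLp f 2 μ) (hg : MemLp g 2 μ) : |∫ x, f x * g x ∂μ| ≤ l2 μ f * l2 μ g := by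
  have h := HS.cs hf hg
  simp only [smul_eq_mul, Real.norm_eq_abs, sq_abs] at h
  rw [← l2_sq, ← l2_sq, ← mul_pow] at h
  exact abs_le_of_sq_le_sq h (mul_nonneg (l2_nonneg _ _) (l2_nonneg _ _))

theorem l2_add_le (hf : MemLp f 2 μ) (hg : MemLp g 2 μ) :
    l2 μ (fun x => f x + g x) ≤ l2 μ f + l2 μ g := by
  have h1 := (abs_le.1 (l2_cs hf hg)).2
  refine Real.sqrt_le_iff.2 ⟨add_nonneg (l2_nonneg _ _) (l2_nonneg _ _), ?_⟩
  have i1 := hf.integrable_sq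
  have i2 := hg.integrable_sq
  have i3 : Integrable (fun x => f x * g x) μ := hf.integrable_mul hg
  have e : ∀ x, (f x + g x) ^ 2 = (f x ^ 2 + 2 * (f x * g x)) + g x ^ 2 := fun x => by ring
  have i4 : Integrable (fun x => f x ^ 2 + 2 * (f x * g x)) μ := i1.add (i3.const_mul 2)
  simp only [e]
  rw [integral_add i4 i2, integral_add i1 (i3.const_mul 2), integral_const_mul,
    ← l2_sq, ← l2_sq]
  nlinarith

theorem l2_const_mul (c : ℝ) (f : α → ℝ) : l2 μ (fun x => c * f x) = |c| * l2 μ f := by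
  unfold l2
  simp only [mul_pow]
  rw [integral_const_mul, Real.sqrt_mul (sq_nonneg c), Real.sqrt_sq_eq_abs]

theorem l2_neg (f : α → ℝ) : l2 μ (fun x => - f x) = l2 μ f := by
  unfold l2; simp

theorem l2_mono (hg : MemLp g 2 μ) (hle : ∀ᵐ x ∂μ, |f x| ≤ |g x|) : l2 μ f ≤ l2 μ g := by
  refine Real.sqrt_le_sqrt ?_
  refine integral_mono_of_nonneg (ae_of_all _ fun x => sq_nonneg _) hg.integrable_sq ?_
  filter_upwards [hle] with x hx
  exact sq_le_sq.2 hx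

theorem l2_congr (hle : ∀ᵐ x ∂μ, f x = g x) : l2 μ f = l2 μ g := by
  unfold l2
  congr 1
  refine integral_congr_ae ?_
  filter_upwards [hle] with x hx
  rw [hx]

theorem l2_restrict_le (hf : MemLp f 2 μ) (A : Set α) : l2 (μ.restrict A) f ≤ l2 μ f := by
  refine Real.sqrt_le_sqrt ?_
  exact setIntegral_le_integral hf.integrable_sq (ae_of_all _ fun x => sq_nonneg _)

theorem l2_split (hf : MemLp f 2 μ) {A : Set α} (hA : MeasurableSet A) :
    l2 μ f ≤ l2 (μ.restrict A) f + l2 (μ.restrict Aᶜ) f := by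
  refine Real.sqrt_le_iff.2 ⟨add_nonneg (l2_nonneg _ _) (l2_nonneg _ _), ?_⟩
  rw [← integral_add_compl hA hf.integrable_sq, ← l2_sq, ← l2_sq]
  nlinarith [mul_nonneg (l2_nonneg (μ.restrict A) f) (l2_nonneg (μ.restrict Aᶜ) f)]

end L2

/-! ### the coupling on one fibre -/

/-- far region of the fibre -/
def Far (X : Pos3) : Set Y2 := {ξ | ‖X‖ / 2 < wi ξ}

theorem measurableSet_Far (X : Pos3) : MeasurableSet (Far X) :=
  measurableSet_lt measurable_const continuous_wi.measurable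

theorem wi_le_exp {a : ℝ} (ha : 0 < a) (ξ : Y2) : wi ξ ≤ a⁻¹ * Real.exp (a * wi ξ) := by
  have h1 := Real.add_one_le_exp (a * wi ξ)
  have h2 : a * wi ξ ≤ Real.exp (a * wi ξ) := by linarith
  rw [inv_mul_eq_div, le_div_iff₀ ha]
  linarith

theorem cpl_fib {a : ℝ} (ha : 0 < a) {X : Pos3} (hX : 0 < ‖X‖) {h R Φ : Y2 → ℝ} {c : ℝ}
    (hdec : ∀ ξ, h ξ = c * Φ ξ + R ξ) (mh : MemLp (fun ξ => Wm X ξ * h ξ) 2 volume)
    (mΦ : MemLp (fun ξ => Wm X ξ * Φ ξ) 2 volume)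
    (mR : MemLp (fun ξ => Real.exp (a * wi ξ) * R ξ) 2 volume) {β1 β2 β3 : ℝ}
    (h1 : l2 volume (fun ξ => Wm X ξ * Φ ξ) ≤ β1)
    (h2 : l2 (volume.restrict (Far X)) (fun ξ => Wm X ξ * Φ ξ) ≤ β2)
    (h3 : l2 (volume.restrict (Far X)) (fun ξ => Wm X ξ * h ξ) ≤ β3) :
    l2 volume (fun ξ => Wm X ξ * h ξ) ≤ |c| * (β1 + β2) +
      8 * a⁻¹ * |X 2| / ‖X‖ ^ 3 * l2 volume (fun ξ => Real.exp (a * wi ξ) * R ξ) + β3 := by
  have hm : ∀ ξ, Wm X ξ * h ξ = c * (Wm X ξ * Φ ξ) + Wm X ξ * R ξ := fun ξ => by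
    rw [hdec]; ring
  have mWR : MemLp (fun ξ => Wm X ξ * R ξ) 2 volume := by
    refine (mh.sub (mΦ.const_mul c)).ae_eq (ae_of_all _ fun ξ => ?_)
    simp only [Pi.sub_apply]
    rw [hm]; ring
  have e1 : l2 volume (fun ξ => Wm X ξ * h ξ) ≤ |c| * β1 + l2 volume (fun ξ => Wm X ξ * R ξ) := by
    simp only [hm]
    refine (l2_add_le (mΦ.const_mul c) mWR).trans ?_
    rw [l2_const_mul]
    have := mul_le_mul_of_nonneg_left h1 (abs_nonneg c)
    linarith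
  have e2 := l2_split mWR (measurableSet_Far X)
  have e3 : l2 (volume.restrict (Far X)) (fun ξ => Wm X ξ * R ξ) ≤ β3 + |c| * β2 := by
    have : ∀ ξ, Wm X ξ * R ξ = Wm X ξ * h ξ + (-c) * (Wm X ξ * Φ ξ) := fun ξ => by
      rw [hm]; ring
    simp only [this]
    refine (l2_add_le (mh.restrict (Far X)) ((mΦ.restrict (Far X)).const_mul (-c))).trans ?_
    rw [l2_const_mul, abs_neg]
    have := mul_le_mul_of_nonneg_left h2 (abs_nonneg c)
    linarith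
  have e4 : l2 (volume.restrict (Far X)ᶜ) (fun ξ => Wm X ξ * R ξ) ≤
      8 * a⁻¹ * |X 2| / ‖X‖ ^ 3 * l2 volume (fun ξ => Real.exp (a * wi ξ) * R ξ) := by
    have hc0 : 0 ≤ 8 * a⁻¹ * |X 2| / ‖X‖ ^ 3 := by positivity
    have h4 : l2 (volume.restrict (Far X)ᶜ) (fun ξ => Wm X ξ * R ξ) ≤
        l2 (volume.restrict (Far X)ᶜ) (fun ξ => (8 * a⁻¹ * |X 2| / ‖X‖ ^ 3) *
          (Real.exp (a * wi ξ) * R ξ)) := by
      refine l2_mono ((mR.restrict (Far X)ᶜ).const_mul _) ?_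
      filter_upwards [ae_restrict_mem (measurableSet_Far X).compl] with ξ hξ
      have hw : wi ξ ≤ ‖X‖ / 2 := not_lt.1 hξ
      have h5 := Mult.Wm_le rfl hX hw
      have h6 := wi_le_exp ha ξ
      rw [abs_mul, abs_mul, abs_of_nonneg hc0, abs_mul, abs_of_pos (Real.exp_pos _),
        ← mul_assoc]
      refine mul_le_mul_of_nonneg_right (h5.trans ?_) (abs_nonneg _)
      calc 8 * |X 2| * wi ξ / ‖X‖ ^ 3 ≤ 8 * |X 2| * (a⁻¹ * Real.exp (a * wi ξ)) / ‖X‖ ^ 3 := by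
            gcongr
        _ = _ := by ring
    rw [l2_const_mul, abs_of_nonneg hc0] at h4
    exact h4.trans (mul_le_mul_of_nonneg_left (l2_restrict_le mR _) hc0)
  have : |c| * (β1 + β2) = |c| * β1 + |c| * β2 := by ring
  linarith

/-! ### far coupling of parity parts -/

theorem rxi_Far (X : Pos3) : rxi ⁻¹' Far X = Far X := by
  ext ξ
  simp only [Far, mem_preimage, mem_ofPred_eq, wi_rxi]

theorem l2_Far_rxi (X : Pos3) (f : Y2 → ℝ) :
    l2 (volume.restrict (Far X)) (fun ξ => f (rxi ξ)) = l2 (volume.restrict (Far X)) f := by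
  unfold l2
  congr 1
  have h := mp_rxi.setIntegral_preimage_emb rxi.toHomeomorph.measurableEmbedding
    (fun ξ => f ξ ^ 2) (Far X)
  rw [← h]
  show _ = ∫ x in rxi ⁻¹' Far X, f (rxi x) ^ 2
  rw [rxi_Far]

theorem one_le_exp_wi {b : ℝ} (hb : 0 ≤ b) (ξ : Y2) : 1 ≤ Real.exp (b * wi ξ) :=
  Real.one_le_exp (mul_nonneg hb (by linarith [two_le_wi ξ]))

/-- far coupling of a parity part on one fibre -/
theorem far_fib {a : ℝ} (ha : 0 < a) {X : Pos3} {y : Y2 → ℝ} {dy : Y2 → Y2} {G : Y2 → ℝ}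
    {dG : Y2 → Y2} (hy : H1 y dy) (hG : H1 G dG) (hGy : ∀ ξ, G ξ = Real.exp (2 * a * wi ξ) * y ξ)
    {b : ℝ}
    (h1 : √(∫ ξ in Far X, (Real.exp (a * wi ξ) * WX X ξ * y ξ) ^ 2) ≤ b)
    (h2 : √(∫ ξ in Far X, (Real.exp (a * wi ξ) * WX (rz X) ξ * y ξ) ^ 2) ≤ b)
    {π : ℝ} (hπ : π ^ 2 = 1) :
    l2 (volume.restrict (Far X)) (fun ξ => WX X ξ * ((y ξ + π * y (rxi ξ)) / 2)) ≤ b ∧
    l2 (volume.restrict (Far X)) (fun ξ => WX (rz X) ξ * ((y ξ + π * y (rxi ξ)) / 2)) ≤ b ∧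
    l2 (volume.restrict (Far X)) (fun ξ => Wm X ξ * ((y ξ + π * y (rxi ξ)) / 2)) ≤ b := by
  have hπ1 : |π| = 1 := by
    have h0 : |π| ^ 2 = 1 := by rw [sq_abs, hπ]
    have h3 := abs_nonneg π
    nlinarith
  have key : ∀ Z : Pos3, √(∫ ξ in Far X, (Real.exp (a * wi ξ) * WX Z ξ * y ξ) ^ 2) ≤ b →
      l2 (volume.restrict (Far X)) (fun ξ => WX Z ξ * y ξ) ≤ b := by
    intro Z hZ
    refine le_trans (l2_mono (g := fun ξ => Real.exp (a * wi ξ) * WX Z ξ * y ξ) ?_ ?_) hZ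
    · have m1 := memLp_WX hG Z
      have m2 : MemLp (fun ξ => Real.exp (a * wi ξ) * WX Z ξ * y ξ) 2 volume := by
        refine m1.of_le ?_ (ae_of_all _ fun ξ => ?_)
        · exact (((Real.continuous_exp.comp (continuous_const.mul
            continuous_wi)).aestronglyMeasurable).mul
            (measurable_WX Z).aestronglyMeasurable).mul hy.memf.1
        · rw [hGy, norm_mul, norm_mul, norm_mul, norm_mul, Real.norm_of_nonneg (Real.exp_pos _).le,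
            Real.norm_of_nonneg (Real.exp_pos _).le]
          have : Real.exp (a * wi ξ) ≤ Real.exp (2 * a * wi ξ) := by
            apply Real.exp_le_exp.2
            have := two_le_wi ξ
            nlinarith
          calc Real.exp (a * wi ξ) * ‖WX Z ξ‖ * ‖y ξ‖
              ≤ Real.exp (2 * a * wi ξ) * ‖WX Z ξ‖ * ‖y ξ‖ := by gcongr
            _ = _ := by ring
      exact m2.restrict _
    · refine ae_of_all _ fun ξ => ?_
      rw [mul_assoc, abs_mul (Real.exp _), abs_of_pos (Real.exp_pos _)]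
      exact le_mul_of_one_le_left (abs_nonneg _) (one_le_exp_wi ha.le ξ)
  have k1 := key X h1
  have k2 := key (rz X) h2
  have hyr : MemLp (fun ξ => y (rxi ξ)) 2 volume := hy.memf.comp_measurePreserving mp_rxi
  have hyr1 : H1 (fun ξ => y (rxi ξ)) (fun ξ => rxi (dy (rxi ξ))) := by
    have := H1.comp_isometry hy rxi 0
    simpa only [add_zero, rxi_symm] using this
  have s1 : l2 (volume.restrict (Far X)) (fun ξ => WX X ξ * y (rxi ξ)) ≤ b := by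
    have := l2_Far_rxi X (fun ξ => WX (rz X) ξ * y ξ)
    have e : ∀ ξ, WX (rz X) (rxi ξ) = WX X ξ := fun ξ => by rw [WX_rxi, ob_rz_rz]
    simp only [e] at this
    rw [this]; exact k2
  have s2 : l2 (volume.restrict (Far X)) (fun ξ => WX (rz X) ξ * y (rxi ξ)) ≤ b := by
    have := l2_Far_rxi X (fun ξ => WX X ξ * y ξ)
    have e : ∀ ξ, WX X (rxi ξ) = WX (rz X) ξ := fun ξ => by rw [WX_rxi]
    simp only [e] at this
    rw [this]; exact k1
  have comb : ∀ Z : Pos3, l2 (volume.restrict (Far X)) (fun ξ => WX Z ξ * y ξ) ≤ b →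
      l2 (volume.restrict (Far X)) (fun ξ => WX Z ξ * y (rxi ξ)) ≤ b →
      l2 (volume.restrict (Far X)) (fun ξ => WX Z ξ * ((y ξ + π * y (rxi ξ)) / 2)) ≤ b := by
    intro Z hZ1 hZ2
    have e : ∀ ξ, WX Z ξ * ((y ξ + π * y (rxi ξ)) / 2) =
        (1 / 2) * (WX Z ξ * y ξ) + (π / 2) * (WX Z ξ * y (rxi ξ)) := fun ξ => by ring
    simp only [e]
    refine (l2_add_le (((memLp_WX hy Z).restrict _).const_mul _)
      (((memLp_WX hyr1 Z).restrict _).const_mul _)).trans ?_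
    rw [l2_const_mul, l2_const_mul]
    have e1 : |π / 2| = 1 / 2 := by rw [abs_div, hπ1, abs_of_pos (by norm_num : (0:ℝ) < 2)]
    have e2 : |(1 : ℝ) / 2| = 1 / 2 := abs_of_pos (by norm_num)
    rw [e1, e2]
    linarith
  have c1 := comb X k1 s1
  have c2 := comb (rz X) k2 s2
  refine ⟨c1, c2, ?_⟩
  have e : ∀ ξ, Wm X ξ * ((y ξ + π * y (rxi ξ)) / 2) =
      (1 / 2) * (WX X ξ * ((y ξ + π * y (rxi ξ)) / 2)) +
      (-(1 / 2)) * (WX (rz X) ξ * ((y ξ + π * y (rxi ξ)) / 2)) := fun ξ => by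
    unfold Wm; ring
  have hh : H1 (fun ξ => (y ξ + π * y (rxi ξ)) / 2)
      (fun ξ => (1 / 2 : ℝ) • (dy ξ + π • rxi (dy (rxi ξ)))) := by
    refine H1.congr (H1.const_mul (H1.add hy (H1.const_mul hyr1 π)) (1 / 2))
      (ae_of_all _ fun ξ => ?_) (ae_of_all _ fun ξ => rfl)
    simp only; ring
  simp only [e]
  refine (l2_add_le (((memLp_WX hh X).restrict _).const_mul _)
      (((memLp_WX hh (rz X)).restrict _).const_mul _)).trans ?_
  rw [l2_const_mul, l2_const_mul]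
  norm_num
  linarith

/-! ### bounds of an ion state -/

/-- plain `L²` bounds of the multipoles of an ion state -/
structure PB (C0 D a K' : ℝ) (Φ : Y2 → ℝ) : Prop where
  me : MemLp (fun ξ => Real.exp (a * wi ξ) * Φ ξ) 2 volume
  mono : ∀ X : Pos3, 1 ≤ ‖X‖ → l2 volume (fun ξ => (WX X ξ - 2 / ‖X‖) * Φ ξ) ≤ K' / ‖X‖ ^ 2
  monoP : ∀ X : Pos3, 1 ≤ ‖X‖ → l2 volume (fun ξ => (Wp X ξ - 2 / ‖X‖) * Φ ξ) ≤ K' / ‖X‖ ^ 2
  odd : ∀ X : Pos3, 1 ≤ ‖X‖ → l2 volume (fun ξ => Wm X ξ * Φ ξ) ≤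
    16 * C0 * D * |X 2| / ‖X‖ ^ 3 + K' * Real.exp (-(a / 2) * ‖X‖)
  oddF : ∀ X : Pos3, 1 ≤ ‖X‖ → l2 (volume.restrict (Far X)) (fun ξ => Wm X ξ * Φ ξ) ≤
    K' * Real.exp (-(a / 2) * ‖X‖)

theorem memLp_exp_of {a : ℝ} (ha : 0 ≤ a) {y : Y2 → ℝ} (hm : AEStronglyMeasurable y volume)
    (h : MemLp (fun ξ => Real.exp (2 * a * wi ξ) * y ξ) 2 volume) :
    MemLp (fun ξ => Real.exp (a * wi ξ) * y ξ) 2 volume := by
  refine h.of_le (((Real.continuous_exp.comp (continuous_const.mul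
    continuous_wi)).aestronglyMeasurable).mul hm) (ae_of_all _ fun ξ => ?_)
  rw [norm_mul, norm_mul, Real.norm_of_nonneg (Real.exp_pos _).le,
    Real.norm_of_nonneg (Real.exp_pos _).le]
  have : Real.exp (a * wi ξ) ≤ Real.exp (2 * a * wi ξ) := by
    apply Real.exp_le_exp.2
    have := two_le_wi ξ
    nlinarith
  gcongr

theorem memLp_of_exp {a : ℝ} (ha : 0 ≤ a) {y : Y2 → ℝ} (hm : AEStronglyMeasurable y volume)
    (h : MemLp (fun ξ => Real.exp (a * wi ξ) * y ξ) 2 volume) : MemLp y 2 volume := by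
  refine h.of_le hm (ae_of_all _ fun ξ => ?_)
  rw [norm_mul, Real.norm_of_nonneg (Real.exp_pos _).le]
  exact le_mul_of_one_le_left (norm_nonneg _) (one_le_exp_wi ha ξ)

/-- dropping the weight -/
theorem l2_drop {a : ℝ} (ha : 0 ≤ a) {μ : Measure Y2} {y : Y2 → ℝ}
    (h : MemLp (fun ξ => Real.exp (a * wi ξ) * y ξ) 2 μ) :
    l2 μ y ≤ l2 μ (fun ξ => Real.exp (a * wi ξ) * y ξ) := by
  refine l2_mono h (ae_of_all _ fun ξ => ?_)
  rw [abs_mul, abs_of_pos (Real.exp_pos _)]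
  exact le_mul_of_one_le_left (abs_nonneg _) (one_le_exp_wi ha ξ)

theorem Far_rz (X : Pos3) : Far (rz X) = Far X := by
  unfold Far; rw [norm_rz]

theorem pb_exists {C0 D K a : ℝ} (hC : 1 ≤ C0) (hD : 1 ≤ D) (ha : 0 < a) (ha1 : a ≤ 1 / 100) :
    ∃ K' : ℝ, 0 < K' ∧ ∀ Φ : Y2 → ℝ, IonW C0 D K a Φ → PB C0 D a K' Φ := by
  obtain ⟨K', hK', hm⟩ := multipole (K := K) hC hD ha ha1
  refine ⟨K', hK', fun Φ hΦ => ?_⟩
  obtain ⟨d4, hd4, -⟩ := hΦ.w4
  have hΦm := hΦ.aesm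
  -- weights
  have hexpm : ∀ b : ℝ, AEStronglyMeasurable (fun ξ : Y2 => Real.exp (b * wi ξ)) volume := fun b =>
    (Real.continuous_exp.comp (continuous_const.mul continuous_wi)).aestronglyMeasurable
  have low : ∀ (T : Y2 → ℝ), AEStronglyMeasurable T volume →
      MemLp (fun ξ => T ξ * (Real.exp (4 * a * wi ξ) * Φ ξ)) 2 volume →
      MemLp (fun ξ => Real.exp (a * wi ξ) * (T ξ * Φ ξ)) 2 volume := by
    intro T hT h
    refine h.of_le ((hexpm a).mul (hT.mul hΦm)) (ae_of_all _ fun ξ => ?_)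
    rw [norm_mul, norm_mul, norm_mul, norm_mul, Real.norm_of_nonneg (Real.exp_pos _).le,
      Real.norm_of_nonneg (Real.exp_pos _).le]
    have : Real.exp (a * wi ξ) ≤ Real.exp (4 * a * wi ξ) := by
      apply Real.exp_le_exp.2
      have := two_le_wi ξ
      nlinarith
    calc Real.exp (a * wi ξ) * (‖T ξ‖ * ‖Φ ξ‖) ≤ Real.exp (4 * a * wi ξ) * (‖T ξ‖ * ‖Φ ξ‖) := by
          gcongr
      _ = _ := by ring
  have mWX : ∀ X : Pos3, MemLp (fun ξ => Real.exp (a * wi ξ) * (WX X ξ * Φ ξ)) 2 volume :=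
    fun X => low _ (measurable_WX X).aestronglyMeasurable (memLp_WX hd4 X)
  have mWm : ∀ X : Pos3, MemLp (fun ξ => Real.exp (a * wi ξ) * (Wm X ξ * Φ ξ)) 2 volume :=
    fun X => low _ (measurable_Wm X).aestronglyMeasurable (memLp_Wm hd4 X)
  have m1 : MemLp (fun ξ => Real.exp (a * wi ξ) * Φ ξ) 2 volume := by
    have := low (fun _ => 1) aestronglyMeasurable_const (by simpa using hd4.memf)
    simpa using this
  have mC : ∀ X : Pos3, MemLp (fun ξ => Real.exp (a * wi ξ) * ((WX X ξ - 2 / ‖X‖) * Φ ξ)) 2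
      volume := fun X => by
    refine ((mWX X).sub (m1.const_mul (2 / ‖X‖))).ae_eq (ae_of_all _ fun ξ => ?_)
    simp only [Pi.sub_apply]; ring
  have eC : ∀ X : Pos3, 1 ≤ ‖X‖ → l2 volume (fun ξ => (WX X ξ - 2 / ‖X‖) * Φ ξ) ≤
      K' / ‖X‖ ^ 2 := by
    intro X hX
    refine (l2_drop ha.le (mC X)).trans (le_of_eq_of_le ?_ (hm Φ Φ hΦ hΦ X hX).1)
    unfold l2
    congr 2; funext ξ; ring
  have mC' : ∀ X : Pos3, MemLp (fun ξ => (WX X ξ - 2 / ‖X‖) * Φ ξ) 2 volume := fun X =>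
    memLp_of_exp ha.le (((measurable_WX X).sub_const _).aestronglyMeasurable.mul hΦm) (mC X)
  have mWX' : ∀ X : Pos3, MemLp (fun ξ => WX X ξ * Φ ξ) 2 volume := fun X =>
    memLp_of_exp ha.le ((measurable_WX X).aestronglyMeasurable.mul hΦm) (mWX X)
  refine ⟨m1, eC, ?_, ?_, ?_⟩
  · intro X hX
    have hX' : 1 ≤ ‖rz X‖ := by rw [norm_rz]; exact hX
    have e : ∀ ξ, (Wp X ξ - 2 / ‖X‖) * Φ ξ = (1 / 2) * ((WX X ξ - 2 / ‖X‖) * Φ ξ) +
        (1 / 2) * ((WX (rz X) ξ - 2 / ‖rz X‖) * Φ ξ) := fun ξ => by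
      rw [norm_rz]; unfold Wp; ring
    have h1 := eC X hX
    have h2 := eC (rz X) hX'
    rw [norm_rz] at h2
    simp only [e]
    refine (l2_add_le ((mC' X).const_mul _) ((mC' (rz X)).const_mul _)).trans ?_
    rw [l2_const_mul, l2_const_mul, norm_rz]
    have : |(1 : ℝ) / 2| = 1 / 2 := abs_of_pos (by norm_num)
    rw [this]
    linarith
  · intro X hX
    refine (l2_drop ha.le (mWm X)).trans (le_of_eq_of_le ?_ (hm Φ Φ hΦ hΦ X hX).2.1)
    unfold l2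
    congr 2; funext ξ; ring
  · intro X hX
    have hX' : 1 ≤ ‖rz X‖ := by rw [norm_rz]; exact hX
    have h0 : ∀ Z : Pos3, 1 ≤ ‖Z‖ → l2 (volume.restrict (Far Z)) (fun ξ => WX Z ξ * Φ ξ) ≤
        K' * Real.exp (-(a / 2) * ‖Z‖) := by
      intro Z hZ
      refine (l2_drop ha.le ((mWX Z).restrict _)).trans (le_of_eq_of_le ?_
        (hm Φ Φ hΦ hΦ Z hZ).2.2.1)
      unfold l2 Far
      congr 2; funext ξ; ring
    have h1 := h0 X hX
    have h2 := h0 (rz X) hX'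
    rw [norm_rz, Far_rz] at h2
    have e : ∀ ξ, Wm X ξ * Φ ξ = (1 / 2) * (WX X ξ * Φ ξ) +
        (-(1 / 2)) * (WX (rz X) ξ * Φ ξ) := fun ξ => by
      unfold Wm; ring
    simp only [e]
    refine (l2_add_le (((mWX' X).restrict _).const_mul _)
      (((mWX' (rz X)).restrict _).const_mul _)).trans ?_
    rw [l2_const_mul, l2_const_mul, abs_neg]
    have : |(1 : ℝ) / 2| = 1 / 2 := abs_of_pos (by norm_num)
    rw [this]
    linarith

/-! ### the coupling for a channel function -/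

theorem Yp_jn (π : ℝ) (Y : Config3 → ℝ) (X : Pos3) (ξ : Y2) :
    Yp π Y (jn p9 X ξ) = (Y (jn p9 X ξ) + π * Y (jn p9 X (rxi ξ))) / 2 := by
  unfold Yp; rw [jn_rxi]

theorem cR_jn (π : ℝ) (Φ : Y2 → ℝ) (Y : Config3 → ℝ) (X : Pos3) (ξ : Y2) :
    cR π Φ Y (jn p9 X ξ) = Yp π Y (jn p9 X ξ) - cF Φ Y X * Φ ξ := by
  unfold cR; rw [pr1_jn, pr2_jn]

/-- weighted slices -/
theorem slice_weight {a : ℝ} {Y : Config3 → ℝ} {d : Config3 → Config3}
    (hw : H1 (fun x => Real.exp (2 * a * (jb (elPos 1 x) + jb (elPos 2 x))) * Y x) d) :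
    ∀ᵐ X : Pos3, H1 (fun ξ => Real.exp (2 * a * wi ξ) * Y (jn p9 X ξ))
      (fun ξ => pr2 p9 (d (jn p9 X ξ))) := by
  filter_upwards [H1.slice_right p9 hw] with X hX
  simp only [elPos_jn_one, elPos_jn_two] at hX
  exact hX

theorem memLp_exp_Yp {a : ℝ} (ha : 0 ≤ a) {π : ℝ} {y : Y2 → ℝ} {G : Y2 → ℝ}
    (hy : MemLp y 2 volume) (hG : MemLp (fun ξ => Real.exp (2 * a * wi ξ) * y ξ) 2 volume) :
    MemLp (fun ξ => Real.exp (a * wi ξ) * ((y ξ + π * y (rxi ξ)) / 2)) 2 volume := by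
  have h1 := memLp_exp_of ha hy.1 hG
  have h2 : MemLp (fun ξ => Real.exp (a * wi ξ) * y (rxi ξ)) 2 volume := by
    have := h1.comp_measurePreserving mp_rxi
    refine this.ae_eq (ae_of_all _ fun ξ => ?_)
    simp only [Function.comp_apply, wi_rxi]
  refine ((h1.const_mul (1 / 2)).add (h2.const_mul (π / 2))).ae_eq (ae_of_all _ fun ξ => ?_)
  simp only [Pi.add_apply]; ring

theorem cpl_chan {D lam E σ a : ℝ} (ha : 0 < a) {Y : Config3 → ℝ} {dY : Config3 → Config3}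
    (h : Chan D lam E σ Y dY)
    (hw : ∃ d, H1 (fun x => Real.exp (2 * a * (jb (elPos 1 x) + jb (elPos 2 x))) * Y x) d)
    {b : Pos3 → ℝ} {R0 : ℝ}
    (hfar : ∀ᵐ X : Pos3, R0 ≤ ‖X‖ →
        √(∫ ξ in {ξ | ‖X‖ / 2 < wi ξ}, (Real.exp (a * wi ξ) * WX X ξ * Y (jn p9 X ξ)) ^ 2) ≤
            b X ∧
        √(∫ ξ in {ξ | ‖X‖ / 2 < wi ξ},
            (Real.exp (a * wi ξ) * WX (rz X) ξ * Y (jn p9 X ξ)) ^ 2) ≤ b X)
    {π : ℝ} (hπ : π ^ 2 = 1) {Φ : Y2 → ℝ} {dΦ : Y2 → Y2} (hΦ : H1 Φ dΦ)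
    (hΦe : MemLp (fun ξ => Real.exp (a * wi ξ) * Φ ξ) 2 volume) {β1 β2 : Pos3 → ℝ}
    (hβ1 : ∀ X : Pos3, 1 ≤ ‖X‖ → l2 volume (fun ξ => Wm X ξ * Φ ξ) ≤ β1 X)
    (hβ2 : ∀ X : Pos3, 1 ≤ ‖X‖ →
      l2 (volume.restrict (Far X)) (fun ξ => Wm X ξ * Φ ξ) ≤ β2 X) :
    ∀ᵐ X : Pos3, 1 ≤ ‖X‖ → R0 ≤ ‖X‖ →
      l2 volume (fun ξ => Wm X ξ * Yp π Y (jn p9 X ξ)) ≤ |cF Φ Y X| * (β1 X + β2 X) +
        8 * a⁻¹ * |X 2| / ‖X‖ ^ 3 * wN a (cR π Φ Y) X + b X := by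
  obtain ⟨d, hd⟩ := hw
  filter_upwards [H1.slice_right p9 h.h1, slice_weight hd, hfar,
    H1.slice_right p9 (H1_Yp h.h1 π)] with X h1 h2 h3 h4
  intro hX1 hX2
  obtain ⟨f1, f2⟩ := h3 hX2
  obtain ⟨-, -, g3⟩ := far_fib ha h1 h2 (fun ξ => rfl) f1 f2 hπ
  have mR : MemLp (fun ξ => Real.exp (a * wi ξ) * cR π Φ Y (jn p9 X ξ)) 2 volume := by
    refine ((memLp_exp_Yp (π := π) (G := fun _ => 0) ha.le h1.memf h2.memf).sub
      (hΦe.const_mul (cF Φ Y X))).ae_eq (ae_of_all _ fun ξ => ?_)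
    simp only [Pi.sub_apply]
    rw [cR_jn, Yp_jn]; ring
  have := cpl_fib ha (by linarith : 0 < ‖X‖) (h := fun ξ => Yp π Y (jn p9 X ξ))
    (R := fun ξ => cR π Φ Y (jn p9 X ξ)) (Φ := Φ) (c := cF Φ Y X)
    (fun ξ => by rw [cR_jn]; ring) (memLp_Wm h4 X) (memLp_Wm hΦ X) mR (hβ1 X hX1) (hβ2 X hX1)
    (by simp only [Yp_jn]; exact g3)
  exact this

end VS
end Crest.Agent.R335
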