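import Crest.Agent.R335.VecFF
import Crest.Agent.R335.VSCpl
import Crest.Agent.R335.BDecay
import Crest.Agent.R335.SyKato
import Crest.Agent.R335.BIface
import Crest.Agent.R335.BFar

/-!
Row 335 (S0521), interacting side: Kato inequality for `s₂` (`vec_s2`) (helper732).
-/

set_option autoImplicit false
set_option linter.unusedVariables false

open MeasureTheory Filter Set Crest.MathPhysics.ThreeBody
open scoped ENNReal Topology ContDiff

noncomputable section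
namespace Crest.Agent.R335
namespace VecF

/-! ### conversion of the tested equation to the form of `kato_gen` -/

theorem EL_conv {f : Config3 → ℝ} {g : Config3 → Config3} (h : H1 f g) {k : Pos3 → ℝ}
    {l : Pos3 → Pos3} {C : ℝ} (hkl : WG univ k l) (hkb : ∀ x, |k x| ≤ C)
    (hH : H1 (fun X => k (pr1 p9 X) * f X)
      (fun X => k (pr1 p9 X) • g X + f X • jn p9 (l (pr1 p9 X)) 0)) :
    ∫ X, inner ℝ (g X) (k (pr1 p9 X) • g X + f X • jn p9 (l (pr1 p9 X)) 0) =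
      (∫ X, inner ℝ (pr1 p9 (g X)) (k (pr1 p9 X) • pr1 p9 (g X) + f X • l (pr1 p9 X))) +
        ∫ x, k x * ∫ y, ‖pr2 p9 (g (jn p9 x y))‖ ^ 2 := by
  have hkm : AEStronglyMeasurable k volume := (WG.aesm hkl).1
  have hkp : AEStronglyMeasurable (fun X : Config3 => k (pr1 p9 X)) volume :=
    hkm.comp_quasiMeasurePreserving (Sy.qmp_pr1 p9)
  have i1 := HS.integrable_inner h.memg hH.memg
  have i0 : Integrable (fun X => ‖pr2 p9 (g X)‖ ^ 2) :=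
    HS.integrable_norm_sq (memLp_pr2 p9 h.memg)
  have i2 : Integrable (fun X => k (pr1 p9 X) * ‖pr2 p9 (g X)‖ ^ 2) :=
    i0.bdd_mul hkp (Eventually.of_forall fun X => hkb _)
  have e1 : ∀ X, (inner ℝ (pr1 p9 (g X)) (k (pr1 p9 X) • pr1 p9 (g X) + f X • l (pr1 p9 X)) : ℝ) =
      inner ℝ (g X) (k (pr1 p9 X) • g X + f X • jn p9 (l (pr1 p9 X)) 0) -
        k (pr1 p9 X) * ‖pr2 p9 (g X)‖ ^ 2 := by
    intro X
    rw [Sy.inner_jn p9 (g X)]
    rw [Sy.pr1_add, Sy.pr1_smul, Sy.pr1_smul, pr1_jn, Sy.pr2_add, Sy.pr2_smul, Sy.pr2_smul, pr2_jn,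
      smul_zero, add_zero, inner_smul_right (pr2 p9 (g X)), real_inner_self_eq_norm_sq]
    ring
  simp_rw [e1]
  rw [integral_sub i1 i2]
  have e2 : ∫ X, k (pr1 p9 X) * ‖pr2 p9 (g X)‖ ^ 2 =
      ∫ x, k x * ∫ y, ‖pr2 p9 (g (jn p9 x y))‖ ^ 2 := by
    rw [integral_jn p9 i2]
    refine integral_congr_ae (ae_of_all _ fun x => ?_)
    simp only [pr1_jn]
    rw [integral_const_mul]
  rw [e2]
  ring

/-! ### ion channels: lower bound -/

theorem spec_low {D lam σ π e gap : ℝ} {Φ : Y2 → ℝ} {dΦ : Y2 → Y2}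
    (h : IonCh D lam σ π e gap Φ dΦ) (hg : 0 ≤ gap) {k : Y2 → ℝ} {dk : Y2 → Y2} (hk : H1 k dk)
    (h1 : ∀ᵐ ξ, k (sxi ξ) = σ * k ξ) (h2 : ∀ᵐ ξ, k (rxi ξ) = π * k ξ) :
    e * (∫ ξ, k ξ ^ 2) ≤ k2 D lam k dk k dk := by
  have h3 := h.spec k dk hk h1 h2
  have h4 : (∫ ξ, Φ ξ * k ξ) ^ 2 ≤ ∫ ξ, k ξ ^ 2 := by
    rcases h.nrm with hn | hn
    · have := HS.cs h.h1.memf hk.memf
      simp only [smul_eq_mul, Real.norm_eq_abs, sq_abs] at this
      rwa [hn, one_mul] at this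
    · simp only [hn, zero_mul, integral_zero]
      have : 0 ≤ ∫ ξ, k ξ ^ 2 := integral_nonneg fun ξ => sq_nonneg _
      simpa using this
  nlinarith [mul_nonneg hg (sub_nonneg.2 h4)]

/-! ### the family of channel functions -/

section
variable {cg C0 D : ℝ} {B : OBD cg C0 D} {K lam : ℝ}

/-- the three channel functions -/
def Y3 (S : Sys B K lam) : Fin 3 → Config3 → ℝ := ![S.YS, S.YT, S.YB]
/-- exchange signs -/
def σ3 : Fin 3 → ℝ := ![1, -1, -1]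
/-- coefficients -/
def c3 : Fin 3 → ℝ := ![√2, 1, 1]

theorem chan3 (S : Sys B K lam) : ∃ dY : Fin 3 → Config3 → Config3,
    ∀ s, Chan D lam S.E (σ3 s) (Y3 S s) (dY s) := by
  obtain ⟨d0, h0⟩ := chan_S S.tb
  obtain ⟨d1, h1⟩ := chan_T S.tb
  obtain ⟨d2, h2⟩ := chan_B S.tb
  refine ⟨![d0, d1, d2], fun s => ?_⟩
  fin_cases s
  · exact h0
  · exact h1
  · exact h2

theorem s2_eq (S : Sys B K lam) (X : Pos3) :
    S.s2 X = √(∑ s, ∫ y, VS.fF (-1) c3 (Y3 S) s (jn p9 X y) ^ 2) := by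
  unfold Sys.s2 Sys.s2sq
  rw [Fin.sum_univ_three]
  unfold VS.fF
  have e0 : ∀ y, (c3 0 * Yp (-1) (Y3 S 0) (jn p9 X y)) ^ 2 = 2 * Yp (-1) S.YS (jn p9 X y) ^ 2 :=
    fun y => by
      have : c3 0 = √2 := rfl
      rw [this, mul_pow, Real.sq_sqrt (by norm_num)]
      rfl
  have e1 : ∀ y, (c3 1 * Yp (-1) (Y3 S 1) (jn p9 X y)) ^ 2 = Yp (-1) S.YT (jn p9 X y) ^ 2 :=
    fun y => by
      have : c3 1 = 1 := rfl
      rw [this, one_mul]
      rfl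
  have e2 : ∀ y, (c3 2 * Yp (-1) (Y3 S 2) (jn p9 X y)) ^ 2 = Yp (-1) S.YB (jn p9 X y) ^ 2 :=
    fun y => by
      have : c3 2 = 1 := rfl
      rw [this, one_mul]
      rfl
  simp_rw [e0, e1, e2]
  rw [integral_const_mul]

/-- lower bound of the fibre energies -/
theorem fib_low (S : Sys B K lam) {dY : Fin 3 → Config3 → Config3}
    (hY : ∀ s, Chan D lam S.E (σ3 s) (Y3 S s) (dY s)) :
    ∀ᵐ X : Pos3, min S.e1 S.eT * HN.q p9 (VS.fF (-1) c3 (Y3 S)) X ≤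
      ∑ s, k2 D lam (fun ξ => VS.fF (-1) c3 (Y3 S) s (jn p9 X ξ))
        (fun ξ => pr2 p9 (VS.gF (-1) c3 dY s (jn p9 X ξ)))
        (fun ξ => VS.fF (-1) c3 (Y3 S) s (jn p9 X ξ))
        (fun ξ => pr2 p9 (VS.gF (-1) c3 dY s (jn p9 X ξ))) := by
  have hcg : 0 ≤ cg / 4 := by linarith [B.cg0]
  filter_upwards [VS.fam_slice hY (-1) c3] with X hX
  unfold HN.q
  rw [Finset.mul_sum]
  refine Finset.sum_le_sum fun s _ => ?_
  have hq : 0 ≤ ∫ y, VS.fF (-1) c3 (Y3 S) s (jn p9 X y) ^ 2 := integral_nonneg fun _ => sq_nonneg _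
  have hs : ∀ ξ, VS.fF (-1) c3 (Y3 S) s (jn p9 X (sxi ξ)) =
      σ3 s * VS.fF (-1) c3 (Y3 S) s (jn p9 X ξ) := fun ξ => by
    have := ((hY s).part (Or.inr rfl) (π := -1)).2.1 (jn p9 X ξ)
    unfold VS.fF
    rw [jn_sxi, this]
    ring
  have hp : ∀ ξ, VS.fF (-1) c3 (Y3 S) s (jn p9 X (rxi ξ)) =
      (-1) * VS.fF (-1) c3 (Y3 S) s (jn p9 X ξ) := fun ξ => by
    unfold VS.fF
    rw [VS.Yp_rxi (by norm_num)]
    ring
  have h0 := hX s
  fin_cases s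
  · refine (mul_le_mul_of_nonneg_right (min_le_left _ _) hq).trans ?_
    exact spec_low S.ch1 hcg h0 (ae_of_all _ hs) (ae_of_all _ hp)
  · refine (mul_le_mul_of_nonneg_right (min_le_right _ _) hq).trans ?_
    exact spec_low S.chT hcg h0 (ae_of_all _ hs) (ae_of_all _ hp)
  · refine (mul_le_mul_of_nonneg_right (min_le_right _ _) hq).trans ?_
    exact spec_low S.chT hcg h0 (ae_of_all _ hs) (ae_of_all _ hp)

end

/-! ### weighted norms -/

theorem wN_memLp {a : ℝ} {Z : Config3 → ℝ}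
    (h : MemLp (fun x => Sy.ew a x * Z x) 2 volume) : MemLp (wN a Z) 2 volume := by
  have hi := HS.integrable_slice p9 h.integrable_sq
  have e : ∀ X : Pos3, ∫ ξ, (Sy.ew a (jn p9 X ξ) * Z (jn p9 X ξ)) ^ 2 = wN a Z X ^ 2 := fun X => by
    unfold wN
    rw [Real.sq_sqrt (integral_nonneg fun _ => sq_nonneg _)]
    simp only [Sy.ew_jn]
  simp only [e] at hi
  have hm : AEStronglyMeasurable (wN a Z) volume := by
    have h1 := hi.1
    have h2 : AEStronglyMeasurable (fun X => √(wN a Z X ^ 2)) volume :=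
      Real.continuous_sqrt.comp_aestronglyMeasurable h1
    refine h2.congr (ae_of_all _ fun X => ?_)
    simp only
    exact Real.sqrt_sq (Real.sqrt_nonneg _)
  exact (memLp_two_iff_integrable_sq hm).2 hi

theorem Pall_memLp {cg C0 D : ℝ} {B : OBD cg C0 D} {K lam : ℝ} (S : Sys B K lam) :
    MemLp S.Pall 2 volume := by
  have ha := (a_pos B).le
  have h1 : B.a ≤ 4 * B.a := by linarith
  obtain ⟨dY, hY⟩ := chan3 S
  have hP : MemLp S.P 2 volume := by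
    obtain ⟨d, hd, -⟩ := S.w0.w4
    have hwΦ : MemLp (fun ξ => Real.exp (B.a * wi ξ) * S.Φ0 ξ) 2 volume := ion_mem S.w0 h1
    obtain ⟨d1, hd1⟩ := S.isW_YS.ew ha h1
    have hF := Sy.cF_H1 (hY 0).h1 S.ch0.h1.memf
    have h2 : MemLp (fun x => Sy.tn p9 (cF S.Φ0 S.YS) (fun ξ => Real.exp (B.a * wi ξ) * S.Φ0 ξ) x)
        2 volume := HS.memLp_tensor p9 hF.memf hwΦ
    refine wN_memLp (((Sy.Yp_H1 1 hd1).memf.sub h2).ae_eq (ae_of_all _ fun x => ?_))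
    simp only [Pi.sub_apply]
    rw [Sy.Yp_ew]
    have := Sy.tn_ew B.a (cF S.Φ0 S.YS) S.Φ0 x
    unfold Sy.wΦ at this
    rw [this]
    unfold cR Sy.tn
    ring
  have hT : ∀ Y : Config3 → ℝ, IsW B.a Y → MemLp (S.PT Y) 2 volume := fun Y hYw => by
    obtain ⟨d1, hd1⟩ := hYw.ew ha h1
    refine wN_memLp (((Sy.Yp_H1 1 hd1).memf).ae_eq (ae_of_all _ fun x => ?_))
    rw [Sy.Yp_ew]
  exact (hP.add (hT _ S.isW_YT)).add (hT _ S.isW_YB)

/-! ### the coupling bound -/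

theorem hw_far {a : ℝ} (ha : 0 ≤ a) {Y : Config3 → ℝ} (h : IsW a Y) :
    ∃ d, H1 (fun x => Real.exp (2 * a * (jb (elPos 1 x) + jb (elPos 2 x))) * Y x) d := by
  obtain ⟨d, hd⟩ := h.ew ha (b := 2 * a) (by linarith)
  refine ⟨d, ?_⟩
  have e : (fun x => Sy.ew (2 * a) x * Y x) =
      fun x => Real.exp (2 * a * (jb (elPos 1 x) + jb (elPos 2 x))) * Y x := by
    funext x
    unfold Sy.ew
    rw [w9_eq]
  rwa [e] at hd

/-- triplet coupling: `Φ = 0` -/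
theorem cpl_T {D lam E σ a : ℝ} (ha : 0 < a) {Y : Config3 → ℝ} {dY : Config3 → Config3}
    (h : Chan D lam E σ Y dY) (hw : IsW a Y) {b : Pos3 → ℝ} {R0 : ℝ}
    (hfar : ∀ᵐ X : Pos3, R0 ≤ ‖X‖ →
        √(∫ ξ in {ξ | ‖X‖ / 2 < wi ξ}, (Real.exp (a * wi ξ) * WX X ξ * Y (jn p9 X ξ)) ^ 2) ≤
            b X ∧
        √(∫ ξ in {ξ | ‖X‖ / 2 < wi ξ},
            (Real.exp (a * wi ξ) * WX (rz X) ξ * Y (jn p9 X ξ)) ^ 2) ≤ b X)
    (h0 : H1 (fun _ : Y2 => (0 : ℝ)) (fun _ => 0)) :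
    ∀ᵐ X : Pos3, 1 ≤ ‖X‖ → R0 ≤ ‖X‖ →
      VS.l2 volume (fun ξ => Wm X ξ * Yp 1 Y (jn p9 X ξ)) ≤
        8 * a⁻¹ * |X 2| / ‖X‖ ^ 3 * wN a (Yp 1 Y) X + b X := by
  have hz : ∀ (X : Pos3) (μ : Measure Y2), VS.l2 μ (fun ξ => Wm X ξ * (fun _ : Y2 => (0 : ℝ)) ξ) ≤
      (fun _ : Pos3 => (0 : ℝ)) X := fun X μ => by
    unfold VS.l2
    simp
  have key := VS.cpl_chan ha h (hw_far ha.le hw) hfar (π := 1) (by norm_num) h0
    (by simp) (β1 := fun _ => 0) (β2 := fun _ => 0) (fun X _ => hz X _) (fun X _ => hz X _)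
  have e1 : cR 1 (fun _ => 0) Y = Yp 1 Y := by
    funext x
    unfold cR
    simp
  filter_upwards [key] with X hX h1 h2
  have h3 := hX h1 h2
  rw [e1] at h3
  simpa using h3

theorem l2_le_sqrt_q {f : Fin 3 → Config3 → ℝ} (X : Pos3) (s : Fin 3) :
    VS.l2 volume (fun ξ => f s (jn p9 X ξ)) ≤ √(HN.q p9 f X) := by
  refine Real.sqrt_le_sqrt ?_
  unfold HN.q
  exact Finset.single_le_sum (f := fun s => ∫ y, f s (jn p9 X y) ^ 2)
    (fun t _ => integral_nonneg fun y => sq_nonneg _) (Finset.mem_univ s)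

section
variable {cg C0 D : ℝ} {B : OBD cg C0 D} {K lam : ℝ}

/-- the coupling of the family -/
theorem cpl_sum (S : Sys B K lam) {dY : Fin 3 → Config3 → Config3}
    (hY : ∀ s, Chan D lam S.E (σ3 s) (Y3 S s) (dY s)) :
    ∀ᵐ X : Pos3, |∑ s, ∫ ξ, Wm X ξ * VS.fF (- -1) c3 (Y3 S) s (jn p9 X ξ) *
        VS.fF (-1) c3 (Y3 S) s (jn p9 X ξ)| ≤
      (3 / 2 * VS.l2 volume (fun ξ => Wm X ξ * Yp 1 S.YS (jn p9 X ξ)) +
        VS.l2 volume (fun ξ => Wm X ξ * Yp 1 S.YT (jn p9 X ξ)) +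
        VS.l2 volume (fun ξ => Wm X ξ * Yp 1 S.YB (jn p9 X ξ))) *
        √(HN.q p9 (VS.fF (-1) c3 (Y3 S)) X) := by
  filter_upwards [VS.fam_slice hY (-1) c3, VS.fam_slice hY (- -1) c3] with X h1 h2
  have hN0 : 0 ≤ √(HN.q p9 (VS.fF (-1) c3 (Y3 S)) X) := Real.sqrt_nonneg _
  have key : ∀ s, |∫ ξ, Wm X ξ * VS.fF (- -1) c3 (Y3 S) s (jn p9 X ξ) *
      VS.fF (-1) c3 (Y3 S) s (jn p9 X ξ)| ≤
      |c3 s| * VS.l2 volume (fun ξ => Wm X ξ * Yp 1 (Y3 S s) (jn p9 X ξ)) *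
        √(HN.q p9 (VS.fF (-1) c3 (Y3 S)) X) := by
    intro s
    refine (VS.l2_cs (VS.memLp_Wm (h2 s) X) (h1 s).memf).trans ?_
    have e : VS.l2 volume (fun ξ => Wm X ξ * VS.fF (- -1) c3 (Y3 S) s (jn p9 X ξ)) =
        |c3 s| * VS.l2 volume (fun ξ => Wm X ξ * Yp 1 (Y3 S s) (jn p9 X ξ)) := by
      rw [← VS.l2_const_mul]
      congr 1
      funext ξ
      unfold VS.fF
      rw [neg_neg]
      ring
    rw [e]
    exact mul_le_mul_of_nonneg_left (l2_le_sqrt_q X s)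
      (mul_nonneg (abs_nonneg _) (VS.l2_nonneg _ _))
  refine (Finset.abs_sum_le_sum_abs _ _).trans ((Finset.sum_le_sum fun s _ => key s).trans ?_)
  rw [Fin.sum_univ_three]
  have a0 : |c3 0| ≤ 3 / 2 := by
    have : c3 0 = √2 := rfl
    rw [this, abs_of_nonneg (Real.sqrt_nonneg _), Real.sqrt_le_left (by norm_num)]
    norm_num
  have a1 : |c3 1| = 1 := by
    have : c3 1 = 1 := rfl
    rw [this, abs_one]
  have a2 : |c3 2| = 1 := by
    have : c3 2 = 1 := rfl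
    rw [this, abs_one]
  rw [a1, a2, one_mul, one_mul, ← add_mul, ← add_mul]
  refine mul_le_mul_of_nonneg_right ?_ hN0
  refine add_le_add (add_le_add ?_ le_rfl) le_rfl
  exact mul_le_mul_of_nonneg_right a0 (VS.l2_nonneg _ _)

/-- half of `cplf / lam` -/
def bF (S : Sys B K lam) (K' : ℝ) (X : Pos3) : ℝ :=
  (64 * C0 * D * |X 2| / ‖X‖ ^ 3 + K' * Real.exp (-(B.a / 2) * ‖X‖)) * |S.F X| +
    K' * |X 2| / ‖X‖ ^ 3 * S.Pall X + K' * Real.exp (-(S.κ + B.a / 4) * ‖X‖)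

theorem cplf_eq (S : Sys B K lam) (K' : ℝ) (X : Pos3) : S.cplf K' X = 2 * lam * bF S K' X := rfl

theorem Pall_nonneg (S : Sys B K lam) (X : Pos3) : 0 ≤ S.Pall X := by
  unfold Sys.Pall Sys.P Sys.PT wN
  positivity

theorem bF_nonneg (S : Sys B K lam) (hCD : 0 ≤ C0 * D) {K' : ℝ} (hK : 0 ≤ K') (X : Pos3) :
    0 ≤ bF S K' X := by
  have := Pall_nonneg S X
  have h1 : 0 ≤ 64 * C0 * D := by nlinarith
  unfold bF
  positivity

theorem abs_z_le {X : Pos3} (hX : 1 ≤ ‖X‖) : |X 2| / ‖X‖ ^ 3 ≤ 1 := by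
  have h1 : |X 2| ≤ ‖X‖ := by
    have := PiLp.norm_apply_le X 2
    rwa [Real.norm_eq_abs] at this
  rw [div_le_one (by positivity)]
  have : ‖X‖ ≤ ‖X‖ ^ 3 := by
    have h2 : 1 ≤ ‖X‖ ^ 2 := one_le_pow₀ hX
    nlinarith
  linarith

theorem bF_le (S : Sys B K lam) (hCD : 0 ≤ C0 * D) {K' : ℝ} (hK : 0 ≤ K') (ha : 0 < B.a)
    (hκ : 0 ≤ S.κ) {X : Pos3} (hX : 1 ≤ ‖X‖) :
    bF S K' X ≤ (64 * (C0 * D) + K') * |S.F X| + K' * S.Pall X + K' := by
  have hP := Pall_nonneg S X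
  have hz := abs_z_le hX
  have hz0 : 0 ≤ |X 2| / ‖X‖ ^ 3 := by positivity
  have hr0 := norm_nonneg X
  have e1 : Real.exp (-(B.a / 2) * ‖X‖) ≤ 1 := by
    apply Real.exp_le_one_iff.2
    have : 0 ≤ (B.a / 2) * ‖X‖ := by positivity
    linarith
  have e2 : Real.exp (-(S.κ + B.a / 4) * ‖X‖) ≤ 1 := by
    apply Real.exp_le_one_iff.2
    have : 0 ≤ (S.κ + B.a / 4) * ‖X‖ := by positivity
    linarith
  unfold bF
  have t1 : 64 * C0 * D * |X 2| / ‖X‖ ^ 3 ≤ 64 * (C0 * D) := by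
    have : 64 * C0 * D * |X 2| / ‖X‖ ^ 3 = 64 * (C0 * D) * (|X 2| / ‖X‖ ^ 3) := by ring
    rw [this]
    exact mul_le_of_le_one_right (by positivity) hz
  have t2 : K' * Real.exp (-(B.a / 2) * ‖X‖) ≤ K' := mul_le_of_le_one_right hK e1
  have t3 : K' * |X 2| / ‖X‖ ^ 3 ≤ K' := by
    have : K' * |X 2| / ‖X‖ ^ 3 = K' * (|X 2| / ‖X‖ ^ 3) := by ring
    rw [this]
    exact mul_le_of_le_one_right hK hz
  have t4 : K' * Real.exp (-(S.κ + B.a / 4) * ‖X‖) ≤ K' := mul_le_of_le_one_right hK e2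
  exact add_le_add (add_le_add (mul_le_mul_of_nonneg_right (add_le_add t1 t2) (abs_nonneg _))
    (mul_le_mul_of_nonneg_right t3 hP)) t4

theorem locInt_of_le_on {U : Set Pos3} (hU : IsOpen U) {f g : Pos3 → ℝ}
    (hf : LocallyIntegrableOn f U volume) (hg : AEStronglyMeasurable g volume)
    (h : ∀ x ∈ U, |g x| ≤ f x) : LocallyIntegrableOn g U volume := by
  rw [locallyIntegrableOn_iff hU.isLocallyClosed]
  intro A hAU hA
  have h1 : IntegrableOn f A volume := hf.integrableOn_compact_subset hAU hA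
  refine h1.mono' hg.restrict ?_
  filter_upwards [ae_restrict_mem hA.measurableSet] with x hx
  exact h x (hAU hx)

theorem isOpen_Ext (R : ℝ) : IsOpen (Ext R) := isOpen_lt continuous_const continuous_norm

theorem F_memLp (S : Sys B K lam) : MemLp S.F 2 volume := by
  obtain ⟨dY, hY⟩ := chan3 S
  exact (Sy.cF_H1 (hY 0).h1 S.ch0.h1.memf).memf

theorem bF_locInt (S : Sys B K lam) (hCD : 0 ≤ C0 * D) {K' : ℝ} (hK : 1 ≤ K') (ha : 0 < B.a)
    (hκ : 0 ≤ S.κ) : LocallyIntegrableOn (bF S K') (Ext K') volume := by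
  have hF := F_memLp S
  have hP := Pall_memLp S
  have hf : LocallyIntegrable (fun X => (64 * (C0 * D) + K') * |S.F X| + K' * S.Pall X + K')
      volume := by
    have h1 : LocallyIntegrable (fun X => (64 * (C0 * D) + K') * |S.F X|) volume :=
      (hF.abs.const_mul _).locallyIntegrable (by norm_num)
    have h2 : LocallyIntegrable (fun X => K' * S.Pall X) volume :=
      (hP.const_mul _).locallyIntegrable (by norm_num)
    exact (h1.add h2).add (locallyIntegrable_const K')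
  refine locInt_of_le_on (isOpen_Ext K') (hf.locallyIntegrableOn _) ?_ fun X hX => ?_
  · have m1 : Measurable fun X : Pos3 => |X 2| := by fun_prop
    have m2 : Measurable fun X : Pos3 => ‖X‖ := measurable_norm
    have m3 : Measurable fun X : Pos3 => 64 * C0 * D * |X 2| / ‖X‖ ^ 3 +
        K' * Real.exp (-(B.a / 2) * ‖X‖) := by fun_prop
    have m4 : Measurable fun X : Pos3 => K' * |X 2| / ‖X‖ ^ 3 := by fun_prop
    have m5 : Measurable fun X : Pos3 => K' * Real.exp (-(S.κ + B.a / 4) * ‖X‖) := by fun_prop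
    exact ((m3.aestronglyMeasurable.mul hF.abs.1).add (m4.aestronglyMeasurable.mul hP.1)).add
      m5.aestronglyMeasurable
  · have hX1 : 1 ≤ ‖X‖ := hK.trans (le_of_lt hX)
    rw [abs_of_nonneg (bF_nonneg S hCD (by linarith) X)]
    exact bF_le S hCD (by linarith) ha hκ hX1

end

theorem vecS_arith {CD ai z r K1 KS KT K' Fa P PT PB L0 L1 L2 ex eS eT eK : ℝ}
    (hCD : 0 ≤ CD) (hai : 0 < ai) (hz : 0 ≤ z) (hr : 0 < r) (hK1 : 0 < K1) (hKS : 0 < KS)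
    (hKT : 0 < KT) (hK' : K' = 1 + 3 * K1 + 12 * ai + 2 * KS + 2 * KT) (hF : 0 ≤ Fa)
    (hP : 0 ≤ P) (hPT : 0 ≤ PT) (hPB : 0 ≤ PB) (hex : 0 ≤ ex) (heS : eS ≤ eK) (heT : eT ≤ eK)
    (heK : 0 ≤ eK)
    (h0 : L0 ≤ Fa * ((16 * CD * z / r ^ 3 + K1 * ex) + K1 * ex) + 8 * ai * z / r ^ 3 * P + KS * eS)
    (h1 : L1 ≤ 8 * ai * z / r ^ 3 * PT + KT * eT) (h2 : L2 ≤ 8 * ai * z / r ^ 3 * PB + KT * eT) :
    3 / 2 * L0 + L1 + L2 ≤ (64 * CD * z / r ^ 3 + K' * ex) * Fa + K' * z / r ^ 3 * (P + PT + PB) +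
      K' * eK := by
  obtain ⟨w, hw⟩ : ∃ w, w = z / r ^ 3 := ⟨_, rfl⟩
  have hw0 : 0 ≤ w := by rw [hw]; positivity
  have e1 : 16 * CD * z / r ^ 3 = 16 * CD * w := by rw [hw]; ring
  have e2 : 8 * ai * z / r ^ 3 = 8 * ai * w := by rw [hw]; ring
  have e3 : 64 * CD * z / r ^ 3 = 64 * CD * w := by rw [hw]; ring
  have e4 : K' * z / r ^ 3 = K' * w := by rw [hw]; ring
  rw [e1, e2] at h0
  rw [e2] at h1 h2
  rw [e3, e4]
  have s1 : KS * eS ≤ KS * eK := mul_le_mul_of_nonneg_left heS hKS.le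
  have s2 : KT * eT ≤ KT * eK := mul_le_mul_of_nonneg_left heT hKT.le
  have d : (64 * CD * w + K' * ex) * Fa + K' * w * (P + PT + PB) + K' * eK -
      (3 / 2 * (Fa * ((16 * CD * w + K1 * ex) + K1 * ex) + 8 * ai * w * P + KS * eK) +
        (8 * ai * w * PT + KT * eK) + (8 * ai * w * PB + KT * eK)) =
      40 * (CD * w * Fa) + (1 + 12 * ai + 2 * KS + 2 * KT) * (ex * Fa) +
      (1 + 3 * K1 + 2 * KS + 2 * KT) * (w * P) +
      (1 + 3 * K1 + 4 * ai + 2 * KS + 2 * KT) * (w * PT) +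
      (1 + 3 * K1 + 4 * ai + 2 * KS + 2 * KT) * (w * PB) +
      (1 + 3 * K1 + 12 * ai + 1 / 2 * KS) * eK := by
    rw [hK']
    ring
  have p : 0 ≤ 40 * (CD * w * Fa) + (1 + 12 * ai + 2 * KS + 2 * KT) * (ex * Fa) +
      (1 + 3 * K1 + 2 * KS + 2 * KT) * (w * P) +
      (1 + 3 * K1 + 4 * ai + 2 * KS + 2 * KT) * (w * PT) +
      (1 + 3 * K1 + 4 * ai + 2 * KS + 2 * KT) * (w * PB) +
      (1 + 3 * K1 + 12 * ai + 1 / 2 * KS) * eK := by positivity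
  linarith

end VecF

set_option maxHeartbeats 2000000 in
open VecF in
/-- `s₂`: `Δ s₂ ≥ (P + q₁) s₂ - cpl` on `r > K'` -/
theorem vec_s2 {cg C0 D : ℝ} (hC : 1 ≤ C0) (hD : 4 ≤ D) (B : OBD cg C0 D) (K : ℝ) :
    ∃ K' l' : ℝ, 1 ≤ K' ∧ 0 < l' ∧ ∀ lam, 0 < lam → lam ≤ l' → ∀ S : Sys B K lam,
      ∃ ds2, H1 S.s2 ds2 ∧ ∀ φ, Test (Ext K') φ → (∀ x, 0 ≤ φ x) →
        (∫ x, inner ℝ (ds2 x) (gr φ x)) + ∫ x, (S.Pot x + S.q1sq) * S.s2 x * φ x ≤
          ∫ x, S.cplf K' x * φ x := by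
  have hD1 : 1 ≤ D := by linarith
  have hCD : 0 ≤ C0 * D := by positivity
  have ha := a_pos B
  have ha1 := a_le B
  obtain ⟨lp, hlp, hlp1, hprm⟩ := VS.prm_exists (by linarith) B K
  obtain ⟨K1, hK1, hpb⟩ := VS.pb_exists (K := K) hC hD1 ha ha1
  obtain ⟨kS, lS, hkS, hlS, hdS⟩ := decay_S hD1 B K
  obtain ⟨kT, lT, hkT, hlT, hdT⟩ := decay_T hD1 B K
  obtain ⟨KS, hKS, hfS⟩ := Crest.Agent.R335.far_coupling (D := D) (a := B.a) (K := kS) hD1 ha ha1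
  obtain ⟨KT, hKT, hfT⟩ := Crest.Agent.R335.far_coupling (D := D) (a := B.a) (K := kT) hD1 ha ha1
  have hai : 0 < B.a⁻¹ := inv_pos.2 ha
  obtain ⟨K', hK'⟩ : ∃ K', K' = 1 + 3 * K1 + 12 * B.a⁻¹ + 2 * KS + 2 * KT := ⟨_, rfl⟩
  have hK'1 : 1 ≤ K' := by rw [hK']; linarith
  refine ⟨K', min lp (min lS lT), hK'1, lt_min hlp (lt_min hlS hlT), ?_⟩
  intro lam hl0 hl S
  have hl1 : lam ≤ lp := hl.trans (min_le_left _ _)
  have hl2 : lam ≤ lS := hl.trans ((min_le_right _ _).trans (min_le_left _ _))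
  have hl3 : lam ≤ lT := hl.trans ((min_le_right _ _).trans (min_le_right _ _))
  have prm := hprm lam hl0 hl1 S
  have hlam1 : lam ≤ 1 := hl1.trans hlp1
  obtain ⟨dY, hY⟩ := chan3 S
  have hY0 : Chan D lam S.E 1 S.YS (dY 0) := hY 0
  have hY1 : Chan D lam S.E (-1) S.YT (dY 1) := hY 1
  have hY2 : Chan D lam S.E (-1) S.YB (dY 2) := hY 2
  have hf := VS.fF_H1 hY (-1) c3
  obtain ⟨m, hm, -⟩ := H1.pnorm p9 hf
  have hs2 : S.s2 = fun X => √(∑ s, ∫ y, VS.fF (-1) c3 (Y3 S) s (jn p9 X y) ^ 2) :=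
    funext (s2_eq S)
  rw [← hs2] at hm
  refine ⟨m, hm, fun φ hφ hφ0 => ?_⟩
  have hE2 := prm.E2
  have hE0 : S.E ≤ 0 := by linarith [prm.E0]
  have hκ0 : 0 ≤ S.κ := by linarith [prm.klow]
  -- the coupling bound
  have pb := hpb S.Φ0 S.w0
  have c0 := VS.cpl_chan ha hY0 (hw_far ha.le S.isW_YS)
    (b := fun X => KS * Real.exp (-(S.κ + 5 * B.a / 16) * ‖X‖))
    (hfS lam S.E 1 S.κ S.YS (dY 0) hl0.le hlam1 hE2 hE0 (by linarith [prm.klow])
      (by linarith [prm.kup]) hY0 (hw_far ha.le S.isW_YS) (hdS lam hl0 hl2 S))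
    (π := 1) (by norm_num) S.ch0.h1 pb.me (β1 := fun X => 16 * C0 * D * |X 2| / ‖X‖ ^ 3 +
      K1 * Real.exp (-(B.a / 2) * ‖X‖)) (β2 := fun X => K1 * Real.exp (-(B.a / 2) * ‖X‖))
    pb.odd pb.oddF
  have c1 := cpl_T ha hY1 S.isW_YT
    (b := fun X => KT * Real.exp (-(S.κT + 5 * B.a / 16) * ‖X‖))
    (hfT lam S.E (-1) S.κT S.YT (dY 1) hl0.le hlam1 hE2 hE0 (by linarith [prm.kTlow])
      (by linarith [prm.kTup]) hY1 (hw_far ha.le S.isW_YT) (hdT lam hl0 hl3 S _ (Or.inl rfl)))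
    S.chZ.h1
  have c2 := cpl_T ha hY2 S.isW_YB
    (b := fun X => KT * Real.exp (-(S.κT + 5 * B.a / 16) * ‖X‖))
    (hfT lam S.E (-1) S.κT S.YB (dY 2) hl0.le hlam1 hE2 hE0 (by linarith [prm.kTlow])
      (by linarith [prm.kTup]) hY2 (hw_far ha.le S.isW_YB) (hdT lam hl0 hl3 S _ (Or.inr rfl)))
    S.chZ.h1
  -- data of `kato_gen`
  obtain ⟨q, hq⟩ : ∃ q : Pos3 → ℝ, q = fun X => (1 / 2) * HN.T2 p9 (VS.gF (-1) c3 dY) X +
    VS.qF D lam S.E (-1) c3 (Y3 S) X := ⟨_, rfl⟩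
  have hqi : Integrable q := by
    rw [hq]
    exact ((HN.T2_integrable p9 fun s => (hf s).memg).const_mul (1 / 2)).add
      (VS.qF_int hY (-1) c3)
  obtain ⟨A, hA⟩ : ∃ A : Pos3 → ℝ, A = fun X => V2 D X + (min S.e1 S.eT - S.E) := ⟨_, rfl⟩
  have hAN : LocallyIntegrableOn (fun x => A x * S.s2 x) (Ext K') volume := by
    have h1 : LocallyIntegrable (fun x => V2 D x * S.s2 x) volume :=
      (V2_memLp D hm).1.locallyIntegrable (by norm_num)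
    have h2 : LocallyIntegrable (fun x => (min S.e1 S.eT - S.E) * S.s2 x) volume :=
      (hm.memf.const_mul _).locallyIntegrable (by norm_num)
    have h3 : (fun x => A x * S.s2 x) = (fun x => V2 D x * S.s2 x) +
        fun x => (min S.e1 S.eT - S.E) * S.s2 x := by
      funext x
      simp only [hA, Pi.add_apply]
      ring
    rw [h3]
    exact (h1.add h2).locallyIntegrableOn _
  have hbi : LocallyIntegrableOn (fun X => lam * bF S K' X) (Ext K') volume :=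
    (bF_locInt S hCD hK'1 ha hκ0).smul lam
  have hqa : ∀ᵐ X : Pos3, X ∈ Ext K' → A X * S.s2 X ^ 2 - (lam * bF S K' X) * S.s2 X ≤ q X := by
    filter_upwards [VS.fam_fibre hY (by norm_num : (-1 : ℝ) ^ 2 = 1) c3, fib_low S hY,
      cpl_sum S hY, c0, c1, c2] with X f1 f2 f3 f4 f5 f6 hX
    have hXK : K' < ‖X‖ := hX
    have hX1 : 1 ≤ ‖X‖ := by linarith
    have hXS : KS ≤ ‖X‖ := by rw [hK'] at hXK; linarith
    have hXT : KT ≤ ‖X‖ := by rw [hK'] at hXK; linarith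
    have g0 := f4 hX1 hXS
    have g1 := f5 hX1 hXT
    have g2 := f6 hX1 hXT
    have hN : √(HN.q p9 (VS.fF (-1) c3 (Y3 S)) X) = S.s2 X := (s2_eq S X).symm
    have hqq : HN.q p9 (VS.fF (-1) c3 (Y3 S)) X = S.s2 X ^ 2 := by
      rw [← hN, Real.sq_sqrt (HN.q_nonneg p9 _ X)]
    rw [hN] at f3
    rw [hqq] at f1 f2
    have hs0 : 0 ≤ S.s2 X := Real.sqrt_nonneg _
    have hr0 : 0 ≤ ‖X‖ := by linarith
    have hbnd := vecS_arith (CD := C0 * D) (ai := B.a⁻¹) (z := |X 2|) (r := ‖X‖) (K1 := K1)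
      (KS := KS) (KT := KT) (K' := K') (Fa := |S.F X|) (P := S.P X) (PT := S.PT S.YT X)
      (PB := S.PT S.YB X) (ex := Real.exp (-(B.a / 2) * ‖X‖))
      (eS := Real.exp (-(S.κ + 5 * B.a / 16) * ‖X‖))
      (eT := Real.exp (-(S.κT + 5 * B.a / 16) * ‖X‖))
      (eK := Real.exp (-(S.κ + B.a / 4) * ‖X‖))
      (L0 := VS.l2 volume (fun ξ => Wm X ξ * Yp 1 S.YS (jn p9 X ξ)))
      (L1 := VS.l2 volume (fun ξ => Wm X ξ * Yp 1 S.YT (jn p9 X ξ)))
      (L2 := VS.l2 volume (fun ξ => Wm X ξ * Yp 1 S.YB (jn p9 X ξ))) hCD hai (abs_nonneg _) (by linarith) hK1 hKS hKT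
      hK' (abs_nonneg _) (Real.sqrt_nonneg _) (Real.sqrt_nonneg _) (Real.sqrt_nonneg _)
      (Real.exp_pos _).le
      (Real.exp_le_exp.2 (mul_le_mul_of_nonneg_right (by linarith) hr0))
      (Real.exp_le_exp.2 (mul_le_mul_of_nonneg_right (by linarith [prm.kkT]) hr0))
      (Real.exp_pos _).le
      (by
        have : 16 * (C0 * D) * |X 2| / ‖X‖ ^ 3 = 16 * C0 * D * |X 2| / ‖X‖ ^ 3 := by ring
        rw [this]
        exact g0) g1 g2
    have hbF : bF S K' X = (64 * (C0 * D) * |X 2| / ‖X‖ ^ 3 +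
        K' * Real.exp (-(B.a / 2) * ‖X‖)) * |S.F X| +
        K' * |X 2| / ‖X‖ ^ 3 * (S.P X + S.PT S.YT X + S.PT S.YB X) +
        K' * Real.exp (-(S.κ + B.a / 4) * ‖X‖) := by
      unfold bF Sys.Pall
      ring
    rw [← hbF] at hbnd
    have hW : 0 ≤ ∑ s, ∫ ξ, Wp X ξ * VS.fF (-1) c3 (Y3 S) s (jn p9 X ξ) ^ 2 :=
      Finset.sum_nonneg fun s _ => integral_nonneg fun ξ =>
        mul_nonneg (VS.Wp_nonneg X ξ) (sq_nonneg _)
    have f3' := (abs_le.1 (f3.trans (mul_le_mul_of_nonneg_right hbnd hs0))).1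
    have f7 : q X = (∑ s, k2 D lam (fun ξ => VS.fF (-1) c3 (Y3 S) s (jn p9 X ξ))
        (fun ξ => pr2 p9 (VS.gF (-1) c3 dY s (jn p9 X ξ)))
        (fun ξ => VS.fF (-1) c3 (Y3 S) s (jn p9 X ξ))
        (fun ξ => pr2 p9 (VS.gF (-1) c3 dY s (jn p9 X ξ)))) + (V2 D X - S.E) * S.s2 X ^ 2 +
        lam * ((∑ s, ∫ ξ, Wp X ξ * VS.fF (-1) c3 (Y3 S) s (jn p9 X ξ) ^ 2) +
          ∑ s, ∫ ξ, Wm X ξ * VS.fF (- -1) c3 (Y3 S) s (jn p9 X ξ) *
            VS.fF (-1) c3 (Y3 S) s (jn p9 X ξ)) := by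
      rw [hq, ← Finset.sum_add_distrib]
      exact f1
    rw [f7, hA]
    simp only
    have u1 := mul_nonneg hl0.le hW
    have u2 := mul_le_mul_of_nonneg_left f3' hl0.le
    nlinarith
  have hEL : ∀ (k : Pos3 → ℝ) (l : Pos3 → Pos3) (C : ℝ),
      WG univ k l → (∀ x, 0 ≤ k x) → (∀ x, k x ≤ C) →
      (∃ K0, IsCompact K0 ∧ K0 ⊆ Ext K' ∧ ∀ x, x ∉ K0 → k x = 0) →
      (∀ s, H1 (fun X => k (pr1 p9 X) * VS.fF (-1) c3 (Y3 S) s X)
        (fun X => k (pr1 p9 X) • VS.gF (-1) c3 dY s X +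
          VS.fF (-1) c3 (Y3 S) s X • jn p9 (l (pr1 p9 X)) 0)) →
      (1 / 2) * (∑ s, ∫ X, inner ℝ (pr1 p9 (VS.gF (-1) c3 dY s X))
          (k (pr1 p9 X) • pr1 p9 (VS.gF (-1) c3 dY s X) +
            VS.fF (-1) c3 (Y3 S) s X • l (pr1 p9 X))) + ∫ x, k x * q x ≤ 0 := by
    intro k l C hkl hk0 hkC _ hH
    have hkb : ∀ x, |k x| ≤ C := fun x => by rw [abs_of_nonneg (hk0 x)]; exact hkC x
    have hkm := (WG.aesm hkl).1
    have e0 := VS.fam_EL hY (by norm_num : (-1 : ℝ) ^ 2 = 1) c3 hkl hkb hH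
    have e1 : ∀ s, _ := fun s => EL_conv (hf s) hkl hkb (hH s)
    simp_rw [e1] at e0
    rw [Finset.sum_add_distrib] at e0
    have i1 : Integrable (fun x => k x * ((1 / 2) * HN.T2 p9 (VS.gF (-1) c3 dY) x)) :=
      ((HN.T2_integrable p9 fun s => (hf s).memg).const_mul (1 / 2)).bdd_mul hkm
        (Eventually.of_forall hkb)
    have i2 : Integrable (fun x => k x * VS.qF D lam S.E (-1) c3 (Y3 S) x) :=
      (VS.qF_int hY (-1) c3).bdd_mul hkm (Eventually.of_forall hkb)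
    have e2 : ∫ x, k x * q x = (1 / 2) * (∑ s, ∫ x, k x *
        ∫ y, ‖pr2 p9 (VS.gF (-1) c3 dY s (jn p9 x y))‖ ^ 2) +
        ∫ x, k x * VS.qF D lam S.E (-1) c3 (Y3 S) x := by
      have e3 : ∀ x, k x * q x = k x * ((1 / 2) * HN.T2 p9 (VS.gF (-1) c3 dY) x) +
          k x * VS.qF D lam S.E (-1) c3 (Y3 S) x := fun x => by
        rw [hq]
        ring
      simp_rw [e3]
      rw [integral_add i1 i2]
      congr 1
      have e4 : ∀ x, k x * ((1 / 2) * HN.T2 p9 (VS.gF (-1) c3 dY) x) =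
          (1 / 2) * ∑ s, k x * ∫ y, ‖pr2 p9 (VS.gF (-1) c3 dY s (jn p9 x y))‖ ^ 2 := fun x => by
        unfold HN.T2
        rw [← Finset.mul_sum]
        ring
      simp_rw [e4]
      rw [integral_const_mul, integral_finsetSum]
      intro s _
      exact (HS.integrable_slice p9 (HS.integrable_norm_sq
        (memLp_pr2 p9 (hf s).memg))).bdd_mul hkm (Eventually.of_forall hkb)
    rw [e2]
    linarith
  have hb0 : ∀ᵐ X : Pos3, X ∈ Ext K' → 0 ≤ lam * bF S K' X :=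
    ae_of_all _ fun X _ => mul_nonneg hl0.le (bF_nonneg S hCD (by linarith) X)
  have key := kato_gen p9 hf (fun x => s2_eq S x) hm (isOpen_Ext K')
    (hqi.locallyIntegrable.locallyIntegrableOn _) hAN hbi hb0 hqa hEL hφ hφ0
  have i1 := integrable_mul_of_loc hAN hφ.continuous hφ.cpt hφ.sub
  have i2 := integrable_mul_of_loc hbi hφ.continuous hφ.cpt hφ.sub
  have e1 : ∫ x, (A x * S.s2 x - lam * bF S K' x) * φ x =
      (∫ x, A x * S.s2 x * φ x) - ∫ x, lam * bF S K' x * φ x := by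
    rw [← integral_sub i1 i2]
    refine integral_congr_ae (ae_of_all _ fun x => ?_)
    simp only
    ring
  have hmin : S.q1sq = 2 * (min S.e1 S.eT - S.e0) := by
    unfold Sys.q1sq
    rw [min_sub_sub_right]
  have e2 : ∫ x, (S.Pot x + S.q1sq) * S.s2 x * φ x = 2 * ∫ x, A x * S.s2 x * φ x := by
    rw [← integral_const_mul]
    refine integral_congr_ae (ae_of_all _ fun x => ?_)
    simp only [hA]
    unfold Sys.Pot
    rw [hmin, prm.ksq]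
    ring
  have e3 : ∫ x, S.cplf K' x * φ x = 2 * ∫ x, lam * bF S K' x * φ x := by
    rw [← integral_const_mul]
    refine integral_congr_ae (ae_of_all _ fun x => ?_)
    simp only [cplf_eq]
    ring
  rw [e1] at key
  rw [e2, e3]
  linarith

end Crest.Agent.R335
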