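import Crest.Agent.R335.VSFam

/-!
Row 335 (S0521), interacting side, module VecS1 (helper892): `vec_s1`.
-/

set_option autoImplicit false
set_option linter.unusedSectionVars false
set_option linter.unusedVariables false

open MeasureTheory Filter Set Crest.MathPhysics.ThreeBody
open scoped ENNReal Topology ContDiff

noncomputable section
namespace Crest.Agent.R335
namespace VS
open Mult

theorem ae_of_cpt {ι : Type*} [Fintype ι] {U : Set (EuclideanSpace ℝ ι)} (hU : IsOpen U)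
    {P : EuclideanSpace ℝ ι → Prop}
    (h : ∀ A, IsCompact A → A ⊆ U → ∀ᵐ x, x ∈ A → P x) : ∀ᵐ x, x ∈ U → P x := by
  rw [ae_iff]
  refine measure_null_of_locally_null _ fun x hx => ?_
  simp only [mem_ofPred_eq, Classical.not_imp] at hx
  obtain ⟨r, hr, hrU⟩ := Metric.isOpen_iff.1 hU x hx.1
  have h1 := h (Metric.closedBall x (r / 2)) (isCompact_closedBall _ _)
    ((Metric.closedBall_subset_ball (by linarith)).trans hrU)
  rw [ae_iff] at h1
  refine ⟨{a | ¬ (a ∈ U → P a)} ∩ Metric.closedBall x (r / 2), ?_, measure_mono_null ?_ h1⟩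
  · exact inter_mem self_mem_nhdsWithin
      (mem_nhdsWithin_of_mem_nhds (Metric.closedBall_mem_nhds x (by linarith)))
  · rintro y ⟨hy1, hy2⟩
    simp only [mem_ofPred_eq, Classical.not_imp] at hy1 ⊢
    exact ⟨hy2, hy1.2⟩

variable {cg C0 D : ℝ} {B : OBD cg C0 D} {K lam : ℝ}

/-- the fibre inequality -/
theorem low_all (S : Sys B K lam) (hp : Prm S) (hlam : 0 < lam) {K1 : ℝ} (hK1 : 0 < K1)
    (hpb : PB C0 D B.a K1 S.Φ0) (hl : lam * (2 + K1) ≤ B.om / 2)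
    {dY : Fin 3 → Config3 → Config3} (hc : ∀ s, Chan D lam S.E (sg s) (YY S s) (dY s)) :
    ∀ᵐ X : Pos3, 1 ≤ ‖X‖ →
      (V2 D X - S.E + S.e0 + lam * w0 S X) * S.s1sq X -
        (2 * K1 ^ 2 / B.om) * (lam ^ 2 / ‖X‖ ^ 4) * S.s1sq X -
        lam * (S.s1 X * ∑ s, l2 volume (fun ξ => Wm X ξ * fF (-1) cc (YY S) s (jn p9 X ξ))) ≤
      (1 / 2) * HN.T2 p9 (gF 1 cc dY) X + qF D lam S.E 1 cc (YY S) X := by
  filter_upwards [fam_fibre hc (π := 1) (by norm_num) cc, ener S hp hc, inter S hK1 hpb,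
    pyth0 S, fam_slice hc 1 cc, fam_slice hc (-1) cc] with X h1 h2 h3 h4 h5 h6
  intro hX
  have h3 := h3 hX
  have hr : 0 < ‖X‖ := by linarith
  rw [h1, q_s1]
  have hG := G2_nonneg S X
  have hw := w0_le S hK1 hpb hX
  have hw0 := w0_nonneg S X
  have hom := hp.om0
  set g := √(∫ ξ, cR 1 S.Φ0 S.YS (jn p9 X ξ) ^ 2) with hg
  have hg0 : 0 ≤ g := Real.sqrt_nonneg _
  have hgG : 2 * g ^ 2 ≤ G2 S X := by
    rw [hg, Real.sq_sqrt (integral_nonneg fun _ => sq_nonneg _)]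
    unfold G2
    have h7 : 0 ≤ ∫ ξ, Yp 1 S.YT (jn p9 X ξ) ^ 2 := integral_nonneg fun _ => sq_nonneg _
    have h8 : 0 ≤ ∫ ξ, Yp 1 S.YB (jn p9 X ξ) ^ 2 := integral_nonneg fun _ => sq_nonneg _
    linarith
  -- cross terms
  have hcross : ∀ s, -(S.s1 X * l2 volume (fun ξ => Wm X ξ * fF (-1) cc (YY S) s (jn p9 X ξ))) ≤
      ∫ ξ, Wm X ξ * fF (-1) cc (YY S) s (jn p9 X ξ) * fF 1 cc (YY S) s (jn p9 X ξ) := by
    intro s
    have e1 := l2_cs (memLp_Wm (h6 s) X) (h5 s).memf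
    have e2 : l2 volume (fun ξ => fF 1 cc (YY S) s (jn p9 X ξ)) ≤ S.s1 X := by
      rw [s1_eq]
      refine Real.sqrt_le_sqrt ?_
      exact Finset.single_le_sum (f := fun s => ∫ ξ, fF 1 cc (YY S) s (jn p9 X ξ) ^ 2)
        (fun s _ => integral_nonneg fun ξ => sq_nonneg _) (Finset.mem_univ s)
    have e3 := e1.trans (mul_le_mul_of_nonneg_left e2 (l2_nonneg _ _))
    have e4 := (abs_le.1 e3).1
    linarith
  have hsum : -(S.s1 X * ∑ s, l2 volume (fun ξ => Wm X ξ * fF (-1) cc (YY S) s (jn p9 X ξ))) ≤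
      ∑ s, ∫ ξ, Wm X ξ * fF (-1) cc (YY S) s (jn p9 X ξ) * fF 1 cc (YY S) s (jn p9 X ξ) := by
    rw [Finset.mul_sum, ← Finset.sum_neg_distrib]
    exact Finset.sum_le_sum fun s _ => hcross s
  rw [Finset.sum_add_distrib]
  -- the quadratic estimate
  set a := lam * (|S.F X| * (K1 / ‖X‖ ^ 2)) with ha
  have hag : 4 * a * g ≤ B.om * g ^ 2 + 4 * a ^ 2 / B.om := by
    have h9 : 0 ≤ (B.om * g - 2 * a) ^ 2 / B.om := by positivity
    have h10 : (B.om * g - 2 * a) ^ 2 / B.om = B.om * g ^ 2 - 4 * a * g + 4 * a ^ 2 / B.om := by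
      field_simp
      ring
    linarith
  have ha2 : 4 * a ^ 2 / B.om ≤ (2 * K1 ^ 2 / B.om) * (lam ^ 2 / ‖X‖ ^ 4) * S.s1sq X := by
    have h11 : 2 * S.F X ^ 2 ≤ S.s1sq X := by rw [h4.2.2.2]; linarith
    have h12 : 4 * a ^ 2 / B.om = (2 * K1 ^ 2 / B.om) * (lam ^ 2 / ‖X‖ ^ 4) * (2 * S.F X ^ 2) := by
      rw [ha, mul_pow, mul_pow, sq_abs]
      field_simp
      ring
    rw [h12]
    exact mul_le_mul_of_nonneg_left h11 (by positivity)
  have hw1 : lam * (w0 S X * G2 S X) ≤ B.om / 2 * G2 S X := by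
    have h13 : lam * w0 S X ≤ B.om / 2 :=
      (mul_le_mul_of_nonneg_left hw hlam.le).trans hl
    rw [← mul_assoc]
    exact mul_le_mul_of_nonneg_right h13 hG
  have h14 := mul_le_mul_of_nonneg_left h3 hlam.le
  have h15 := mul_le_mul_of_nonneg_left hsum hlam.le
  have h16 : lam * (4 * |S.F X| * (K1 / ‖X‖ ^ 2) * g) = 4 * a * g := by rw [ha]; ring
  have h17 : B.om * g ^ 2 ≤ B.om / 2 * G2 S X := by nlinarith
  have h18 : lam * (w0 S X * S.s1sq X - 4 * |S.F X| * (K1 / ‖X‖ ^ 2) * g - w0 S X * G2 S X) =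
      lam * w0 S X * S.s1sq X - 4 * a * g - lam * (w0 S X * G2 S X) := by
    rw [← h16]; ring
  rw [h18] at h14
  linarith

theorem wc_eq (S : Sys B K lam) (X : Pos3) : S.wc X = 2 * lam * w0 S X := rfl

theorem w0_aesm (S : Sys B K lam) : AEStronglyMeasurable (w0 S) volume := by
  have hm : AEStronglyMeasurable (fun q : Pos3 × Y2 => WX q.1 q.2 * S.Φ0 q.2 ^ 2)
      (volume.prod volume) := by
    have h1 : Measurable (fun q : Pos3 × Y2 => WX q.1 q.2) := by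
      unfold WX
      have h2 : ∀ j : Fin 2, Measurable fun q : Pos3 × Y2 => 1 / ‖q.1 - el j q.2‖ := fun j =>
        measurable_const.div ((continuous_fst.sub ((continuous_el j).comp
          continuous_snd)).norm.measurable)
      exact (h2 0).add (h2 1)
    exact h1.aestronglyMeasurable.mul ((S.ch0.h1.memf.1.comp_snd).pow 2)
  exact hm.integral_prod_right'

theorem locInt_coef (S : Sys B K lam) {K1 : ℝ} (hlam : 0 < lam) (hK1 : 0 < K1)
    (hpb : PB C0 D B.a K1 S.Φ0) {U : Set Pos3} (hU : IsOpen U) (hU1 : ∀ x ∈ U, 1 ≤ ‖x‖)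
    {ds : Pos3 → Pos3} (hs : H1 S.s1 ds) :
    LocallyIntegrableOn (fun x => (S.Pot x + S.wc x) * S.s1 x) U volume := by
  have h1 : LocallyIntegrableOn (fun x => S.Pot x * S.s1 x) U volume := by
    have m1 : MemLp (fun x => S.κ ^ 2 * S.s1 x + 2 * (V2 D x * S.s1 x)) 2 volume :=
      (hs.memf.const_mul _).add ((V2_memLp D hs).1.const_mul 2)
    refine ((m1.locallyIntegrable (by norm_num)).locallyIntegrableOn U).congr
      (ae_of_all _ fun x => ?_)
    simp only [Sys.Pot]; ring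
  have h2 : LocallyIntegrableOn (fun x => S.wc x * S.s1 x) U volume := by
    rw [locallyIntegrableOn_iff hU.isLocallyClosed]
    intro A hAU hA
    have h3 : IntegrableOn S.s1 A volume :=
      ((hs.memf.locallyIntegrable (by norm_num)).integrableOn_isCompact hA)
    refine Integrable.bdd_mul (c := 2 * lam * (2 + K1)) h3
      (((w0_aesm S).const_mul (2 * lam)).restrict) ?_
    filter_upwards [ae_restrict_mem hA.measurableSet] with x hx
    have h4 := w0_le S hK1 hpb (hU1 x (hAU hx))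
    have h5 := w0_nonneg S x
    rw [wc_eq, Real.norm_of_nonneg (by positivity)]
    gcongr
  refine (h1.add h2).congr (ae_of_all _ fun x => ?_)
  simp only [Pi.add_apply]; ring

theorem er_le {K' A1 a2 a3 a4 lam r N cpl P1 P2 P3 : ℝ} (hlam : 0 < lam) (hN : 0 ≤ N)
    (p1 : 0 ≤ P1) (p2 : 0 ≤ P2) (p3 : 0 ≤ P3) (hc : cpl ≤ a2 * P1 + a3 * P2 + a4 * P3)
    (h1 : A1 ≤ K') (h2 : 2 * a2 ≤ K') (h3 : 2 * a3 ≤ K') (h4 : 2 * a4 ≤ K') :
    A1 * (lam ^ 2 / r ^ 4) * N + 2 * lam * cpl ≤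
      K' * lam ^ 2 / r ^ 4 * N + K' * lam * (P1 + P2 + P3) := by
  have q1 : A1 * (lam ^ 2 / r ^ 4) * N ≤ K' * lam ^ 2 / r ^ 4 * N := by
    have : K' * lam ^ 2 / r ^ 4 * N = K' * (lam ^ 2 / r ^ 4) * N := by ring
    rw [this]
    have : 0 ≤ lam ^ 2 / r ^ 4 := by positivity
    exact mul_le_mul_of_nonneg_right (mul_le_mul_of_nonneg_right h1 this) hN
  have r1 := mul_le_mul_of_nonneg_right h2 p1
  have r2 := mul_le_mul_of_nonneg_right h3 p2
  have r3 := mul_le_mul_of_nonneg_right h4 p3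
  have r4 : 2 * cpl ≤ K' * (P1 + P2 + P3) := by
    have e : K' * (P1 + P2 + P3) = K' * P1 + K' * P2 + K' * P3 := by ring
    rw [e]; linarith
  have q2 : 2 * lam * cpl ≤ K' * lam * (P1 + P2 + P3) := by
    calc 2 * lam * cpl = lam * (2 * cpl) := by ring
      _ ≤ lam * (K' * (P1 + P2 + P3)) := mul_le_mul_of_nonneg_left r4 hlam.le
      _ = _ := by ring
  linarith

end VS

open VS in
set_option maxHeartbeats 1000000 in
/-- `s₁`: on an open set `U` of the exterior half space where `F` is locally bounded below,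
`Δ s₁ = (P + wc) s₁ + X` with a function `X ≥ - er`, and
`s₁² |∇m|² ≤ (1 - m²) s₁ (X + er)`, `m = F / s₁`. -/
theorem vec_s1 {cg C0 D : ℝ} (hC : 1 ≤ C0) (hD : 4 ≤ D) (B : OBD cg C0 D) (K : ℝ) :
    ∃ K' l' : ℝ, 1 ≤ K' ∧ 0 < l' ∧ ∀ lam, 0 < lam → lam ≤ l' → ∀ S : Sys B K lam,
      ∀ U : Set Pos3, IsOpen U → U ⊆ Hz K' →
      (∀ A, IsCompact A → A ⊆ U → ∃ c : ℝ, 0 < c ∧ ∀ᵐ x, x ∈ A → c ≤ S.F x) →
      ∃ (ds1 dF : Pos3 → Pos3) (Xf : Pos3 → ℝ), H1 S.s1 ds1 ∧ H1 S.Fn dF ∧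
        LocallyIntegrableOn Xf U volume ∧
        (∀ φ, Test U φ →
          (∫ x, inner ℝ (ds1 x) (gr φ x)) + ∫ x, ((S.Pot x + S.wc x) * S.s1 x + Xf x) * φ x
            = 0) ∧
        (∀ᵐ x, x ∈ U → - S.erX K' x ≤ Xf x) ∧
        (∀ᵐ x, x ∈ U → S.Fn x ≤ S.s1 x) ∧
        ∀ᵐ x, x ∈ U → ‖S.s1 x • dF x - S.Fn x • ds1 x‖ ^ 2 ≤
          (S.s1 x ^ 2 - S.Fn x ^ 2) * S.s1 x * (Xf x + S.erX K' x) := by
  have hD1 : 1 ≤ D := by linarith
  obtain ⟨l0, hl0, hl01, hprm⟩ := prm_exists (by linarith) B K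
  have hom : 0 < B.om := sub_pos.2 B.ob.eg_lt
  have ha : 0 < B.a := by unfold OBD.a; positivity
  have ha1 : B.a ≤ 1 / 100 := by
    have h1 : B.om ≤ cg / 8 := B.omle
    have h2 := B.cg1
    unfold OBD.a; linarith
  obtain ⟨K1, hK1, hpb⟩ := pb_exists (K := K) hC hD1 ha ha1
  obtain ⟨Kf, l1, hKf, hl1, hfar⟩ := far_exists hD1 B K
  have hai : 0 < B.a⁻¹ := inv_pos.2 ha
  have hA1 : 0 < 4 * K1 ^ 2 / B.om := by positivity
  have hA2 : 0 < 2 * (48 * C0 * D + 6 * K1) := by positivity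
  refine ⟨1 + Kf + 4 * K1 ^ 2 / B.om + 2 * (48 * C0 * D + 6 * K1) + 32 * B.a⁻¹ + 8 * Kf,
    min l0 (min l1 (B.om / (2 * (2 + K1)))), by linarith, by positivity, ?_⟩
  set K' := 1 + Kf + 4 * K1 ^ 2 / B.om + 2 * (48 * C0 * D + 6 * K1) + 32 * B.a⁻¹ + 8 * Kf with hK'
  intro lam hlam0 hlam S U hU hUH hFlow
  have hla0 : lam ≤ l0 := hlam.trans (min_le_left _ _)
  have hla1 : lam ≤ l1 := hlam.trans ((min_le_right _ _).trans (min_le_left _ _))
  have hla2 : lam ≤ B.om / (2 * (2 + K1)) :=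
    hlam.trans ((min_le_right _ _).trans (min_le_right _ _))
  have hl : lam * (2 + K1) ≤ B.om / 2 := by
    have h1 : 0 < 2 + K1 := by linarith
    calc lam * (2 + K1) ≤ B.om / (2 * (2 + K1)) * (2 + K1) :=
          mul_le_mul_of_nonneg_right hla2 h1.le
      _ = B.om / 2 := by field_simp
  have hp := hprm lam hlam0 hla0 S
  have hP0 := hpb S.Φ0 S.w0
  have hP1 := hpb S.Φ1 S.w1
  have hPT := hpb S.ΦT S.wT
  obtain ⟨dY, hc⟩ := chans S
  have hf := fF_H1 hc 1 cc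
  have hs1 : H1 S.s1 (HN.m p9 (fF 1 cc (YY S)) (gF 1 cc dY)) := by
    rw [s1_eq]; exact HN.H1_sqrt_q p9 hf
  -- positivity of `F` and lower bounds
  have hU1 : ∀ x ∈ U, 1 ≤ ‖x‖ ∧ Kf ≤ ‖x‖ := fun x hx => by
    have h1 := (hUH hx).1
    constructor <;> linarith
  have hFle : ∀ᵐ x : Pos3, S.Fn x ≤ S.s1 x ∧ |S.F x| ≤ S.s1 x := by
    filter_upwards [pyth0 S] with x hx
    have hG := G2_nonneg S x
    constructor
    · refine Real.le_sqrt_of_sq_le ?_
      rw [hx.2.2.2]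
      simp only [Sys.Fn, mul_pow, Real.sq_sqrt (show (0 : ℝ) ≤ 2 by norm_num)]
      linarith
    · refine Real.le_sqrt_of_sq_le ?_
      rw [hx.2.2.2, sq_abs]
      nlinarith [sq_nonneg (S.F x)]
  have hlow : LowB U (fun x => √(HN.q p9 (fF 1 cc (YY S)) x)) := by
    intro A hA hAU
    obtain ⟨c, hc0, hcA⟩ := hFlow A hA hAU
    refine ⟨c, hc0, ?_⟩
    filter_upwards [hcA, hFle] with x h1 h2
    intro hx
    have h3 := congrFun (s1_eq S) x
    show c ≤ √(HN.q p9 (fF 1 cc (YY S)) x)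
    rw [← h3]
    exact ((h1 hx).trans (le_abs_self _)).trans h2.2
  have hpos : ∀ᵐ x, x ∈ U → 0 < S.s1 x := by
    refine ae_of_cpt hU fun A hA hAU => ?_
    obtain ⟨c, hc0, hcA⟩ := hlow A hA hAU
    filter_upwards [hcA] with x h1
    intro hx
    have h3 := congrFun (s1_eq S) x
    rw [h3]
    exact hc0.trans_le (h1 hx)
  -- the function `X`
  set T : Pos3 → ℝ := fun x => ((1 / 2) * (HN.T p9 (gF 1 cc dY) x -
    ‖HN.m p9 (fF 1 cc (YY S)) (gF 1 cc dY) x‖ ^ 2) + (1 / 2) * HN.T2 p9 (gF 1 cc dY) x +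
      qF D lam S.E 1 cc (YY S) x) * (√(HN.q p9 (fF 1 cc (YY S)) x))⁻¹ with hT
  have hTloc : LocallyIntegrableOn T U volume := by
    refine locInt_mul_inv hU ?_ (HN.aesm_sqrt_q p9 fun s => (hf s).memf) hlow
    have i1 := HN.T_integrable p9 fun s => (hf s).memg
    have i2 := HN.T2_integrable p9 fun s => (hf s).memg
    have i3 := HS.integrable_norm_sq hs1.memg
    exact (((i1.sub i3).const_mul _).add (i2.const_mul _)).add (qF_int hc 1 cc)
      |>.locallyIntegrable.locallyIntegrableOn U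
  have hcoef := locInt_coef S hlam0 hK1 hP0 hU (fun x hx => (hU1 x hx).1) hs1
  -- the main pointwise bound
  have hmain : ∀ᵐ x, x ∈ U → HN.T p9 (gF 1 cc dY) x -
      ‖HN.m p9 (fF 1 cc (YY S)) (gF 1 cc dY) x‖ ^ 2 ≤
      S.s1 x * ((2 * T x - (S.Pot x + S.wc x) * S.s1 x) + S.erX K' x) := by
    filter_upwards [hpos, low_all S hp hlam0 hK1 hP0 hl hc,
      cpl_sum S hp hC hD1 hK1 hKf hP1 hPT (hfar lam hlam0 hla1 S) hc] with x h1 h2 h3
    intro hx
    have hN := h1 hx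
    have h4 := h2 (hU1 x hx).1
    have h5 := h3 (hU1 x hx).1 (hU1 x hx).2
    have hr : 0 < ‖x‖ := by have := (hU1 x hx).1; linarith
    have e1 : √(HN.q p9 (fF 1 cc (YY S)) x) = S.s1 x := (congrFun (s1_eq S) x).symm
    have e2 : S.s1 x * (2 * T x) = (HN.T p9 (gF 1 cc dY) x -
        ‖HN.m p9 (fF 1 cc (YY S)) (gF 1 cc dY) x‖ ^ 2) +
        2 * ((1 / 2) * HN.T2 p9 (gF 1 cc dY) x + qF D lam S.E 1 cc (YY S) x) := by
      simp only [hT]
      rw [e1]
      field_simp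
      ring
    have e3 : S.s1sq x = S.s1 x ^ 2 := (Real.sq_sqrt (s1sq_nonneg S x)).symm
    rw [e3] at h4
    have e4 : S.Pot x + S.wc x = 2 * (V2 D x - S.E + S.e0 + lam * w0 S x) := by
      rw [wc_eq]
      unfold Sys.Pot
      rw [hp.ksq]; ring
    set cpl := ∑ s, l2 volume (fun ξ => Wm x ξ * fF (-1) cc (YY S) s (jn p9 x ξ)) with hcpl
    have hN0 : 0 ≤ S.Nall x := by
      have g1 : 0 ≤ S.N x := Real.sqrt_nonneg _
      have g2 : 0 ≤ S.NT S.YT x := Real.sqrt_nonneg _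
      have g3 : 0 ≤ S.NT S.YB x := Real.sqrt_nonneg _
      have : S.Nall x = S.N x + S.NT S.YT x + S.NT S.YB x := rfl
      linarith
    have hs20 : 0 ≤ S.s2 x := Real.sqrt_nonneg _
    have her : 4 * K1 ^ 2 / B.om * (lam ^ 2 / ‖x‖ ^ 4) * S.s1 x + 2 * lam * cpl ≤ S.erX K' x := by
      exact er_le hlam0 hN.le (by positivity) (by positivity) (Real.exp_pos _).le h5
        (by rw [hK']; linarith) (by rw [hK']; linarith) (by rw [hK']; linarith)
        (by rw [hK']; linarith)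
    have e5 : S.s1 x * ((2 * T x - (S.Pot x + S.wc x) * S.s1 x) + S.erX K' x) =
        S.s1 x * (2 * T x) - (S.Pot x + S.wc x) * S.s1 x ^ 2 + S.s1 x * S.erX K' x := by ring
    rw [e5, e2, e4]
    have h6 := mul_le_mul_of_nonneg_left her hN.le
    have h7 : S.s1 x * (4 * K1 ^ 2 / B.om * (lam ^ 2 / ‖x‖ ^ 4) * S.s1 x + 2 * lam * cpl) =
        2 * ((2 * K1 ^ 2 / B.om) * (lam ^ 2 / ‖x‖ ^ 4) * S.s1 x ^ 2 + lam * (S.s1 x * cpl)) := by
      ring
    rw [h7] at h6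
    nlinarith [h4, h6]
  have hTm : ∀ᵐ x, ‖HN.m p9 (fF 1 cc (YY S)) (gF 1 cc dY) x‖ ^ 2 ≤ HN.T p9 (gF 1 cc dY) x :=
    HN.m_norm_le p9 (fun s => (hf s).memf) (fun s => (hf s).memg)
  have hproj := (H1.proj p9 (hf 0) S.ch0.h1.memf).1
  have hFn : (fun x => ∫ y, S.Φ0 y * fF 1 cc (YY S) 0 (jn p9 x y)) =ᵐ[volume] S.Fn := by
    filter_upwards [cF_part (hc 0).h1.memf S.ch0.h1.memf (π := 1) (by norm_num) S.ch0.par] with x hx
    have e : ∀ y, S.Φ0 y * fF 1 cc (YY S) 0 (jn p9 x y) =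
        √2 * (S.Φ0 y * Yp 1 (YY S 0) (jn p9 x y)) := fun y => by
      simp only [fF, cc, Matrix.cons_val_zero]; ring
    simp only [e]
    rw [integral_const_mul, ← hx]
    rfl
  refine ⟨HN.m p9 (fF 1 cc (YY S)) (gF 1 cc dY),
    fun x => ∫ y, S.Φ0 y • pr1 p9 (gF 1 cc dY 0 (jn p9 x y)),
    fun x => 2 * T x - (S.Pot x + S.wc x) * S.s1 x, hs1,
    H1.congr hproj hFn (ae_eq_refl _), ?_, ?_, ?_, ?_, ?_⟩
  · have h1 : LocallyIntegrableOn (fun x => 2 * T x) U volume := hTloc.smul (2 : ℝ)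
    exact h1.sub hcoef
  · intro φ hφ
    have h1 := fam_id hc (π := 1) (by norm_num) cc hU hlow hφ
    have e : ∀ x, ((S.Pot x + S.wc x) * S.s1 x + (2 * T x - (S.Pot x + S.wc x) * S.s1 x)) * φ x =
        2 * (T x * φ x) := fun x => by ring
    simp only [e]
    rw [integral_const_mul]
    linarith
  · filter_upwards [hmain, hTm, hpos] with x h1 h2 h3
    intro hx
    have h4 := h1 hx
    have h5 : 0 ≤ S.s1 x * ((2 * T x - (S.Pot x + S.wc x) * S.s1 x) + S.erX K' x) := by linarith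
    have h6 := nonneg_of_mul_nonneg_right h5 (h3 hx)
    linarith
  · filter_upwards [hFle] with x h1
    intro _
    exact h1.1
  · filter_upwards [hmain, hTm, hpos, hFn, hFle, cs_proj p9 hf 0 S.ch0.h1.memf S.n0,
      pyth0 S] with x h1 h2 h3 h4 h5 h6 h7
    intro hx
    have e1 : √(HN.q p9 (fF 1 cc (YY S)) x) = S.s1 x := (congrFun (s1_eq S) x).symm
    have e3 : HN.q p9 (fF 1 cc (YY S)) x = S.s1 x ^ 2 := by
      rw [q_s1]; exact (Real.sq_sqrt (s1sq_nonneg S x)).symm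
    have h8 := h6 (by rw [e1]; exact h3 hx)
    rw [e1, e3, h4] at h8
    refine h8.trans ?_
    have h9 : 0 ≤ S.s1 x ^ 2 - S.Fn x ^ 2 := by
      have h10 : S.s1 x ^ 2 = S.s1sq x := Real.sq_sqrt (s1sq_nonneg S x)
      rw [h10, h7.2.2.2]
      have : S.Fn x ^ 2 = 2 * S.F x ^ 2 := by
        unfold Sys.Fn
        rw [mul_pow, Real.sq_sqrt (show (0 : ℝ) ≤ 2 by norm_num)]
      rw [this]
      have := G2_nonneg S x
      linarith
    have h10 := mul_le_mul_of_nonneg_left (h1 hx) h9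
    calc _ ≤ _ := h10
      _ = _ := by ring

end Crest.Agent.R335
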