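import Crest.Agent.R335.CO2
import Crest.Agent.R335.CO4
import Crest.Agent.R335.CO5
import Crest.Agent.R335.VecFS
import Crest.Agent.R335.VecFF
import Crest.Agent.R335.VecS1
import Crest.Agent.R335.KPair
import Crest.Agent.R335.TPartC
import Crest.Agent.R335.TBGlue
import Crest.Agent.R335.CIface
import Crest.Agent.R335.TOut
import Crest.Agent.R335.BRScal

/-!
Row 335 (S0521), TOP: **Part B ⇒ COut** (= `CI.out_of_sys`) and the theorem `T_out` (helper783).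
-/

set_option autoImplicit false

open MeasureTheory Filter Set Crest.MathPhysics.ThreeBody
open scoped ENNReal Topology ContDiff

noncomputable section
namespace Crest.Agent.R335

theorem out_of_sys {cg C0 : ℝ} (hcg : 0 < cg) (hC : 1 ≤ C0) :
    ∃ P0 D0 : ℝ, 1 ≤ P0 ∧ 4 ≤ D0 ∧ ∀ D : ℝ, D0 ≤ D → ∀ (B : OBD cg C0 D) (K : ℝ),
      ∃ K1 Ra : ℝ, 1 ≤ K1 ∧ ∀ R1 : ℝ, Ra ≤ R1 → ∃ K2 l' : ℝ, 1 ≤ K2 ∧ 0 < l' ∧
        ∀ lam, 0 < lam → lam ≤ l' → ∀ S : Sys B K lam,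
          ∃ (s s1 s2 F w0 X sig : Pos3 → ℝ) (gs gs1 gs2 gF : Pos3 → Pos3),
            (∀ᵐ x, s x ^ 2 = S.rho x) ∧
            COut B (P0 * D ^ 20) K1 K2 R1 lam S.κ S.κS S.κT s s1 s2 F w0 X sig gs gs1 gs2 gF := by
  obtain ⟨P0, D1, hP0, hD1, hscal⟩ := Crest.Agent.R335.scal hcg hC
  obtain ⟨D2, hD2, hmass⟩ := mass hcg hC
  set Q0 : ℝ := P0 + 17 * C0 with hQ0
  refine ⟨4 * Q0, max D1 D2, by linarith, le_max_of_le_left hD1, fun D hD B K => ?_⟩
  have hDD : 4 ≤ D := hD1.trans ((le_max_left _ _).trans hD)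
  have hD20 : (1 : ℝ) ≤ D ^ 20 := one_le_pow₀ (by linarith)
  obtain ⟨Ra, hRa⟩ := hscal D ((le_max_left _ _).trans hD) B K
  obtain ⟨Km, lm, hKm, hlm, hmass⟩ := hmass D ((le_max_right _ _).trans hD) B K
  obtain ⟨Kn, ln, hKn, hln, hnum⟩ := numbers hC hDD B K
  obtain ⟨Kc, lc, hKc, hlc, hclose⟩ := close hC hDD B K
  obtain ⟨Ke, le', hKe, hle, hen⟩ := energy hC hDD B K
  obtain ⟨Kw, lw, hKw, hlw, hwc⟩ := wc_bd hC hDD B K
  obtain ⟨Kv2, lv2, hKv2, hlv2, hv2⟩ := vec_s2 hC hDD B K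
  obtain ⟨KvF, lvF, hKvF, hlvF, hvF⟩ := vec_F hC hDD B K
  obtain ⟨Kv1, lv1, hKv1, hlv1, hv1⟩ := vec_s1 hC hDD B K
  set K1 : ℝ := max Kv2 (max KvF Kv1) with hK1
  have k1 : Kv2 ≤ K1 := le_max_left _ _
  have k2 : KvF ≤ K1 := (le_max_left _ _).trans (le_max_right _ _)
  have k3 : Kv1 ≤ K1 := (le_max_right _ _).trans (le_max_right _ _)
  refine ⟨K1, max Ra (max K1 (D + 100)), hKv2.trans k1, fun R1 hR1 => ?_⟩
  have r1 : Ra ≤ R1 := (le_max_left _ _).trans hR1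
  have r2 : K1 ≤ R1 := (le_max_left _ _).trans ((le_max_right _ _).trans hR1)
  have r3 : D + 100 ≤ R1 := (le_max_right _ _).trans ((le_max_right _ _).trans hR1)
  obtain ⟨K2', l2, hK2', hl2, hsc⟩ := hRa R1 r1
  obtain ⟨c0, hc0, hc0g⟩ := TG.exists_low B.ob.cg B.ob.g_pos (R1 + 1)
  have hom : 0 < B.om := by
    have := B.ob.eg_lt
    unfold OBD.om; linarith
  set K2 : ℝ := Kn + Kc + Km + Ke + KvF * (1 + 3 * K2') + Kv1 * (1 + 3 * K2') + 2 * K2' ^ 2
    with hK2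
  have p1 : 0 ≤ KvF * (1 + 3 * K2') := by positivity
  have p2 : 0 ≤ Kv1 * (1 + 3 * K2') := by positivity
  have p3 : 0 ≤ 2 * K2' ^ 2 := by positivity
  set L : ℝ := min (min (min lm ln) (min lc le')) (min (min (min lw lv2) (min lvF lv1)) l2)
    with hL
  have hL0 : 0 < L := by
    refine lt_min (lt_min (lt_min hlm hln) (lt_min hlc hle))
      (lt_min (lt_min (lt_min hlw hlv2) (lt_min hlvF hlv1)) hl2)
  set M : ℝ := min (1 / 20) (min (1 / (3 * Kv2 * K2')) (min (B.om / (4 * Kw)) (c0 / (4 * Kc))))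
    with hM
  have hM0 : 0 < M := by
    refine lt_min (by norm_num) (lt_min (by positivity) (lt_min (by positivity) (by positivity)))
  refine ⟨K2, min L M, by linarith, lt_min hL0 hM0, fun lam hl hle' S => ?_⟩
  have hLl : lam ≤ L := hle'.trans (min_le_left _ _)
  have hMl : lam ≤ M := hle'.trans (min_le_right _ _)
  have a1 : lam ≤ min (min lm ln) (min lc le') := hLl.trans (min_le_left _ _)
  have a2 : lam ≤ min (min (min lw lv2) (min lvF lv1)) l2 := hLl.trans (min_le_right _ _)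
  have a3 : lam ≤ min (min lw lv2) (min lvF lv1) := a2.trans (min_le_left _ _)
  have b1 : lam ≤ lm := a1.trans ((min_le_left _ _).trans (min_le_left _ _))
  have b2 : lam ≤ ln := a1.trans ((min_le_left _ _).trans (min_le_right _ _))
  have b3 : lam ≤ lc := a1.trans ((min_le_right _ _).trans (min_le_left _ _))
  have b4 : lam ≤ le' := a1.trans ((min_le_right _ _).trans (min_le_right _ _))
  have b5 : lam ≤ lw := a3.trans ((min_le_left _ _).trans (min_le_left _ _))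
  have b6 : lam ≤ lv2 := a3.trans ((min_le_left _ _).trans (min_le_right _ _))
  have b7 : lam ≤ lvF := a3.trans ((min_le_right _ _).trans (min_le_left _ _))
  have b8 : lam ≤ lv1 := a3.trans ((min_le_right _ _).trans (min_le_right _ _))
  have b9 : lam ≤ l2 := a2.trans (min_le_right _ _)
  have m1 : lam ≤ 1 / 20 := hMl.trans (min_le_left _ _)
  have m2 : lam ≤ 1 / (3 * Kv2 * K2') :=
    hMl.trans ((min_le_right _ _).trans (min_le_left _ _))
  have m3 : lam ≤ B.om / (4 * Kw) :=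
    hMl.trans ((min_le_right _ _).trans ((min_le_right _ _).trans (min_le_left _ _)))
  have m4 : lam ≤ c0 / (4 * Kc) :=
    hMl.trans ((min_le_right _ _).trans ((min_le_right _ _).trans (min_le_right _ _)))
  rw [le_div_iff₀ (by positivity)] at m2 m3 m4
  have hPD : P0 * D ^ 20 ≤ Q0 * D ^ 20 := mul_le_mul_of_nonneg_right (by linarith) (by linarith)
  -- enlarge `P`
  have hscP : ∀ᵐ x, x ∈ UpExt R1 → BO.Scal S (Q0 * D ^ 20) K2' x := by
    filter_upwards [hsc lam hl b9 S] with x hx hxU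
    exact TG.Scal.mono (hx hxU) (by positivity) hPD (by linarith) hl (by linarith [hxU.1])
  have h64 : 64 * C0 * D + 1 ≤ 4 * (Q0 * D ^ 20) := by
    have e1 : D ≤ D ^ 20 := le_self_pow₀ (by linarith) (by norm_num)
    have e2 : 64 * C0 * D ≤ 64 * C0 * D ^ 20 := mul_le_mul_of_nonneg_left e1 (by linarith)
    have e3 : (1 : ℝ) ≤ C0 * D ^ 20 := by nlinarith
    have e4 : 0 ≤ P0 * D ^ 20 := by positivity
    rw [hQ0]
    nlinarith
  have hres := TG.cout_of (P := Q0 * D ^ 20) (K1 := K1) (K2 := K2) (K2' := K2') (R1 := R1)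
    (c0 := c0) hC hDD S hl m1 (hnum lam hl b2 S) (hclose lam hl b3 S) (hmass lam hl b1 S)
    (hen lam hl b4 S) (hwc lam hl b5 S).1 (hwc lam hl b5 S).2 (hv2 lam hl b6 S)
    (hvF lam hl b7 S) (hv1 lam hl b8 S) hscP
    (by nlinarith) h64 hK2' hKv2 hKvF hKv1
    (hKv2.trans k1) k1 k2 k3 r2 r3 (by linarith) (by linarith) (by linarith) (by linarith)
    (by linarith) (by linarith) (by linarith)
    (by nlinarith) (by nlinarith) hc0g (by nlinarith) (by linarith)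
  obtain ⟨s, s1, s2, F, w0, X, sig, gs, gs1, gs2, gF, h1, h2⟩ := hres
  refine ⟨s, s1, s2, F, w0, X, sig, gs, gs1, gs2, gF, h1, ?_⟩
  have e : 4 * Q0 * D ^ 20 = 4 * (Q0 * D ^ 20) := by ring
  rw [e]
  exact h2

/-- the joint output of parts B and C (`TI.out`) -/
theorem T_out {cg C0 : ℝ} (hcg : 0 < cg) (hC : 1 ≤ C0) : ∃ D₀ : ℝ, ∀ D : ℝ, D₀ ≤ D →
    ∀ (B : OBD cg C0 D) (K : ℝ), ∃ l' : ℝ, 0 < l' ∧ ∀ lam, 0 < lam → lam ≤ l' →
      ∀ S : Sys B K lam, ∃ s gs κ, Out S s gs κ := by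
  obtain ⟨P0, D1, hP0, hD1, hB⟩ := out_of_sys hcg hC
  obtain ⟨D2, hD2, hCc⟩ := partC (P0 := P0) hcg hC hP0
  refine ⟨max D1 D2, fun D hD B K => ?_⟩
  obtain ⟨K1, Ra, hK1, hB⟩ := hB D ((le_max_left _ _).trans hD) B K
  obtain ⟨R0, hCc⟩ := hCc D ((le_max_right _ _).trans hD) B K1
  obtain ⟨K2, l1, hK2, hl1, hB⟩ := hB (max Ra R0) (le_max_left _ _)
  obtain ⟨l2, hl2, hCc⟩ := hCc (max Ra R0) (le_max_right _ _) K2
  refine ⟨min l1 l2, lt_min hl1 hl2, fun lam hl hle S => ?_⟩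
  obtain ⟨s, s1, s2, F, w0, X, sig, gs, gs1, gs2, gF, hr, hc⟩ :=
    hB lam hl (hle.trans (min_le_left _ _)) S
  have hp := hCc lam hl (hle.trans (min_le_right _ _)) S.κ S.κS S.κT s s1 s2 F w0 X sig gs gs1
    gs2 gF hc
  obtain ⟨U, gU, w, gw, om, hpair⟩ := pair_exists hc.amp hc.norm3
  have h0 := hp U w gU gw om hpair
  exact ⟨s, gs, S.κ,
    { amp := hc.amp
      rho := hr
      κ_pos := h0.2.2.1
      kato := h0.2.2.2.1
      low := h0.2.2.2.2
      small := fun U gU w gw om h => (hp U w gU gw om h).2.1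
      poin := fun U gU w gw om h => (hp U w gU gw om h).1 }⟩

end Crest.Agent.R335
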