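import Crest.Agent.R335.TOutSys
import Crest.Agent.R335.BSysEx

/-!
Row 335 (S0521), TOP: final assembly (helper783).
-/

set_option autoImplicit false

open MeasureTheory Filter Set Crest.MathPhysics.ThreeBody
open scoped ENNReal Topology ContDiff

noncomputable section
namespace Crest.Agent.R335

/-- **scaled theorem** -/
theorem scaled : ∃ D₀ : ℝ, ∀ D : ℝ, D₀ ≤ D → ∃ l' : ℝ, 0 < l' ∧ ∀ lam : ℝ, 0 < lam →
    lam ≤ l' → ∃ Ψ : Wave3, IsGroundState (V9 D lam) Ψ ∧ ¬ HasEnsembleRep Ψ := by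
  obtain ⟨cg, C0, D₀, hcg, hC, -, hB⟩ := Crest.Agent.R335.sys_exists
  obtain ⟨D₁, hout⟩ := T_out hcg hC
  refine ⟨max D₀ D₁, fun D hD => ?_⟩
  obtain ⟨B, K, l', -, hl', hS⟩ := hB D ((le_max_left _ _).trans hD)
  obtain ⟨l'', hl'', hout⟩ := hout D ((le_max_right _ _).trans hD) B K
  refine ⟨min l' l'', lt_min hl' hl'', fun lam hl hle => ?_⟩
  obtain ⟨S, hmin⟩ := hS lam hl (hle.trans (min_le_left _ _))
  obtain ⟨s, gs, κ, ho⟩ := hout lam hl (hle.trans (min_le_right _ _)) S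
  have hden : ∀ A : Set Pos3, MeasurableSet A →
      densityOn (waveOf S.ψ) A = ∫⁻ x in A, ENNReal.ofReal (s x ^ 2) :=
    fun A hA => Sys.density S ho.rho hA
  obtain ⟨U, gU, w, gw, om, hp⟩ := pair_exists ho.amp (T_mass S.tb ho.amp hden)
  exact ⟨waveOf S.ψ, ground_of_three S.tb hmin, not_rep' ho.amp hp
    (ho.poin U gU w gw om hp) ho.κ_pos ho.kato ho.low (ho.small U gU w gw om hp) hden⟩

/-- the frozen statement S0521 -/
theorem top : ∃ D₀ : ℝ, ∀ D : ℝ, D₀ ≤ D → ∃ Z₀ : ℕ, ∀ Z : ℕ, Z₀ ≤ Z →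
      ∃ Ψ : Wave3, IsGroundState (coulombPotential Z (EuclideanSpace.single 2 (D / Z))
          (EuclideanSpace.single 2 (-(D / Z)))) Ψ ∧ ¬ HasEnsembleRep Ψ :=
  result_of_scaled scaled

end Crest.Agent.R335
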