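import Mathlib

/-!
Row 335 (S0521), THREE-BODY BLOCK (helper91): the number inequality
`2 A_g⁰ + A_g² ≤ n + 2 ⟨u g g, F⟩² + 2 A_3⁰` for functions on `α × (α × α)` antisymmetric in the
first two variables.
-/

set_option autoImplicit false
set_option linter.unusedSectionVars false
set_option linter.unusedVariables false

open MeasureTheory Filter Set
open scoped ENNReal Topology

noncomputable section
namespace Crest.Agent.R335.ThA

variable {α β γ : Type*} [MeasurableSpace α] [MeasurableSpace β] [MeasurableSpace γ]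
  {μ : Measure α} {ν : Measure β} {ρ : Measure γ} [SFinite μ] [SFinite ν] [SFinite ρ]

/-- pairing with a function of the first variable -/
def pL (μ : Measure α) (g : α → ℝ) (F : α × β → ℝ) (b : β) : ℝ := ∫ a, g a * F (a, b) ∂μ

/-- tensor product -/
def tn (g : α → ℝ) (B : β → ℝ) (z : α × β) : ℝ := g z.1 * B z.2

theorem tn_memLp {g : α → ℝ} {B : β → ℝ} (hg : MemLp g 2 μ) (hB : MemLp B 2 ν) :
    MemLp (tn g B) 2 (μ.prod ν) := by
  have hm : AEStronglyMeasurable (fun z : α × β => g z.1 * B z.2) (μ.prod ν) :=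
    hg.1.comp_fst.mul hB.1.comp_snd
  show MemLp (fun z : α × β => g z.1 * B z.2) 2 (μ.prod ν)
  rw [memLp_two_iff_integrable_sq hm]
  have := hg.integrable_sq.mul_prod hB.integrable_sq
  refine this.congr (Eventually.of_forall fun z => ?_)
  simp only [mul_pow]

theorem cs {α : Type*} [MeasurableSpace α] {μ : Measure α} {a b : α → ℝ}
    (ha : MemLp a 2 μ) (hb : MemLp b 2 μ) :
    (∫ x, a x * b x ∂μ) ^ 2 ≤ (∫ x, a x ^ 2 ∂μ) * ∫ x, b x ^ 2 ∂μ := by
  have ia := ha.integrable_sq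
  have ib := hb.integrable_sq
  have iab : Integrable (fun x => a x * b x) μ := ha.integrable_mul hb
  have key : ∀ t : ℝ, 0 ≤ (∫ x, a x ^ 2 ∂μ) * (t * t) + (2 * ∫ x, a x * b x ∂μ) * t +
      ∫ x, b x ^ 2 ∂μ := by
    intro t
    have h0 : 0 ≤ ∫ x, (t * a x + b x) ^ 2 ∂μ := integral_nonneg fun x => sq_nonneg _
    have e : ∫ x, (t * a x + b x) ^ 2 ∂μ = (∫ x, a x ^ 2 ∂μ) * (t * t) +
        (2 * ∫ x, a x * b x ∂μ) * t + ∫ x, b x ^ 2 ∂μ := by
      have i1 : Integrable (fun x => (t * t) * a x ^ 2) μ := ia.const_mul _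
      have i2 : Integrable (fun x => (2 * t) * (a x * b x)) μ := iab.const_mul _
      have : ∫ x, (t * a x + b x) ^ 2 ∂μ =
          ∫ x, ((t * t) * a x ^ 2 + (2 * t) * (a x * b x) + b x ^ 2) ∂μ :=
        integral_congr_ae (Eventually.of_forall fun x => by ring)
      have i12 : Integrable (fun x => (t * t) * a x ^ 2 + (2 * t) * (a x * b x)) μ := i1.add i2
      rw [this, integral_add i12 ib, integral_add i1 i2, integral_const_mul,
        integral_const_mul]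
      ring
    rw [e] at h0
    exact h0
  have := discrim_le_zero key
  unfold discrim at this
  nlinarith

/-- slices of `L²` functions -/
theorem slice {F : α × β → ℝ} (hF : MemLp F 2 (μ.prod ν)) :
    ∀ᵐ b ∂ν, MemLp (fun a => F (a, b)) 2 μ := by
  have h1 := hF.integrable_sq.prod_left_ae
  have h2 : ∀ᵐ b ∂ν, AEStronglyMeasurable (fun a => F (a, b)) μ := hF.1.prodMk_right
  filter_upwards [h1, h2] with b hb1 hb2
  exact (memLp_two_iff_integrable_sq hb2).2 hb1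

theorem pL_memLp {g : α → ℝ} {F : α × β → ℝ} (hg : MemLp g 2 μ) (hF : MemLp F 2 (μ.prod ν)) :
    MemLp (pL μ g F) 2 ν := by
  have hm : AEStronglyMeasurable (pL μ g F) ν := by
    have h1 : AEStronglyMeasurable (fun z : β × α => g z.2 * F (z.2, z.1)) (ν.prod μ) :=
      hg.1.comp_snd.mul hF.1.prod_swap
    exact h1.integral_prod_right'
  rw [memLp_two_iff_integrable_sq hm]
  have hi := (hF.integrable_sq.integral_prod_right).const_mul (∫ a, g a ^ 2 ∂μ)
  refine hi.mono' (hm.pow 2) ?_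
  filter_upwards [slice hF] with b hb
  rw [Real.norm_eq_abs, abs_of_nonneg (sq_nonneg _)]
  exact cs hg hb

theorem int_tn {g : α → ℝ} {B : β → ℝ} {F : α × β → ℝ} (hg : MemLp g 2 μ) (hB : MemLp B 2 ν)
    (hF : MemLp F 2 (μ.prod ν)) : Integrable (fun z => F z * tn g B z) (μ.prod ν) :=
  hF.integrable_mul (tn_memLp hg hB)

/-- pairing -/
theorem pair {g : α → ℝ} {B : β → ℝ} {F : α × β → ℝ} (hg : MemLp g 2 μ) (hB : MemLp B 2 ν)
    (hF : MemLp F 2 (μ.prod ν)) :
    ∫ z, F z * tn g B z ∂(μ.prod ν) = ∫ b, pL μ g F b * B b ∂ν := by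
  rw [integral_prod_symm _ (int_tn hg hB hF)]
  refine integral_congr_ae (Eventually.of_forall fun b => ?_)
  simp only [pL, tn]
  rw [← integral_mul_const]
  refine integral_congr_ae (Eventually.of_forall fun a => ?_)
  simp only
  ring

theorem tn_tn (g g' : α → ℝ) (B B' : β → ℝ) :
    ∫ z, tn g B z * tn g' B' z ∂(μ.prod ν) = (∫ a, g a * g' a ∂μ) * ∫ b, B b * B' b ∂ν := by
  rw [← integral_prod_mul (fun a => g a * g' a) (fun b => B b * B' b)]
  refine integral_congr_ae (Eventually.of_forall fun z => ?_)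
  simp only [tn]
  ring

theorem tn_sq (g : α → ℝ) (B : β → ℝ) :
    ∫ z, tn g B z ^ 2 ∂(μ.prod ν) = (∫ a, g a ^ 2 ∂μ) * ∫ b, B b ^ 2 ∂ν := by
  have := tn_tn (μ := μ) (ν := ν) g g B B
  simpa only [← pow_two] using this

/-- expansion of the square of a sum of three `L²` functions -/
theorem sq3 {α : Type*} [MeasurableSpace α] {μ : Measure α} {a b c : α → ℝ}
    (ha : MemLp a 2 μ) (hb : MemLp b 2 μ) (hc : MemLp c 2 μ) (s t : ℝ) :
    ∫ x, (a x + s * b x + t * c x) ^ 2 ∂μ = (∫ x, a x ^ 2 ∂μ) + s ^ 2 * (∫ x, b x ^ 2 ∂μ) +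
      t ^ 2 * (∫ x, c x ^ 2 ∂μ) + 2 * s * (∫ x, a x * b x ∂μ) + 2 * t * (∫ x, a x * c x ∂μ) +
      2 * (s * t) * ∫ x, b x * c x ∂μ := by
  have i1 := ha.integrable_sq
  have i2 : Integrable (fun x => s ^ 2 * b x ^ 2) μ := hb.integrable_sq.const_mul _
  have i3 : Integrable (fun x => t ^ 2 * c x ^ 2) μ := hc.integrable_sq.const_mul _
  have i4 : Integrable (fun x => (2 * s) * (a x * b x)) μ := (ha.integrable_mul hb).const_mul _
  have i5 : Integrable (fun x => (2 * t) * (a x * c x)) μ := (ha.integrable_mul hc).const_mul _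
  have i6 : Integrable (fun x => (2 * (s * t)) * (b x * c x)) μ :=
    (hb.integrable_mul hc).const_mul _
  have e : ∫ x, (a x + s * b x + t * c x) ^ 2 ∂μ = ∫ x, (a x ^ 2 + s ^ 2 * b x ^ 2 +
      t ^ 2 * c x ^ 2 + (2 * s) * (a x * b x) + (2 * t) * (a x * c x) +
      (2 * (s * t)) * (b x * c x)) ∂μ :=
    integral_congr_ae (Eventually.of_forall fun x => by ring)
  have j2 : Integrable (fun x => a x ^ 2 + s ^ 2 * b x ^ 2) μ := i1.add i2
  have j3 : Integrable (fun x => a x ^ 2 + s ^ 2 * b x ^ 2 + t ^ 2 * c x ^ 2) μ := j2.add i3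
  have j4 : Integrable (fun x => a x ^ 2 + s ^ 2 * b x ^ 2 + t ^ 2 * c x ^ 2 +
      (2 * s) * (a x * b x)) μ := j3.add i4
  have j5 : Integrable (fun x => a x ^ 2 + s ^ 2 * b x ^ 2 + t ^ 2 * c x ^ 2 +
      (2 * s) * (a x * b x) + (2 * t) * (a x * c x)) μ := j4.add i5
  rw [e, integral_add j5 i6, integral_add j4 i5, integral_add j3 i4,
    integral_add j2 i3, integral_add i1 i2]
  simp only [integral_const_mul]

/-- projection -/
theorem proj {g : α → ℝ} {F : α × β → ℝ} (hg : MemLp g 2 μ) (hF : MemLp F 2 (μ.prod ν))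
    (n : ∫ a, g a ^ 2 ∂μ = 1) :
    ∫ b, pL μ g F b ^ 2 ∂ν ≤ ∫ z, F z ^ 2 ∂(μ.prod ν) := by
  have hA := pL_memLp hg hF
  have h1 := cs hF (tn_memLp hg hA)
  rw [pair hg hA hF, tn_sq, n, one_mul] at h1
  simp only [← pow_two] at h1
  have h2 : 0 ≤ ∫ b, pL μ g F b ^ 2 ∂ν := integral_nonneg fun b => sq_nonneg _
  have h3 : 0 ≤ ∫ z, F z ^ 2 ∂(μ.prod ν) := integral_nonneg fun z => sq_nonneg _
  nlinarith

/-- the antisymmetric projection, abstract form -/
theorem anti_proj {g : α → ℝ} {F : α × β → ℝ} (hg : MemLp g 2 μ) (hF : MemLp F 2 (μ.prod ν))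
    (n : ∫ a, g a ^ 2 ∂μ = 1) {s : α × β → α × β} (hs : MeasurePreserving s (μ.prod ν) (μ.prod ν))
    (hse : MeasurableEmbedding s) (hs2 : ∀ z, s (s z) = z) (ha : ∀ᵐ z ∂(μ.prod ν), F (s z) = - F z)
    (h0 : ∫ z, tn g (pL μ g F) z * tn g (pL μ g F) (s z) ∂(μ.prod ν) = 0) :
    ∫ z, (F z + (-1) * tn g (pL μ g F) z + 1 * tn g (pL μ g F) (s z)) ^ 2 ∂(μ.prod ν) =
      (∫ z, F z ^ 2 ∂(μ.prod ν)) - 2 * ∫ b, pL μ g F b ^ 2 ∂ν := by
  have hA := pL_memLp hg hF
  have hv := tn_memLp hg hA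
  have hw : MemLp (fun z => tn g (pL μ g F) (s z)) 2 (μ.prod ν) := hv.comp_measurePreserving hs
  rw [sq3 hF hv hw, h0]
  have e1 : ∫ z, tn g (pL μ g F) z ^ 2 ∂(μ.prod ν) = ∫ b, pL μ g F b ^ 2 ∂ν := by
    rw [tn_sq, n, one_mul]
  have e2 : ∫ z, tn g (pL μ g F) (s z) ^ 2 ∂(μ.prod ν) = ∫ b, pL μ g F b ^ 2 ∂ν := by
    rw [← e1]
    exact hs.integral_comp hse (fun z => tn g (pL μ g F) z ^ 2)
  have e3 : ∫ z, F z * tn g (pL μ g F) z ∂(μ.prod ν) = ∫ b, pL μ g F b ^ 2 ∂ν := by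
    rw [pair hg hA hF]
    simp only [← pow_two]
  have e4 : ∫ z, F z * tn g (pL μ g F) (s z) ∂(μ.prod ν) = - ∫ b, pL μ g F b ^ 2 ∂ν := by
    rw [← e3, ← hs.integral_comp hse, ← integral_neg]
    refine integral_congr_ae ?_
    filter_upwards [ha] with z hz
    rw [hs2, hz]
    ring
  rw [e1, e2, e3, e4]
  ring

end Crest.Agent.R335.ThA
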