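import Crest.Agent.R335.BSys


/-!
Row 335 (S0521), THREE-BODY BLOCK (helper192): interface, statements with `sorry` in namespace
`...R335.TI`; each `TI.xxx` will be proved as `Crest.Agent.R335.xxx`.
-/

set_option autoImplicit false
set_option linter.unusedSectionVars false
set_option linter.unusedVariables false

open MeasureTheory Filter Set Crest.MathPhysics.ThreeBody
open scoped ENNReal Topology ContDiff

noncomputable section
namespace Crest.Agent.R335.TI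
open Crest.Agent.R335

/-- the product state `ψ₀ = (u ∧ g) ⊗ g` at `λ = 0` (module ThProd) -/
theorem psi0_state {D : ℝ} {g u : Pos3 → ℝ} {dg du : Pos3 → Pos3} {eg eu e3 : ℝ}
    (ob : OneBody D g u dg du eg eu e3) :
    ∃ d0 : Config3 → Config3, H1 (psi0 g u) d0 ∧ (∫ x, psi0 g u x ^ 2 = 1) ∧
      (∀ x, psi0 g u (permConfig (Equiv.swap 0 1) x) = - psi0 g u x) ∧
      (∀ x, psi0 g u (r9 x) = - psi0 g u x) ∧
      (∀ k dk, H1 k dk → q3 D 0 (psi0 g u) d0 k dk = (2 * eg + eu) * ∫ x, psi0 g u x * k x) :=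
  sorry

/-- fibrewise one-body inequality in the first group of coordinates (module ThGap) -/
theorem slice_gap {ι κ' : Type*} [Fintype ι] [DecidableEq ι] [Fintype κ'] [DecidableEq κ']
    {D : ℝ} {g u : Pos3 → ℝ} {dg du : Pos3 → Pos3} {eg eu e3 : ℝ}
    (ob : OneBody D g u dg du eg eu e3) (p : ι ≃ Fin 3 ⊕ κ')
    {m : EuclideanSpace ℝ ι → ℝ} {dm : EuclideanSpace ℝ ι → EuclideanSpace ℝ ι} (h : H1 m dm) :
    eg * (∫ y : EuclideanSpace ℝ κ', (∫ x, g x * m (jn p x y)) ^ 2) +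
      eu * (∫ y : EuclideanSpace ℝ κ', (∫ x, u x * m (jn p x y)) ^ 2) +
      e3 * ((∫ X, m X ^ 2) - (∫ y : EuclideanSpace ℝ κ', (∫ x, g x * m (jn p x y)) ^ 2) -
        ∫ y : EuclideanSpace ℝ κ', (∫ x, u x * m (jn p x y)) ^ 2) ≤
      (1 / 2) * (∫ X, ‖pr1 p (dm X)‖ ^ 2) + ∫ X, V2 D (pr1 p X) * m X ^ 2 := sorry

/-- `H_0 ≥ E₀ + ω (1 - |ψ₀⟩⟨ψ₀|)` on the antisymmetric sector (module ThGap).
Proof: `slice_gap` in each electron + the number inequality
`Σ_i A_g^i ≤ n + ⟨ψ₀,k⟩² + Σ_i A_3^i`, using `e3 - eu ≥ eu - eg`. -/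
theorem H0_low {D : ℝ} {g u : Pos3 → ℝ} {dg du : Pos3 → Pos3} {eg eu e3 : ℝ}
    (ob : OneBody D g u dg du eg eu e3) (hom : eu - eg ≤ e3 - eu)
    {k : Config3 → ℝ} {dk : Config3 → Config3} (h : H1 k dk)
    (ha : ∀ᵐ x, k (permConfig (Equiv.swap 0 1) x) = - k x) :
    (2 * eg + eu) * (∫ x, k x ^ 2) +
      (eu - eg) * ((∫ x, k x ^ 2) - (∫ x, psi0 g u x * k x) ^ 2) ≤ q3 D 0 k dk k dk := sorry

end Crest.Agent.R335.TI
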