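import Crest.Agent.R335.ThForm
import Crest.Agent.R335.HSlice

/-!
Row 335 (S0521), THREE-BODY BLOCK: fibrewise one-body gap (helper91).
-/

set_option autoImplicit false
set_option linter.unusedSectionVars false
set_option linter.unusedVariables false

open MeasureTheory Filter Set Crest.MathPhysics.ThreeBody
open scoped ENNReal Topology ContDiff

noncomputable section
namespace Crest.Agent.R335

namespace ThG

section gen
variable {ι κ' : Type*} [Fintype ι] [DecidableEq ι] [Fintype κ'] [DecidableEq κ']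

theorem pr1L_single (p : ι ≃ Fin 3 ⊕ κ') (c : Fin 3) :
    pr1L p (EuclideanSpace.single (p.symm (Sum.inl c)) (1 : ℝ)) =
      EuclideanSpace.single c (1 : ℝ) := by
  rw [pr1L_apply]
  ext d
  rw [pr1_apply]
  by_cases hd : d = c
  · subst hd; simp
  · have h1 : p.symm (Sum.inl d) ≠ p.symm (Sum.inl c) := fun h =>
      hd (Sum.inl_injective (p.symm.injective h))
    simp [hd]

/-- one group pairing with a function of the first group -/
theorem memLp_pairL (p : ι ≃ Fin 3 ⊕ κ') {m : EuclideanSpace ℝ ι → ℝ} (hm : MemLp m 2 volume)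
    {g : Pos3 → ℝ} (hg : MemLp g 2 volume) :
    MemLp (fun y : EuclideanSpace ℝ κ' => ∫ x, g x * m (jn p x y)) 2 volume := by
  have := HS.pair_memLp (p.trans (Equiv.sumComm (Fin 3) κ')) hm hg
  simpa only [jn_comm, smul_eq_mul] using this

theorem int_sliceL (p : ι ≃ Fin 3 ⊕ κ') {f : EuclideanSpace ℝ ι → ℝ} (hf : Integrable f) :
    Integrable (fun y : EuclideanSpace ℝ κ' => ∫ x, f (jn p x y)) := by
  have := HS.integrable_slice (p.trans (Equiv.sumComm (Fin 3) κ')) hf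
  simpa only [jn_comm] using this

theorem int_V2 (D : ℝ) (p : ι ≃ Fin 3 ⊕ κ')
    {m : EuclideanSpace ℝ ι → ℝ} {dm : EuclideanSpace ℝ ι → EuclideanSpace ℝ ι} (h : H1 m dm) :
    Integrable (fun X => V2 D (pr1 p X) * m X ^ 2) := by
  have h1 := (coulomb_le h (pr1L p) (fun c => EuclideanSpace.single (p.symm (Sum.inl c)) (1 : ℝ))
    (pr1L_single p) (nuc D) one_pos).1
  have h2 := (coulomb_le h (pr1L p) (fun c => EuclideanSpace.single (p.symm (Sum.inl c)) (1 : ℝ))
    (pr1L_single p) (nuc (-D)) one_pos).1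
  refine (h1.neg.sub h2).congr (Eventually.of_forall fun X => ?_)
  simp only [Pi.sub_apply, Pi.neg_apply, pr1L_apply]
  unfold V2
  ring

end gen
end ThG

open ThG in
/-- fibrewise one-body inequality in the first group of coordinates -/
theorem slice_gap {ι κ' : Type*} [Fintype ι] [DecidableEq ι] [Fintype κ'] [DecidableEq κ']
    {D : ℝ} {g u : Pos3 → ℝ} {dg du : Pos3 → Pos3} {eg eu e3 : ℝ}
    (ob : OneBody D g u dg du eg eu e3) (p : ι ≃ Fin 3 ⊕ κ')
    {m : EuclideanSpace ℝ ι → ℝ} {dm : EuclideanSpace ℝ ι → EuclideanSpace ℝ ι} (h : H1 m dm) :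
    eg * (∫ y : EuclideanSpace ℝ κ', (∫ x, g x * m (jn p x y)) ^ 2) +
      eu * (∫ y : EuclideanSpace ℝ κ', (∫ x, u x * m (jn p x y)) ^ 2) +
      e3 * ((∫ X, m X ^ 2) - (∫ y : EuclideanSpace ℝ κ', (∫ x, g x * m (jn p x y)) ^ 2) -
        ∫ y : EuclideanSpace ℝ κ', (∫ x, u x * m (jn p x y)) ^ 2) ≤
      (1 / 2) * (∫ X, ‖pr1 p (dm X)‖ ^ 2) + ∫ X, V2 D (pr1 p X) * m X ^ 2 := by
  have iM : Integrable (fun X => m X ^ 2) := h.memf.integrable_sq
  have iK : Integrable (fun X => ‖pr1 p (dm X)‖ ^ 2) :=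
    HS.integrable_norm_sq (memLp_pr1 p h.memg)
  have iV := int_V2 D p h
  have jG := (memLp_pairL p h.memf ob.hg.memf).integrable_sq
  have jU := (memLp_pairL p h.memf ob.hu.memf).integrable_sq
  have jM := int_sliceL p iM
  have jK := int_sliceL p iK
  have jV := int_sliceL p iV
  rw [integral_jn' p iM, integral_jn' p iK, integral_jn' p iV]
  simp only [pr1_jn] at jV ⊢
  have key : ∀ᵐ y : EuclideanSpace ℝ κ', eg * (∫ x, g x * m (jn p x y)) ^ 2 +
      eu * (∫ x, u x * m (jn p x y)) ^ 2 +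
      e3 * ((∫ x, m (jn p x y) ^ 2) - (∫ x, g x * m (jn p x y)) ^ 2 -
        (∫ x, u x * m (jn p x y)) ^ 2) ≤
      (1 / 2) * (∫ x, ‖pr1 p (dm (jn p x y))‖ ^ 2) + ∫ x, V2 D x * m (jn p x y) ^ 2 := by
    filter_upwards [H1.slice_left p h] with y hy
    exact ob.gap _ _ hy
  have hL : Integrable (fun y : EuclideanSpace ℝ κ' => eg * (∫ x, g x * m (jn p x y)) ^ 2 +
      eu * (∫ x, u x * m (jn p x y)) ^ 2 +
      e3 * ((∫ x, m (jn p x y) ^ 2) - (∫ x, g x * m (jn p x y)) ^ 2 -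
        (∫ x, u x * m (jn p x y)) ^ 2)) :=
    ((jG.const_mul eg).add (jU.const_mul eu)).add (((jM.sub jG).sub jU).const_mul e3)
  have hR : Integrable (fun y : EuclideanSpace ℝ κ' =>
      (1 / 2) * (∫ x, ‖pr1 p (dm (jn p x y))‖ ^ 2) + ∫ x, V2 D x * m (jn p x y) ^ 2) :=
    (jK.const_mul (1 / 2)).add jV
  have hint := integral_mono_ae hL hR key
  have eL : ∫ y : EuclideanSpace ℝ κ', (eg * (∫ x, g x * m (jn p x y)) ^ 2 +
      eu * (∫ x, u x * m (jn p x y)) ^ 2 +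
      e3 * ((∫ x, m (jn p x y) ^ 2) - (∫ x, g x * m (jn p x y)) ^ 2 -
        (∫ x, u x * m (jn p x y)) ^ 2)) =
      eg * (∫ y : EuclideanSpace ℝ κ', (∫ x, g x * m (jn p x y)) ^ 2) +
      eu * (∫ y : EuclideanSpace ℝ κ', (∫ x, u x * m (jn p x y)) ^ 2) +
      e3 * ((∫ y : EuclideanSpace ℝ κ', ∫ x, m (jn p x y) ^ 2) -
        (∫ y : EuclideanSpace ℝ κ', (∫ x, g x * m (jn p x y)) ^ 2) -
        ∫ y : EuclideanSpace ℝ κ', (∫ x, u x * m (jn p x y)) ^ 2) := by
    have a1 : Integrable (fun y : EuclideanSpace ℝ κ' => eg * (∫ x, g x * m (jn p x y)) ^ 2) :=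
      jG.const_mul eg
    have a2 : Integrable (fun y : EuclideanSpace ℝ κ' => eu * (∫ x, u x * m (jn p x y)) ^ 2) :=
      jU.const_mul eu
    have a4 : Integrable (fun y : EuclideanSpace ℝ κ' => (∫ x, m (jn p x y) ^ 2) -
        (∫ x, g x * m (jn p x y)) ^ 2) := jM.sub jG
    have a3 : Integrable (fun y : EuclideanSpace ℝ κ' => e3 * ((∫ x, m (jn p x y) ^ 2) -
        (∫ x, g x * m (jn p x y)) ^ 2 - (∫ x, u x * m (jn p x y)) ^ 2)) :=
      (a4.sub jU).const_mul e3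
    rw [Th.integral_add3 a1 a2 a3, integral_const_mul, integral_const_mul, integral_const_mul,
      integral_sub a4 jU, integral_sub jM jG]
  have eR : ∫ y : EuclideanSpace ℝ κ', ((1 / 2) * (∫ x, ‖pr1 p (dm (jn p x y))‖ ^ 2) +
      ∫ x, V2 D x * m (jn p x y) ^ 2) =
      (1 / 2) * (∫ y : EuclideanSpace ℝ κ', ∫ x, ‖pr1 p (dm (jn p x y))‖ ^ 2) +
      ∫ y : EuclideanSpace ℝ κ', ∫ x, V2 D x * m (jn p x y) ^ 2 := by
    have a1 : Integrable (fun y : EuclideanSpace ℝ κ' =>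
        (1 / 2) * (∫ x, ‖pr1 p (dm (jn p x y))‖ ^ 2)) := jK.const_mul _
    rw [integral_add a1 jV, integral_const_mul]
  rw [eL, eR] at hint
  exact hint

end Crest.Agent.R335
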