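import Crest.Agent.R335.VSCpl
import Crest.Agent.R335.BIface
import Crest.Agent.R335.BIface2
import Crest.Agent.R335.BChan
import Crest.Agent.R335.VecFW
import Crest.Agent.R335.BFar
import Crest.Agent.R335.BDecay

/-!
Row 335 (S0521), interacting side, module VecS1 part 5 (helper892): the family
`(√2 Y_{S,π}, Y_{T,π}, Y_{B,π})` of a `Sys`, fibre facts.
-/

set_option autoImplicit false
set_option linter.unusedSectionVars false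
set_option linter.unusedVariables false

open MeasureTheory Filter Set Crest.MathPhysics.ThreeBody
open scoped ENNReal Topology ContDiff

noncomputable section
namespace Crest.Agent.R335
namespace VS
open Mult

/-- exchange signs -/
def sg : Fin 3 → ℝ := ![1, -1, -1]
/-- coefficients -/
def cc : Fin 3 → ℝ := ![√2, 1, 1]

variable {cg C0 D : ℝ} {B : OBD cg C0 D} {K lam : ℝ}

/-- the three channel functions -/
def YY (S : Sys B K lam) : Fin 3 → Config3 → ℝ := ![S.YS, S.YT, S.YB]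

theorem q_s1 (S : Sys B K lam) (X : Pos3) : HN.q p9 (fF 1 cc (YY S)) X = S.s1sq X := by
  unfold HN.q Sys.s1sq fF
  rw [Fin.sum_univ_three]
  simp only [cc, YY, Matrix.cons_val_zero, Matrix.cons_val_one, Matrix.cons_val, mul_pow, one_mul,
    Real.sq_sqrt (show (0 : ℝ) ≤ 2 by norm_num)]
  rw [integral_const_mul]

theorem q_s2 (S : Sys B K lam) (X : Pos3) : HN.q p9 (fF (-1) cc (YY S)) X = S.s2sq X := by
  unfold HN.q Sys.s2sq fF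
  rw [Fin.sum_univ_three]
  simp only [cc, YY, Matrix.cons_val_zero, Matrix.cons_val_one, Matrix.cons_val, mul_pow, one_mul,
    Real.sq_sqrt (show (0 : ℝ) ≤ 2 by norm_num)]
  rw [integral_const_mul]

theorem s1_eq (S : Sys B K lam) : S.s1 = fun X => √(HN.q p9 (fF 1 cc (YY S)) X) := by
  funext X
  rw [q_s1]; rfl

theorem s2_eq (S : Sys B K lam) : S.s2 = fun X => √(HN.q p9 (fF (-1) cc (YY S)) X) := by
  funext X
  rw [q_s2]; rfl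

/-- gradients of the three channel functions -/
theorem chans (S : Sys B K lam) : ∃ dY : Fin 3 → Config3 → Config3,
    ∀ s, Chan D lam S.E (sg s) (YY S s) (dY s) := by
  obtain ⟨d0, h0⟩ := chan_S S.tb
  obtain ⟨d1, h1⟩ := chan_T S.tb
  obtain ⟨d2, h2⟩ := chan_B S.tb
  refine ⟨![d0, d1, d2], fun s => ?_⟩
  fin_cases s
  · exact h0
  · exact h1
  · exact h2

/-- projections on definite parity see only the parity part -/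
theorem cF_part {Y : Config3 → ℝ} (hY : MemLp Y 2 volume) {Φ : Y2 → ℝ} (hΦ : MemLp Φ 2 volume)
    {π : ℝ} (hπ : π ^ 2 = 1) (hp : ∀ ξ, Φ (rxi ξ) = π * Φ ξ) :
    ∀ᵐ X : Pos3, cF Φ Y X = ∫ ξ, Φ ξ * Yp π Y (jn p9 X ξ) := by
  filter_upwards [MemLp.slice_right p9 hY] with X hX
  have hr : MemLp (fun ξ => Y (jn p9 X (rxi ξ))) 2 volume := hX.comp_measurePreserving mp_rxi
  have e1 : ∀ ξ, Φ ξ * Yp π Y (jn p9 X ξ) = (1 / 2) * (Φ ξ * Y (jn p9 X ξ)) +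
      (π / 2) * (Φ ξ * Y (jn p9 X (rxi ξ))) := fun ξ => by rw [Yp_jn]; ring
  have i1 : Integrable (fun ξ => Φ ξ * Y (jn p9 X ξ)) := hΦ.integrable_mul hX
  have i2 : Integrable (fun ξ => Φ ξ * Y (jn p9 X (rxi ξ))) := hΦ.integrable_mul hr
  have e2 : ∫ ξ, Φ ξ * Y (jn p9 X (rxi ξ)) = π * ∫ ξ, Φ ξ * Y (jn p9 X ξ) := by
    rw [← int_rxi (fun ξ => Φ ξ * Y (jn p9 X ξ)), ← integral_const_mul]
    congr 1; funext ξ
    rw [hp, ← mul_assoc, ← mul_assoc, ← sq, hπ, one_mul]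
  simp only [e1]
  rw [integral_add (i1.const_mul _) (i2.const_mul _), integral_const_mul, integral_const_mul, e2]
  unfold cF
  linear_combination (-(1 / 2) * ∫ ξ, Φ ξ * Y (jn p9 X ξ)) * hπ

theorem Yp_sxi {E σ π : ℝ} {Y : Config3 → ℝ} {dY : Config3 → Config3} (h : Chan D lam E σ Y dY)
    (X : Pos3) (ξ : Y2) : Yp π Y (jn p9 X (sxi ξ)) = σ * Yp π Y (jn p9 X ξ) := by
  rw [Yp_jn, Yp_jn, ← sxi_rxi, jn_sxi, jn_sxi, h.ex, h.ex]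
  ring

/-- Pythagoras on the fibre -/
theorem pyth {Y : Config3 → ℝ} {dY : Config3 → Config3} (hY : H1 Y dY) {Φ : Y2 → ℝ}
    (hΦ : MemLp Φ 2 volume) (hn : ∫ ξ, Φ ξ ^ 2 = 1) {π : ℝ} (hπ : π ^ 2 = 1)
    (hp : ∀ ξ, Φ (rxi ξ) = π * Φ ξ) :
    ∀ᵐ X : Pos3, MemLp (fun ξ => cR π Φ Y (jn p9 X ξ)) 2 volume ∧
      (∫ ξ, Φ ξ * cR π Φ Y (jn p9 X ξ) = 0) ∧
      ∫ ξ, Yp π Y (jn p9 X ξ) ^ 2 = cF Φ Y X ^ 2 + ∫ ξ, cR π Φ Y (jn p9 X ξ) ^ 2 := by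
  filter_upwards [cF_part hY.memf hΦ hπ hp, MemLp.slice_right p9 (H1_Yp hY π).memf] with X h1 h2
  have hR : MemLp (fun ξ => cR π Φ Y (jn p9 X ξ)) 2 volume := by
    refine (h2.sub (hΦ.const_mul (cF Φ Y X))).ae_eq (ae_of_all _ fun ξ => ?_)
    simp only [Pi.sub_apply]; rw [cR_jn]
  have i1 : Integrable (fun ξ => Φ ξ * Yp π Y (jn p9 X ξ)) := hΦ.integrable_mul h2
  have i2 : Integrable (fun ξ => Φ ξ * cR π Φ Y (jn p9 X ξ)) := hΦ.integrable_mul hR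
  have h0 : ∫ ξ, Φ ξ * cR π Φ Y (jn p9 X ξ) = 0 := by
    have e : ∀ ξ, Φ ξ * cR π Φ Y (jn p9 X ξ) = Φ ξ * Yp π Y (jn p9 X ξ) -
        cF Φ Y X * Φ ξ ^ 2 := fun ξ => by rw [cR_jn]; ring
    simp only [e]
    rw [integral_sub i1 (hΦ.integrable_sq.const_mul _), integral_const_mul, hn, ← h1]
    ring
  refine ⟨hR, h0, ?_⟩
  have e : ∀ ξ, Yp π Y (jn p9 X ξ) ^ 2 = (cF Φ Y X ^ 2 * Φ ξ ^ 2 +
      2 * cF Φ Y X * (Φ ξ * cR π Φ Y (jn p9 X ξ))) + cR π Φ Y (jn p9 X ξ) ^ 2 := fun ξ => by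
    have := cR_jn π Φ Y X ξ
    have e2 : Yp π Y (jn p9 X ξ) = cR π Φ Y (jn p9 X ξ) + cF Φ Y X * Φ ξ := by rw [this]; ring
    rw [e2]; ring
  have i3 : Integrable (fun ξ => cF Φ Y X ^ 2 * Φ ξ ^ 2 +
      2 * cF Φ Y X * (Φ ξ * cR π Φ Y (jn p9 X ξ))) :=
    (hΦ.integrable_sq.const_mul _).add (i2.const_mul _)
  simp only [e]
  rw [integral_add i3 hR.integrable_sq, integral_add (hΦ.integrable_sq.const_mul _)
    (i2.const_mul _), integral_const_mul, integral_const_mul, hn, h0]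
  ring

/-- square of the remainder of the ion-even family -/
def G2 (S : Sys B K lam) (X : Pos3) : ℝ :=
  2 * (∫ ξ, cR 1 S.Φ0 S.YS (jn p9 X ξ) ^ 2) + (∫ ξ, Yp 1 S.YT (jn p9 X ξ) ^ 2) +
    ∫ ξ, Yp 1 S.YB (jn p9 X ξ) ^ 2

theorem G2_nonneg (S : Sys B K lam) (X : Pos3) : 0 ≤ G2 S X := by
  unfold G2
  have h1 : 0 ≤ ∫ ξ, cR 1 S.Φ0 S.YS (jn p9 X ξ) ^ 2 := integral_nonneg fun _ => sq_nonneg _
  have h2 : 0 ≤ ∫ ξ, Yp 1 S.YT (jn p9 X ξ) ^ 2 := integral_nonneg fun _ => sq_nonneg _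
  have h3 : 0 ≤ ∫ ξ, Yp 1 S.YB (jn p9 X ξ) ^ 2 := integral_nonneg fun _ => sq_nonneg _
  linarith

theorem S_h1 (S : Sys B K lam) : ∃ d, H1 S.YS d := by
  obtain ⟨d0, h0⟩ := chan_S S.tb
  exact ⟨d0, h0.h1⟩

theorem pyth0 (S : Sys B K lam) :
    ∀ᵐ X : Pos3, MemLp (fun ξ => cR 1 S.Φ0 S.YS (jn p9 X ξ)) 2 volume ∧
      (∫ ξ, S.Φ0 ξ * cR 1 S.Φ0 S.YS (jn p9 X ξ) = 0) ∧
      (∫ ξ, Yp 1 S.YS (jn p9 X ξ) ^ 2 = S.F X ^ 2 + ∫ ξ, cR 1 S.Φ0 S.YS (jn p9 X ξ) ^ 2) ∧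
      S.s1sq X = 2 * S.F X ^ 2 + G2 S X := by
  obtain ⟨d, hd⟩ := S_h1 S
  filter_upwards [pyth hd S.ch0.h1.memf S.n0 (by norm_num) S.ch0.par] with X h
  refine ⟨h.1, h.2.1, h.2.2, ?_⟩
  unfold Sys.s1sq G2
  rw [h.2.2]
  simp only [Sys.F]
  ring

/-- energies of the fibres: `∑ k2(f_s) ≥ e0 s₁² + om |Γ'|²` -/
theorem ener (S : Sys B K lam) (hp : Prm S) {dY : Fin 3 → Config3 → Config3}
    (hc : ∀ s, Chan D lam S.E (sg s) (YY S s) (dY s)) :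
    ∀ᵐ X : Pos3, S.e0 * S.s1sq X + B.om * G2 S X ≤
      ∑ s, k2 D lam (fun ξ => fF 1 cc (YY S) s (jn p9 X ξ))
        (fun ξ => pr2 p9 (gF 1 cc dY s (jn p9 X ξ)))
        (fun ξ => fF 1 cc (YY S) s (jn p9 X ξ))
        (fun ξ => pr2 p9 (gF 1 cc dY s (jn p9 X ξ))) := by
  obtain ⟨d, hd⟩ := S_h1 S
  filter_upwards [fam_slice hc 1 cc, pyth0 S,
    cF_part hd.memf S.ch0.h1.memf (π := 1) (by norm_num) S.ch0.par] with X h1 h2 h3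
  have hex : ∀ s, ∀ᵐ ξ, fF 1 cc (YY S) s (jn p9 X (sxi ξ)) =
      sg s * fF 1 cc (YY S) s (jn p9 X ξ) := fun s => ae_of_all _ fun ξ => by
    simp only [fF]
    rw [Yp_sxi (hc s)]; ring
  have hpar : ∀ s, ∀ᵐ ξ, fF 1 cc (YY S) s (jn p9 X (rxi ξ)) =
      1 * fF 1 cc (YY S) s (jn p9 X ξ) := fun s => ae_of_all _ fun ξ => by
    simp only [fF]
    rw [Yp_rxi (by norm_num)]; ring
  have s0 := S.ch0.spec _ _ (h1 0) (hex 0) (hpar 0)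
  have s1 := S.chZ.spec _ _ (h1 1) (hex 1) (hpar 1)
  have s2 := S.chZ.spec _ _ (h1 2) (hex 2) (hpar 2)
  have e0 : ∫ ξ, fF 1 cc (YY S) 0 (jn p9 X ξ) ^ 2 =
      2 * (S.F X ^ 2 + ∫ ξ, cR 1 S.Φ0 S.YS (jn p9 X ξ) ^ 2) := by
    rw [← h2.2.2.1, ← integral_const_mul]
    congr 1; funext ξ
    simp only [fF, cc, YY, Matrix.cons_val_zero, mul_pow,
      Real.sq_sqrt (show (0 : ℝ) ≤ 2 by norm_num)]
  have e1 : ∫ ξ, fF 1 cc (YY S) 1 (jn p9 X ξ) ^ 2 = ∫ ξ, Yp 1 S.YT (jn p9 X ξ) ^ 2 := by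
    congr 1; funext ξ
    simp only [fF, cc, YY, Matrix.cons_val_one, Matrix.cons_val_zero, one_mul]
  have e2 : ∫ ξ, fF 1 cc (YY S) 2 (jn p9 X ξ) ^ 2 = ∫ ξ, Yp 1 S.YB (jn p9 X ξ) ^ 2 := by
    congr 1; funext ξ
    simp only [fF, cc, YY, Matrix.cons_val, one_mul]
  have e3 : ∫ ξ, S.Φ0 ξ * fF 1 cc (YY S) 0 (jn p9 X ξ) = √2 * S.F X := by
    have : S.F X = ∫ ξ, S.Φ0 ξ * Yp 1 S.YS (jn p9 X ξ) := h3
    rw [this, ← integral_const_mul]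
    congr 1; funext ξ
    simp only [fF, cc, YY, Matrix.cons_val_zero]
    ring
  rw [e0, e3, mul_pow, Real.sq_sqrt (show (0 : ℝ) ≤ 2 by norm_num)] at s0
  rw [e1] at s1
  rw [e2] at s2
  simp only [zero_mul, integral_zero, ne_eq, OfNat.ofNat_ne_zero, not_false_eq_true, zero_pow,
    sub_zero] at s1 s2
  rw [Fin.sum_univ_three, h2.2.2.2]
  unfold G2
  set g := ∫ ξ, cR 1 S.Φ0 S.YS (jn p9 X ξ) ^ 2
  set a := ∫ ξ, Yp 1 S.YT (jn p9 X ξ) ^ 2 with ha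
  set b := ∫ ξ, Yp 1 S.YB (jn p9 X ξ) ^ 2 with hb
  have ha0 : 0 ≤ a := integral_nonneg fun _ => sq_nonneg _
  have hb0 : 0 ≤ b := integral_nonneg fun _ => sq_nonneg _
  have hg := hp.gapT
  have h5 : (S.e0 + B.om) * a ≤ (S.eT + cg / 4) * a := mul_le_mul_of_nonneg_right hg ha0
  have h6 : (S.e0 + B.om) * b ≤ (S.eT + cg / 4) * b := mul_le_mul_of_nonneg_right hg hb0
  nlinarith [s0, s1, s2, h5, h6]

/-- `w₀₀` -/
def w0 (S : Sys B K lam) (X : Pos3) : ℝ := ∫ ξ, WX X ξ * S.Φ0 ξ ^ 2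

theorem w0_nonneg (S : Sys B K lam) (X : Pos3) : 0 ≤ w0 S X :=
  integral_nonneg fun ξ => mul_nonneg (WX_nonneg X ξ) (sq_nonneg _)

theorem w0_int (S : Sys B K lam) (X : Pos3) : Integrable (fun ξ => WX X ξ * S.Φ0 ξ ^ 2) := by
  refine ((memLp_WX S.ch0.h1 X).integrable_mul S.ch0.h1.memf).congr (ae_of_all _ fun ξ => ?_)
  simp only [Pi.mul_apply]; ring

theorem w0_eq (S : Sys B K lam) (X : Pos3) : ∫ ξ, Wp X ξ * S.Φ0 ξ ^ 2 = w0 S X := by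
  have i1 : Integrable (fun ξ => Wm X ξ * S.Φ0 ξ ^ 2) := by
    refine ((memLp_Wm S.ch0.h1 X).integrable_mul S.ch0.h1.memf).congr (ae_of_all _ fun ξ => ?_)
    simp only [Pi.mul_apply]; ring
  have h0 : ∫ ξ, Wm X ξ * S.Φ0 ξ ^ 2 = 0 := by
    refine int_odd fun ξ => ?_
    rw [Wm_rxi, S.ch0.par]; ring
  have e : ∀ ξ, Wp X ξ * S.Φ0 ξ ^ 2 = WX X ξ * S.Φ0 ξ ^ 2 - Wm X ξ * S.Φ0 ξ ^ 2 := fun ξ => by
    rw [← Wp_add_Wm]; ring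
  simp only [e]
  rw [integral_sub (w0_int S X) i1, h0, sub_zero]
  rfl

theorem l2_Φ0 (S : Sys B K lam) : l2 volume S.Φ0 = 1 := by
  unfold l2; rw [S.n0, Real.sqrt_one]

theorem w0_le (S : Sys B K lam) {a K1 : ℝ} (hK1 : 0 < K1) (hpb : PB C0 D a K1 S.Φ0) {X : Pos3}
    (hX : 1 ≤ ‖X‖) : w0 S X ≤ 2 + K1 := by
  have m1 : MemLp (fun ξ => (WX X ξ - 2 / ‖X‖) * S.Φ0 ξ) 2 volume := by
    refine ((memLp_WX S.ch0.h1 X).sub (S.ch0.h1.memf.const_mul (2 / ‖X‖))).ae_eq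
      (ae_of_all _ fun ξ => ?_)
    simp only [Pi.sub_apply]; ring
  have h1 := l2_cs m1 S.ch0.h1.memf
  rw [l2_Φ0, mul_one] at h1
  have h2 := h1.trans (hpb.mono X hX)
  have e : ∀ ξ, (WX X ξ - 2 / ‖X‖) * S.Φ0 ξ * S.Φ0 ξ = WX X ξ * S.Φ0 ξ ^ 2 -
      2 / ‖X‖ * S.Φ0 ξ ^ 2 := fun ξ => by ring
  simp only [e] at h2
  rw [integral_sub (w0_int S X) (S.ch0.h1.memf.integrable_sq.const_mul _), integral_const_mul,
    S.n0, mul_one] at h2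
  have h3 := (abs_le.1 h2).2
  have h4 : 2 / ‖X‖ ≤ 2 := div_le_self (by norm_num) hX
  have h5 : K1 / ‖X‖ ^ 2 ≤ K1 := div_le_self hK1.le (one_le_pow₀ hX)
  have : w0 S X = ∫ ξ, WX X ξ * S.Φ0 ξ ^ 2 := rfl
  linarith

/-- repulsion of the ion-even family -/
theorem inter (S : Sys B K lam) {a K1 : ℝ} (hK1 : 0 < K1) (hpb : PB C0 D a K1 S.Φ0) :
    ∀ᵐ X : Pos3, 1 ≤ ‖X‖ →
      w0 S X * S.s1sq X - 4 * |S.F X| * (K1 / ‖X‖ ^ 2) *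
          √(∫ ξ, cR 1 S.Φ0 S.YS (jn p9 X ξ) ^ 2) - w0 S X * G2 S X ≤
        ∑ s, ∫ ξ, Wp X ξ * fF 1 cc (YY S) s (jn p9 X ξ) ^ 2 := by
  obtain ⟨d, hd⟩ := S_h1 S
  filter_upwards [pyth0 S, H1.slice_right p9 (H1_Yp hd 1)] with X h2 h3
  intro hX
  obtain ⟨hR, hR0, hP, hs1⟩ := h2
  have hRH : H1 (fun ξ => cR 1 S.Φ0 S.YS (jn p9 X ξ))
      (fun ξ => pr2 p9 (gY 1 d (jn p9 X ξ)) - S.F X • S.dΦ0 ξ) := by
    refine H1.congr (H1.sub h3 (H1.const_mul S.ch0.h1 (S.F X))) (ae_of_all _ fun ξ => ?_)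
      (ae_of_all _ fun ξ => rfl)
    simp only
    rw [cR_jn]; rfl
  set Γ : Y2 → ℝ := fun ξ => cR 1 S.Φ0 S.YS (jn p9 X ξ) with hΓ
  have hYdec : ∀ ξ, Yp 1 S.YS (jn p9 X ξ) = S.F X * S.Φ0 ξ + Γ ξ := fun ξ => by
    simp only [hΓ]; rw [cR_jn]; simp only [Sys.F]; ring
  have i1 : Integrable (fun ξ => Wp X ξ * S.Φ0 ξ ^ 2) := by
    refine ((memLp_Wp S.ch0.h1 X).integrable_mul S.ch0.h1.memf).congr (ae_of_all _ fun ξ => ?_)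
    simp only [Pi.mul_apply]; ring
  have i2 : Integrable (fun ξ => Wp X ξ * S.Φ0 ξ * Γ ξ) :=
    (memLp_Wp S.ch0.h1 X).integrable_mul hR
  have i3 : Integrable (fun ξ => Wp X ξ * Γ ξ ^ 2) := by
    refine ((memLp_Wp hRH X).integrable_mul hR).congr (ae_of_all _ fun ξ => ?_)
    simp only [Pi.mul_apply]; ring
  have i4 : Integrable (fun ξ => S.Φ0 ξ * Γ ξ) := S.ch0.h1.memf.integrable_mul hR
  -- the first component
  have e0 : ∫ ξ, Wp X ξ * fF 1 cc (YY S) 0 (jn p9 X ξ) ^ 2 =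
      2 * (S.F X ^ 2 * w0 S X + 2 * S.F X * (∫ ξ, Wp X ξ * S.Φ0 ξ * Γ ξ) +
        ∫ ξ, Wp X ξ * Γ ξ ^ 2) := by
    have e : ∀ ξ, Wp X ξ * fF 1 cc (YY S) 0 (jn p9 X ξ) ^ 2 =
        2 * ((S.F X ^ 2 * (Wp X ξ * S.Φ0 ξ ^ 2) + 2 * S.F X * (Wp X ξ * S.Φ0 ξ * Γ ξ)) +
          Wp X ξ * Γ ξ ^ 2) := fun ξ => by
      simp only [fF, cc, YY, Matrix.cons_val_zero, mul_pow,
        Real.sq_sqrt (show (0 : ℝ) ≤ 2 by norm_num)]
      rw [hYdec]; ring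
    have i5 : Integrable (fun ξ => S.F X ^ 2 * (Wp X ξ * S.Φ0 ξ ^ 2) +
        2 * S.F X * (Wp X ξ * S.Φ0 ξ * Γ ξ)) := (i1.const_mul _).add (i2.const_mul _)
    simp only [e]
    rw [integral_const_mul, integral_add i5 i3, integral_add (i1.const_mul _) (i2.const_mul _),
      integral_const_mul, integral_const_mul, w0_eq]
  have e1 : ∀ s, 0 ≤ ∫ ξ, Wp X ξ * fF 1 cc (YY S) s (jn p9 X ξ) ^ 2 := fun s =>
    integral_nonneg fun ξ => mul_nonneg (Wp_nonneg X ξ) (sq_nonneg _)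
  have e2 : 0 ≤ ∫ ξ, Wp X ξ * Γ ξ ^ 2 :=
    integral_nonneg fun ξ => mul_nonneg (Wp_nonneg X ξ) (sq_nonneg _)
  -- the cross term
  have m1 : MemLp (fun ξ => (Wp X ξ - 2 / ‖X‖) * S.Φ0 ξ) 2 volume := by
    refine ((memLp_Wp S.ch0.h1 X).sub (S.ch0.h1.memf.const_mul (2 / ‖X‖))).ae_eq
      (ae_of_all _ fun ξ => ?_)
    simp only [Pi.sub_apply]; ring
  have h4 := l2_cs m1 hR
  have e3 : ∫ ξ, (Wp X ξ - 2 / ‖X‖) * S.Φ0 ξ * Γ ξ = ∫ ξ, Wp X ξ * S.Φ0 ξ * Γ ξ := by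
    have e : ∀ ξ, (Wp X ξ - 2 / ‖X‖) * S.Φ0 ξ * Γ ξ = Wp X ξ * S.Φ0 ξ * Γ ξ -
        2 / ‖X‖ * (S.Φ0 ξ * Γ ξ) := fun ξ => by ring
    simp only [e]
    rw [integral_sub i2 (i4.const_mul _), integral_const_mul, hR0]
    ring
  rw [e3] at h4
  have h5 : |∫ ξ, Wp X ξ * S.Φ0 ξ * Γ ξ| ≤ K1 / ‖X‖ ^ 2 * √(∫ ξ, Γ ξ ^ 2) :=
    h4.trans (mul_le_mul_of_nonneg_right (hpb.monoP X hX) (l2_nonneg _ _))
  have h6 : -(4 * |S.F X| * (K1 / ‖X‖ ^ 2 * √(∫ ξ, Γ ξ ^ 2))) ≤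
      4 * S.F X * ∫ ξ, Wp X ξ * S.Φ0 ξ * Γ ξ := by
    have h7 : |4 * S.F X * ∫ ξ, Wp X ξ * S.Φ0 ξ * Γ ξ| ≤
        4 * |S.F X| * (K1 / ‖X‖ ^ 2 * √(∫ ξ, Γ ξ ^ 2)) := by
      rw [abs_mul, abs_mul, abs_of_pos (by norm_num : (0:ℝ) < 4)]
      gcongr
    exact (abs_le.1 h7).1
  rw [Fin.sum_univ_three, e0, hs1]
  have e4 := e1 1
  have e5 := e1 2
  have : w0 S X * (2 * S.F X ^ 2 + G2 S X) - w0 S X * G2 S X = 2 * (S.F X ^ 2 * w0 S X) := by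
    ring
  linarith

/-! ### far coupling of the three channels -/

theorem isW (S : Sys B K lam) (s : Fin 3) : VecF.IsW B.a (YY S s) := by
  fin_cases s
  · exact S.isW_YS
  · exact S.isW_YT
  · exact S.isW_YB

theorem hw_all (S : Sys B K lam) (ha : 0 ≤ B.a) (s : Fin 3) :
    ∃ d, H1 (fun x => Real.exp (2 * B.a * (jb (elPos 1 x) + jb (elPos 2 x))) * YY S s x) d := by
  obtain ⟨d, hd⟩ := (isW S s).ew ha (b := 2 * B.a) (by linarith)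
  refine ⟨d, ?_⟩
  simp only [Sy.ew, VecF.w9_eq] at hd
  exact hd

theorem far_exists (hD : 1 ≤ D) (B : OBD cg C0 D) (K : ℝ) : ∃ Kf l' : ℝ, 0 < Kf ∧ 0 < l' ∧
    ∀ lam, 0 < lam → lam ≤ l' → ∀ S : Sys B K lam, ∀ s : Fin 3, ∀ᵐ X : Pos3, Kf ≤ ‖X‖ →
      √(∫ ξ in {ξ | ‖X‖ / 2 < wi ξ},
        (Real.exp (B.a * wi ξ) * WX X ξ * YY S s (jn p9 X ξ)) ^ 2) ≤
          Kf * Real.exp (-(S.κ + B.a / 4) * ‖X‖) ∧
      √(∫ ξ in {ξ | ‖X‖ / 2 < wi ξ},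
        (Real.exp (B.a * wi ξ) * WX (rz X) ξ * YY S s (jn p9 X ξ)) ^ 2) ≤
          Kf * Real.exp (-(S.κ + B.a / 4) * ‖X‖) := by
  obtain ⟨l0, hl0, hl01, hprm⟩ := prm_exists (by linarith) B K
  obtain ⟨K1, l1, hK1, hl1, hdS⟩ := Crest.Agent.R335.decay_S hD B K
  obtain ⟨K2, l2, hK2, hl2, hdT⟩ := Crest.Agent.R335.decay_T hD B K
  have hom : 0 < B.om := sub_pos.2 B.ob.eg_lt
  have ha : 0 < B.a := by unfold OBD.a; positivity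
  have ha1 : B.a ≤ 1 / 100 := by
    have h1 : B.om ≤ cg / 8 := B.omle
    have h2 := B.cg1
    unfold OBD.a; linarith
  obtain ⟨Kf1, hKf1, hf1⟩ := Crest.Agent.R335.far_coupling (K := K1) hD ha ha1
  obtain ⟨Kf2, hKf2, hf2⟩ := Crest.Agent.R335.far_coupling (K := K2) hD ha ha1
  refine ⟨Kf1 + Kf2, min l0 (min l1 l2), by positivity, by positivity, ?_⟩
  intro lam hlam0 hlam S s
  have hla0 : lam ≤ l0 := hlam.trans (min_le_left _ _)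
  have hla1 : lam ≤ l1 := hlam.trans ((min_le_right _ _).trans (min_le_left _ _))
  have hla2 : lam ≤ l2 := hlam.trans ((min_le_right _ _).trans (min_le_right _ _))
  have hp := hprm lam hlam0 hla0 S
  obtain ⟨dY, hc⟩ := chans S
  have cmp1 : ∀ X : Pos3, Kf1 * Real.exp (-(S.κ + 5 * B.a / 16) * ‖X‖) ≤
      (Kf1 + Kf2) * Real.exp (-(S.κ + B.a / 4) * ‖X‖) := by
    intro X
    have h1 : Real.exp (-(S.κ + 5 * B.a / 16) * ‖X‖) ≤ Real.exp (-(S.κ + B.a / 4) * ‖X‖) := by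
      apply Real.exp_le_exp.2
      have := norm_nonneg X
      nlinarith
    have h2 := (Real.exp_pos (-(S.κ + B.a / 4) * ‖X‖)).le
    nlinarith
  have cmp2 : ∀ X : Pos3, Kf2 * Real.exp (-(S.κT + 5 * B.a / 16) * ‖X‖) ≤
      (Kf1 + Kf2) * Real.exp (-(S.κ + B.a / 4) * ‖X‖) := by
    intro X
    have h1 : Real.exp (-(S.κT + 5 * B.a / 16) * ‖X‖) ≤ Real.exp (-(S.κ + B.a / 4) * ‖X‖) := by
      apply Real.exp_le_exp.2
      have h3 := norm_nonneg X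
      have h4 := hp.kkT
      nlinarith [mul_nonneg (sub_nonneg.2 h4) h3, mul_nonneg ha.le h3]
    have h2 := (Real.exp_pos (-(S.κ + B.a / 4) * ‖X‖)).le
    nlinarith
  have hκ := hp.klow
  have hκ' := hp.kup
  have hκT := hp.kTlow
  have hκT' := hp.kTup
  have hE := hp.E0
  have hE' := hp.E2
  fin_cases s
  · filter_upwards [hf1 lam S.E (sg 0) S.κ (YY S 0) (dY 0) hlam0.le (hla0.trans hl01) hE'
      (by linarith) (by linarith) (by linarith) (hc 0) (hw_all S ha.le 0)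
      (hdS lam hlam0 hla1 S)] with X h
    intro hX
    obtain ⟨h1, h2⟩ := h (by linarith)
    exact ⟨h1.trans (cmp1 X), h2.trans (cmp1 X)⟩
  · filter_upwards [hf2 lam S.E (sg 1) S.κT (YY S 1) (dY 1) hlam0.le (hla0.trans hl01) hE'
      (by linarith) (by linarith) (by linarith) (hc 1) (hw_all S ha.le 1)
      (hdT lam hlam0 hla2 S S.YT (Or.inl rfl))] with X h
    intro hX
    obtain ⟨h1, h2⟩ := h (by linarith)
    exact ⟨h1.trans (cmp2 X), h2.trans (cmp2 X)⟩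
  · filter_upwards [hf2 lam S.E (sg 2) S.κT (YY S 2) (dY 2) hlam0.le (hla0.trans hl01) hE'
      (by linarith) (by linarith) (by linarith) (hc 2) (hw_all S ha.le 2)
      (hdT lam hlam0 hla2 S S.YB (Or.inr rfl))] with X h
    intro hX
    obtain ⟨h1, h2⟩ := h (by linarith)
    exact ⟨h1.trans (cmp2 X), h2.trans (cmp2 X)⟩

/-! ### the coupling of the family -/

theorem s2sq_nonneg (S : Sys B K lam) (X : Pos3) : 0 ≤ S.s2sq X := by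
  rw [← q_s2]; exact HN.q_nonneg _ _ _

theorem s1sq_nonneg (S : Sys B K lam) (X : Pos3) : 0 ≤ S.s1sq X := by
  rw [← q_s1]; exact HN.q_nonneg _ _ _

theorem amp_bounds (S : Sys B K lam) {dY : Fin 3 → Config3 → Config3}
    (hc : ∀ s, Chan D lam S.E (sg s) (YY S s) (dY s)) :
    ∀ᵐ X : Pos3, √2 * |S.c X| ≤ S.s2 X ∧ |S.t S.YT X| ≤ S.s2 X ∧ |S.t S.YB X| ≤ S.s2 X := by
  have hp1 : ∀ ξ, S.Φ1 (rxi ξ) = -1 * S.Φ1 ξ := S.ch1.par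
  have hpT : ∀ ξ, S.ΦT (rxi ξ) = -1 * S.ΦT ξ := S.chT.par
  filter_upwards [pyth (hc 0).h1 S.ch1.h1.memf S.n1 (π := -1) (by norm_num) hp1,
    pyth (hc 1).h1 S.chT.h1.memf S.nT (π := -1) (by norm_num) hpT,
    pyth (hc 2).h1 S.chT.h1.memf S.nT (π := -1) (by norm_num) hpT] with X h0 h1 h2
  have e0 : ∫ ξ, Yp (-1) S.YS (jn p9 X ξ) ^ 2 = S.c X ^ 2 +
      ∫ ξ, cR (-1) S.Φ1 S.YS (jn p9 X ξ) ^ 2 := h0.2.2
  have e1 : ∫ ξ, Yp (-1) S.YT (jn p9 X ξ) ^ 2 = S.t S.YT X ^ 2 +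
      ∫ ξ, cR (-1) S.ΦT S.YT (jn p9 X ξ) ^ 2 := h1.2.2
  have e2 : ∫ ξ, Yp (-1) S.YB (jn p9 X ξ) ^ 2 = S.t S.YB X ^ 2 +
      ∫ ξ, cR (-1) S.ΦT S.YB (jn p9 X ξ) ^ 2 := h2.2.2
  have n0 : 0 ≤ ∫ ξ, cR (-1) S.Φ1 S.YS (jn p9 X ξ) ^ 2 := integral_nonneg fun _ => sq_nonneg _
  have n1 : 0 ≤ ∫ ξ, cR (-1) S.ΦT S.YT (jn p9 X ξ) ^ 2 := integral_nonneg fun _ => sq_nonneg _
  have n2 : 0 ≤ ∫ ξ, cR (-1) S.ΦT S.YB (jn p9 X ξ) ^ 2 := integral_nonneg fun _ => sq_nonneg _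
  have hs : S.s2sq X = 2 * (∫ ξ, Yp (-1) S.YS (jn p9 X ξ) ^ 2) +
    (∫ ξ, Yp (-1) S.YT (jn p9 X ξ) ^ 2) + ∫ ξ, Yp (-1) S.YB (jn p9 X ξ) ^ 2 := rfl
  have c0 := sq_nonneg (S.c X)
  have t1 := sq_nonneg (S.t S.YT X)
  have t2 := sq_nonneg (S.t S.YB X)
  refine ⟨?_, ?_, ?_⟩
  · refine Real.le_sqrt_of_sq_le ?_
    rw [mul_pow, Real.sq_sqrt (show (0 : ℝ) ≤ 2 by norm_num), sq_abs]
    linarith
  · refine Real.le_sqrt_of_sq_le ?_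
    rw [sq_abs]
    linarith
  · refine Real.le_sqrt_of_sq_le ?_
    rw [sq_abs]
    linarith

set_option maxHeartbeats 1000000 in
theorem cpl_sum (S : Sys B K lam) (hp : Prm S) (hC : 1 ≤ C0) (hD : 1 ≤ D) {K1 Kf : ℝ}
    (hK1 : 0 < K1) (hKf : 0 < Kf)
    (hP1 : PB C0 D B.a K1 S.Φ1) (hPT : PB C0 D B.a K1 S.ΦT)
    (hfar : ∀ s : Fin 3, ∀ᵐ X : Pos3, Kf ≤ ‖X‖ →
      √(∫ ξ in {ξ | ‖X‖ / 2 < wi ξ},
        (Real.exp (B.a * wi ξ) * WX X ξ * YY S s (jn p9 X ξ)) ^ 2) ≤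
          Kf * Real.exp (-(S.κ + B.a / 4) * ‖X‖) ∧
      √(∫ ξ in {ξ | ‖X‖ / 2 < wi ξ},
        (Real.exp (B.a * wi ξ) * WX (rz X) ξ * YY S s (jn p9 X ξ)) ^ 2) ≤
          Kf * Real.exp (-(S.κ + B.a / 4) * ‖X‖))
    {dY : Fin 3 → Config3 → Config3} (hc : ∀ s, Chan D lam S.E (sg s) (YY S s) (dY s)) :
    ∀ᵐ X : Pos3, 1 ≤ ‖X‖ → Kf ≤ ‖X‖ →
      ∑ s, l2 volume (fun ξ => Wm X ξ * fF (-1) cc (YY S) s (jn p9 X ξ)) ≤
        (48 * C0 * D + 6 * K1) * ((|X 2| / ‖X‖ ^ 3 + Real.exp (-(B.a / 2) * ‖X‖)) * S.s2 X) +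
          16 * B.a⁻¹ * (|X 2| / ‖X‖ ^ 3 * S.Nall X) +
          4 * Kf * Real.exp (-(S.κ + B.a / 4) * ‖X‖) := by
  have ha := hp.a0
  filter_upwards [amp_bounds S hc,
    cpl_chan ha (hc 0) (hw_all S ha.le 0) (hfar 0) (π := -1) (by norm_num) S.ch1.h1 hP1.me
      hP1.odd hP1.oddF,
    cpl_chan ha (hc 1) (hw_all S ha.le 1) (hfar 1) (π := -1) (by norm_num) S.chT.h1 hPT.me
      hPT.odd hPT.oddF,
    cpl_chan ha (hc 2) (hw_all S ha.le 2) (hfar 2) (π := -1) (by norm_num) S.chT.h1 hPT.me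
      hPT.odd hPT.oddF] with X ham h0 h1 h2
  intro hX1 hX2
  have g0 := h0 hX1 hX2
  have g1 := h1 hX1 hX2
  have g2 := h2 hX1 hX2
  obtain ⟨a0, a1, a2⟩ := ham
  have e0 : l2 volume (fun ξ => Wm X ξ * fF (-1) cc (YY S) 0 (jn p9 X ξ)) =
      √2 * l2 volume (fun ξ => Wm X ξ * Yp (-1) (YY S 0) (jn p9 X ξ)) := by
    have : ∀ ξ, Wm X ξ * fF (-1) cc (YY S) 0 (jn p9 X ξ) =
        √2 * (Wm X ξ * Yp (-1) (YY S 0) (jn p9 X ξ)) := fun ξ => by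
      simp only [fF, cc, Matrix.cons_val_zero]; ring
    simp only [this]
    rw [l2_const_mul, abs_of_nonneg (Real.sqrt_nonneg _)]
  have e1 : l2 volume (fun ξ => Wm X ξ * fF (-1) cc (YY S) 1 (jn p9 X ξ)) =
      l2 volume (fun ξ => Wm X ξ * Yp (-1) (YY S 1) (jn p9 X ξ)) := by
    congr 1; funext ξ
    simp only [fF, cc, Matrix.cons_val_one, Matrix.cons_val_zero]; ring
  have e2 : l2 volume (fun ξ => Wm X ξ * fF (-1) cc (YY S) 2 (jn p9 X ξ)) =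
      l2 volume (fun ξ => Wm X ξ * Yp (-1) (YY S 2) (jn p9 X ξ)) := by
    congr 1; funext ξ
    simp only [fF, cc, Matrix.cons_val]; ring
  rw [Fin.sum_univ_three, e0, e1, e2]
  have y0 : YY S 0 = S.YS := rfl
  have y1 : YY S 1 = S.YT := rfl
  have y2 : YY S 2 = S.YB := rfl
  rw [y0] at g0 ⊢
  rw [y1] at g1 ⊢
  rw [y2] at g2 ⊢
  have hr : 0 < ‖X‖ := by linarith
  have hsN : S.Nall X = S.N X + S.NT S.YT X + S.NT S.YB X := rfl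
  have hN : S.N X = wN B.a (cR (-1) S.Φ1 S.YS) X := rfl
  have hNT : S.NT S.YT X = wN B.a (cR (-1) S.ΦT S.YT) X := rfl
  have hNB : S.NT S.YB X = wN B.a (cR (-1) S.ΦT S.YB) X := rfl
  have hcc : S.c X = cF S.Φ1 S.YS X := rfl
  have ht1 : S.t S.YT X = cF S.ΦT S.YT X := rfl
  have ht2 : S.t S.YB X = cF S.ΦT S.YB X := rfl
  rw [← hcc, ← hN] at g0
  rw [← ht1, ← hNT] at g1
  rw [← ht2, ← hNB] at g2
  have hN0 : 0 ≤ S.N X := Real.sqrt_nonneg _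
  have hN1 : 0 ≤ S.NT S.YT X := Real.sqrt_nonneg _
  have hN2 : 0 ≤ S.NT S.YB X := Real.sqrt_nonneg _
  set z := |X 2| / ‖X‖ ^ 3 with hz
  have hz0 : 0 ≤ z := by positivity
  set e := Real.exp (-(B.a / 2) * ‖X‖) with he
  have he0 : 0 < e := Real.exp_pos _
  set b := Kf * Real.exp (-(S.κ + B.a / 4) * ‖X‖) with hb
  have hb0 : 0 < b := mul_pos hKf (Real.exp_pos _)
  have z1 : 16 * C0 * D * |X 2| / ‖X‖ ^ 3 = 16 * C0 * D * z := by rw [hz]; ring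
  have z2 : 8 * B.a⁻¹ * |X 2| / ‖X‖ ^ 3 = 8 * B.a⁻¹ * z := by rw [hz]; ring
  rw [z1, z2] at g0 g1 g2
  have hai : 0 < B.a⁻¹ := inv_pos.2 ha
  have hβ0 : 0 ≤ 16 * C0 * D * z + K1 * e + K1 * e := by positivity
  have hs2 : √2 ≤ 2 := by
    rw [Real.sqrt_le_left (by norm_num)]; norm_num
  have hs0 : 0 ≤ √2 := Real.sqrt_nonneg _
  have k0 : √2 * l2 volume (fun ξ => Wm X ξ * Yp (-1) S.YS (jn p9 X ξ)) ≤
      S.s2 X * (16 * C0 * D * z + K1 * e + K1 * e) + 16 * B.a⁻¹ * z * S.N X + 2 * b := by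
    have h3 := mul_le_mul_of_nonneg_left g0 hs0
    have h4 : √2 * (|S.c X| * (16 * C0 * D * z + K1 * e + K1 * e)) ≤
        S.s2 X * (16 * C0 * D * z + K1 * e + K1 * e) := by
      rw [← mul_assoc]
      exact mul_le_mul_of_nonneg_right a0 hβ0
    have h5 : √2 * (8 * B.a⁻¹ * z * S.N X) ≤ 2 * (8 * B.a⁻¹ * z * S.N X) :=
      mul_le_mul_of_nonneg_right hs2 (by positivity)
    have h6 : √2 * b ≤ 2 * b := mul_le_mul_of_nonneg_right hs2 hb0.le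
    have h7 : √2 * (|S.c X| * (16 * C0 * D * z + K1 * e + K1 * e) + 8 * B.a⁻¹ * z * S.N X + b) =
      √2 * (|S.c X| * (16 * C0 * D * z + K1 * e + K1 * e)) + √2 * (8 * B.a⁻¹ * z * S.N X) +
      √2 * b := by ring
    linarith
  have k1 : l2 volume (fun ξ => Wm X ξ * Yp (-1) S.YT (jn p9 X ξ)) ≤
      S.s2 X * (16 * C0 * D * z + K1 * e + K1 * e) + 8 * B.a⁻¹ * z * S.NT S.YT X + b := by
    have h4 : |S.t S.YT X| * (16 * C0 * D * z + K1 * e + K1 * e) ≤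
        S.s2 X * (16 * C0 * D * z + K1 * e + K1 * e) := mul_le_mul_of_nonneg_right a1 hβ0
    have h5 : 16 * C0 * D * z + K1 * e + K1 * e = 16 * C0 * D * z + K1 * e + (K1 * e) := rfl
    linarith
  have k2 : l2 volume (fun ξ => Wm X ξ * Yp (-1) S.YB (jn p9 X ξ)) ≤
      S.s2 X * (16 * C0 * D * z + K1 * e + K1 * e) + 8 * B.a⁻¹ * z * S.NT S.YB X + b := by
    have h4 : |S.t S.YB X| * (16 * C0 * D * z + K1 * e + K1 * e) ≤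
        S.s2 X * (16 * C0 * D * z + K1 * e + K1 * e) := mul_le_mul_of_nonneg_right a2 hβ0
    linarith
  have hs20 : 0 ≤ S.s2 X := Real.sqrt_nonneg _
  have f1 : 0 ≤ z * S.s2 X := mul_nonneg hz0 hs20
  have f2 : 0 ≤ e * S.s2 X := mul_nonneg he0.le hs20
  have f3 : 0 ≤ K1 * (z * S.s2 X) := mul_nonneg hK1.le f1
  have f4 : 0 ≤ C0 * D * (e * S.s2 X) := by positivity
  have f5 : 0 ≤ B.a⁻¹ * z * S.NT S.YT X := by positivity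
  have f6 : 0 ≤ B.a⁻¹ * z * S.NT S.YB X := by positivity
  rw [hsN]
  have hbb : 4 * Kf * Real.exp (-(S.κ + B.a / 4) * ‖X‖) = 4 * b := by rw [hb]; ring
  rw [hbb]
  nlinarith [k0, k1, k2, f3, f4, f5, f6]

end VS
end Crest.Agent.R335
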