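import Crest.Agent.R335.VecFF
import Crest.Agent.R335.VecFS

/-!
Row 335 (S0521), interacting side, task B:VecF (helper732): `vec_F` is in `VecFF`, `vec_s2` in
`VecFS`.
-/
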